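import Crest.Agent.R267.CLine_996

/-!
# Row 267, T3a and T3aN: abstract lobed function, derivative along an arbitrary line

`AG N`: planar functions `P j`, gauges `pg K`, `NN K1`, cut-offs `chi d`, real coupling `B`.
Both `T3aDefs_957.LD.G` and `T3aNDefs_88.SD.G` are instances (by `rfl`).
-/

set_option autoImplicit false

noncomputable section

namespace Crest.Agent.R267.AbsG_996

open Set Filter Topology Finset
open Crest.Agent.R267.T3aDefs_957 (chi pg NN gq)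
open Crest.Agent.R267.T3aDefs_957.LD (vt vs)
open Crest.Agent.R267.Calc_957 (std st_nonneg st_le_one)
open Crest.Agent.R267.TLine_996 (SA SB SA_nonneg SB_nonneg SAB_pos NN_eq NN_pos NN_sq chid
  hasDerivAt_chi chid_of_le chid_of_ge chid_nonneg chid_le chi_of_le chi_of_ge chi_pos
  sq_pos_of_ne pg_sq pg_nonneg pg_zero gq_ge gq_le le_gq gq_of_le)
open Crest.Agent.R267.Calc2_957 (ps pt gA gB)
open Crest.Agent.R267.K1_996 (re_sq_le im_sq_le exists_im)
open Crest.Agent.R267.CLine_996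

/-- abstract lobed function. -/
structure AG (N : ℕ) where
  K1 : ℝ
  ga : ℝ
  T : ℝ
  P : Fin N → ℂ → ℂ
  B : (Fin N → ℂ) → ℝ

namespace AG

variable {N : ℕ} (A : AG N)

def K : ℝ := A.K1 * N

/-- relative size. -/
def xr (z : Fin N → ℂ) (j : Fin N) : ℝ := pg A.K (z j) / NN A.K1 z

/-- cut-off. -/
def ch (d : ℝ) (z : Fin N → ℂ) (j : Fin N) : ℝ := chi d (A.xr z j)

/-- cut-off positive part. -/
def R (d : ℝ) (z : Fin N → ℂ) (j : Fin N) : ℝ := A.ch d z j * max 0 (z j).re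

/-- the function. -/
def G (d : ℝ) (z : Fin N → ℂ) : ℂ := ∑ j, (A.ch d z j : ℂ) * A.P j (z j) - ((A.B z : ℝ) : ℂ)

/-- planar facts. -/
structure Ok : Prop where
  T1 : 1 ≤ A.T
  K1T : A.T * N ≤ A.K1
  ga0 : 0 < A.ga
  ga1 : A.ga < 1
  diff : ∀ j w, w ≠ 0 → DifferentiableAt ℝ (A.P j) w
  far : ∀ j w, A.T * w.re < |w.im| →
    A.P j w = -((2 - A.ga : ℝ) : ℂ) * w.re - Complex.I * w.im
  hom : ∀ j w (r : ℝ), 0 < r → A.P j ((r : ℂ) * w) = (r : ℂ) * A.P j w
  re_le : ∀ j w, 0 < w.re → (A.P j w).re ≤ A.ga * w.re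
  im_le : ∀ j w, |(A.P j w).im| ≤ A.T * (|w.re| + |w.im|)
  crit : ∀ j w, w ≠ 0 → (fderiv ℝ (A.P j) w Complex.I).im = 0 →
    0 < w.re ∧ (A.P j w).re ≤ -(1 - A.ga) * w.re
  B0 : ∀ z, 0 ≤ A.B z

/-! ### derivatives -/

/-- derivative of the relative size. -/
def xrD (z y : Fin N → ℂ) (i : Fin N) : ℝ :=
  (pgD A.K (z i) (y i) - A.xr z i * NND A.K1 z y) / NN A.K1 z

lemma hasDerivAt_xr {z : Fin N → ℂ} (hz : z ≠ 0) (y : Fin N → ℂ) {i : Fin N} (hi : z i ≠ 0) :
    HasDerivAt (fun h => A.xr (lc z y h) i) (A.xrD z y i) 0 := by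
  unfold AG.xr
  have h1 := (hasDerivAt_pg A.K y hi).div (hasDerivAt_NN A.K1 hz y) (by
    rw [lc_zero]; exact (NN_pos _ hz).ne')
  refine h1.congr_deriv ?_
  rw [lc_zero, xrD, AG.xr]
  have := (NN_pos A.K1 hz).ne'
  field_simp

lemma ch_nonneg (d : ℝ) (z : Fin N → ℂ) (j : Fin N) : 0 ≤ A.ch d z j := st_nonneg _

lemma ch_le_one (d : ℝ) (z : Fin N → ℂ) (j : Fin N) : A.ch d z j ≤ 1 := st_le_one _

lemma xr_zero {z : Fin N → ℂ} {j : Fin N} (h : z j = 0) : A.xr z j = 0 := by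
  simp [AG.xr, h]

lemma xr_nonneg (z : Fin N → ℂ) (j : Fin N) : 0 ≤ A.xr z j :=
  div_nonneg (pg_nonneg _ _) (Real.sqrt_nonneg _)

lemma lt_of_ch_pos {d : ℝ} (hd : 0 < d) {z : Fin N → ℂ} {j : Fin N} (h : 0 < A.ch d z j) :
    d < A.xr z j := by
  by_contra h1
  rw [AG.ch, chi_of_le hd (not_lt.1 h1)] at h
  exact lt_irrefl _ h

/-- at a vanishing variable the cut-off vanishes nearby. -/
lemma ch_zero_near {d : ℝ} (hd : 0 < d) {z : Fin N → ℂ} (hz : z ≠ 0) (y : Fin N → ℂ) {i : Fin N}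
    (hi : z i = 0) : ∀ᶠ h in 𝓝 (0 : ℝ), A.ch d (lc z y h) i = 0 := by
  have h1 : ∀ h, pg A.K (lc z y h i) ≤ √((h * (y i).re) ^ 2 + (h * (y i).im) ^ 2) := by
    intro h
    unfold pg
    rw [lc_re, lc_im, hi]
    simp only [Complex.zero_re, Complex.zero_im, zero_add]
    exact Real.sqrt_le_sqrt (TLine_996.gq_le (sq_nonneg _) (sq_nonneg _))
  have h2 : Tendsto (fun h : ℝ => √((h * (y i).re) ^ 2 + (h * (y i).im) ^ 2)) (𝓝 0) (𝓝 0) := by
    have : Continuous fun h : ℝ => √((h * (y i).re) ^ 2 + (h * (y i).im) ^ 2) := by fun_prop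
    simpa using this.tendsto 0
  have h3 := squeeze_zero (fun h => TLine_996.pg_nonneg A.K (lc z y h i)) h1 h2
  have h4 := (hasDerivAt_NN A.K1 hz y).continuousAt.tendsto
  rw [lc_zero] at h4
  have h5 := h3.div h4 (NN_pos _ hz).ne'
  rw [zero_div] at h5
  filter_upwards [h5 (Iio_mem_nhds hd)] with h hh
  exact chi_of_le hd (le_of_lt hh)

/-- derivative of the cut-off. -/
lemma hasDerivAt_ch {d : ℝ} (hd : 0 < d) {z : Fin N → ℂ} (hz : z ≠ 0) (y : Fin N → ℂ)
    (i : Fin N) :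
    HasDerivAt (fun h => A.ch d (lc z y h) i) (chid d (A.xr z i) * A.xrD z y i) 0 := by
  rcases eq_or_ne (z i) 0 with hi | hi
  · rw [xr_zero A hi, chid_of_le hd hd.le, zero_mul]
    exact (hasDerivAt_const (0 : ℝ) (0 : ℝ)).congr_of_eventuallyEq (ch_zero_near A hd hz y hi)
  · have h1 : HasDerivAt (chi d) (chid d (A.xr z i)) (A.xr (lc z y 0) i) := by
      rw [lc_zero]; exact hasDerivAt_chi d _
    exact h1.comp (0 : ℝ) (hasDerivAt_xr A hz y hi)

/-- derivative of one summand of `G`. -/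
def tmD (d : ℝ) (z y : Fin N → ℂ) (i : Fin N) : ℂ :=
  ((chid d (A.xr z i) * A.xrD z y i : ℝ) : ℂ) * A.P i (z i) +
    (A.ch d z i : ℂ) * fderiv ℝ (A.P i) (z i) (y i)

lemma tmD_zero {d : ℝ} (hd : 0 < d) {z : Fin N → ℂ} (y : Fin N → ℂ) {i : Fin N} (hi : z i = 0) :
    A.tmD d z y i = 0 := by
  unfold tmD
  rw [xr_zero A hi, chid_of_le hd hd.le, AG.ch, xr_zero A hi, chi_of_le hd hd.le]
  simp

variable {A}

lemma hasDerivAt_tm (hA : A.Ok) {d : ℝ} (hd : 0 < d) {z : Fin N → ℂ} (hz : z ≠ 0)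
    (y : Fin N → ℂ) (i : Fin N) :
    HasDerivAt (fun h => (A.ch d (lc z y h) i : ℂ) * A.P i (lc z y h i)) (A.tmD d z y i) 0 := by
  rcases eq_or_ne (z i) 0 with hi | hi
  · rw [tmD_zero A hd y hi]
    refine (hasDerivAt_const (0 : ℝ) (0 : ℂ)).congr_of_eventuallyEq ?_
    filter_upwards [ch_zero_near A hd hz y hi] with h hh
    rw [hh]
    simp
  · have h0 := comp_lc_apply (hA.diff i (z i) hi).hasFDerivAt y
    have h1 := (hasDerivAt_ch A hd hz y i).ofReal_comp.mul h0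
    refine h1.congr_deriv ?_
    rw [lc_zero]
    unfold tmD
    ring

/-- **derivative of `G` along `y`**, if the derivative of the coupling is known. -/
lemma fderiv_G (hA : A.Ok) {d : ℝ} (hd : 0 < d) {z : Fin N → ℂ} (hz : z ≠ 0)
    (hG : DifferentiableAt ℝ (A.G d) z) (y : Fin N → ℂ) {b : ℝ}
    (hb : HasDerivAt (fun h => A.B (lc z y h)) b 0) :
    fderiv ℝ (A.G d) z y = ∑ i, A.tmD d z y i - (b : ℂ) := by
  have h1 := comp_lc hG.hasFDerivAt y
  have h2 : HasDerivAt (fun h => ∑ i, (A.ch d (lc z y h) i : ℂ) * A.P i (lc z y h i))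
      (∑ i, A.tmD d z y i) 0 := HasDerivAt.fun_sum fun i _ => hasDerivAt_tm hA hd hz y i
  exact h1.unique (h2.sub hb.ofReal_comp)

/-- **derivative of `Im G` along `y`.** -/
lemma fderiv_im (hA : A.Ok) {d : ℝ} (hd : 0 < d) {z : Fin N → ℂ} (hz : z ≠ 0)
    (hG : DifferentiableAt ℝ (A.G d) z) (y : Fin N → ℂ) :
    (fderiv ℝ (A.G d) z y).im = ∑ i, (A.tmD d z y i).im := by
  have h1 : HasDerivAt (fun h => (A.G d (lc z y h)).im) (fderiv ℝ (A.G d) z y).im 0 :=
    Complex.imCLM.hasFDerivAt.comp_hasDerivAt (0 : ℝ) (comp_lc hG.hasFDerivAt y)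
  have h2 : HasDerivAt (fun h => (A.G d (lc z y h)).im) (∑ i, (A.tmD d z y i).im) 0 := by
    have h3 : (fun h => (A.G d (lc z y h)).im) =
        fun h => ∑ i, ((A.ch d (lc z y h) i : ℂ) * A.P i (lc z y h i)).im := by
      funext h
      unfold AG.G
      rw [Complex.sub_im, Complex.im_sum, Complex.ofReal_im, sub_zero]
    rw [h3]
    exact HasDerivAt.fun_sum fun i _ =>
      Complex.imCLM.hasFDerivAt.comp_hasDerivAt (0 : ℝ) (hasDerivAt_tm hA hd hz y i)
  exact h1.unique h2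

lemma G_re (d : ℝ) (z : Fin N → ℂ) :
    (A.G d z).re = ∑ j, A.ch d z j * (A.P j (z j)).re - A.B z := by
  unfold AG.G
  rw [Complex.sub_re, Complex.re_sum, Complex.ofReal_re]
  congr 1
  exact sum_congr rfl fun j _ => Complex.re_ofReal_mul _ _

lemma G_im (d : ℝ) (z : Fin N → ℂ) :
    (A.G d z).im = ∑ j, A.ch d z j * (A.P j (z j)).im := by
  unfold AG.G
  rw [Complex.sub_im, Complex.im_sum, Complex.ofReal_im, sub_zero]
  exact sum_congr rfl fun j _ => Complex.im_ofReal_mul _ _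

/-! ### planar pieces -/

/-- steep or `re ≤ 0`: the planar function is linear nearby. -/
lemma fderiv_far (hA : A.Ok) (j : Fin N) {w : ℂ} (h : A.T * w.re < |w.im|) (y : ℂ) :
    fderiv ℝ (A.P j) w y = -((2 - A.ga : ℝ) : ℂ) * y.re - Complex.I * y.im := by
  have h1 : A.P j =ᶠ[𝓝 w] fun w : ℂ => -((2 - A.ga : ℝ) : ℂ) * (w.re : ℂ) +
      (-Complex.I) * (w.im : ℂ) := by
    have hc : Continuous fun w : ℂ => |w.im| - A.T * w.re := by fun_prop
    have h2 := hc.continuousAt.eventually (lt_mem_nhds (sub_pos.2 h))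
    filter_upwards [h2] with w hw
    rw [hA.far j w (by linarith)]
    ring
  rw [h1.fderiv_eq, (Calc2_957.hasFDerivAt_lin _ _ w).fderiv]
  simp
  ring

/-- Euler relation. -/
lemma fderiv_hom (hA : A.Ok) (j : Fin N) {w : ℂ} (hw : 0 < w.re) :
    fderiv ℝ (A.P j) w (-(w / (w.re : ℂ))) = -(A.P j w / (w.re : ℂ)) := by
  have hw0 : w ≠ 0 := fun h => by rw [h] at hw; simp at hw
  have hF := (hA.diff j w hw0).hasFDerivAt
  have h1 : HasDerivAt (fun h : ℝ => ((1 - h / w.re : ℝ) : ℂ) * w) (-(w / (w.re : ℂ))) 0 := by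
    have h2 : HasDerivAt (fun h : ℝ => 1 - h / w.re) (-(1 / w.re)) 0 := by
      simpa using ((hasDerivAt_id (0 : ℝ)).div_const w.re).const_sub 1
    refine (h2.ofReal_comp.mul_const w).congr_deriv ?_
    push_cast
    ring
  have h3 : HasFDerivAt (A.P j) (fderiv ℝ (A.P j) w) (((1 - (0 : ℝ) / w.re : ℝ) : ℂ) * w) := by
    simpa using hF
  have h4 := h3.comp_hasDerivAt (0 : ℝ) h1
  have h5 : HasDerivAt (fun h : ℝ => A.P j (((1 - h / w.re : ℝ) : ℂ) * w))
      (-(A.P j w / (w.re : ℂ))) 0 := by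
    have h6 : (fun h : ℝ => A.P j (((1 - h / w.re : ℝ) : ℂ) * w)) =ᶠ[𝓝 0]
        fun h : ℝ => ((1 - h / w.re : ℝ) : ℂ) * A.P j w := by
      have h7 : ∀ᶠ h : ℝ in 𝓝 0, h < w.re := gt_mem_nhds hw
      filter_upwards [h7] with h hh
      rw [hA.hom]
      rw [sub_pos, div_lt_one hw]
      exact hh
    refine HasDerivAt.congr_of_eventuallyEq ?_ h6
    have h2 : HasDerivAt (fun h : ℝ => 1 - h / w.re) (-(1 / w.re)) 0 := by
      simpa using ((hasDerivAt_id (0 : ℝ)).div_const w.re).const_sub 1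
    refine (h2.ofReal_comp.mul_const (A.P j w)).congr_deriv ?_
    push_cast
    ring
  exact h4.unique h5

/-! ### sizes -/

lemma abs_re_le_pg (w : ℂ) : |w.re| ≤ pg A.K w := Calc2_957.abs_re_le_pg _ _

lemma K1_ge_one (hA : A.Ok) (hN : 0 < N) : 1 ≤ A.K1 := by
  have hN1 : (1 : ℝ) ≤ N := by exact_mod_cast hN
  have := hA.T1
  have := hA.K1T
  nlinarith

lemma K1_le_K (hA : A.Ok) (hN : 0 < N) : A.K1 ≤ A.K := by
  unfold AG.K
  have hN1 : (1 : ℝ) ≤ N := by exact_mod_cast hN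
  have := K1_ge_one hA hN
  nlinarith

lemma T_le_K1 (hA : A.Ok) (hN : 0 < N) : A.T ≤ A.K1 := by
  have hN1 : (1 : ℝ) ≤ N := by exact_mod_cast hN
  have := hA.T1
  have := hA.K1T
  nlinarith

lemma K_ge_one (hA : A.Ok) (hN : 0 < N) : 1 ≤ A.K := (K1_ge_one hA hN).trans (K1_le_K hA hN)

/-- `|t| ≤ 15 (K + 1) pg K`. -/
lemma abs_le_pg {K : ℝ} (hK : 0 ≤ K) (w : ℂ) :
    |w.re| ≤ 15 * (K + 1) * pg K w ∧ |w.im| ≤ 15 * (K + 1) * pg K w := by
  have h6 := gq_ge (K := K) (sq_nonneg w.re) (sq_nonneg w.im)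
  rw [div_le_iff₀ (by positivity), ← pg_sq] at h6
  have h5 : w.re ^ 2 + w.im ^ 2 ≤ (15 * (K + 1) * pg K w) ^ 2 := by
    refine h6.trans ?_
    calc pg K w ^ 2 * (200 * (K ^ 2 + 1)) ≤ pg K w ^ 2 * (225 * (K + 1) ^ 2) := by
          gcongr
          · norm_num
          · nlinarith
      _ = _ := by ring
  have hpos : 0 ≤ 15 * (K + 1) * pg K w := by
    have := pg_nonneg K w
    positivity
  exact ⟨abs_le_of_sq_le_sq (by nlinarith [sq_nonneg w.im]) hpos,
    abs_le_of_sq_le_sq (by nlinarith [sq_nonneg w.re]) hpos⟩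

lemma abs_le_NN {K : ℝ} (hK : 0 ≤ K) {z : Fin N → ℂ} (hz : z ≠ 0) (j : Fin N) :
    |(z j).re| ≤ NN K z ∧ |(z j).im| ≤ 15 * (K + 1) * NN K z := by
  have hNN := NN_pos K hz
  have h1 := NN_sq K hz
  have h6 := gq_ge (K := K) (SA_nonneg z) (SB_nonneg z)
  rw [div_le_iff₀ (by positivity), ← h1] at h6
  have h2 := re_sq_le z j
  have h3 := im_sq_le z j
  constructor
  · refine abs_le_of_sq_le_sq ?_ hNN.le
    rw [h1]
    exact h2.trans le_gq
  · refine abs_le_of_sq_le_sq ?_ (by positivity)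
    calc (z j).im ^ 2 ≤ SA z + SB z := by have := SA_nonneg z; linarith
      _ ≤ NN K z ^ 2 * (200 * (K ^ 2 + 1)) := h6
      _ ≤ NN K z ^ 2 * (225 * (K + 1) ^ 2) := by
          gcongr
          · norm_num
          · nlinarith
      _ = _ := by ring

/-- bound of the derivative of the total gauge. -/
lemma NND_abs {K : ℝ} (hK : 0 ≤ K) {z : Fin N → ℂ} (hz : z ≠ 0) (y : Fin N → ℂ) :
    |NND K z y| ≤ ∑ j, |(y j).re| + 15 * (K + 1) * ∑ j, |(y j).im| := by
  have hNN := NN_pos K hz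
  have gA0 := Calc2_957.gA_nonneg (K := K) (SA_nonneg z) (SB_nonneg z)
  have gA1 := Calc2_957.gA_le_one (K := K) (SA_nonneg z) (SB_nonneg z)
  have gB0 := Calc2_957.gB_nonneg (K := K) (SA_nonneg z) (SB_nonneg z)
  have gB1 := Calc2_957.gB_le (K := K) (SA_nonneg z) (SB_nonneg z)
  have e1 : |∑ j, (z j).re * (y j).re| ≤ NN K z * ∑ j, |(y j).re| := by
    refine (abs_sum_le_sum_abs _ _).trans ?_
    rw [mul_sum]
    refine sum_le_sum fun j _ => ?_
    rw [abs_mul]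
    exact mul_le_mul_of_nonneg_right (abs_le_NN hK hz j).1 (abs_nonneg _)
  have e2 : |∑ j, (z j).im * (y j).im| ≤ (15 * (K + 1) * NN K z) * ∑ j, |(y j).im| := by
    refine (abs_sum_le_sum_abs _ _).trans ?_
    rw [mul_sum]
    refine sum_le_sum fun j _ => ?_
    rw [abs_mul]
    exact mul_le_mul_of_nonneg_right (abs_le_NN hK hz j).2 (abs_nonneg _)
  have s1 : 0 ≤ ∑ j, |(y j).re| := sum_nonneg fun _ _ => abs_nonneg _
  have s2 : 0 ≤ ∑ j, |(y j).im| := sum_nonneg fun _ _ => abs_nonneg _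
  unfold NND
  rw [abs_div, abs_of_pos hNN, div_le_iff₀ hNN]
  refine (abs_add_le _ _).trans ?_
  rw [abs_mul, abs_mul, abs_of_nonneg gA0, abs_of_nonneg gB0]
  calc gA K (SA z) (SB z) * |∑ j, (z j).re * (y j).re| +
        gB K (SA z) (SB z) * |∑ j, (z j).im * (y j).im|
      ≤ 1 * (NN K z * ∑ j, |(y j).re|) + 1 * ((15 * (K + 1) * NN K z) * ∑ j, |(y j).im|) := by
        gcongr
    _ = _ := by ring

/-! ### region I -/

/-- the variable with the largest `|t|` is steep. -/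
lemma far_of_region1 (hA : A.Ok) {z : Fin N → ℂ} (h2 : A.K1 ^ 2 * SA z < SB z) {j : Fin N}
    (hj : SB z ≤ N * (z j).im ^ 2) : A.T * |(z j).re| < |(z j).im| := by
  have hN : 0 < N := Fin.pos j
  have hN1 : (1 : ℝ) ≤ N := by exact_mod_cast hN
  have hT := hA.T1
  refine abs_lt_of_sq_lt_sq' ?_ (abs_nonneg _) |>.2
  rw [mul_pow, sq_abs, sq_abs]
  have h3 : (N : ℝ) * (A.T ^ 2 * (z j).re ^ 2) ≤ A.K1 ^ 2 * SA z := by
    calc (N : ℝ) * (A.T ^ 2 * (z j).re ^ 2) ≤ N * (A.T ^ 2 * SA z) := by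
          have := re_sq_le z j
          gcongr
      _ = A.T ^ 2 * N * 1 * SA z := by ring
      _ ≤ A.T ^ 2 * N * N * SA z := by
          have := SA_nonneg z
          gcongr
      _ = (A.T * N) ^ 2 * SA z := by ring
      _ ≤ A.K1 ^ 2 * SA z := by
          have := SA_nonneg z
          have := hA.K1T
          gcongr
  have h4 : (N : ℝ) * (A.T ^ 2 * (z j).re ^ 2) < N * (z j).im ^ 2 := by linarith
  exact lt_of_mul_lt_mul_left h4 (by linarith)

/-- it is fully active. -/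
lemma xr_region1 (hA : A.Ok) {d : ℝ} (hd : 0 < d) (hd1 : 1600 * N * (A.K ^ 2 + 1) * d ^ 2 ≤ 1)
    {z : Fin N → ℂ} (hz : z ≠ 0) (h2 : A.K1 ^ 2 * SA z < SB z) {j : Fin N}
    (hj : SB z ≤ N * (z j).im ^ 2) : 2 * d ≤ A.xr z j := by
  have hN : 0 < N := Fin.pos j
  have hN1 : (1 : ℝ) ≤ N := by exact_mod_cast hN
  have hK1 := K1_ge_one hA hN
  unfold AG.xr
  rw [le_div_iff₀ (NN_pos _ hz)]
  refine le_of_sq_le_sq ?_ (pg_nonneg _ _)
  rw [mul_pow, NN_sq _ hz, pg_sq]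
  have hAB : SA z ≤ SB z := by
    have h0 := SA_nonneg z
    have h1 : 1 ≤ A.K1 ^ 2 := one_le_pow₀ hK1
    have : 1 * SA z ≤ A.K1 ^ 2 * SA z := mul_le_mul_of_nonneg_right h1 h0
    linarith
  have h3 : gq A.K1 (SA z) (SB z) ≤ 2 * SB z := by
    have := gq_le (K := A.K1) (SA_nonneg z) (SB_nonneg z)
    linarith
  have h4 := gq_ge (K := A.K) (sq_nonneg (z j).re) (sq_nonneg (z j).im)
  have h5 : (z j).im ^ 2 / (200 * (A.K ^ 2 + 1)) ≤ gq A.K ((z j).re ^ 2) ((z j).im ^ 2) := by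
    refine le_trans ?_ h4
    gcongr
    have := sq_nonneg (z j).re
    linarith
  refine le_trans ?_ h5
  rw [le_div_iff₀ (by positivity)]
  calc (2 * d) ^ 2 * gq A.K1 (SA z) (SB z) * (200 * (A.K ^ 2 + 1))
      ≤ (2 * d) ^ 2 * (2 * (N * (z j).im ^ 2)) * (200 * (A.K ^ 2 + 1)) := by
        gcongr
        linarith
    _ = (1600 * N * (A.K ^ 2 + 1) * d ^ 2) * (z j).im ^ 2 := by ring
    _ ≤ 1 * (z j).im ^ 2 := by gcongr
    _ = (z j).im ^ 2 := one_mul _

/-- `chid x · x ≤ 4`. -/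
lemma chid_mul_le {d : ℝ} (hd : 0 < d) (z : Fin N → ℂ) (i : Fin N) :
    0 ≤ chid d (A.xr z i) * A.xr z i ∧ chid d (A.xr z i) * A.xr z i ≤ 4 ∧
      (2 * d ≤ A.xr z i → chid d (A.xr z i) = 0) ∧
      chid d (A.xr z i) * A.xr z i ^ 2 ≤ 8 * d := by
  have h0 := A.xr_nonneg z i
  have h1 := chid_nonneg (x := A.xr z i) hd
  refine ⟨mul_nonneg h1 h0, ?_, fun h => chid_of_ge hd h, ?_⟩
  · rcases le_total (2 * d) (A.xr z i) with h | h
    · rw [chid_of_ge hd h, zero_mul]; norm_num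
    · calc chid d (A.xr z i) * A.xr z i ≤ 2 / d * (2 * d) := by
            gcongr
            exact chid_le hd
        _ = 4 := by field_simp; norm_num
  · rcases le_total (2 * d) (A.xr z i) with h | h
    · rw [chid_of_ge hd h, zero_mul]; positivity
    · calc chid d (A.xr z i) * A.xr z i ^ 2 ≤ 2 / d * (2 * d) ^ 2 := by
            gcongr
            exact chid_le hd
        _ = 8 * d := by field_simp; norm_num

/-- `|Im P|` in terms of the relative size. -/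
lemma im_le_xr (hA : A.Ok) {z : Fin N → ℂ} (hz : z ≠ 0) (i : Fin N) :
    |(A.P i (z i)).im| ≤ 30 * A.T * (A.K + 1) * (A.xr z i * NN A.K1 z) := by
  have hN : 0 < N := Fin.pos i
  have hK := K_ge_one hA hN
  have hT := hA.T1
  have h1 := abs_le_pg (K := A.K) (by linarith) (z i)
  have hx : A.xr z i * NN A.K1 z = pg A.K (z i) := by
    unfold AG.xr
    rw [div_mul_cancel₀ _ (NN_pos _ hz).ne']
  rw [hx]
  calc |(A.P i (z i)).im| ≤ A.T * (|(z i).re| + |(z i).im|) := hA.im_le _ _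
    _ ≤ A.T * (15 * (A.K + 1) * pg A.K (z i) + 15 * (A.K + 1) * pg A.K (z i)) := by
        gcongr
        exacts [h1.1, h1.2]
    _ = _ := by ring

/-- imaginary part of one summand. -/
lemma tm_im_le (hA : A.Ok) {d : ℝ} (hd : 0 < d) {z : Fin N → ℂ} (hz : z ≠ 0) (y : Fin N → ℂ)
    (i : Fin N) {p L : ℝ} (hp : |pgD A.K (z i) (y i)| ≤ p) (hL : |NND A.K1 z y| ≤ L) :
    |chid d (A.xr z i) * A.xrD z y i * (A.P i (z i)).im| ≤
      30 * A.T * (A.K + 1) * (4 * p + 8 * d * L) := by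
  have hN : 0 < N := Fin.pos i
  have hK := K_ge_one hA hN
  have hT := hA.T1
  have hNN := NN_pos A.K1 hz
  have hx := A.xr_nonneg z i
  obtain ⟨c0, c1, -, c2⟩ := chid_mul_le (A := A) hd z i
  have hc := chid_nonneg (x := A.xr z i) hd
  have hp0 : 0 ≤ p := (abs_nonneg _).trans hp
  have hL0 : 0 ≤ L := (abs_nonneg _).trans hL
  have h1 : |A.xrD z y i| ≤ (p + A.xr z i * L) / NN A.K1 z := by
    unfold xrD
    rw [abs_div, abs_of_pos hNN]
    gcongr
    refine (abs_sub _ _).trans ?_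
    rw [abs_mul, abs_of_nonneg hx]
    gcongr
  rw [abs_mul, abs_mul, abs_of_nonneg hc]
  calc chid d (A.xr z i) * |A.xrD z y i| * |(A.P i (z i)).im|
      ≤ chid d (A.xr z i) * ((p + A.xr z i * L) / NN A.K1 z) *
        (30 * A.T * (A.K + 1) * (A.xr z i * NN A.K1 z)) := by
        gcongr
        exact im_le_xr hA hz i
    _ = 30 * A.T * (A.K + 1) * ((chid d (A.xr z i) * A.xr z i) * p +
          (chid d (A.xr z i) * A.xr z i ^ 2) * L) := by
        field_simp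
    _ ≤ _ := by gcongr

/-- **region I, imaginary part.** -/
lemma regI_im (hA : A.Ok) {d : ℝ} (hd : 0 < d)
    (hd2 : N * (3600 * A.T * (A.K + 1) * (A.K1 + 1) * d) ≤ 1 / 2)
    {z : Fin N → ℂ} (hz : z ≠ 0) (hG : DifferentiableAt ℝ (A.G d) z) {j : Fin N}
    (hfar : A.T * |(z j).re| < |(z j).im|) (hx : 2 * d ≤ A.xr z j) :
    |(fderiv ℝ (A.G d) z (vt (Pi.single j 1))).im + 1| ≤ 1 / 2 := by
  have hN : 0 < N := Fin.pos j
  have hK := K_ge_one hA hN
  have hK1 := K1_ge_one hA hN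
  have hT := hA.T1
  have hfar' : A.T * (z j).re < |(z j).im| :=
    lt_of_le_of_lt (mul_le_mul_of_nonneg_left (le_abs_self _) (by linarith)) hfar
  set y : Fin N → ℂ := vt (Pi.single j 1) with hy
  have hyi : ∀ i, i ≠ j → y i = 0 := by
    intro i hi
    rw [hy]
    simp [vt, hi]
  have hyj : y j = Complex.I := by
    rw [hy]
    simp [vt]
  have hL : |NND A.K1 z y| ≤ 15 * (A.K1 + 1) := by
    have h1 := NND_abs (K := A.K1) (by linarith) hz y
    have e1 : ∑ i, |(y i).re| = 0 := by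
      refine sum_eq_zero fun i _ => ?_
      rcases eq_or_ne i j with h | h
      · rw [h, hyj]; simp
      · rw [hyi i h]; simp
    have e2 : ∑ i, |(y i).im| = 1 := by
      rw [sum_eq_single j]
      · rw [hyj]; simp
      · intro i _ h
        rw [hyi i h]; simp
      · intro h; exact absurd (Finset.mem_univ j) h
    rw [e1, e2] at h1
    linarith
  rw [fderiv_im hA hd hz hG]
  have h3 : ∀ i, |(A.tmD d z y i).im + (if i = j then 1 else 0)| ≤
      3600 * A.T * (A.K + 1) * (A.K1 + 1) * d := by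
    intro i
    rcases eq_or_ne i j with hij | hij
    · subst hij
      unfold tmD
      rw [chid_of_ge hd hx, AG.ch, chi_of_ge hd hx, fderiv_far hA i hfar', hyj]
      simp
      positivity
    · rw [if_neg hij, add_zero]
      unfold tmD
      rw [hyi i hij, map_zero, mul_zero, add_zero, Complex.im_ofReal_mul]
      refine (tm_im_le hA hd hz y i (p := 0) ?_ hL).trans (le_of_eq ?_)
      · rw [hyi i hij]; simp [pgD]
      · ring
  have h4 : ∑ i, (A.tmD d z y i).im + 1 =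
      ∑ i, ((A.tmD d z y i).im + (if i = j then 1 else 0)) := by
    rw [sum_add_distrib, sum_ite_eq' univ j, if_pos (Finset.mem_univ j)]
  rw [h4]
  refine (abs_sum_le_sum_abs _ _).trans ?_
  calc ∑ i, |(A.tmD d z y i).im + (if i = j then 1 else 0)|
      ≤ ∑ _i : Fin N, 3600 * A.T * (A.K + 1) * (A.K1 + 1) * d := sum_le_sum fun i _ => h3 i
    _ = N * (3600 * A.T * (A.K + 1) * (A.K1 + 1) * d) := by simp
    _ ≤ 1 / 2 := hd2

end AG

end Crest.Agent.R267.AbsG_996
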