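import Crest.Agent.R267.AbsG_996

/-!
# Row 267, T3a and T3aN: K1 for the abstract lobed function
-/

set_option autoImplicit false

noncomputable section

namespace Crest.Agent.R267.AbsK1_996

open Set Filter Topology Finset
open Crest.Agent.R267.T3aDefs_957 (chi pg NN gq)
open Crest.Agent.R267.T3aDefs_957.LD (vt vs)
open Crest.Agent.R267.Calc_957 (std st_nonneg st_le_one)
open Crest.Agent.R267.TLine_996 (SA SB SA_nonneg SB_nonneg SAB_pos NN_eq NN_pos NN_sq chid
  hasDerivAt_chi chid_of_le chid_of_ge chid_nonneg chid_le chi_of_le chi_of_ge chi_pos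
  sq_pos_of_ne pg_sq pg_nonneg pg_zero gq_ge gq_le le_gq gq_of_le)
open Crest.Agent.R267.Calc2_957 (ps pt gA gB)
open Crest.Agent.R267.K1_996 (re_sq_le im_sq_le exists_im)
open Crest.Agent.R267.CLine_996 (lc lc_re lc_im lc_zero pgD NND)
open Crest.Agent.R267.AbsG_996 Crest.Agent.R267.AbsG_996.AG

variable {N : ℕ} {A : AG N}

/-- some variable is active (`N d² < 1`), if `|t| ≤ K₁ |s|`. -/
lemma exists_active {d : ℝ} (hd : 0 < d) (hNd : N * d ^ 2 < 1) {z : Fin N → ℂ} (hz : z ≠ 0)
    (h2 : SB z ≤ A.K1 ^ 2 * SA z) : ∃ j, 0 < A.ch d z j := by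
  by_contra h
  push Not at h
  have hx : ∀ j, A.xr z j ≤ d := by
    intro j
    by_contra h1
    exact absurd (chi_pos hd (not_le.1 h1)) (not_lt.2 (h j))
  have hA : 0 < SA z := by
    by_contra hA
    have h3 := SAB_pos hz
    have h4 : SA z = 0 := le_antisymm (not_lt.1 hA) (SA_nonneg z)
    rw [h4] at h2 h3
    linarith
  have hNN : NN A.K1 z ^ 2 = SA z := by rw [NN_sq _ hz, gq_of_le h2]
  have h3 : ∀ j, (z j).re ^ 2 ≤ d ^ 2 * SA z := by
    intro j
    have h4 : pg A.K (z j) ≤ d * NN A.K1 z := by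
      have := hx j
      unfold AG.xr at this
      rwa [div_le_iff₀ (NN_pos _ hz)] at this
    calc (z j).re ^ 2 ≤ pg A.K (z j) ^ 2 := by rw [pg_sq]; exact le_gq
      _ ≤ (d * NN A.K1 z) ^ 2 := pow_le_pow_left₀ (pg_nonneg _ _) h4 2
      _ = d ^ 2 * SA z := by rw [mul_pow, hNN]
  have h4 : SA z ≤ N * (d ^ 2 * SA z) := by
    calc SA z ≤ ∑ _i : Fin N, d ^ 2 * SA z := sum_le_sum fun i _ => h3 i
      _ = N * (d ^ 2 * SA z) := by simp
  nlinarith

/-- derivative in the direction of one variable, region II. -/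
lemma fderiv_single (hA : A.Ok) {d : ℝ} (hd : 0 < d) {z : Fin N → ℂ} (hz : z ≠ 0)
    (hG : DifferentiableAt ℝ (A.G d) z) (h2 : SB z ≤ A.K1 ^ 2 * SA z) (j : Fin N) :
    (fderiv ℝ (A.G d) z (vt (Pi.single j 1))).im =
      chid d (A.xr z j) * (pt A.K (z j) / NN A.K1 z) * (A.P j (z j)).im +
        A.ch d z j * (fderiv ℝ (A.P j) (z j) Complex.I).im := by
  rw [fderiv_im hA hd hz hG]
  have hv : ∀ i, i ≠ j → (vt (Pi.single j 1) : Fin N → ℂ) i = 0 := by
    intro i hi; simp [vt, hi]
  have hvj : (vt (Pi.single j 1) : Fin N → ℂ) j = Complex.I := by simp [vt]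
  have h3 : NND A.K1 z (vt (Pi.single j 1)) = 0 := by
    unfold NND
    rw [Calc2_957.gB_of_le h2, zero_mul, add_zero]
    have : ∑ i, (z i).re * ((vt (Pi.single j 1) : Fin N → ℂ) i).re = 0 := by
      refine sum_eq_zero fun i _ => ?_
      simp [vt]
    rw [this, mul_zero, zero_div]
  rw [sum_eq_single j]
  · unfold AG.tmD AG.xrD
    rw [h3, hvj]
    simp [pgD]
  · intro i _ hij
    unfold AG.tmD AG.xrD
    rw [h3, hv i hij]
    simp [pgD]
  · intro h
    exact absurd (Finset.mem_univ j) h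

lemma region2 (hA : A.Ok) {d : ℝ} (hd : 0 < d) (hNd : N * d ^ 2 < 1) {z : Fin N → ℂ} (hz : z ≠ 0)
    (hG : DifferentiableAt ℝ (A.G d) z) (h2 : SB z ≤ A.K1 ^ 2 * SA z)
    (hre : 0 ≤ (A.G d z).re) :
    ∃ Y : Fin N → ℝ, (fderiv ℝ (A.G d) z (vt Y)).im ≠ 0 := by
  by_contra hcon
  push Not at hcon
  have g1 := hA.ga1
  have key : ∀ j, 0 < A.ch d z j →
      0 < (z j).re ∧ (A.P j (z j)).re ≤ -(1 - A.ga) * (z j).re := by
    intro j hj
    have hN : 0 < N := Fin.pos j
    have hK := K_ge_one hA hN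
    have hKK := K1_le_K hA hN
    have hTK := T_le_K1 hA hN
    have hzj : z j ≠ 0 := by
      intro h0
      have := lt_of_ch_pos A hd hj
      rw [xr_zero A h0] at this
      linarith
    have h3 := hcon (Pi.single j 1)
    rw [fderiv_single hA hd hz hG h2 j] at h3
    rcases le_or_gt |(z j).im| (A.K * |(z j).re|) with h4 | h4
    · rw [Calc2_957.pt_of_le (by linarith) h4, zero_div, mul_zero, zero_mul, zero_add] at h3
      exact hA.crit j (z j) hzj ((mul_eq_zero.1 h3).resolve_left hj.ne')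
    · exfalso
      have hfar : A.T * (z j).re < |(z j).im| := by
        refine lt_of_le_of_lt ?_ h4
        have hT := hA.T1
        calc A.T * (z j).re ≤ A.T * |(z j).re| := by
              gcongr
              exact le_abs_self _
          _ ≤ A.K * |(z j).re| := by
              gcongr
              linarith
      rw [hA.far j (z j) hfar, fderiv_far hA j hfar] at h3
      have h5 : 0 ≤ chid d (A.xr z j) * (pt A.K (z j) / NN A.K1 z) * (z j).im := by
        have h6 := Calc2_957.pt_mul_nonneg A.K (z j)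
        have h7 : chid d (A.xr z j) * (pt A.K (z j) / NN A.K1 z) * (z j).im =
            chid d (A.xr z j) * (pt A.K (z j) * (z j).im) / NN A.K1 z := by ring
        rw [h7]
        exact div_nonneg (mul_nonneg (chid_nonneg hd) h6) (NN_pos _ hz).le
      have e1 : (-((2 - A.ga : ℝ) : ℂ) * (z j).re - Complex.I * (z j).im).im = -(z j).im := by
        simp
      have e2 : (-((2 - A.ga : ℝ) : ℂ) * Complex.I.re - Complex.I * Complex.I.im).im = -1 := by
        simp
      rw [e1, e2] at h3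
      nlinarith
  obtain ⟨j0, hj0⟩ := exists_active hd hNd hz h2
  have h5 : (A.G d z).re < 0 := by
    rw [G_re]
    have h6 := hA.B0 z
    have h7 : ∑ j, A.ch d z j * (A.P j (z j)).re < 0 := by
      refine sum_neg' (fun j _ => ?_) ⟨j0, mem_univ _, ?_⟩
      · rcases (A.ch_nonneg d z j).eq_or_lt' with h8 | h8
        · rw [h8, zero_mul]
        · obtain ⟨h9, h10⟩ := key j h8
          refine mul_nonpos_of_nonneg_of_nonpos h8.le (h10.trans ?_)
          have : 0 < (1 - A.ga) * (z j).re := mul_pos (by linarith) h9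
          linarith
      · obtain ⟨h9, h10⟩ := key j0 hj0
        refine mul_neg_of_pos_of_neg hj0 (lt_of_le_of_lt h10 ?_)
        have : 0 < (1 - A.ga) * (z j0).re := mul_pos (by linarith) h9
        linarith
    linarith
  linarith

/-- **K1.** -/
theorem k1 (hA : A.Ok) {d : ℝ} (hd : 0 < d) (hNd : N * d ^ 2 < 1)
    (hd1 : 1600 * N * (A.K ^ 2 + 1) * d ^ 2 ≤ 1)
    (hd2 : N * (3600 * A.T * (A.K + 1) * (A.K1 + 1) * d) ≤ 1 / 2)
    {z : Fin N → ℂ} (hz : z ≠ 0) (hG : DifferentiableAt ℝ (A.G d) z) (hre : 0 ≤ (A.G d z).re) :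
    ∃ Y : Fin N → ℝ, (fderiv ℝ (A.G d) z (vt Y)).im ≠ 0 := by
  have hN : 0 < N := by
    by_contra h0
    have h0' : N = 0 := by omega
    subst h0'
    exact hz (Subsingleton.elim _ _)
  rcases le_or_gt (SB z) (A.K1 ^ 2 * SA z) with h | h
  · exact region2 hA hd hNd hz hG h hre
  · obtain ⟨I, hI⟩ := exists_im z hN
    have hfar := far_of_region1 hA h hI
    have hx := xr_region1 hA hd hd1 hz h hI
    have him := regI_im hA hd hd2 hz hG hfar hx
    refine ⟨Pi.single I 1, fun h0 => ?_⟩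
    rw [h0, zero_add, abs_one] at him
    norm_num at him

end Crest.Agent.R267.AbsK1_996
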