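import Crest.Agent.R267.AbsG_996

/-!
# Row 267, T3a and T3aN: K2 in region I, and K1, for the abstract lobed function
-/

set_option autoImplicit false

noncomputable section

namespace Crest.Agent.R267.AbsK_996

open Set Filter Topology Finset
open Crest.Agent.R267.T3aDefs_957 (chi pg NN gq)
open Crest.Agent.R267.T3aDefs_957.LD (vt vs)
open Crest.Agent.R267.Calc_957 (std st_nonneg st_le_one)
open Crest.Agent.R267.TLine_996 (SA SB SA_nonneg SB_nonneg SAB_pos NN_eq NN_pos NN_sq chid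
  hasDerivAt_chi chid_of_le chid_of_ge chid_nonneg chid_le chi_of_le chi_of_ge chi_pos
  sq_pos_of_ne pg_sq pg_nonneg pg_zero gq_ge gq_le le_gq gq_of_le)
open Crest.Agent.R267.Calc2_957 (ps pt gA gB)
open Crest.Agent.R267.K1_996 (re_sq_le im_sq_le exists_im)
open Crest.Agent.R267.CLine_996 Crest.Agent.R267.AbsG_996 Crest.Agent.R267.AbsG_996.AG

variable {N : ℕ} {A : AG N}

/-- the coupling does not increase when the active parts decrease along rays. -/
def BOk (A : AG N) (d : ℝ) : Prop := ∀ z : Fin N → ℂ, z ≠ 0 → ∀ y : Fin N → ℂ,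
  (∀ i, z i = 0 ∨ A.T * (z i).re < |(z i).im| ∨
    (0 < (z i).re ∧ y i = -(z i / ((z i).re : ℂ)) ∧
      ∃ r ≤ 0, HasDerivAt (fun h => A.R d (lc z y h) i) r 0)) →
  ∃ b ≤ 0, HasDerivAt (fun h => A.B (lc z y h)) b 0

/-- trichotomy. -/
lemma cases_var (hA : A.Ok) (w : ℂ) :
    w = 0 ∨ A.T * w.re < |w.im| ∨ (0 < w.re ∧ |w.im| ≤ A.T * w.re) := by
  have hT := hA.T1
  rcases lt_or_ge (A.T * w.re) |w.im| with h | h
  · exact Or.inr (Or.inl h)
  · rcases lt_trichotomy w.re 0 with h1 | h1 | h1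
    · have := abs_nonneg w.im
      nlinarith
    · left
      rw [h1, mul_zero] at h
      exact Complex.ext h1 (abs_nonpos_iff.1 h)
    · exact Or.inr (Or.inr ⟨h1, h⟩)

/-! ### the vector of region I -/

/-- `-1 - i τ` on the variables near the loops, `-1` on the others, `-1 + i c` on the variable
`I` of the largest `|t|`. -/
def Yv (A : AG N) (z : Fin N → ℂ) (I : Fin N) (c : ℝ) : Fin N → ℝ := fun i =>
  open Classical in
  if i = I then c else if 0 < (z i).re ∧ |(z i).im| ≤ A.T * (z i).re then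
    -((z i).im / (z i).re) else 0

lemma vs_Yv (z : Fin N → ℂ) (I : Fin N) (c : ℝ) :
    vs 1 (Yv A z I c) = vs 1 (Yv A z I 0) + c • (vt (Pi.single I 1) : Fin N → ℂ) := by
  funext i
  by_cases h : i = I
  · subst h
    simp [vs, vt, Yv]
    ring
  · simp [vs, vt, Yv, h]

lemma vs_re (Y : Fin N → ℝ) (i : Fin N) : (vs 1 Y i).re = -1 := by
  simp [vs]

lemma vs_im (Y : Fin N → ℝ) (i : Fin N) : (vs 1 Y i).im = Y i := by
  simp [vs]

lemma y_near {z : Fin N → ℂ} {I i : Fin N} {c : ℝ} (hi : i ≠ I) (h1 : 0 < (z i).re)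
    (h2 : |(z i).im| ≤ A.T * (z i).re) : vs 1 (Yv A z I c) i = -(z i / ((z i).re : ℂ)) := by
  have h3 : (z i) = ((z i).re : ℂ) + ((z i).im : ℂ) * Complex.I := (Complex.re_add_im _).symm
  have h4 : ((z i).re : ℂ) ≠ 0 := by exact_mod_cast h1.ne'
  unfold vs Yv
  rw [if_neg hi, if_pos ⟨h1, h2⟩]
  push_cast
  conv_rhs => rw [h3]
  simp only [Complex.add_re, Complex.ofReal_re, Complex.mul_re, Complex.I_re, mul_zero,
    Complex.ofReal_im, Complex.I_im, mul_one, sub_self, add_zero]
  field_simp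
  ring

lemma y_far {z : Fin N → ℂ} {I i : Fin N} {c : ℝ} (hi : i ≠ I)
    (h2 : A.T * (z i).re < |(z i).im|) : vs 1 (Yv A z I c) i = -1 := by
  unfold vs Yv
  rw [if_neg hi, if_neg fun h => absurd h.2 (not_le.2 h2)]
  simp

lemma y_I {z : Fin N → ℂ} {I : Fin N} {c : ℝ} : vs 1 (Yv A z I c) I = -1 + Complex.I * (c : ℂ) := by
  unfold vs Yv
  rw [if_pos rfl]
  simp

lemma Yv_abs (hA : A.Ok) (z : Fin N → ℂ) {I i : Fin N} (c : ℝ) (hi : i ≠ I) :
    |Yv A z I c i| ≤ A.T := by
  have hT := hA.T1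
  unfold Yv
  rw [if_neg hi]
  split_ifs with h
  · rw [abs_neg, abs_div, abs_of_pos h.1, div_le_iff₀ h.1]
    exact h.2
  · rw [abs_zero]; linarith

lemma NND_Yv (hA : A.Ok) {z : Fin N → ℂ} (hz : z ≠ 0) (I : Fin N) (c : ℝ) :
    |NND A.K1 z (vs 1 (Yv A z I c))| ≤ N + 15 * (A.K1 + 1) * (N * A.T + |c|) := by
  have hN : 0 < N := Fin.pos I
  have hK1 := K1_ge_one hA hN
  have hT := hA.T1
  have h1 := NND_abs (K := A.K1) (by linarith) hz (vs 1 (Yv A z I c))
  have e1 : ∑ i, |(vs 1 (Yv A z I c) i).re| = N := by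
    simp only [vs_re, abs_neg, abs_one]
    simp
  have e2 : ∑ i, |(vs 1 (Yv A z I c) i).im| ≤ N * A.T + |c| := by
    simp only [vs_im]
    calc ∑ i, |Yv A z I c i| ≤ ∑ i : Fin N, (A.T + if i = I then |c| else 0) := by
          refine sum_le_sum fun i _ => ?_
          rcases eq_or_ne i I with h | h
          · subst h
            rw [if_pos rfl]
            unfold Yv
            rw [if_pos rfl]
            linarith
          · rw [if_neg h, add_zero]
            exact Yv_abs hA z c h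
      _ = N * A.T + |c| := by
          rw [sum_add_distrib, sum_ite_eq' univ I, if_pos (Finset.mem_univ I)]
          simp
  rw [e1] at h1
  refine h1.trans ?_
  gcongr

/-! ### gauges -/

lemma ps_abs (K : ℝ) (w : ℂ) : |ps K w| ≤ 1 := by
  rcases eq_or_ne (pg K w) 0 with h | h
  · unfold ps
    rw [h, div_zero, abs_zero]
    exact zero_le_one
  · have hp : 0 < pg K w := lt_of_le_of_ne (pg_nonneg _ _) (Ne.symm h)
    unfold ps
    rw [abs_div, abs_of_pos hp, div_le_one hp, abs_mul,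
      abs_of_nonneg (Calc2_957.gA_nonneg (sq_nonneg _) (sq_nonneg _))]
    calc gA K (w.re ^ 2) (w.im ^ 2) * |w.re| ≤ 1 * pg K w :=
          mul_le_mul (Calc2_957.gA_le_one (sq_nonneg _) (sq_nonneg _))
            (Calc2_957.abs_re_le_pg _ _) (abs_nonneg _) zero_le_one
      _ = pg K w := one_mul _

lemma pgD_neg_one (K : ℝ) (w : ℂ) : pgD K w (-1) = -ps K w := by simp [pgD]

lemma pgD_ray {K : ℝ} (hK : 0 ≤ K) {w : ℂ} (h : 0 < w.re) (h1 : |w.im| ≤ K * w.re) :
    pgD K w (-(w / (w.re : ℂ))) = -1 := by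
  have hw : w ≠ 0 := fun h2 => by rw [h2] at h; simp at h
  have h2 := Calc2_957.pg_euler K hw
  have h3 : pg K w = w.re := by
    rw [Calc2_957.pg_of_le hK (by rwa [abs_of_pos h]), abs_of_pos h]
  have e1 : (-(w / (w.re : ℂ))).re = -1 := by
    rw [Complex.neg_re, Complex.div_ofReal_re, div_self h.ne']
  have e2 : (-(w / (w.re : ℂ))).im = -(w.im / w.re) := by
    rw [Complex.neg_im, Complex.div_ofReal_im]
  unfold pgD
  rw [e1, e2]
  have h4 : ps K w * -1 + pt K w * -(w.im / w.re) = -(ps K w * w.re + pt K w * w.im) / w.re := by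
    field_simp
    ring
  rw [h4, h2, h3, neg_div, div_self h.ne']

/-! ### summands -/

section summand

variable {d L : ℝ} {z y : Fin N → ℂ} {i : Fin N}

/-- near the loops, radial direction. -/
lemma tm_near (hA : A.Ok) (hd : 0 < d) (hz : z ≠ 0) (h1 : 0 < (z i).re)
    (h2 : |(z i).im| ≤ A.T * (z i).re) (hy : y i = -(z i / ((z i).re : ℂ)))
    (hL : |NND A.K1 z y| ≤ L) (hdL : 2 * d * L ≤ 1) :
    ∃ r : ℝ, r ≤ 0 ∧ -9 ≤ r ∧ HasDerivAt (fun h => A.R d (lc z y h) i) r 0 ∧
      A.tmD d z y i = ((r / (z i).re : ℝ) : ℂ) * A.P i (z i) := by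
  have hN : 0 < N := Fin.pos i
  have hK1 := K1_ge_one hA hN
  have hKK := K1_le_K hA hN
  have hTK := T_le_K1 hA hN
  have hT := hA.T1
  have hNN := NN_pos A.K1 hz
  have hx := A.xr_nonneg z i
  have hL0 : 0 ≤ L := (abs_nonneg _).trans hL
  have hK : |(z i).im| ≤ A.K * (z i).re := h2.trans (by gcongr; linarith)
  have hpg : pg A.K (z i) = (z i).re := by
    rw [Calc2_957.pg_of_le (by linarith) (by rwa [abs_of_pos h1]), abs_of_pos h1]
  have hpd : pgD A.K (z i) (y i) = -1 := by
    rw [hy]; exact pgD_ray (by linarith) h1 hK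
  have hxs : (z i).re = A.xr z i * NN A.K1 z := by
    unfold AG.xr
    rw [hpg, div_mul_cancel₀ _ hNN.ne']
  set ν := NND A.K1 z y with hν
  have hxd : A.xrD z y i * (z i).re = A.xr z i * (-1 - A.xr z i * ν) := by
    unfold AG.xrD
    rw [hpd, ← hν, hxs]
    field_simp
  set r : ℝ := chid d (A.xr z i) * (A.xrD z y i * (z i).re) - A.ch d z i with hr
  have hc := A.ch_nonneg d z i
  have hc1 := A.ch_le_one d z i
  obtain ⟨c0, c1, c2, c3⟩ := chid_mul_le (A := A) hd z i
  have hr2 : 0 ≤ (chid d (A.xr z i) * A.xr z i) * (1 + A.xr z i * ν) ∧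
      (chid d (A.xr z i) * A.xr z i) * (1 + A.xr z i * ν) ≤ 8 := by
    rcases le_total (2 * d) (A.xr z i) with h | h
    · rw [c2 h]; norm_num
    · have h3 : |A.xr z i * ν| ≤ 1 := by
        rw [abs_mul, abs_of_nonneg hx]
        calc A.xr z i * |ν| ≤ 2 * d * L := by gcongr
          _ ≤ 1 := hdL
      rw [abs_le] at h3
      constructor
      · exact mul_nonneg c0 (by linarith)
      · calc (chid d (A.xr z i) * A.xr z i) * (1 + A.xr z i * ν) ≤ 4 * 2 := by
              apply mul_le_mul c1 (by linarith) (by linarith) (by norm_num)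
          _ = 8 := by norm_num
  have hr3 : r = -((chid d (A.xr z i) * A.xr z i) * (1 + A.xr z i * ν)) - A.ch d z i := by
    rw [hr, hxd]; ring
  refine ⟨r, ?_, ?_, ?_, ?_⟩
  · rw [hr3]; linarith [hr2.1]
  · rw [hr3]; linarith [hr2.2]
  · have h3 := hasDerivAt_ch A hd hz y i
    have hyre : (y i).re = -1 := by
      rw [hy, Complex.neg_re, Complex.div_ofReal_re, div_self h1.ne']
    have h4 : HasDerivAt (fun h : ℝ => max 0 (lc z y h i).re) (-1) 0 := by
      have h5 : HasDerivAt (fun h : ℝ => (lc z y h i).re) (-1) 0 := by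
        simp only [lc_re, hyre]
        simpa using ((hasDerivAt_id (0 : ℝ)).mul_const (-1 : ℝ)).const_add (z i).re
      refine h5.congr_of_eventuallyEq ?_
      have h6 : ∀ᶠ h : ℝ in 𝓝 0, 0 < (lc z y h i).re := by
        refine h5.continuousAt.eventually (lt_mem_nhds ?_)
        simpa using h1
      filter_upwards [h6] with h hh
      exact max_eq_right hh.le
    have h5 := h3.mul h4
    refine h5.congr_deriv ?_
    simp only [lc_zero]
    rw [max_eq_right h1.le, hr]
    ring
  · unfold AG.tmD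
    rw [hy, fderiv_hom hA i h1, hr]
    have : ((z i).re : ℂ) ≠ 0 := by exact_mod_cast h1.ne'
    push_cast
    field_simp
    ring

/-- steep or negative variable, direction `-1`. -/
lemma tm_far (hA : A.Ok) (hd : 0 < d) (hz : z ≠ 0) (h : A.T * (z i).re < |(z i).im|)
    (hy : y i = -1) (hL : |NND A.K1 z y| ≤ L) :
    -(16 * d * L) ≤ (A.tmD d z y i).re := by
  have hNN := NN_pos A.K1 hz
  have hx := A.xr_nonneg z i
  have hL0 : 0 ≤ L := (abs_nonneg _).trans hL
  have hc := A.ch_nonneg d z i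
  have hcd := chid_nonneg (x := A.xr z i) hd
  obtain ⟨c0, c1, c2, c3⟩ := chid_mul_le (A := A) hd z i
  have g0 := hA.ga0
  have g1 := hA.ga1
  have hxs : |(z i).re| ≤ A.xr z i * NN A.K1 z := by
    unfold AG.xr
    rw [div_mul_cancel₀ _ hNN.ne']
    exact Calc2_957.abs_re_le_pg _ _
  set ν := NND A.K1 z y with hν
  have e : (A.tmD d z y i).re = (2 - A.ga) * (chid d (A.xr z i) *
      (ps A.K (z i) * (z i).re) / NN A.K1 z + chid d (A.xr z i) * A.xr z i * ((z i).re * ν) /
        NN A.K1 z + A.ch d z i) := by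
    unfold AG.tmD AG.xrD
    rw [fderiv_far hA i h, hA.far i (z i) h, hy, pgD_neg_one, ← hν]
    simp
    ring
  rw [e]
  have h1 : 0 ≤ chid d (A.xr z i) * (ps A.K (z i) * (z i).re) / NN A.K1 z :=
    div_nonneg (mul_nonneg hcd (Calc2_957.ps_mul_nonneg _ _)) hNN.le
  have h2 : -(8 * d * L) ≤ chid d (A.xr z i) * A.xr z i * ((z i).re * ν) / NN A.K1 z := by
    rw [le_div_iff₀ hNN]
    have h3 : |chid d (A.xr z i) * A.xr z i * ((z i).re * ν)| ≤ 8 * d * L * NN A.K1 z := by
      rw [abs_mul, abs_mul (z i).re, abs_of_nonneg c0]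
      calc chid d (A.xr z i) * A.xr z i * (|(z i).re| * |ν|)
          ≤ chid d (A.xr z i) * A.xr z i * ((A.xr z i * NN A.K1 z) * L) := by gcongr
        _ = (chid d (A.xr z i) * A.xr z i ^ 2) * L * NN A.K1 z := by ring
        _ ≤ _ := by gcongr
    have := (abs_le.1 h3).1
    linarith
  have h4 : 0 ≤ 8 * d * L := by positivity
  nlinarith

end summand

/-! ### K2 in region I -/

/-- bound of the imaginary part of the derivative along `vs 1 (Yv 0)`. -/
def L1 (A : AG N) : ℝ := N * (240 * A.T * (A.K + 1) + A.T * (1 + A.T))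

/-- bound of the derivative of the total gauge. -/
def LL (A : AG N) : ℝ := N + 15 * (A.K1 + 1) * (N * A.T + 2 * L1 A)

lemma im_zero_le (hA : A.Ok) {d : ℝ} (hd : 0 < d) {z : Fin N → ℂ} (hz : z ≠ 0)
    (hG : DifferentiableAt ℝ (A.G d) z) {I : Fin N} (hfar : A.T * (z I).re < |(z I).im|)
    (hd3 : 16 * d * LL A * (N + 1) ≤ 1 / 2) :
    |(fderiv ℝ (A.G d) z (vs 1 (Yv A z I 0))).im| ≤ L1 A := by
  have hN : 0 < N := Fin.pos I
  have hN1 : (1 : ℝ) ≤ N := by exact_mod_cast hN
  have hK := K_ge_one hA hN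
  have hK1 := K1_ge_one hA hN
  have hKK := K1_le_K hA hN
  have hTK := T_le_K1 hA hN
  have hT := hA.T1
  have hL := NND_Yv hA hz I 0
  rw [abs_zero, add_zero] at hL
  set L0 : ℝ := N + 15 * (A.K1 + 1) * (N * A.T) with hL0
  have hL1 : 0 ≤ L1 A := by unfold L1; positivity
  have hLL : L0 ≤ LL A := by
    unfold LL
    rw [hL0]
    gcongr
    linarith
  have hL00 : 0 ≤ L0 := by rw [hL0]; positivity
  have hLL0 : 0 ≤ LL A := hL00.trans hLL
  have hdL : 8 * d * L0 ≤ 4 := by
    have h1 : 16 * d * L0 * 1 ≤ 16 * d * LL A * (N + 1) :=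
      mul_le_mul (by gcongr) (by linarith) zero_le_one (by positivity)
    linarith
  rw [fderiv_im hA hd hz hG]
  refine (abs_sum_le_sum_abs _ _).trans ?_
  have key : ∀ i, |(A.tmD d z (vs 1 (Yv A z I 0)) i).im| ≤
      240 * A.T * (A.K + 1) + A.T * (1 + A.T) := by
    intro i
    have hpos : 0 ≤ 240 * A.T * (A.K + 1) + A.T * (1 + A.T) := by positivity
    rcases eq_or_ne (z i) 0 with h0 | h0
    · rw [tmD_zero A hd _ h0]
      simpa using hpos
    · -- the two parts
      have hsplit : |(A.tmD d z (vs 1 (Yv A z I 0)) i).im| ≤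
          |chid d (A.xr z i) * A.xrD z (vs 1 (Yv A z I 0)) i * (A.P i (z i)).im| +
          |(fderiv ℝ (A.P i) (z i) (vs 1 (Yv A z I 0) i)).im| := by
        unfold AG.tmD
        rw [Complex.add_im, Complex.im_ofReal_mul, Complex.im_ofReal_mul]
        refine (abs_add_le _ _).trans (add_le_add le_rfl ?_)
        rw [abs_mul, abs_of_nonneg (A.ch_nonneg d z i)]
        exact mul_le_of_le_one_left (abs_nonneg _) (A.ch_le_one d z i)
      have h1 : ∀ p : |pgD A.K (z i) (vs 1 (Yv A z I 0) i)| ≤ 1,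
          |chid d (A.xr z i) * A.xrD z (vs 1 (Yv A z I 0)) i * (A.P i (z i)).im| ≤
            240 * A.T * (A.K + 1) := by
        intro p
        refine (tm_im_le hA hd hz _ i p hL).trans ?_
        calc 30 * A.T * (A.K + 1) * (4 * 1 + 8 * d * L0)
            ≤ 30 * A.T * (A.K + 1) * (4 * 1 + 4) := by gcongr
          _ = _ := by ring
      have h2 : |pgD A.K (z i) (vs 1 (Yv A z I 0) i)| ≤ 1 ∧
          |(fderiv ℝ (A.P i) (z i) (vs 1 (Yv A z I 0) i)).im| ≤ A.T * (1 + A.T) := by
        have hfarcase : A.T * (z i).re < |(z i).im| → vs 1 (Yv A z I 0) i = -1 →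
            |pgD A.K (z i) (vs 1 (Yv A z I 0) i)| ≤ 1 ∧
            |(fderiv ℝ (A.P i) (z i) (vs 1 (Yv A z I 0) i)).im| ≤ A.T * (1 + A.T) := by
          intro ha hb
          rw [hb, pgD_neg_one, abs_neg]
          refine ⟨ps_abs _ _, ?_⟩
          rw [fderiv_far hA i ha]
          simp
          positivity
        rcases eq_or_ne i I with hi | hi
        · subst hi
          refine hfarcase hfar ?_
          rw [y_I]
          simp
        · rcases cases_var hA (z i) with h3 | h3 | ⟨h3, h4⟩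
          · exact absurd h3 h0
          · exact hfarcase h3 (y_far hi h3)
          · rw [y_near hi h3 h4]
            constructor
            · rw [pgD_ray (by linarith) h3 (h4.trans (by gcongr; linarith))]
              simp
            · rw [fderiv_hom hA i h3, Complex.neg_im, Complex.div_ofReal_im, abs_neg, abs_div,
                abs_of_pos h3, div_le_iff₀ h3]
              calc |(A.P i (z i)).im| ≤ A.T * (|(z i).re| + |(z i).im|) := hA.im_le _ _
                _ ≤ A.T * ((z i).re + A.T * (z i).re) := by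
                    rw [abs_of_pos h3]
                    gcongr
                _ = _ := by ring
      have := h1 h2.1
      have := h2.2
      linarith
  calc ∑ i, |(A.tmD d z (vs 1 (Yv A z I 0)) i).im|
      ≤ ∑ _i : Fin N, (240 * A.T * (A.K + 1) + A.T * (1 + A.T)) := sum_le_sum fun i _ => key i
    _ = L1 A := by
        unfold L1
        rw [sum_const, card_univ, Fintype.card_fin, nsmul_eq_mul]

/-- **K2 in region I.** -/
theorem k2I (hA : A.Ok) {d : ℝ} (hd : 0 < d) (hd1 : 1600 * N * (A.K ^ 2 + 1) * d ^ 2 ≤ 1)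
    (hd2 : N * (3600 * A.T * (A.K + 1) * (A.K1 + 1) * d) ≤ 1 / 2)
    (hd3 : 16 * d * LL A * (N + 1) ≤ 1 / 2) (hga : A.ga * (9 * N + 1) ≤ 1 / 2) (hB : BOk A d)
    {z : Fin N → ℂ} (hz : z ≠ 0) (hG : DifferentiableAt ℝ (A.G d) z)
    (h2 : A.K1 ^ 2 * SA z < SB z) :
    ∃ Y : Fin N → ℝ, (fderiv ℝ (A.G d) z (vs 1 Y)).im = 0 ∧
      0 < (fderiv ℝ (A.G d) z (vs 1 Y)).re := by
  have hN : 0 < N := by
    by_contra h0
    have h0' : N = 0 := by omega
    subst h0'
    exact hz (Subsingleton.elim _ _)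
  have hN1 : (1 : ℝ) ≤ N := by exact_mod_cast hN
  have hK := K_ge_one hA hN
  have hK1 := K1_ge_one hA hN
  have hT := hA.T1
  have g0 := hA.ga0
  obtain ⟨I, hI⟩ := exists_im z hN
  have hfar := far_of_region1 hA h2 hI
  have hfar' : A.T * (z I).re < |(z I).im| :=
    lt_of_le_of_lt (mul_le_mul_of_nonneg_left (le_abs_self _) (by linarith)) hfar
  have hx := xr_region1 hA hd hd1 hz h2 hI
  have him := regI_im hA hd hd2 hz hG hfar hx
  have him0 := im_zero_le hA hd hz hG hfar' hd3
  set w : ℝ := (fderiv ℝ (A.G d) z (vt (Pi.single I 1))).im with hw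
  set w0 : ℝ := (fderiv ℝ (A.G d) z (vs 1 (Yv A z I 0))).im with hw0
  have hwlt : w ≤ -(1 / 2) := by
    have := (abs_le.1 him).2
    linarith
  set c : ℝ := -(w0 / w) with hc
  have hcabs : |c| ≤ 2 * L1 A := by
    rw [hc, abs_neg, abs_div, abs_of_neg (by linarith : w < 0), div_le_iff₀ (by linarith)]
    have : 0 ≤ L1 A := (abs_nonneg _).trans him0
    nlinarith
  have hL : |NND A.K1 z (vs 1 (Yv A z I c))| ≤ LL A := by
    refine (NND_Yv hA hz I c).trans ?_
    unfold LL
    gcongr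
  have hLL0 : 0 ≤ LL A := (abs_nonneg _).trans hL
  have hdL : 2 * d * LL A ≤ 1 := by
    have h1 : 16 * d * LL A * 1 ≤ 16 * d * LL A * (N + 1) :=
      mul_le_mul_of_nonneg_left (by linarith) (by positivity)
    have h3 : 0 ≤ d * LL A := by positivity
    nlinarith
  obtain ⟨b, hb0, hb⟩ := hB z hz (vs 1 (Yv A z I c)) (by
    intro i
    rcases eq_or_ne i I with hi | hi
    · subst hi
      exact Or.inr (Or.inl hfar')
    · rcases cases_var hA (z i) with h3 | h3 | ⟨h3, h4⟩
      · exact Or.inl h3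
      · exact Or.inr (Or.inl h3)
      · obtain ⟨r, hr0, -, hr, -⟩ := tm_near hA hd hz h3 h4 (y_near hi h3 h4) hL hdL
        exact Or.inr (Or.inr ⟨h3, y_near hi h3 h4, r, hr0, hr⟩))
  refine ⟨Yv A z I c, ?_, ?_⟩
  · rw [vs_Yv, map_add, map_smul, Complex.add_im, Complex.real_smul, Complex.im_ofReal_mul,
      ← hw, ← hw0, hc]
    have : w ≠ 0 := by linarith
    field_simp
    ring
  · rw [fderiv_G hA hd hz hG _ hb, Complex.sub_re, Complex.re_sum, Complex.ofReal_re]
    have key : ∀ i, (if i = I then (2 - A.ga) else 0) - (9 * A.ga + 16 * d * LL A) ≤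
        (A.tmD d z (vs 1 (Yv A z I c)) i).re := by
      intro i
      have hpos : 0 ≤ 9 * A.ga + 16 * d * LL A := by positivity
      rcases eq_or_ne i I with hi | hi
      · subst hi
        rw [if_pos rfl]
        unfold AG.tmD
        rw [chid_of_ge hd hx, AG.ch, chi_of_ge hd hx, fderiv_far hA i hfar', y_I]
        simp
        linarith
      · rw [if_neg hi, zero_sub]
        rcases cases_var hA (z i) with h3 | h3 | ⟨h3, h4⟩
        · rw [tmD_zero A hd _ h3]
          simp
          linarith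
        · have := tm_far hA hd hz h3 (y_far hi h3) hL
          linarith
        · obtain ⟨r, hr0, hr9, -, hr⟩ := tm_near hA hd hz h3 h4 (y_near hi h3 h4) hL hdL
          rw [hr, Complex.re_ofReal_mul]
          have h5 := hA.re_le i (z i) h3
          have h6 : r / (z i).re ≤ 0 := div_nonpos_of_nonpos_of_nonneg hr0 h3.le
          have h7 : r / (z i).re * (A.ga * (z i).re) ≤ r / (z i).re * (A.P i (z i)).re :=
            mul_le_mul_of_nonpos_left h5 h6
          have h8 : r / (z i).re * (A.ga * (z i).re) = r * A.ga := by field_simp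
          have h9 : 0 ≤ 16 * d * LL A := by positivity
          nlinarith
    have h5 : ∑ i, ((if i = I then (2 - A.ga) else 0) - (9 * A.ga + 16 * d * LL A)) ≤
        ∑ i, (A.tmD d z (vs 1 (Yv A z I c)) i).re := sum_le_sum fun i _ => key i
    rw [sum_sub_distrib, sum_ite_eq' univ I, if_pos (Finset.mem_univ I)] at h5
    simp only [sum_const, card_univ, Fintype.card_fin, nsmul_eq_mul] at h5
    have h6 : 16 * d * LL A * N ≤ 16 * d * LL A * (N + 1) :=
      mul_le_mul_of_nonneg_left (by linarith) (by positivity)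
    nlinarith

/-! ### tools for couplings -/

section tools

variable {d : ℝ} {z y : Fin N → ℂ} {i : Fin N}

/-- an inactive variable stays inactive: its positive part vanishes or it is steep. -/
lemma off_near (hd : 0 < d) (hz : z ≠ 0) (h : z i = 0 ∨ A.T * (z i).re < |(z i).im|) :
    ∀ᶠ h in 𝓝 (0 : ℝ), A.R d (lc z y h) i = 0 ∨
      (0 < (lc z y h i).re ∧ A.T < |(lc z y h i).im / (lc z y h i).re|) := by
  rcases h with h | h
  · filter_upwards [ch_zero_near A hd hz y h] with h hh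
    left
    unfold AG.R
    rw [hh, zero_mul]
  · have hc : Continuous fun h : ℝ => |(lc z y h i).im| - A.T * (lc z y h i).re := by
      simp only [lc_re, lc_im]
      fun_prop
    have h1 : 0 < |(lc z y 0 i).im| - A.T * (lc z y 0 i).re := by
      rw [lc_zero]; linarith
    filter_upwards [hc.continuousAt.eventually (lt_mem_nhds h1)] with h hh
    rcases le_or_gt (lc z y h i).re 0 with h2 | h2
    · left
      unfold AG.R
      rw [max_eq_left h2, mul_zero]
    · right
      refine ⟨h2, ?_⟩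
      rw [abs_div, abs_of_pos h2, lt_div_iff₀ h2]
      linarith

/-- the angle is constant along the radial direction. -/
lemma tau_near (h1 : 0 < (z i).re) (hy : y i = -(z i / ((z i).re : ℂ))) :
    ∀ᶠ h in 𝓝 (0 : ℝ), (lc z y h i).im / (lc z y h i).re = (z i).im / (z i).re := by
  have h2 : ∀ᶠ h : ℝ in 𝓝 0, h < (z i).re := gt_mem_nhds h1
  filter_upwards [h2] with h hh
  have e1 : (y i).re = -1 := by
    rw [hy, Complex.neg_re, Complex.div_ofReal_re, div_self h1.ne']
  have e2 : (y i).im = -((z i).im / (z i).re) := by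
    rw [hy, Complex.neg_im, Complex.div_ofReal_im]
  have h3 : (z i).re + h * -1 ≠ 0 := by
    have := sub_pos.2 hh
    intro h4
    linarith
  rw [lc_re, lc_im, e1, e2, div_eq_div_iff h3 h1.ne']
  field_simp

lemma R_nonneg (A : AG N) (d : ℝ) (z : Fin N → ℂ) (i : Fin N) : 0 ≤ A.R d z i :=
  mul_nonneg (A.ch_nonneg d z i) (le_max_left _ _)

end tools

/-! ### the constants -/

/-- bounds on `d` used in region I. -/
def dOk1 (A : AG N) (d : ℝ) : Prop := 1600 * N * (A.K ^ 2 + 1) * d ^ 2 ≤ 1 ∧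
  N * (3600 * A.T * (A.K + 1) * (A.K1 + 1) * d) ≤ 1 / 2 ∧ 16 * d * LL A * (N + 1) ≤ 1 / 2

/-- the bounds hold for small `d`; only `K1`, `T` and `N` matter. -/
lemma exists_dOk1 (K1 T : ℝ) : ∃ d0 : ℝ, 0 < d0 ∧ ∀ d, 0 < d → d ≤ d0 → ∀ A : AG N, A.Ok →
    A.K1 = K1 → A.T = T → dOk1 A d := by
  set K : ℝ := K1 * N with hK
  set a1 : ℝ := |1600 * N * (K ^ 2 + 1)| with ha1
  set a2 : ℝ := |N * (3600 * T * (K + 1) * (K1 + 1))| with ha2
  set a3 : ℝ := |16 * (N + 15 * (K1 + 1) * (N * T + 2 * (N * (240 * T * (K + 1) + T * (1 + T))))) *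
    (N + 1)| with ha3
  refine ⟨1 / (2 * (1 + a1 + a2 + a3)), by positivity, fun d hd h A hA h1 h2 => ?_⟩
  rw [le_div_iff₀ (by positivity)] at h
  have n1 : 0 ≤ a1 := abs_nonneg _
  have n2 : 0 ≤ a2 := abs_nonneg _
  have n3 : 0 ≤ a3 := abs_nonneg _
  have m1 : 0 ≤ d * a1 := by positivity
  have m2 : 0 ≤ d * a2 := by positivity
  have m3 : 0 ≤ d * a3 := by positivity
  have hd1 : d ≤ 1 := by nlinarith
  have hAK : A.K = K := by unfold AG.K; rw [h1]
  unfold dOk1 LL L1
  rw [hAK, h1, h2]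
  refine ⟨?_, ?_, ?_⟩
  · have e1 : 1600 * N * (K ^ 2 + 1) ≤ a1 := le_abs_self _
    calc 1600 * N * (K ^ 2 + 1) * d ^ 2 ≤ a1 * d ^ 2 := by gcongr
      _ ≤ a1 * d := by
          gcongr
          nlinarith
      _ ≤ 1 := by nlinarith
  · have e1 : N * (3600 * T * (K + 1) * (K1 + 1)) ≤ a2 := le_abs_self _
    calc N * (3600 * T * (K + 1) * (K1 + 1) * d) = N * (3600 * T * (K + 1) * (K1 + 1)) * d := by
          ring
      _ ≤ a2 * d := by gcongr
      _ ≤ 1 / 2 := by nlinarith
  · have e1 : 16 * (N + 15 * (K1 + 1) * (N * T + 2 * (N * (240 * T * (K + 1) + T * (1 + T))))) *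
      (N + 1) ≤ a3 := le_abs_self _
    calc 16 * d * (N + 15 * (K1 + 1) * (N * T + 2 * (N * (240 * T * (K + 1) + T * (1 + T))))) *
          (N + 1) = 16 * (N + 15 * (K1 + 1) * (N * T + 2 * (N * (240 * T * (K + 1) +
            T * (1 + T))))) * (N + 1) * d := by ring
      _ ≤ a3 * d := by gcongr
      _ ≤ 1 / 2 := by nlinarith

end Crest.Agent.R267.AbsK_996
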