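import Crest.Agent.R267.Calc_957

/-!
# Row 267, T3a: derivatives of `pl`, the gauges, the cut-offs and of `G`
-/

set_option autoImplicit false

noncomputable section

namespace Crest.Agent.R267.Calc2_957

open Finset T3aDefs_957 Calc_957

section fdiv

variable {E : Type*} [NormedAddCommGroup E] [NormedSpace ℝ E]

theorem fdiv {u v : E → ℝ} {u' v' : E →L[ℝ] ℝ} {z : E} (hu : HasFDerivAt u u' z)
    (hv : HasFDerivAt v v' z) (h : v z ≠ 0) :
    HasFDerivAt (fun w => u w / v w) ((1 / v z) • u' - (u z / v z ^ 2) • v') z := by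
  have h1 : HasFDerivAt (fun w => (v w)⁻¹) ((-(v z ^ 2)⁻¹) • v') z :=
    (hasDerivAt_inv h).comp_hasFDerivAt z hv
  have h2 : (fun w => u w / v w) = fun w => u w * (v w)⁻¹ := funext fun w => div_eq_mul_inv _ _
  rw [h2]
  refine (hu.mul h1).congr_fderiv ?_
  ext w
  simp only [ContinuousLinearMap.add_apply, ContinuousLinearMap.sub_apply,
    ContinuousLinearMap.smul_apply, smul_eq_mul]
  field_simp
  ring

theorem hasDerivAt_tp3 (x : ℝ) : HasDerivAt (tp 3) (3 * tp 2 x) x :=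
  (hasDerivAt_tp 1 x).congr_deriv (by push_cast; ring_nf)

end fdiv

/-! ### planar function -/

/-- `∂_s` of the planar function. -/
def pa (ga : ℝ) (M : ℕ) (z : ℂ) : ℂ :=
  if 0 < z.re then pv ga M (z.im / z.re) - ((z.im / z.re : ℝ) : ℂ) * pvd M (z.im / z.re)
  else -((2 - ga : ℝ) : ℂ)

/-- `∂_t` of the planar function. -/
def pb (M : ℕ) (z : ℂ) : ℂ := if 0 < z.re then pvd M (z.im / z.re) else -Complex.I

theorem far_nhds {M : ℕ} {z : ℂ} (h0 : z.re ≤ 0) (hz : z ≠ 0) :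
    ∀ᶠ w in nhds z, (8 * (M : ℝ) + 1) * w.re ≤ |w.im| := by
  have hc : Continuous fun w : ℂ => |w.im| - (8 * (M : ℝ) + 1) * w.re := by fun_prop
  have h1 : 0 < |z.im| - (8 * (M : ℝ) + 1) * z.re := by
    have hM : (0 : ℝ) < 8 * M + 1 := by positivity
    rcases eq_or_lt_of_le h0 with h2 | h2
    · have h3 : z.im ≠ 0 := fun h3 => hz (Complex.ext h2 h3)
      rw [h2, mul_zero, sub_zero]
      exact abs_pos.2 h3
    · have := mul_neg_of_pos_of_neg hM h2
      have := abs_nonneg z.im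
      linarith
  have h2 := hc.continuousAt.eventually (lt_mem_nhds h1)
  filter_upwards [h2] with w hw
  linarith

theorem hasFDerivAt_lin (a b : ℂ) (z : ℂ) :
    HasFDerivAt (fun w : ℂ => a * (w.re : ℂ) + b * (w.im : ℂ))
      (Complex.reCLM.smulRight a + Complex.imCLM.smulRight b) z := by
  have h : (fun w : ℂ => a * (w.re : ℂ) + b * (w.im : ℂ)) =
      ⇑(Complex.reCLM.smulRight a + Complex.imCLM.smulRight b) := by
    funext w
    simp [mul_comm]
  rw [h]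
  exact (Complex.reCLM.smulRight a + Complex.imCLM.smulRight b).hasFDerivAt

theorem hasFDerivAt_tau {z : ℂ} (h : z.re ≠ 0) :
    HasFDerivAt (fun w : ℂ => w.im / w.re)
      ((1 / z.re) • Complex.imCLM - (z.im / z.re ^ 2) • Complex.reCLM) z := by
  have h1 : HasFDerivAt (fun w : ℂ => w.im) Complex.imCLM z := Complex.imCLM.hasFDerivAt
  have h2 : HasFDerivAt (fun w : ℂ => w.re) Complex.reCLM z := Complex.reCLM.hasFDerivAt
  exact fdiv h1 h2 h

theorem hasFDerivAt_pl (ga : ℝ) (M : ℕ) {z : ℂ} (hz : z ≠ 0) :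
    HasFDerivAt (pl ga M) (Complex.reCLM.smulRight (pa ga M z) +
      Complex.imCLM.smulRight (pb M z)) z := by
  rcases le_or_gt z.re 0 with h0 | h0
  · have h1 : pl ga M =ᶠ[nhds z] fun w : ℂ => -((2 - ga : ℝ) : ℂ) * (w.re : ℂ) +
        (-Complex.I) * (w.im : ℂ) := by
      filter_upwards [far_nhds h0 hz] with w hw
      rw [pl_of_far (Or.inl hw)]
      ring
    have h2 : pa ga M z = -((2 - ga : ℝ) : ℂ) := if_neg (not_lt.2 h0)
    have h3 : pb M z = -Complex.I := if_neg (not_lt.2 h0)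
    rw [h2, h3]
    exact (hasFDerivAt_lin _ _ z).congr_of_eventuallyEq h1
  · have h1 : pl ga M =ᶠ[nhds z] fun w : ℂ => (w.re : ℂ) * pv ga M (w.im / w.re) := by
      have : ∀ᶠ w : ℂ in nhds z, 0 < w.re :=
        Complex.continuous_re.continuousAt.eventually (lt_mem_nhds h0)
      filter_upwards [this] with w hw
      exact pl_of_pos hw
    have h2 : pa ga M z = pv ga M (z.im / z.re) - ((z.im / z.re : ℝ) : ℂ) * pvd M (z.im / z.re) :=
      if_pos h0
    have h3 : pb M z = pvd M (z.im / z.re) := if_pos h0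
    rw [h2, h3]
    have h4 : HasFDerivAt (fun w : ℂ => pv ga M (w.im / w.re))
        (((1 / z.re) • Complex.imCLM - (z.im / z.re ^ 2) • Complex.reCLM).smulRight
          (pvd M (z.im / z.re))) z := by
      have := (hasDerivAt_pv ga M (z.im / z.re)).hasFDerivAt.comp z (hasFDerivAt_tau h0.ne')
      refine this.congr_fderiv ?_
      ext w
      simp
      ring
    have h5 : HasFDerivAt (fun w : ℂ => (w.re : ℂ)) (Complex.reCLM.smulRight (1 : ℂ)) z := by
      have : (fun w : ℂ => (w.re : ℂ)) = ⇑(Complex.reCLM.smulRight (1 : ℂ)) := by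
        funext w
        simp
      rw [this]
      exact (Complex.reCLM.smulRight (1 : ℂ)).hasFDerivAt
    refine ((h5.mul h4).congr_fderiv ?_).congr_of_eventuallyEq h1
    ext w
    simp
    have h6 : (z.re : ℂ) ≠ 0 := by exact_mod_cast h0.ne'
    field_simp
    ring

/-! ### gauges -/

/-- partial derivatives of `gq`. -/
def gA (K A B : ℝ) : ℝ := 1 - K ^ 2 * (3 * tp 2 (B - K ^ 2 * A)) / ((3 * K ^ 2 + 3) * (A + B) ^ 2) -
  2 * tp 3 (B - K ^ 2 * A) / ((3 * K ^ 2 + 3) * (A + B) ^ 3)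

def gB (K A B : ℝ) : ℝ := 3 * tp 2 (B - K ^ 2 * A) / ((3 * K ^ 2 + 3) * (A + B) ^ 2) -
  2 * tp 3 (B - K ^ 2 * A) / ((3 * K ^ 2 + 3) * (A + B) ^ 3)

section gq

variable {E : Type*} [NormedAddCommGroup E] [NormedSpace ℝ E]

theorem hasFDerivAt_gq (K : ℝ) {A B : E → ℝ} {A' B' : E →L[ℝ] ℝ} {z : E}
    (hA : HasFDerivAt A A' z) (hB : HasFDerivAt B B' z) (h : A z + B z ≠ 0) :
    HasFDerivAt (fun w => gq K (A w) (B w)) (gA K (A z) (B z) • A' + gB K (A z) (B z) • B') z := by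
  have h1 : HasFDerivAt (fun w => B w - K ^ 2 * A w) (B' - K ^ 2 • A') z :=
    hB.sub (hA.const_mul (K ^ 2))
  have h2 : HasFDerivAt (fun w => tp 3 (B w - K ^ 2 * A w))
      ((3 * tp 2 (B z - K ^ 2 * A z)) • (B' - K ^ 2 • A')) z := by
    have := HasDerivAt.comp_hasFDerivAt (h₂ := tp 3) (f := fun w => B w - K ^ 2 * A w) z
      (hasDerivAt_tp3 _) h1
    exact this
  have hK : 3 * K ^ 2 + 3 ≠ 0 := by positivity
  have h3 : HasFDerivAt (fun w => (3 * K ^ 2 + 3) * (A w + B w) ^ 2)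
      ((3 * K ^ 2 + 3) • ((2 * (A z + B z)) • (A' + B'))) z := by
    have := ((hA.add hB).pow 2).const_mul (3 * K ^ 2 + 3)
    refine this.congr_fderiv ?_
    ext w
    simp
    ring
  have h4 : (3 * K ^ 2 + 3) * (A z + B z) ^ 2 ≠ 0 := mul_ne_zero hK (pow_ne_zero _ h)
  have h5 := hA.add (fdiv h2 h3 h4)
  have h6 : (fun w => gq K (A w) (B w)) = fun w => A w +
      tp 3 (B w - K ^ 2 * A w) / ((3 * K ^ 2 + 3) * (A w + B w) ^ 2) := rfl
  rw [h6]
  refine h5.congr_fderiv ?_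
  ext w
  simp only [gA, gB, ContinuousLinearMap.add_apply, ContinuousLinearMap.smul_apply,
    ContinuousLinearMap.sub_apply, smul_eq_mul]
  field_simp
  ring

theorem gq_of_le {K A B : ℝ} (h : B ≤ K ^ 2 * A) : gq K A B = A := by
  unfold gq
  rw [max_eq_left (by linarith), zero_pow (by norm_num), zero_div, add_zero]

theorem gA_of_le {K A B : ℝ} (h : B ≤ K ^ 2 * A) : gA K A B = 1 := by
  unfold gA
  rw [tp_of_nonpos (by norm_num) (by linarith), tp_of_nonpos (by norm_num) (by linarith)]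
  simp

theorem gB_of_le {K A B : ℝ} (h : B ≤ K ^ 2 * A) : gB K A B = 0 := by
  unfold gB
  rw [tp_of_nonpos (by norm_num) (by linarith), tp_of_nonpos (by norm_num) (by linarith)]
  simp

theorem le_gq {K A B : ℝ} : A ≤ gq K A B := by
  unfold gq
  have : 0 ≤ (max 0 (B - K ^ 2 * A)) ^ 3 / ((3 * K ^ 2 + 3) * (A + B) ^ 2) :=
    div_nonneg (pow_nonneg (le_max_left _ _) _) (by positivity)
  linarith

theorem gq_pos {K A B : ℝ} (hA : 0 ≤ A) (hB : 0 ≤ B) (h : A + B ≠ 0) : 0 < gq K A B := by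
  rcases eq_or_lt_of_le hA with h0 | h0
  · rw [← h0] at h ⊢
    rw [zero_add] at h
    have hB' : 0 < B := lt_of_le_of_ne hB (Ne.symm h)
    unfold gq
    rw [mul_zero, sub_zero, zero_add, zero_add, max_eq_right hB]
    positivity
  · exact h0.trans_le le_gq

/-- Euler's relation. -/
theorem gq_euler {K A B : ℝ} (h : A + B ≠ 0) : gA K A B * A + gB K A B * B = gq K A B := by
  unfold gA gB gq
  have hK : 3 * K ^ 2 + 3 ≠ 0 := by positivity
  have h3 : tp 3 (B - K ^ 2 * A) = tp 2 (B - K ^ 2 * A) * (B - K ^ 2 * A) := by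
    rcases le_total (B - K ^ 2 * A) 0 with h1 | h1
    · rw [tp_of_nonpos (by norm_num) h1, tp_of_nonpos (by norm_num) h1, zero_mul]
    · rw [tp_of_nonneg h1, tp_of_nonneg h1]; ring
  have h4 : (max 0 (B - K ^ 2 * A)) ^ 3 = tp 3 (B - K ^ 2 * A) := rfl
  rw [h4, h3]
  field_simp
  ring

theorem gB_nonneg {K A B : ℝ} (hA : 0 ≤ A) (hB : 0 ≤ B) : 0 ≤ gB K A B := by
  rcases eq_or_ne (A + B) 0 with h | h
  · unfold gB
    rw [h]
    simp
  have h0 : 0 < A + B := lt_of_le_of_ne (add_nonneg hA hB) (Ne.symm h)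
  rcases le_total (B - K ^ 2 * A) 0 with h1 | h1
  · rw [gB_of_le (by linarith)]
  · unfold gB
    rw [tp_of_nonneg h1, tp_of_nonneg h1]
    have h2 : 3 * (B - K ^ 2 * A) ^ 2 / ((3 * K ^ 2 + 3) * (A + B) ^ 2) -
        2 * (B - K ^ 2 * A) ^ 3 / ((3 * K ^ 2 + 3) * (A + B) ^ 3) =
        (B - K ^ 2 * A) ^ 2 * (3 * (A + B) - 2 * (B - K ^ 2 * A)) /
          ((3 * K ^ 2 + 3) * (A + B) ^ 3) := by
      field_simp
    rw [h2]
    refine div_nonneg (mul_nonneg (sq_nonneg _) ?_) (by positivity)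
    have : 0 ≤ K ^ 2 * A := by positivity
    linarith

theorem gA_nonneg {K A B : ℝ} (hA : 0 ≤ A) (hB : 0 ≤ B) : 0 ≤ gA K A B := by
  rcases eq_or_ne (A + B) 0 with h | h
  · unfold gA
    rw [h]
    simp
  have h0 : 0 < A + B := lt_of_le_of_ne (add_nonneg hA hB) (Ne.symm h)
  rcases le_total (B - K ^ 2 * A) 0 with h1 | h1
  · rw [gA_of_le (by linarith)]
    exact zero_le_one
  · unfold gA
    rw [tp_of_nonneg h1, tp_of_nonneg h1]
    have hu : B - K ^ 2 * A ≤ A + B := by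
      have : 0 ≤ K ^ 2 * A := by positivity
      linarith
    have hu2 : (B - K ^ 2 * A) ^ 2 ≤ (A + B) ^ 2 := pow_le_pow_left₀ h1 hu 2
    have hu3 : (B - K ^ 2 * A) ^ 3 ≤ (A + B) ^ 3 := pow_le_pow_left₀ h1 hu 3
    have e1 : K ^ 2 * (3 * (B - K ^ 2 * A) ^ 2) / ((3 * K ^ 2 + 3) * (A + B) ^ 2) ≤
        3 * K ^ 2 / (3 * K ^ 2 + 3) := by
      rw [div_le_div_iff₀ (by positivity) (by positivity)]
      have : 0 ≤ 3 * K ^ 2 * (3 * K ^ 2 + 3) := by positivity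
      nlinarith
    have e2 : 2 * (B - K ^ 2 * A) ^ 3 / ((3 * K ^ 2 + 3) * (A + B) ^ 3) ≤
        2 / (3 * K ^ 2 + 3) := by
      rw [div_le_div_iff₀ (by positivity) (by positivity)]
      have : 0 ≤ 2 * (3 * K ^ 2 + 3) := by positivity
      nlinarith
    have e3 : 3 * K ^ 2 / (3 * K ^ 2 + 3) + 2 / (3 * K ^ 2 + 3) ≤ 1 := by
      rw [← add_div, div_le_one (by positivity)]
      linarith
    linarith

/-- a lower bound of the gauge. -/
theorem le_gq' {K A B : ℝ} (hA : 0 ≤ A) (hB : 0 ≤ B) : B ≤ (96 * K ^ 2 + 96) * gq K A B := by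
  rcases le_total B (2 * K ^ 2 * A) with h | h
  · have h1 : A ≤ gq K A B := le_gq
    have h2 : 0 ≤ gq K A B := hA.trans h1
    nlinarith [mul_nonneg (sq_nonneg K) h2, mul_nonneg (sq_nonneg K) (sub_nonneg.2 h1)]
  · rcases eq_or_lt_of_le hB with h0 | h0
    · rw [← h0]
      have h1 : A ≤ gq K A 0 := le_gq
      have : 0 ≤ 96 * K ^ 2 + 96 := by positivity
      exact mul_nonneg this (hA.trans h1)
    · have hu : B / 2 ≤ B - K ^ 2 * A := by linarith
      unfold gq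
      rw [max_eq_right (by linarith)]
      rcases le_total A B with hAB | hAB
      · have h2 : (B / 2) ^ 3 ≤ (B - K ^ 2 * A) ^ 3 := pow_le_pow_left₀ (by linarith) hu 3
        have h3 : (A + B) ^ 2 ≤ (2 * B) ^ 2 := pow_le_pow_left₀ (by linarith) (by linarith) 2
        have h4 : (B / 2) ^ 3 / ((3 * K ^ 2 + 3) * (2 * B) ^ 2) ≤
            (B - K ^ 2 * A) ^ 3 / ((3 * K ^ 2 + 3) * (A + B) ^ 2) := by
          have h7 : 0 < A + B := by linarith
          have h8 : 0 ≤ (B - K ^ 2 * A) ^ 3 := pow_nonneg (by linarith) _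
          refine div_le_div₀ h8 h2 (by positivity) ?_
          exact mul_le_mul_of_nonneg_left h3 (by positivity)
        have h5 : (B / 2) ^ 3 / ((3 * K ^ 2 + 3) * (2 * B) ^ 2) = B / (96 * K ^ 2 + 96) := by
          field_simp
          ring
        rw [h5] at h4
        have h6 : B = (96 * K ^ 2 + 96) * (B / (96 * K ^ 2 + 96)) := by
          field_simp
        calc B = (96 * K ^ 2 + 96) * (B / (96 * K ^ 2 + 96)) := h6
          _ ≤ _ := by
            apply mul_le_mul_of_nonneg_left _ (by positivity)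
            linarith
      · have h2 : 0 ≤ (B - K ^ 2 * A) ^ 3 / ((3 * K ^ 2 + 3) * (A + B) ^ 2) := by
          apply div_nonneg (pow_nonneg (by linarith) _) (by positivity)
        have h3 : 0 ≤ K ^ 2 * (A + (B - K ^ 2 * A) ^ 3 / ((3 * K ^ 2 + 3) * (A + B) ^ 2)) := by
          positivity
        nlinarith

theorem gq_le {K A B : ℝ} (hA : 0 ≤ A) (hB : 0 ≤ B) : gq K A B ≤ A + B := by
  rcases eq_or_ne (A + B) 0 with h | h
  · have h1 : A = 0 := by linarith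
    have h2 : B = 0 := by linarith
    rw [h1, h2]
    simp [gq]
  have h0 : 0 < A + B := lt_of_le_of_ne (add_nonneg hA hB) (Ne.symm h)
  unfold gq
  have h1 : (max 0 (B - K ^ 2 * A)) ≤ B := max_le hB (by nlinarith [mul_nonneg (sq_nonneg K) hA])
  have h2 : (max 0 (B - K ^ 2 * A)) ^ 3 ≤ B ^ 3 := pow_le_pow_left₀ (le_max_left _ _) h1 3
  have h3 : (max 0 (B - K ^ 2 * A)) ^ 3 / ((3 * K ^ 2 + 3) * (A + B) ^ 2) ≤ B := by
    rw [div_le_iff₀ (by positivity)]
    refine h2.trans ?_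
    have h4 : B ^ 2 ≤ (A + B) ^ 2 := pow_le_pow_left₀ hB (by linarith) 2
    have h5 : 1 ≤ 3 * K ^ 2 + 3 := by nlinarith [sq_nonneg K]
    calc B ^ 3 = B * (1 * B ^ 2) := by ring
      _ ≤ B * ((3 * K ^ 2 + 3) * (A + B) ^ 2) :=
        mul_le_mul_of_nonneg_left (mul_le_mul h5 h4 (sq_nonneg _) (by positivity)) hB
  linarith

theorem gA_le_one {K A B : ℝ} (hA : 0 ≤ A) (hB : 0 ≤ B) : gA K A B ≤ 1 := by
  unfold gA
  have h1 : 0 ≤ K ^ 2 * (3 * tp 2 (B - K ^ 2 * A)) / ((3 * K ^ 2 + 3) * (A + B) ^ 2) :=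
    div_nonneg (mul_nonneg (sq_nonneg _) (mul_nonneg (by norm_num) (tp_nonneg _ _))) (by positivity)
  have h2 : 0 ≤ 2 * tp 3 (B - K ^ 2 * A) / ((3 * K ^ 2 + 3) * (A + B) ^ 3) :=
    div_nonneg (mul_nonneg (by norm_num) (tp_nonneg _ _)) (by positivity)
  linarith

theorem gB_le {K A B : ℝ} (hA : 0 ≤ A) (hB : 0 ≤ B) : gB K A B ≤ 1 := by
  rcases eq_or_ne (A + B) 0 with h | h
  · unfold gB
    rw [h]
    simp
  have h0 : 0 < A + B := lt_of_le_of_ne (add_nonneg hA hB) (Ne.symm h)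
  unfold gB
  have h1 : (max 0 (B - K ^ 2 * A)) ≤ A + B :=
    max_le h0.le (by nlinarith [mul_nonneg (sq_nonneg K) hA])
  have h2 : tp 2 (B - K ^ 2 * A) ≤ (A + B) ^ 2 := pow_le_pow_left₀ (le_max_left _ _) h1 2
  have h3 : 3 * tp 2 (B - K ^ 2 * A) / ((3 * K ^ 2 + 3) * (A + B) ^ 2) ≤ 1 := by
    rw [div_le_one (by positivity)]
    have h5 : 3 ≤ 3 * K ^ 2 + 3 := by nlinarith [sq_nonneg K]
    exact mul_le_mul h5 h2 (tp_nonneg _ _) (by positivity)
  have h4 : 0 ≤ 2 * tp 3 (B - K ^ 2 * A) / ((3 * K ^ 2 + 3) * (A + B) ^ 3) :=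
    div_nonneg (mul_nonneg (by norm_num) (tp_nonneg _ _)) (by positivity)
  linarith

end gq

/-! ### planar gauge -/

/-- `∂_s` and `∂_t` of the planar gauge. -/
def ps (K : ℝ) (z : ℂ) : ℝ := gA K (z.re ^ 2) (z.im ^ 2) * z.re / pg K z

def pt (K : ℝ) (z : ℂ) : ℝ := gB K (z.re ^ 2) (z.im ^ 2) * z.im / pg K z

theorem sq_add_ne {z : ℂ} (hz : z ≠ 0) : z.re ^ 2 + z.im ^ 2 ≠ 0 := by
  intro h
  apply hz
  have h1 : z.re ^ 2 = 0 := by nlinarith [sq_nonneg z.re, sq_nonneg z.im]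
  have h2 : z.im ^ 2 = 0 := by nlinarith [sq_nonneg z.re, sq_nonneg z.im]
  exact Complex.ext (pow_eq_zero_iff (by norm_num) |>.1 h1) (pow_eq_zero_iff (by norm_num) |>.1 h2)

theorem pg_pos {K : ℝ} {z : ℂ} (hz : z ≠ 0) : 0 < pg K z :=
  Real.sqrt_pos.2 (gq_pos (sq_nonneg _) (sq_nonneg _) (sq_add_ne hz))

theorem pg_zero (K : ℝ) : pg K 0 = 0 := by
  simp [pg, gq]

theorem pg_nonneg (K : ℝ) (z : ℂ) : 0 ≤ pg K z := Real.sqrt_nonneg _

theorem pg_sq (K : ℝ) (z : ℂ) : pg K z ^ 2 = gq K (z.re ^ 2) (z.im ^ 2) :=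
  Real.sq_sqrt ((sq_nonneg _).trans le_gq)

theorem abs_re_le_pg (K : ℝ) (z : ℂ) : |z.re| ≤ pg K z := by
  rw [← Real.sqrt_sq_eq_abs]
  exact Real.sqrt_le_sqrt le_gq

theorem pg_of_le {K : ℝ} (hK : 0 ≤ K) {z : ℂ} (h : |z.im| ≤ K * |z.re|) : pg K z = |z.re| := by
  unfold pg
  rw [gq_of_le, Real.sqrt_sq_eq_abs]
  have h1 : |z.im| ^ 2 ≤ (K * |z.re|) ^ 2 := pow_le_pow_left₀ (abs_nonneg _) h 2
  rwa [mul_pow, sq_abs, sq_abs] at h1

theorem hasFDerivAt_pg (K : ℝ) {z : ℂ} (hz : z ≠ 0) :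
    HasFDerivAt (pg K) (ps K z • Complex.reCLM + pt K z • Complex.imCLM) z := by
  have h1 : HasFDerivAt (fun w : ℂ => w.re ^ 2) ((2 * z.re) • Complex.reCLM) z := by
    have := (Complex.reCLM.hasFDerivAt (x := z)).pow 2
    refine this.congr_fderiv ?_
    ext w
    simp
  have h2 : HasFDerivAt (fun w : ℂ => w.im ^ 2) ((2 * z.im) • Complex.imCLM) z := by
    have := (Complex.imCLM.hasFDerivAt (x := z)).pow 2
    refine this.congr_fderiv ?_
    ext w
    simp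
  have h3 := hasFDerivAt_gq K h1 h2 (sq_add_ne hz)
  have hpos := gq_pos (K := K) (sq_nonneg z.re) (sq_nonneg z.im) (sq_add_ne hz)
  have h4 := h3.sqrt hpos.ne'
  refine h4.congr_fderiv ?_
  have hp : √(gq K (z.re ^ 2) (z.im ^ 2)) = pg K z := rfl
  have hp0 := (pg_pos (K := K) hz).ne'
  ext w
  simp only [ps, pt, hp, ContinuousLinearMap.add_apply, ContinuousLinearMap.smul_apply,
    smul_eq_mul, Complex.reCLM_apply, Complex.imCLM_apply]
  field_simp

theorem pg_euler (K : ℝ) {z : ℂ} (hz : z ≠ 0) : ps K z * z.re + pt K z * z.im = pg K z := by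
  have h := gq_euler (K := K) (sq_add_ne hz)
  have hp0 := (pg_pos (K := K) hz).ne'
  have h2 := pg_sq K z
  unfold ps pt
  field_simp
  nlinarith

theorem ps_mul_nonneg (K : ℝ) (z : ℂ) : 0 ≤ ps K z * z.re := by
  unfold ps
  rw [div_mul_eq_mul_div]
  refine div_nonneg ?_ (pg_nonneg _ _)
  rw [mul_assoc]
  exact mul_nonneg (gA_nonneg (sq_nonneg _) (sq_nonneg _)) (mul_self_nonneg _)

theorem pt_mul_nonneg (K : ℝ) (z : ℂ) : 0 ≤ pt K z * z.im := by
  unfold pt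
  rw [div_mul_eq_mul_div]
  refine div_nonneg ?_ (pg_nonneg _ _)
  rw [mul_assoc]
  exact mul_nonneg (gB_nonneg (sq_nonneg _) (sq_nonneg _)) (mul_self_nonneg _)

theorem pt_of_le {K : ℝ} (hK : 0 ≤ K) {z : ℂ} (h : |z.im| ≤ K * |z.re|) : pt K z = 0 := by
  have h1 : |z.im| ^ 2 ≤ (K * |z.re|) ^ 2 := pow_le_pow_left₀ (abs_nonneg _) h 2
  rw [mul_pow, sq_abs, sq_abs] at h1
  unfold pt
  rw [gB_of_le h1]
  simp

theorem ps_of_le {K : ℝ} (hK : 0 ≤ K) {z : ℂ} (h : |z.im| ≤ K * |z.re|) :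
    ps K z = z.re / |z.re| := by
  have h1 : |z.im| ^ 2 ≤ (K * |z.re|) ^ 2 := pow_le_pow_left₀ (abs_nonneg _) h 2
  rw [mul_pow, sq_abs, sq_abs] at h1
  unfold ps
  rw [gA_of_le h1, pg_of_le hK h, one_mul]

end Crest.Agent.R267.Calc2_957
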