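import Mathlib

/-!
# Row 267 (helper951): LEMMA L of #2295 (helper855), algebraic form

`rf u v = Re (conj u v)`, `jf u v = Im (conj u v)`.  A real linear map `L : V → ℂ` which is not onto
has a conormal `u`: `‖u‖ = 1`, `0 ≤ Re u`, `rf u (L v) = 0` for all `v`.

`lemL`: at a point there are variables `i : ι` with radial vectors `ρ i`, angular vectors `α i`,
terms `Q i : ℂ` (degree `D i` in the `i`-th variable) and real couplings `B e ≥ 0` of degree
`n e i` in the `i`-th variable (`∑ i, n e i / D i = 1`):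
`L (ρ i) = D i Q i - ∑ e, n e i B e`.
-/

set_option autoImplicit false

noncomputable section

open Finset

namespace Crest.Agent.R267.LemL_951

/-- rotated real part -/
def rf (u v : ℂ) : ℝ := u.re * v.re + u.im * v.im

/-- rotated imaginary part -/
def jf (u v : ℂ) : ℝ := u.re * v.im - u.im * v.re

theorem rf_eq (u v : ℂ) : rf u v = ((starRingEnd ℂ) u * v).re := by
  simp [rf, Complex.mul_re]

theorem jf_eq (u v : ℂ) : jf u v = ((starRingEnd ℂ) u * v).im := by
  simp [jf, Complex.mul_im]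
  ring

theorem sq_of_norm {u : ℂ} (hu : ‖u‖ = 1) : u.re ^ 2 + u.im ^ 2 = 1 := by
  have h1 := Complex.sq_norm u
  rw [hu, Complex.normSq_apply] at h1
  nlinarith

theorem re_eq {u : ℂ} (hu : ‖u‖ = 1) (v : ℂ) : v.re = u.re * rf u v - u.im * jf u v := by
  have h := sq_of_norm hu
  have : u.re * rf u v - u.im * jf u v = (u.re ^ 2 + u.im ^ 2) * v.re := by
    unfold rf jf; ring
  rw [this, h, one_mul]

theorem im_eq {u : ℂ} (hu : ‖u‖ = 1) (v : ℂ) : v.im = u.im * rf u v + u.re * jf u v := by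
  have h := sq_of_norm hu
  have : u.im * rf u v + u.re * jf u v = (u.re ^ 2 + u.im ^ 2) * v.im := by
    unfold rf jf; ring
  rw [this, h, one_mul]

theorem rf_add (u v w : ℂ) : rf u (v + w) = rf u v + rf u w := by
  simp only [rf, Complex.add_re, Complex.add_im]; ring

theorem rf_sub (u v w : ℂ) : rf u (v - w) = rf u v - rf u w := by
  simp only [rf, Complex.sub_re, Complex.sub_im]; ring

theorem jf_add (u v w : ℂ) : jf u (v + w) = jf u v + jf u w := by
  simp only [jf, Complex.add_re, Complex.add_im]; ring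

theorem jf_sub (u v w : ℂ) : jf u (v - w) = jf u v - jf u w := by
  simp only [jf, Complex.sub_re, Complex.sub_im]; ring

theorem rf_sum {ι : Type*} (s : Finset ι) (u : ℂ) (f : ι → ℂ) :
    rf u (∑ i ∈ s, f i) = ∑ i ∈ s, rf u (f i) := by
  simp only [rf, Complex.re_sum, Complex.im_sum, mul_sum, sum_add_distrib]

theorem jf_sum {ι : Type*} (s : Finset ι) (u : ℂ) (f : ι → ℂ) :
    jf u (∑ i ∈ s, f i) = ∑ i ∈ s, jf u (f i) := by
  simp only [jf, Complex.re_sum, Complex.im_sum, mul_sum, sum_sub_distrib]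

theorem rf_ofReal (u : ℂ) (r : ℝ) : rf u (r : ℂ) = u.re * r := by simp [rf]

theorem jf_ofReal (u : ℂ) (r : ℝ) : jf u (r : ℂ) = -(u.im * r) := by simp [jf]

theorem rf_real_mul (u : ℂ) (r : ℝ) (v : ℂ) : rf u ((r : ℂ) * v) = r * rf u v := by
  simp only [rf, Complex.mul_re, Complex.mul_im, Complex.ofReal_re, Complex.ofReal_im]; ring

theorem jf_real_mul (u : ℂ) (r : ℝ) (v : ℂ) : jf u ((r : ℂ) * v) = r * jf u v := by
  simp only [jf, Complex.mul_re, Complex.mul_im, Complex.ofReal_re, Complex.ofReal_im]; ring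

theorem rf_I_mul (u v : ℂ) : rf u (Complex.I * v) = -jf u v := by
  simp only [rf, jf, Complex.mul_re, Complex.mul_im, Complex.I_re, Complex.I_im]; ring

theorem jf_I_mul (u v : ℂ) : jf u (Complex.I * v) = rf u v := by
  simp only [rf, jf, Complex.mul_re, Complex.mul_im, Complex.I_re, Complex.I_im]; ring

theorem eq_zero_of {u v : ℂ} (hu : ‖u‖ = 1) (h1 : rf u v = 0) (h2 : jf u v = 0) : v = 0 := by
  refine Complex.ext ?_ ?_
  · rw [re_eq hu, h1, h2]; simp
  · rw [im_eq hu, h1, h2]; simp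

/-- a real linear map to `ℂ` which is not onto has a conormal -/
theorem exists_conormal {V : Type*} [AddCommGroup V] [Module ℝ V] (L : V →ₗ[ℝ] ℂ)
    (h : ¬ Function.Surjective L) :
    ∃ u : ℂ, ‖u‖ = 1 ∧ 0 ≤ u.re ∧ ∀ v, rf u (L v) = 0 := by
  have h1 : LinearMap.range L < ⊤ := lt_top_iff_ne_top.2 fun h1 => h (LinearMap.range_eq_top.1 h1)
  obtain ⟨f, hf, hle⟩ := Submodule.exists_le_ker_of_lt_top _ h1
  have hfv : ∀ v : ℂ, f v = f 1 * v.re + f Complex.I * v.im := by
    intro v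
    have h2 : v = v.re • (1 : ℂ) + v.im • Complex.I := by
      refine Complex.ext ?_ ?_ <;> simp
    conv_lhs => rw [h2]
    rw [map_add, map_smul, map_smul, smul_eq_mul, smul_eq_mul]
    ring
  set w : ℂ := ⟨f 1, f Complex.I⟩ with hw
  have hw0 : w ≠ 0 := by
    intro h0
    apply hf
    ext v
    rw [hfv, show f 1 = w.re from rfl, show f Complex.I = w.im from rfl, h0]
    simp
  have hwv : ∀ v, rf w (L v) = 0 := by
    intro v
    have h2 : L v ∈ LinearMap.ker f := hle (LinearMap.mem_range_self L v)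
    rw [LinearMap.mem_ker, hfv] at h2
    exact h2
  have hn : 0 < ‖w‖ := norm_pos_iff.2 hw0
  by_cases hre : 0 ≤ w.re
  · refine ⟨((‖w‖⁻¹ : ℝ) : ℂ) * w, ?_, ?_, fun v => ?_⟩
    · rw [norm_mul, Complex.norm_real, Real.norm_of_nonneg (inv_nonneg.2 hn.le),
        inv_mul_cancel₀ hn.ne']
    · rw [Complex.re_ofReal_mul]
      exact mul_nonneg (inv_nonneg.2 hn.le) hre
    · have : rf (((‖w‖⁻¹ : ℝ) : ℂ) * w) (L v) = ‖w‖⁻¹ * rf w (L v) := by
        simp only [rf, Complex.re_ofReal_mul, Complex.im_ofReal_mul]; ring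
      rw [this, hwv, mul_zero]
  · refine ⟨((-‖w‖⁻¹ : ℝ) : ℂ) * w, ?_, ?_, fun v => ?_⟩
    · rw [norm_mul, Complex.norm_real, Real.norm_eq_abs, abs_neg,
        abs_of_nonneg (inv_nonneg.2 hn.le), inv_mul_cancel₀ hn.ne']
    · rw [Complex.re_ofReal_mul]
      have : w.re < 0 := lt_of_not_ge hre
      have h3 := inv_nonneg.2 hn.le
      nlinarith
    · have : rf (((-‖w‖⁻¹ : ℝ) : ℂ) * w) (L v) = -‖w‖⁻¹ * rf w (L v) := by
        simp only [rf, Complex.re_ofReal_mul, Complex.im_ofReal_mul]; ring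
      rw [this, hwv, mul_zero]

/-- case (b) -/
theorem case_b {u Q : ℂ} (hu : ‖u‖ = 1) (h0 : 0 ≤ u.re) (hr : 0 ≤ rf u Q) (hQ : Q.re < 0) :
    0 < u.im * jf u Q := by
  have h := re_eq hu Q
  have := mul_nonneg h0 hr
  linarith

/-- the condition on one variable: the term is negative, or the angular derivative helps -/
def Good (a Q : ℂ) : Prop :=
  ∀ u : ℂ, ‖u‖ = 1 → 0 ≤ u.re → rf u a = 0 → 0 ≤ rf u Q → 0 ≤ u.im * jf u Q

theorem good_of_neg {a Q : ℂ} (hQ : Q.re < 0) : Good a Q :=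
  fun _ hu h0 _ hr => (case_b hu h0 hr hQ).le

/-- case (c) -/
theorem good_of_rot {Q : ℂ} {ψ : ℝ} (hψ : ψ ≠ 0) : Good ((ψ : ℂ) * (Complex.I * Q)) Q := by
  intro u _ _ ha _
  rw [rf_real_mul, rf_I_mul] at ha
  have : jf u Q = 0 := by
    rcases mul_eq_zero.1 ha with h | h
    · exact absurd h hψ
    · linarith
  rw [this, mul_zero]

/-- circles with centre `-C` -/
theorem good_of_circle {Q w a : ℂ} {C ψ : ℝ} (hC : 0 ≤ C) (hψ : ψ ≠ 0)
    (hQ : Q = w - C) (ha : a = (ψ : ℂ) * (Complex.I * w)) : Good a Q := by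
  intro u _ _ h1 _
  rw [ha, rf_real_mul, rf_I_mul] at h1
  have h2 : jf u w = 0 := by
    rcases mul_eq_zero.1 h1 with h | h
    · exact absurd h hψ
    · linarith
  rw [hQ, jf_sub, h2, jf_ofReal]
  nlinarith [mul_nonneg hC (mul_self_nonneg u.im)]

/-- **LEMMA L, pointwise.**  `b i ≥ 0` is the Euler derivative of the real coupling in the `i`-th
variable, `∑ i, b i / D i` is the coupling itself. -/
theorem lemG {ι V : Type*} [Fintype ι] [AddCommGroup V] [Module ℝ V]
    (L : V →ₗ[ℝ] ℂ) (ρ α : ι → V) (D : ι → ℝ) (hD : ∀ i, 0 < D i) (Q : ι → ℂ) (b : ι → ℝ)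
    (hb : ∀ i, 0 ≤ b i)
    (hrad : ∀ i, L (ρ i) = (D i : ℂ) * Q i - (b i : ℂ))
    (hgood : ∀ i, Q i = 0 ∨ Good (L (α i)) (Q i))
    (hne : ∃ i, Q i ≠ 0)
    (hNC : (∀ i, D i * (Q i).re = b i) → (∀ i, (L (α i)).re = 0) →
      (∀ i, ¬ (Q i).re < 0) → False)
    (hre : 0 ≤ ∑ i, (Q i).re - ∑ i, b i / D i) : Function.Surjective L := by
  by_contra hL
  obtain ⟨u, hu, h0, hconv⟩ := exists_conormal L hL
  have hrf : ∀ i, D i * rf u (Q i) = u.re * b i := by
    intro i
    have h1 := hconv (ρ i)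
    rw [hrad, rf_sub, rf_real_mul, rf_ofReal] at h1
    linarith
  have hrf0 : ∀ i, 0 ≤ rf u (Q i) := by
    intro i
    by_contra h
    push Not at h
    have h1 := hrf i
    have h2 := mul_nonneg h0 (hb i)
    have h3 := mul_neg_of_pos_of_neg (hD i) h
    linarith
  have hrfF : ∑ i, rf u (Q i) = u.re * ∑ i, b i / D i := by
    rw [mul_sum]
    refine sum_congr rfl fun i _ => ?_
    have h2 := hrf i
    have := (hD i).ne'
    field_simp
    linarith
  have hterm : ∀ i, 0 ≤ u.im * jf u (Q i) := by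
    intro i
    rcases hgood i with h | h
    · rw [h]; simp [jf]
    · exact h u hu h0 (hconv _) (hrf0 i)
  have hsumre : ∑ i, (Q i).re = u.re * ∑ i, rf u (Q i) - ∑ i, u.im * jf u (Q i) := by
    rw [mul_sum, ← sum_sub_distrib]
    exact sum_congr rfl fun i _ => re_eq hu (Q i)
  have hBi : ∀ i, 0 ≤ b i / D i := fun i => div_nonneg (hb i) (hD i).le
  have hB0 : 0 ≤ ∑ i, b i / D i := sum_nonneg fun i _ => hBi i
  have hsq := sq_of_norm hu
  have hkey : u.im ^ 2 * ∑ i, b i / D i + ∑ i, u.im * jf u (Q i) ≤ 0 := by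
    rw [hsumre, hrfF] at hre
    have : u.im ^ 2 * ∑ i, b i / D i =
        ∑ i, b i / D i - u.re * (u.re * ∑ i, b i / D i) := by
      have h2 : u.im ^ 2 = 1 - u.re ^ 2 := by linarith
      rw [h2]; ring
    linarith
  have ht0 : 0 ≤ ∑ i, u.im * jf u (Q i) := sum_nonneg fun i _ => hterm i
  have hb0 : 0 ≤ u.im ^ 2 * ∑ i, b i / D i := mul_nonneg (sq_nonneg _) hB0
  have hts : ∑ i, u.im * jf u (Q i) = 0 := by linarith
  have hbs : u.im ^ 2 * ∑ i, b i / D i = 0 := by linarith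
  have hti : ∀ i, u.im * jf u (Q i) = 0 := fun i =>
    (sum_eq_zero_iff_of_nonneg fun i _ => hterm i).1 hts i (mem_univ i)
  have hnb : ∀ i, ¬ (Q i).re < 0 := fun i h => by
    have := case_b hu h0 (hrf0 i) h
    rw [hti i] at this
    exact lt_irrefl _ this
  by_cases him : u.im = 0
  · have hu1 : u.re = 1 := by
      rw [him] at hsq
      nlinarith
    have hrfre : ∀ v, rf u v = v.re := fun v => by simp [rf, him, hu1]
    refine hNC (fun i => ?_) (fun i => ?_) hnb
    · have := hrf i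
      rwa [hrfre, hu1, one_mul] at this
    · have := hconv (α i)
      rwa [hrfre] at this
  · have hBz : ∑ i, b i / D i = 0 := (mul_eq_zero.1 hbs).resolve_left (pow_ne_zero 2 him)
    have hbe : ∀ i, b i = 0 := fun i => by
      have := (sum_eq_zero_iff_of_nonneg fun i _ => hBi i).1 hBz i (mem_univ i)
      exact (div_eq_zero_iff.1 this).resolve_right (hD i).ne'
    obtain ⟨i, hi⟩ := hne
    apply hi
    refine eq_zero_of hu ?_ ?_
    · have h1 := hrf i
      rw [hbe i, mul_zero] at h1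
      exact (mul_eq_zero.1 h1).resolve_left (hD i).ne'
    · exact (mul_eq_zero.1 (hti i)).resolve_left him

/-- **LEMMA L, pointwise**, couplings `B e` of degree `n e i` in the `i`-th variable. -/
theorem lemL {ι ε V : Type*} [Fintype ι] [Fintype ε] [AddCommGroup V] [Module ℝ V]
    (L : V →ₗ[ℝ] ℂ) (ρ α : ι → V) (D : ι → ℝ) (hD : ∀ i, 0 < D i) (n : ε → ι → ℝ)
    (hn : ∀ e i, 0 ≤ n e i) (hsum : ∀ e, ∑ i, n e i / D i = 1) (Q : ι → ℂ) (B : ε → ℝ)
    (hB : ∀ e, 0 ≤ B e)
    (hrad : ∀ i, L (ρ i) = (D i : ℂ) * Q i - ((∑ e, n e i * B e : ℝ) : ℂ))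
    (hgood : ∀ i, Q i = 0 ∨ Good (L (α i)) (Q i))
    (hne : ∃ i, Q i ≠ 0)
    (hNC : (∀ i, D i * (Q i).re = ∑ e, n e i * B e) → (∀ i, (L (α i)).re = 0) →
      (∀ i, ¬ (Q i).re < 0) → False)
    (hre : 0 ≤ ∑ i, (Q i).re - ∑ e, B e) : Function.Surjective L := by
  refine lemG L ρ α D hD Q (fun i => ∑ e, n e i * B e)
    (fun i => sum_nonneg fun e _ => mul_nonneg (hn e i) (hB e)) hrad hgood hne hNC ?_
  have : ∑ i, (∑ e, n e i * B e) / D i = ∑ e, B e := by
    calc ∑ i, (∑ e, n e i * B e) / D i = ∑ i, ∑ e, n e i / D i * B e := by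
          refine sum_congr rfl fun i _ => ?_
          rw [sum_div]
          exact sum_congr rfl fun e _ => by ring
      _ = ∑ e, (∑ i, n e i / D i) * B e := by
          rw [sum_comm]
          exact sum_congr rfl fun e _ => by rw [sum_mul]
      _ = ∑ e, B e := by simp only [hsum, one_mul]
  rw [this]
  exact hre

end Crest.Agent.R267.LemL_951
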