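import Crest.Agent.R267.Calc_957
import Crest.Agent.R267.LemL_951

/-!
# Row 267, T3a: facts about the closed curve `Af v + i Bf v`, the planar function `pv` and the
windows `win`, in the form needed for K2 (region II)
-/

set_option autoImplicit false

noncomputable section

namespace Crest.Agent.R267.Curve_867

open Finset T3aDefs_957 Calc_957 LemL_951

/-! ### the derivatives of the curve -/

theorem Afd_odd (v : ℝ) : Afd (-v) = -Afd v := by
  unfold Afd
  rw [neg_neg]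
  ring

theorem Bfd_even (v : ℝ) : Bfd (-v) = Bfd v := by
  unfold Bfd
  rw [neg_neg]
  ring

theorem Af_even (v : ℝ) : Af (-v) = Af v := by
  unfold Af
  rw [abs_neg]

theorem Afd_neg {v : ℝ} (h : 1 < v) (h1 : v < 3) : Afd v < 0 := by
  unfold Afd
  rw [std_of_le (by linarith : (-v - 1) / 2 ≤ 0)]
  have := std_pos (x := (v - 1) / 2) (by linarith) (by linarith)
  linarith

theorem Bfd_of_mem {v : ℝ} (h : 1 ≤ v) (h1 : v ≤ 3) :
    Bfd v = 1 - (3 * (v - 1) ^ 2 / 2 - (v - 1) ^ 3 / 2) := by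
  unfold Bfd
  rw [gfd_of_mem h h1, gfd_of_le (by linarith : -v ≤ 1)]
  ring

theorem Bfd_pos {v : ℝ} (h : 1 ≤ v) (h1 : v < 2) : 0 < Bfd v := by
  rw [Bfd_of_mem h (by linarith)]
  have e : 1 - (3 * (v - 1) ^ 2 / 2 - (v - 1) ^ 3 / 2) =
      (2 - v) * (3 - (v - 2) ^ 2) / 2 := by ring
  rw [e]
  have h2 : 0 < 2 - v := by linarith
  have h3 : 0 < 3 - (v - 2) ^ 2 := by nlinarith
  positivity

theorem Bfd_neg {v : ℝ} (h : 2 < v) (h1 : v ≤ 3) : Bfd v < 0 := by
  rw [Bfd_of_mem (by linarith) h1]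
  have e : 1 - (3 * (v - 1) ^ 2 / 2 - (v - 1) ^ 3 / 2) =
      -((v - 2) * (3 - (v - 2) ^ 2) / 2) := by ring
  rw [e]
  have h2 : 0 < v - 2 := by linarith
  have h3 : 0 < 3 - (v - 2) ^ 2 := by nlinarith
  have : 0 < (v - 2) * (3 - (v - 2) ^ 2) / 2 := by positivity
  linarith

theorem Bfd_two : Bfd 2 = 0 := by
  rw [Bfd_of_mem (by norm_num) (by norm_num)]
  norm_num

/-! ### values -/

theorem Af_le_one (v : ℝ) : Af v ≤ 1 := by
  unfold Af; have := st_nonneg ((|v| - 1) / 2); linarith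

theorem st_le_one (x : ℝ) : st x ≤ 1 := by
  have := st_mono (le_max_left x 1)
  rwa [st_of_ge (le_max_right x 1)] at this

theorem neg_one_le_Af (v : ℝ) : -1 ≤ Af v := by
  unfold Af; have := st_le_one ((|v| - 1) / 2); linarith

theorem st_half : st (1 / 2) = 1 / 2 := by
  unfold st
  rw [c01_of_mem (by norm_num) (by norm_num)]
  norm_num

theorem Af_nonneg {v : ℝ} (h : |v| ≤ 2) : 0 ≤ Af v := by
  unfold Af
  have := st_mono (show (|v| - 1) / 2 ≤ 1 / 2 by linarith)
  rw [st_half] at this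
  linarith

theorem Af_nonpos {v : ℝ} (h : 2 ≤ |v|) : Af v ≤ 0 := by
  unfold Af
  have := st_mono (show 1 / 2 ≤ (|v| - 1) / 2 by linarith)
  rw [st_half] at this
  linarith

theorem Bf_mem {v : ℝ} (h : 1 ≤ v) (h1 : v ≤ 3) : 1 ≤ Bf v ∧ Bf v ≤ 13 / 8 := by
  rw [Bf_of_nonneg (by linarith), gf_of_mem h h1]
  have e : v - ((v - 1) ^ 3 / 2 - (v - 1) ^ 4 / 8) =
      13 / 8 - (v - 2) ^ 2 * (6 - (v - 2) ^ 2) / 8 := by ring
  have h2 : (v - 2) ^ 2 ≤ 1 := by nlinarith
  have h3 : 0 ≤ (v - 2) ^ 2 := sq_nonneg _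
  rw [e]
  constructor
  · nlinarith
  · have : 0 ≤ (v - 2) ^ 2 * (6 - (v - 2) ^ 2) := mul_nonneg h3 (by linarith)
    linarith

/-- **the curve**: position of the points with given tangent direction. -/
theorem curve {u : ℂ} (hu : 0 < u.re) {v : ℝ} (hv : |v| < 3)
    (h : u.re * Afd v + u.im * Bfd v = 0) :
    (u.im = 0 ∧ Af v = 1) ∨ (u.im ≠ 0 ∧ ∀ ε : ℝ, (ε = 1 ∨ ε = -1) → u.im = ε * |u.im| →
      ((0 ≤ Af v ∧ Af v ≤ 1 ∧ 1 ≤ ε * Bf v ∧ ε * Bf v ≤ 13 / 8) ∨
       (-1 ≤ Af v ∧ Af v ≤ 0 ∧ 1 ≤ -(ε * Bf v) ∧ -(ε * Bf v) ≤ 13 / 8))) := by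
  -- positive parameters
  have key : ∀ (w : ℝ) (y : ℝ), 1 < w → w < 3 → u.re * Afd w + y * Bfd w = 0 →
      (0 < y ∧ 0 ≤ Af w) ∨ (y < 0 ∧ Af w ≤ 0) := by
    intro w y h1 h3 h0
    have hA := mul_pos_of_neg_of_neg (Afd_neg h1 h3) (neg_lt_zero.2 hu)
    have hB : 0 < y * Bfd w := by nlinarith
    rcases lt_trichotomy w 2 with h2 | h2 | h2
    · left
      exact ⟨(pos_iff_pos_of_mul_pos hB).2 (Bfd_pos h1.le h2),
        Af_nonneg (by rw [abs_of_pos (by linarith)]; exact h2.le)⟩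
    · rw [h2, Bfd_two, mul_zero] at hB
      exact absurd hB (lt_irrefl _)
    · right
      have h4 := Bfd_neg h2 h3.le
      refine ⟨?_, Af_nonpos (by rw [abs_of_pos (by linarith)]; exact h2.le)⟩
      by_contra h5
      rw [not_lt] at h5
      have := mul_nonpos_of_nonneg_of_nonpos h5 h4.le
      linarith
  have sgn : ∀ ε : ℝ, (ε = 1 ∨ ε = -1) → u.im = ε * |u.im| → (0 < u.im → ε = 1) ∧
      (u.im < 0 → ε = -1) := by
    intro ε h1 h2
    refine ⟨fun h3 => ?_, fun h3 => ?_⟩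
    · rcases h1 with h1 | h1
      · exact h1
      · rw [h1, abs_of_pos h3] at h2; linarith
    · rcases h1 with h1 | h1
      · rw [h1, abs_of_neg h3] at h2; linarith
      · exact h1
  rcases le_or_gt |v| 1 with h1 | h1
  · left
    rw [Afd_of_abs_le h1, Bfd_of_abs_le h1] at h
    exact ⟨by linarith, Af_of_le h1⟩
  · right
    rcases le_or_gt 0 v with h0 | h0
    · rw [abs_of_nonneg h0] at h1 hv
      have hB := Bf_mem h1.le hv.le
      rcases key v u.im h1 hv h with ⟨h2, h3⟩ | ⟨h2, h3⟩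
      · refine ⟨h2.ne', fun ε he he2 => Or.inl ⟨h3, Af_le_one v, ?_⟩⟩
        rw [(sgn ε he he2).1 h2, one_mul]
        exact hB
      · refine ⟨h2.ne, fun ε he he2 => Or.inr ⟨neg_one_le_Af v, h3, ?_⟩⟩
        rw [(sgn ε he he2).2 h2]
        constructor <;> linarith [hB.1, hB.2]
    · rw [abs_of_neg h0] at h1 hv
      have hB := Bf_mem h1.le hv.le
      rw [Bf_neg] at hB
      have h' : u.re * Afd (-v) + (-u.im) * Bfd (-v) = 0 := by
        rw [Afd_odd, Bfd_even]
        linarith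
      have e1 := Af_even v
      rcases key (-v) (-u.im) h1 hv h' with ⟨h2, h3⟩ | ⟨h2, h3⟩
      · rw [e1] at h3
        have h4 : u.im < 0 := by linarith
        refine ⟨h4.ne, fun ε he he2 => Or.inl ⟨h3, Af_le_one v, ?_⟩⟩
        rw [(sgn ε he he2).2 h4]
        constructor <;> linarith [hB.1, hB.2]
      · rw [e1] at h3
        have h4 : 0 < u.im := by linarith
        refine ⟨h4.ne', fun ε he he2 => Or.inr ⟨neg_one_le_Af v, h3, ?_⟩⟩
        rw [(sgn ε he he2).1 h4]
        constructor <;> linarith [hB.1, hB.2]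

/-! ### windows -/

/-- derivative of a window. -/
def wd (m M : ℕ) (τ : ℝ) : ℝ :=
  std ((τ - (8 * m - 1)) / 2) / 2 * (1 - st ((τ - (8 * M - 1)) / 2)) -
    st ((τ - (8 * m - 1)) / 2) * (std ((τ - (8 * M - 1)) / 2) / 2)

theorem hasDerivAt_win (m M : ℕ) (τ : ℝ) : HasDerivAt (win m M) (wd m M τ) τ := by
  have e : ∀ a : ℝ, HasDerivAt (fun τ => st ((τ - a) / 2)) (std ((τ - a) / 2) / 2) τ := by
    intro a
    have h1 : HasDerivAt (fun τ : ℝ => (τ - a) / 2) (1 / 2) τ :=
      ((hasDerivAt_id τ).sub_const a).div_const 2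
    have h2 := (hasDerivAt_st ((τ - a) / 2)).comp τ h1
    refine h2.congr_deriv ?_
    ring
  have := (e (8 * m - 1)).mul ((e (8 * M - 1)).const_sub 1)
  refine this.congr_deriv ?_
  unfold wd
  ring

theorem win_nonneg (m M : ℕ) (τ : ℝ) : 0 ≤ win m M τ := by
  unfold win
  exact mul_nonneg (st_nonneg _) (by linarith [st_le_one ((τ - (8 * M - 1)) / 2)])

theorem win_le_one (m M : ℕ) (τ : ℝ) : win m M τ ≤ 1 := by
  unfold win
  have h1 := st_nonneg ((τ - (8 * m - 1)) / 2)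
  have h2 := st_le_one ((τ - (8 * m - 1)) / 2)
  have h3 := st_nonneg ((τ - (8 * M - 1)) / 2)
  have h4 := st_le_one ((τ - (8 * M - 1)) / 2)
  exact mul_le_one₀ h2 (by linarith) (by linarith)

theorem abs_wd_le (m M : ℕ) (τ : ℝ) : |wd m M τ| ≤ 1 := by
  unfold wd
  have h1 := st_nonneg ((τ - (8 * m - 1)) / 2)
  have h2 := st_le_one ((τ - (8 * m - 1)) / 2)
  have h3 := st_nonneg ((τ - (8 * M - 1)) / 2)
  have h4 := st_le_one ((τ - (8 * M - 1)) / 2)
  have h5 := std_nonneg ((τ - (8 * m - 1)) / 2)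
  have h6 := std_le ((τ - (8 * m - 1)) / 2)
  have h7 := std_nonneg ((τ - (8 * M - 1)) / 2)
  have h8 := std_le ((τ - (8 * M - 1)) / 2)
  have a1 : 0 ≤ std ((τ - (8 * m - 1)) / 2) / 2 * (1 - st ((τ - (8 * M - 1)) / 2)) :=
    mul_nonneg (by linarith) (by linarith)
  have a2 : 0 ≤ st ((τ - (8 * m - 1)) / 2) * (std ((τ - (8 * M - 1)) / 2) / 2) :=
    mul_nonneg (by linarith) (by linarith)
  have a3 : std ((τ - (8 * m - 1)) / 2) / 2 * (1 - st ((τ - (8 * M - 1)) / 2)) ≤ 1 :=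
    mul_le_one₀ (by linarith) (by linarith) (by linarith)
  have a4 : st ((τ - (8 * m - 1)) / 2) * (std ((τ - (8 * M - 1)) / 2) / 2) ≤ 1 :=
    mul_le_one₀ h2 (by linarith) (by linarith)
  rw [abs_le]
  constructor <;> linarith

/-- off the two transition zones the window is `0` or `1`. -/
theorem win_const {m M : ℕ} {τ : ℝ} (h1 : 1 ≤ |τ - 8 * m|) (h2 : 1 ≤ |τ - 8 * M|) :
    (win m M τ = 0 ∨ win m M τ = 1) ∧ wd m M τ = 0 := by
  unfold win wd
  rcases le_abs.1 h1 with h3 | h3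
  · rw [st_of_ge (by linarith : 1 ≤ (τ - (8 * m - 1)) / 2),
      std_of_ge (by linarith : 1 ≤ (τ - (8 * m - 1)) / 2)]
    rcases le_abs.1 h2 with h4 | h4
    · rw [st_of_ge (by linarith : 1 ≤ (τ - (8 * M - 1)) / 2),
        std_of_ge (by linarith : 1 ≤ (τ - (8 * M - 1)) / 2)]
      norm_num
    · rw [st_of_le (by linarith : (τ - (8 * M - 1)) / 2 ≤ 0),
        std_of_le (by linarith : (τ - (8 * M - 1)) / 2 ≤ 0)]
      norm_num
  · rw [st_of_le (by linarith : (τ - (8 * m - 1)) / 2 ≤ 0),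
      std_of_le (by linarith : (τ - (8 * m - 1)) / 2 ≤ 0)]
    norm_num

/-- inside a lobe the windows are constant. -/
theorem win_const_of_cell {m M l : ℕ} {τ : ℝ} (h : |τ - sg l| < 3) :
    (win m M τ = 0 ∨ win m M τ = 1) ∧ wd m M τ = 0 := by
  have key : ∀ k : ℕ, 1 ≤ |τ - 8 * k| := by
    intro k
    rw [abs_lt] at h
    unfold sg at h
    rcases le_or_gt k l with h1 | h1
    · have : (k : ℝ) ≤ l := by exact_mod_cast h1
      rw [le_abs]; left; linarith
    · have : (l : ℝ) + 1 ≤ k := by exact_mod_cast h1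
      rw [le_abs]; right; linarith
  exact win_const (key m) (key M)

/-- the window vanishes far away. -/
theorem win_far {m M : ℕ} {τ : ℝ} (h : 8 * (M : ℝ) + 1 ≤ |τ|) : win m M τ = 0 := by
  unfold win
  rcases le_abs.1 h with h1 | h1
  · rw [st_of_ge (by linarith : 1 ≤ (τ - (8 * M - 1)) / 2)]
    ring
  · have h2 : (0 : ℝ) ≤ m := m.cast_nonneg
    have h3 : (0 : ℝ) ≤ M := M.cast_nonneg
    rw [st_of_le (by linarith : (τ - (8 * m - 1)) / 2 ≤ 0)]
    ring

/-- where a window moves. -/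
theorem wd_ne {m M : ℕ} {τ : ℝ} (h : wd m M τ ≠ 0) :
    (m < M ∧ |τ - 8 * m| < 1) ∨ |τ - 8 * M| < 1 := by
  by_contra h0
  push Not at h0
  obtain ⟨h1, h2⟩ := h0
  rcases lt_or_ge m M with h3 | h3
  · exact h (win_const (h1 h3) h2).2
  · have h4 : (M : ℝ) ≤ m := by exact_mod_cast h3
    rcases le_or_gt 1 |τ - 8 * m| with h5 | h5
    · exact h (win_const h5 h2).2
    · rw [abs_lt] at h5
      refine h ?_
      unfold wd
      have h6 : 1 ≤ (τ - (8 * M - 1)) / 2 := by
        rcases le_abs.1 h2 with h6 | h6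
        · linarith
        · linarith
      rw [st_of_ge h6, std_of_ge h6]
      ring

/-! ### the planar function -/

/-- off the lobes the curve is on the vertical line and moves down. -/
theorem pv_vert {M : ℕ} {τ : ℝ} (h : ∀ l < M, 3 ≤ |τ - sg l|) :
    (∀ ga : ℝ, (pv ga M τ).re = -(2 - ga)) ∧
      ∃ κ : ℝ, 1 ≤ κ ∧ pvd M τ = -Complex.I * (κ : ℂ) := by
  rcases cases_tau M τ with h1 | ⟨l, hl, h1⟩ | h1
  · refine ⟨fun ga => ?_, 1, le_rfl, ?_⟩
    · rw [pv_low (by linarith)]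
      simp
    · rw [pvd_low (by linarith)]
      simp
  · have h2 := h l hl
    have h3 : Afd (τ - sg l) = 0 ∧ Bfd (τ - sg l) = -1 := by
      rcases le_abs.1 h2 with h3 | h3
      · exact ⟨Afd_of_ge h3, Bfd_of_ge h3⟩
      · exact ⟨Afd_of_le (by linarith), Bfd_of_le (by linarith)⟩
    refine ⟨fun ga => ?_, 1, le_rfl, ?_⟩
    · rw [pv_cell hl h1, Af_of_ge h2]
      simp
      ring
    · rw [pvd_cell hl h1, h3.1, h3.2]
      simp
  · refine ⟨fun ga => ?_, 1 + 8 * M * std (τ - 8 * M), ?_, ?_⟩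
    · rw [pv_high (by linarith)]
      simp
    · have := mul_nonneg (by positivity : (0 : ℝ) ≤ 8 * M) (std_nonneg (τ - 8 * M))
      linarith
    · rw [pvd_high (by linarith)]

/-- where a window moves, the imaginary part is bounded. -/
theorem pv_im_of_wd {m M : ℕ} {τ : ℝ} (ga : ℝ) (h : wd m M τ ≠ 0) :
    |(pv ga M τ).im| ≤ 8 * M + 1 := by
  have hM : (0 : ℝ) ≤ M := M.cast_nonneg
  rcases wd_ne h with ⟨h1, h2⟩ | h2
  · rw [abs_lt] at h2
    rcases Nat.eq_zero_or_pos m with h0 | h0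
    · rw [h0] at h2
      rw [pv_low (by push_cast at h2; linarith)]
      simp only [Complex.sub_im, Complex.neg_im, Complex.ofReal_im, Complex.mul_im, Complex.I_re,
        Complex.I_im, Complex.ofReal_re]
      push_cast at h2
      rw [abs_le]
      constructor <;> linarith
    · rcases le_total τ (8 * m) with h3 | h3
      · have h4 : |τ - sg (m - 1)| ≤ 4 := by
          unfold sg
          rw [Nat.cast_sub h0, abs_le]
          push_cast
          constructor <;> linarith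
        rw [pv_cell (by omega : m - 1 < M) h4]
        have h5 : 3 ≤ τ - sg (m - 1) := by
          unfold sg
          rw [Nat.cast_sub h0]
          push_cast
          linarith
        rw [Bf_of_ge h5]
        simp only [Complex.add_im, Complex.ofReal_im, Complex.mul_im, Complex.I_re,
          Complex.I_im, Complex.ofReal_re]
        unfold sg
        rw [Nat.cast_sub h0, abs_le]
        push_cast
        constructor <;> linarith
      · have h4 : |τ - sg m| ≤ 4 := by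
          unfold sg
          rw [abs_le]
          constructor <;> linarith
        rw [pv_cell h1 h4]
        have h5 : τ - sg m ≤ -3 := by
          unfold sg
          linarith
        rw [Bf_of_le h5]
        simp only [Complex.add_im, Complex.ofReal_im, Complex.mul_im, Complex.I_re,
          Complex.I_im, Complex.ofReal_re]
        unfold sg
        rw [abs_le]
        constructor <;> linarith
  · rw [abs_lt] at h2
    rw [pv_high (by linarith)]
    simp only [Complex.sub_im, Complex.ofReal_im, Complex.mul_im, Complex.I_re,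
      Complex.I_im, Complex.ofReal_re]
    have h3 := st_nonneg (τ - 8 * M)
    have h4 := st_le_one (τ - 8 * M)
    have h5 : 8 * (M : ℝ) * st (τ - 8 * M) ≤ 8 * M := by nlinarith
    have h6 : 0 ≤ 8 * (M : ℝ) * st (τ - 8 * M) := by positivity
    rw [abs_le]
    constructor <;> linarith

/-- inside a lobe. -/
theorem pv_lobe {ga : ℝ} {M l : ℕ} (hl : l < M) {τ : ℝ} (h : |τ - sg l| < 3) :
    (pv ga M τ).re = -(1 - ga) + Af (τ - sg l) ∧ (pv ga M τ).im = Bf (τ - sg l) ∧
      (pvd M τ).re = Afd (τ - sg l) ∧ (pvd M τ).im = Bfd (τ - sg l) := by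
  have h4 : |τ - sg l| ≤ 4 := by linarith
  rw [pv_cell hl h4, pvd_cell hl h4]
  refine ⟨?_, ?_, ?_, ?_⟩ <;> simp

end Crest.Agent.R267.Curve_867
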