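import Crest.Agent.R267.AbsK_996
import Crest.Agent.R267.CalcN_88

/-!
# Row 267, T3aN: the signed lobed function as an abstract lobed function
-/

set_option autoImplicit false

noncomputable section

namespace Crest.Agent.R267.AgN_996

open Set Filter Topology Finset
open Crest.Agent.R267.T3aDefs_957 (c01 st Af Bf)
open Crest.Agent.R267.T3aNDefs_88 Crest.Agent.R267.Calc_957 Crest.Agent.R267.CalcN_88
open Crest.Agent.R267.K1_996 (abs_eq_two Af_two)
open Crest.Agent.R267.CLine_996 (lc lc_re lc_im lc_zero)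
open Crest.Agent.R267.AbsG_996 Crest.Agent.R267.AbsK_996

variable {N : ℕ}

/-- `SD.G` as an abstract lobed function. -/
def agN (D : SD N) (cB ga d : ℝ) : AG N where
  K1 := D.K1
  ga := ga
  T := 16 * D.Mx + 1
  P := fun j => plN ga (D.sn j) (D.M j)
  B := fun z => cB * ga * ∑ e, D.Be d e z

theorem agN_G (D : SD N) (cB ga d : ℝ) : (agN D cB ga d).G d = D.G cB ga d := rfl

/-! ### planar facts -/

lemma plN_hom (ga : ℝ) (e : ℕ → ℝ) (M : ℕ) (w : ℂ) (r : ℝ) (hr : 0 < r) :
    plN ga e M ((r : ℂ) * w) = (r : ℂ) * plN ga e M w := by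
  have e1 : ((r : ℂ) * w).re = r * w.re := Complex.re_ofReal_mul _ _
  have e2 : ((r : ℂ) * w).im = r * w.im := Complex.im_ofReal_mul _ _
  unfold plN
  rw [e1, e2, mul_div_mul_left _ _ hr.ne']
  by_cases h : 0 < w.re
  · rw [if_pos h, if_pos (mul_pos hr h)]
    push_cast
    ring
  · rw [if_neg h, if_neg (fun h1 => h ((mul_pos_iff_of_pos_left hr).1 h1))]
    push_cast
    ring

lemma Af_le_one (v : ℝ) : Af v ≤ 1 := Curve_867.Af_le_one v

lemma pvN_re_le {ga : ℝ} (e : ℕ → ℝ) (M : ℕ) (τ : ℝ) : (pvN ga e M τ).re ≤ ga := by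
  rcases casesN_tau M τ with h1 | ⟨l, hl, h1⟩ | h1
  · rw [pvN_low (by linarith)]
    simp
  · rw [pvN_cell hl h1]
    have := Af_le_one (τ - sgN l)
    simp
    linarith
  · rw [pvN_high (by linarith)]
    simp

lemma abs_Bf_le {v : ℝ} (h : |v| ≤ 3) : |Bf v| ≤ 13 / 8 := by
  have key : ∀ w : ℝ, 0 ≤ w → w ≤ 3 → |Bf w| ≤ 13 / 8 := by
    intro w h0 h3
    rcases le_total w 1 with h1 | h1
    · rw [Bf_of_abs_le (by rwa [abs_of_nonneg h0]), abs_of_nonneg h0]
      linarith
    · obtain ⟨a, b⟩ := Curve_867.Bf_mem h1 h3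
      rw [abs_of_nonneg (by linarith)]
      exact b
  rcases le_total 0 v with h0 | h0
  · exact key v h0 (by rwa [abs_of_nonneg h0] at h)
  · have := key (-v) (by linarith) (by rwa [abs_of_nonpos h0] at h)
    rwa [Bf_neg, abs_neg] at this

lemma pvN_im_le {ga : ℝ} {e : ℕ → ℝ} (he : ∀ l, |e l| = 1) (M : ℕ) (τ : ℝ) :
    |(pvN ga e M τ).im| ≤ 3 + |τ| := by
  rcases casesN_tau M τ with h1 | ⟨l, hl, h1⟩ | h1
  · rw [pvN_low (by linarith)]
    simp
  · rw [pvN_cell hl h1]
    have h2 : |yc (e l) (τ - sgN l)| ≤ 3 := by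
      rcases le_total |τ - sgN l| 3 with h3 | h3
      · rw [(yc_in (by linarith)).1, abs_mul, he, one_mul]
        have := abs_Bf_le h3
        linarith
      · rcases le_total |τ - sgN l| 7 with h4 | h4
        · exact abs_yc_le (he l) h3 h4
        · rw [abs_le] at h1
          rcases le_abs.1 h4 with h5 | h5
          · rw [(yc_high h5).1, abs_le]
            constructor <;> linarith [h1.1, h1.2]
          · rw [(yc_low (by linarith)).1, abs_le]
            constructor <;> linarith [h1.1, h1.2]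
    have h3 := abs_nonneg τ
    simp only [Complex.add_im, Complex.ofReal_im, Complex.mul_im, Complex.I_re, Complex.I_im,
      Complex.ofReal_re, zero_mul, one_mul, zero_add]
    linarith
  · have hM : (0 : ℝ) ≤ M := M.cast_nonneg
    rw [pvN_high (by linarith)]
    have h2 := st_nonneg (τ - 16 * M)
    have h3 := st_le_one (τ - 16 * M)
    have h4 : 16 * (M : ℝ) * st (τ - 16 * M) ≤ 16 * M := by nlinarith
    have h5 : 0 ≤ 16 * (M : ℝ) * st (τ - 16 * M) := by positivity
    have h6 : 0 ≤ τ := by linarith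
    simp only [Complex.sub_im, Complex.ofReal_im, Complex.mul_im, Complex.I_re, Complex.I_im,
      Complex.ofReal_re, zero_mul, one_mul, zero_sub, add_zero, zero_add]
    rw [abs_of_nonneg h6, abs_neg, abs_of_nonneg (by linarith)]
    linarith

lemma plN_im_le {ga : ℝ} {e : ℕ → ℝ} (he : ∀ l, |e l| = 1) (M : ℕ) (w : ℂ) :
    |(plN ga e M w).im| ≤ 3 * (|w.re| + |w.im|) := by
  rcases le_or_gt w.re 0 with h | h
  · rw [plN_of_nonpos h]
    have h1 := abs_nonneg w.re
    have h2 := abs_nonneg w.im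
    simp
    linarith
  · rw [plN_of_pos h, Complex.im_ofReal_mul, abs_mul, abs_of_pos h]
    have h1 := pvN_im_le (ga := ga) he M (w.im / w.re)
    have h2 := abs_nonneg w.im
    calc w.re * |(pvN ga e M (w.im / w.re)).im| ≤ w.re * (3 + |w.im / w.re|) := by gcongr
      _ = 3 * w.re + |w.im| := by
          rw [abs_div, abs_of_pos h]
          field_simp
      _ ≤ _ := by linarith

/-- critical points of the height. -/
lemma critN {ga : ℝ} {e : ℕ → ℝ} (he : ∀ l, |e l| = 1) {M : ℕ} {w : ℂ}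
    (h : (pbN e M w).im = 0) : 0 < w.re ∧ (plN ga e M w).re ≤ -(1 - ga) * w.re := by
  unfold pbN at h
  split_ifs at h with hs
  · refine ⟨hs, ?_⟩
    rw [plN_of_pos hs, Complex.re_ofReal_mul, mul_comm]
    refine mul_le_mul_of_nonneg_right ?_ hs.le
    set τ := w.im / w.re
    rcases casesN_tau M τ with h1 | ⟨l, hl, h1⟩ | h1
    · rw [pvdN_low (by linarith)] at h
      norm_num at h
    · rcases le_or_gt |τ - sgN l| 3 with h3 | h3
      · obtain ⟨a1, a2, a3, a4⟩ := pvN_lobe (ga := ga) (e := e) hl (by linarith : |τ - sgN l| ≤ 6)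
        rw [a4] at h
        have h4 : e l ≠ 0 := by
          intro h0
          have := he l
          rw [h0] at this
          norm_num at this
        have h5 := (mul_eq_zero.1 h).resolve_left h4
        rw [a1, Af_two (abs_eq_two h5), add_zero]
      · rw [pvN_cell hl h1, Af_of_ge h3.le]
        simp
    · rw [pvdN_high (by linarith)] at h
      have h2 := std_nonneg (τ - 16 * M)
      have h3 : (0 : ℝ) ≤ M := M.cast_nonneg
      have h5 : 0 ≤ 16 * (M : ℝ) * std (τ - 16 * M) := by positivity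
      have h4 : -(1 + 16 * (M : ℝ) * std (τ - 16 * M)) = 0 := by simpa using h
      linarith
  · norm_num at h

lemma M_le_Mx (D : SD N) (j : Fin N) : (D.M j : ℝ) ≤ D.Mx := by
  have : D.M j ≤ D.Mx := by
    unfold SD.Mx
    exact single_le_sum (fun i _ => Nat.zero_le _) (mem_univ j)
  exact_mod_cast this

lemma Hm_nonneg {ι : Type} (S : Finset ι) (R : ι → ℝ) : 0 ≤ Hm S R := by
  unfold Hm
  split_ifs with h
  · exact one_div_nonneg.2 (sum_nonneg fun j hj => one_div_nonneg.2 (h j hj).le)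
  · exact le_rfl

lemma Be_nonneg (D : SD N) (d : ℝ) (e : Fin D.nb) (z : Fin N → ℂ) : 0 ≤ D.Be d e z :=
  mul_nonneg (Hm_nonneg _ _) (prod_nonneg fun j _ => winN_nonneg _ _ _)

lemma agN_ok (D : SD N) {cB ga : ℝ} (d : ℝ) (hc : 0 ≤ cB) (hg : 0 < ga) (hg1 : ga < 1) :
    (agN D cB ga d).Ok where
  T1 := by
    show (1 : ℝ) ≤ 16 * D.Mx + 1
    have : (0 : ℝ) ≤ D.Mx := Nat.cast_nonneg _
    linarith
  K1T := by
    show (16 * (D.Mx : ℝ) + 1) * N ≤ (16 * D.Mx + 2) * N
    have : (0 : ℝ) ≤ N := Nat.cast_nonneg _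
    gcongr
    norm_num
  ga0 := hg
  ga1 := hg1
  diff := fun j w hw => (hasFDerivAt_plN ga (D.sn j) (D.M j) hw).differentiableAt
  far := fun j w h => by
    change (16 * (D.Mx : ℝ) + 1) * w.re < |w.im| at h
    have : plN ga (D.sn j) (D.M j) w = -((2 - ga : ℝ) : ℂ) * w.re - Complex.I * w.im := by
      rcases le_or_gt w.re 0 with h1 | h1
      · exact plN_of_nonpos h1
      · refine plN_of_far (Or.inl ?_)
        have := M_le_Mx D j
        refine le_trans ?_ h.le
        gcongr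
    exact this
  hom := fun j w r hr => plN_hom ga (D.sn j) (D.M j) w r hr
  re_le := fun j w h => by
    show (plN ga (D.sn j) (D.M j) w).re ≤ ga * w.re
    rw [plN_of_pos h, Complex.re_ofReal_mul, mul_comm]
    exact mul_le_mul_of_nonneg_right (pvN_re_le _ _ _) h.le
  im_le := fun j w => by
    refine (plN_im_le (abs_sn D j) (D.M j) w).trans ?_
    have h1 := M_le_Mx D j
    have h2 : (1 : ℝ) ≤ D.M j := by exact_mod_cast D.hM j
    show 3 * (|w.re| + |w.im|) ≤ (16 * (D.Mx : ℝ) + 1) * (|w.re| + |w.im|)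
    gcongr
    linarith
  crit := fun j w hw h => by
    have e : fderiv ℝ (plN ga (D.sn j) (D.M j)) w Complex.I = pbN (D.sn j) (D.M j) w := by
      rw [(hasFDerivAt_plN ga (D.sn j) (D.M j) hw).fderiv]
      simp
    exact critN (ga := ga) (abs_sn D j) (M := D.M j) (w := w) (by rw [← e]; exact h)
  B0 := fun z => mul_nonneg (mul_nonneg hc hg.le) (sum_nonneg fun e _ => Be_nonneg D d e z)

/-! ### the coupling -/

lemma Hm_of_pos {ι : Type} {S : Finset ι} {R : ι → ℝ} (h : ∀ j ∈ S, 0 < R j) :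
    Hm S R = 1 / ∑ j ∈ S, 1 / R j := if_pos h

lemma Hm_of_zero {ι : Type} {S : Finset ι} {R : ι → ℝ} {j : ι} (hj : j ∈ S) (h : R j ≤ 0) :
    Hm S R = 0 := if_neg fun h1 => absurd (h1 j hj) (not_lt.2 h)

lemma Hm_le {ι : Type} {S : Finset ι} {R : ι → ℝ} {j : ι} (hj : j ∈ S) (h0 : 0 ≤ R j) :
    Hm S R ≤ R j := by
  by_cases h : ∀ j ∈ S, 0 < R j
  · rw [Hm_of_pos h]
    have h1 : 1 / R j ≤ ∑ j ∈ S, 1 / R j :=
      single_le_sum (f := fun j => 1 / R j) (fun i hi => one_div_nonneg.2 (h i hi).le) hj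
    rw [div_le_iff₀ (lt_of_lt_of_le (one_div_pos.2 (h j hj)) h1)]
    calc (1 : ℝ) = R j * (1 / R j) := by
          have := (h j hj).ne'
          field_simp
      _ ≤ _ := by gcongr
  · rw [Hm, if_neg h]
    exact h0

/-- derivative of the harmonic mean of nonnegative nonincreasing functions. -/
lemma hasDerivAt_Hm {ι : Type} {S : Finset ι} (hS : S.Nonempty) {R : ι → ℝ → ℝ} {r : ι → ℝ}
    (hR : ∀ j ∈ S, HasDerivAt (R j) (r j) 0) (hr : ∀ j ∈ S, r j ≤ 0)
    (h0 : ∀ j ∈ S, ∀ h, 0 ≤ R j h) :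
    ∃ b ≤ 0, HasDerivAt (fun h => Hm S fun j => R j h) b 0 := by
  by_cases hp : ∀ j ∈ S, 0 < R j 0
  · have h1 : HasDerivAt (fun h => ∑ j ∈ S, 1 / R j h) (∑ j ∈ S, -(r j) / R j 0 ^ 2) 0 := by
      refine HasDerivAt.fun_sum fun j hj => ?_
      simp only [one_div]
      exact (hR j hj).fun_inv (hp j hj).ne'
    have hpos : 0 < ∑ j ∈ S, 1 / R j 0 := sum_pos (fun j hj => one_div_pos.2 (hp j hj)) hS
    have h2 := h1.fun_inv hpos.ne'
    refine ⟨_, ?_, h2.congr_of_eventuallyEq ?_⟩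
    · refine div_nonpos_of_nonpos_of_nonneg ?_ (sq_nonneg _)
      rw [neg_nonpos]
      refine sum_nonneg fun j hj => div_nonneg ?_ (sq_nonneg _)
      linarith [hr j hj]
    · have h3 : ∀ᶠ h in 𝓝 (0 : ℝ), ∀ j ∈ S, 0 < R j h := by
        rw [eventually_all_finset]
        intro j hj
        exact (hR j hj).continuousAt.eventually (lt_mem_nhds (hp j hj))
      filter_upwards [h3] with h hh
      rw [Hm_of_pos hh]
      simp [one_div]
  · push Not at hp
    obtain ⟨j, hj, hj0⟩ := hp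
    have hj1 : R j 0 = 0 := le_antisymm hj0 (h0 j hj 0)
    have hrj : r j = 0 := by
      have : IsLocalMin (R j) 0 := by
        refine Eventually.of_forall fun h => ?_
        show R j 0 ≤ R j h
        rw [hj1]
        exact h0 j hj h
      exact this.hasDerivAt_eq_zero (hR j hj)
    refine ⟨0, le_rfl, ?_⟩
    have hu := hR j hj
    rw [hasDerivAt_iff_isLittleO] at hu ⊢
    rw [hrj, hj1] at hu
    have e0 : Hm S (fun j => R j 0) = 0 := Hm_of_zero hj hj0
    simp only [sub_zero, smul_eq_mul, mul_zero, e0] at hu ⊢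
    refine Asymptotics.IsBigO.trans_isLittleO ?_ hu
    refine Asymptotics.IsBigO.of_bound 1 (Eventually.of_forall fun h => ?_)
    rw [one_mul, Real.norm_of_nonneg (h0 j hj h), Real.norm_of_nonneg (Hm_nonneg _ _)]
    exact Hm_le hj (h0 j hj h)

lemma Be_deriv (D : SD N) {cB ga d : ℝ} (hd : 0 < d) {z : Fin N → ℂ} (hz : z ≠ 0)
    (y : Fin N → ℂ)
    (h : ∀ i, z i = 0 ∨ (agN D cB ga d).T * (z i).re < |(z i).im| ∨
      (0 < (z i).re ∧ y i = -(z i / ((z i).re : ℂ)) ∧
        ∃ r ≤ 0, HasDerivAt (fun h => (agN D cB ga d).R d (lc z y h) i) r 0))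
    (e : Fin D.nb) : ∃ b ≤ 0, HasDerivAt (fun h => D.Be d e (lc z y h)) b 0 := by
  have hMx : ∀ j, D.M j ≤ D.Mx := fun j => by
    have := M_le_Mx D j
    exact_mod_cast this
  by_cases h1 : ∃ j ∈ (D.bx e).S, z j = 0 ∨ (agN D cB ga d).T * (z j).re < |(z j).im|
  · obtain ⟨j, hj, hj1⟩ := h1
    refine ⟨0, le_rfl, (hasDerivAt_const (0 : ℝ) (0 : ℝ)).congr_of_eventuallyEq ?_⟩
    filter_upwards [off_near (A := agN D cB ga d) (y := y) hd hz hj1] with h hh
    unfold SD.Be
    rcases hh with hh | ⟨-, hh⟩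
    · have h3 : D.R d (lc z y h) j ≤ 0 := le_of_eq hh
      rw [Hm_of_zero hj h3, zero_mul]
    · have h3 : winN ((D.bx e).lo j) ((D.bx e).hi j) ((lc z y h j).im / (lc z y h j).re) = 0 := by
        refine winN_far (le_trans ?_ hh.le)
        show 16 * ((D.bx e).hi j : ℝ) + 1 ≤ 16 * D.Mx + 1
        have : ((D.bx e).hi j : ℝ) ≤ D.Mx := by exact_mod_cast (D.hhi e j hj).trans (hMx j)
        linarith
      rw [prod_eq_zero hj h3, mul_zero]
  · push Not at h1
    have h2 : ∀ j ∈ (D.bx e).S, 0 < (z j).re ∧ y j = -(z j / ((z j).re : ℂ)) ∧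
        ∃ r ≤ 0, HasDerivAt (fun h => (agN D cB ga d).R d (lc z y h) j) r 0 := fun j hj =>
      ((h j).resolve_left (h1 j hj).1).resolve_left (not_lt.2 (h1 j hj).2)
    have h3 : ∀ j : Fin N, ∃ r : ℝ, j ∈ (D.bx e).S →
        r ≤ 0 ∧ HasDerivAt (fun h => (agN D cB ga d).R d (lc z y h) j) r 0 := by
      intro j
      by_cases hj : j ∈ (D.bx e).S
      · obtain ⟨r, hr⟩ := (h2 j hj).2.2
        exact ⟨r, fun _ => hr⟩
      · exact ⟨0, fun hj' => absurd hj' hj⟩
    choose r hr using h3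
    have hne : (D.bx e).S.Nonempty := by
      rw [← card_pos]
      have := D.h2 e
      omega
    obtain ⟨b, hb0, hb⟩ := hasDerivAt_Hm hne (fun j hj => (hr j hj).2) (fun j hj => (hr j hj).1)
      (fun j _ h => R_nonneg (agN D cB ga d) d _ j)
    set W : ℝ := ∏ j ∈ (D.bx e).S, winN ((D.bx e).lo j) ((D.bx e).hi j) ((z j).im / (z j).re)
      with hW
    have hW0 : 0 ≤ W := prod_nonneg fun j _ => winN_nonneg _ _ _
    refine ⟨b * W, mul_nonpos_of_nonpos_of_nonneg hb0 hW0,
      (hb.mul_const W).congr_of_eventuallyEq ?_⟩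
    have h4 : ∀ᶠ h in 𝓝 (0 : ℝ), ∀ j ∈ (D.bx e).S,
        (lc z y h j).im / (lc z y h j).re = (z j).im / (z j).re := by
      rw [eventually_all_finset]
      intro j hj
      exact tau_near (h2 j hj).1 (h2 j hj).2.1
    filter_upwards [h4] with h hh
    unfold SD.Be
    rw [hW]
    congr 1
    exact prod_congr rfl fun j hj => by rw [hh j hj]

lemma agN_BOk (D : SD N) {cB ga d : ℝ} (hc : 0 ≤ cB) (hg : 0 < ga) (hd : 0 < d) :
    BOk (agN D cB ga d) d := by
  intro z hz y h
  choose b hb0 hb using fun e => Be_deriv D hd hz y h e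
  refine ⟨cB * ga * ∑ e, b e, ?_, (HasDerivAt.fun_sum fun e _ => hb e).const_mul _⟩
  exact mul_nonpos_of_nonneg_of_nonpos (mul_nonneg hc hg.le) (sum_nonpos fun e _ => hb0 e)

end Crest.Agent.R267.AgN_996
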