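import Crest.Agent.R267.Ang_739

/-!
# Row 267 (helper739): angular data, part 2: bumps and stairs
-/

set_option autoImplicit false

noncomputable section

open Set Filter Topology MeasureTheory
open scoped ContDiff

namespace Crest.Agent.R267.Ang_739

/-! ### bumps -/

/-- smooth `2π`-periodic even bump: `1` for `|x| ≤ w₁`, `0` for `w₂ ≤ |x| ≤ π` -/
def bmp (w₁ w₂ x : ℝ) : ℝ :=
  Real.smoothTransition ((Real.cos x - Real.cos w₂) / (Real.cos w₁ - Real.cos w₂))

section Bmp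

variable {w₁ w₂ : ℝ}

theorem bmp_per (w₁ w₂ : ℝ) : Per (bmp w₁ w₂) := fun x => by
  unfold bmp; rw [Real.cos_add_two_pi]

theorem bmp_neg (w₁ w₂ x : ℝ) : bmp w₁ w₂ (-x) = bmp w₁ w₂ x := by
  unfold bmp; rw [Real.cos_neg]

theorem contDiff_bmp (w₁ w₂ : ℝ) {n : ℕ∞} : ContDiff ℝ n (bmp w₁ w₂) := by
  unfold bmp
  exact Real.smoothTransition.contDiff.comp ((Real.contDiff_cos.sub contDiff_const).div_const _)

theorem bmp_nonneg (w₁ w₂ x : ℝ) : 0 ≤ bmp w₁ w₂ x := Real.smoothTransition.nonneg _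

theorem bmp_le_one (w₁ w₂ x : ℝ) : bmp w₁ w₂ x ≤ 1 := Real.smoothTransition.le_one _

theorem bmp_eq_one (h : Real.cos w₂ < Real.cos w₁) {x : ℝ} (hx : Real.cos w₁ ≤ Real.cos x) :
    bmp w₁ w₂ x = 1 := by
  unfold bmp
  apply Real.smoothTransition.one_of_one_le
  rw [one_le_div (by linarith)]
  linarith

theorem bmp_eq_zero (h : Real.cos w₂ < Real.cos w₁) {x : ℝ} (hx : Real.cos x ≤ Real.cos w₂) :
    bmp w₁ w₂ x = 0 := by
  unfold bmp
  apply Real.smoothTransition.zero_of_nonpos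
  exact div_nonpos_of_nonpos_of_nonneg (by linarith) (by linarith)

theorem bmp_pos (h : Real.cos w₂ < Real.cos w₁) {x : ℝ} (hx : Real.cos w₂ < Real.cos x) :
    0 < bmp w₁ w₂ x := by
  unfold bmp
  exact Real.smoothTransition.pos_of_pos (div_pos (by linarith) (by linarith))

theorem cos_lt_cos_of {h1 : 0 ≤ w₁} (h2 : w₁ < w₂) (h3 : w₂ ≤ Real.pi) :
    Real.cos w₂ < Real.cos w₁ := Real.cos_lt_cos_of_nonneg_of_le_pi h1 h3 h2

theorem bmp_one_of_abs (h1 : 0 ≤ w₁) (h2 : w₁ < w₂) (h3 : w₂ ≤ Real.pi) {x : ℝ}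
    (hx : |x| ≤ w₁) : bmp w₁ w₂ x = 1 := by
  refine bmp_eq_one (Real.cos_lt_cos_of_nonneg_of_le_pi h1 h3 h2) ?_
  rw [← Real.cos_abs x]
  exact Real.cos_le_cos_of_nonneg_of_le_pi (abs_nonneg x) (by linarith) hx

theorem bmp_zero_of_abs (h1 : 0 ≤ w₁) (h2 : w₁ < w₂) (h3 : w₂ ≤ Real.pi) {x : ℝ}
    (hx : w₂ ≤ |x|) (hx2 : |x| ≤ Real.pi) : bmp w₁ w₂ x = 0 := by
  refine bmp_eq_zero (Real.cos_lt_cos_of_nonneg_of_le_pi h1 h3 h2) ?_
  rw [← Real.cos_abs x]
  exact Real.cos_le_cos_of_nonneg_of_le_pi (by linarith) hx2 hx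

end Bmp

/-- a differentiable function with values in `[0, 1]` has derivative `0` where it is `0` or `1` -/
theorem deriv_zero_of_range {f : ℝ → ℝ} (h0 : ∀ x, 0 ≤ f x) (h1 : ∀ x, f x ≤ 1) {x : ℝ}
    (hx : f x = 0 ∨ f x = 1) : deriv f x = 0 := by
  rcases hx with hx | hx
  · exact IsLocalMin.deriv_eq_zero (Filter.Eventually.of_forall fun y => by rw [hx]; exact h0 y)
  · exact IsLocalMax.deriv_eq_zero (Filter.Eventually.of_forall fun y => by rw [hx]; exact h1 y)

theorem hasDerivAt_zero_of_range {f : ℝ → ℝ} (h0 : ∀ x, 0 ≤ f x) (h1 : ∀ x, f x ≤ 1) {x : ℝ}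
    (hd : DifferentiableAt ℝ f x) (hx : f x = 0 ∨ f x = 1) : HasDerivAt f 0 x := by
  rw [← deriv_zero_of_range h0 h1 hx]; exact hd.hasDerivAt

/-- bump of period `2π d` around `c`: `1` for `|y - c| ≤ w₁`, `0` for `w₂ ≤ |y - c| ≤ π d` -/
def sb (d : ℕ) (c w₁ w₂ y : ℝ) : ℝ := bmp (w₁ / d) (w₂ / d) ((y - c) / d)

section Sb

variable {d : ℕ} {c w₁ w₂ : ℝ}

theorem sb_per (hd : 1 ≤ d) (c w₁ w₂ y : ℝ) : sb d c w₁ w₂ (y + 2 * Real.pi * d) = sb d c w₁ w₂ y := by
  have hd' : (d : ℝ) ≠ 0 := by positivity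
  unfold sb
  rw [← bmp_per _ _ ((y - c) / d)]
  congr 1
  field_simp
  ring

theorem sb_per_int (hd : 1 ≤ d) (c w₁ w₂ y : ℝ) (k : ℤ) :
    sb d c w₁ w₂ (y + 2 * Real.pi * d * k) = sb d c w₁ w₂ y := by
  have h : Function.Periodic (sb d c w₁ w₂) (2 * Real.pi * d) := fun y => sb_per hd c w₁ w₂ y
  have := h.int_mul k y
  rwa [mul_comm (k : ℝ)] at this

theorem contDiff_sb (d : ℕ) (c w₁ w₂ : ℝ) {n : ℕ∞} : ContDiff ℝ n (sb d c w₁ w₂) :=
  (contDiff_bmp _ _).comp ((contDiff_id.sub contDiff_const).div_const _)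

theorem sb_nonneg (d : ℕ) (c w₁ w₂ y : ℝ) : 0 ≤ sb d c w₁ w₂ y := bmp_nonneg _ _ _
theorem sb_le_one (d : ℕ) (c w₁ w₂ y : ℝ) : sb d c w₁ w₂ y ≤ 1 := bmp_le_one _ _ _

theorem sb_one (hd : 1 ≤ d) (h1 : 0 ≤ w₁) (h2 : w₁ < w₂) (h3 : w₂ ≤ Real.pi * d) {y : ℝ}
    (hy : |y - c| ≤ w₁) : sb d c w₁ w₂ y = 1 := by
  have hd' : (0 : ℝ) < d := by positivity
  refine bmp_one_of_abs (by positivity) (div_lt_div_of_pos_right h2 hd') ?_ ?_
  · rwa [div_le_iff₀ hd']
  · rw [abs_div, abs_of_pos hd']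
    exact div_le_div_of_nonneg_right hy hd'.le

theorem sb_zero (hd : 1 ≤ d) (h1 : 0 ≤ w₁) (h2 : w₁ < w₂) (h3 : w₂ ≤ Real.pi * d) {y : ℝ}
    (hy : w₂ ≤ |y - c|) (hy2 : |y - c| ≤ Real.pi * d) : sb d c w₁ w₂ y = 0 := by
  have hd' : (0 : ℝ) < d := by positivity
  refine bmp_zero_of_abs (by positivity) (div_lt_div_of_pos_right h2 hd') ?_ ?_ ?_
  · rwa [div_le_iff₀ hd']
  · rw [abs_div, abs_of_pos hd']
    exact div_le_div_of_nonneg_right hy hd'.le
  · rw [abs_div, abs_of_pos hd', div_le_iff₀ hd']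
    exact hy2

/-- bumps in the phase -/
theorem Deg.per_sb {φ : ℝ → ℝ} (h : Deg d φ) (hd : 1 ≤ d) (c w₁ w₂ : ℝ) :
    Per fun x => sb d c w₁ w₂ (φ x) := fun x => by
  show sb d c w₁ w₂ (φ (x + 2 * Real.pi)) = _
  rw [h x, sb_per hd]

end Sb

/-! ### stairs -/

/-- density of the stairs -/
def stInt (J : ℝ) : ℝ := ∫ x in (0 : ℝ)..Real.pi, bmp (J / 2) J x

/-- smooth stairs: `S (x + 2π) = S x + 1`, constant `0` on `[J, 2π - J]`, `S 0 = -1/2` -/
def stair (J x : ℝ) : ℝ := (∫ y in (0 : ℝ)..x, bmp (J / 2) J y) / (2 * stInt J) - 1 / 2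

section Stair

variable {J : ℝ}

theorem continuous_bmp (w₁ w₂ : ℝ) : Continuous (bmp w₁ w₂) := (contDiff_bmp w₁ w₂ (n := 0)).continuous

theorem stInt_pos (h0 : 0 < J) (h1 : J < Real.pi) : 0 < stInt J := by
  unfold stInt
  have hc := continuous_bmp (J / 2) J
  have h2 : (∫ x in (0 : ℝ)..Real.pi, bmp (J / 2) J x) =
      (∫ x in (0 : ℝ)..(J / 2), bmp (J / 2) J x) + ∫ x in (J / 2)..Real.pi, bmp (J / 2) J x :=
    (intervalIntegral.integral_add_adjacent_intervals (hc.intervalIntegrable _ _)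
      (hc.intervalIntegrable _ _)).symm
  have h3 : (∫ x in (0 : ℝ)..(J / 2), bmp (J / 2) J x) = J / 2 := by
    rw [intervalIntegral.integral_congr (g := fun _ => (1 : ℝ))]
    · simp
    · intro x hx
      rw [uIcc_of_le (by linarith)] at hx
      exact bmp_one_of_abs (by linarith) (by linarith) h1.le
        (by rw [abs_of_nonneg hx.1]; exact hx.2)
  have h4 : 0 ≤ ∫ x in (J / 2)..Real.pi, bmp (J / 2) J x :=
    intervalIntegral.integral_nonneg (by linarith) fun x _ => bmp_nonneg _ _ _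
  rw [h2, h3]
  linarith

theorem hasDerivAt_stair (J x : ℝ) :
    HasDerivAt (stair J) (bmp (J / 2) J x / (2 * stInt J)) x := by
  have hc := continuous_bmp (J / 2) J
  have h1 : HasDerivAt (fun x => ∫ y in (0 : ℝ)..x, bmp (J / 2) J y) (bmp (J / 2) J x) x :=
    intervalIntegral.integral_hasDerivAt_right (hc.intervalIntegrable _ _)
      (hc.stronglyMeasurableAtFilter _ _) hc.continuousAt
  exact (h1.div_const _).sub_const _

theorem deriv_stair (J : ℝ) : deriv (stair J) = fun x => bmp (J / 2) J x / (2 * stInt J) :=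
  funext fun x => (hasDerivAt_stair J x).deriv

theorem contDiff_stair (J : ℝ) {n : ℕ∞} : ContDiff ℝ n (stair J) := by
  have h : ContDiff ℝ ∞ (stair J) := by
    rw [contDiff_infty_iff_deriv]
    refine ⟨fun x => (hasDerivAt_stair J x).differentiableAt, ?_⟩
    rw [deriv_stair]
    exact (contDiff_bmp _ _).div_const _
  exact h.of_le (by exact_mod_cast le_top)

theorem int_neg (J : ℝ) (x : ℝ) : (∫ y in (0 : ℝ)..(-x), bmp (J / 2) J y) =
    -∫ y in (0 : ℝ)..x, bmp (J / 2) J y := by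
  have h := intervalIntegral.integral_comp_neg (a := (0 : ℝ)) (b := x) (fun y => bmp (J / 2) J y)
  simp only [bmp_neg, neg_zero] at h
  rw [h, intervalIntegral.integral_symm]

theorem stair_per (h0 : 0 < J) (h1 : J < Real.pi) (x : ℝ) :
    stair J (x + 2 * Real.pi) = stair J x + 1 := by
  have hpos := stInt_pos h0 h1
  have hc := continuous_bmp (J / 2) J
  have h2 : (∫ y in (0 : ℝ)..(x + 2 * Real.pi), bmp (J / 2) J y) =
      (∫ y in (0 : ℝ)..x, bmp (J / 2) J y) + ∫ y in x..(x + 2 * Real.pi), bmp (J / 2) J y :=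
    (intervalIntegral.integral_add_adjacent_intervals (hc.intervalIntegrable _ _)
      (hc.intervalIntegrable _ _)).symm
  have h3 : (∫ y in x..(x + 2 * Real.pi), bmp (J / 2) J y) = 2 * stInt J := by
    rw [(bmp_per (J / 2) J).intervalIntegral_add_eq x (-Real.pi)]
    have e : -Real.pi + 2 * Real.pi = Real.pi := by ring
    rw [e, ← intervalIntegral.integral_add_adjacent_intervals (hc.intervalIntegrable (-Real.pi) 0)
      (hc.intervalIntegrable 0 Real.pi), intervalIntegral.integral_symm 0 (-Real.pi), int_neg,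
      neg_neg]
    unfold stInt
    ring
  unfold stair
  rw [h2, h3, add_div, div_self (by positivity)]
  ring

theorem stair_neg (J x : ℝ) :
    stair J (-x) = -1 - stair J x := by
  unfold stair
  rw [int_neg, neg_div]
  ring

theorem stair_pi (h0 : 0 < J) (h1 : J < Real.pi) : stair J Real.pi = 0 := by
  have hpos := stInt_pos h0 h1
  unfold stair
  change stInt J / (2 * stInt J) - 1 / 2 = 0
  field_simp
  ring

theorem stair_const (h0 : 0 < J) (h1 : J < Real.pi) {x : ℝ} (hx : J ≤ x)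
    (hx2 : x ≤ 2 * Real.pi - J) : stair J x = 0 := by
  have key : ∀ a b : ℝ, J ≤ a → a ≤ b → b ≤ 2 * Real.pi - J → stair J a = stair J b := by
    intro a b ha hab hb
    have hc := continuous_bmp (J / 2) J
    have h2 : (∫ y in (0 : ℝ)..b, bmp (J / 2) J y) =
        (∫ y in (0 : ℝ)..a, bmp (J / 2) J y) + ∫ y in a..b, bmp (J / 2) J y :=
      (intervalIntegral.integral_add_adjacent_intervals (hc.intervalIntegrable _ _)
        (hc.intervalIntegrable _ _)).symm
    have h3 : (∫ y in a..b, bmp (J / 2) J y) = 0 := by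
      rw [intervalIntegral.integral_congr (g := fun _ => (0 : ℝ))]
      · simp
      · intro y hy
        rw [uIcc_of_le hab] at hy
        refine bmp_eq_zero (Real.cos_lt_cos_of_nonneg_of_le_pi (by linarith) h1.le (by linarith)) ?_
        rcases le_total y Real.pi with h | h
        · exact Real.cos_le_cos_of_nonneg_of_le_pi h0.le h (by linarith [hy.1])
        · rw [← Real.cos_two_pi_sub y]
          exact Real.cos_le_cos_of_nonneg_of_le_pi h0.le (by linarith) (by linarith [hy.2])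
    unfold stair
    rw [h2, h3, add_zero]
  rcases le_total x Real.pi with h | h
  · rw [key x Real.pi hx h (by linarith), stair_pi h0 h1]
  · rw [← key Real.pi x (by linarith) h hx2, stair_pi h0 h1]

theorem stair_mono (h0 : 0 < J) (h1 : J < Real.pi) : Monotone (stair J) :=
  monotone_of_deriv_nonneg (fun x => (hasDerivAt_stair J x).differentiableAt) fun x => by
    rw [deriv_stair]
    exact div_nonneg (bmp_nonneg _ _ _) (by have := stInt_pos h0 h1; positivity)

end Stair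

/-! ### the aligned phase `d x + π + 2π e S_J(x)` -/

/-- aligned phase of degree `d + e`: `d x + π` for `J ≤ x ≤ 2π - J`, `e` extra turns in
`|x| ≤ J` -/
def aph (d e : ℕ) (J x : ℝ) : ℝ := d * x + Real.pi + 2 * Real.pi * e * stair J x

section Aph

variable {d e : ℕ} {J : ℝ}

theorem deg_aph (d e : ℕ) (h0 : 0 < J) (h1 : J < Real.pi) : Deg (d + e) (aph d e J) := fun x => by
  unfold aph
  rw [stair_per h0 h1]
  push_cast
  ring

theorem contDiff_aph (d e : ℕ) (J : ℝ) {n : ℕ∞} : ContDiff ℝ n (aph d e J) := by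
  unfold aph
  exact ((contDiff_const.mul contDiff_id).add contDiff_const).add
    (contDiff_const.mul (contDiff_stair J))

theorem hasDerivAt_aph (d e : ℕ) (J x : ℝ) :
    HasDerivAt (aph d e J) (d + 2 * Real.pi * e * (bmp (J / 2) J x / (2 * stInt J))) x := by
  have h1 : HasDerivAt (fun x : ℝ => (d : ℝ) * x + Real.pi) (d : ℝ) x := by
    simpa using ((hasDerivAt_id x).const_mul (d : ℝ)).add_const Real.pi
  exact h1.add ((hasDerivAt_stair J x).const_mul _)

theorem deriv_aph_ge (d e : ℕ) (h0 : 0 < J) (h1 : J < Real.pi) (x : ℝ) :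
    (d : ℝ) ≤ deriv (aph d e J) x := by
  rw [(hasDerivAt_aph d e J x).deriv]
  have := stInt_pos h0 h1
  have h2 := bmp_nonneg (J / 2) J x
  have : 0 ≤ 2 * Real.pi * e * (bmp (J / 2) J x / (2 * stInt J)) := by positivity
  linarith

theorem aph_out (d e : ℕ) (h0 : 0 < J) (h1 : J < Real.pi) {x : ℝ} (hx : J ≤ x)
    (hx2 : x ≤ 2 * Real.pi - J) : aph d e J x = d * x + Real.pi := by
  unfold aph
  rw [stair_const h0 h1 hx hx2]
  ring

theorem aph_neg (d e : ℕ) (J x : ℝ) :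
    aph d e J (-x) = 2 * Real.pi * (1 - e) - aph d e J x := by
  unfold aph
  rw [stair_neg]
  ring

theorem cis_aph_out (d e : ℕ) (h0 : 0 < J) (h1 : J < Real.pi) {x : ℝ} (hx : J ≤ |x|)
    (hx2 : |x| ≤ Real.pi) : cis (aph d e J x) = -cis (d * x) := by
  have hpi : ∀ y : ℝ, cis (y + Real.pi) = -cis y := fun y => by
    unfold cis
    rw [Complex.ofReal_add, add_mul, Complex.exp_add, Complex.exp_pi_mul_I, mul_neg_one]
  rcases le_total 0 x with h | h
  · rw [abs_of_nonneg h] at hx hx2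
    rw [aph_out d e h0 h1 hx (by linarith), hpi]
  · rw [abs_of_nonpos h] at hx hx2
    have h2 := aph_neg d e J (-x)
    rw [neg_neg, aph_out d e h0 h1 hx (by linarith)] at h2
    have h3 : aph d e J x = (d * x + Real.pi) + 2 * Real.pi * (-(e : ℤ) : ℤ) := by
      rw [h2]; push_cast; ring
    rw [h3, cis_per, hpi]

end Aph

end Crest.Agent.R267.Ang_739
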