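import Crest.Agent.R267.LobeDefs_407
import Crest.Agent.R267.AngB_739

/-!
# Row 267 (helper504): `AlignP` of `LobeDefs_407`: existence of aligned data and cut-offs
-/

set_option autoImplicit false

noncomputable section

open Crest.Agent.R267.Ang_739 Crest.Agent.R267.LobeDefs_407

namespace Crest.Agent.R267.Align_504

/-- `cos x ≥ 0`: `x` is `π/2`-close to a multiple of `2π`. -/
theorem near_of_cos {x : ℝ} (h : 0 ≤ Real.cos x) :
    ∃ q : ℤ, |x - 2 * Real.pi * q| ≤ Real.pi / 2 := by
  have hpi := Real.pi_pos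
  refine ⟨round (x / (2 * Real.pi)), ?_⟩
  set q : ℤ := round (x / (2 * Real.pi)) with hq
  have h1 : |x / (2 * Real.pi) - q| ≤ 1 / 2 := abs_sub_round _
  have h2 : |x - 2 * Real.pi * q| ≤ Real.pi := by
    have e : x - 2 * Real.pi * q = (2 * Real.pi) * (x / (2 * Real.pi) - q) := by
      field_simp
    rw [e, abs_mul, abs_of_pos (by positivity : 0 < 2 * Real.pi)]
    nlinarith
  by_contra hc
  push Not at hc
  have h3 : Real.cos (x - 2 * Real.pi * q) = Real.cos x := by
    have := Real.cos_sub_int_mul_two_pi x q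
    rw [← this]
    congr 1
    ring
  rw [← Real.cos_abs, ] at h3
  have h4 := Real.cos_neg_of_pi_div_two_lt_of_lt hc (by linarith)
  linarith

/-- `sb` vanishes on the complement of the bump, one period below the centre. -/
theorem sb_zero' {d : ℕ} {c w₁ w₂ y : ℝ} (hd : 1 ≤ d) (h1 : 0 ≤ w₁) (h2 : w₁ < w₂)
    (h3 : w₂ ≤ Real.pi * d) (hy : y ≤ c - w₂) (hy2 : c - 2 * Real.pi * d + w₂ ≤ y) :
    sb d c w₁ w₂ y = 0 := by
  by_cases h : c - Real.pi * d ≤ y
  · refine sb_zero hd h1 h2 h3 ?_ ?_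
    · rw [abs_of_nonpos (by linarith)]; linarith
    · rw [abs_of_nonpos (by linarith)]; linarith
  · push Not at h
    rw [← sb_per hd]
    refine sb_zero hd h1 h2 h3 ?_ ?_
    · rw [abs_of_nonneg (by linarith)]; linarith
    · rw [abs_of_nonneg (by linarith)]; linarith

/-- a bump function of period `2 π d` with values `0`, `1` on the lobes is a level function. -/
theorem lev_sb {N : ℕ} (hN : 1 ≤ N) {c w₁ w₂ : ℝ}
    (h : ∀ k < N, ∀ x : ℝ, |x - 2 * Real.pi * (k + 1)| ≤ Real.pi / 2 →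
      sb N c w₁ w₂ x = 0 ∨ sb N c w₁ w₂ x = 1) : Lev N (sb N c w₁ w₂) where
  smooth := contDiff_sb (n := 2) N c w₁ w₂
  per := fun x => sb_per hN c w₁ w₂ x
  nn := fun x => sb_nonneg _ _ _ _ _
  le := fun x => sb_le_one _ _ _ _ _
  flat := by
    intro x hx
    refine deriv_zero_of_range (fun y => sb_nonneg _ _ _ _ y) (fun y => sb_le_one _ _ _ _ y) ?_
    obtain ⟨q, hq⟩ := near_of_cos hx
    have hNz : (0 : ℤ) < N := by exact_mod_cast hN
    have hk0 := Int.emod_nonneg (q - 1) hNz.ne'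
    have hk1 := Int.emod_lt_of_pos (q - 1) hNz
    have hk2 := Int.emod_add_mul_ediv (q - 1) N
    obtain ⟨k, hk⟩ := Int.eq_ofNat_of_zero_le hk0
    set r : ℤ := (q - 1) / N with hr
    rw [hk] at hk1 hk2
    have hk3 : k < N := by exact_mod_cast hk1
    have e : (q : ℝ) = k + 1 + N * r := by
      have : (q - 1 : ℤ) = (k : ℤ) + N * r := hk2.symm
      have h' : ((q - 1 : ℤ) : ℝ) = (((k : ℤ) + N * r : ℤ) : ℝ) := by rw [this]
      push_cast at h'
      linarith
    have hx2 : |x - 2 * Real.pi * N * r - 2 * Real.pi * (k + 1)| ≤ Real.pi / 2 := by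
      rw [e] at hq
      convert hq using 2
      ring
    have h5 := h k hk3 _ hx2
    have h6 : sb N c w₁ w₂ (x - 2 * Real.pi * N * r) = sb N c w₁ w₂ x := by
      have := sb_per_int hN c w₁ w₂ x (-r)
      rw [← this]
      congr 1
      push_cast
      ring
    rwa [h6] at h5

/-! ### the two level functions -/

/-- level function equal to one on the lobes `m ≤ k` of `N` lobes -/
def lv (N m : ℕ) : ℝ → ℝ :=
  sb N (Real.pi * (m + N + 1)) (Real.pi * (N - m + 1 / 3)) (Real.pi * (N - m + 1 / 2))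

section Lv

variable {N m : ℕ}

theorem lv_zero (hm : 1 ≤ m) (hmN : m ≤ N) {y : ℝ} (h1 : 3 * Real.pi / 2 ≤ y)
    (h2 : y ≤ 2 * Real.pi * m + Real.pi / 2) : lv N m y = 0 := by
  have hpi := Real.pi_pos
  have hm' : (1 : ℝ) ≤ m := by exact_mod_cast hm
  have hmN' : (m : ℝ) ≤ N := by exact_mod_cast hmN
  refine sb_zero' (hm.trans hmN) ?_ ?_ ?_ ?_ ?_
  · have : 0 ≤ (N : ℝ) - m + 1 / 3 := by linarith
    positivity
  · exact mul_lt_mul_of_pos_left (by linarith) hpi
  · exact mul_le_mul_of_nonneg_left (by linarith) hpi.le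
  · linarith
  · linarith

theorem lv_one (hm : 1 ≤ m) (hmN : m ≤ N) {y : ℝ}
    (h1 : 2 * Real.pi * m + 2 * Real.pi / 3 ≤ y)
    (h2 : y ≤ 2 * Real.pi * N + 4 * Real.pi / 3) : lv N m y = 1 := by
  have hpi := Real.pi_pos
  have hm' : (1 : ℝ) ≤ m := by exact_mod_cast hm
  have hmN' : (m : ℝ) ≤ N := by exact_mod_cast hmN
  refine sb_one (hm.trans hmN) ?_ ?_ ?_ ?_
  · have : 0 ≤ (N : ℝ) - m + 1 / 3 := by linarith
    positivity
  · exact mul_lt_mul_of_pos_left (by linarith) hpi
  · exact mul_le_mul_of_nonneg_left (by linarith) hpi.le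
  · rw [abs_le]
    constructor <;> linarith

theorem lv_pat (hm : 1 ≤ m) (hmN : m ≤ N) {k : ℕ} (hk : k < N) {x : ℝ}
    (hx : |x - 2 * Real.pi * (k + 1)| ≤ Real.pi / 2) : lv N m x = if m ≤ k then 1 else 0 := by
  have hpi := Real.pi_pos
  rw [abs_le] at hx
  split_ifs with h
  · have h1 : (m : ℝ) ≤ k := by exact_mod_cast h
    have h2 : (k : ℝ) + 1 ≤ N := by exact_mod_cast hk
    refine lv_one hm hmN ?_ ?_
    · nlinarith [mul_le_mul_of_nonneg_left h1 hpi.le]
    · nlinarith [mul_le_mul_of_nonneg_left h2 hpi.le]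
  · push Not at h
    have h1 : (k : ℝ) + 1 ≤ m := by exact_mod_cast h
    have h2 : (0 : ℝ) ≤ k := by positivity
    refine lv_zero hm hmN ?_ ?_
    · nlinarith [mul_nonneg hpi.le h2]
    · nlinarith [mul_le_mul_of_nonneg_left h1 hpi.le]

theorem lv_lev (hm : 1 ≤ m) (hmN : m ≤ N) : Lev N (lv N m) := by
  refine lev_sb (hm.trans hmN) fun k hk x hx => ?_
  have h := lv_pat hm hmN hk hx
  unfold lv at h
  rw [h]
  split_ifs
  · right; rfl
  · left; rfl

end Lv

/-- level function equal to one on the last lobe only -/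
def bt (d : ℕ) : ℝ → ℝ := sb d 0 (Real.pi / 2) (Real.pi / 2 + Real.pi / (4 * d))

section Bt

variable {d : ℕ}

theorem w2_le (hd : 1 ≤ d) : Real.pi / 2 + Real.pi / (4 * d) ≤ 3 * Real.pi / 4 := by
  have hpi := Real.pi_pos
  have hd' : (1 : ℝ) ≤ d := by exact_mod_cast hd
  have : Real.pi / (4 * d) ≤ Real.pi / 4 :=
    div_le_div_of_nonneg_left hpi.le (by norm_num) (by linarith)
  linarith

theorem w2_gt (hd : 1 ≤ d) : Real.pi / 2 < Real.pi / 2 + Real.pi / (4 * d) := by
  have hpi := Real.pi_pos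
  have hd' : (1 : ℝ) ≤ d := by exact_mod_cast hd
  have : 0 < Real.pi / (4 * d) := by positivity
  linarith

theorem w2_pi (hd : 1 ≤ d) : Real.pi / 2 + Real.pi / (4 * d) ≤ Real.pi * d := by
  have hpi := Real.pi_pos
  have hd' : (1 : ℝ) ≤ d := by exact_mod_cast hd
  have := w2_le hd
  nlinarith

theorem bt_pat (hd : 1 ≤ d) {k : ℕ} (hk : k < d) {x : ℝ}
    (hx : |x - 2 * Real.pi * (k + 1)| ≤ Real.pi / 2) : bt d x = if k + 1 = d then 1 else 0 := by
  have hpi := Real.pi_pos
  have hw := w2_le hd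
  split_ifs with h
  · have e : bt d x = sb d 0 (Real.pi / 2) (Real.pi / 2 + Real.pi / (4 * d))
        (x - 2 * Real.pi * d) := by
      rw [← sb_per hd, sub_add_cancel]
      rfl
    rw [e]
    refine sb_one hd (by positivity) (w2_gt hd) (w2_pi hd) ?_
    have h' : (k : ℝ) + 1 = d := by exact_mod_cast h
    rw [sub_zero, ← h']
    exact hx
  · have h' : k + 1 ≤ d - 1 := by omega
    have h'' : (k : ℝ) + 1 ≤ d - 1 := by
      have : k + 1 + 1 ≤ d := by omega
      have : ((k : ℝ) + 1) + 1 ≤ d := by exact_mod_cast this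
      linarith
    have hk0 : (0 : ℝ) ≤ k := by positivity
    rw [abs_le] at hx
    have e : bt d x = sb d 0 (Real.pi / 2) (Real.pi / 2 + Real.pi / (4 * d))
        (x - 2 * Real.pi * d) := by
      rw [← sb_per hd, sub_add_cancel]
      rfl
    rw [e]
    refine sb_zero' hd (by positivity) (w2_gt hd) (w2_pi hd) ?_ ?_
    · nlinarith [mul_le_mul_of_nonneg_left h'' hpi.le]
    · nlinarith [mul_nonneg hpi.le hk0]

theorem bt_lev (hd : 1 ≤ d) : Lev d (bt d) := by
  refine lev_sb hd fun k hk x hx => ?_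
  have h := bt_pat hd hk hx
  unfold bt at h
  rw [h]
  split_ifs
  · right; rfl
  · left; rfl

theorem bt_cutY (hd : 1 ≤ d) : CutY d fun x => bt d ((d : ℝ) * x) where
  smooth := (contDiff_sb (n := 2) d _ _ _).comp (contDiff_const.mul contDiff_id)
  per := by
    intro x
    show bt d ((d : ℝ) * (x + 2 * Real.pi)) = bt d ((d : ℝ) * x)
    rw [show (d : ℝ) * (x + 2 * Real.pi) = d * x + 2 * Real.pi * d by ring]
    exact sb_per hd _ _ _ _
  nn := fun x => sb_nonneg _ _ _ _ _
  le := fun x => sb_le_one _ _ _ _ _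
  one := by
    intro x hx
    have hd' : (0 : ℝ) < d := by exact_mod_cast hd
    refine sb_one hd (by positivity) (w2_gt hd) (w2_pi hd) ?_
    rw [sub_zero, abs_mul, abs_of_pos hd']
    rw [le_div_iff₀ (by positivity)] at hx
    linarith
  zero := by
    intro x hx hx2
    have hpi := Real.pi_pos
    have hd' : (0 : ℝ) < d := by exact_mod_cast hd
    have hd1 : (1 : ℝ) ≤ d := by exact_mod_cast hd
    have hdx : |(d : ℝ) * x| = d * |x| := by rw [abs_mul, abs_of_pos hd']
    by_cases h : Real.pi / 2 + Real.pi / (4 * d) ≤ |(d : ℝ) * x|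
    · left
      refine sb_zero hd (by positivity) (w2_gt hd) (w2_pi hd) (by rwa [sub_zero]) ?_
      rw [sub_zero, hdx]
      nlinarith
    · right
      push Not at h
      have h1 : Real.pi / 2 < |(d : ℝ) * x| := by
        rw [hdx]
        rw [div_lt_iff₀ (by positivity)] at hx
        linarith
      constructor
      · rw [← Real.cos_abs]
        exact Real.cos_neg_of_pi_div_two_lt_of_lt h1 (by linarith [w2_le hd])
      · have h2 : Real.cos (((d : ℝ) - 1) * x) = Real.sin (Real.pi / 2 - ((d : ℝ) - 1) * |x|) := by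
          rw [Real.sin_pi_div_two_sub, ← Real.cos_abs, abs_mul,
            abs_of_nonneg (by linarith : (0 : ℝ) ≤ (d : ℝ) - 1)]
        have h3 : |x| < (Real.pi / 2 + Real.pi / (4 * d)) / d := by
          rw [lt_div_iff₀ hd']
          rw [hdx] at h
          linarith
        have h4 : Real.pi * (d + 1) / (4 * d ^ 2) ≤ Real.pi / 2 - ((d : ℝ) - 1) * |x| := by
          have h5 : ((d : ℝ) - 1) * |x| ≤ ((d : ℝ) - 1) * ((Real.pi / 2 + Real.pi / (4 * d)) / d) :=
            mul_le_mul_of_nonneg_left h3.le (by linarith)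
          have h6 : Real.pi / 2 - ((d : ℝ) - 1) * ((Real.pi / 2 + Real.pi / (4 * d)) / d) =
              Real.pi * (d + 1) / (4 * d ^ 2) := by
            field_simp
            ring
          linarith
        have h7 : 0 ≤ Real.pi / 2 - ((d : ℝ) - 1) * |x| := le_trans (by positivity) h4
        have h8 : Real.pi / 2 - ((d : ℝ) - 1) * |x| ≤ Real.pi / 2 := by
          have : 0 ≤ ((d : ℝ) - 1) * |x| := mul_nonneg (by linarith) (abs_nonneg x)
          linarith
        have h9 := Real.mul_le_sin h7 h8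
        rw [h2]
        have h10 : ((d : ℝ) + 1) / (2 * d ^ 2) ≤ Real.sin (Real.pi / 2 - ((d : ℝ) - 1) * |x|) := by
          refine le_trans ?_ h9
          have h11 : 2 / Real.pi * (Real.pi * (d + 1) / (4 * d ^ 2)) = ((d : ℝ) + 1) / (2 * d ^ 2) := by
            field_simp
            ring
          rw [← h11]
          exact mul_le_mul_of_nonneg_left h4 (by positivity)
        have h12 : (1 : ℝ) ≤ (2 * (d : ℝ) - 1) * (((d : ℝ) + 1) / (2 * d ^ 2)) := by
          rw [mul_div_assoc', le_div_iff₀ (by positivity)]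
          nlinarith
        exact h12.trans (mul_le_mul_of_nonneg_left h10 (by linarith))

end Bt

/-! ### the aligned cut-off in `x` -/

theorem lv_cutX {d N : ℕ} (hd : 1 ≤ d) (hdN : d ≤ N) :
    CutX d fun x => lv N d (aph d (N - d) (Real.pi / (3 * d)) x) := by
  have hpi := Real.pi_pos
  have hd' : (0 : ℝ) < d := by exact_mod_cast hd
  have hd1 : (1 : ℝ) ≤ d := by exact_mod_cast hd
  have hJ0 : 0 < Real.pi / (3 * d) := by positivity
  have hJ1 : Real.pi / (3 * d) < Real.pi := by
    rw [div_lt_iff₀ (by positivity)]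
    nlinarith
  have hdeg : Deg N (aph d (N - d) (Real.pi / (3 * d))) := by
    have := deg_aph d (N - d) hJ0 hJ1
    rwa [Nat.add_sub_cancel' hdN] at this
  have hcast : ((N - d : ℕ) : ℝ) = N - d := by
    rw [Nat.cast_sub hdN]
  refine ⟨?_, ?_, fun x => sb_nonneg _ _ _ _ _, fun x => sb_le_one _ _ _ _ _, ?_, ?_⟩
  · exact (contDiff_sb (n := 2) N _ _ _).comp (contDiff_aph (n := 2) d (N - d) _)
  · exact hdeg.per_sb (hd.trans hdN) _ _ _
  · intro x hx
    have hmono : Monotone (aph d (N - d) (Real.pi / (3 * d))) :=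
      monotone_of_deriv_nonneg
        (fun x => (hasDerivAt_aph d (N - d) (Real.pi / (3 * d)) x).differentiableAt)
        fun x => hd'.le.trans (deriv_aph_ge d (N - d) hJ0 hJ1 x)
    rw [abs_le] at hx
    have e1 : aph d (N - d) (Real.pi / (3 * d)) (Real.pi / (3 * d)) = 4 * Real.pi / 3 := by
      rw [aph_out d (N - d) hJ0 hJ1 le_rfl (by linarith)]
      field_simp
      ring
    have h1 : aph d (N - d) (Real.pi / (3 * d)) x ≤ 4 * Real.pi / 3 := by
      rw [← e1]; exact hmono hx.2
    have h2 : 2 * Real.pi / 3 - 2 * Real.pi * (N - d) ≤ aph d (N - d) (Real.pi / (3 * d)) x := by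
      have h3 := hmono hx.1
      rw [aph_neg, e1, hcast] at h3
      linarith
    show lv N d (aph d (N - d) (Real.pi / (3 * d)) x) = 1
    have e2 := (lv_lev hd hdN).per (aph d (N - d) (Real.pi / (3 * d)) x)
    rw [← e2]
    refine lv_one hd hdN ?_ ?_
    · linarith
    · linarith
  · intro x hx hx2
    have hJJ : Real.pi / (3 * d) ≤ Real.pi / (2 * d) :=
      div_le_div_of_nonneg_left hpi.le (by positivity) (by linarith)
    show lv N d (aph d (N - d) (Real.pi / (3 * d)) x) = 0
    rw [aph_out d (N - d) hJ0 hJ1 (by linarith) (by linarith)]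
    rw [div_le_iff₀ (by positivity)] at hx
    have hx3 : (d : ℝ) * x ≤ 2 * Real.pi * d - Real.pi / 2 := by
      have h4 := mul_le_mul_of_nonneg_left hx2 hd'.le
      have h5 : (d : ℝ) * (2 * Real.pi - Real.pi / (2 * d)) = 2 * Real.pi * d - Real.pi / 2 := by
        field_simp
      linarith
    refine lv_zero hd hdN ?_ ?_
    · linarith
    · linarith

/-! ### aligned data -/

variable {n : ℕ}

/-- the exponent of circle `i` -/
def dD (a : Fin (n + 1) → ℕ) (e : Fin n) (i : Fin (n + 1)) : ℝ :=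
  if (i : ℕ) = e then ((a e.succ + 1 : ℕ) : ℝ) else 9

/-- the size of circle `i` -/
def eE (a : Fin (n + 1) → ℕ) (e : Fin n) (i : Fin (n + 1)) : ℝ :=
  if (i : ℕ) = e then (1 / 3) * ((1 / ((a e.succ + 1 : ℕ) : ℝ)) *
    ((((a e.succ + 1 : ℕ) : ℝ) - 1) / ((a e.succ + 1 : ℕ) : ℝ)) ^ (a e.succ + 1 - 1)) else 1

def pP (e e' : Fin n) : ℝ := if (e' : ℕ) + 1 = e then 9 / 4 else 9 / 2

def mM (a : Fin (n + 1) → ℕ) (e e' : Fin n) : ℝ :=
  if (e' : ℕ) + 1 = e then 3 * ((a e.succ + 1 : ℕ) : ℝ) / 4 else 9 / 2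

def kK (a : Fin (n + 1) → ℕ) (e e' : Fin n) : ℝ :=
  (pP e e' / dD a e e'.castSucc) ^ (pP e e' / dD a e e'.castSucc) *
    (mM a e e' / dD a e e'.succ) ^ (mM a e e' / dD a e e'.succ)

def lL (a : Fin (n + 1) → ℕ) (e e' : Fin n) : ℝ :=
  eE a e e'.castSucc ^ (pP e e' / dD a e e'.castSucc) *
    eE a e e'.succ ^ (mM a e e' / dD a e e'.succ)

/-- aligned data at `e` -/
def XX (a : Fin (n + 1) → ℕ) (e : Fin n) : LD n where
  D := dD a e
  ep := eE a e
  ph := fun i => if (i : ℕ) = e then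
    aph (a e.succ + 1) (dg a i - (a e.succ + 1)) (Real.pi / (3 * ((a e.succ + 1 : ℕ) : ℝ)))
    else fun x => (dg a i : ℝ) * x
  c := fun e' => (lL a e e' + 1) / kK a e e'
  p := pP e
  m := mM a e
  lam := fun e' => lv (dg a e'.castSucc) (dg a e'.succ)
  bet := fun e' => bt (dg a e'.succ)

variable {a : Fin (n + 1) → ℕ}

theorem dg_succ (a : Fin (n + 1) → ℕ) (e : Fin n) : dg a e.succ = a e.succ + 1 := by
  simp [dg, Fin.succ_ne_zero]

theorem dg_le (ha : Exps a) (e : Fin n) : dg a e.succ ≤ dg a e.castSucc := by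
  rw [dg_succ]
  have h1 : a e.succ < a e.castSucc := ha.anti (Fin.castSucc_lt_succ)
  unfold dg
  split_ifs <;> omega

theorem dg_two (ha : Exps a) (i : Fin (n + 1)) : 2 ≤ dg a i := by
  have := ha.two i
  unfold dg
  split_ifs <;> omega

theorem pha_lin {d : ℕ} (hd : 1 ≤ d) : Pha d fun x => (d : ℝ) * x where
  smooth := contDiff_const.mul contDiff_id
  deg := fun x => by ring
  pos := fun x => by
    have h : HasDerivAt (fun x : ℝ => (d : ℝ) * x) (d : ℝ) x := by
      simpa using (hasDerivAt_id x).const_mul (d : ℝ)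
    rw [h.deriv]
    exact_mod_cast hd

theorem dD_pos (a : Fin (n + 1) → ℕ) (e : Fin n) (i : Fin (n + 1)) : 0 < dD a e i := by
  unfold dD
  split_ifs
  · exact_mod_cast Nat.succ_pos _
  · norm_num

theorem pP_pos (e e' : Fin n) : 0 < pP e e' := by
  unfold pP; split_ifs <;> norm_num

theorem mM_pos (a : Fin (n + 1) → ℕ) (e e' : Fin n) : 0 < mM a e e' := by
  unfold mM
  split_ifs
  · have : (0 : ℝ) < ((a e.succ + 1 : ℕ) : ℝ) := by exact_mod_cast Nat.succ_pos _
    positivity
  · norm_num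

theorem eE_pos (ha : Exps a) (e : Fin n) (i : Fin (n + 1)) : 0 < eE a e i := by
  unfold eE
  have h2 : (2 : ℝ) ≤ a e.succ := by exact_mod_cast ha.two e.succ
  split_ifs
  · have : (0 : ℝ) < (((a e.succ + 1 : ℕ) : ℝ) - 1) / ((a e.succ + 1 : ℕ) : ℝ) := by
      push_cast
      apply div_pos <;> linarith
    positivity
  · norm_num

theorem kK_pos (a : Fin (n + 1) → ℕ) (e e' : Fin n) : 0 < kK a e e' :=
  mul_pos (Real.rpow_pos_of_pos (div_pos (pP_pos e e') (dD_pos a e _)) _)
    (Real.rpow_pos_of_pos (div_pos (mM_pos a e e') (dD_pos a e _)) _)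

theorem lL_pos (ha : Exps a) (e e' : Fin n) : 0 < lL a e e' :=
  mul_pos (Real.rpow_pos_of_pos (eE_pos ha e _) _) (Real.rpow_pos_of_pos (eE_pos ha e _) _)

theorem ok (ha : Exps a) (e : Fin n) : (XX a e).Ok a e where
  hD := by
    intro i hi
    show 2 < dD a e i
    unfold dD
    have h2 : (2 : ℝ) ≤ a e.succ := by exact_mod_cast ha.two e.succ
    split_ifs
    · push_cast; linarith
    · norm_num
  hep := by
    intro i hi
    exact eE_pos ha e i
  hph := by
    intro i hi
    show Pha (dg a i) (if (i : ℕ) = e then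
      aph (a e.succ + 1) (dg a i - (a e.succ + 1)) (Real.pi / (3 * ((a e.succ + 1 : ℕ) : ℝ)))
      else fun x => (dg a i : ℝ) * x)
    split_ifs with h
    · have hi' : i = e.castSucc := Fin.ext h
      subst hi'
      have hpi := Real.pi_pos
      have hle : a e.succ + 1 ≤ dg a e.castSucc := by
        rw [← dg_succ]; exact dg_le ha e
      have hd1 : (1 : ℝ) ≤ ((a e.succ + 1 : ℕ) : ℝ) := by exact_mod_cast Nat.succ_pos _
      have hJ0 : 0 < Real.pi / (3 * ((a e.succ + 1 : ℕ) : ℝ)) := by positivity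
      have hJ1 : Real.pi / (3 * ((a e.succ + 1 : ℕ) : ℝ)) < Real.pi := by
        rw [div_lt_iff₀ (by positivity)]
        nlinarith
      refine ⟨contDiff_aph (n := 2) _ _ _, ?_, fun x => ?_⟩
      · have := deg_aph (a e.succ + 1) (dg a e.castSucc - (a e.succ + 1)) hJ0 hJ1
        rwa [Nat.add_sub_cancel' hle] at this
      · exact lt_of_lt_of_le (by linarith) (deriv_aph_ge _ _ hJ0 hJ1 x)
    · exact pha_lin (by have := dg_two ha i; omega)
  hc := by
    intro e' he'
    show 0 < (lL a e e' + 1) / kK a e e'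
    have := lL_pos ha e e'
    exact div_pos (by linarith) (kK_pos a e e')
  hp := by
    intro e' he'
    show 2 < pP e e'
    unfold pP
    split_ifs <;> norm_num
  hm := by
    intro e' he'
    show 2 < mM a e e'
    have h2 : (2 : ℝ) ≤ a e.succ := by exact_mod_cast ha.two e.succ
    unfold mM
    split_ifs
    · push_cast; linarith
    · norm_num
  sum := by
    intro e' he'
    show pP e e' / dD a e e'.castSucc + mM a e e' / dD a e e'.succ = 1
    have h2 : (2 : ℝ) ≤ a e.succ := by exact_mod_cast ha.two e.succ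
    have h0 : ¬ (((e'.castSucc : Fin (n + 1)) : ℕ) = e) := by
      rw [Fin.val_castSucc]; omega
    unfold pP dD mM
    rw [if_neg h0, Fin.val_succ]
    split_ifs
    · push_cast
      field_simp
      norm_num
    · norm_num
  nc := by
    intro e' he'
    show lL a e e' < kK a e e' * ((lL a e e' + 1) / kK a e e')
    rw [mul_div_cancel₀ _ (kK_pos a e e').ne']
    linarith
  hlam := by
    intro e' he'
    exact lv_lev (by have := dg_two ha e'.succ; omega) (dg_le ha e')
  hbet := by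
    intro e' he'
    exact bt_lev (by have := dg_two ha e'.succ; omega)
  lam1 := by
    intro e' he' k hk x hx
    exact lv_pat (by have := dg_two ha e'.succ; omega) (dg_le ha e') hk hx
  bet1 := by
    intro e' he' k hk x hx
    exact bt_pat (by have := dg_two ha e'.succ; omega) hk hx

/-- **AlignP**. -/
theorem alignP (ha : Exps a) (e : Fin n) : AlignP a e := by
  have hpi := Real.pi_pos
  have hle : a e.succ + 1 ≤ dg a e.castSucc := by
    rw [← dg_succ]; exact dg_le ha e
  have h2 : 2 ≤ a e.succ := ha.two e.succ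
  have h2' : (2 : ℝ) ≤ a e.succ := by exact_mod_cast h2
  have hd1 : (1 : ℝ) ≤ ((a e.succ + 1 : ℕ) : ℝ) := by exact_mod_cast Nat.succ_pos _
  have hJ0 : 0 < Real.pi / (3 * ((a e.succ + 1 : ℕ) : ℝ)) := by positivity
  have hJ1 : Real.pi / (3 * ((a e.succ + 1 : ℕ) : ℝ)) < Real.pi := by
    rw [div_lt_iff₀ (by positivity)]
    nlinarith
  refine ⟨XX a e, lv (dg a e.castSucc) (a e.succ + 1), bt (a e.succ + 1), ?_, ?_, ?_, ?_, ?_, ?_, ?_⟩
  · refine ⟨ok ha e, ?_, ?_, ?_⟩
    · intro i hi
      show dD a e i = _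
      unfold dD
      rw [if_pos hi, mul_one]
    · intro i hi x hx hx2
      show (if (i : ℕ) = e then
        aph (a e.succ + 1) (dg a i - (a e.succ + 1)) (Real.pi / (3 * ((a e.succ + 1 : ℕ) : ℝ)))
        else fun x => (dg a i : ℝ) * x) x = _
      rw [if_pos hi]
      exact aph_out _ _ hJ0 hJ1 hx hx2
    · intro i hi
      show 2 * eE a e i < _
      unfold eE
      rw [if_pos hi]
      have : (0 : ℝ) < (((a e.succ + 1 : ℕ) : ℝ) - 1) / ((a e.succ + 1 : ℕ) : ℝ) := by
        push_cast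
        apply div_pos <;> linarith
      have : 0 < (1 / ((a e.succ + 1 : ℕ) : ℝ)) *
        ((((a e.succ + 1 : ℕ) : ℝ) - 1) / ((a e.succ + 1 : ℕ) : ℝ)) ^ (a e.succ + 1 - 1) := by
        positivity
      linarith
  · exact lv_lev (by omega) hle
  · have e1 : (XX a e).ph e.castSucc = aph (a e.succ + 1) (dg a e.castSucc - (a e.succ + 1))
        (Real.pi / (3 * ((a e.succ + 1 : ℕ) : ℝ))) := by
      show (if ((e.castSucc : Fin (n + 1)) : ℕ) = e then _ else _) = _
      rw [if_pos (Fin.val_castSucc e)]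
    rw [e1]
    exact lv_cutX (by omega) hle
  · intro k hk x hx
    rw [dg_succ]
    exact lv_pat (by omega) hle hk hx
  · rw [dg_succ]
    exact bt_lev (by omega)
  · exact bt_cutY (by omega)
  · intro k hk x hx
    rw [dg_succ] at hk ⊢
    exact bt_pat (by omega) hk hx

end Crest.Agent.R267.Align_504

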