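import Crest.Agent.R267.HmC_951

/-!
# Row 267 (helper951): `0`-regular paths of weighted homogeneous functions

`HPath0 F`: as `HPath`, but regularity only at the zeros of `F (t, ·)`; gives a homeomorphism of the
spheres carrying zero set to zero set (`HPath0.link`), no stability under sums.
`ZEq f g`: homeomorphism of spheres carrying zero set to zero set.
-/

set_option autoImplicit false
set_option linter.unusedSectionVars false

noncomputable section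

open Set Filter Topology Metric
open scoped NNReal ContDiff
open Crest.Agent.R267.Cone_808 Crest.Agent.R267.SphReg_808 Crest.Agent.R267.Mneg_951
open Crest.Agent.R267.GS_808 Crest.Agent.R267.DraftB_808 Crest.Agent.R267.TopAsm_808

namespace Crest.Agent.R267.Hm_951

variable {ι ι' ι'' : Type} [Fintype ι] [Fintype ι'] [Fintype ι'']

/-- homeomorphism of the spheres carrying zero set to zero set -/
def ZEq (f : (ι → ℂ) → ℂ) (g : (ι' → ℂ) → ℂ) : Prop :=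
  ∃ k : Sph ι ≃ₜ Sph ι', ∀ s : Sph ι, f s = 0 ↔ g (k s) = 0

theorem ZEq.refl (f : (ι → ℂ) → ℂ) : ZEq f f := ⟨Homeomorph.refl _, fun _ => Iff.rfl⟩

theorem ZEq.symm {f : (ι → ℂ) → ℂ} {g : (ι' → ℂ) → ℂ} (h : ZEq f g) : ZEq g f := by
  obtain ⟨k, hk⟩ := h
  exact ⟨k.symm, fun s => by rw [hk, k.apply_symm_apply]⟩

theorem ZEq.trans {f : (ι → ℂ) → ℂ} {g : (ι' → ℂ) → ℂ} {u : (ι'' → ℂ) → ℂ} (h : ZEq f g)
    (h' : ZEq g u) : ZEq f u := by
  obtain ⟨k, hk⟩ := h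
  obtain ⟨l, hl⟩ := h'
  exact ⟨k.trans l, fun s => (hk s).trans (hl (k s))⟩

theorem SEq.zeq {f : (ι → ℂ) → ℂ} {g : (ι' → ℂ) → ℂ} (h : SEq f g) : ZEq f g := h.link

theorem ZEq.isLink {f : (ι → ℂ) → ℂ} {g : (ι' → ℂ) → ℂ} (h : ZEq f g) {n m : ℕ} {G : S n m}
    (hG : IsLink {z : Sph ι' | g z = 0} G) : IsLink {z : Sph ι | f z = 0} G := by
  obtain ⟨k, hk⟩ := h
  obtain ⟨a, ha⟩ := hG
  exact ⟨k.trans a, fun x => (hk x).trans (ha (k x))⟩

/-- equivariant homeomorphism carrying the zero set to the zero set; `g` only needs an invariant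
zero set -/
theorem zeq_of_equiv {f : (ι → ℂ) → ℂ} {g : (ι' → ℂ) → ℂ} {w : ι → ℝ} {w' : ι' → ℝ}
    (hw : ∀ i, 0 < w i) (hw' : ∀ i, 0 < w' i)
    (hg : ∀ (s : ℝ) x, g x = 0 → g (act w' s x) = 0) (φ : (ι → ℂ) ≃ₜ (ι' → ℂ))
    (hφ : ∀ s x, φ (act w s x) = act w' s (φ x)) (hfg : ∀ x, f x = 0 ↔ g (φ x) = 0) :
    ZEq f g := by
  obtain ⟨k, hk⟩ := sph_of_equiv hw hw' φ hφ
  refine ⟨k, fun s => ?_⟩
  obtain ⟨t, ht⟩ := hk s
  rw [hfg, ht]
  refine ⟨hg t _, fun h => ?_⟩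
  have := hg (-t) _ h
  rwa [act_neg_act] at this

/-- `0`-regular paths of weighted homogeneous functions -/
structure HPath0 (F : ℝ × (ι → ℂ) → ℂ) : Prop where
  smooth : ∃ T : Set ℝ, IsOpen T ∧ Icc (0 : ℝ) 1 ⊆ T ∧ ContDiffOn ℝ 2 F (T ×ˢ {0}ᶜ)
  wh : ∀ t ∈ Icc (0 : ℝ) 1, ∃ w : ι → ℝ, (∀ i, 0 < w i) ∧
    ∀ (s : ℝ) (x : ι → ℂ), F (t, act w s x) = Real.exp s • F (t, x)
  reg : ∀ t ∈ Icc (0 : ℝ) 1, ∀ x : ι → ℂ, x ≠ 0 → F (t, x) = 0 →
    ∀ b : ℂ, ∃ y : ι → ℂ, fderiv ℝ F (t, x) (0, y) = b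

theorem HPath.hpath0 {F : ℝ × (ι → ℂ) → ℂ} (h : HPath F) : HPath0 F :=
  ⟨h.smooth, h.wh, fun t ht x hx h0 => h.reg t ht x hx (by rw [h0]; exact le_rfl)⟩

/-- **`0`-regular paths: homeomorphism of the links** -/
theorem HPath0.link {F : ℝ × (ι → ℂ) → ℂ} (h : HPath0 F) :
    ZEq (fun x => F (0, x)) (fun x => F (1, x)) := by
  obtain ⟨T, hT, hsub, hC⟩ := h.smooth
  have hop := isOpen_dom (E := ι → ℂ) hT
  have hne : ∀ x : ι → ℂ, nsq x = 1 → x ≠ 0 := by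
    rintro x hx rfl
    have : nsq (0 : ι → ℂ) = 0 := nsq_eq_zero.2 rfl
    rw [this] at hx
    exact zero_ne_one hx
  obtain ⟨k, hk, -⟩ := exists_homeo_of_path hop (fun t ht x hx => ⟨hsub ht, hne x hx⟩) hC
    fun t ht x hx h0 b => by
      obtain ⟨w, hw, hwh⟩ := h.wh t ht
      have hmem : (t, x) ∈ T ×ˢ ({0}ᶜ : Set (ι → ℂ)) := ⟨hsub ht, hne x hx⟩
      have hd : DifferentiableAt ℝ F (t, x) :=
        ((hC _ hmem).contDiffAt (hop.mem_nhds hmem)).differentiableAt (by norm_num)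
      let L : (ι → ℂ) →L[ℝ] ℂ := (fderiv ℝ F (t, x)).comp (ContinuousLinearMap.inr ℝ ℝ (ι → ℂ))
      have hL : ∀ y, L y = fderiv ℝ F (t, x) (0, y) := fun y => rfl
      have he : L (eul w x) = 0 := by rw [hL, euler hwh hd, h0]
      exact regular_of_euler hw (hne x hx) he (h.reg t ht x (hne x hx) h0) b
  exact ⟨k, hk⟩

end Crest.Agent.R267.Hm_951
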