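import Mathlib
import Crest.Agent.R267.HmD_951

/-!
# S0406, T3N entrance: definitions (helper484)

Coordinates `p = (x, y, z, w) : Fin 4 → ℂ`; `b = true` : `f` (order 4), `b = false` : `g` (order 5).
* `P b s t` : core `s²t + st³`, resp. `st² + s³t`; `wt b` : hub weights `(6,2,1,1)/15`,
  resp. `(3,5,1,1)/15`, so that `P b x (yz)` and `w^15` have degree one.
* `g b v p` : `|p_v|^{60/a_v}`, `N b p` their sum, `th` : smooth step (`0` up to `3/4`, `1` from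
  `t1` on): `th (g v / N)` is the cut-off of the `v`-tube.
* `am b M A` : **the amalgam** `M P(x, yz) + w^15 + ∑_v th (g_v / N) A_v (p_v, w)`.
* `Arm b v A` (one arm), `ArmPath b v A` (homotopy of arms).
-/

set_option autoImplicit false
set_option linter.unusedSectionVars false

noncomputable section

open Set Filter Topology Finset
open scoped ContDiff
open Crest.Agent.R267.Cone_808 Crest.Agent.R267.Hm_951

namespace Crest.Agent.R267.NdR_484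

/-- the ambient space. -/
abbrev E4 := Fin 4 → ℂ

/-- the core. -/
def P (b : Bool) (s t : ℂ) : ℂ := bif b then s ^ 2 * t + s * t ^ 3 else s * t ^ 2 + s ^ 3 * t

/-- hub weights of `x, y, z` (multiplied by `15`). -/
def aw (b : Bool) : Fin 3 → ℕ := bif b then ![6, 2, 1] else ![3, 5, 1]

/-- `30 / a`. -/
def bw (b : Bool) : Fin 3 → ℕ := bif b then ![5, 15, 30] else ![10, 6, 30]

/-- the weights of the action. -/
def wt (b : Bool) : Fin 4 → ℝ := bif b then ![6 / 15, 2 / 15, 1 / 15, 1 / 15]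
  else ![3 / 15, 5 / 15, 1 / 15, 1 / 15]

/-- `|p_v|^{60/a_v}`. -/
def g (b : Bool) (v : Fin 3) (p : E4) : ℝ := ‖p v.castSucc‖ ^ (2 * bw b v)

/-- sum of the three. -/
def N (b : Bool) (p : E4) : ℝ := ∑ v, g b v p

/-- upper threshold of the tubes. -/
def t1 : ℝ := 1 - (1 / 2) ^ 41

/-- smooth step. -/
def th (t : ℝ) : ℝ := Real.smoothTransition ((t - 3 / 4) / (t1 - 3 / 4))

/-- **the amalgam.** -/
def am (b : Bool) (M : ℝ) (A : Fin 3 → ℂ × ℂ → ℂ) (p : E4) : ℂ :=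
  M * P b (p 0) (p 1 * p 2) + p 3 ^ 15 +
    ∑ v, (th (g b v p / N b p) : ℂ) * A v (p v.castSucc, p 3)

/-- a homotopy of arms (in the variables `(t, (v, w))`), on a neighbourhood `T` of `[0, 1]`:
`k = w^15 + A` is `0`-regular for `v ≠ 0`, `A` is homogeneous of degree `15` for the weights
`(a_v, 1)` and vanishes for `|w|^{a_v} ≥ W |v|`. -/
structure ArmPath (b : Bool) (v : Fin 3) (A : ℝ × (ℂ × ℂ) → ℂ) : Prop where
  smooth : ∃ T : Set ℝ, IsOpen T ∧ Icc (0 : ℝ) 1 ⊆ T ∧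
    ContDiffOn ℝ 2 A (T ×ˢ {q : ℂ × ℂ | q.1 ≠ 0})
  hom : ∀ t ∈ Icc (0 : ℝ) 1, ∀ (l : ℝ) (u w : ℂ), 0 < l →
    A (t, ((l : ℂ) ^ aw b v * u, (l : ℂ) * w)) = (l : ℂ) ^ 15 * A (t, (u, w))
  supp : ∃ W : ℝ, 0 < W ∧ ∀ (t : ℝ) (u w : ℂ), W * ‖u‖ ≤ ‖w‖ ^ aw b v → A (t, (u, w)) = 0
  zero : ∀ (t : ℝ) (w : ℂ), A (t, (0, w)) = 0
  reg : ∀ t ∈ Icc (0 : ℝ) 1, ∀ u w : ℂ, u ≠ 0 → w ^ 15 + A (t, (u, w)) = 0 →
    ∀ c : ℂ, ∃ y : ℂ × ℂ, 15 * w ^ 14 * y.2 + fderiv ℝ A (t, (u, w)) (0, y) = c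

/-- one arm = constant homotopy. -/
def Arm (b : Bool) (v : Fin 3) (A : ℂ × ℂ → ℂ) : Prop := ArmPath b v fun q => A q.2

end Crest.Agent.R267.NdR_484
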