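import Mathlib
import Crest.Agent.R267.NdR_484

set_option autoImplicit false
set_option linter.unusedSectionVars false

noncomputable section

open Set Filter Topology Finset
open scoped ContDiff
open Crest.Agent.R267.Cone_808 Crest.Agent.R267.Hm_951 Crest.Agent.R267.NdR_484

/-!
# S0406, package T3N: the amalgam theorem (helper52)

`am2 b m n A` : the amalgam of `NdR_484` with a two-parameter core `m s²t + n st³`
(resp. `m st² + n s³t`), `am b M A = am2 b M M A`.

* `reg_all` : uniform `0`-regularity for `‖m‖ ≥ M0`, `‖n / m‖ ∈ [1/2, 2]` (all phases);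
* `hpath` : moving coefficients and moving arms give an `HPath0`;
* `amal_path`, `amal_M` : the two statements of task T3N-AMAL.
-/

namespace Crest.Agent.R267.Amal_52

/-- two-parameter core. -/
def P2 (b : Bool) (m n s t : ℂ) : ℂ :=
  bif b then m * (s ^ 2 * t) + n * (s * t ^ 3) else m * (s * t ^ 2) + n * (s ^ 3 * t)

/-- derivative in `s`. -/
def P2s (b : Bool) (m n s t : ℂ) : ℂ :=
  bif b then m * (2 * s * t) + n * t ^ 3 else m * t ^ 2 + n * (3 * s ^ 2 * t)

/-- derivative in `t`. -/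
def P2t (b : Bool) (m n s t : ℂ) : ℂ :=
  bif b then m * s ^ 2 + n * (s * (3 * t ^ 2)) else m * (s * (2 * t)) + n * s ^ 3

theorem P2_diag (b : Bool) (m s t : ℂ) : P2 b m m s t = m * P b s t := by
  unfold P2 P; cases b <;> simp only [cond_true, cond_false] <;> ring

/-- the two-parameter amalgam. -/
def am2 (b : Bool) (m n : ℂ) (A : Fin 3 → ℂ × ℂ → ℂ) (p : E4) : ℂ :=
  P2 b m n (p 0) (p 1 * p 2) + p 3 ^ 15 +
    ∑ v, (th (g b v p / N b p) : ℂ) * A v (p v.castSucc, p 3)

theorem am_eq (b : Bool) (M : ℝ) (A : Fin 3 → ℂ × ℂ → ℂ) (p : E4) :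
    am b M A p = am2 b M M A p := by
  unfold am am2
  rw [P2_diag]

/-- the core has an isolated critical point. -/
theorem core_iso {b : Bool} {m n : ℂ} (hm : m ≠ 0) (hn : n ≠ 0) {s t : ℂ}
    (h1 : P2s b m n s t = 0) (h2 : P2t b m n s t = 0) : s = 0 ∧ t = 0 := by
  unfold P2s at h1
  unfold P2t at h2
  cases b
  · simp only [cond_false] at h1 h2
    have e1 : t * (m * t + 3 * (n * s ^ 2)) = 0 := by rw [← h1]; ring
    have e2 : s * (2 * (m * t) + n * s ^ 2) = 0 := by rw [← h2]; ring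
    rcases mul_eq_zero.1 e1 with h | h
    · subst h
      rcases mul_eq_zero.1 e2 with h | h
      · exact ⟨h, rfl⟩
      · have : n * s ^ 2 = 0 := by simpa using h
        have := (mul_eq_zero.1 this).resolve_left hn
        exact ⟨pow_eq_zero_iff (two_ne_zero) |>.1 this, rfl⟩
    · rcases mul_eq_zero.1 e2 with h' | h'
      · subst h'
        have : m * t = 0 := by simpa using h
        exact ⟨rfl, (mul_eq_zero.1 this).resolve_left hm⟩
      · have : n * s ^ 2 = 0 := by linear_combination (-(2:ℂ) * h + h') * (-1/5)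
        have hs := (mul_eq_zero.1 this).resolve_left hn
        have hs := pow_eq_zero_iff (two_ne_zero) |>.1 hs
        subst hs
        have : m * t = 0 := by simpa using h
        exact ⟨rfl, (mul_eq_zero.1 this).resolve_left hm⟩
  · simp only [cond_true] at h1 h2
    have e1 : t * (2 * (m * s) + n * t ^ 2) = 0 := by rw [← h1]; ring
    have e2 : s * (m * s + 3 * (n * t ^ 2)) = 0 := by rw [← h2]; ring
    rcases mul_eq_zero.1 e2 with h | h
    · subst h
      rcases mul_eq_zero.1 e1 with h | h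
      · exact ⟨rfl, h⟩
      · have : n * t ^ 2 = 0 := by simpa using h
        have := (mul_eq_zero.1 this).resolve_left hn
        exact ⟨rfl, pow_eq_zero_iff (two_ne_zero) |>.1 this⟩
    · rcases mul_eq_zero.1 e1 with h' | h'
      · subst h'
        have : m * s = 0 := by simpa using h
        exact ⟨(mul_eq_zero.1 this).resolve_left hm, rfl⟩
      · have : n * t ^ 2 = 0 := by linear_combination (-(2:ℂ) * h + h') * (-1/5)
        have hs := (mul_eq_zero.1 this).resolve_left hn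
        have hs := pow_eq_zero_iff (two_ne_zero) |>.1 hs
        subst hs
        have : m * s = 0 := by simpa using h
        exact ⟨(mul_eq_zero.1 this).resolve_left hm, rfl⟩

/-- the three derivatives of `P2 (x, yz)`. -/
def D (b : Bool) (m n : ℂ) (p : E4) : Fin 3 → ℂ :=
  ![P2s b m n (p 0) (p 1 * p 2), P2t b m n (p 0) (p 1 * p 2) * p 2,
    P2t b m n (p 0) (p 1 * p 2) * p 1]

theorem g_nonneg (b : Bool) (v : Fin 3) (p : E4) : 0 ≤ g b v p := by unfold g; positivity

theorem N_nonneg (b : Bool) (p : E4) : 0 ≤ N b p := Finset.sum_nonneg fun v _ => g_nonneg b v p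

theorem bw_pos (b : Bool) (v : Fin 3) : 0 < bw b v := by
  unfold bw; cases b <;> fin_cases v <;> simp

theorem aw_pos (b : Bool) (v : Fin 3) : 0 < aw b v := by
  unfold aw; cases b <;> fin_cases v <;> simp

theorem g_eq_zero {b : Bool} {v : Fin 3} {p : E4} : g b v p = 0 ↔ p v.castSucc = 0 := by
  unfold g
  have := bw_pos b v
  rw [pow_eq_zero_iff (by omega), norm_eq_zero]

theorem g_le_N (b : Bool) (v : Fin 3) (p : E4) : g b v p ≤ N b p :=
  Finset.single_le_sum (f := fun v => g b v p) (fun v _ => g_nonneg b v p) (Finset.mem_univ v)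

theorem N_eq_zero {b : Bool} {p : E4} : N b p = 0 ↔ ∀ v : Fin 3, p v.castSucc = 0 := by
  constructor
  · intro h v
    rw [← g_eq_zero (b := b)]
    exact le_antisymm (h ▸ g_le_N b v p) (g_nonneg b v p)
  · intro h
    unfold N
    exact Finset.sum_eq_zero fun v _ => g_eq_zero.2 (h v)

theorem t1_lt : t1 < 1 := by unfold t1; norm_num
theorem lt_t1 : 3 / 4 < t1 := by unfold t1; norm_num

theorem th_zero {t : ℝ} (h : t ≤ 3 / 4) : th t = 0 := by
  unfold th
  apply Real.smoothTransition.zero_of_nonpos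
  have := lt_t1
  exact div_nonpos_of_nonpos_of_nonneg (by linarith) (by linarith)

theorem th_one {t : ℝ} (h : t1 ≤ t) : th t = 1 := by
  unfold th
  apply Real.smoothTransition.one_of_one_le
  have := lt_t1
  rw [one_le_div (by linarith)]
  linarith

theorem contDiff_th : ContDiff ℝ ∞ th := by
  unfold th
  exact Real.smoothTransition.contDiff.comp (by fun_prop)

/-- the size of `yz` in the `x`-tube. -/
theorem yz_small {b : Bool} {p : E4} (hN : N b p = 1) (h : t1 < g b 0 p) :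
    ‖p 1 * p 2‖ < (bif b then 1 / 4 else 1 / 16) ∧ 1 / 2 < ‖p 0‖ := by
  have hs : g b 0 p + g b 1 p + g b 2 p = 1 := by
    rw [← hN]; unfold N; rw [Fin.sum_univ_three]
  have h0 := g_nonneg b 0 p
  have h1 := g_nonneg b 1 p
  have h2 := g_nonneg b 2 p
  have k1 : g b 1 p < (1 / 2) ^ 41 := by unfold t1 at h; linarith
  have k2 : g b 2 p < (1 / 2) ^ 41 := by unfold t1 at h; linarith
  have k0 : (1 / 2 : ℝ) < g b 0 p := lt_trans (by unfold t1; norm_num) h
  have hx : ∀ k : ℕ, k ≠ 0 → (1 / 2 : ℝ) < ‖p 0‖ ^ k → 1 / 2 < ‖p 0‖ := by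
    intro k hk h
    by_contra hn
    push Not at hn
    have h5 : ‖p 0‖ ^ k ≤ (1 / 2) ^ k := pow_le_pow_left₀ (norm_nonneg _) hn k
    have h6 : (1 / 2 : ℝ) ^ k ≤ 1 / 2 := pow_le_of_le_one (by norm_num) (by norm_num) hk
    linarith
  refine ⟨?_, ?_⟩
  · have key : ‖p 1 * p 2‖ ^ 60 < (bif b then (1 / 4 : ℝ) else 1 / 16) ^ 60 := by
      cases b
      · simp only [cond_false]
        have e1 : g false 1 p = ‖p 1‖ ^ 12 := rfl
        have e2 : g false 2 p = ‖p 2‖ ^ 60 := rfl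
        have e3 : ‖p 1 * p 2‖ ^ 60 = (g false 1 p) ^ 5 * g false 2 p := by
          rw [e1, e2, norm_mul]; ring
        rw [e3]
        calc (g false 1 p) ^ 5 * g false 2 p ≤ ((1 / 2) ^ 41) ^ 5 * (1 / 2) ^ 41 :=
              mul_le_mul (pow_le_pow_left₀ h1 k1.le 5) k2.le h2 (by positivity)
          _ < (1 / 16) ^ 60 := by norm_num
      · simp only [cond_true]
        have e1 : g true 1 p = ‖p 1‖ ^ 30 := rfl
        have e2 : g true 2 p = ‖p 2‖ ^ 60 := rfl
        have e3 : ‖p 1 * p 2‖ ^ 60 = (g true 1 p) ^ 2 * g true 2 p := by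
          rw [e1, e2, norm_mul]; ring
        rw [e3]
        calc (g true 1 p) ^ 2 * g true 2 p ≤ ((1 / 2) ^ 41) ^ 2 * (1 / 2) ^ 41 :=
              mul_le_mul (pow_le_pow_left₀ h1 k1.le 2) k2.le h2 (by positivity)
          _ < (1 / 4) ^ 60 := by norm_num
    exact lt_of_pow_lt_pow_left₀ 60 (by cases b <;> norm_num) key
  · cases b
    · exact hx 20 (by norm_num) k0
    · exact hx 10 (by norm_num) k0

theorem P2t_ne {b : Bool} {m n : ℂ} (hm : m ≠ 0) (hn : n ≠ 0) (h1 : ‖m‖ ≤ 2 * ‖n‖)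
    (h2 : ‖n‖ ≤ 2 * ‖m‖) {s t : ℂ} (ht : ‖t‖ < (bif b then 1 / 4 else 1 / 16))
    (hs : 1 / 2 < ‖s‖) : P2t b m n s t ≠ 0 := by
  have hs0 : s ≠ 0 := by
    intro h; rw [h, norm_zero] at hs; norm_num at hs
  have hmp : 0 < ‖m‖ := norm_pos_iff.2 hm
  have hnp : 0 < ‖n‖ := norm_pos_iff.2 hn
  intro h
  unfold P2t at h
  cases b
  · simp only [cond_false] at h ht
    have e : s * (2 * (m * t) + n * s ^ 2) = 0 := by rw [← h]; ring
    have e2 := (mul_eq_zero.1 e).resolve_left hs0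
    have e3 : n * s ^ 2 = -(2 * (m * t)) := by linear_combination e2
    have e4 : ‖n‖ * ‖s‖ ^ 2 = 2 * (‖m‖ * ‖t‖) := by
      rw [← norm_pow, ← norm_mul, e3, norm_neg, norm_mul, norm_mul]; norm_num
    have e5 : (1 / 4 : ℝ) < ‖s‖ ^ 2 := by nlinarith
    have e6 : 2 * (‖m‖ * ‖t‖) ≤ 2 * ((2 * ‖n‖) * (1 / 16)) := by
      have : ‖m‖ * ‖t‖ ≤ (2 * ‖n‖) * (1 / 16) :=
        mul_le_mul h1 ht.le (norm_nonneg _) (by positivity)
      linarith
    nlinarith
  · simp only [cond_true] at h ht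
    have e : s * (m * s + 3 * (n * t ^ 2)) = 0 := by rw [← h]; ring
    have e2 := (mul_eq_zero.1 e).resolve_left hs0
    have e3 : m * s = -(3 * (n * t ^ 2)) := by linear_combination e2
    have e4 : ‖m‖ * ‖s‖ = 3 * (‖n‖ * ‖t‖ ^ 2) := by
      rw [← norm_mul, e3, norm_neg, norm_mul, norm_mul, norm_pow]; norm_num
    have e5 : ‖t‖ ^ 2 ≤ 1 / 16 := by nlinarith [norm_nonneg t]
    have e6 : ‖n‖ * ‖t‖ ^ 2 ≤ (2 * ‖m‖) * (1 / 16) :=
      mul_le_mul h2 e5 (by positivity) (by positivity)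
    nlinarith

/-- **the tubes.** -/
theorem tube {b : Bool} {m n : ℂ} (hm : m ≠ 0) (hn : n ≠ 0) (h1 : ‖m‖ ≤ 2 * ‖n‖)
    (h2 : ‖n‖ ≤ 2 * ‖m‖) {p : E4} (hN : N b p = 1) {v : Fin 3} (hv : t1 < g b v p)
    (hD : ∀ i, i ≠ v → D b m n p i = 0) :
    D b m n p v = 0 ∧ P2 b m n (p 0) (p 1 * p 2) = 0 := by
  have hv0 : p v.castSucc ≠ 0 := by
    intro h
    rw [g_eq_zero.2 h] at hv
    have := lt_t1
    linarith
  have P0 : P2 b m n 0 0 = 0 := by unfold P2; cases b <;> simp
  fin_cases v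
  · obtain ⟨ht, hs⟩ := yz_small hN hv
    have hP := P2t_ne hm hn h1 h2 ht hs
    have e1 : p 2 = 0 := (mul_eq_zero.1 (hD 1 (by decide))).resolve_left hP
    refine ⟨?_, ?_⟩
    · change P2s b m n (p 0) (p 1 * p 2) = 0
      rw [e1]; unfold P2s; cases b <;> simp
    · rw [e1]; unfold P2; cases b <;> simp
  · have hv1 : p 1 ≠ 0 := hv0
    have e0 : P2s b m n (p 0) (p 1 * p 2) = 0 := hD 0 (by decide)
    have e2 : P2t b m n (p 0) (p 1 * p 2) = 0 :=
      (mul_eq_zero.1 (hD 2 (by decide))).resolve_right hv1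
    obtain ⟨f1, f2⟩ := core_iso hm hn e0 e2
    refine ⟨?_, ?_⟩
    · change P2t b m n (p 0) (p 1 * p 2) * p 2 = 0
      rw [e2, zero_mul]
    · rw [f1, f2]; exact P0
  · have hv1 : p 2 ≠ 0 := hv0
    have e0 : P2s b m n (p 0) (p 1 * p 2) = 0 := hD 0 (by decide)
    have e2 : P2t b m n (p 0) (p 1 * p 2) = 0 :=
      (mul_eq_zero.1 (hD 1 (by decide))).resolve_right hv1
    obtain ⟨f1, f2⟩ := core_iso hm hn e0 e2
    refine ⟨?_, ?_⟩
    · change P2t b m n (p 0) (p 1 * p 2) * p 1 = 0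
      rw [e2, zero_mul]
    · rw [f1, f2]; exact P0

/-- **outside the tubes.** -/
theorem outside {b : Bool} {m n : ℂ} (hm : m ≠ 0) (hn : n ≠ 0) {p : E4} (hN : N b p = 1)
    (hv : ∀ v, g b v p ≤ t1) : ∃ i, D b m n p i ≠ 0 := by
  by_contra hc
  push Not at hc
  have ht := t1_lt
  have hs : g b 0 p + g b 1 p + g b 2 p = 1 := by
    rw [← hN]; unfold N; rw [Fin.sum_univ_three]
  have e0 : P2s b m n (p 0) (p 1 * p 2) = 0 := hc 0
  have e1 : P2t b m n (p 0) (p 1 * p 2) * p 2 = 0 := hc 1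
  have e2 : P2t b m n (p 0) (p 1 * p 2) * p 1 = 0 := hc 2
  have z : ∀ v : Fin 3, p v.castSucc = 0 → g b v p = 0 := fun v h => g_eq_zero.2 h
  by_cases hP : P2t b m n (p 0) (p 1 * p 2) = 0
  · obtain ⟨f1, f2⟩ := core_iso hm hn e0 hP
    have g0 := z 0 f1
    rcases mul_eq_zero.1 f2 with f | f
    · have := z 1 f
      linarith [hv 2]
    · have := z 2 f
      linarith [hv 1]
  · have g1 := z 1 ((mul_eq_zero.1 e2).resolve_left hP)
    have g2 := z 2 ((mul_eq_zero.1 e1).resolve_left hP)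
    linarith [hv 0]


/-! ### derivatives of the core -/

/-- the polynomial part. -/
def Q (b : Bool) (m n : ℂ) (p : E4) : ℂ := P2 b m n (p 0) (p 1 * p 2) + p 3 ^ 15

/-- its derivative. -/
def dQ (b : Bool) (m n : ℂ) (p y : E4) : ℂ :=
  ∑ i, D b m n p i * y i.castSucc + 15 * p 3 ^ 14 * y 3

theorem contDiff_Q (b : Bool) (m n : ℂ) : ContDiff ℝ ∞ (Q b m n) := by
  unfold Q P2
  cases b <;> simp only [cond_true, cond_false] <;> fun_prop

theorem fderiv_Q (b : Bool) (m n : ℂ) (p y : E4) : fderiv ℝ (Q b m n) p y = dQ b m n p y := by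
  have hd : DifferentiableAt ℝ (Q b m n) p :=
    (contDiff_Q b m n).contDiffAt.differentiableAt (by simp)
  have hl : HasDerivAt (fun h : ℝ => p + h • y) y 0 := by
    simpa using ((hasDerivAt_id (0 : ℝ)).smul_const y).const_add p
  have h0 : p + (0 : ℝ) • y = p := by simp
  have h1 : HasDerivAt (fun h : ℝ => Q b m n (p + h • y)) (fderiv ℝ (Q b m n) p y) 0 := by
    have := hd.hasFDerivAt
    rw [← h0] at this
    have h2 := this.comp_hasDerivAt (0 : ℝ) hl
    rwa [h0] at h2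
  have hi : ∀ i, HasDerivAt (fun h : ℝ => p i + (h : ℂ) * y i) (y i) 0 := by
    intro i
    have h3 := (hasDerivAt_pi.1 hl) i
    refine h3.congr_of_eventuallyEq (Eventually.of_forall fun h => ?_)
    simp
  have h4 : HasDerivAt (fun h : ℝ => Q b m n (p + h • y)) (dQ b m n p y) 0 := by
    have e : (fun h : ℝ => Q b m n (p + h • y)) = fun h : ℝ =>
        P2 b m n (p 0 + (h : ℂ) * y 0) ((p 1 + (h : ℂ) * y 1) * (p 2 + (h : ℂ) * y 2)) +
          (p 3 + (h : ℂ) * y 3) ^ 15 := by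
      funext h
      simp [Q]
    rw [e]
    unfold P2
    have ht := (hi 1).mul (hi 2)
    have hw := (hi 3).pow 15
    cases b
    · simp only [cond_false]
      have h5 := ((((hi 0).mul (ht.pow 2)).const_mul m).add
        (((((hi 0).pow 3).mul ht)).const_mul n)).add hw
      refine h5.congr_deriv ?_
      simp [dQ, D, P2s, P2t, Fin.sum_univ_three]
      ring
    · simp only [cond_true]
      have h5 := ((((((hi 0).pow 2).mul ht)).const_mul m).add
        (((((hi 0)).mul (ht.pow 3))).const_mul n)).add hw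
      refine h5.congr_deriv ?_
      simp [dQ, D, P2s, P2t, Fin.sum_univ_three]
      ring
  exact h1.unique h4


/-! ### the remainder -/

theorem two_le : (2 : WithTop ℕ∞) ≤ ∞ := WithTop.coe_le_coe.2 le_top

/-- one term. -/
def Rt (b : Bool) (v : Fin 3) (A : ℝ × (ℂ × ℂ) → ℂ) (q : ℝ × E4) : ℂ :=
  (th (g b v q.2 / N b q.2) : ℂ) * A (q.1, (q.2 v.castSucc, q.2 3))

/-- the sum. -/
def R (b : Bool) (A : Fin 3 → ℝ × (ℂ × ℂ) → ℂ) (q : ℝ × E4) : ℂ := ∑ v, Rt b v (A v) q

theorem contDiff_g (b : Bool) (v : Fin 3) : ContDiff ℝ ∞ (g b v) := by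
  unfold g
  have h : ∀ p : E4, ‖p v.castSucc‖ ^ (2 * bw b v) = (‖p v.castSucc‖ ^ 2) ^ bw b v :=
    fun p => pow_mul _ _ _
  simp_rw [h]
  have h1 : ContDiff ℝ ∞ fun p : E4 => p v.castSucc := by fun_prop
  exact (h1.norm_sq ℝ).pow _

theorem contDiff_N (b : Bool) : ContDiff ℝ ∞ (N b) := by
  unfold N
  exact ContDiff.sum fun v _ => contDiff_g b v

theorem continuous_g (b : Bool) (v : Fin 3) : Continuous (g b v) := (contDiff_g b v).continuous

theorem continuous_N (b : Bool) : Continuous (N b) := (contDiff_N b).continuous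

theorem continuousAt_quot {b : Bool} {p : E4} (hp : N b p ≠ 0) (v : Fin 3) :
    ContinuousAt (fun p => g b v p / N b p) p :=
  (continuous_g b v).continuousAt.div (continuous_N b).continuousAt hp

/-- vanishing near points outside the support. -/
theorem ev_zero {b : Bool} {v : Fin 3} {A : ℝ × (ℂ × ℂ) → ℂ} {W : ℝ}
    (hW : ∀ (t : ℝ) (u w : ℂ), W * ‖u‖ ≤ ‖w‖ ^ aw b v → A (t, (u, w)) = 0) {q : ℝ × E4}
    (hq : W * ‖q.2 v.castSucc‖ < ‖q.2 3‖ ^ aw b v) : Rt b v A =ᶠ[𝓝 q] 0 := by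
  have h1 : ∀ᶠ q' : ℝ × E4 in 𝓝 q, W * ‖q'.2 v.castSucc‖ < ‖q'.2 3‖ ^ aw b v := by
    have c1 : Continuous fun q' : ℝ × E4 => W * ‖q'.2 v.castSucc‖ := by fun_prop
    have c2 : Continuous fun q' : ℝ × E4 => ‖q'.2 3‖ ^ aw b v := by fun_prop
    exact (isOpen_lt c1 c2).mem_nhds hq
  filter_upwards [h1] with q' hq'
  unfold Rt
  rw [hW _ _ _ hq'.le, mul_zero]
  rfl

theorem contDiffAt_Rt {b : Bool} {v : Fin 3} {A : ℝ × (ℂ × ℂ) → ℂ} (hA : ArmPath b v A)
    {T : Set ℝ} (hT : IsOpen T) (hC : ContDiffOn ℝ 2 A (T ×ˢ {q : ℂ × ℂ | q.1 ≠ 0}))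
    {q : ℝ × E4} (hq1 : q.1 ∈ T) (hq2 : q.2 ≠ 0) : ContDiffAt ℝ 2 (Rt b v A) q := by
  by_cases hu : q.2 v.castSucc = 0
  · by_cases hN : N b q.2 = 0
    · obtain ⟨W, -, hW⟩ := hA.supp
      have hz := N_eq_zero.1 hN
      have hw : q.2 3 ≠ 0 := by
        intro h
        apply hq2
        funext i
        fin_cases i
        · exact hz 0
        · exact hz 1
        · exact hz 2
        · exact h
      have := ev_zero (b := b) (v := v) hW (q := q) (by
        rw [hu, norm_zero, mul_zero]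
        exact pow_pos (norm_pos_iff.2 hw) _)
      exact contDiffAt_const.congr_of_eventuallyEq this
    · have hc : ContinuousAt (fun q : ℝ × E4 => g b v q.2 / N b q.2) q :=
        (continuousAt_quot hN v).comp (f := fun q : ℝ × E4 => q.2) continuousAt_snd
      have h1 : ∀ᶠ q' : ℝ × E4 in 𝓝 q, g b v q'.2 / N b q'.2 < 3 / 4 := by
        apply hc.eventually_lt continuousAt_const
        rw [g_eq_zero.2 hu, zero_div]
        norm_num
      have : Rt b v A =ᶠ[𝓝 q] 0 := by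
        filter_upwards [h1] with q' hq'
        unfold Rt
        rw [th_zero hq'.le, Complex.ofReal_zero, zero_mul]
        rfl
      exact contDiffAt_const.congr_of_eventuallyEq this
  · have hN : N b q.2 ≠ 0 := fun h => hu (N_eq_zero.1 h v)
    unfold Rt
    have h1 : ContDiffAt ℝ 2 (fun q : ℝ × E4 => th (g b v q.2 / N b q.2)) q := by
      have e1 : ContDiffAt ℝ 2 (fun q : ℝ × E4 => g b v q.2) q :=
        (((contDiff_g b v).comp contDiff_snd).of_le two_le).contDiffAt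
      have e2 : ContDiffAt ℝ 2 (fun q : ℝ × E4 => N b q.2) q :=
        (((contDiff_N b).comp contDiff_snd).of_le two_le).contDiffAt
      have e3 : ContDiff ℝ 2 th := contDiff_th.of_le two_le
      exact e3.contDiffAt.comp q (e1.div e2 hN)
    have h2 : ContDiffAt ℝ 2 (fun q : ℝ × E4 => ((th (g b v q.2 / N b q.2) : ℝ) : ℂ)) q :=
      Complex.ofRealCLM.contDiff.contDiffAt.comp q h1
    refine h2.mul ?_
    have h3 : ContDiffAt ℝ 2 A (q.1, (q.2 v.castSucc, q.2 3)) := by
      have hop : IsOpen (T ×ˢ {q : ℂ × ℂ | q.1 ≠ 0}) :=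
        hT.prod (isOpen_ne.preimage continuous_fst)
      exact hC.contDiffAt (hop.mem_nhds ⟨hq1, hu⟩)
    have h4 : ContDiffAt ℝ 2 (fun q : ℝ × E4 => ((q.1, (q.2 v.castSucc, q.2 3)) : ℝ × (ℂ × ℂ)))
        q := by fun_prop
    exact h3.comp q h4

/-- **smoothness.** -/
theorem smooth_R {b : Bool} {A : Fin 3 → ℝ × (ℂ × ℂ) → ℂ} (hA : ∀ v, ArmPath b v (A v)) :
    ∃ T : Set ℝ, IsOpen T ∧ Icc (0 : ℝ) 1 ⊆ T ∧ ContDiffOn ℝ 2 (R b A) (T ×ˢ {0}ᶜ) := by
  choose T hT hI hC using fun v => (hA v).smooth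
  refine ⟨⋂ v, T v, isOpen_iInter_of_finite hT, subset_iInter hI, ?_⟩
  intro q hq
  refine ContDiffAt.contDiffWithinAt ?_
  unfold R
  refine ContDiffAt.sum fun v _ => ?_
  exact contDiffAt_Rt (hA v) (hT v) (hC v) (mem_iInter.1 hq.1 v) hq.2

/-! ### homogeneity -/

theorem act_coord (b : Bool) (s : ℝ) (p : E4) (v : Fin 3) :
    act (wt b) s p v.castSucc = ((Real.exp (s / 15) : ℝ) : ℂ) ^ aw b v * p v.castSucc := by
  unfold act
  congr 1
  rw [← Complex.ofReal_pow, ← Real.exp_nat_mul]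
  congr 2
  unfold wt aw
  cases b <;> fin_cases v <;> simp <;> ring

theorem act_three (b : Bool) (s : ℝ) (p : E4) :
    act (wt b) s p 3 = ((Real.exp (s / 15) : ℝ) : ℂ) * p 3 := by
  unfold act
  congr 3
  unfold wt
  cases b <;> simp <;> ring

theorem g_act (b : Bool) (v : Fin 3) (s : ℝ) (p : E4) :
    g b v (act (wt b) s p) = Real.exp (4 * s) * g b v p := by
  unfold g
  rw [act_coord, norm_mul, mul_pow, norm_pow, Complex.norm_real, Real.norm_eq_abs,
    abs_of_pos (Real.exp_pos _), ← pow_mul, ← Real.exp_nat_mul]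
  congr 2
  unfold aw bw
  cases b <;> fin_cases v <;> simp <;> ring

theorem N_act (b : Bool) (s : ℝ) (p : E4) : N b (act (wt b) s p) = Real.exp (4 * s) * N b p := by
  unfold N
  rw [Finset.mul_sum]
  exact Finset.sum_congr rfl fun v _ => g_act b v s p

theorem Q_act (b : Bool) (m n : ℂ) (s : ℝ) (p : E4) :
    Q b m n (act (wt b) s p) = (Real.exp s : ℂ) * Q b m n p := by
  have e : ((Real.exp s : ℝ) : ℂ) = ((Real.exp (s / 15) : ℝ) : ℂ) ^ 15 := by
    rw [← Complex.ofReal_pow, ← Real.exp_nat_mul]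
    congr 2; push_cast; ring
  have h0 := act_coord b s p 0
  have h1 := act_coord b s p 1
  have h2 := act_coord b s p 2
  have h3 := act_three b s p
  change act (wt b) s p 0 = _ * p 0 at h0
  change act (wt b) s p 1 = _ * p 1 at h1
  change act (wt b) s p 2 = _ * p 2 at h2
  unfold Q
  rw [h0, h1, h2, h3, e]
  unfold P2 aw
  cases b <;> simp <;> ring

theorem R_act {b : Bool} {A : Fin 3 → ℝ × (ℂ × ℂ) → ℂ} (hA : ∀ v, ArmPath b v (A v)) {t : ℝ}
    (ht : t ∈ Icc (0 : ℝ) 1) (s : ℝ) (p : E4) :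
    R b A (t, act (wt b) s p) = (Real.exp s : ℂ) * R b A (t, p) := by
  have e : ((Real.exp s : ℝ) : ℂ) = ((Real.exp (s / 15) : ℝ) : ℂ) ^ 15 := by
    rw [← Complex.ofReal_pow, ← Real.exp_nat_mul]
    congr 2; push_cast; ring
  unfold R
  rw [Finset.mul_sum]
  refine Finset.sum_congr rfl fun v _ => ?_
  unfold Rt
  simp only
  rw [g_act, N_act, mul_div_mul_left _ _ (Real.exp_pos _).ne', act_coord, act_three,
    (hA v).hom t ht _ _ _ (Real.exp_pos _), e]
  ring

theorem am2_eq (b : Bool) (m n : ℂ) (A : Fin 3 → ℝ × (ℂ × ℂ) → ℂ) (t : ℝ) (p : E4) :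
    am2 b m n (fun v z => A v (t, z)) p = Q b m n p + R b A (t, p) := rfl

theorem am2_act {b : Bool} {A : Fin 3 → ℝ × (ℂ × ℂ) → ℂ} (hA : ∀ v, ArmPath b v (A v)) {t : ℝ}
    (ht : t ∈ Icc (0 : ℝ) 1) (m n : ℂ) (s : ℝ) (p : E4) :
    am2 b m n (fun v z => A v (t, z)) (act (wt b) s p) =
      Real.exp s • am2 b m n (fun v z => A v (t, z)) p := by
  rw [am2_eq, am2_eq, Q_act, R_act hA ht, Complex.real_smul]
  ring

theorem wt_pos (b : Bool) (i : Fin 4) : 0 < wt b i := by
  unfold wt; cases b <;> fin_cases i <;> simp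


/-! ### regularity -/

theorem onto_pert (L : ℂ →ₗ[ℝ] ℂ) (h : ∀ z, z ≠ 0 → L z ≠ 0) (c : ℂ) : ∃ z, L z = c := by
  have hi : Function.Injective L := by
    rw [injective_iff_map_eq_zero]
    intro a ha
    by_contra hn
    exact h a hn ha
  exact (LinearMap.injective_iff_surjective.1 hi) c

theorem fderiv_part {F : ℝ × E4 → ℂ} {t : ℝ} {p : E4} (h : DifferentiableAt ℝ F (t, p))
    (y : E4) : fderiv ℝ (fun x => F (t, x)) p y = fderiv ℝ F (t, p) (0, y) := by
  have h1 : HasFDerivAt (fun x : E4 => (t, x)) (ContinuousLinearMap.inr ℝ ℝ E4) p :=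
    hasFDerivAt_prodMk_right t p
  have h2 := h.hasFDerivAt.comp p h1
  have h3 : (F ∘ fun x : E4 => (t, x)) = fun x => F (t, x) := rfl
  rw [h3] at h2
  rw [h2.fderiv]
  simp

variable {b : Bool} {A : Fin 3 → ℝ × (ℂ × ℂ) → ℂ}

theorem fderiv_am2 {t : ℝ} {p : E4} (h : DifferentiableAt ℝ (R b A) (t, p)) (m n : ℂ) (y : E4) :
    fderiv ℝ (am2 b m n fun v z => A v (t, z)) p y =
      dQ b m n p y + fderiv ℝ (R b A) (t, p) (0, y) := by
  have e : (am2 b m n fun v z => A v (t, z)) = fun x => Q b m n x + R b A (t, x) := rfl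
  have hQ : DifferentiableAt ℝ (Q b m n) p :=
    (contDiff_Q b m n).contDiffAt.differentiableAt (by simp)
  have hR : DifferentiableAt ℝ (fun x => R b A (t, x)) p :=
    h.comp p (hasFDerivAt_prodMk_right t p).differentiableAt
  rw [e, fderiv_fun_add hQ hR, add_apply, fderiv_Q, fderiv_part h]

theorem norm_le_one {p : E4} (hN : N b p = 1) (v : Fin 3) : ‖p v.castSucc‖ ≤ 1 := by
  have h1 : g b v p ≤ 1 := hN ▸ g_le_N b v p
  unfold g at h1
  have := bw_pos b v
  exact (pow_le_one_iff_of_nonneg (norm_nonneg _) (by omega)).1 h1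

/-- far away: the arms vanish. -/
theorem far {W : Fin 3 → ℝ} {W1 : ℝ}
    (hW : ∀ v (t : ℝ) (u w : ℂ), W v * ‖u‖ ≤ ‖w‖ ^ aw b v → A v (t, (u, w)) = 0)
    (hW0 : ∀ v, 0 < W v) (hW1 : ∀ v, W v ≤ W1) (h1 : 1 ≤ W1) {p : E4} (hN : N b p = 1)
    (hp : W1 < ‖p 3‖) (t : ℝ) : fderiv ℝ (R b A) (t, p) = 0 := by
  have h : R b A =ᶠ[𝓝 (t, p)] fun _ => 0 := by
    have hv : ∀ v, Rt b v (A v) =ᶠ[𝓝 (t, p)] 0 := by
      intro v
      refine ev_zero (hW v) ?_
      change W v * ‖p v.castSucc‖ < ‖p 3‖ ^ aw b v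
      have k1 : W v * ‖p v.castSucc‖ ≤ W v * 1 :=
        mul_le_mul_of_nonneg_left (norm_le_one hN v) (hW0 v).le
      have k2 : ‖p 3‖ ≤ ‖p 3‖ ^ aw b v := by
        refine le_self_pow₀ (by linarith) ?_
        have := aw_pos b v
        omega
      linarith [hW1 v]
    filter_upwards [hv 0, hv 1, hv 2] with q h0 h1 h2
    unfold R
    rw [Fin.sum_univ_three, h0, h1, h2]
    simp
  rw [h.fderiv_eq]
  simp

/-- near a tube. -/
theorem near {p : E4} (hN : N b p = 1) {v : Fin 3} (hv : t1 < g b v p) (t : ℝ) :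
    R b A =ᶠ[𝓝 (t, p)] fun q => A v (q.1, (q.2 v.castSucc, q.2 3)) := by
  have hN0 : N b p ≠ 0 := by rw [hN]; exact one_ne_zero
  have hc : ∀ u, ContinuousAt (fun q : ℝ × E4 => g b u q.2 / N b q.2) (t, p) := fun u =>
    ContinuousAt.comp (f := fun q : ℝ × E4 => q.2) (x := (t, p)) (continuousAt_quot hN0 u)
      continuousAt_snd
  have h1 : ∀ᶠ q : ℝ × E4 in 𝓝 (t, p), t1 < g b v q.2 / N b q.2 := by
    apply continuousAt_const.eventually_lt (hc v)
    simp only
    rw [hN, div_one]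
    exact hv
  have h2 : ∀ u, ∀ᶠ q : ℝ × E4 in 𝓝 (t, p), u ≠ v → g b u q.2 / N b q.2 < 3 / 4 := by
    intro u
    by_cases huv : u = v
    · exact Eventually.of_forall fun q h => absurd huv h
    · have h3 : ∀ᶠ q : ℝ × E4 in 𝓝 (t, p), g b u q.2 / N b q.2 < 3 / 4 := by
        apply (hc u).eventually_lt continuousAt_const
        simp only
        rw [hN, div_one]
        have h4 : g b u p + g b v p ≤ N b p := by
          unfold N
          rw [← Finset.sum_pair (f := fun v => g b v p) huv]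
          exact Finset.sum_le_sum_of_subset_of_nonneg (Finset.subset_univ _)
            fun i _ _ => g_nonneg b i p
        have h5 : (1 : ℝ) - 3 / 4 < t1 := by unfold t1; norm_num
        have h6 : (3 : ℝ) / 4 < t1 := lt_t1
        linarith
      exact h3.mono fun q h _ => h
  filter_upwards [h1, h2 0, h2 1, h2 2] with q k1 k20 k21 k22
  unfold R
  rw [Finset.sum_eq_single v]
  · unfold Rt
    rw [th_one k1.le, Complex.ofReal_one, one_mul]
  · intro u _ hu
    have : g b u q.2 / N b q.2 < 3 / 4 := by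
      fin_cases u
      · exact k20 hu
      · exact k21 hu
      · exact k22 hu
    unfold Rt
    rw [th_zero this.le, Complex.ofReal_zero, zero_mul]
  · intro h; exact absurd (Finset.mem_univ v) h

theorem dQ_single (m n : ℂ) (p : E4) (i : Fin 3) (h : ℂ) :
    dQ b m n p (Pi.single i.castSucc h) = D b m n p i * h := by
  unfold dQ
  have h3 : (Pi.single i.castSucc h : E4) 3 = 0 := by
    fin_cases i <;> simp
  rw [h3, mul_zero, add_zero, Finset.sum_eq_single i]
  · rw [Pi.single_eq_same]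
  · intro j _ hj
    rw [Pi.single_eq_of_ne (fun h => hj (Fin.castSucc_injective _ h)), mul_zero]
  · intro h; exact absurd (Finset.mem_univ i) h

/-- **regularity on `N = 1`.** -/
theorem reg_one (hA : ∀ v, ArmPath b v (A v)) : ∃ M0 > 0, ∀ m n : ℂ, M0 ≤ ‖m‖ →
    ‖m‖ ≤ 2 * ‖n‖ → ‖n‖ ≤ 2 * ‖m‖ → ∀ t ∈ Icc (0 : ℝ) 1, ∀ p : E4, N b p = 1 →
    am2 b m n (fun v z => A v (t, z)) p = 0 →
    ∀ c : ℂ, ∃ y, fderiv ℝ (am2 b m n fun v z => A v (t, z)) p y = c := by
  obtain ⟨T, hT, hI, hC⟩ := smooth_R hA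
  choose W hW0 hW using fun v => (hA v).supp
  set W1 : ℝ := 1 + ∑ v, W v with hW1d
  have hsum : ∀ v, W v ≤ ∑ v, W v := fun v =>
    Finset.single_le_sum (f := W) (fun v _ => (hW0 v).le) (Finset.mem_univ v)
  have hs0 : 0 ≤ ∑ v, W v := Finset.sum_nonneg fun v _ => (hW0 v).le
  have h1W : 1 ≤ W1 := by linarith
  have hWv : ∀ v, W v ≤ W1 := fun v => by linarith [hsum v]
  have hop : IsOpen (T ×ˢ ({0}ᶜ : Set E4)) := hT.prod isOpen_compl_singleton
  -- the compact set
  let K : Set E4 := {p | N b p = 1 ∧ (∀ v, g b v p ≤ t1) ∧ ‖p 3‖ ≤ W1}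
  have hKc : IsClosed K := by
    have e : K = {p | N b p = 1} ∩ ((⋂ v, {p | g b v p ≤ t1}) ∩ {p | ‖p 3‖ ≤ W1}) := by
      ext p; simp [K]
    rw [e]
    refine (isClosed_eq (continuous_N b) continuous_const).inter
      ((isClosed_iInter fun v => isClosed_le (continuous_g b v) continuous_const).inter
        (isClosed_le (by fun_prop) continuous_const))
  have hKb : K ⊆ Metric.closedBall 0 W1 := by
    intro p hp
    rw [mem_closedBall_zero_iff, pi_norm_le_iff_of_nonneg (by linarith)]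
    intro i
    have hle := norm_le_one (b := b) hp.1
    fin_cases i
    · exact (hle 0).trans h1W
    · exact (hle 1).trans h1W
    · exact (hle 2).trans h1W
    · exact hp.2.2
  have hK : IsCompact K := (isCompact_closedBall (0 : E4) W1).of_isClosed_subset hKc hKb
  have hK0 : ∀ p : E4, N b p = 1 → p ≠ 0 := by
    rintro p hp rfl
    rw [N_eq_zero.2 (fun v => rfl)] at hp
    exact zero_ne_one hp
  -- bound for the derivative of the remainder
  obtain ⟨B, hB⟩ : ∃ B : ℝ, ∀ t ∈ Icc (0 : ℝ) 1, ∀ p ∈ K, ‖fderiv ℝ (R b A) (t, p)‖ ≤ B := by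
    have hcont : ContinuousOn (fderiv ℝ (R b A)) (Icc (0 : ℝ) 1 ×ˢ K) :=
      (hC.continuousOn_fderiv_of_isOpen hop (by norm_num)).mono
        (prod_mono hI fun p hp => hK0 p hp.1)
    obtain ⟨B, hB⟩ := (isCompact_Icc.prod hK).exists_bound_of_continuousOn hcont
    exact ⟨B, fun t ht p hp => hB (t, p) ⟨ht, hp⟩⟩
  -- lower bound for the gradient
  obtain ⟨c, hc0, hc⟩ : ∃ c : ℝ, 0 < c ∧ ∀ q ∈ {r : ℂ | 1 / 2 ≤ ‖r‖ ∧ ‖r‖ ≤ 2} ×ˢ K,
      c ≤ ∑ i, ‖D b 1 q.1 q.2 i‖ := by
    have hcr : IsCompact {r : ℂ | 1 / 2 ≤ ‖r‖ ∧ ‖r‖ ≤ 2} := by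
      have e : {r : ℂ | 1 / 2 ≤ ‖r‖ ∧ ‖r‖ ≤ 2} = {r | 1 / 2 ≤ ‖r‖} ∩ Metric.closedBall 0 2 := by
        ext r; simp
      rw [e]
      exact (isCompact_closedBall (0 : ℂ) 2).inter_left
        (isClosed_le continuous_const continuous_norm)
    refine (hcr.prod hK).exists_forall_le' (f := fun q : ℂ × E4 => ∑ i, ‖D b 1 q.1 q.2 i‖) ?_ ?_
    · refine Continuous.continuousOn (continuous_finsetSum _ fun i _ => ?_)
      unfold D P2s P2t
      cases b <;> fin_cases i <;> simp <;> fun_prop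
    · rintro ⟨r, p⟩ ⟨hr, hp⟩
      have hr0 : r ≠ 0 := by
        rintro rfl
        have := hr.1
        rw [norm_zero] at this
        norm_num at this
      obtain ⟨i, hi⟩ := outside (b := b) one_ne_zero hr0 hp.1 hp.2.1
      have : 0 < ‖D b 1 r p i‖ := norm_pos_iff.2 hi
      exact this.trans_le (Finset.single_le_sum (f := fun i => ‖D b 1 r p i‖)
        (fun i _ => norm_nonneg _) (Finset.mem_univ i))
  have hscale : ∀ (m n : ℂ) (p : E4) (i : Fin 3), m ≠ 0 →
      D b m n p i = m * D b 1 (n / m) p i := by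
    intro m n p i hm
    have e : n = m * (n / m) := by field_simp
    have e2 : ∀ r : ℂ, D b m (m * r) p i = m * D b 1 r p i := by
      intro r
      unfold D P2s P2t
      cases b <;> fin_cases i <;> simp <;> ring
    conv_lhs => rw [e]
    exact e2 _
  refine ⟨max 1 ((3 * B + 1) / c), by positivity, fun m n hm h1 h2 t ht p hN hz c' => ?_⟩
  have hm1 : 1 ≤ ‖m‖ := (le_max_left _ _).trans hm
  have hm0 : m ≠ 0 := norm_pos_iff.1 (by linarith)
  have hn0 : n ≠ 0 := norm_pos_iff.1 (by linarith)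
  have hp0 : p ≠ 0 := hK0 p hN
  have hmem : (t, p) ∈ T ×ˢ ({0}ᶜ : Set E4) := ⟨hI ht, hp0⟩
  have hdR : DifferentiableAt ℝ (R b A) (t, p) :=
    (hC.contDiffAt (hop.mem_nhds hmem)).differentiableAt (by norm_num)
  by_cases hcase : ∃ v, t1 < g b v p
  · -- near a tube
    obtain ⟨v, hv⟩ := hcase
    have hv0 : p v.castSucc ≠ 0 := by
      intro h
      rw [g_eq_zero.2 h] at hv
      have := lt_t1
      linarith
    have hev := near (A := A) hN hv t
    obtain ⟨Tv, hTv, hIv, hCv⟩ := (hA v).smooth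
    have hopv : IsOpen (Tv ×ˢ {q : ℂ × ℂ | q.1 ≠ 0}) :=
      hTv.prod (isOpen_ne.preimage continuous_fst)
    have hdA : DifferentiableAt ℝ (A v) (t, (p v.castSucc, p 3)) :=
      (hCv.contDiffAt (hopv.mem_nhds (show ((t, (p v.castSucc, p 3)) : ℝ × (ℂ × ℂ)) ∈
        Tv ×ˢ {q : ℂ × ℂ | q.1 ≠ 0} from ⟨hIv ht, hv0⟩))).differentiableAt (by norm_num)
    let ℓ : ℝ × E4 →L[ℝ] ℝ × (ℂ × ℂ) :=
      (ContinuousLinearMap.fst ℝ ℝ E4).prod
        (((ContinuousLinearMap.proj v.castSucc : E4 →L[ℝ] ℂ).comp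
            (ContinuousLinearMap.snd ℝ ℝ E4)).prod
          ((ContinuousLinearMap.proj 3 : E4 →L[ℝ] ℂ).comp (ContinuousLinearMap.snd ℝ ℝ E4)))
    have hfd : ∀ y : E4, fderiv ℝ (R b A) (t, p) (0, y) =
        fderiv ℝ (A v) (t, (p v.castSucc, p 3)) (0, (y v.castSucc, y 3)) := by
      intro y
      rw [hev.fderiv_eq]
      have h3 : HasFDerivAt (fun q : ℝ × E4 => A v (q.1, (q.2 v.castSucc, q.2 3)))
          ((fderiv ℝ (A v) (t, (p v.castSucc, p 3))).comp ℓ) (t, p) :=
        HasFDerivAt.comp (f := ℓ) (t, p) hdA.hasFDerivAt ℓ.hasFDerivAt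
      rw [h3.fderiv]
      rfl
    by_cases htr : ∃ i, i ≠ v ∧ D b m n p i ≠ 0
    · obtain ⟨i, hiv, hi⟩ := htr
      refine ⟨Pi.single i.castSucc (c' / D b m n p i), ?_⟩
      have e3 : (Pi.single i.castSucc (c' / D b m n p i) : E4) 3 = 0 := by
        fin_cases i <;> simp
      have ev : (Pi.single i.castSucc (c' / D b m n p i) : E4) v.castSucc = 0 :=
        Pi.single_eq_of_ne (fun h => hiv (Fin.castSucc_injective _ h).symm) _
      rw [fderiv_am2 hdR, hfd, dQ_single, ev, e3, mul_div_cancel₀ _ hi]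
      have : ((0 : ℝ), ((0 : ℂ), (0 : ℂ))) = 0 := rfl
      rw [this, map_zero, add_zero]
    · push Not at htr
      obtain ⟨f1, f2⟩ := tube hm0 hn0 h1 h2 hN hv htr
      have hz' : p 3 ^ 15 + A v (t, (p v.castSucc, p 3)) = 0 := by
        rw [am2_eq, hev.eq_of_nhds] at hz
        unfold Q at hz
        rw [f2, zero_add] at hz
        exact hz
      obtain ⟨y, hy⟩ := (hA v).reg t ht _ _ hv0 hz' c'
      refine ⟨Pi.single v.castSucc y.1 + Pi.single 3 y.2, ?_⟩
      have hv3 : v.castSucc ≠ (3 : Fin 4) := by fin_cases v <;> decide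
      have e1 : (Pi.single v.castSucc y.1 + Pi.single 3 y.2 : E4) v.castSucc = y.1 := by
        rw [Pi.add_apply, Pi.single_eq_same, Pi.single_eq_of_ne hv3, add_zero]
      have e3 : (Pi.single v.castSucc y.1 + Pi.single 3 y.2 : E4) 3 = y.2 := by
        rw [Pi.add_apply, Pi.single_eq_same, Pi.single_eq_of_ne hv3.symm, zero_add]
      rw [fderiv_am2 hdR, hfd, e1, e3, ← hy]
      congr 1
      unfold dQ
      rw [e3, Finset.sum_eq_zero, zero_add]
      intro i _
      by_cases hiv : i = v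
      · rw [hiv, f1, zero_mul]
      · rw [htr i hiv, zero_mul]
  · push Not at hcase
    by_cases hw : ‖p 3‖ ≤ W1
    · -- the compact region
      have hpK : p ∈ K := ⟨hN, hcase, hw⟩
      have hB0 : 0 ≤ B := (norm_nonneg _).trans (hB t ht p hpK)
      have hcm : 3 * B + 1 ≤ c * ‖m‖ := by
        have := (le_max_right 1 ((3 * B + 1) / c)).trans hm
        rw [div_le_iff₀ hc0] at this
        linarith
      have hr : n / m ∈ {r : ℂ | 1 / 2 ≤ ‖r‖ ∧ ‖r‖ ≤ 2} := by
        have hmp : 0 < ‖m‖ := by linarith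
        refine ⟨?_, ?_⟩
        · rw [norm_div, le_div_iff₀ hmp]; linarith
        · rw [norm_div, div_le_iff₀ hmp]; linarith
      have hg := hc (n / m, p) ⟨hr, hpK⟩
      have hex : ∃ i, B < ‖D b m n p i‖ := by
        by_contra hn
        push Not at hn
        have h5 : ∑ i, ‖D b m n p i‖ = ‖m‖ * ∑ i, ‖D b 1 (n / m) p i‖ := by
          rw [Finset.mul_sum]
          exact Finset.sum_congr rfl fun i _ => by rw [hscale m n p i hm0, norm_mul]
        have h6 : ∑ i, ‖D b m n p i‖ ≤ 3 * B := by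
          calc ∑ i, ‖D b m n p i‖ ≤ ∑ _i : Fin 3, B := Finset.sum_le_sum fun i _ => hn i
            _ = 3 * B := by simp
        have h7 : c * ‖m‖ ≤ ‖m‖ * ∑ i, ‖D b 1 (n / m) p i‖ := by
          rw [mul_comm]
          exact mul_le_mul_of_nonneg_left hg (norm_nonneg _)
        linarith
      obtain ⟨i, hi⟩ := hex
      let L : ℂ →ₗ[ℝ] ℂ :=
        { toFun := fun h => D b m n p i * h +
            fderiv ℝ (R b A) (t, p) (0, Pi.single i.castSucc h)
          map_add' := fun x y => by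
            have : ((0 : ℝ), (Pi.single i.castSucc (x + y) : E4)) =
                ((0 : ℝ), (Pi.single i.castSucc x : E4)) +
                  ((0 : ℝ), (Pi.single i.castSucc y : E4)) := by
              rw [Prod.mk_add_mk, add_zero, Pi.single_add]
            rw [this, map_add]
            ring
          map_smul' := fun a x => by
            have : ((0 : ℝ), (Pi.single i.castSucc (a • x) : E4)) =
                a • ((0 : ℝ), (Pi.single i.castSucc x : E4)) := by
              rw [Prod.smul_mk, smul_zero, Pi.single_smul]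
            rw [this, map_smul]
            simp only [RingHom.id_apply, Complex.real_smul]
            ring }
      obtain ⟨h, hh⟩ := onto_pert L (fun z hz hL => by
        have h8 : D b m n p i * z = -fderiv ℝ (R b A) (t, p) (0, Pi.single i.castSucc z) :=
          eq_neg_of_add_eq_zero_left hL
        have h9 : ‖D b m n p i‖ * ‖z‖ ≤ B * ‖z‖ := by
          rw [← norm_mul, h8, norm_neg]
          refine (ContinuousLinearMap.le_opNorm _ _).trans ?_
          refine mul_le_mul (hB t ht p hpK) ?_ (norm_nonneg _) hB0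
          rw [Prod.norm_mk, norm_zero, Pi.norm_single]
          exact max_le (norm_nonneg _) le_rfl
        have hzp : 0 < ‖z‖ := norm_pos_iff.2 hz
        exact absurd (le_of_mul_le_mul_right h9 hzp) (not_le.2 hi)) c'
      refine ⟨Pi.single i.castSucc h, ?_⟩
      rw [fderiv_am2 hdR, dQ_single]
      exact hh
    · -- far away
      push Not at hw
      have hp3 : p 3 ≠ 0 := norm_pos_iff.1 (by linarith)
      have h15 : 15 * p 3 ^ 14 ≠ 0 := mul_ne_zero (by norm_num) (pow_ne_zero _ hp3)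
      refine ⟨Pi.single 3 (c' / (15 * p 3 ^ 14)), ?_⟩
      rw [fderiv_am2 hdR, far hW hW0 hWv h1W hN hw t, zero_apply, add_zero]
      unfold dQ
      rw [Pi.single_eq_same, Finset.sum_eq_zero, zero_add, mul_div_cancel₀ _ h15]
      intro i _
      have : (Pi.single 3 (c' / (15 * p 3 ^ 14)) : E4) i.castSucc = 0 := by
        fin_cases i <;> simp
      rw [this, mul_zero]


/-- **regularity.** -/
theorem reg_all (hA : ∀ v, ArmPath b v (A v)) : ∃ M0 > 0, ∀ m n : ℂ, M0 ≤ ‖m‖ →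
    ‖m‖ ≤ 2 * ‖n‖ → ‖n‖ ≤ 2 * ‖m‖ → ∀ t ∈ Icc (0 : ℝ) 1, ∀ p : E4, p ≠ 0 →
    am2 b m n (fun v z => A v (t, z)) p = 0 →
    ∀ c : ℂ, ∃ y, fderiv ℝ (am2 b m n fun v z => A v (t, z)) p y = c := by
  obtain ⟨M0, hM0, H⟩ := reg_one hA
  obtain ⟨T, hT, hI, hC⟩ := smooth_R hA
  have hop : IsOpen (T ×ˢ ({0}ᶜ : Set E4)) := hT.prod isOpen_compl_singleton
  refine ⟨M0, hM0, fun m n hm h1 h2 t ht p hp0 hz c => ?_⟩
  by_cases hN : N b p = 0
  · exfalso
    have hv := N_eq_zero.1 hN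
    have e0 : p 0 = 0 := hv 0
    have e1 : p 1 = 0 := hv 1
    have e2 : p 2 = 0 := hv 2
    have hR : R b A (t, p) = 0 := by
      unfold R Rt
      refine Finset.sum_eq_zero fun v _ => ?_
      simp only
      rw [hv v, (hA v).zero, mul_zero]
    rw [am2_eq, hR, add_zero] at hz
    have hQ : Q b m n p = p 3 ^ 15 := by
      unfold Q P2
      rw [e0, e1, e2]
      cases b <;> simp
    rw [hQ] at hz
    have e3 : p 3 = 0 := pow_eq_zero_iff (by norm_num) |>.1 hz
    apply hp0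
    funext i
    fin_cases i
    · exact e0
    · exact e1
    · exact e2
    · exact e3
  · have hNp : 0 < N b p := lt_of_le_of_ne (N_nonneg b p) (Ne.symm hN)
    -- the normalising time
    set s : ℝ := -(Real.log (N b p)) / 4 with hs
    have hNs : N b (act (wt b) s p) = 1 := by
      rw [N_act, hs, show 4 * (-(Real.log (N b p)) / 4) = -(Real.log (N b p)) by ring,
        Real.exp_neg, Real.exp_log hNp, inv_mul_cancel₀ hN]
    have hzs : am2 b m n (fun v z => A v (t, z)) (act (wt b) s p) = 0 := by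
      rw [am2_act hA ht, hz, smul_zero]
    obtain ⟨y, hy⟩ := H m n hm h1 h2 t ht _ hNs hzs (Real.exp s • c)
    have hd : ∀ x : E4, x ≠ 0 →
        DifferentiableAt ℝ (am2 b m n fun v z => A v (t, z)) x := by
      intro x hx
      have hdR : DifferentiableAt ℝ (R b A) (t, x) :=
        (hC.contDiffAt (hop.mem_nhds (show (t, x) ∈ T ×ˢ ({0}ᶜ : Set E4) from
          ⟨hI ht, hx⟩))).differentiableAt (by norm_num)
      have hR : DifferentiableAt ℝ (fun x => R b A (t, x)) x :=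
        hdR.comp x (hasFDerivAt_prodMk_right t x).differentiableAt
      exact ((contDiff_Q b m n).contDiffAt.differentiableAt (by simp)).add hR
    let a : E4 →L[ℝ] E4 :=
      ContinuousLinearMap.pi fun i => (Real.exp (s * wt b i)) • ContinuousLinearMap.proj i
    have ha : ∀ x, a x = act (wt b) s x := by
      intro x
      funext i
      simp [a, act]
    have ha' : (fun x => act (wt b) s x) = a := funext fun x => (ha x).symm
    have hne : act (wt b) s p ≠ 0 := act_ne_zero hp0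
    have k1 : HasFDerivAt (fun x => am2 b m n (fun v z => A v (t, z)) (act (wt b) s x))
        ((fderiv ℝ (am2 b m n fun v z => A v (t, z)) (act (wt b) s p)).comp a) p := by
      have h3 : HasFDerivAt (fun x => act (wt b) s x) a p := by
        rw [ha']; exact a.hasFDerivAt
      exact (hd _ hne).hasFDerivAt.comp p h3
    have k2 : HasFDerivAt (fun x => am2 b m n (fun v z => A v (t, z)) (act (wt b) s x))
        (Real.exp s • fderiv ℝ (am2 b m n fun v z => A v (t, z)) p) p := by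
      have e : (fun x => am2 b m n (fun v z => A v (t, z)) (act (wt b) s x)) =
          fun x => Real.exp s • am2 b m n (fun v z => A v (t, z)) x :=
        funext fun x => am2_act hA ht m n s x
      rw [e]
      exact (hd p hp0).hasFDerivAt.const_smul (Real.exp s)
    have k3 := k1.unique k2
    refine ⟨act (wt b) (-s) y, ?_⟩
    have k4 := congrArg (fun l : E4 →L[ℝ] ℂ => l (act (wt b) (-s) y)) k3
    simp only [ContinuousLinearMap.comp_apply] at k4
    rw [ha, act_act_neg, hy] at k4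
    change Real.exp s • c = Real.exp s •
      fderiv ℝ (am2 b m n fun v z => A v (t, z)) p (act (wt b) (-s) y) at k4
    exact (smul_right_injective ℂ (Real.exp_pos s).ne' k4).symm

/-- **the amalgam with moving coefficients.** -/
theorem hpath (hA : ∀ v, ArmPath b v (A v)) : ∃ M0 > 0, ∀ m n : ℝ → ℂ, ContDiff ℝ 2 m →
    ContDiff ℝ 2 n → (∀ t ∈ Icc (0 : ℝ) 1, M0 ≤ ‖m t‖ ∧ ‖m t‖ ≤ 2 * ‖n t‖ ∧
      ‖n t‖ ≤ 2 * ‖m t‖) →
    HPath0 (fun q : ℝ × E4 => am2 b (m q.1) (n q.1) (fun v z => A v (q.1, z)) q.2) := by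
  obtain ⟨M0, hM0, H⟩ := reg_all hA
  obtain ⟨T, hT, hI, hC⟩ := smooth_R hA
  have hop : IsOpen (T ×ˢ ({0}ᶜ : Set E4)) := hT.prod isOpen_compl_singleton
  refine ⟨M0, hM0, fun m n hm hn hmn => ?_⟩
  have hsm : ContDiffOn ℝ 2 (fun q : ℝ × E4 =>
      am2 b (m q.1) (n q.1) (fun v z => A v (q.1, z)) q.2) (T ×ˢ {0}ᶜ) := by
    have e : (fun q : ℝ × E4 => am2 b (m q.1) (n q.1) (fun v z => A v (q.1, z)) q.2) =
        fun q => Q b (m q.1) (n q.1) q.2 + R b A q := rfl
    rw [e]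
    refine ContDiffOn.add (ContDiff.contDiffOn ?_) hC
    have hm' : ContDiff ℝ 2 fun q : ℝ × E4 => m q.1 := hm.comp contDiff_fst
    have hn' : ContDiff ℝ 2 fun q : ℝ × E4 => n q.1 := hn.comp contDiff_fst
    have hx : ∀ i, ContDiff ℝ 2 fun q : ℝ × E4 => q.2 i := fun i => by fun_prop
    unfold Q P2
    cases b
    · simp only [cond_false]
      exact ((hm'.mul ((hx 0).mul (((hx 1).mul (hx 2)).pow 2))).add
        (hn'.mul (((hx 0).pow 3).mul ((hx 1).mul (hx 2))))).add ((hx 3).pow 15)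
    · simp only [cond_true]
      exact ((hm'.mul (((hx 0).pow 2).mul ((hx 1).mul (hx 2)))).add
        (hn'.mul ((hx 0).mul (((hx 1).mul (hx 2)).pow 3)))).add ((hx 3).pow 15)
  refine ⟨⟨T, hT, hI, hsm⟩, fun t ht => ⟨wt b, wt_pos b, fun s x => am2_act hA ht _ _ s x⟩, ?_⟩
  intro t ht x hx hz c
  obtain ⟨h1, h2, h3⟩ := hmn t ht
  obtain ⟨y, hy⟩ := H (m t) (n t) h1 h2 h3 t ht x hx hz c
  refine ⟨y, ?_⟩
  have hdd := (hsm.contDiffAt (hop.mem_nhds (show (t, x) ∈ T ×ˢ ({0}ᶜ : Set E4) from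
    ⟨hI ht, hx⟩))).differentiableAt (by norm_num)
  rw [← fderiv_part hdd]
  exact hy

/-- **T3N-AMAL, homotopies of the arms.** -/
theorem amal_path (A : Fin 3 → ℝ × (ℂ × ℂ) → ℂ) (hA : ∀ v, ArmPath b v (A v)) :
    ∃ M0 > 0, ∀ M ≥ M0,
    HPath0 (fun q : ℝ × E4 => am b M (fun v z => A v (q.1, z)) q.2) := by
  obtain ⟨M0, hM0, H⟩ := hpath hA
  refine ⟨M0, hM0, fun M hM => ?_⟩
  have h := H (fun _ => (M : ℂ)) (fun _ => (M : ℂ)) contDiff_const contDiff_const
    fun t _ => by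
      have : ‖(M : ℂ)‖ = M := by
        rw [Complex.norm_real, Real.norm_eq_abs, abs_of_pos (lt_of_lt_of_le hM0 hM)]
      rw [this]
      exact ⟨hM, by linarith, by linarith⟩
  simp_rw [am_eq]
  exact h

/-- **T3N-AMAL, independence of `M`.** -/
theorem amal_M (A : Fin 3 → ℂ × ℂ → ℂ) (hA : ∀ v, Arm b v (A v)) : ∃ M0 > 0, ∀ M M' : ℝ,
    M0 ≤ M → M0 ≤ M' → ZEq (am b M A) (am b M' A) := by
  obtain ⟨M0, hM0, H⟩ := hpath (A := fun v q => A v q.2) hA
  refine ⟨M0, hM0, fun M M' hM hM' => ?_⟩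
  let μ : ℝ → ℂ := fun t => ((M + t * (M' - M) : ℝ) : ℂ)
  have hμ : ContDiff ℝ 2 μ := by
    have : ContDiff ℝ 2 fun t : ℝ => M + t * (M' - M) := by fun_prop
    exact Complex.ofRealCLM.contDiff.comp this
  have h := H μ μ hμ hμ fun t ht => by
    have hp : M0 ≤ M + t * (M' - M) := by nlinarith [ht.1, ht.2]
    have : ‖μ t‖ = M + t * (M' - M) := by
      change ‖((M + t * (M' - M) : ℝ) : ℂ)‖ = _
      rw [Complex.norm_real, Real.norm_eq_abs, abs_of_pos (lt_of_lt_of_le hM0 hp)]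
    rw [this]
    exact ⟨hp, by linarith, by linarith⟩
  have hl := h.link
  have e0 : (fun x : E4 => am2 b (μ ((0 : ℝ), x).1) (μ ((0 : ℝ), x).1)
      (fun v z => A v z) ((0 : ℝ), x).2) = am b M A := by
    funext x
    rw [am_eq]
    simp [μ]
  have e1 : (fun x : E4 => am2 b (μ ((1 : ℝ), x).1) (μ ((1 : ℝ), x).1)
      (fun v z => A v z) ((1 : ℝ), x).2) = am b M' A := by
    funext x
    rw [am_eq]
    simp [μ]
  rw [← e0, ← e1]
  exact hl

end Crest.Agent.R267.Amal_52
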