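import Mathlib
import Crest.Agent.R267.Amal_52

/-!
# S0406, package T3N: the amalgam of `f` with a three-parameter core (helper52)

`am3 m n k A` : the amalgam of `NdR_484` (`b = true`) with the core `m s²t + n st³ + k t⁵`;
`am3 m n 0 = am2 true m n`.

* `reg_all3` : uniform `0`-regularity for `‖m‖ ≥ M0`, `(n / m, k / m) ∈ Λ`, `Λ` compact in
  `{(λ, μ) : ‖λ‖ ≤ 2, ‖μ‖ ≤ 3, λ² ≠ 4 μ}`;
* `hpath3` : moving coefficients and moving arms give an `HPath0`;
* `core_path` : `am true M A` and `am3 M 0 M A` have homeomorphic links for `M ≥ M0`.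
-/

set_option autoImplicit false
set_option linter.unusedSectionVars false

noncomputable section

open Set Filter Topology Finset
open scoped ContDiff
open Crest.Agent.R267.Cone_808 Crest.Agent.R267.Hm_951 Crest.Agent.R267.NdR_484
open Crest.Agent.R267.Amal_52

namespace Crest.Agent.R267.Amal3_52

/-- three-parameter core. -/
def P3 (m n k s t : ℂ) : ℂ := m * (s ^ 2 * t) + n * (s * t ^ 3) + k * t ^ 5

/-- derivative in `s`. -/
def P3s (m n s t : ℂ) : ℂ := m * (2 * s * t) + n * t ^ 3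

/-- derivative in `t`. -/
def P3t (m n k s t : ℂ) : ℂ := m * s ^ 2 + n * (s * (3 * t ^ 2)) + k * (5 * t ^ 4)

/-- the three-parameter amalgam. -/
def am3 (m n k : ℂ) (A : Fin 3 → ℂ × ℂ → ℂ) (p : E4) : ℂ :=
  P3 m n k (p 0) (p 1 * p 2) + p 3 ^ 15 +
    ∑ v, (th (g true v p / N true p) : ℂ) * A v (p v.castSucc, p 3)

theorem am3_zero (m n : ℂ) (A : Fin 3 → ℂ × ℂ → ℂ) (p : E4) :
    am3 m n 0 A p = am2 true m n A p := by
  unfold am3 am2 P3 P2
  simp only [cond_true]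
  ring

/-- the core has an isolated critical point. -/
theorem core_iso3 {m n k : ℂ} (hm : m ≠ 0) (hd : n ^ 2 ≠ 4 * (m * k)) {s t : ℂ}
    (h1 : P3s m n s t = 0) (h2 : P3t m n k s t = 0) : s = 0 ∧ t = 0 := by
  unfold P3s at h1
  unfold P3t at h2
  have e1 : t * (2 * (m * s) + n * t ^ 2) = 0 := by rw [← h1]; ring
  rcases mul_eq_zero.1 e1 with h | h
  · subst h
    have e2 : m * s ^ 2 = 0 := by rw [← h2]; ring
    have := (mul_eq_zero.1 e2).resolve_left hm
    exact ⟨pow_eq_zero_iff (two_ne_zero) |>.1 this, rfl⟩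
  · have e3 : t ^ 4 * (4 * (m * k) - n ^ 2) = 0 := by
      have e4 : m * s = -(n * t ^ 2) / 2 := by linear_combination h / 2
      have e5 : m * (m * s ^ 2 + n * (s * (3 * t ^ 2)) + k * (5 * t ^ 4)) =
          (m * s) ^ 2 + 3 * n * t ^ 2 * (m * s) + 5 * (m * k) * t ^ 4 := by ring
      rw [h2, mul_zero, e4] at e5
      linear_combination (-4 / 5) * e5
    have e6 : t ^ 4 = 0 := (mul_eq_zero.1 e3).resolve_right
      (sub_ne_zero.2 (Ne.symm hd))
    have e7 : t = 0 := pow_eq_zero_iff (by norm_num) |>.1 e6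
    subst e7
    have : m * s = 0 := by linear_combination h / 2
    exact ⟨(mul_eq_zero.1 this).resolve_left hm, rfl⟩

/-- the three derivatives of `P3 (x, yz)`. -/
def D3 (m n k : ℂ) (p : E4) : Fin 3 → ℂ :=
  ![P3s m n (p 0) (p 1 * p 2), P3t m n k (p 0) (p 1 * p 2) * p 2,
    P3t m n k (p 0) (p 1 * p 2) * p 1]

theorem P3t_ne {m n k : ℂ} (hm : m ≠ 0) (h1 : ‖n‖ ≤ 2 * ‖m‖) (h2 : ‖k‖ ≤ 3 * ‖m‖) {s t : ℂ}
    (ht : ‖t‖ < 1 / 4) (hs : 1 / 2 < ‖s‖) : P3t m n k s t ≠ 0 := by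
  have hmp : 0 < ‖m‖ := norm_pos_iff.2 hm
  intro h
  unfold P3t at h
  have e3 : m * s ^ 2 = -(n * (s * (3 * t ^ 2)) + k * (5 * t ^ 4)) := by linear_combination h
  have ht2 : ‖t‖ ^ 2 ≤ 1 / 16 := by nlinarith [norm_nonneg t]
  have ht4 : ‖t‖ ^ 4 ≤ 1 / 256 := by nlinarith [norm_nonneg t, sq_nonneg (‖t‖ ^ 2)]
  have e4 : ‖m‖ * ‖s‖ ^ 2 ≤ ‖n‖ * (‖s‖ * (3 * ‖t‖ ^ 2)) + ‖k‖ * (5 * ‖t‖ ^ 4) := by
    calc ‖m‖ * ‖s‖ ^ 2 = ‖m * s ^ 2‖ := by rw [norm_mul, norm_pow]
      _ = ‖n * (s * (3 * t ^ 2)) + k * (5 * t ^ 4)‖ := by rw [e3, norm_neg]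
      _ ≤ ‖n * (s * (3 * t ^ 2))‖ + ‖k * (5 * t ^ 4)‖ := norm_add_le _ _
      _ = _ := by
        simp only [norm_mul, norm_pow]
        norm_num
  have e5 : ‖n‖ * (‖s‖ * (3 * ‖t‖ ^ 2)) ≤ (2 * ‖m‖) * (‖s‖ * (3 * (1 / 16))) := by
    refine mul_le_mul h1 ?_ (by positivity) (by positivity)
    exact mul_le_mul_of_nonneg_left (by linarith) (norm_nonneg _)
  have e6 : ‖k‖ * (5 * ‖t‖ ^ 4) ≤ (3 * ‖m‖) * (5 * (1 / 256)) :=
    mul_le_mul h2 (by linarith) (by positivity) (by positivity)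
  have e7 : ‖m‖ * (‖s‖ ^ 2 - 3 / 8 * ‖s‖ - 15 / 256) ≤ 0 := by nlinarith
  have e8 : 0 < ‖s‖ ^ 2 - 3 / 8 * ‖s‖ - 15 / 256 := by nlinarith
  have := mul_pos hmp e8
  linarith

theorem t1_g_ne {v : Fin 3} {p : E4} (hv : t1 < g true v p) : p v.castSucc ≠ 0 := by
  intro h
  rw [g_eq_zero.2 h] at hv
  have := lt_t1
  linarith

/-- **the tubes.** -/
theorem tube3 {m n k : ℂ} (hm : m ≠ 0) (hd : n ^ 2 ≠ 4 * (m * k)) (h1 : ‖n‖ ≤ 2 * ‖m‖)
    (h2 : ‖k‖ ≤ 3 * ‖m‖) {p : E4} (hN : N true p = 1) {v : Fin 3} (hv : t1 < g true v p)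
    (hD : ∀ i, i ≠ v → D3 m n k p i = 0) :
    D3 m n k p v = 0 ∧ P3 m n k (p 0) (p 1 * p 2) = 0 := by
  have hv0 := t1_g_ne hv
  have P0 : P3 m n k 0 0 = 0 := by unfold P3; simp
  fin_cases v
  · obtain ⟨ht, hs⟩ := yz_small hN hv
    have hP := P3t_ne hm h1 h2 ht hs
    have e1 : p 2 = 0 := (mul_eq_zero.1 (hD 1 (by decide))).resolve_left hP
    refine ⟨?_, ?_⟩
    · change P3s m n (p 0) (p 1 * p 2) = 0
      rw [e1]; unfold P3s; simp
    · rw [e1]; unfold P3; simp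
  · have hv1 : p 1 ≠ 0 := hv0
    have e0 : P3s m n (p 0) (p 1 * p 2) = 0 := hD 0 (by decide)
    have e2 : P3t m n k (p 0) (p 1 * p 2) = 0 :=
      (mul_eq_zero.1 (hD 2 (by decide))).resolve_right hv1
    obtain ⟨f1, f2⟩ := core_iso3 hm hd e0 e2
    refine ⟨?_, ?_⟩
    · change P3t m n k (p 0) (p 1 * p 2) * p 2 = 0
      rw [e2, zero_mul]
    · rw [f1, f2]; exact P0
  · have hv1 : p 2 ≠ 0 := hv0
    have e0 : P3s m n (p 0) (p 1 * p 2) = 0 := hD 0 (by decide)
    have e2 : P3t m n k (p 0) (p 1 * p 2) = 0 :=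
      (mul_eq_zero.1 (hD 1 (by decide))).resolve_right hv1
    obtain ⟨f1, f2⟩ := core_iso3 hm hd e0 e2
    refine ⟨?_, ?_⟩
    · change P3t m n k (p 0) (p 1 * p 2) * p 1 = 0
      rw [e2, zero_mul]
    · rw [f1, f2]; exact P0

/-- **outside the tubes.** -/
theorem outside3 {m n k : ℂ} (hm : m ≠ 0) (hd : n ^ 2 ≠ 4 * (m * k)) {p : E4}
    (hN : N true p = 1) (hv : ∀ v, g true v p ≤ t1) : ∃ i, D3 m n k p i ≠ 0 := by
  by_contra hc
  push Not at hc
  have ht := t1_lt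
  have hs : g true 0 p + g true 1 p + g true 2 p = 1 := by
    rw [← hN]; unfold N; rw [Fin.sum_univ_three]
  have e0 : P3s m n (p 0) (p 1 * p 2) = 0 := hc 0
  have e1 : P3t m n k (p 0) (p 1 * p 2) * p 2 = 0 := hc 1
  have e2 : P3t m n k (p 0) (p 1 * p 2) * p 1 = 0 := hc 2
  have z : ∀ v : Fin 3, p v.castSucc = 0 → g true v p = 0 := fun v h => g_eq_zero.2 h
  by_cases hP : P3t m n k (p 0) (p 1 * p 2) = 0
  · obtain ⟨f1, f2⟩ := core_iso3 hm hd e0 hP
    have g0 := z 0 f1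
    rcases mul_eq_zero.1 f2 with f | f
    · have := z 1 f
      linarith [hv 2]
    · have := z 2 f
      linarith [hv 1]
  · have g1 := z 1 ((mul_eq_zero.1 e2).resolve_left hP)
    have g2 := z 2 ((mul_eq_zero.1 e1).resolve_left hP)
    linarith [hv 0]

/-! ### derivatives -/

/-- the polynomial part. -/
def Q3 (m n k : ℂ) (p : E4) : ℂ := P3 m n k (p 0) (p 1 * p 2) + p 3 ^ 15

/-- its derivative. -/
def dQ3 (m n k : ℂ) (p y : E4) : ℂ :=
  ∑ i, D3 m n k p i * y i.castSucc + 15 * p 3 ^ 14 * y 3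

theorem contDiff_Q3 (m n k : ℂ) : ContDiff ℝ ∞ (Q3 m n k) := by
  unfold Q3 P3
  fun_prop

theorem fderiv_Q3 (m n k : ℂ) (p y : E4) : fderiv ℝ (Q3 m n k) p y = dQ3 m n k p y := by
  have hd : DifferentiableAt ℝ (Q3 m n k) p :=
    (contDiff_Q3 m n k).contDiffAt.differentiableAt (by simp)
  have hl : HasDerivAt (fun h : ℝ => p + h • y) y 0 := by
    simpa using ((hasDerivAt_id (0 : ℝ)).smul_const y).const_add p
  have h0 : p + (0 : ℝ) • y = p := by simp
  have h1 : HasDerivAt (fun h : ℝ => Q3 m n k (p + h • y)) (fderiv ℝ (Q3 m n k) p y) 0 := by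
    have := hd.hasFDerivAt
    rw [← h0] at this
    have h2 := this.comp_hasDerivAt (0 : ℝ) hl
    rwa [h0] at h2
  have hi : ∀ i, HasDerivAt (fun h : ℝ => p i + (h : ℂ) * y i) (y i) 0 := by
    intro i
    have h3 := (hasDerivAt_pi.1 hl) i
    refine h3.congr_of_eventuallyEq (Eventually.of_forall fun h => ?_)
    simp
  have h4 : HasDerivAt (fun h : ℝ => Q3 m n k (p + h • y)) (dQ3 m n k p y) 0 := by
    have e : (fun h : ℝ => Q3 m n k (p + h • y)) = fun h : ℝ =>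
        P3 m n k (p 0 + (h : ℂ) * y 0) ((p 1 + (h : ℂ) * y 1) * (p 2 + (h : ℂ) * y 2)) +
          (p 3 + (h : ℂ) * y 3) ^ 15 := by
      funext h
      simp [Q3]
    rw [e]
    unfold P3
    have ht := (hi 1).mul (hi 2)
    have hw := (hi 3).pow 15
    have h5 := (((((((hi 0).pow 2).mul ht)).const_mul m).add
      (((((hi 0)).mul (ht.pow 3))).const_mul n)).add ((ht.pow 5).const_mul k)).add hw
    refine h5.congr_deriv ?_
    simp [dQ3, D3, P3s, P3t, Fin.sum_univ_three]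
    ring
  exact h1.unique h4

theorem Q3_act (m n k : ℂ) (s : ℝ) (p : E4) :
    Q3 m n k (act (wt true) s p) = (Real.exp s : ℂ) * Q3 m n k p := by
  have e : ((Real.exp s : ℝ) : ℂ) = ((Real.exp (s / 15) : ℝ) : ℂ) ^ 15 := by
    rw [← Complex.ofReal_pow, ← Real.exp_nat_mul]
    congr 2; push_cast; ring
  have h0 := act_coord true s p 0
  have h1 := act_coord true s p 1
  have h2 := act_coord true s p 2
  have h3 := act_three true s p
  change act (wt true) s p 0 = _ * p 0 at h0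
  change act (wt true) s p 1 = _ * p 1 at h1
  change act (wt true) s p 2 = _ * p 2 at h2
  unfold Q3
  rw [h0, h1, h2, h3, e]
  unfold P3 aw
  simp
  ring

variable {A : Fin 3 → ℝ × (ℂ × ℂ) → ℂ}

theorem am3_eq (m n k : ℂ) (A : Fin 3 → ℝ × (ℂ × ℂ) → ℂ) (t : ℝ) (p : E4) :
    am3 m n k (fun v z => A v (t, z)) p = Q3 m n k p + R true A (t, p) := rfl

theorem am3_act (hA : ∀ v, ArmPath true v (A v)) {t : ℝ}
    (ht : t ∈ Icc (0 : ℝ) 1) (m n k : ℂ) (s : ℝ) (p : E4) :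
    am3 m n k (fun v z => A v (t, z)) (act (wt true) s p) =
      Real.exp s • am3 m n k (fun v z => A v (t, z)) p := by
  rw [am3_eq, am3_eq, Q3_act, R_act hA ht, Complex.real_smul]
  ring

theorem fderiv_am3 {t : ℝ} {p : E4} (h : DifferentiableAt ℝ (R true A) (t, p)) (m n k : ℂ)
    (y : E4) : fderiv ℝ (am3 m n k fun v z => A v (t, z)) p y =
      dQ3 m n k p y + fderiv ℝ (R true A) (t, p) (0, y) := by
  have e : (am3 m n k fun v z => A v (t, z)) = fun x => Q3 m n k x + R true A (t, x) := rfl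
  have hQ : DifferentiableAt ℝ (Q3 m n k) p :=
    (contDiff_Q3 m n k).contDiffAt.differentiableAt (by simp)
  have hR : DifferentiableAt ℝ (fun x => R true A (t, x)) p :=
    h.comp p (hasFDerivAt_prodMk_right t p).differentiableAt
  rw [e, fderiv_fun_add hQ hR, add_apply, fderiv_Q3, fderiv_part h]

theorem dQ3_single (m n k : ℂ) (p : E4) (i : Fin 3) (h : ℂ) :
    dQ3 m n k p (Pi.single i.castSucc h) = D3 m n k p i * h := by
  unfold dQ3
  have h3 : (Pi.single i.castSucc h : E4) 3 = 0 := by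
    fin_cases i <;> simp
  rw [h3, mul_zero, add_zero, Finset.sum_eq_single i]
  · rw [Pi.single_eq_same]
  · intro j _ hj
    rw [Pi.single_eq_of_ne (fun h => hj (Fin.castSucc_injective _ h)), mul_zero]
  · intro h; exact absurd (Finset.mem_univ i) h

/-- admissible compact sets of ratios. -/
structure Lam (Λ : Set (ℂ × ℂ)) : Prop where
  cpt : IsCompact Λ
  b1 : ∀ q ∈ Λ, ‖q.1‖ ≤ 2
  b2 : ∀ q ∈ Λ, ‖q.2‖ ≤ 3
  disc : ∀ q ∈ Λ, q.1 ^ 2 ≠ 4 * q.2

theorem Lam.disc' {Λ : Set (ℂ × ℂ)} (hΛ : Lam Λ) {m n k : ℂ} (hm : m ≠ 0)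
    (h : (n / m, k / m) ∈ Λ) : n ^ 2 ≠ 4 * (m * k) := by
  intro h1
  refine hΛ.disc _ h ?_
  change (n / m) ^ 2 = 4 * (k / m)
  field_simp
  linear_combination h1

theorem Lam.n_le {Λ : Set (ℂ × ℂ)} (hΛ : Lam Λ) {m n k : ℂ} (hm : m ≠ 0)
    (h : (n / m, k / m) ∈ Λ) : ‖n‖ ≤ 2 * ‖m‖ := by
  have h1 := hΛ.b1 _ h
  simp only [norm_div] at h1
  rwa [div_le_iff₀ (norm_pos_iff.2 hm)] at h1

theorem Lam.k_le {Λ : Set (ℂ × ℂ)} (hΛ : Lam Λ) {m n k : ℂ} (hm : m ≠ 0)
    (h : (n / m, k / m) ∈ Λ) : ‖k‖ ≤ 3 * ‖m‖ := by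
  have h1 := hΛ.b2 _ h
  simp only [norm_div] at h1
  rwa [div_le_iff₀ (norm_pos_iff.2 hm)] at h1

/-- **regularity on `N = 1`.** -/
theorem reg_one3 (hA : ∀ v, ArmPath true v (A v)) {Λ : Set (ℂ × ℂ)} (hΛ : Lam Λ) : ∃ M0 > 0, ∀ m n k : ℂ, M0 ≤ ‖m‖ →
    (n / m, k / m) ∈ Λ → ∀ t ∈ Icc (0 : ℝ) 1, ∀ p : E4, N true p = 1 →
    am3 m n k (fun v z => A v (t, z)) p = 0 →
    ∀ c : ℂ, ∃ y, fderiv ℝ (am3 m n k fun v z => A v (t, z)) p y = c := by
  obtain ⟨T, hT, hI, hC⟩ := smooth_R hA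
  choose W hW0 hW using fun v => (hA v).supp
  set W1 : ℝ := 1 + ∑ v, W v with hW1d
  have hsum : ∀ v, W v ≤ ∑ v, W v := fun v =>
    Finset.single_le_sum (f := W) (fun v _ => (hW0 v).le) (Finset.mem_univ v)
  have hs0 : 0 ≤ ∑ v, W v := Finset.sum_nonneg fun v _ => (hW0 v).le
  have h1W : 1 ≤ W1 := by linarith
  have hWv : ∀ v, W v ≤ W1 := fun v => by linarith [hsum v]
  have hop : IsOpen (T ×ˢ ({0}ᶜ : Set E4)) := hT.prod isOpen_compl_singleton
  -- the compact set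
  let K : Set E4 := {p | N true p = 1 ∧ (∀ v, g true v p ≤ t1) ∧ ‖p 3‖ ≤ W1}
  have hKc : IsClosed K := by
    have e : K = {p | N true p = 1} ∩ ((⋂ v, {p | g true v p ≤ t1}) ∩ {p | ‖p 3‖ ≤ W1}) := by
      ext p; simp [K]
    rw [e]
    refine (isClosed_eq (continuous_N true) continuous_const).inter
      ((isClosed_iInter fun v => isClosed_le (continuous_g true v) continuous_const).inter
        (isClosed_le (by fun_prop) continuous_const))
  have hKb : K ⊆ Metric.closedBall 0 W1 := by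
    intro p hp
    rw [mem_closedBall_zero_iff, pi_norm_le_iff_of_nonneg (by linarith)]
    intro i
    have hle := norm_le_one (b := true) hp.1
    fin_cases i
    · exact (hle 0).trans h1W
    · exact (hle 1).trans h1W
    · exact (hle 2).trans h1W
    · exact hp.2.2
  have hK : IsCompact K := (isCompact_closedBall (0 : E4) W1).of_isClosed_subset hKc hKb
  have hK0 : ∀ p : E4, N true p = 1 → p ≠ 0 := by
    rintro p hp rfl
    rw [N_eq_zero.2 (fun v => rfl)] at hp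
    exact zero_ne_one hp
  -- bound for the derivative of the remainder
  obtain ⟨B, hB⟩ : ∃ B : ℝ, ∀ t ∈ Icc (0 : ℝ) 1, ∀ p ∈ K, ‖fderiv ℝ (R true A) (t, p)‖ ≤ B := by
    have hcont : ContinuousOn (fderiv ℝ (R true A)) (Icc (0 : ℝ) 1 ×ˢ K) :=
      (hC.continuousOn_fderiv_of_isOpen hop (by norm_num)).mono
        (prod_mono hI fun p hp => hK0 p hp.1)
    obtain ⟨B, hB⟩ := (isCompact_Icc.prod hK).exists_bound_of_continuousOn hcont
    exact ⟨B, fun t ht p hp => hB (t, p) ⟨ht, hp⟩⟩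
  -- lower bound for the gradient
  obtain ⟨c, hc0, hc⟩ : ∃ c : ℝ, 0 < c ∧ ∀ q ∈ Λ ×ˢ K,
      c ≤ ∑ i, ‖D3 1 q.1.1 q.1.2 q.2 i‖ := by
    refine (hΛ.cpt.prod hK).exists_forall_le'
      (f := fun q : (ℂ × ℂ) × E4 => ∑ i, ‖D3 1 q.1.1 q.1.2 q.2 i‖) ?_ ?_
    · refine Continuous.continuousOn (continuous_finsetSum _ fun i _ => ?_)
      unfold D3 P3s P3t
      fin_cases i <;> simp <;> fun_prop
    · rintro ⟨r, p⟩ ⟨hr, hp⟩
      obtain ⟨i, hi⟩ := outside3 (m := 1) (n := r.1) (k := r.2) one_ne_zero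
        (by rw [one_mul]; exact hΛ.disc r hr) hp.1 hp.2.1
      have : 0 < ‖D3 1 r.1 r.2 p i‖ := norm_pos_iff.2 hi
      exact this.trans_le (Finset.single_le_sum (f := fun i => ‖D3 1 r.1 r.2 p i‖)
        (fun i _ => norm_nonneg _) (Finset.mem_univ i))
  have hscale : ∀ (m n k : ℂ) (p : E4) (i : Fin 3), m ≠ 0 →
      D3 m n k p i = m * D3 1 (n / m) (k / m) p i := by
    intro m n k p i hm
    have e : n = m * (n / m) := by field_simp
    have e' : k = m * (k / m) := by field_simp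
    have e2 : ∀ r r' : ℂ, D3 m (m * r) (m * r') p i = m * D3 1 r r' p i := by
      intro r r'
      unfold D3 P3s P3t
      fin_cases i <;> simp <;> ring
    conv_lhs => rw [e, e']
    exact e2 _ _
  refine ⟨max 1 ((3 * B + 1) / c), by positivity, fun m n k hm hr t ht p hN hz c' => ?_⟩
  have hm1 : 1 ≤ ‖m‖ := (le_max_left _ _).trans hm
  have hm0 : m ≠ 0 := norm_pos_iff.1 (by linarith)
  have hdsc := hΛ.disc' hm0 hr
  have h1 := hΛ.n_le hm0 hr
  have h2 := hΛ.k_le hm0 hr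
  have hp0 : p ≠ 0 := hK0 p hN
  have hmem : (t, p) ∈ T ×ˢ ({0}ᶜ : Set E4) := ⟨hI ht, hp0⟩
  have hdR : DifferentiableAt ℝ (R true A) (t, p) :=
    (hC.contDiffAt (hop.mem_nhds hmem)).differentiableAt (by norm_num)
  by_cases hcase : ∃ v, t1 < g true v p
  · -- near a tube
    obtain ⟨v, hv⟩ := hcase
    have hv0 := t1_g_ne hv
    have hev := near (A := A) hN hv t
    obtain ⟨Tv, hTv, hIv, hCv⟩ := (hA v).smooth
    have hopv : IsOpen (Tv ×ˢ {q : ℂ × ℂ | q.1 ≠ 0}) :=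
      hTv.prod (isOpen_ne.preimage continuous_fst)
    have hdA : DifferentiableAt ℝ (A v) (t, (p v.castSucc, p 3)) :=
      (hCv.contDiffAt (hopv.mem_nhds (show ((t, (p v.castSucc, p 3)) : ℝ × (ℂ × ℂ)) ∈
        Tv ×ˢ {q : ℂ × ℂ | q.1 ≠ 0} from ⟨hIv ht, hv0⟩))).differentiableAt (by norm_num)
    let ℓ : ℝ × E4 →L[ℝ] ℝ × (ℂ × ℂ) :=
      (ContinuousLinearMap.fst ℝ ℝ E4).prod
        (((ContinuousLinearMap.proj v.castSucc : E4 →L[ℝ] ℂ).comp
            (ContinuousLinearMap.snd ℝ ℝ E4)).prod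
          ((ContinuousLinearMap.proj 3 : E4 →L[ℝ] ℂ).comp (ContinuousLinearMap.snd ℝ ℝ E4)))
    have hfd : ∀ y : E4, fderiv ℝ (R true A) (t, p) (0, y) =
        fderiv ℝ (A v) (t, (p v.castSucc, p 3)) (0, (y v.castSucc, y 3)) := by
      intro y
      rw [hev.fderiv_eq]
      have h3 : HasFDerivAt (fun q : ℝ × E4 => A v (q.1, (q.2 v.castSucc, q.2 3)))
          ((fderiv ℝ (A v) (t, (p v.castSucc, p 3))).comp ℓ) (t, p) :=
        HasFDerivAt.comp (f := ℓ) (t, p) hdA.hasFDerivAt ℓ.hasFDerivAt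
      rw [h3.fderiv]
      rfl
    by_cases htr : ∃ i, i ≠ v ∧ D3 m n k p i ≠ 0
    · obtain ⟨i, hiv, hi⟩ := htr
      refine ⟨Pi.single i.castSucc (c' / D3 m n k p i), ?_⟩
      have e3 : (Pi.single i.castSucc (c' / D3 m n k p i) : E4) 3 = 0 := by
        fin_cases i <;> simp
      have ev : (Pi.single i.castSucc (c' / D3 m n k p i) : E4) v.castSucc = 0 :=
        Pi.single_eq_of_ne (fun h => hiv (Fin.castSucc_injective _ h).symm) _
      rw [fderiv_am3 hdR, hfd, dQ3_single, ev, e3, mul_div_cancel₀ _ hi]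
      have : ((0 : ℝ), ((0 : ℂ), (0 : ℂ))) = 0 := rfl
      rw [this, map_zero, add_zero]
    · push Not at htr
      obtain ⟨f1, f2⟩ := tube3 hm0 hdsc h1 h2 hN hv htr
      have hz' : p 3 ^ 15 + A v (t, (p v.castSucc, p 3)) = 0 := by
        rw [am3_eq, hev.eq_of_nhds] at hz
        unfold Q3 at hz
        rw [f2, zero_add] at hz
        exact hz
      obtain ⟨y, hy⟩ := (hA v).reg t ht _ _ hv0 hz' c'
      refine ⟨Pi.single v.castSucc y.1 + Pi.single 3 y.2, ?_⟩
      have hv3 : v.castSucc ≠ (3 : Fin 4) := by fin_cases v <;> decide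
      have e1 : (Pi.single v.castSucc y.1 + Pi.single 3 y.2 : E4) v.castSucc = y.1 := by
        rw [Pi.add_apply, Pi.single_eq_same, Pi.single_eq_of_ne hv3, add_zero]
      have e3 : (Pi.single v.castSucc y.1 + Pi.single 3 y.2 : E4) 3 = y.2 := by
        rw [Pi.add_apply, Pi.single_eq_same, Pi.single_eq_of_ne hv3.symm, zero_add]
      rw [fderiv_am3 hdR, hfd, e1, e3, ← hy]
      congr 1
      unfold dQ3
      rw [e3, Finset.sum_eq_zero, zero_add]
      intro i _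
      by_cases hiv : i = v
      · rw [hiv, f1, zero_mul]
      · rw [htr i hiv, zero_mul]
  · push Not at hcase
    by_cases hw : ‖p 3‖ ≤ W1
    · -- the compact region
      have hpK : p ∈ K := ⟨hN, hcase, hw⟩
      have hB0 : 0 ≤ B := (norm_nonneg _).trans (hB t ht p hpK)
      have hcm : 3 * B + 1 ≤ c * ‖m‖ := by
        have := (le_max_right 1 ((3 * B + 1) / c)).trans hm
        rw [div_le_iff₀ hc0] at this
        linarith
      have hg := hc ((n / m, k / m), p) ⟨hr, hpK⟩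
      have hex : ∃ i, B < ‖D3 m n k p i‖ := by
        by_contra hn
        push Not at hn
        have h5 : ∑ i, ‖D3 m n k p i‖ = ‖m‖ * ∑ i, ‖D3 1 (n / m) (k / m) p i‖ := by
          rw [Finset.mul_sum]
          exact Finset.sum_congr rfl fun i _ => by rw [hscale m n k p i hm0, norm_mul]
        have h6 : ∑ i, ‖D3 m n k p i‖ ≤ 3 * B := by
          calc ∑ i, ‖D3 m n k p i‖ ≤ ∑ _i : Fin 3, B := Finset.sum_le_sum fun i _ => hn i
            _ = 3 * B := by simp
        have h7 : c * ‖m‖ ≤ ‖m‖ * ∑ i, ‖D3 1 (n / m) (k / m) p i‖ := by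
          rw [mul_comm]
          exact mul_le_mul_of_nonneg_left hg (norm_nonneg _)
        linarith
      obtain ⟨i, hi⟩ := hex
      let L : ℂ →ₗ[ℝ] ℂ :=
        { toFun := fun h => D3 m n k p i * h +
            fderiv ℝ (R true A) (t, p) (0, Pi.single i.castSucc h)
          map_add' := fun x y => by
            have : ((0 : ℝ), (Pi.single i.castSucc (x + y) : E4)) =
                ((0 : ℝ), (Pi.single i.castSucc x : E4)) +
                  ((0 : ℝ), (Pi.single i.castSucc y : E4)) := by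
              rw [Prod.mk_add_mk, add_zero, Pi.single_add]
            rw [this, map_add]
            ring
          map_smul' := fun a x => by
            have : ((0 : ℝ), (Pi.single i.castSucc (a • x) : E4)) =
                a • ((0 : ℝ), (Pi.single i.castSucc x : E4)) := by
              rw [Prod.smul_mk, smul_zero, Pi.single_smul]
            rw [this, map_smul]
            simp only [RingHom.id_apply, Complex.real_smul]
            ring }
      obtain ⟨h, hh⟩ := onto_pert L (fun z hz hL => by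
        have h8 : D3 m n k p i * z = -fderiv ℝ (R true A) (t, p) (0, Pi.single i.castSucc z) :=
          eq_neg_of_add_eq_zero_left hL
        have h9 : ‖D3 m n k p i‖ * ‖z‖ ≤ B * ‖z‖ := by
          rw [← norm_mul, h8, norm_neg]
          refine (ContinuousLinearMap.le_opNorm _ _).trans ?_
          refine mul_le_mul (hB t ht p hpK) ?_ (norm_nonneg _) hB0
          rw [Prod.norm_mk, norm_zero, Pi.norm_single]
          exact max_le (norm_nonneg _) le_rfl
        have hzp : 0 < ‖z‖ := norm_pos_iff.2 hz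
        exact absurd (le_of_mul_le_mul_right h9 hzp) (not_le.2 hi)) c'
      refine ⟨Pi.single i.castSucc h, ?_⟩
      rw [fderiv_am3 hdR, dQ3_single]
      exact hh
    · -- far away
      push Not at hw
      have hp3 : p 3 ≠ 0 := norm_pos_iff.1 (by linarith)
      have h15 : 15 * p 3 ^ 14 ≠ 0 := mul_ne_zero (by norm_num) (pow_ne_zero _ hp3)
      refine ⟨Pi.single 3 (c' / (15 * p 3 ^ 14)), ?_⟩
      rw [fderiv_am3 hdR, far hW hW0 hWv h1W hN hw t, zero_apply, add_zero]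
      unfold dQ3
      rw [Pi.single_eq_same, Finset.sum_eq_zero, zero_add, mul_div_cancel₀ _ h15]
      intro i _
      have : (Pi.single 3 (c' / (15 * p 3 ^ 14)) : E4) i.castSucc = 0 := by
        fin_cases i <;> simp
      rw [this, mul_zero]

/-- **regularity.** -/
theorem reg_all3 (hA : ∀ v, ArmPath true v (A v)) {Λ : Set (ℂ × ℂ)} (hΛ : Lam Λ) :
    ∃ M0 > 0, ∀ m n k : ℂ, M0 ≤ ‖m‖ → (n / m, k / m) ∈ Λ → ∀ t ∈ Icc (0 : ℝ) 1, ∀ p : E4, p ≠ 0 →
    am3 m n k (fun v z => A v (t, z)) p = 0 →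
    ∀ c : ℂ, ∃ y, fderiv ℝ (am3 m n k fun v z => A v (t, z)) p y = c := by
  obtain ⟨M0, hM0, H⟩ := reg_one3 hA hΛ
  obtain ⟨T, hT, hI, hC⟩ := smooth_R hA
  have hop : IsOpen (T ×ˢ ({0}ᶜ : Set E4)) := hT.prod isOpen_compl_singleton
  refine ⟨M0, hM0, fun m n k hm hr t ht p hp0 hz c => ?_⟩
  by_cases hN : N true p = 0
  · exfalso
    have hv := N_eq_zero.1 hN
    have e0 : p 0 = 0 := hv 0
    have e1 : p 1 = 0 := hv 1
    have e2 : p 2 = 0 := hv 2
    have hR : R true A (t, p) = 0 := by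
      unfold R Rt
      refine Finset.sum_eq_zero fun v _ => ?_
      simp only
      rw [hv v, (hA v).zero, mul_zero]
    rw [am3_eq, hR, add_zero] at hz
    have hQ : Q3 m n k p = p 3 ^ 15 := by
      unfold Q3 P3
      rw [e0, e1, e2]
      simp
    rw [hQ] at hz
    have e3 : p 3 = 0 := pow_eq_zero_iff (by norm_num) |>.1 hz
    apply hp0
    funext i
    fin_cases i
    · exact e0
    · exact e1
    · exact e2
    · exact e3
  · have hNp : 0 < N true p := lt_of_le_of_ne (N_nonneg true p) (Ne.symm hN)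
    -- the normalising time
    set s : ℝ := -(Real.log (N true p)) / 4 with hs
    have hNs : N true (act (wt true) s p) = 1 := by
      rw [N_act, hs, show 4 * (-(Real.log (N true p)) / 4) = -(Real.log (N true p)) by ring,
        Real.exp_neg, Real.exp_log hNp, inv_mul_cancel₀ hN]
    have hzs : am3 m n k (fun v z => A v (t, z)) (act (wt true) s p) = 0 := by
      rw [am3_act hA ht, hz, smul_zero]
    obtain ⟨y, hy⟩ := H m n k hm hr t ht _ hNs hzs (Real.exp s • c)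
    have hd : ∀ x : E4, x ≠ 0 →
        DifferentiableAt ℝ (am3 m n k fun v z => A v (t, z)) x := by
      intro x hx
      have hdR : DifferentiableAt ℝ (R true A) (t, x) :=
        (hC.contDiffAt (hop.mem_nhds (show (t, x) ∈ T ×ˢ ({0}ᶜ : Set E4) from
          ⟨hI ht, hx⟩))).differentiableAt (by norm_num)
      have hR : DifferentiableAt ℝ (fun x => R true A (t, x)) x :=
        hdR.comp x (hasFDerivAt_prodMk_right t x).differentiableAt
      exact ((contDiff_Q3 m n k).contDiffAt.differentiableAt (by simp)).add hR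
    let a : E4 →L[ℝ] E4 :=
      ContinuousLinearMap.pi fun i => (Real.exp (s * wt true i)) • ContinuousLinearMap.proj i
    have ha : ∀ x, a x = act (wt true) s x := by
      intro x
      funext i
      simp [a, act]
    have ha' : (fun x => act (wt true) s x) = a := funext fun x => (ha x).symm
    have hne : act (wt true) s p ≠ 0 := act_ne_zero hp0
    have k1 : HasFDerivAt (fun x => am3 m n k (fun v z => A v (t, z)) (act (wt true) s x))
        ((fderiv ℝ (am3 m n k fun v z => A v (t, z)) (act (wt true) s p)).comp a) p := by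
      have h3 : HasFDerivAt (fun x => act (wt true) s x) a p := by
        rw [ha']; exact a.hasFDerivAt
      exact (hd _ hne).hasFDerivAt.comp p h3
    have k2 : HasFDerivAt (fun x => am3 m n k (fun v z => A v (t, z)) (act (wt true) s x))
        (Real.exp s • fderiv ℝ (am3 m n k fun v z => A v (t, z)) p) p := by
      have e : (fun x => am3 m n k (fun v z => A v (t, z)) (act (wt true) s x)) =
          fun x => Real.exp s • am3 m n k (fun v z => A v (t, z)) x :=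
        funext fun x => am3_act hA ht m n k s x
      rw [e]
      exact (hd p hp0).hasFDerivAt.const_smul (Real.exp s)
    have k3 := k1.unique k2
    refine ⟨act (wt true) (-s) y, ?_⟩
    have k4 := congrArg (fun l : E4 →L[ℝ] ℂ => l (act (wt true) (-s) y)) k3
    simp only [ContinuousLinearMap.comp_apply] at k4
    rw [ha, act_act_neg, hy] at k4
    change Real.exp s • c = Real.exp s •
      fderiv ℝ (am3 m n k fun v z => A v (t, z)) p (act (wt true) (-s) y) at k4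
    exact (smul_right_injective ℂ (Real.exp_pos s).ne' k4).symm

/-- **the amalgam with moving coefficients.** -/
theorem hpath3 (hA : ∀ v, ArmPath true v (A v)) {Λ : Set (ℂ × ℂ)} (hΛ : Lam Λ) :
    ∃ M0 > 0, ∀ m n k : ℝ → ℂ, ContDiff ℝ 2 m → ContDiff ℝ 2 n → ContDiff ℝ 2 k →
      (∀ t ∈ Icc (0 : ℝ) 1, M0 ≤ ‖m t‖ ∧ (n t / m t, k t / m t) ∈ Λ) →
    HPath0 (fun q : ℝ × E4 => am3 (m q.1) (n q.1) (k q.1) (fun v z => A v (q.1, z)) q.2) := by
  obtain ⟨M0, hM0, H⟩ := reg_all3 hA hΛ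
  obtain ⟨T, hT, hI, hC⟩ := smooth_R hA
  have hop : IsOpen (T ×ˢ ({0}ᶜ : Set E4)) := hT.prod isOpen_compl_singleton
  refine ⟨M0, hM0, fun m n k hm hn hk hmn => ?_⟩
  have hsm : ContDiffOn ℝ 2 (fun q : ℝ × E4 =>
      am3 (m q.1) (n q.1) (k q.1) (fun v z => A v (q.1, z)) q.2) (T ×ˢ {0}ᶜ) := by
    have e : (fun q : ℝ × E4 => am3 (m q.1) (n q.1) (k q.1) (fun v z => A v (q.1, z)) q.2) =
        fun q => Q3 (m q.1) (n q.1) (k q.1) q.2 + R true A q := rfl
    rw [e]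
    refine ContDiffOn.add (ContDiff.contDiffOn ?_) hC
    have hm' : ContDiff ℝ 2 fun q : ℝ × E4 => m q.1 := hm.comp contDiff_fst
    have hn' : ContDiff ℝ 2 fun q : ℝ × E4 => n q.1 := hn.comp contDiff_fst
    have hk' : ContDiff ℝ 2 fun q : ℝ × E4 => k q.1 := hk.comp contDiff_fst
    have hx : ∀ i, ContDiff ℝ 2 fun q : ℝ × E4 => q.2 i := fun i => by fun_prop
    unfold Q3 P3
    exact (((hm'.mul (((hx 0).pow 2).mul ((hx 1).mul (hx 2)))).add
        (hn'.mul ((hx 0).mul (((hx 1).mul (hx 2)).pow 3)))).add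
        (hk'.mul (((hx 1).mul (hx 2)).pow 5))).add ((hx 3).pow 15)
  refine ⟨⟨T, hT, hI, hsm⟩,
    fun t ht => ⟨wt true, wt_pos true, fun s x => am3_act hA ht _ _ _ s x⟩, ?_⟩
  intro t ht x hx hz c
  obtain ⟨h1, h2⟩ := hmn t ht
  obtain ⟨y, hy⟩ := H (m t) (n t) (k t) h1 h2 t ht x hx hz c
  refine ⟨y, ?_⟩
  have hdd := (hsm.contDiffAt (hop.mem_nhds (show (t, x) ∈ T ×ˢ ({0}ᶜ : Set E4) from
    ⟨hI ht, hx⟩))).differentiableAt (by norm_num)
  rw [← fderiv_part hdd]
  exact hy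

/-- the second coordinate of the path of ratios. -/
def mu (u : ℝ) : ℂ := (u : ℂ) ^ 2 + Complex.I * ((u : ℂ) * (1 - (u : ℂ)))

theorem contDiff_mu : ContDiff ℝ ∞ mu := by
  have h : ContDiff ℝ ∞ (fun u : ℝ => (u : ℂ)) := Complex.ofRealCLM.contDiff
  unfold mu
  exact (h.pow 2).add (contDiff_const.mul (h.mul (contDiff_const.sub h)))

/-- the path of ratios from `(1, 0)` to `(0, 1)`. -/
def Λ0 : Set (ℂ × ℂ) := (fun u : ℝ => ((1 - (u : ℂ)), mu u)) '' Icc (0 : ℝ) 1

theorem lam0 : Lam Λ0 := by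
  have hc : Continuous (fun u : ℝ => (u : ℂ)) := Complex.continuous_ofReal
  refine ⟨isCompact_Icc.image ((continuous_const.sub hc).prodMk contDiff_mu.continuous),
    ?_, ?_, ?_⟩
  · rintro _ ⟨u, hu, rfl⟩
    have : (1 - (u : ℂ)) = ((1 - u : ℝ) : ℂ) := by push_cast; ring
    simp only
    rw [this, Complex.norm_real, Real.norm_eq_abs, abs_of_nonneg (by linarith [hu.2])]
    linarith [hu.1]
  · rintro _ ⟨u, hu, rfl⟩
    simp only
    unfold mu
    have e1 : ‖(u : ℂ) ^ 2‖ ≤ 1 := by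
      rw [norm_pow, Complex.norm_real, Real.norm_eq_abs, abs_of_nonneg hu.1]
      exact pow_le_one₀ hu.1 hu.2
    have e2 : ‖Complex.I * ((u : ℂ) * (1 - (u : ℂ)))‖ ≤ 1 := by
      have : (u : ℂ) * (1 - (u : ℂ)) = ((u * (1 - u) : ℝ) : ℂ) := by push_cast; ring
      rw [norm_mul, Complex.norm_I, one_mul, this, Complex.norm_real, Real.norm_eq_abs,
        abs_of_nonneg (mul_nonneg hu.1 (by linarith [hu.2]))]
      nlinarith [hu.1, hu.2]
    have := norm_add_le ((u : ℂ) ^ 2) (Complex.I * ((u : ℂ) * (1 - (u : ℂ))))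
    linarith
  · rintro _ ⟨u, hu, rfl⟩ h
    simp only at h
    unfold mu at h
    have e1 : (((1 - u) ^ 2 - 4 * u ^ 2 : ℝ) : ℂ) +
        ((-4 * (u * (1 - u)) : ℝ) : ℂ) * Complex.I = 0 := by
      push_cast
      linear_combination h
    have hre := congrArg Complex.re e1
    have him := congrArg Complex.im e1
    simp only [Complex.add_re, Complex.add_im, Complex.mul_re, Complex.mul_im,
      Complex.ofReal_re, Complex.ofReal_im, Complex.I_re, Complex.I_im, Complex.zero_re,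
      Complex.zero_im, mul_zero, mul_one, add_zero, zero_add, sub_zero] at hre him
    have hu2 : u * (1 - u) = 0 := by linarith
    rcases mul_eq_zero.1 hu2 with h0 | h0
    · rw [h0] at hre; norm_num at hre
    · have : u = 1 := by linarith
      rw [this] at hre; norm_num at hre

/-- **CORE-PATH.** -/
theorem core_path (A : Fin 3 → ℂ × ℂ → ℂ) (hA : ∀ v, Arm true v (A v)) :
    ∃ M0 > 0, ∀ M : ℝ, M0 ≤ M → ZEq (am true M A) (am3 M 0 M A) := by
  obtain ⟨M0, hM0, H⟩ := hpath3 (A := fun v q => A v q.2) hA lam0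
  refine ⟨M0, hM0, fun M hM => ?_⟩
  have hMp : 0 < M := lt_of_lt_of_le hM0 hM
  have hM0' : (M : ℂ) ≠ 0 := Complex.ofReal_ne_zero.2 hMp.ne'
  have hc : ContDiff ℝ 2 (fun u : ℝ => (u : ℂ)) := Complex.ofRealCLM.contDiff
  have hmu : ContDiff ℝ 2 mu := contDiff_mu.of_le (by norm_cast)
  have h := H (fun _ => (M : ℂ)) (fun u => (M : ℂ) * (1 - (u : ℂ))) (fun u => (M : ℂ) * mu u)
    contDiff_const (contDiff_const.mul (contDiff_const.sub hc)) (contDiff_const.mul hmu)
    fun t ht => by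
      refine ⟨?_, ?_⟩
      · rw [Complex.norm_real, Real.norm_eq_abs, abs_of_pos hMp]
        exact hM
      · rw [mul_div_cancel_left₀ _ hM0', mul_div_cancel_left₀ _ hM0']
        exact ⟨t, ht, rfl⟩
  have hl := h.link
  have e0 : (fun x : E4 => am3 (M : ℂ) ((M : ℂ) * (1 - ((((0 : ℝ), x).1 : ℝ) : ℂ)))
      ((M : ℂ) * mu ((0 : ℝ), x).1) (fun v z => A v z) ((0 : ℝ), x).2) = am true M A := by
    funext x
    rw [am_eq, ← am3_zero]
    simp [mu]
  have e1 : (fun x : E4 => am3 (M : ℂ) ((M : ℂ) * (1 - ((((1 : ℝ), x).1 : ℝ) : ℂ)))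
      ((M : ℂ) * mu ((1 : ℝ), x).1) (fun v z => A v z) ((1 : ℝ), x).2) = am3 M 0 M A := by
    funext x
    simp [mu]
  rw [← e0, ← e1]
  exact hl

end Crest.Agent.R267.Amal3_52
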