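import Mathlib
import Crest.Agent.R267.Amal3_52

/-!
# S0406, package T3N: the amalgam with a general `w`-term `Q(t, w)` (helper52)

`amQ b c m Q A p = m c(x, yz) + Q(w) + ∑_v th (g_v / N) A_v (p_v, w)`.

* `Core b c cs ct`: holomorphic cores (`core_P b : Core b (P b) ..`, `core_P3 : Core true (P3 1 n k) ..`);
* `QPath Q`: `Q(t, w)` is `C²`, homogeneous of degree `15` (positive real factors), `≠ 0` for `w ≠ 0`;
* `ArmPathQ b v Q A`: as `ArmPath`, but `Q(t, w) + A(t, v, w)` is `0`-regular for `v ≠ 0`;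
* `reg_allQ`, `hpathQ` (moving complex factor `m`), `amal_pathQ`, `amal_MQ`.
-/

set_option autoImplicit false
set_option linter.unusedSectionVars false

noncomputable section

open Set Filter Topology Finset
open scoped ContDiff
open Crest.Agent.R267.Cone_808 Crest.Agent.R267.Hm_951 Crest.Agent.R267.NdR_484
open Crest.Agent.R267.Amal_52 Crest.Agent.R267.Amal3_52

namespace Crest.Agent.R267.AmalQ_52

/-! ### cores -/

/-- holomorphic cores in `s = x`, `t = yz`. -/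
structure Core (b : Bool) (c cs ct : ℂ → ℂ → ℂ) : Prop where
  sm : ContDiff ℝ ∞ fun q : ℂ × ℂ => c q.1 q.2
  cs_cont : Continuous fun q : ℂ × ℂ => cs q.1 q.2
  ct_cont : Continuous fun q : ℂ × ℂ => ct q.1 q.2
  der : ∀ (f g : ℝ → ℂ) (f' g' : ℂ) (x : ℝ), HasDerivAt f f' x → HasDerivAt g g' x →
    HasDerivAt (fun x => c (f x) (g x)) (cs (f x) (g x) * f' + ct (f x) (g x) * g') x
  hom : ∀ l s t : ℂ, c (l ^ aw b 0 * s) (l ^ (aw b 1 + aw b 2) * t) = l ^ 15 * c s t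
  euler : ∀ s t : ℂ, (aw b 0 : ℂ) * (s * cs s t) + ((aw b 1 + aw b 2 : ℕ) : ℂ) * (t * ct s t) =
    15 * c s t
  c0 : ∀ s, c s 0 = 0
  cs0 : ∀ s, cs s 0 = 0
  iso : ∀ s t, cs s t = 0 → ct s t = 0 → s = 0 ∧ t = 0
  ct_ne : ∀ s t, ‖t‖ < (bif b then 1 / 4 else 1 / 16) → 1 / 2 < ‖s‖ → ct s t ≠ 0

theorem core_P3 {n k : ℂ} (hn : ‖n‖ ≤ 2) (hk : ‖k‖ ≤ 3) (hd : n ^ 2 ≠ 4 * k) :
    Core true (P3 1 n k) (P3s 1 n) (P3t 1 n k) where
  sm := by unfold P3; fun_prop
  cs_cont := by unfold P3s; fun_prop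
  ct_cont := by unfold P3t; fun_prop
  der := by
    intro f g f' g' x hf hg
    unfold P3
    have h := ((((hf.pow 2).mul hg).const_mul (1 : ℂ)).add
      ((hf.mul (hg.pow 3)).const_mul n)).add ((hg.pow 5).const_mul k)
    refine h.congr_deriv ?_
    simp [P3s, P3t]
    ring
  hom := by intro l s t; unfold P3 aw; simp; ring
  euler := by intro s t; unfold P3 P3s P3t aw; simp; ring
  c0 := by intro s; unfold P3; simp
  cs0 := by intro s; unfold P3s; simp
  iso := by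
    intro s t h1 h2
    exact core_iso3 (m := 1) one_ne_zero (by rw [one_mul]; exact hd) h1 h2
  ct_ne := by
    intro s t ht hs
    simp only [cond_true] at ht
    exact P3t_ne one_ne_zero (by simpa using hn) (by simpa using hk) ht hs

theorem core_P (b : Bool) : Core b (P b) (P2s b 1 1) (P2t b 1 1) where
  sm := by unfold P; cases b <;> simp only [cond_true, cond_false] <;> fun_prop
  cs_cont := by unfold P2s; cases b <;> simp only [cond_true, cond_false] <;> fun_prop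
  ct_cont := by unfold P2t; cases b <;> simp only [cond_true, cond_false] <;> fun_prop
  der := by
    intro f g f' g' x hf hg
    unfold P
    cases b
    · simp only [cond_false]
      have h := ((hf.mul (hg.pow 2))).add (((hf.pow 3).mul hg))
      refine h.congr_deriv ?_
      simp [P2s, P2t]
      ring
    · simp only [cond_true]
      have h := (((hf.pow 2).mul hg)).add ((hf.mul (hg.pow 3)))
      refine h.congr_deriv ?_
      simp [P2s, P2t]
      ring
  hom := by intro l s t; unfold P aw; cases b <;> simp <;> ring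
  euler := by intro s t; unfold P P2s P2t aw; cases b <;> simp <;> ring
  c0 := by intro s; unfold P; cases b <;> simp
  cs0 := by intro s; unfold P2s; cases b <;> simp
  iso := by
    intro s t h1 h2
    exact core_iso one_ne_zero one_ne_zero h1 h2
  ct_ne := by
    intro s t ht hs
    exact P2t_ne one_ne_zero one_ne_zero (by norm_num) (by norm_num) ht hs

/-! ### data -/

/-- the `w`-term. -/
structure QPath (Q : ℝ × ℂ → ℂ) : Prop where
  smooth : ∃ T : Set ℝ, IsOpen T ∧ Icc (0 : ℝ) 1 ⊆ T ∧ ContDiffOn ℝ 2 Q (T ×ˢ univ)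
  hom : ∀ t ∈ Icc (0 : ℝ) 1, ∀ (l : ℝ) (w : ℂ), 0 < l → Q (t, (l : ℂ) * w) = (l : ℂ) ^ 15 * Q (t, w)
  ne : ∀ t ∈ Icc (0 : ℝ) 1, ∀ w : ℂ, w ≠ 0 → Q (t, w) ≠ 0

/-- arms without regularity. -/
structure Arm0 (b : Bool) (v : Fin 3) (A : ℝ × (ℂ × ℂ) → ℂ) : Prop where
  smooth : ∃ T : Set ℝ, IsOpen T ∧ Icc (0 : ℝ) 1 ⊆ T ∧
    ContDiffOn ℝ 2 A (T ×ˢ {q : ℂ × ℂ | q.1 ≠ 0})
  hom : ∀ t ∈ Icc (0 : ℝ) 1, ∀ (l : ℝ) (u w : ℂ), 0 < l →
    A (t, ((l : ℂ) ^ aw b v * u, (l : ℂ) * w)) = (l : ℂ) ^ 15 * A (t, (u, w))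
  supp : ∃ W : ℝ, 0 < W ∧ ∀ (t : ℝ) (u w : ℂ), W * ‖u‖ ≤ ‖w‖ ^ aw b v → A (t, (u, w)) = 0
  zero : ∀ (t : ℝ) (w : ℂ), A (t, (0, w)) = 0

/-- **arms for a general `w`-term**: `Q(t, w) + A(t, v, w)` is `0`-regular for `v ≠ 0`. -/
structure ArmPathQ (b : Bool) (v : Fin 3) (Q : ℝ × ℂ → ℂ) (A : ℝ × (ℂ × ℂ) → ℂ) : Prop extends
    Arm0 b v A where
  reg : ∀ t ∈ Icc (0 : ℝ) 1, ∀ u w : ℂ, u ≠ 0 → Q (t, w) + A (t, (u, w)) = 0 →
    ∀ c : ℂ, ∃ y : ℂ × ℂ, fderiv ℝ Q (t, w) (0, y.2) + fderiv ℝ A (t, (u, w)) (0, y) = c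

theorem qpath_pow : QPath fun q => q.2 ^ 15 where
  smooth := ⟨univ, isOpen_univ, subset_univ _, by fun_prop⟩
  hom := by intro t _ l w _; simp only; ring
  ne := by intro t _ w hw; exact pow_ne_zero _ hw

theorem fderiv_pow15 (t : ℝ) (w y : ℂ) :
    fderiv ℝ (fun q : ℝ × ℂ => q.2 ^ 15) (t, w) (0, y) = 15 * w ^ 14 * y := by
  have h1 : HasDerivAt (fun h : ℝ => w + (h : ℂ) * y) y 0 := by
    have := ((hasDerivAt_id (0 : ℝ)).smul_const y).const_add w
    simpa using this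
  have hd : DifferentiableAt ℝ (fun q : ℝ × ℂ => q.2 ^ 15) (t, w) := by fun_prop
  have hl : HasDerivAt (fun h : ℝ => (t, w + (h : ℂ) * y)) ((0 : ℝ), y) 0 :=
    (hasDerivAt_const _ _).prodMk h1
  have e0 : (t, w + ((0 : ℝ) : ℂ) * y) = (t, w) := by simp
  have h2 : HasDerivAt (fun h : ℝ => (w + (h : ℂ) * y) ^ 15)
      (fderiv ℝ (fun q : ℝ × ℂ => q.2 ^ 15) (t, w) (0, y)) 0 := by
    have := hd.hasFDerivAt
    rw [← e0] at this
    have h3 := this.comp_hasDerivAt (0 : ℝ) hl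
    rwa [e0] at h3
  have h4 := h1.pow 15
  have h5 := h2.unique h4
  rw [h5]
  simp

theorem ArmPathQ.of_armPath {b : Bool} {v : Fin 3} {A : ℝ × (ℂ × ℂ) → ℂ} (h : ArmPath b v A) :
    ArmPathQ b v (fun q => q.2 ^ 15) A where
  smooth := h.smooth
  hom := h.hom
  supp := h.supp
  zero := h.zero
  reg := by
    intro t ht u w hu hz c
    obtain ⟨y, hy⟩ := h.reg t ht u w hu hz c
    exact ⟨y, by rw [fderiv_pow15]; exact hy⟩

/-- **the amalgam.** -/
def amQ (b : Bool) (c : ℂ → ℂ → ℂ) (m : ℂ) (Q : ℂ → ℂ) (A : Fin 3 → ℂ × ℂ → ℂ) (p : E4) : ℂ :=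
  m * c (p 0) (p 1 * p 2) + Q (p 3) +
    ∑ v, (th (g b v p / N b p) : ℂ) * A v (p v.castSucc, p 3)

theorem amQ_P (b : Bool) (M : ℝ) (A : Fin 3 → ℂ × ℂ → ℂ) :
    amQ b (P b) M (fun w => w ^ 15) A = am b M A := rfl

theorem amQ_P3 (m n k : ℂ) (A : Fin 3 → ℂ × ℂ → ℂ) :
    amQ true (P3 1 n k) m (fun w => w ^ 15) A = am3 m (m * n) (m * k) A := by
  funext p
  unfold amQ am3 P3
  ring

/-! ### the remainder -/

variable {b : Bool} {A : Fin 3 → ℝ × (ℂ × ℂ) → ℂ}

theorem contDiffAt_Rt0 {b : Bool} {v : Fin 3} {A : ℝ × (ℂ × ℂ) → ℂ} (hA : Arm0 b v A)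
    {T : Set ℝ} (hT : IsOpen T) (hC : ContDiffOn ℝ 2 A (T ×ˢ {q : ℂ × ℂ | q.1 ≠ 0}))
    {q : ℝ × E4} (hq1 : q.1 ∈ T) (hq2 : q.2 ≠ 0) : ContDiffAt ℝ 2 (Rt b v A) q := by
  by_cases hu : q.2 v.castSucc = 0
  · by_cases hN : N b q.2 = 0
    · obtain ⟨W, -, hW⟩ := hA.supp
      have hz := N_eq_zero.1 hN
      have hw : q.2 3 ≠ 0 := by
        intro h
        apply hq2
        funext i
        fin_cases i
        · exact hz 0
        · exact hz 1
        · exact hz 2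
        · exact h
      have := ev_zero (b := b) (v := v) hW (q := q) (by
        rw [hu, norm_zero, mul_zero]
        exact pow_pos (norm_pos_iff.2 hw) _)
      exact contDiffAt_const.congr_of_eventuallyEq this
    · have hc : ContinuousAt (fun q : ℝ × E4 => g b v q.2 / N b q.2) q :=
        (continuousAt_quot hN v).comp (f := fun q : ℝ × E4 => q.2) continuousAt_snd
      have h1 : ∀ᶠ q' : ℝ × E4 in 𝓝 q, g b v q'.2 / N b q'.2 < 3 / 4 := by
        apply hc.eventually_lt continuousAt_const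
        rw [g_eq_zero.2 hu, zero_div]
        norm_num
      have : Rt b v A =ᶠ[𝓝 q] 0 := by
        filter_upwards [h1] with q' hq'
        unfold Rt
        rw [th_zero hq'.le, Complex.ofReal_zero, zero_mul]
        rfl
      exact contDiffAt_const.congr_of_eventuallyEq this
  · have hN : N b q.2 ≠ 0 := fun h => hu (N_eq_zero.1 h v)
    unfold Rt
    have h1 : ContDiffAt ℝ 2 (fun q : ℝ × E4 => th (g b v q.2 / N b q.2)) q := by
      have e1 : ContDiffAt ℝ 2 (fun q : ℝ × E4 => g b v q.2) q :=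
        (((contDiff_g b v).comp contDiff_snd).of_le two_le).contDiffAt
      have e2 : ContDiffAt ℝ 2 (fun q : ℝ × E4 => N b q.2) q :=
        (((contDiff_N b).comp contDiff_snd).of_le two_le).contDiffAt
      have e3 : ContDiff ℝ 2 th := contDiff_th.of_le two_le
      exact e3.contDiffAt.comp q (e1.div e2 hN)
    have h2 : ContDiffAt ℝ 2 (fun q : ℝ × E4 => ((th (g b v q.2 / N b q.2) : ℝ) : ℂ)) q :=
      Complex.ofRealCLM.contDiff.contDiffAt.comp q h1
    refine h2.mul ?_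
    have h3 : ContDiffAt ℝ 2 A (q.1, (q.2 v.castSucc, q.2 3)) := by
      have hop : IsOpen (T ×ˢ {q : ℂ × ℂ | q.1 ≠ 0}) :=
        hT.prod (isOpen_ne.preimage continuous_fst)
      exact hC.contDiffAt (hop.mem_nhds ⟨hq1, hu⟩)
    have h4 : ContDiffAt ℝ 2 (fun q : ℝ × E4 => ((q.1, (q.2 v.castSucc, q.2 3)) : ℝ × (ℂ × ℂ)))
        q := by fun_prop
    exact h3.comp q h4

/-- **smoothness.** -/
theorem smooth_R0 {b : Bool} {A : Fin 3 → ℝ × (ℂ × ℂ) → ℂ} (hA : ∀ v, Arm0 b v (A v)) :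
    ∃ T : Set ℝ, IsOpen T ∧ Icc (0 : ℝ) 1 ⊆ T ∧ ContDiffOn ℝ 2 (R b A) (T ×ˢ {0}ᶜ) := by
  choose T hT hI hC using fun v => (hA v).smooth
  refine ⟨⋂ v, T v, isOpen_iInter_of_finite hT, subset_iInter hI, ?_⟩
  intro q hq
  refine ContDiffAt.contDiffWithinAt ?_
  unfold R
  refine ContDiffAt.sum fun v _ => ?_
  exact contDiffAt_Rt0 (hA v) (hT v) (hC v) (mem_iInter.1 hq.1 v) hq.2

theorem R_act0 {b : Bool} {A : Fin 3 → ℝ × (ℂ × ℂ) → ℂ} (hA : ∀ v, Arm0 b v (A v)) {t : ℝ}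
    (ht : t ∈ Icc (0 : ℝ) 1) (s : ℝ) (p : E4) :
    R b A (t, act (wt b) s p) = (Real.exp s : ℂ) * R b A (t, p) := by
  have e : ((Real.exp s : ℝ) : ℂ) = ((Real.exp (s / 15) : ℝ) : ℂ) ^ 15 := by
    rw [← Complex.ofReal_pow, ← Real.exp_nat_mul]
    congr 2; push_cast; ring
  unfold R
  rw [Finset.mul_sum]
  refine Finset.sum_congr rfl fun v _ => ?_
  unfold Rt
  simp only
  rw [g_act, N_act, mul_div_mul_left _ _ (Real.exp_pos _).ne', act_coord, act_three,
    (hA v).hom t ht _ _ _ (Real.exp_pos _), e]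
  ring


/-- far away: the arms vanish. -/
theorem far0 {W : Fin 3 → ℝ} {W1 : ℝ}
    (hW : ∀ v (t : ℝ) (u w : ℂ), W v * ‖u‖ ≤ ‖w‖ ^ aw b v → A v (t, (u, w)) = 0)
    (hW0 : ∀ v, 0 < W v) (hW1 : ∀ v, W v ≤ W1) (h1 : 1 ≤ W1) {p : E4} (hN : N b p = 1)
    (hp : W1 < ‖p 3‖) (t : ℝ) : R b A =ᶠ[𝓝 (t, p)] fun _ => 0 := by
  have hv : ∀ v, Rt b v (A v) =ᶠ[𝓝 (t, p)] 0 := by
    intro v
    refine ev_zero (hW v) ?_
    change W v * ‖p v.castSucc‖ < ‖p 3‖ ^ aw b v
    have k1 : W v * ‖p v.castSucc‖ ≤ W v * 1 :=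
      mul_le_mul_of_nonneg_left (norm_le_one hN v) (hW0 v).le
    have k2 : ‖p 3‖ ≤ ‖p 3‖ ^ aw b v := by
      refine le_self_pow₀ (by linarith) ?_
      have := aw_pos b v
      omega
    linarith [hW1 v]
  filter_upwards [hv 0, hv 1, hv 2] with q h0 h1 h2
  unfold R
  rw [Fin.sum_univ_three, h0, h1, h2]
  simp

/-! ### the core part -/

variable {c cs ct : ℂ → ℂ → ℂ}

/-- derivatives of `c (x, yz)`. -/
def DQ (cs ct : ℂ → ℂ → ℂ) (p : E4) : Fin 3 → ℂ :=
  ![cs (p 0) (p 1 * p 2), ct (p 0) (p 1 * p 2) * p 2, ct (p 0) (p 1 * p 2) * p 1]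

theorem contDiff_core (hc : Core b c cs ct) : ContDiff ℝ ∞ fun p : E4 => c (p 0) (p 1 * p 2) := by
  have h : ContDiff ℝ ∞ fun p : E4 => ((p 0, p 1 * p 2) : ℂ × ℂ) := by fun_prop
  exact hc.sm.comp h

theorem fderiv_core (hc : Core b c cs ct) (p y : E4) :
    fderiv ℝ (fun p : E4 => c (p 0) (p 1 * p 2)) p y = ∑ i, DQ cs ct p i * y i.castSucc := by
  have hd : DifferentiableAt ℝ (fun p : E4 => c (p 0) (p 1 * p 2)) p :=
    (contDiff_core hc).contDiffAt.differentiableAt (by simp)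
  have hl : HasDerivAt (fun h : ℝ => p + h • y) y 0 := by
    simpa using ((hasDerivAt_id (0 : ℝ)).smul_const y).const_add p
  have h0 : p + (0 : ℝ) • y = p := by simp
  have h1 : HasDerivAt (fun h : ℝ => c ((p + h • y) 0) ((p + h • y) 1 * (p + h • y) 2))
      (fderiv ℝ (fun p : E4 => c (p 0) (p 1 * p 2)) p y) 0 := by
    have := hd.hasFDerivAt
    rw [← h0] at this
    have h2 := this.comp_hasDerivAt (0 : ℝ) hl
    rwa [h0] at h2
  have hi : ∀ i, HasDerivAt (fun h : ℝ => (p + h • y) i) (y i) 0 := fun i => (hasDerivAt_pi.1 hl) i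
  have h4 := hc.der _ _ _ _ 0 (hi 0) ((hi 1).mul (hi 2))
  have h5 := h1.unique h4
  rw [h5]
  simp only [zero_smul, add_zero, Pi.mul_apply]
  simp [DQ, Fin.sum_univ_three]
  ring

theorem DQ_single (p : E4) (i : Fin 3) (h : ℂ) :
    ∑ j, DQ cs ct p j * (Pi.single i.castSucc h : E4) j.castSucc = DQ cs ct p i * h := by
  rw [Finset.sum_eq_single i]
  · rw [Pi.single_eq_same]
  · intro j _ hj
    rw [Pi.single_eq_of_ne (fun h => hj (Fin.castSucc_injective _ h)), mul_zero]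
  · intro h; exact absurd (Finset.mem_univ i) h

theorem DQ_three (p : E4) (h : ℂ) :
    ∑ j, DQ cs ct p j * (Pi.single 3 h : E4) j.castSucc = 0 := by
  refine Finset.sum_eq_zero fun i _ => ?_
  have : (Pi.single 3 h : E4) i.castSucc = 0 := by
    fin_cases i <;> simp
  rw [this, mul_zero]

theorem t1_ne {v : Fin 3} {p : E4} (hv : t1 < g b v p) : p v.castSucc ≠ 0 := by
  intro h
  rw [g_eq_zero.2 h] at hv
  have := lt_t1
  linarith

/-- **the tubes.** -/
theorem tubeQ (hc : Core b c cs ct) {p : E4} (hN : N b p = 1) {v : Fin 3} (hv : t1 < g b v p)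
    (hD : ∀ i, i ≠ v → DQ cs ct p i = 0) :
    DQ cs ct p v = 0 ∧ c (p 0) (p 1 * p 2) = 0 := by
  have hv0 := t1_ne hv
  fin_cases v
  · obtain ⟨ht, hs⟩ := yz_small hN hv
    have hP := hc.ct_ne _ _ ht hs
    have e1 : p 2 = 0 := (mul_eq_zero.1 (hD 1 (by decide))).resolve_left hP
    refine ⟨?_, ?_⟩
    · change cs (p 0) (p 1 * p 2) = 0
      rw [e1, mul_zero]; exact hc.cs0 _
    · rw [e1, mul_zero]; exact hc.c0 _
  · have hv1 : p 1 ≠ 0 := hv0
    have e0 : cs (p 0) (p 1 * p 2) = 0 := hD 0 (by decide)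
    have e2 : ct (p 0) (p 1 * p 2) = 0 :=
      (mul_eq_zero.1 (hD 2 (by decide))).resolve_right hv1
    obtain ⟨f1, f2⟩ := hc.iso _ _ e0 e2
    refine ⟨?_, ?_⟩
    · change ct (p 0) (p 1 * p 2) * p 2 = 0
      rw [e2, zero_mul]
    · rw [f1, f2]; exact hc.c0 _
  · have hv1 : p 2 ≠ 0 := hv0
    have e0 : cs (p 0) (p 1 * p 2) = 0 := hD 0 (by decide)
    have e2 : ct (p 0) (p 1 * p 2) = 0 :=
      (mul_eq_zero.1 (hD 1 (by decide))).resolve_right hv1
    obtain ⟨f1, f2⟩ := hc.iso _ _ e0 e2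
    refine ⟨?_, ?_⟩
    · change ct (p 0) (p 1 * p 2) * p 1 = 0
      rw [e2, zero_mul]
    · rw [f1, f2]; exact hc.c0 _

/-- **outside the tubes.** -/
theorem outsideQ (hc : Core b c cs ct) {p : E4} (hN : N b p = 1) (hv : ∀ v, g b v p ≤ t1) :
    ∃ i, DQ cs ct p i ≠ 0 := by
  by_contra hcon
  push Not at hcon
  have ht := t1_lt
  have hs : g b 0 p + g b 1 p + g b 2 p = 1 := by
    rw [← hN]; unfold N; rw [Fin.sum_univ_three]
  have e0 : cs (p 0) (p 1 * p 2) = 0 := hcon 0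
  have e1 : ct (p 0) (p 1 * p 2) * p 2 = 0 := hcon 1
  have e2 : ct (p 0) (p 1 * p 2) * p 1 = 0 := hcon 2
  have z : ∀ v : Fin 3, p v.castSucc = 0 → g b v p = 0 := fun v h => g_eq_zero.2 h
  by_cases hP : ct (p 0) (p 1 * p 2) = 0
  · obtain ⟨f1, f2⟩ := hc.iso _ _ e0 hP
    have g0 := z 0 f1
    rcases mul_eq_zero.1 f2 with f | f
    · have := z 1 f
      linarith [hv 2]
    · have := z 2 f
      linarith [hv 1]
  · have g1 := z 1 ((mul_eq_zero.1 e2).resolve_left hP)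
    have g2 := z 2 ((mul_eq_zero.1 e1).resolve_left hP)
    linarith [hv 0]

/-- where the core does not vanish it is regular. -/
theorem eulerQ (hc : Core b c cs ct) {p : E4} (h : c (p 0) (p 1 * p 2) ≠ 0) :
    ∃ i, DQ cs ct p i ≠ 0 := by
  by_contra hcon
  push Not at hcon
  have e0 : cs (p 0) (p 1 * p 2) = 0 := hcon 0
  have e1 : ct (p 0) (p 1 * p 2) * p 2 = 0 := hcon 1
  have h1 := hc.euler (p 0) (p 1 * p 2)
  have h2 : p 1 * p 2 * ct (p 0) (p 1 * p 2) = 0 := by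
    rw [mul_assoc, mul_comm (p 2), e1, mul_zero]
  rw [e0, h2, mul_zero, mul_zero, mul_zero, add_zero] at h1
  exact h ((mul_eq_zero.1 h1.symm).resolve_left (by norm_num))

theorem core_act (hc : Core b c cs ct) (s : ℝ) (p : E4) :
    c (act (wt b) s p 0) (act (wt b) s p 1 * act (wt b) s p 2) =
      (Real.exp s : ℂ) * c (p 0) (p 1 * p 2) := by
  have e : ((Real.exp s : ℝ) : ℂ) = ((Real.exp (s / 15) : ℝ) : ℂ) ^ 15 := by
    rw [← Complex.ofReal_pow, ← Real.exp_nat_mul]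
    congr 2; push_cast; ring
  have h0 := act_coord b s p 0
  have h1 := act_coord b s p 1
  have h2 := act_coord b s p 2
  change act (wt b) s p 0 = _ * p 0 at h0
  change act (wt b) s p 1 = _ * p 1 at h1
  change act (wt b) s p 2 = _ * p 2 at h2
  rw [h0, h1, h2, e, ← hc.hom]
  congr 1
  ring

/-! ### the whole function -/

variable {Q : ℝ × ℂ → ℂ}

theorem amQ_eq (b : Bool) (c : ℂ → ℂ → ℂ) (m : ℂ) (Q : ℝ × ℂ → ℂ)
    (A : Fin 3 → ℝ × (ℂ × ℂ) → ℂ) (t : ℝ) (p : E4) :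
    amQ b c m (fun w => Q (t, w)) (fun v z => A v (t, z)) p =
      m * c (p 0) (p 1 * p 2) + Q (t, p 3) + R b A (t, p) := rfl

theorem amQ_act (hc : Core b c cs ct) (hQ : QPath Q) (hA : ∀ v, Arm0 b v (A v)) {t : ℝ}
    (ht : t ∈ Icc (0 : ℝ) 1) (m : ℂ) (s : ℝ) (p : E4) :
    amQ b c m (fun w => Q (t, w)) (fun v z => A v (t, z)) (act (wt b) s p) =
      Real.exp s • amQ b c m (fun w => Q (t, w)) (fun v z => A v (t, z)) p := by
  have e : ((Real.exp s : ℝ) : ℂ) = ((Real.exp (s / 15) : ℝ) : ℂ) ^ 15 := by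
    rw [← Complex.ofReal_pow, ← Real.exp_nat_mul]
    congr 2; push_cast; ring
  rw [amQ_eq, amQ_eq, core_act hc, R_act0 hA ht, act_three, hQ.hom t ht _ _ (Real.exp_pos _),
    Complex.real_smul, ← e]
  ring

theorem fderiv_Qpart {t : ℝ} {w : ℂ} (h : DifferentiableAt ℝ Q (t, w)) {p : E4} (hp : p 3 = w) :
    HasFDerivAt (fun x : E4 => Q (t, x 3))
      ((fderiv ℝ Q (t, w)).comp ((ContinuousLinearMap.inr ℝ ℝ ℂ).comp
        (ContinuousLinearMap.proj (R := ℝ) (φ := fun _ : Fin 4 => ℂ) 3))) p := by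
  subst hp
  have h1 : HasFDerivAt (fun x : ℂ => (t, x)) (ContinuousLinearMap.inr ℝ ℝ ℂ) (p 3) :=
    hasFDerivAt_prodMk_right t (p 3)
  have h2 : HasFDerivAt (fun x : E4 => x 3)
      (ContinuousLinearMap.proj (R := ℝ) (φ := fun _ : Fin 4 => ℂ) 3) p :=
    (ContinuousLinearMap.proj (R := ℝ) (φ := fun _ : Fin 4 => ℂ) 3).hasFDerivAt
  exact h.hasFDerivAt.comp p (h1.comp p h2)

theorem fderiv_amQ (hc : Core b c cs ct) {t : ℝ} {p : E4}
    (h : DifferentiableAt ℝ (R b A) (t, p)) (h' : DifferentiableAt ℝ Q (t, p 3)) (m : ℂ) (y : E4) :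
    fderiv ℝ (amQ b c m (fun w => Q (t, w)) fun v z => A v (t, z)) p y =
      m * ∑ i, DQ cs ct p i * y i.castSucc + fderiv ℝ Q (t, p 3) (0, y 3) +
        fderiv ℝ (R b A) (t, p) (0, y) := by
  have hC : DifferentiableAt ℝ (fun p : E4 => c (p 0) (p 1 * p 2)) p :=
    (contDiff_core hc).contDiffAt.differentiableAt (by simp)
  have h1 := hC.hasFDerivAt.const_mul m
  have h2 := fderiv_Qpart (Q := Q) h' rfl
  have h3 : HasFDerivAt (fun x => R b A (t, x))
      ((fderiv ℝ (R b A) (t, p)).comp (ContinuousLinearMap.inr ℝ ℝ E4)) p :=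
    h.hasFDerivAt.comp p (hasFDerivAt_prodMk_right t p)
  have h4 : HasFDerivAt (amQ b c m (fun w => Q (t, w)) fun v z => A v (t, z)) _ p :=
    (h1.add h2).add h3
  rw [h4.fderiv]
  simp only [add_apply, smul_apply, ContinuousLinearMap.comp_apply,
    ContinuousLinearMap.inr_apply, ContinuousLinearMap.proj_apply, smul_eq_mul, fderiv_core hc]

/-- **regularity on `N = 1`.** -/
theorem reg_oneQ (hc : Core b c cs ct) (hQ : QPath Q) (hA : ∀ v, ArmPathQ b v Q (A v)) :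
    ∃ M0 > 0, ∀ m : ℂ, M0 ≤ ‖m‖ → ∀ t ∈ Icc (0 : ℝ) 1, ∀ p : E4, N b p = 1 →
    amQ b c m (fun w => Q (t, w)) (fun v z => A v (t, z)) p = 0 →
    ∀ c' : ℂ, ∃ y, fderiv ℝ (amQ b c m (fun w => Q (t, w)) fun v z => A v (t, z)) p y = c' := by
  obtain ⟨T, hT, hI, hC⟩ := smooth_R0 (fun v => (hA v).toArm0)
  obtain ⟨TQ, hTQ, hIQ, hCQ⟩ := hQ.smooth
  choose W hW0 hW using fun v => (hA v).supp
  set W1 : ℝ := 1 + ∑ v, W v with hW1d
  have hsum : ∀ v, W v ≤ ∑ v, W v := fun v =>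
    Finset.single_le_sum (f := W) (fun v _ => (hW0 v).le) (Finset.mem_univ v)
  have hs0 : 0 ≤ ∑ v, W v := Finset.sum_nonneg fun v _ => (hW0 v).le
  have h1W : 1 ≤ W1 := by linarith
  have hWv : ∀ v, W v ≤ W1 := fun v => by linarith [hsum v]
  have hop : IsOpen (T ×ˢ ({0}ᶜ : Set E4)) := hT.prod isOpen_compl_singleton
  -- the compact set
  let K : Set E4 := {p | N b p = 1 ∧ (∀ v, g b v p ≤ t1) ∧ ‖p 3‖ ≤ W1}
  have hKc : IsClosed K := by
    have e : K = {p | N b p = 1} ∩ ((⋂ v, {p | g b v p ≤ t1}) ∩ {p | ‖p 3‖ ≤ W1}) := by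
      ext p; simp [K]
    rw [e]
    refine (isClosed_eq (continuous_N b) continuous_const).inter
      ((isClosed_iInter fun v => isClosed_le (continuous_g b v) continuous_const).inter
        (isClosed_le (by fun_prop) continuous_const))
  have hKb : K ⊆ Metric.closedBall 0 W1 := by
    intro p hp
    rw [mem_closedBall_zero_iff, pi_norm_le_iff_of_nonneg (by linarith)]
    intro i
    have hle := norm_le_one (b := b) hp.1
    fin_cases i
    · exact (hle 0).trans h1W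
    · exact (hle 1).trans h1W
    · exact (hle 2).trans h1W
    · exact hp.2.2
  have hK : IsCompact K := (isCompact_closedBall (0 : E4) W1).of_isClosed_subset hKc hKb
  have hK0 : ∀ p : E4, N b p = 1 → p ≠ 0 := by
    rintro p hp rfl
    rw [N_eq_zero.2 (fun v => rfl)] at hp
    exact zero_ne_one hp
  -- bound for the derivative of the remainder
  obtain ⟨B, hB⟩ : ∃ B : ℝ, ∀ t ∈ Icc (0 : ℝ) 1, ∀ p ∈ K, ‖fderiv ℝ (R b A) (t, p)‖ ≤ B := by
    have hcont : ContinuousOn (fderiv ℝ (R b A)) (Icc (0 : ℝ) 1 ×ˢ K) :=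
      (hC.continuousOn_fderiv_of_isOpen hop (by norm_num)).mono
        (prod_mono hI fun p hp => hK0 p hp.1)
    obtain ⟨B, hB⟩ := (isCompact_Icc.prod hK).exists_bound_of_continuousOn hcont
    exact ⟨B, fun t ht p hp => hB (t, p) ⟨ht, hp⟩⟩
  -- lower bound for the gradient
  obtain ⟨c0, hc0, hcb⟩ : ∃ c0 : ℝ, 0 < c0 ∧ ∀ p ∈ K, c0 ≤ ∑ i, ‖DQ cs ct p i‖ := by
    refine hK.exists_forall_le' (f := fun p : E4 => ∑ i, ‖DQ cs ct p i‖) ?_ ?_
    · refine Continuous.continuousOn (continuous_finsetSum _ fun i _ => ?_)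
      have hx : Continuous fun p : E4 => ((p 0, p 1 * p 2) : ℂ × ℂ) := by fun_prop
      have e1 : Continuous fun p : E4 => cs (p 0) (p 1 * p 2) := hc.cs_cont.comp hx
      have e2 : Continuous fun p : E4 => ct (p 0) (p 1 * p 2) := hc.ct_cont.comp hx
      unfold DQ
      fin_cases i
      · exact e1.norm
      · exact (e2.mul (continuous_apply 2)).norm
      · exact (e2.mul (continuous_apply 1)).norm
    · rintro p hp
      obtain ⟨i, hi⟩ := outsideQ hc hp.1 hp.2.1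
      have : 0 < ‖DQ cs ct p i‖ := norm_pos_iff.2 hi
      exact this.trans_le (Finset.single_le_sum (f := fun i => ‖DQ cs ct p i‖)
        (fun i _ => norm_nonneg _) (Finset.mem_univ i))
  refine ⟨max 1 ((3 * B + 1) / c0), by positivity, fun m hm t ht p hN hz c' => ?_⟩
  have hm1 : 1 ≤ ‖m‖ := (le_max_left _ _).trans hm
  have hm0 : m ≠ 0 := norm_pos_iff.1 (by linarith)
  have hp0 : p ≠ 0 := hK0 p hN
  have hmem : (t, p) ∈ T ×ˢ ({0}ᶜ : Set E4) := ⟨hI ht, hp0⟩
  have hdR : DifferentiableAt ℝ (R b A) (t, p) :=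
    (hC.contDiffAt (hop.mem_nhds hmem)).differentiableAt (by norm_num)
  have hdQ : DifferentiableAt ℝ Q (t, p 3) :=
    (hCQ.contDiffAt ((hTQ.prod isOpen_univ).mem_nhds ⟨hIQ ht, mem_univ _⟩)).differentiableAt
      (by norm_num)
  have z2 : ((0 : ℝ), (0 : ℂ)) = 0 := rfl
  have hs3 : ∀ (i : Fin 3) (h : ℂ), (Pi.single i.castSucc h : E4) 3 = 0 := by
    intro i h
    fin_cases i <;> simp
  by_cases hcase : ∃ v, t1 < g b v p
  · -- near a tube
    obtain ⟨v, hv⟩ := hcase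
    have hv0 := t1_ne hv
    have hev := near (A := A) hN hv t
    obtain ⟨Tv, hTv, hIv, hCv⟩ := (hA v).smooth
    have hopv : IsOpen (Tv ×ˢ {q : ℂ × ℂ | q.1 ≠ 0}) :=
      hTv.prod (isOpen_ne.preimage continuous_fst)
    have hdA : DifferentiableAt ℝ (A v) (t, (p v.castSucc, p 3)) :=
      (hCv.contDiffAt (hopv.mem_nhds (show ((t, (p v.castSucc, p 3)) : ℝ × (ℂ × ℂ)) ∈
        Tv ×ˢ {q : ℂ × ℂ | q.1 ≠ 0} from ⟨hIv ht, hv0⟩))).differentiableAt (by norm_num)
    let ℓ : ℝ × E4 →L[ℝ] ℝ × (ℂ × ℂ) :=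
      (ContinuousLinearMap.fst ℝ ℝ E4).prod
        (((ContinuousLinearMap.proj v.castSucc : E4 →L[ℝ] ℂ).comp
            (ContinuousLinearMap.snd ℝ ℝ E4)).prod
          ((ContinuousLinearMap.proj 3 : E4 →L[ℝ] ℂ).comp (ContinuousLinearMap.snd ℝ ℝ E4)))
    have hfd : ∀ y : E4, fderiv ℝ (R b A) (t, p) (0, y) =
        fderiv ℝ (A v) (t, (p v.castSucc, p 3)) (0, (y v.castSucc, y 3)) := by
      intro y
      rw [hev.fderiv_eq]
      have h3 : HasFDerivAt (fun q : ℝ × E4 => A v (q.1, (q.2 v.castSucc, q.2 3)))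
          ((fderiv ℝ (A v) (t, (p v.castSucc, p 3))).comp ℓ) (t, p) :=
        HasFDerivAt.comp (f := ℓ) (t, p) hdA.hasFDerivAt ℓ.hasFDerivAt
      rw [h3.fderiv]
      rfl
    by_cases htr : ∃ i, i ≠ v ∧ DQ cs ct p i ≠ 0
    · obtain ⟨i, hiv, hi⟩ := htr
      refine ⟨Pi.single i.castSucc (c' / (m * DQ cs ct p i)), ?_⟩
      have ev : (Pi.single i.castSucc (c' / (m * DQ cs ct p i)) : E4) v.castSucc = 0 :=
        Pi.single_eq_of_ne (fun h => hiv (Fin.castSucc_injective _ h).symm) _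
      rw [fderiv_amQ hc hdR hdQ, hfd, DQ_single, ev, hs3, ← mul_assoc,
        mul_div_cancel₀ _ (mul_ne_zero hm0 hi), z2, map_zero, add_zero]
      have : ((0 : ℝ), ((0 : ℂ), (0 : ℂ))) = 0 := rfl
      rw [this, map_zero, add_zero]
    · push Not at htr
      obtain ⟨f1, f2⟩ := tubeQ hc hN hv htr
      have hz' : Q (t, p 3) + A v (t, (p v.castSucc, p 3)) = 0 := by
        rw [amQ_eq, hev.eq_of_nhds] at hz
        rw [f2, mul_zero, zero_add] at hz
        exact hz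
      obtain ⟨y, hy⟩ := (hA v).reg t ht _ _ hv0 hz' c'
      refine ⟨Pi.single v.castSucc y.1 + Pi.single 3 y.2, ?_⟩
      have hv3 : v.castSucc ≠ (3 : Fin 4) := by fin_cases v <;> decide
      have e1 : (Pi.single v.castSucc y.1 + Pi.single 3 y.2 : E4) v.castSucc = y.1 := by
        rw [Pi.add_apply, Pi.single_eq_same, Pi.single_eq_of_ne hv3, add_zero]
      have e3 : (Pi.single v.castSucc y.1 + Pi.single 3 y.2 : E4) 3 = y.2 := by
        rw [Pi.add_apply, Pi.single_eq_same, Pi.single_eq_of_ne hv3.symm, zero_add]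
      rw [fderiv_amQ hc hdR hdQ, hfd, e1, e3, ← hy]
      congr 1
      rw [Finset.sum_eq_zero, mul_zero, zero_add]
      intro i _
      by_cases hiv : i = v
      · rw [hiv, f1, zero_mul]
      · rw [htr i hiv, zero_mul]
  · push Not at hcase
    by_cases hw : ‖p 3‖ ≤ W1
    · -- the compact region
      have hpK : p ∈ K := ⟨hN, hcase, hw⟩
      have hB0 : 0 ≤ B := (norm_nonneg _).trans (hB t ht p hpK)
      have hcm : 3 * B + 1 ≤ c0 * ‖m‖ := by
        have := (le_max_right 1 ((3 * B + 1) / c0)).trans hm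
        rw [div_le_iff₀ hc0] at this
        linarith
      have hg := hcb p hpK
      have hex : ∃ i, B < ‖m * DQ cs ct p i‖ := by
        by_contra hn
        push Not at hn
        have h5 : ∑ i, ‖m * DQ cs ct p i‖ = ‖m‖ * ∑ i, ‖DQ cs ct p i‖ := by
          rw [Finset.mul_sum]
          exact Finset.sum_congr rfl fun i _ => norm_mul _ _
        have h6 : ∑ i, ‖m * DQ cs ct p i‖ ≤ 3 * B := by
          calc ∑ i, ‖m * DQ cs ct p i‖ ≤ ∑ _i : Fin 3, B := Finset.sum_le_sum fun i _ => hn i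
            _ = 3 * B := by simp
        have h7 : c0 * ‖m‖ ≤ ‖m‖ * ∑ i, ‖DQ cs ct p i‖ := by
          rw [mul_comm]
          exact mul_le_mul_of_nonneg_left hg (norm_nonneg _)
        linarith
      obtain ⟨i, hi⟩ := hex
      let L : ℂ →ₗ[ℝ] ℂ :=
        { toFun := fun h => m * DQ cs ct p i * h +
            fderiv ℝ (R b A) (t, p) (0, Pi.single i.castSucc h)
          map_add' := fun x y => by
            have : ((0 : ℝ), (Pi.single i.castSucc (x + y) : E4)) =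
                ((0 : ℝ), (Pi.single i.castSucc x : E4)) +
                  ((0 : ℝ), (Pi.single i.castSucc y : E4)) := by
              rw [Prod.mk_add_mk, add_zero, Pi.single_add]
            rw [this, map_add]
            ring
          map_smul' := fun a x => by
            have : ((0 : ℝ), (Pi.single i.castSucc (a • x) : E4)) =
                a • ((0 : ℝ), (Pi.single i.castSucc x : E4)) := by
              rw [Prod.smul_mk, smul_zero, Pi.single_smul]
            rw [this, map_smul]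
            simp only [RingHom.id_apply, Complex.real_smul]
            ring }
      obtain ⟨h, hh⟩ := onto_pert L (fun z hz hL => by
        have h8 : m * DQ cs ct p i * z =
            -fderiv ℝ (R b A) (t, p) (0, Pi.single i.castSucc z) :=
          eq_neg_of_add_eq_zero_left hL
        have h9 : ‖m * DQ cs ct p i‖ * ‖z‖ ≤ B * ‖z‖ := by
          rw [← norm_mul, h8, norm_neg]
          refine (ContinuousLinearMap.le_opNorm _ _).trans ?_
          refine mul_le_mul (hB t ht p hpK) ?_ (norm_nonneg _) hB0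
          rw [Prod.norm_mk, norm_zero, Pi.norm_single]
          exact max_le (norm_nonneg _) le_rfl
        have hzp : 0 < ‖z‖ := norm_pos_iff.2 hz
        exact absurd (le_of_mul_le_mul_right h9 hzp) (not_le.2 hi)) c'
      refine ⟨Pi.single i.castSucc h, ?_⟩
      rw [fderiv_amQ hc hdR hdQ, DQ_single, hs3, z2, map_zero, add_zero, ← mul_assoc]
      exact hh
    · -- far away
      push Not at hw
      have hp3 : p 3 ≠ 0 := norm_pos_iff.1 (by linarith)
      have hfar := far0 (A := A) hW hW0 hWv h1W hN hw t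
      have hRz : R b A (t, p) = 0 := hfar.eq_of_nhds
      have hcne : c (p 0) (p 1 * p 2) ≠ 0 := by
        intro h
        rw [amQ_eq, h, hRz, mul_zero, zero_add, add_zero] at hz
        exact hQ.ne t ht _ hp3 hz
      obtain ⟨i, hi⟩ := eulerQ hc hcne
      refine ⟨Pi.single i.castSucc (c' / (m * DQ cs ct p i)), ?_⟩
      rw [fderiv_amQ hc hdR hdQ, DQ_single, hs3, ← mul_assoc,
        mul_div_cancel₀ _ (mul_ne_zero hm0 hi), z2, map_zero, add_zero, hfar.fderiv_eq]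
      simp

/-- **regularity.** -/
theorem reg_allQ (hc : Core b c cs ct) (hQ : QPath Q) (hA : ∀ v, ArmPathQ b v Q (A v)) :
    ∃ M0 > 0, ∀ m : ℂ, M0 ≤ ‖m‖ → ∀ t ∈ Icc (0 : ℝ) 1, ∀ p : E4, p ≠ 0 →
    amQ b c m (fun w => Q (t, w)) (fun v z => A v (t, z)) p = 0 →
    ∀ c' : ℂ, ∃ y, fderiv ℝ (amQ b c m (fun w => Q (t, w)) fun v z => A v (t, z)) p y = c' := by
  obtain ⟨M0, hM0, H⟩ := reg_oneQ hc hQ hA
  have hA0 : ∀ v, Arm0 b v (A v) := fun v => (hA v).toArm0
  obtain ⟨T, hT, hI, hC⟩ := smooth_R0 hA0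
  obtain ⟨TQ, hTQ, hIQ, hCQ⟩ := hQ.smooth
  have hop : IsOpen (T ×ˢ ({0}ᶜ : Set E4)) := hT.prod isOpen_compl_singleton
  refine ⟨M0, hM0, fun m hm t ht p hp0 hz c' => ?_⟩
  by_cases hN : N b p = 0
  · exfalso
    have hv := N_eq_zero.1 hN
    have e0 : p 0 = 0 := hv 0
    have e1 : p 1 = 0 := hv 1
    have e2 : p 2 = 0 := hv 2
    have hR : R b A (t, p) = 0 := by
      unfold R Rt
      refine Finset.sum_eq_zero fun v _ => ?_
      simp only
      rw [hv v, (hA v).zero, mul_zero]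
    rw [amQ_eq, hR, add_zero, e1, zero_mul, hc.c0, mul_zero, zero_add] at hz
    have e3 : p 3 = 0 := by
      by_contra h
      exact hQ.ne t ht _ h hz
    apply hp0
    funext i
    fin_cases i
    · exact e0
    · exact e1
    · exact e2
    · exact e3
  · have hNp : 0 < N b p := lt_of_le_of_ne (N_nonneg b p) (Ne.symm hN)
    -- the normalising time
    set s : ℝ := -(Real.log (N b p)) / 4 with hs
    have hNs : N b (act (wt b) s p) = 1 := by
      rw [N_act, hs, show 4 * (-(Real.log (N b p)) / 4) = -(Real.log (N b p)) by ring,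
        Real.exp_neg, Real.exp_log hNp, inv_mul_cancel₀ hN]
    have hzs : amQ b c m (fun w => Q (t, w)) (fun v z => A v (t, z)) (act (wt b) s p) = 0 := by
      rw [amQ_act hc hQ hA0 ht, hz, smul_zero]
    obtain ⟨y, hy⟩ := H m hm t ht _ hNs hzs (Real.exp s • c')
    have hd : ∀ x : E4, x ≠ 0 →
        DifferentiableAt ℝ (amQ b c m (fun w => Q (t, w)) fun v z => A v (t, z)) x := by
      intro x hx
      have hdR : DifferentiableAt ℝ (R b A) (t, x) :=
        (hC.contDiffAt (hop.mem_nhds (show (t, x) ∈ T ×ˢ ({0}ᶜ : Set E4) from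
          ⟨hI ht, hx⟩))).differentiableAt (by norm_num)
      have hR : DifferentiableAt ℝ (fun x => R b A (t, x)) x :=
        hdR.comp x (hasFDerivAt_prodMk_right t x).differentiableAt
      have hdQ : DifferentiableAt ℝ Q (t, x 3) :=
        (hCQ.contDiffAt ((hTQ.prod isOpen_univ).mem_nhds ⟨hIQ ht, mem_univ _⟩)).differentiableAt
          (by norm_num)
      have hcd : DifferentiableAt ℝ (fun p : E4 => c (p 0) (p 1 * p 2)) x :=
        (contDiff_core hc).contDiffAt.differentiableAt (by simp)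
      exact ((hcd.const_mul m).add (fderiv_Qpart (Q := Q) hdQ rfl).differentiableAt).add hR
    let a : E4 →L[ℝ] E4 :=
      ContinuousLinearMap.pi fun i => (Real.exp (s * wt b i)) • ContinuousLinearMap.proj i
    have ha : ∀ x, a x = act (wt b) s x := by
      intro x
      funext i
      simp [a, act]
    have ha' : (fun x => act (wt b) s x) = a := funext fun x => (ha x).symm
    have hne : act (wt b) s p ≠ 0 := act_ne_zero hp0
    have k1 : HasFDerivAt
        (fun x => amQ b c m (fun w => Q (t, w)) (fun v z => A v (t, z)) (act (wt b) s x))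
        ((fderiv ℝ (amQ b c m (fun w => Q (t, w)) fun v z => A v (t, z))
          (act (wt b) s p)).comp a) p := by
      have h3 : HasFDerivAt (fun x => act (wt b) s x) a p := by
        rw [ha']; exact a.hasFDerivAt
      exact (hd _ hne).hasFDerivAt.comp p h3
    have k2 : HasFDerivAt
        (fun x => amQ b c m (fun w => Q (t, w)) (fun v z => A v (t, z)) (act (wt b) s x))
        (Real.exp s • fderiv ℝ (amQ b c m (fun w => Q (t, w)) fun v z => A v (t, z)) p) p := by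
      have e : (fun x => amQ b c m (fun w => Q (t, w)) (fun v z => A v (t, z))
          (act (wt b) s x)) =
          fun x => Real.exp s • amQ b c m (fun w => Q (t, w)) (fun v z => A v (t, z)) x :=
        funext fun x => amQ_act hc hQ hA0 ht m s x
      rw [e]
      exact (hd p hp0).hasFDerivAt.const_smul (Real.exp s)
    have k3 := k1.unique k2
    refine ⟨act (wt b) (-s) y, ?_⟩
    have k4 := congrArg (fun l : E4 →L[ℝ] ℂ => l (act (wt b) (-s) y)) k3
    simp only [ContinuousLinearMap.comp_apply] at k4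
    rw [ha, act_act_neg, hy] at k4
    change Real.exp s • c' = Real.exp s •
      fderiv ℝ (amQ b c m (fun w => Q (t, w)) fun v z => A v (t, z)) p (act (wt b) (-s) y) at k4
    exact (smul_right_injective ℂ (Real.exp_pos s).ne' k4).symm

/-- **the amalgam with a moving factor.** -/
theorem hpathQ (hc : Core b c cs ct) (hQ : QPath Q) (hA : ∀ v, ArmPathQ b v Q (A v)) :
    ∃ M0 > 0, ∀ m : ℝ → ℂ, ContDiff ℝ 2 m → (∀ t ∈ Icc (0 : ℝ) 1, M0 ≤ ‖m t‖) →
    HPath0 (fun q : ℝ × E4 => amQ b c (m q.1) (fun w => Q (q.1, w))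
      (fun v z => A v (q.1, z)) q.2) := by
  obtain ⟨M0, hM0, H⟩ := reg_allQ hc hQ hA
  have hA0 : ∀ v, Arm0 b v (A v) := fun v => (hA v).toArm0
  obtain ⟨T, hT, hI, hC⟩ := smooth_R0 hA0
  obtain ⟨TQ, hTQ, hIQ, hCQ⟩ := hQ.smooth
  have hop : IsOpen ((T ∩ TQ) ×ˢ ({0}ᶜ : Set E4)) := (hT.inter hTQ).prod isOpen_compl_singleton
  refine ⟨M0, hM0, fun m hm hmn => ?_⟩
  have hsm : ContDiffOn ℝ 2 (fun q : ℝ × E4 => amQ b c (m q.1) (fun w => Q (q.1, w))
      (fun v z => A v (q.1, z)) q.2) ((T ∩ TQ) ×ˢ {0}ᶜ) := by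
    have e : (fun q : ℝ × E4 => amQ b c (m q.1) (fun w => Q (q.1, w))
        (fun v z => A v (q.1, z)) q.2) =
        fun q => (m q.1 * c (q.2 0) (q.2 1 * q.2 2) + Q (q.1, q.2 3)) + R b A q := rfl
    rw [e]
    refine ContDiffOn.add (ContDiffOn.add (ContDiff.contDiffOn ?_) ?_)
      (hC.mono (prod_mono inter_subset_left subset_rfl))
    · have hm' : ContDiff ℝ 2 fun q : ℝ × E4 => m q.1 := hm.comp contDiff_fst
      have hcc : ContDiff ℝ 2 fun q : ℝ × E4 => c (q.2 0) (q.2 1 * q.2 2) :=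
        ((contDiff_core hc).of_le two_le).comp contDiff_snd
      exact hm'.mul hcc
    · have hx : ContDiffOn ℝ 2 (fun q : ℝ × E4 => ((q.1, q.2 3) : ℝ × ℂ))
          ((T ∩ TQ) ×ˢ {0}ᶜ) := by fun_prop
      exact hCQ.comp hx fun q hq => ⟨hq.1.2, mem_univ _⟩
  have hsub : Icc (0 : ℝ) 1 ⊆ T ∩ TQ := fun t ht => ⟨hI ht, hIQ ht⟩
  refine ⟨⟨T ∩ TQ, hT.inter hTQ, hsub, hsm⟩,
    fun t ht => ⟨wt b, wt_pos b, fun s x => amQ_act hc hQ hA0 ht _ s x⟩, ?_⟩
  intro t ht x hx hz c'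
  obtain ⟨y, hy⟩ := H (m t) (hmn t ht) t ht x hx hz c'
  refine ⟨y, ?_⟩
  have hdd := (hsm.contDiffAt (hop.mem_nhds (show (t, x) ∈ (T ∩ TQ) ×ˢ ({0}ᶜ : Set E4) from
    ⟨hsub ht, hx⟩))).differentiableAt (by norm_num)
  rw [← fderiv_part hdd]
  exact hy

/-- **AMAL-Q, homotopies of the arms and of the `w`-term.** -/
theorem amal_pathQ (hc : Core b c cs ct) (hQ : QPath Q) (hA : ∀ v, ArmPathQ b v Q (A v)) :
    ∃ M0 > 0, ∀ M : ℝ, M0 ≤ M →
    HPath0 (fun q : ℝ × E4 => amQ b c M (fun w => Q (q.1, w)) (fun v z => A v (q.1, z)) q.2) := by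
  obtain ⟨M0, hM0, H⟩ := hpathQ hc hQ hA
  refine ⟨M0, hM0, fun M hM => H (fun _ => (M : ℂ)) contDiff_const fun t _ => ?_⟩
  rw [Complex.norm_real, Real.norm_eq_abs, abs_of_pos (lt_of_lt_of_le hM0 hM)]
  exact hM

/-- the ends of `amal_pathQ`. -/
theorem amal_zeqQ (hc : Core b c cs ct) (hQ : QPath Q) (hA : ∀ v, ArmPathQ b v Q (A v)) :
    ∃ M0 > 0, ∀ M : ℝ, M0 ≤ M →
    ZEq (amQ b c M (fun w => Q (0, w)) fun v z => A v (0, z))
      (amQ b c M (fun w => Q (1, w)) fun v z => A v (1, z)) := by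
  obtain ⟨M0, hM0, H⟩ := amal_pathQ hc hQ hA
  exact ⟨M0, hM0, fun M hM => (H M hM).link⟩

/-- **AMAL-Q, independence of `M`.** -/
theorem amal_MQ {Q : ℂ → ℂ} {A : Fin 3 → ℂ × ℂ → ℂ} (hc : Core b c cs ct)
    (hQ : QPath fun q => Q q.2) (hA : ∀ v, ArmPathQ b v (fun q => Q q.2) fun q => A v q.2) :
    ∃ M0 > 0, ∀ M M' : ℝ, M0 ≤ M → M0 ≤ M' → ZEq (amQ b c M Q A) (amQ b c M' Q A) := by
  obtain ⟨M0, hM0, H⟩ := hpathQ hc hQ hA
  refine ⟨M0, hM0, fun M M' hM hM' => ?_⟩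
  let μ : ℝ → ℂ := fun t => ((M + t * (M' - M) : ℝ) : ℂ)
  have hμ : ContDiff ℝ 2 μ := by
    have : ContDiff ℝ 2 fun t : ℝ => M + t * (M' - M) := by fun_prop
    exact Complex.ofRealCLM.contDiff.comp this
  have h := H μ hμ fun t ht => by
    have hp : M0 ≤ M + t * (M' - M) := by nlinarith [ht.1, ht.2]
    have : ‖μ t‖ = M + t * (M' - M) := by
      change ‖((M + t * (M' - M) : ℝ) : ℂ)‖ = _
      rw [Complex.norm_real, Real.norm_eq_abs, abs_of_pos (lt_of_lt_of_le hM0 hp)]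
    rw [this]
    exact hp
  have hl := h.link
  have e0 : (fun x : E4 => amQ b c (μ ((0 : ℝ), x).1) (fun w => Q ((((0 : ℝ), x) : ℝ × E4).1, w).2)
      (fun v z => A v z) ((0 : ℝ), x).2) = amQ b c M Q A := by
    funext x
    simp [μ]
  have e1 : (fun x : E4 => amQ b c (μ ((1 : ℝ), x).1) (fun w => Q ((((1 : ℝ), x) : ℝ × E4).1, w).2)
      (fun v z => A v z) ((1 : ℝ), x).2) = amQ b c M' Q A := by
    funext x
    simp [μ]
  rw [← e0, ← e1]
  exact hl

end Crest.Agent.R267.AmalQ_52
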