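import Mathlib
import Crest.Agent.R267.SphReg_808

/-!
# S0406, package T4N: conic structure, gluing of isotopies (helper484)

* `glue`: a sequence of isotopies of `X` gives a homeomorphism of `X × ℝ` over `ℝ`.
-/

set_option autoImplicit false
set_option linter.unusedSectionVars false

noncomputable section

open Set Filter Topology

namespace Crest.Agent.R267.NdA_484

section Glue

variable {X : Type*} [TopologicalSpace X]

/-- clamp into the unit interval. -/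
def cl (s : ℝ) : Icc (0 : ℝ) 1 := projIcc 0 1 zero_le_one s

theorem cl_eq {s : ℝ} (h : s ∈ Icc (0 : ℝ) 1) : cl s = ⟨s, h⟩ := projIcc_of_mem _ h

theorem continuous_cl : Continuous cl := continuous_projIcc (h := zero_le_one)

/-- the composition of the first `k` time-one maps. -/
def comp (Φ : ℕ → Icc (0 : ℝ) 1 → (X ≃ₜ X)) : ℕ → (X ≃ₜ X)
  | 0 => Homeomorph.refl X
  | k + 1 => (comp Φ k).trans (Φ k ⟨1, by simp⟩)

/-- the map at time `τ ≥ 0`. -/
def run (Φ : ℕ → Icc (0 : ℝ) 1 → (X ≃ₜ X)) (τ : ℝ) : X ≃ₜ X :=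
  (comp Φ ⌊τ⌋₊).trans (Φ ⌊τ⌋₊ (cl (τ - ⌊τ⌋₊)))

variable {Φ : ℕ → Icc (0 : ℝ) 1 → (X ≃ₜ X)}

theorem run_eq (h0 : ∀ k x, Φ k ⟨0, by simp⟩ x = x) (k : ℕ) {τ : ℝ} (h1 : (k : ℝ) ≤ τ)
    (h2 : τ ≤ k + 1) (x : X) : run Φ τ x = Φ k (cl (τ - k)) (comp Φ k x) := by
  rcases lt_or_eq_of_le h2 with h | h
  · have h3 : ⌊τ⌋₊ = k := (Nat.floor_eq_iff ((Nat.cast_nonneg k).trans h1)).2 ⟨h1, h⟩
    unfold run
    rw [h3]
    rfl
  · have h3 : ⌊τ⌋₊ = k + 1 := by
      rw [h]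
      exact_mod_cast Nat.floor_natCast (R := ℝ) (k + 1)
    unfold run
    rw [h3]
    have e1 : τ - ((k + 1 : ℕ) : ℝ) = 0 := by rw [h]; push_cast; ring
    have e2 : τ - (k : ℝ) = 1 := by rw [h]; ring
    rw [e1, e2, cl_eq (by simp), cl_eq (by simp)]
    rw [Homeomorph.trans_apply, h0]
    rfl

theorem run_symm_eq (h0 : ∀ k x, Φ k ⟨0, by simp⟩ x = x) (k : ℕ) {τ : ℝ} (h1 : (k : ℝ) ≤ τ)
    (h2 : τ ≤ k + 1) (x : X) :
    (run Φ τ).symm x = (comp Φ k).symm ((Φ k (cl (τ - k))).symm x) := by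
  rw [Homeomorph.symm_apply_eq, run_eq h0 k h1 h2]
  simp

/-- strips. -/
def strip (k : ℕ) : Set ℝ := {t : ℝ | (k : ℝ) ≤ max (-t) 0 ∧ max (-t) 0 ≤ k + 1}

theorem isClosed_strip (k : ℕ) : IsClosed (strip k) := by
  have hc : Continuous fun t : ℝ => max (-t) 0 := by fun_prop
  exact (isClosed_le continuous_const hc).inter (isClosed_le hc continuous_const)

theorem strip_cover (t : ℝ) : ∃ k, t ∈ strip k := by
  refine ⟨⌊max (-t) 0⌋₊, Nat.floor_le (le_max_right _ _), ?_⟩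
  exact (Nat.lt_floor_add_one _).le

theorem strip_locallyFinite : LocallyFinite (fun k : ℕ => {p : X × ℝ | p.2 ∈ strip k}) := by
  intro p
  refine ⟨{q : X × ℝ | q.2 ∈ Ioo (p.2 - 1) (p.2 + 1)},
    (isOpen_Ioo.preimage continuous_snd).mem_nhds ⟨by simp, by simp⟩, ?_⟩
  refine (Set.finite_Iic (⌈max (-(p.2 - 1)) 0⌉₊)).subset ?_
  rintro k ⟨q, hq1, hq2⟩
  rw [mem_Iic]
  have h1 : (k : ℝ) ≤ max (-q.2) 0 := hq1.1
  have h2 : p.2 - 1 < q.2 := hq2.1
  have h3 : max (-q.2) 0 ≤ max (-(p.2 - 1)) 0 := max_le_max (by linarith) le_rfl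
  have h4 : (k : ℝ) ≤ ⌈max (-(p.2 - 1)) 0⌉₊ := (h1.trans h3).trans (Nat.le_ceil _)
  exact_mod_cast h4

theorem continuous_of_strips {g : X × ℝ → X}
    (h : ∀ k : ℕ, ContinuousOn g {p : X × ℝ | p.2 ∈ strip k}) : Continuous g := by
  refine strip_locallyFinite.continuous ?_ (fun k => (isClosed_strip k).preimage continuous_snd) h
  rw [eq_univ_iff_forall]
  intro p
  obtain ⟨k, hk⟩ := strip_cover p.2
  exact mem_iUnion.2 ⟨k, hk⟩

/-- **gluing**. -/
theorem glue (hc : ∀ k, Continuous fun p : Icc (0 : ℝ) 1 × X => Φ k p.1 p.2)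
    (hc' : ∀ k, Continuous fun p : Icc (0 : ℝ) 1 × X => (Φ k p.1).symm p.2)
    (h0 : ∀ k x, Φ k ⟨0, by simp⟩ x = x) :
    ∃ G : X × ℝ ≃ₜ X × ℝ, ∀ p, G p = (run Φ (max (-p.2) 0) p.1, p.2) := by
  have c1 : Continuous fun p : X × ℝ => run Φ (max (-p.2) 0) p.1 := by
    refine continuous_of_strips fun k => ?_
    have h1 : Continuous fun p : X × ℝ => Φ k (cl (max (-p.2) 0 - k)) (comp Φ k p.1) := by
      refine (hc k).comp (Continuous.prodMk (continuous_cl.comp (by fun_prop)) ?_)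
      exact (comp Φ k).continuous.comp continuous_fst
    refine h1.continuousOn.congr fun p hp => ?_
    exact run_eq h0 k hp.1 hp.2 p.1
  have c2 : Continuous fun p : X × ℝ => (run Φ (max (-p.2) 0)).symm p.1 := by
    refine continuous_of_strips fun k => ?_
    have h1 : Continuous fun p : X × ℝ =>
        (comp Φ k).symm ((Φ k (cl (max (-p.2) 0 - k))).symm p.1) := by
      refine (comp Φ k).symm.continuous.comp ?_
      exact (hc' k).comp (Continuous.prodMk (continuous_cl.comp (by fun_prop)) continuous_fst)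
    refine h1.continuousOn.congr fun p hp => ?_
    exact run_symm_eq h0 k hp.1 hp.2 p.1
  refine ⟨{ toFun := fun p => (run Φ (max (-p.2) 0) p.1, p.2)
            invFun := fun p => ((run Φ (max (-p.2) 0)).symm p.1, p.2)
            left_inv := fun p => by simp
            right_inv := fun p => by simp
            continuous_toFun := c1.prodMk continuous_snd
            continuous_invFun := c2.prodMk continuous_snd }, fun p => rfl⟩

/-- the glued homeomorphism carries a family of subsets. -/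
theorem run_mem {P : ℝ → X → Prop} (h0 : ∀ k x, Φ k ⟨0, by simp⟩ x = x)
    (hP : ∀ (k : ℕ) (s : Icc (0 : ℝ) 1) (x : X), P (k + s) (Φ k s x) ↔ P k x) {τ : ℝ}
    (hτ : 0 ≤ τ) (x : X) : P τ (run Φ τ x) ↔ P 0 x := by
  have hcomp : ∀ (k : ℕ) (x : X), P k (comp Φ k x) ↔ P 0 x := by
    intro k
    induction k with
    | zero => intro x; simp [comp]
    | succ k ih =>
      intro x
      have h1 := hP k ⟨1, by simp⟩ (comp Φ k x)
      rw [ih] at h1
      have h2 : ((k + 1 : ℕ) : ℝ) = (k : ℝ) + ((⟨1, by simp⟩ : Icc (0 : ℝ) 1) : ℝ) := by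
        push_cast; ring
      rw [h2]
      exact h1
  have hfl : (⌊τ⌋₊ : ℝ) ≤ τ := Nat.floor_le hτ
  have hfl2 : τ ≤ ⌊τ⌋₊ + 1 := (Nat.lt_floor_add_one τ).le
  have hmem : τ - ⌊τ⌋₊ ∈ Icc (0 : ℝ) 1 := ⟨by linarith, by linarith⟩
  rw [run_eq h0 ⌊τ⌋₊ hfl hfl2, cl_eq hmem, ← hcomp ⌊τ⌋₊ x,
    ← hP ⌊τ⌋₊ ⟨τ - ⌊τ⌋₊, hmem⟩ (comp Φ ⌊τ⌋₊ x)]
  have h3 : (⌊τ⌋₊ : ℝ) + ((⟨τ - ⌊τ⌋₊, hmem⟩ : Icc (0 : ℝ) 1) : ℝ) = τ := by
    simp
  rw [h3]

end Glue

end Crest.Agent.R267.NdA_484
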