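import Mathlib
import Crest.Agent.R267.NdA_484

/-!
# S0406, package T4N: conic structure (helper484)

* `RegAt F d`: `0` is a regular value of `u ↦ F (d u)` on the unit sphere (`d` positive diagonal);
* `cone`: if this holds along `e^{t w}`, `t ≤ T`, the zero set is a cone;
* `germ_of_link`: a homeomorphism of links gives a homeomorphism of germs;
* `link_congr`: the link does not depend on `d`.
-/

set_option autoImplicit false
set_option linter.unusedSectionVars false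

noncomputable section

open Set Filter Topology
open Crest.Agent.R267.Cone_808 Crest.Agent.R267.SphReg_808 Crest.Agent.R267.NdA_484

namespace Crest.Agent.R267.NdB_484

variable {ι : Type*} [Fintype ι]

/-- diagonal dilation. -/
def dil (d : ι → ℝ) (x : ι → ℂ) : ι → ℂ := fun i => (d i : ℂ) * x i

/-- dilation along the weights `w`. -/
def ex (w : ι → ℝ) (t : ℝ) : ι → ℝ := fun i => Real.exp (t * w i)

theorem act_eq (w : ι → ℝ) (t : ℝ) (x : ι → ℂ) : act w t x = dil (ex w t) x := rfl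

/-- `0` is a regular value of `u ↦ F (d u)` on the unit sphere. -/
def RegAt (F : (ι → ℂ) → ℂ) (d : ι → ℝ) : Prop :=
  ∀ u : ι → ℂ, nsq u = 1 → F (dil d u) = 0 →
    ∀ b : ℂ, ∃ y : ι → ℂ, ip u y = 0 ∧ fderiv ℝ F (dil d u) (dil d y) = b

/-- the dilation as a continuous linear map. -/
def dilL (d : ι → ℝ) : (ι → ℂ) →L[ℝ] (ι → ℂ) :=
  ContinuousLinearMap.pi fun i =>
    ((d i : ℝ) • (ContinuousLinearMap.id ℝ ℂ)).comp
      (ContinuousLinearMap.proj (R := ℝ) (φ := fun _ : ι => ℂ) i)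

theorem dilL_apply (d : ι → ℝ) (x : ι → ℂ) : dilL d x = dil d x := by
  funext i
  simp [dilL, dil]

/-- along a `C²` path of diagonals. -/
theorem contDiff_path {F : (ι → ℂ) → ℂ} (hF : ContDiff ℝ 2 F) {D : ℝ → ι → ℝ}
    (hD : ∀ i, ContDiff ℝ 2 fun t => D t i) :
    ContDiff ℝ 2 fun p : ℝ × (ι → ℂ) => F (dil (D p.1) p.2) := by
  refine hF.comp ?_
  rw [contDiff_pi]
  intro i
  unfold dil
  have h1 : ContDiff ℝ 2 fun p : ℝ × (ι → ℂ) => ((D p.1 i : ℝ) : ℂ) :=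
    Complex.ofRealCLM.contDiff.comp ((hD i).comp contDiff_fst)
  have h2 : ContDiff ℝ 2 fun p : ℝ × (ι → ℂ) => p.2 i :=
    (contDiff_apply ℝ ℂ i).comp contDiff_snd
  exact h1.mul h2

theorem fderiv_path {F : (ι → ℂ) → ℂ} (hF : ContDiff ℝ 2 F) {D : ℝ → ι → ℝ}
    (hD : ∀ i, ContDiff ℝ 2 fun t => D t i) (t : ℝ) (u y : ι → ℂ) :
    fderiv ℝ (fun p : ℝ × (ι → ℂ) => F (dil (D p.1) p.2)) (t, u) (0, y) =
      fderiv ℝ F (dil (D t) u) (dil (D t) y) := by
  have hd : Differentiable ℝ fun p : ℝ × (ι → ℂ) => F (dil (D p.1) p.2) :=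
    (contDiff_path hF hD).differentiable (by norm_num)
  have hFd : Differentiable ℝ F := hF.differentiable (by norm_num)
  have h1 : HasFDerivAt (fun v : ι → ℂ => ((t, v) : ℝ × (ι → ℂ)))
      (ContinuousLinearMap.inr ℝ ℝ (ι → ℂ)) u := hasFDerivAt_prodMk_right t u
  have h2 := (hd (t, u)).hasFDerivAt.comp u h1
  have h3 : HasFDerivAt (fun v : ι → ℂ => dilL (D t) v) (dilL (D t)) u :=
    (dilL (D t)).hasFDerivAt
  have h4 : HasFDerivAt F (fderiv ℝ F (dilL (D t) u)) (dilL (D t) u) :=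
    (hFd _).hasFDerivAt
  have h5 := h4.comp u h3
  have h6 : ((fun p : ℝ × (ι → ℂ) => F (dil (D p.1) p.2)) ∘ fun v : ι → ℂ => (t, v)) =
      F ∘ fun v : ι → ℂ => dilL (D t) v := by
    funext v
    simp only [Function.comp, dilL_apply]
  rw [h6] at h2
  have h7 := congrArg (fun L : (ι → ℂ) →L[ℝ] ℂ => L y) (h2.unique h5)
  simp only [ContinuousLinearMap.comp_apply, ContinuousLinearMap.inr_apply, dilL_apply] at h7
  exact h7

/-- isotopy along a path of regular diagonals. -/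
theorem isotopy {F : (ι → ℂ) → ℂ} (hF : ContDiff ℝ 2 F) {D : ℝ → ι → ℝ}
    (hD : ∀ i, ContDiff ℝ 2 fun t => D t i) (hreg : ∀ t ∈ Icc (0 : ℝ) 1, RegAt F (D t)) :
    ∃ Φ : Icc (0 : ℝ) 1 → (Sph ι ≃ₜ Sph ι),
      (Continuous fun p : Icc (0 : ℝ) 1 × Sph ι => Φ p.1 p.2) ∧
      (Continuous fun p : Icc (0 : ℝ) 1 × Sph ι => (Φ p.1).symm p.2) ∧
      (∀ x, Φ ⟨0, by simp⟩ x = x) ∧
      ∀ (s : Icc (0 : ℝ) 1) (x : Sph ι), F (dil (D s) (Φ s x)) = 0 ↔ F (dil (D 0) x) = 0 := by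
  obtain ⟨Φ, δ, hδ, h1, h2, h3, h4, -⟩ := ehresmann_sphere (ι := ι) (U := univ) isOpen_univ
    (fun _ _ _ _ => mem_univ _) (contDiff_path hF hD).contDiffOn
    (fun t ht x hx h0 b => by
      obtain ⟨y, hy, hy'⟩ := hreg t ht x hx h0 b
      exact ⟨y, hy, by rw [fderiv_path hF hD]; exact hy'⟩)
  refine ⟨Φ, h1, h2, h3, fun s x => ⟨fun h => ?_, fun h => ?_⟩⟩
  · have h5 := h4 x s ⟨0, by simp⟩ (by
      have : F (dil (D s) (Φ s x)) = 0 := h
      simp only [this, norm_zero]; exact hδ)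
    rw [h3] at h5
    exact h5.trans h
  · have h5 := h4 x ⟨0, by simp⟩ s (by
      rw [h3]
      have : F (dil (D 0) x) = 0 := h
      simp only [this, norm_zero]; exact hδ)
    rw [h3] at h5
    exact h5.trans h

/-- **the link does not depend on the (regular) diagonal.** -/
theorem link_congr {F : (ι → ℂ) → ℂ} (hF : ContDiff ℝ 2 F) {d d' : ι → ℝ}
    (hreg : ∀ t ∈ Icc (0 : ℝ) 1, RegAt F (fun i => (1 - t) * d i + t * d' i)) :
    ∃ h : Sph ι ≃ₜ Sph ι, ∀ x : Sph ι, F (dil d x) = 0 ↔ F (dil d' (h x)) = 0 := by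
  obtain ⟨Φ, -, -, -, h4⟩ := isotopy hF (D := fun t i => (1 - t) * d i + t * d' i)
    (fun i => by fun_prop) hreg
  refine ⟨Φ ⟨1, by simp⟩, fun x => ?_⟩
  have h5 := h4 ⟨1, by simp⟩ x
  simpa using h5.symm

/-- **conic structure.** -/
theorem cone {F : (ι → ℂ) → ℂ} (hF : ContDiff ℝ 2 F) (w : ι → ℝ) {T : ℝ}
    (hreg : ∀ t ≤ T, RegAt F (ex w t)) :
    ∃ G : Sph ι × ℝ ≃ₜ Sph ι × ℝ, (∀ p, (G p).2 = p.2) ∧
      ∀ p, p.2 ≤ 0 → (F (act w (T + p.2) (G p).1) = 0 ↔ F (act w T p.1) = 0) := by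
  have key : ∀ k : ℕ, ∃ Φ : Icc (0 : ℝ) 1 → (Sph ι ≃ₜ Sph ι),
      (Continuous fun p : Icc (0 : ℝ) 1 × Sph ι => Φ p.1 p.2) ∧
      (Continuous fun p : Icc (0 : ℝ) 1 × Sph ι => (Φ p.1).symm p.2) ∧
      (∀ x, Φ ⟨0, by simp⟩ x = x) ∧
      ∀ (s : Icc (0 : ℝ) 1) (x : Sph ι),
        F (act w (T - (k + s)) (Φ s x)) = 0 ↔ F (act w (T - k) x) = 0 := by
    intro k
    obtain ⟨Φ, h1, h2, h3, h4⟩ := isotopy hF (D := fun s => ex w (T - (k + s)))
      (fun i => by unfold ex; fun_prop)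
      (fun t ht => hreg _ (by
        have := ht.1
        have hk : (0 : ℝ) ≤ k := Nat.cast_nonneg k
        linarith))
    refine ⟨Φ, h1, h2, h3, fun s x => ?_⟩
    rw [act_eq, act_eq, h4 s x]
    simp
  choose Φ h1 h2 h3 h4 using key
  obtain ⟨G, hG⟩ := glue h1 h2 h3
  refine ⟨G, fun p => by rw [hG], fun p hp => ?_⟩
  rw [hG]
  have h5 : max (-p.2) 0 = -p.2 := max_eq_left (by linarith)
  have h6 := run_mem (P := fun (τ : ℝ) (x : Sph ι) => F (act w (T - τ) x) = 0) h3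
    (fun k s x => h4 k s x) (τ := max (-p.2) 0) (le_max_right _ _) p.1
  simp only [sub_zero] at h6
  rw [← h6]
  have h7 : T - max (-p.2) 0 = T + p.2 := by rw [h5]; ring
  simp only [h7]

/-- shift of the real coordinate. -/
def sh (X : Type*) [TopologicalSpace X] (a : ℝ) : X × ℝ ≃ₜ X × ℝ :=
  (Homeomorph.refl X).prodCongr (Homeomorph.addRight a)

theorem sh_apply {X : Type*} [TopologicalSpace X] (a : ℝ) (p : X × ℝ) :
    sh X a p = (p.1, p.2 + a) := rfl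

/-- **homeomorphic links give homeomorphic germs.** -/
theorem germ_of_link {F G : (ι → ℂ) → ℂ} (hF : ContDiff ℝ 2 F) (hG : ContDiff ℝ 2 G)
    {w w' : ι → ℝ} (hw : ∀ i, 0 < w i) (hw' : ∀ i, 0 < w' i) {T T' : ℝ}
    (hrF : ∀ t ≤ T, RegAt F (ex w t)) (hrG : ∀ t ≤ T', RegAt G (ex w' t))
    (h0 : F 0 = 0 ↔ G 0 = 0) (h : Sph ι ≃ₜ Sph ι)
    (hFG : ∀ u : Sph ι, F (act w T u) = 0 ↔ G (act w' T' (h u)) = 0) :
    ∃ φ : OpenPartialHomeomorph (ι → ℂ) (ι → ℂ),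
      (0 : ι → ℂ) ∈ φ.source ∧ φ 0 = 0 ∧ ∀ x ∈ φ.source, (F x = 0 ↔ G (φ x) = 0) := by
  obtain ⟨A, hA1, hA2⟩ := cone hF w hrF
  obtain ⟨B, hB1, hB2⟩ := cone hG w' hrG
  let L : Sph ι × ℝ ≃ₜ Sph ι × ℝ :=
    (((sh (Sph ι) (-T)).trans A.symm).trans (h.prodCongr (Homeomorph.refl ℝ))).trans
      (B.trans (sh (Sph ι) T'))
  have hAs : ∀ p, (A.symm p).2 = p.2 := fun p => by
    have := hA1 (A.symm p)
    rw [A.apply_symm_apply] at this
    exact this.symm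
  have hBs : ∀ p, (B.symm p).2 = p.2 := fun p => by
    have := hB1 (B.symm p)
    rw [B.apply_symm_apply] at this
    exact this.symm
  have hL2 : ∀ p, (L p).2 = p.2 - T + T' := by
    intro p
    change (B (h (A.symm (p.1, p.2 + -T)).1, (A.symm (p.1, p.2 + -T)).2)).2 + T' = _
    rw [hB1]
    change (A.symm (p.1, p.2 + -T)).2 + T' = _
    rw [hAs]
    ring
  have hL2s : ∀ p, (L.symm p).2 = p.2 + T - T' := by
    intro p
    have := hL2 (L.symm p)
    rw [L.apply_symm_apply] at this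
    linarith
  have hL : ∀ p : Sph ι × ℝ, p.2 ≤ T →
      (F (act w p.2 p.1) = 0 ↔ G (act w' (L p).2 (L p).1) = 0) := by
    intro p hp
    set q := A.symm (p.1, p.2 + -T) with hq
    have hq2 : q.2 = p.2 + -T := hAs _
    have hAq : A q = (p.1, p.2 + -T) := A.apply_symm_apply _
    have e1 := hA2 q (by rw [hq2]; linarith)
    rw [hAq, hq2] at e1
    have e2 : T + (p.2 + -T) = p.2 := by ring
    simp only [e2] at e1
    have hLp : L p = ((B (h q.1, q.2)).1, (B (h q.1, q.2)).2 + T') := rfl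
    have e3 := hB2 (h q.1, q.2) (by simp only [hq2]; linarith)
    simp only at e3
    rw [hLp, hB1]
    simp only
    rw [add_comm q.2 T', e3, ← hFG, e1]
  let k : {x : ι → ℂ // x ≠ 0} ≃ₜ {x : ι → ℂ // x ≠ 0} :=
    ((polar hw).trans L).trans (polar hw').symm
  have key : ∀ {v v' : ι → ℝ} (hv : ∀ i, 0 < v i) (hv' : ∀ i, 0 < v' i)
      (g : Sph ι × ℝ ≃ₜ Sph ι × ℝ), (∀ M, ∃ M', ∀ p : Sph ι × ℝ, p.2 < M' → (g p).2 < M) →
      ∀ U ∈ 𝓝 (0 : ι → ℂ), ∀ᶠ x in 𝓝 (0 : ι → ℂ), ∀ hx : x ≠ 0,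
        ((polar hv').symm (g (polar hv ⟨x, hx⟩)) : ι → ℂ) ∈ U := by
    intro v v' hv hv' g hg U hU
    obtain ⟨M, hM⟩ := exists_time_small hv' hU
    obtain ⟨M', hM'⟩ := hg M
    filter_upwards [tau_tendsto hv M'] with x hx hx0
    rw [polar_symm_apply]
    exact hM _ _ (hM' _ (by rw [polar_apply_snd]; exact hx hx0))
  obtain ⟨Ψ, hΨ0, hΨ⟩ := extend_homeo k
    (key hw hw' L fun M => ⟨M + T - T', fun p hp => by rw [hL2]; linarith⟩)
    (key hw' hw L.symm fun M => ⟨M - T + T', fun p hp => by rw [hL2s]; linarith⟩)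
  let O : Set (ι → ℂ) := {x | nsq (act w (-T) x) < 1}
  have hO : IsOpen O := isOpen_lt (continuous_nsq.comp ((continuous_act w).comp
    (by fun_prop : Continuous fun x : ι → ℂ => (-T, x)))) continuous_const
  refine ⟨Ψ.toOpenPartialHomeomorph.restrOpen O hO, ?_, ?_, ?_⟩
  · rw [OpenPartialHomeomorph.restrOpen_source]
    refine ⟨by simp, ?_⟩
    change nsq (act w (-T) 0) < 1
    simp [nsq]
  · exact hΨ0
  · intro x hx
    rw [OpenPartialHomeomorph.restrOpen_source] at hx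
    have hx2 : nsq (act w (-T) x) < 1 := hx.2
    change F x = 0 ↔ G (Ψ x) = 0
    by_cases hx0 : x = 0
    · rw [hx0, hΨ0]; exact h0
    · rw [hΨ x hx0]
      have h1 : ((k ⟨x, hx0⟩ : {x : ι → ℂ // x ≠ 0}) : ι → ℂ) =
          act w' (L (polar hw ⟨x, hx0⟩)).2 (L (polar hw ⟨x, hx0⟩)).1 := rfl
      have h2 : (polar hw ⟨x, hx0⟩).2 ≤ T := by
        rw [polar_apply_snd]
        exact ((tau_lt_iff hw ⟨x, hx0⟩ T).2 hx2).le
      have h3 : act w (polar hw ⟨x, hx0⟩).2 (polar hw ⟨x, hx0⟩).1 = x := by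
        have := congrArg Subtype.val ((polar hw).symm_apply_apply ⟨x, hx0⟩)
        rw [polar_symm_apply] at this
        exact this
      rw [h1, ← hL _ h2, h3]

end Crest.Agent.R267.NdB_484
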