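import Mathlib

/-!
# S0406, T3N entrance: planar inequality for convex Newton polygons (helper484)

`pl` : for a polynomial `∑ c_p V^{p.1} W^{p.2}` with strictly convex exponent set every monomial is
bounded by the two linear combinations with weights `la`, `mu`, for `V` small and ALL `W`.
-/

set_option autoImplicit false
set_option linter.unusedSectionVars false

noncomputable section

open Set Filter Topology Finset

namespace Crest.Agent.R267.NdP_484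

/-- monomial. -/
def mon (p : ℕ × ℕ) (V W : ℂ) : ℂ := V ^ p.1 * W ^ p.2

/-- weighted sum. -/
def ws (T : Finset (ℕ × ℕ)) (c la : ℕ × ℕ → ℂ) (V W : ℂ) : ℂ := ∑ p ∈ T, la p * (c p * mon p V W)

/-- a strictly convex polygon. -/
structure Conv (T : Finset (ℕ × ℕ)) : Prop where
  bot : ∃ p ∈ T, p.2 = 0
  mono : ∀ p ∈ T, ∀ q ∈ T, p.1 < q.1 → q.2 < p.2
  inj : ∀ p ∈ T, ∀ q ∈ T, p.1 = q.1 → p = q
  conv : ∀ p ∈ T, ∀ m ∈ T, ∀ q ∈ T, p.1 < m.1 → m.1 < q.1 →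
    (m.2 - q.2) * (m.1 - p.1) < (p.2 - m.2) * (q.1 - m.1)

variable {T : Finset (ℕ × ℕ)} {c : ℕ × ℕ → ℂ}

/-- the binomial relation. -/
theorem rel (h : Conv T) {p m q : ℕ × ℕ} (hp : p ∈ T) (hm : m ∈ T) (hq : q ∈ T)
    (h1 : p.1 < m.1) (h2 : m.1 < q.1) :
    ∃ a b e : ℕ, 0 < a ∧ 0 < b ∧ 0 < e ∧ ∀ V W : ℂ,
      mon p V W ^ a * mon q V W ^ b = mon m V W ^ (a + b) * V ^ e := by
  have k1 := h.mono _ hp _ hm h1
  have k2 := h.mono _ hm _ hq h2
  have k3 := h.conv _ hp _ hm _ hq h1 h2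
  obtain ⟨a, ha⟩ := Nat.exists_eq_add_of_lt k2
  obtain ⟨b, hb⟩ := Nat.exists_eq_add_of_lt k1
  obtain ⟨s, hs⟩ := Nat.exists_eq_add_of_lt h1
  obtain ⟨t, ht⟩ := Nat.exists_eq_add_of_lt h2
  have e1 : m.2 - q.2 = a + 1 := by omega
  have e2 : m.1 - p.1 = s + 1 := by omega
  have e3 : p.2 - m.2 = b + 1 := by omega
  have e4 : q.1 - m.1 = t + 1 := by omega
  rw [e1, e2, e3, e4] at k3
  obtain ⟨e, he⟩ := Nat.exists_eq_add_of_lt k3
  refine ⟨a + 1, b + 1, e + 1, by omega, by omega, by omega, fun V W => ?_⟩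
  unfold mon
  simp only [mul_pow, ← pow_mul]
  have f1 : p.1 * (a + 1) + q.1 * (b + 1) = m.1 * (a + 1 + (b + 1)) + (e + 1) := by
    have : q.1 = p.1 + s + 1 + t + 1 := by omega
    have h' : m.1 = p.1 + s + 1 := by omega
    rw [this, h']
    nlinarith
  have f2 : p.2 * (a + 1) + q.2 * (b + 1) = m.2 * (a + 1 + (b + 1)) := by
    have : p.2 = q.2 + a + 1 + b + 1 := by omega
    have h' : m.2 = q.2 + a + 1 := by omega
    rw [this, h']
    ring
  calc V ^ (p.1 * (a + 1)) * W ^ (p.2 * (a + 1)) * (V ^ (q.1 * (b + 1)) * W ^ (q.2 * (b + 1)))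
      = V ^ (p.1 * (a + 1) + q.1 * (b + 1)) * W ^ (p.2 * (a + 1) + q.2 * (b + 1)) := by
        rw [pow_add, pow_add]; ring
    _ = _ := by rw [f1, f2, pow_add]; ring

/-- **planar inequality.** -/
theorem pl (h : Conv T) (hc : ∀ p ∈ T, c p ≠ 0) {la mu : ℕ × ℕ → ℂ}
    (h1 : ∀ p ∈ T, la p ≠ 0 ∨ mu p ≠ 0)
    (h2 : ∀ p ∈ T, ∀ q ∈ T, p ≠ q → la p * mu q ≠ la q * mu p) :
    ∃ κ > 0, ∃ δ > 0, ∀ V W : ℂ, V ≠ 0 → ‖V‖ < δ → ∀ p ∈ T,
      κ * ‖mon p V W‖ ≤ max ‖ws T c la V W‖ ‖ws T c mu V W‖ := by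
  classical
  by_contra hn
  push Not at hn
  have key : ∀ n : ℕ, ∃ V W : ℂ, V ≠ 0 ∧ ‖V‖ < 1 / ((n : ℝ) + 1) ∧ ∃ p ∈ T,
      max ‖ws T c la V W‖ ‖ws T c mu V W‖ < 1 / ((n : ℝ) + 1) * ‖mon p V W‖ := by
    intro n
    have hp : 0 < 1 / ((n : ℝ) + 1) := by positivity
    exact hn _ hp _ hp
  choose V W hV0 hV1 P hP hPm using key
  obtain ⟨q0, hq0, hq0'⟩ := h.bot
  have hmax : ∀ n, ∃ v ∈ T, ∀ w ∈ T, ‖mon w (V n) (W n)‖ ≤ ‖mon v (V n) (W n)‖ := fun n =>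
    T.exists_max_image (fun v => ‖mon v (V n) (W n)‖) ⟨q0, hq0⟩
  choose vm hvm hvmax using hmax
  set M : ℕ → ℝ := fun n => ‖mon (vm n) (V n) (W n)‖ with hMdef
  have hM : ∀ n, 0 < M n := by
    intro n
    refine lt_of_lt_of_le ?_ (hvmax n q0 hq0)
    unfold mon
    rw [hq0', pow_zero, mul_one, norm_pow]
    exact pow_pos (norm_pos_iff.2 (hV0 n)) _
  let Y : ℕ → ({v // v ∈ T} → ℂ) := fun n v => mon v.1 (V n) (W n) / (M n : ℂ)
  have hY : ∀ n, Y n ∈ Metric.closedBall (0 : {v // v ∈ T} → ℂ) 1 := by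
    intro n
    rw [mem_closedBall_zero_iff, pi_norm_le_iff_of_nonneg zero_le_one]
    intro v
    change ‖mon v.1 (V n) (W n) / (M n : ℂ)‖ ≤ 1
    rw [norm_div, Complex.norm_real, Real.norm_eq_abs, abs_of_pos (hM n), div_le_one (hM n)]
    exact hvmax n v.1 v.2
  obtain ⟨Z, -, φ, hφ, hZ⟩ := (isCompact_closedBall (0 : {v // v ∈ T} → ℂ) 1).tendsto_subseq hY
  let Ξ : ℕ × ℕ → ℂ := fun v => if hv : v ∈ T then Z ⟨v, hv⟩ else 0
  have hΞ : ∀ v ∈ T, Tendsto (fun n => mon v (V (φ n)) (W (φ n)) / (M (φ n) : ℂ)) atTop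
      (𝓝 (Ξ v)) := by
    intro v hv
    have : Ξ v = Z ⟨v, hv⟩ := dif_pos hv
    rw [this]
    exact (tendsto_pi_nhds.1 hZ) ⟨v, hv⟩
  have hVt : Tendsto (fun n => V (φ n)) atTop (𝓝 0) := by
    have : Tendsto V atTop (𝓝 0) := by
      rw [tendsto_zero_iff_norm_tendsto_zero]
      exact squeeze_zero (fun n => norm_nonneg _) (fun n => (hV1 n).le)
        tendsto_one_div_add_atTop_nhds_zero_nat
    exact this.comp hφ.tendsto_atTop
  -- linear equations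
  have lin : ∀ nu : ℕ × ℕ → ℂ, (∀ n, ‖ws T c nu (V n) (W n)‖ ≤ 1 / ((n : ℝ) + 1) * M n) →
      ∑ v ∈ T, nu v * (c v * Ξ v) = 0 := by
    intro nu hnu
    have e1 : Tendsto (fun n => ws T c nu (V (φ n)) (W (φ n)) / (M (φ n) : ℂ)) atTop
        (𝓝 (∑ v ∈ T, nu v * (c v * Ξ v))) := by
      have e2 : (fun n => ws T c nu (V (φ n)) (W (φ n)) / (M (φ n) : ℂ)) =
          fun n => ∑ v ∈ T, nu v * (c v * (mon v (V (φ n)) (W (φ n)) / (M (φ n) : ℂ))) := by
        funext n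
        unfold ws
        rw [Finset.sum_div]
        exact Finset.sum_congr rfl fun v _ => by ring
      rw [e2]
      exact tendsto_finsetSum _ fun v hv => ((hΞ v hv).const_mul _).const_mul _
    have e3 : Tendsto (fun n => ws T c nu (V (φ n)) (W (φ n)) / (M (φ n) : ℂ)) atTop (𝓝 0) := by
      rw [tendsto_zero_iff_norm_tendsto_zero]
      have e4 : Tendsto (fun n => 1 / (((φ n : ℕ) : ℝ) + 1)) atTop (𝓝 0) :=
        tendsto_one_div_add_atTop_nhds_zero_nat.comp hφ.tendsto_atTop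
      refine squeeze_zero (fun n => norm_nonneg _) (fun n => ?_) e4
      rw [norm_div, Complex.norm_real, Real.norm_eq_abs, abs_of_pos (hM _), div_le_iff₀ (hM _)]
      exact hnu _
    exact tendsto_nhds_unique e1 e3
  have hle : ∀ n, max ‖ws T c la (V n) (W n)‖ ‖ws T c mu (V n) (W n)‖ ≤
      1 / ((n : ℝ) + 1) * M n := fun n => (hPm n).le.trans
    (mul_le_mul_of_nonneg_left (hvmax n _ (hP n)) (by positivity))
  have L1 := lin la fun n => (le_max_left _ _).trans (hle n)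
  have L2 := lin mu fun n => (le_max_right _ _).trans (hle n)
  -- relations
  have R : ∀ p ∈ T, ∀ m ∈ T, ∀ q ∈ T, p.1 < m.1 → m.1 < q.1 → Ξ p ≠ 0 → Ξ q ≠ 0 → False := by
    intro p hp m hm q hq k1 k2 hp0 hq0
    obtain ⟨a, b, e, ha, hb, he, hrel⟩ := rel h hp hm hq k1 k2
    have t1 : Tendsto (fun n => (mon p (V (φ n)) (W (φ n)) / (M (φ n) : ℂ)) ^ a *
        (mon q (V (φ n)) (W (φ n)) / (M (φ n) : ℂ)) ^ b) atTop (𝓝 (Ξ p ^ a * Ξ q ^ b)) :=
      ((hΞ p hp).pow a).mul ((hΞ q hq).pow b)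
    have t2 : Tendsto (fun n => (mon m (V (φ n)) (W (φ n)) / (M (φ n) : ℂ)) ^ (a + b) *
        V (φ n) ^ e) atTop (𝓝 (Ξ m ^ (a + b) * 0 ^ e)) := ((hΞ m hm).pow _).mul (hVt.pow e)
    rw [zero_pow he.ne', mul_zero] at t2
    have t3 : Ξ p ^ a * Ξ q ^ b = 0 := by
      refine tendsto_nhds_unique t1 (t2.congr fun n => ?_)
      rw [div_pow, div_pow, div_pow, div_mul_div_comm, hrel, pow_add (M (φ n) : ℂ)]
      ring
    rcases mul_eq_zero.1 t3 with h' | h'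
    · exact hp0 (pow_eq_zero_iff ha.ne' |>.1 h')
    · exact hq0 (pow_eq_zero_iff hb.ne' |>.1 h')
  -- some coordinate does not vanish
  have hne : ∃ p ∈ T, Ξ p ≠ 0 := by
    by_contra hall
    push Not at hall
    have s1 : Tendsto (fun n => ∑ v ∈ T, ‖mon v (V (φ n)) (W (φ n)) / (M (φ n) : ℂ)‖) atTop
        (𝓝 (∑ v ∈ T, ‖Ξ v‖)) := tendsto_finsetSum _ fun v hv => (hΞ v hv).norm
    rw [Finset.sum_eq_zero fun v hv => by rw [hall v hv, norm_zero]] at s1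
    have s2 : ∀ n, 1 ≤ ∑ v ∈ T, ‖mon v (V (φ n)) (W (φ n)) / (M (φ n) : ℂ)‖ := by
      intro n
      have s3 : ‖mon (vm (φ n)) (V (φ n)) (W (φ n)) / (M (φ n) : ℂ)‖ = 1 := by
        rw [norm_div, Complex.norm_real, Real.norm_eq_abs, abs_of_pos (hM _)]
        exact div_self (hM (φ n)).ne'
      calc (1 : ℝ) = ‖mon (vm (φ n)) (V (φ n)) (W (φ n)) / (M (φ n) : ℂ)‖ := s3.symm
        _ ≤ _ := Finset.single_le_sum
          (f := fun v => ‖mon v (V (φ n)) (W (φ n)) / (M (φ n) : ℂ)‖)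
          (fun _ _ => norm_nonneg _) (hvm (φ n))
    exact absurd (ge_of_tendsto s1 (Eventually.of_forall s2)) (by norm_num)
  obtain ⟨p, hp, hp0⟩ := hne
  by_cases hq : ∃ q ∈ T, q ≠ p ∧ Ξ q ≠ 0
  · obtain ⟨q, hq, hqp, hq0⟩ := hq
    have hz : ∀ m ∈ T, m ≠ p ∧ m ≠ q → Ξ m = 0 := by
      intro m hm hmn
      by_contra hm0
      have d1 : p.1 ≠ q.1 := fun e => hqp (h.inj _ hq _ hp e.symm)
      have d2 : m.1 ≠ p.1 := fun e => hmn.1 (h.inj _ hm _ hp e)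
      have d3 : m.1 ≠ q.1 := fun e => hmn.2 (h.inj _ hm _ hq e)
      rcases lt_trichotomy p.1 q.1 with a1 | a1 | a1
      · rcases lt_or_gt_of_ne d2 with a2 | a2
        · exact R m hm p hp q hq a2 a1 hm0 hq0
        · rcases lt_or_gt_of_ne d3 with a3 | a3
          · exact R p hp m hm q hq a2 a3 hp0 hq0
          · exact R p hp q hq m hm a1 a3 hp0 hm0
      · exact d1 a1
      · rcases lt_or_gt_of_ne d3 with a2 | a2
        · exact R m hm q hq p hp a2 a1 hm0 hp0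
        · rcases lt_or_gt_of_ne d2 with a3 | a3
          · exact R q hq m hm p hp a2 a3 hq0 hp0
          · exact R q hq p hp m hm a1 a3 hq0 hm0
    have two : ∀ nu : ℕ × ℕ → ℂ, ∑ v ∈ T, nu v * (c v * Ξ v) = 0 →
        nu p * (c p * Ξ p) + nu q * (c q * Ξ q) = 0 := by
      intro nu hnu
      rw [← hnu]
      symm
      refine Finset.sum_eq_add p q hqp.symm (fun m hm hmn => ?_) (fun h' => absurd hp h')
        (fun h' => absurd hq h')
      rw [hz m hm hmn, mul_zero, mul_zero]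
    have T1 := two la L1
    have T2 := two mu L2
    have hdet := h2 p hp q hq hqp.symm
    have hX : c q * Ξ q = 0 := by
      have : (la p * mu q - la q * mu p) * (c q * Ξ q) = 0 := by
        linear_combination la p * T2 - mu p * T1
      exact (mul_eq_zero.1 this).resolve_left (sub_ne_zero.2 hdet)
    exact (mul_ne_zero (hc q hq) hq0) hX
  · push Not at hq
    have one : ∀ nu : ℕ × ℕ → ℂ, ∑ v ∈ T, nu v * (c v * Ξ v) = 0 → nu p = 0 := by
      intro nu hnu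
      rw [Finset.sum_eq_single p (fun m hm hmp => by rw [hq m hm hmp, mul_zero, mul_zero])
        (fun h' => absurd hp h')] at hnu
      exact (mul_eq_zero.1 hnu).resolve_right (mul_ne_zero (hc p hp) hp0)
    rcases h1 p hp with h' | h'
    · exact h' (one la L1)
    · exact h' (one mu L2)

end Crest.Agent.R267.NdP_484
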