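import Mathlib
import Crest.Agent.R267.Amal_52
import Crest.Agent.R267.NdQ_484

/-!
# S0406, T3N entrance: definitions, part 2 (helper484)

* `ArmDat a T c` : data of one arm (exponents `T`, coefficients `c`; `w^15` is not in `T`);
* `cz a c ζ` : scaled coefficients `c_{ij} ζ^{a i + j - 15}`, so that
  `E T (cz a c r) v w = E T c (r^a v) (r w) / r^15` (`E`, `Ev`, `Ew` of `NdQ_484`);
* `ct`, `Ac a T c W r` : the cut off homogeneous arm;
* `Qs`, `Ds`, `psi`, `Ss b h` : star function (homogeneous of degree `4` for `wt b`);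
* `Ff` : the function `F_{r,s}`; `dP` : the partial derivatives of `P (x, yz)`;
* `pf`, `dpf` : the polynomial function `f_M` and its partial derivatives;
* `Con w f ρ H T` : the germ of `f` is described by the family `H (t, ·)`, `t ≤ T`.
-/

set_option autoImplicit false
set_option linter.unusedSectionVars false

noncomputable section

open Set Filter Topology Finset
open scoped ContDiff
open Crest.Agent.R267.Cone_808 Crest.Agent.R267.SphReg_808 Crest.Agent.R267.Hm_951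
open Crest.Agent.R267.NdP_484 Crest.Agent.R267.NdR_484 Crest.Agent.R267.NdQ_484

namespace Crest.Agent.R267.NdS_484

/-- data of one arm. -/
structure ArmDat (a : ℕ) (T : Finset (ℕ × ℕ)) (c : ℕ × ℕ → ℂ) : Prop where
  adm : Adm a T
  conv : Conv (insert (0, 15) T)
  ne : ∀ q ∈ T, c q ≠ 0

/-- excess of a monomial. -/
def ex (a : ℕ) (q : ℕ × ℕ) : ℕ := a * q.1 + q.2 - 15

/-- scaled coefficients. -/
def cz (a : ℕ) (c : ℕ × ℕ → ℂ) (ζ : ℝ) (q : ℕ × ℕ) : ℂ := c q * (ζ : ℂ) ^ ex a q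

/-- cut-off of an arm: `1` for `|w|^a ≤ W |v|`, `0` for `|w|^{2a} ≥ 2 W² |v|²`. -/
def ct (a : ℕ) (W : ℝ) (v w : ℂ) : ℝ :=
  Real.smoothTransition (2 - ‖w‖ ^ (2 * a) / (W ^ 2 * ‖v‖ ^ 2))

/-- the cut off homogeneous arm. -/
def Ac (a : ℕ) (T : Finset (ℕ × ℕ)) (c : ℕ × ℕ → ℂ) (W r : ℝ) (z : ℂ × ℂ) : ℂ :=
  (ct a W z.1 z.2 : ℂ) * E T (cz a c (r * ‖z.1‖ ^ (-(1 / (a : ℝ))))) z.1 z.2

/-- star function of the hub. -/
def Qs (b : Bool) (p : E4) : ℝ := N b p - ∑ v, th (g b v p / N b p) * (N b p - g b v p)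

/-- the full gauge. -/
def Ds (b : Bool) (p : E4) : ℝ := N b p + ‖p 3‖ ^ 60

/-- smooth step between `h` and `2h`. -/
def psi (h t : ℝ) : ℝ := Real.smoothTransition ((t - h) / h)

/-- **star function**. -/
def Ss (b : Bool) (h : ℝ) (p : E4) : ℝ :=
  psi h (N b p / Ds b p) * Qs b p + (1 - psi h (N b p / Ds b p)) * Ds b p

variable (b : Bool) (T : Fin 3 → Finset (ℕ × ℕ)) (c : Fin 3 → ℕ × ℕ → ℂ)

/-- the arms. -/
def Arms (W r : ℝ) (v : Fin 3) : ℂ × ℂ → ℂ := Ac (aw b v) (T v) (c v) W r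

/-- the function `F_{r,s}`, variables `(r, s, p)`. -/
def Ff (M W h : ℝ) (q : ℝ × ℝ × E4) : ℂ :=
  M * P b (q.2.2 0) (q.2.2 1 * q.2.2 2) + q.2.2 3 ^ 15 +
    ∑ v, (((1 - q.2.1 : ℝ) : ℂ) * E (T v)
        (cz (aw b v) (c v) (q.1 * (Ss b h q.2.2) ^ (-(1 / 60) : ℝ))) (q.2.2 v.castSucc) (q.2.2 3) +
      ((q.2.1 * th (g b v q.2.2 / N b q.2.2) : ℝ) : ℂ) *
        Arms b T c W q.1 v (q.2.2 v.castSucc, q.2.2 3))

/-- the partial derivatives of `P (x, yz)`. -/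
def dP (b : Bool) (p : E4) : Fin 3 → ℂ :=
  ![Ps b (p 0) (p 1 * p 2), Pt b (p 0) (p 1 * p 2) * p 2, Pt b (p 0) (p 1 * p 2) * p 1]

/-- the polynomial function `f_M`. -/
def pf (M : ℝ) (p : E4) : ℂ :=
  M * P b (p 0) (p 1 * p 2) + p 3 ^ 15 + ∑ v, E (T v) (c v) (p v.castSucc) (p 3)

/-- its derivatives in the hub variables. -/
def dpf (M : ℝ) (p : E4) (v : Fin 3) : ℂ := M * dP b p v + Ev (T v) (c v) (p v.castSucc) (p 3)

/-- its derivative in `w`. -/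
def dpw (p : E4) : ℂ := 15 * p 3 ^ 14 + ∑ v, Ew (T v) (c v) (p v.castSucc) (p 3)

end Crest.Agent.R267.NdS_484

namespace Crest.Agent.R267.NdS_484

variable {ι : Type} [Fintype ι]

/-- the germ of `f` at `0` is described by the family `H (t, ·)`, `t ≤ T`. -/
structure Con (w : ι → ℝ) (f : (ι → ℂ) → ℂ) (ρ : (ι → ℂ) → ℝ) (H : ℝ × (ι → ℂ) → ℂ) (T : ℝ) :
    Prop where
  wpos : ∀ i, 0 < w i
  zero : f 0 = 0
  cont : Continuous fun u : Sph ι => ρ u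
  link : ∀ (t : ℝ) (u : Sph ι), t ≤ T → (f (act w (t - ρ u) u) = 0 ↔ H (t, u) = 0)
  smooth : ContDiffOn ℝ 2 H (univ ×ˢ {0}ᶜ)
  wh : ∀ t ≤ T, ∀ (s : ℝ) (x : ι → ℂ), H (t, act w s x) = Real.exp s • H (t, x)
  reg : ∀ t ≤ T, ∀ x : ι → ℂ, x ≠ 0 → H (t, x) = 0 →
    ∀ b : ℂ, ∃ y : ι → ℂ, fderiv ℝ H (t, x) (0, y) = b

end Crest.Agent.R267.NdS_484
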