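import Mathlib
import Crest.Agent.R267.NdS_484
import Crest.Agent.R267.NdB_484

/-!
# S0406, entrance, ENT-A (helper125): conic structure for star-shaped gauges

* `isotopy`: isotopy of the spheres along a `0`-regular path;
* `cone`: the family `H (T + t, ·)`, `t ≤ 0`, has constant zero set on the sphere;
* `germ_of_con`: two germs described by families (`Con`) with homeomorphic zero sets on the spheres
  have homeomorphic zero sets.
-/

set_option autoImplicit false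
set_option linter.unusedSectionVars false

noncomputable section

open Set Filter Topology
open scoped ContDiff
open Crest.Agent.R267.Cone_808 Crest.Agent.R267.SphReg_808 Crest.Agent.R267.Hm_951
open Crest.Agent.R267.NdA_484 Crest.Agent.R267.NdS_484

namespace Crest.Agent.R267.EntA_125

variable {ι : Type} [Fintype ι]

theorem isOpen_dom : IsOpen ((univ : Set ℝ) ×ˢ ({0}ᶜ : Set (ι → ℂ))) :=
  isOpen_univ.prod isOpen_compl_singleton

/-- regularity on the sphere. -/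
theorem reg_sph {w : ι → ℝ} {f : (ι → ℂ) → ℂ} {ρ : (ι → ℂ) → ℝ} {H : ℝ × (ι → ℂ) → ℂ} {T : ℝ}
    (hf : Con w f ρ H T) {t : ℝ} (ht : t ≤ T) {x : ι → ℂ} (hx : nsq x = 1) (h0 : H (t, x) = 0)
    (b : ℂ) : ∃ y : ι → ℂ, ip x y = 0 ∧ fderiv ℝ H (t, x) (0, y) = b := by
  have hx0 : x ≠ 0 := by
    rintro rfl
    rw [nsq_eq_zero.2 rfl] at hx
    exact zero_ne_one hx
  have hmem : (t, x) ∈ (univ : Set ℝ) ×ˢ ({0}ᶜ : Set (ι → ℂ)) := ⟨mem_univ _, hx0⟩
  have hd : DifferentiableAt ℝ H (t, x) :=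
    ((hf.smooth _ hmem).contDiffAt (isOpen_dom.mem_nhds hmem)).differentiableAt (by norm_num)
  have heul := euler (hf.wh t ht) hd
  rw [h0] at heul
  obtain ⟨y, hy1, hy2⟩ := regular_of_euler hf.wpos hx0
    (L := (fderiv ℝ H (t, x)).comp (ContinuousLinearMap.inr ℝ ℝ (ι → ℂ)))
    (by simpa using heul) (fun b => by
      obtain ⟨y, hy⟩ := hf.reg t ht x hx0 h0 b
      exact ⟨y, by simpa using hy⟩) b
  exact ⟨y, hy1, by simpa using hy2⟩

/-- isotopy of the spheres. -/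
theorem isotopy {w : ι → ℝ} {f : (ι → ℂ) → ℂ} {ρ : (ι → ℂ) → ℝ} {H : ℝ × (ι → ℂ) → ℂ} {T : ℝ}
    (hf : Con w f ρ H T) (k : ℕ) :
    ∃ Φ : Icc (0 : ℝ) 1 → (Sph ι ≃ₜ Sph ι),
      (Continuous fun p : Icc (0 : ℝ) 1 × Sph ι => Φ p.1 p.2) ∧
      (Continuous fun p : Icc (0 : ℝ) 1 × Sph ι => (Φ p.1).symm p.2) ∧
      (∀ x, Φ ⟨0, by simp⟩ x = x) ∧
      ∀ (s : Icc (0 : ℝ) 1) (x : Sph ι), H (T - (k + s), Φ s x) = 0 ↔ H (T - k, x) = 0 := by
  set H' : ℝ × (ι → ℂ) → ℂ := fun p => H (T - (k + p.1), p.2) with hH'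
  have hmaps : ContDiff ℝ 2 fun p : ℝ × (ι → ℂ) => (T - ((k : ℝ) + p.1), p.2) := by fun_prop
  have hsm : ContDiffOn ℝ 2 H' ((univ : Set ℝ) ×ˢ ({0}ᶜ : Set (ι → ℂ))) :=
    hf.smooth.comp hmaps.contDiffOn fun p hp => ⟨mem_univ _, hp.2⟩
  have hder : ∀ (s : ℝ) (x : ι → ℂ), x ≠ 0 → ∀ y : ι → ℂ,
      fderiv ℝ H' (s, x) (0, y) = fderiv ℝ H (T - (k + s), x) (0, y) := by
    intro s x hx y
    have hm1 : (s, x) ∈ (univ : Set ℝ) ×ˢ ({0}ᶜ : Set (ι → ℂ)) := ⟨mem_univ _, hx⟩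
    have hm2 : (T - (k + s), x) ∈ (univ : Set ℝ) ×ˢ ({0}ᶜ : Set (ι → ℂ)) := ⟨mem_univ _, hx⟩
    have hd1 : DifferentiableAt ℝ H' (s, x) :=
      ((hsm _ hm1).contDiffAt (isOpen_dom.mem_nhds hm1)).differentiableAt (by norm_num)
    have hd2 : DifferentiableAt ℝ H (T - (k + s), x) :=
      ((hf.smooth _ hm2).contDiffAt (isOpen_dom.mem_nhds hm2)).differentiableAt (by norm_num)
    have h1 := hd1.hasFDerivAt.comp x (hasFDerivAt_prodMk_right s x)
    have h2 := hd2.hasFDerivAt.comp x (hasFDerivAt_prodMk_right (T - (k + s)) x)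
    have h3 := congrArg (fun L : (ι → ℂ) →L[ℝ] ℂ => L y) (h1.unique h2)
    simpa using h3
  obtain ⟨Φ, δ, hδ, h1, h2, h3, h4, -⟩ := ehresmann_sphere (ι := ι) isOpen_dom
    (fun t _ x hx => ⟨mem_univ _, fun h => by
      have h' : x = 0 := h
      rw [h', nsq_eq_zero.2 rfl] at hx
      exact zero_ne_one hx⟩) hsm
    (fun t ht x hx h0 b => by
      have hk : (0 : ℝ) ≤ k := Nat.cast_nonneg k
      have ht' : T - (k + t) ≤ T := by linarith [ht.1]
      obtain ⟨y, hy, hy'⟩ := reg_sph hf ht' hx h0 b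
      refine ⟨y, hy, ?_⟩
      rw [hder t x (fun h => by
        rw [h, nsq_eq_zero.2 rfl] at hx
        exact zero_ne_one hx)]
      exact hy')
  refine ⟨Φ, h1, h2, h3, fun s x => ⟨fun h => ?_, fun h => ?_⟩⟩
  · have h5 := h4 x s ⟨0, by simp⟩ (by
      have : H' (s, Φ s x) = 0 := h
      rw [this, norm_zero]; exact hδ)
    rw [h3] at h5
    have h6 : H' (((⟨0, by simp⟩ : Icc (0 : ℝ) 1) : ℝ), x) = 0 := h5.trans h
    simpa [hH'] using h6
  · have h0 : H' (((⟨0, by simp⟩ : Icc (0 : ℝ) 1) : ℝ), x) = 0 := by simpa [hH'] using h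
    have h5 := h4 x ⟨0, by simp⟩ s (by
      rw [h3, h0, norm_zero]; exact hδ)
    rw [h3] at h5
    exact h5.trans h0

/-- **conic structure.** -/
theorem cone {w : ι → ℝ} {f : (ι → ℂ) → ℂ} {ρ : (ι → ℂ) → ℝ} {H : ℝ × (ι → ℂ) → ℂ} {T : ℝ}
    (hf : Con w f ρ H T) :
    ∃ G : Sph ι × ℝ ≃ₜ Sph ι × ℝ, (∀ p, (G p).2 = p.2) ∧
      ∀ p, p.2 ≤ 0 → (H (T + p.2, (G p).1) = 0 ↔ H (T, p.1) = 0) := by
  choose Φ h1 h2 h3 h4 using isotopy hf
  obtain ⟨G, hG⟩ := glue h1 h2 h3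
  refine ⟨G, fun p => by rw [hG], fun p hp => ?_⟩
  rw [hG]
  have h5 : max (-p.2) 0 = -p.2 := max_eq_left (by linarith)
  have h6 := run_mem (P := fun (τ : ℝ) (x : Sph ι) => H (T - τ, x) = 0) h3
    (fun k s x => h4 k s x) (τ := max (-p.2) 0) (le_max_right _ _) p.1
  simp only [sub_zero] at h6
  rw [← h6]
  have h7 : T - max (-p.2) 0 = T + p.2 := by rw [h5]; ring
  simp only [h7]

/-- shift by a function. -/
def shf (r : Sph ι → ℝ) (hr : Continuous r) : Sph ι × ℝ ≃ₜ Sph ι × ℝ where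
  toFun p := (p.1, p.2 + r p.1)
  invFun p := (p.1, p.2 - r p.1)
  left_inv p := by simp
  right_inv p := by simp
  continuous_toFun := continuous_fst.prodMk (continuous_snd.add (hr.comp continuous_fst))
  continuous_invFun := continuous_fst.prodMk (continuous_snd.sub (hr.comp continuous_fst))

theorem shf_apply (r : Sph ι → ℝ) (hr : Continuous r) (p : Sph ι × ℝ) :
    shf r hr p = (p.1, p.2 + r p.1) := rfl

theorem shf_symm_apply (r : Sph ι → ℝ) (hr : Continuous r) (p : Sph ι × ℝ) :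
    (shf r hr).symm p = (p.1, p.2 - r p.1) := rfl

theorem exists_bound {r : Sph ι → ℝ} (hr : Continuous r) : ∃ R, ∀ u, |r u| ≤ R := by
  have : CompactSpace (Sph ι) := isCompact_iff_compactSpace.1 isCompact_sph
  obtain ⟨R, hR⟩ := (isCompact_univ (X := Sph ι)).exists_bound_of_continuousOn hr.continuousOn
  exact ⟨R, fun u => by simpa using hR u (mem_univ u)⟩

/-- **germs described by families with homeomorphic zero sets on the spheres.** -/
theorem germ_of_con {f g : (ι → ℂ) → ℂ} {w w' : ι → ℝ}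
    {ρ ρ' : (ι → ℂ) → ℝ} {H H' : ℝ × (ι → ℂ) → ℂ} {T T' : ℝ}
    (hf : Con w f ρ H T) (hg : Con w' g ρ' H' T')
    (h : ZEq (fun u => H (T, u)) (fun u => H' (T', u))) :
    ∃ φ : OpenPartialHomeomorph (ι → ℂ) (ι → ℂ),
      (0 : ι → ℂ) ∈ φ.source ∧ φ 0 = 0 ∧ ∀ x ∈ φ.source, (f x = 0 ↔ g (φ x) = 0) := by
  obtain ⟨k₀, hk₀⟩ := h
  obtain ⟨A, hA1, hA2⟩ := cone hf
  obtain ⟨B, hB1, hB2⟩ := cone hg
  have hw := hf.wpos
  have hw' := hg.wpos
  obtain ⟨R, hR⟩ := exists_bound hf.cont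
  obtain ⟨R', hR'⟩ := exists_bound hg.cont
  set S : Sph ι × ℝ ≃ₜ Sph ι × ℝ := shf (fun u => ρ u) hf.cont with hS
  set S' : Sph ι × ℝ ≃ₜ Sph ι × ℝ := shf (fun u => ρ' u) hg.cont with hS'
  let L : Sph ι × ℝ ≃ₜ Sph ι × ℝ :=
    ((((S.trans (NdB_484.sh (Sph ι) (-T))).trans A.symm).trans
      (k₀.prodCongr (Homeomorph.refl ℝ))).trans (B.trans (NdB_484.sh (Sph ι) T'))).trans S'.symm
  have hAs : ∀ p, (A.symm p).2 = p.2 := fun p => by
    have := hA1 (A.symm p)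
    rw [A.apply_symm_apply] at this
    exact this.symm
  have hLdef : ∀ p : Sph ι × ℝ, ∃ q : Sph ι × ℝ, A q = (p.1, p.2 + ρ p.1 + -T) ∧
      q.2 = p.2 + ρ p.1 + -T ∧ (L p).1 = (B (k₀ q.1, q.2)).1 ∧
      (L p).2 = q.2 + T' - ρ' (L p).1 := by
    intro p
    refine ⟨A.symm (p.1, p.2 + ρ p.1 + -T), A.apply_symm_apply _, hAs _, rfl, ?_⟩
    have : (L p).2 = (B (k₀ (A.symm (p.1, p.2 + ρ p.1 + -T)).1,
      (A.symm (p.1, p.2 + ρ p.1 + -T)).2)).2 + T' - ρ' (L p).1 := rfl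
    rw [this, hB1]
  have hL2 : ∀ p, (L p).2 = p.2 + ρ p.1 - T + T' - ρ' (L p).1 := by
    intro p
    obtain ⟨q, -, hq2, -, hq4⟩ := hLdef p
    rw [hq4, hq2]
    ring
  have hL2s : ∀ p, (L.symm p).2 = p.2 - ρ (L.symm p).1 + T - T' + ρ' p.1 := by
    intro p
    have := hL2 (L.symm p)
    rw [L.apply_symm_apply] at this
    linarith
  have hL : ∀ p : Sph ι × ℝ, p.2 + ρ p.1 ≤ T →
      (f (act w p.2 p.1) = 0 ↔ g (act w' (L p).2 (L p).1) = 0) := by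
    intro p hp
    obtain ⟨q, hAq, hq2, hq3, hq4⟩ := hLdef p
    have e1 := hA2 q (by rw [hq2]; linarith)
    have e0 : T + q.2 = p.2 + ρ p.1 := by rw [hq2]; ring
    rw [hAq, e0] at e1
    have e2 := hf.link (p.2 + ρ p.1) p.1 hp
    rw [add_sub_cancel_right] at e2
    have e3 := hB2 (k₀ q.1, q.2) (by rw [hq2]; linarith)
    simp only at e3
    have e4 := hg.link (T' + q.2) (L p).1 (by rw [hq2]; linarith)
    have e5 : T' + q.2 - ρ' (L p).1 = (L p).2 := by rw [hq4]; ring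
    rw [e5] at e4
    rw [e4, hq3, e3, e2, e1]
    exact hk₀ q.1
  let k : {x : ι → ℂ // x ≠ 0} ≃ₜ {x : ι → ℂ // x ≠ 0} :=
    ((polar hw).trans L).trans (polar hw').symm
  have key : ∀ {v v' : ι → ℝ} (hv : ∀ i, 0 < v i) (hv' : ∀ i, 0 < v' i)
      (g : Sph ι × ℝ ≃ₜ Sph ι × ℝ), (∀ M, ∃ M', ∀ p : Sph ι × ℝ, p.2 < M' → (g p).2 < M) →
      ∀ U ∈ 𝓝 (0 : ι → ℂ), ∀ᶠ x in 𝓝 (0 : ι → ℂ), ∀ hx : x ≠ 0,
        ((polar hv').symm (g (polar hv ⟨x, hx⟩)) : ι → ℂ) ∈ U := by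
    intro v v' hv hv' g hg U hU
    obtain ⟨M, hM⟩ := exists_time_small hv' hU
    obtain ⟨M', hM'⟩ := hg M
    filter_upwards [tau_tendsto hv M'] with x hx hx0
    rw [polar_symm_apply]
    exact hM _ _ (hM' _ (by rw [polar_apply_snd]; exact hx hx0))
  obtain ⟨Ψ, hΨ0, hΨ⟩ := extend_homeo k
    (key hw hw' L fun M => ⟨M + T - T' - R - R', fun p hp => by
      rw [hL2]
      have h1 := abs_le.1 (hR p.1)
      have h2 := abs_le.1 (hR' (L p).1)
      linarith [h1.2, h2.1]⟩)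
    (key hw' hw L.symm fun M => ⟨M - T + T' - R - R', fun p hp => by
      rw [hL2s]
      have h1 := abs_le.1 (hR (L.symm p).1)
      have h2 := abs_le.1 (hR' p.1)
      linarith [h1.1, h2.2]⟩)
  let O : Set (ι → ℂ) := {x | nsq (act w (-(T - R)) x) < 1}
  have hO : IsOpen O := isOpen_lt (continuous_nsq.comp ((continuous_act w).comp
    (by fun_prop : Continuous fun x : ι → ℂ => (-(T - R), x)))) continuous_const
  refine ⟨Ψ.toOpenPartialHomeomorph.restrOpen O hO, ?_, ?_, ?_⟩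
  · rw [OpenPartialHomeomorph.restrOpen_source]
    refine ⟨by simp, ?_⟩
    change nsq (act w (-(T - R)) 0) < 1
    simp [nsq]
  · exact hΨ0
  · intro x hx
    rw [OpenPartialHomeomorph.restrOpen_source] at hx
    have hx2 : nsq (act w (-(T - R)) x) < 1 := hx.2
    change f x = 0 ↔ g (Ψ x) = 0
    by_cases hx0 : x = 0
    · rw [hx0, hΨ0, hf.zero, hg.zero]
    · rw [hΨ x hx0]
      have h1 : ((k ⟨x, hx0⟩ : {x : ι → ℂ // x ≠ 0}) : ι → ℂ) =
          act w' (L (polar hw ⟨x, hx0⟩)).2 (L (polar hw ⟨x, hx0⟩)).1 := rfl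
      have h2 : (polar hw ⟨x, hx0⟩).2 + ρ (polar hw ⟨x, hx0⟩).1 ≤ T := by
        rw [polar_apply_snd]
        have h3 := (tau_lt_iff hw ⟨x, hx0⟩ (T - R)).2 hx2
        have h4 := (abs_le.1 (hR (polar hw ⟨x, hx0⟩).1)).2
        linarith
      have h3 : act w (polar hw ⟨x, hx0⟩).2 (polar hw ⟨x, hx0⟩).1 = x := by
        have := congrArg Subtype.val ((polar hw).symm_apply_apply ⟨x, hx0⟩)
        rw [polar_symm_apply] at this
        exact this
      rw [h1, ← hL _ h2, h3]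

end Crest.Agent.R267.EntA_125
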