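import Mathlib
import Crest.Agent.R267.NdS_484

/-!
# S0406, T3N entrance: the three tubes (helper484)

* `tube3`: `NdQ_484.tube` in the `v`-tube of the hub, normalised by `‖p v‖ = 1`.
-/

set_option autoImplicit false
set_option linter.unusedSectionVars false

noncomputable section

open Set Filter Topology Finset
open Crest.Agent.R267.NdP_484 Crest.Agent.R267.NdR_484 Crest.Agent.R267.NdQ_484
open Crest.Agent.R267.NdS_484

namespace Crest.Agent.R267.NdT3_484

theorem Kc_cz {a : ℕ} {T : Finset (ℕ × ℕ)} {c : ℕ × ℕ → ℂ} {r : ℝ} (h0 : 0 ≤ r) (h1 : r ≤ 1) :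
    Kc T (cz a c r) ≤ Kc T c := by
  unfold Kc
  refine Finset.sum_le_sum fun q _ => mul_le_mul_of_nonneg_left ?_ (by positivity)
  unfold cz
  rw [norm_mul, norm_pow, Complex.norm_real, Real.norm_eq_abs, abs_of_nonneg h0]
  calc ‖c q‖ * r ^ ex a q ≤ ‖c q‖ * 1 := by
        gcongr
        exact pow_le_one₀ h0 h1
    _ = ‖c q‖ := mul_one _

theorem g_small {b : Bool} {u : Fin 3} {p : E4} (h : g b u p ≤ (1 / 2) ^ 40) :
    ‖p u.castSucc‖ ≤ 1 := by
  have h1 : g b u p ≤ 1 := h.trans (pow_le_one₀ (by norm_num) (by norm_num))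
  unfold g at h1
  have := Amal_52.bw_pos b u
  exact (pow_le_one_iff_of_nonneg (norm_nonneg _) (by omega)).1 h1

theorem yz_le {b : Bool} {p : E4} (h1 : g b 1 p ≤ (1 / 2) ^ 40) (h2 : g b 2 p ≤ (1 / 2) ^ 40) :
    ‖p 1 * p 2‖ ≤ 1 / 4 := by
  have hy := norm_nonneg (p 1)
  have hz := norm_nonneg (p 2)
  have h2' : ‖p 2‖ ^ 60 ≤ (1 / 2) ^ 40 := by
    cases b <;> exact h2
  have h1' : ‖p 1‖ ^ 60 ≤ (1 / 2) ^ 80 := by
    cases b
    · have h : ‖p 1‖ ^ 12 ≤ (1 / 2) ^ 40 := h1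
      calc ‖p 1‖ ^ 60 = (‖p 1‖ ^ 12) ^ 5 := by rw [← pow_mul]
        _ ≤ ((1 / 2) ^ 40) ^ 5 := by gcongr
        _ ≤ (1 / 2) ^ 80 := by
          rw [← pow_mul]
          exact pow_le_pow_of_le_one (by norm_num) (by norm_num) (by norm_num)
    · have h : ‖p 1‖ ^ 30 ≤ (1 / 2) ^ 40 := h1
      calc ‖p 1‖ ^ 60 = (‖p 1‖ ^ 30) ^ 2 := by rw [← pow_mul]
        _ ≤ ((1 / 2) ^ 40) ^ 2 := by gcongr
        _ = (1 / 2) ^ 80 := by rw [← pow_mul]
  have h3 : ‖p 1 * p 2‖ ^ 60 ≤ (1 / 4) ^ 60 := by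
    rw [norm_mul, mul_pow]
    have e : ((1 / 2 : ℝ) ^ 80) * (1 / 2) ^ 40 = (1 / 4) ^ 60 := by
      rw [← pow_add, show (1 / 4 : ℝ) = (1 / 2) ^ 2 by norm_num, ← pow_mul]
    rw [← e]
    exact mul_le_mul h1' h2' (pow_nonneg hz _) (pow_nonneg (by norm_num) _)
  exact (pow_le_pow_iff_left₀ (norm_nonneg _) (by norm_num) (by norm_num)).1 h3

theorem sum_erase (f : Fin 3 → ℂ) (v : Fin 3) :
    ∑ u ∈ univ.erase v, f u = f 0 + f 1 + f 2 - f v := by
  rw [Finset.sum_erase_eq_sub (Finset.mem_univ v), Fin.sum_univ_three]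

section

variable {b : Bool} {T : Fin 3 → Finset (ℕ × ℕ)} {c : Fin 3 → ℕ × ℕ → ℂ}

theorem tube3 (hd : ∀ v, ArmDat (aw b v) (T v) (c v)) {κ C M r s : ℝ} (hκ : 0 < κ)
    (hC : ∀ v, Kc (T v) (c v) ≤ C)
    (hM : ∃ eta : ℝ, 0 < eta ∧ eta ≤ 1 ∧ 100 * (C + 1) * eta ≤ κ ∧
      16 * (C + 1) * (1 / eta) ^ 14 < M)
    (hr0 : 0 ≤ r) (hr1 : r ≤ 1) (hs : |s| ≤ 1) (v : Fin 3) {p : E4} (hv : ‖p v.castSucc‖ = 1)
    (hsm : ∀ u, u ≠ v → g b u p ≤ (1 / 2) ^ 40) {KK Kw : ℂ}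
    (eu : ∀ u, u ≠ v → M * dP b p u +
      s * Ev (T u) (cz (aw b u) (c u) r) (p u.castSucc) (p 3) = 0)
    (ew : Kw + s * ∑ u ∈ univ.erase v,
      p 3 * Ew (T u) (cz (aw b u) (c u) r) (p u.castSucc) (p 3) = 0)
    (e0 : (M * P b (p 0) (p 1 * p 2) + KK + s * ∑ u ∈ univ.erase v,
        E (T u) (cz (aw b u) (c u) r) (p u.castSucc) (p 3) = 0) ∨
      M * (p v.castSucc * dP b p v) + KK = 0)
    (hPL : κ * ‖p 3‖ ^ 15 ≤ max ‖KK‖ ‖Kw‖) :
    (∀ u, u ≠ v → p u.castSucc = 0) ∧ p 3 = 0 := by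
  have hK : ∀ u, Kc (T u) (cz (aw b u) (c u) r) ≤ C := fun u => (Kc_cz hr0 hr1).trans (hC u)
  have hadm := fun u => (hd u).adm
  -- the bound of the other arms
  have hB : ∀ {m : ℕ} {n : ℝ} (u : Fin 3), Adm m (T u) → 0 ≤ n → ‖p u.castSucc‖ ≤ n ^ m →
      ‖(s : ℂ) * E (T u) (cz (aw b u) (c u) r) (p u.castSucc) (p 3)‖ ≤
        Bd m (T u) (cz (aw b u) (c u) r) n ‖p 3‖ ∧
      ‖(0 : ℂ)‖ ≤ Bd m (T u) (cz (aw b u) (c u) r) n ‖p 3‖ := by
    intro m n u hA hn hp
    have h1 := E_le (c := cz (aw b u) (c u) r) (w := p 3) hA hn hp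
    refine ⟨?_, ?_⟩
    · rw [norm_mul, Complex.norm_real, Real.norm_eq_abs]
      calc |s| * ‖E (T u) (cz (aw b u) (c u) r) (p u.castSucc) (p 3)‖
          ≤ 1 * ‖E (T u) (cz (aw b u) (c u) r) (p u.castSucc) (p 3)‖ := by gcongr
        _ ≤ _ := by rw [one_mul]; exact h1
    · rw [norm_zero]
      exact (norm_nonneg _).trans h1
  have key : ∀ (i j : Fin 3) (m k : ℕ), 1 ≤ m → 1 ≤ k → m ≤ 15 → k ≤ 15 → i ≠ v → j ≠ v → i ≠ j →
      Adm m (T i) → Adm k (T j) →
      (∀ n : ℝ, 0 ≤ n → n ≤ 1 → ‖p i.castSucc‖ ≤ n ^ m → ‖p j.castSucc‖ ≤ n ^ k →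
        (‖p i.castSucc‖ = n ^ m ∨ ‖p j.castSucc‖ = n ^ k) →
        ((1 / 4) * n ^ (15 - m) ≤ ‖dP b p i‖ ∨ (1 / 4) * n ^ (15 - k) ≤ ‖dP b p j‖) ∧
        ‖P b (p 0) (p 1 * p 2)‖ ≤ 4 * n ^ 15 ∧ ‖p v.castSucc * dP b p v‖ ≤ 4 * n ^ 15) →
      (∀ f : Fin 3 → ℂ, ∑ u ∈ univ.erase v, f u = f i + f j) →
      p i.castSucc = 0 ∧ p j.castSucc = 0 ∧ p 3 = 0 := by
    intro i j m k hm1 hk1 hm hk hi hj _ hAi hAj hn hsum
    obtain ⟨n, hn0, hn1, ha, hb, hor⟩ := exists_size hm1 hk1 (norm_nonneg (p i.castSucc))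
      (norm_nonneg (p j.castSucc)) (g_small (hsm i hi)) (g_small (hsm j hj))
    obtain ⟨hlow, hp0, hp1⟩ := hn n hn0 hn1 ha hb hor
    rw [hsum] at ew
    have ew' : Kw + s * (p 3 * Ew (T i) (cz (aw b i) (c i) r) (p i.castSucc) (p 3)) +
        s * (p 3 * Ew (T j) (cz (aw b j) (c j) r) (p j.castSucc) (p 3)) = 0 := by
      rw [← ew]; ring
    have main : n = 0 ∧ p 3 = 0 := by
      rcases e0 with e0 | e0
      · rw [hsum] at e0
        refine tube hm1 hk1 hm hk hAi hAj hκ (hK i) (hK j) hM hs hs hn0 hn1 ha hb hlow hp0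
          (eu i hi) (eu j hj) ew' ⟨_, _, (hB i hAi hn0 ha).1, (hB j hAj hn0 hb).1, ?_⟩ hPL
        linear_combination e0
      · refine tube hm1 hk1 hm hk hAi hAj hκ (hK i) (hK j) hM hs hs hn0 hn1 ha hb hlow hp1
          (eu i hi) (eu j hj) ew' ⟨0, 0, (hB i hAi hn0 ha).2, (hB j hAj hn0 hb).2, ?_⟩ hPL
        linear_combination e0
    obtain ⟨h1, h2⟩ := main
    rw [h1, zero_pow (by omega)] at ha hb
    exact ⟨norm_le_zero_iff.1 ha, norm_le_zero_iff.1 hb, h2⟩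
  have d0 : dP b p 0 = Ps b (p 0) (p 1 * p 2) := rfl
  have d1 : dP b p 1 = Pt b (p 0) (p 1 * p 2) * p 2 := rfl
  have d2 : dP b p 2 = Pt b (p 0) (p 1 * p 2) * p 1 := rfl
  have c0 : (0 : Fin 3).castSucc = (0 : Fin 4) := rfl
  have c1 : (1 : Fin 3).castSucc = (1 : Fin 4) := rfl
  have c2 : (2 : Fin 3).castSucc = (2 : Fin 4) := rfl
  fin_cases v
  · -- x-tube
    simp only [Fin.zero_eta] at *
    rw [c0] at hv
    have hyz := yz_le (hsm 1 (by decide)) (hsm 2 (by decide))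
    obtain ⟨h1, h2, h3⟩ := key 1 2 7 8 (by norm_num) (by norm_num) (by norm_num) (by norm_num)
      (by decide) (by decide) (by decide)
      ((hadm 1).mono (by unfold aw; cases b <;> simp))
      ((hadm 2).mono (by unfold aw; cases b <;> simp))
      (fun n hn0 hn1 ha hb hor => by
        rw [c1] at ha hor
        rw [c2] at hb hor
        have hP := Px_le b hv hyz
        have hPt := Pt_ge b hv hyz
        have ht : ‖p 1 * p 2‖ ≤ n ^ 15 := by
          rw [norm_mul]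
          calc ‖p 1‖ * ‖p 2‖ ≤ n ^ 7 * n ^ 8 := by gcongr
            _ = n ^ 15 := by ring
        refine ⟨?_, by linarith [hP.1], ?_⟩
        · rw [d1, d2, norm_mul, norm_mul]
          rcases hor with h | h
          · right
            rw [h]
            exact mul_le_mul_of_nonneg_right hPt (by positivity)
          · left
            rw [h]
            exact mul_le_mul_of_nonneg_right hPt (by positivity)
        · rw [c0, d0]
          linarith [hP.2])
      (fun f => by rw [sum_erase]; ring)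
    refine ⟨fun u hu => ?_, h3⟩
    fin_cases u
    · exact absurd rfl hu
    · exact h1
    · exact h2
  · -- y-tube
    simp only [Fin.mk_one] at *
    rw [c1] at hv
    obtain ⟨h1, h2, h3⟩ := key 0 2 (al b) (be b) (by unfold al; cases b <;> simp)
      (by unfold be; cases b <;> simp) (by unfold al; cases b <;> simp)
      (by unfold be; cases b <;> simp)
      (by decide) (by decide) (by decide)
      ((hadm 0).mono (by unfold aw al; cases b <;> simp))
      ((hadm 2).mono (by unfold aw be; cases b <;> simp))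
      (fun n hn0 hn1 ha hb hor => by
        rw [c0] at ha hor
        rw [c2] at hb hor
        have e : ‖p 1 * p 2‖ = ‖p 2‖ := by rw [norm_mul, hv, one_mul]
        rw [← e] at hb hor
        refine ⟨?_, P_le b hn0 ha hb, ?_⟩
        · rw [d0, d2, norm_mul (Pt b (p 0) (p 1 * p 2)) (p 1), hv, mul_one]
          exact low b hn0 ha hb hor
        · rw [c1, d1]
          have e2 : p 1 * (Pt b (p 0) (p 1 * p 2) * p 2) =
              (p 1 * p 2) * Pt b (p 0) (p 1 * p 2) := by ring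
          rw [e2]
          exact tPt_le b hn0 ha hb)
      (fun f => by rw [sum_erase]; ring)
    refine ⟨fun u hu => ?_, h3⟩
    fin_cases u
    · exact h1
    · exact absurd rfl hu
    · exact h2
  · -- z-tube
    simp only [Fin.reduceFinMk] at *
    rw [c2] at hv
    obtain ⟨h1, h2, h3⟩ := key 0 1 (al b) (be b) (by unfold al; cases b <;> simp)
      (by unfold be; cases b <;> simp) (by unfold al; cases b <;> simp)
      (by unfold be; cases b <;> simp)
      (by decide) (by decide) (by decide)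
      ((hadm 0).mono (by unfold aw al; cases b <;> simp))
      ((hadm 1).mono (by unfold aw be; cases b <;> simp))
      (fun n hn0 hn1 ha hb hor => by
        rw [c0] at ha hor
        rw [c1] at hb hor
        have e : ‖p 1 * p 2‖ = ‖p 1‖ := by rw [norm_mul, hv, mul_one]
        rw [← e] at hb hor
        refine ⟨?_, P_le b hn0 ha hb, ?_⟩
        · rw [d0, d1, norm_mul (Pt b (p 0) (p 1 * p 2)) (p 2), hv, mul_one]
          exact low b hn0 ha hb hor
        · rw [c2, d2]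
          have e2 : p 2 * (Pt b (p 0) (p 1 * p 2) * p 1) =
              (p 1 * p 2) * Pt b (p 0) (p 1 * p 2) := by ring
          rw [e2]
          exact tPt_le b hn0 ha hb)
      (fun f => by rw [sum_erase]; ring)
    refine ⟨fun u hu => ?_, h3⟩
    fin_cases u
    · exact h1
    · exact h2
    · exact absurd rfl hu

end

end Crest.Agent.R267.NdT3_484
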