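import Mathlib
import Crest.Agent.R267.NdS_484
import Crest.Agent.R267.NdT3_484

/-!
# S0406, T3N entrance, leaf ENT-C: isolated critical point of `f_M`, `M` large (helper610)

* `iso_crit_of` : for `M ≥ M1` the polynomial function `pf b T c M` has an isolated critical point
  at `0` (the arm inequality `pl_arm` is a hypothesis).
-/

set_option autoImplicit false
set_option linter.unusedSectionVars false

noncomputable section

open Set Filter Topology Finset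
open Crest.Agent.R267.NdP_484 Crest.Agent.R267.NdR_484 Crest.Agent.R267.NdQ_484
open Crest.Agent.R267.NdS_484

namespace Crest.Agent.R267.EntC_610

/-! ### scaling -/

/-- weighted dilation. -/
def sc (b : Bool) (ρ : ℝ) (p : E4) : E4 :=
  ![(ρ : ℂ) ^ aw b 0 * p 0, (ρ : ℂ) ^ aw b 1 * p 1, (ρ : ℂ) ^ aw b 2 * p 2, (ρ : ℂ) * p 3]

theorem sc_c (b : Bool) (ρ : ℝ) (p : E4) (v : Fin 3) :
    sc b ρ p v.castSucc = (ρ : ℂ) ^ aw b v * p v.castSucc := by
  fin_cases v <;> rfl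

theorem sc_3 (b : Bool) (ρ : ℝ) (p : E4) : sc b ρ p 3 = (ρ : ℂ) * p 3 := rfl

theorem aw_le (b : Bool) (v : Fin 3) : aw b v ≤ 15 := by
  unfold aw; cases b <;> fin_cases v <;> simp

theorem aw_bw (b : Bool) (v : Fin 3) : aw b v * (2 * bw b v) = 60 := by
  unfold aw bw; cases b <;> fin_cases v <;> simp

theorem g_sc (b : Bool) (v : Fin 3) {ρ : ℝ} (hρ : 0 ≤ ρ) (p : E4) :
    g b v (sc b ρ p) = ρ ^ 60 * g b v p := by
  unfold g
  rw [sc_c, norm_mul, mul_pow, norm_pow, Complex.norm_real, Real.norm_eq_abs, abs_of_nonneg hρ,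
    ← pow_mul, aw_bw]

theorem N_sc (b : Bool) {ρ : ℝ} (hρ : 0 ≤ ρ) (p : E4) : N b (sc b ρ p) = ρ ^ 60 * N b p := by
  unfold N
  rw [Finset.mul_sum]
  exact Finset.sum_congr rfl fun v _ => g_sc b v hρ p

theorem sc_inv (b : Bool) {ρ : ℝ} (hρ : 0 < ρ) (p : E4) : sc b ρ (sc b ρ⁻¹ p) = p := by
  have h : (ρ : ℂ) ≠ 0 := Complex.ofReal_ne_zero.2 hρ.ne'
  funext i
  refine Fin.lastCases ?_ (fun v => ?_) i
  · change sc b ρ (sc b ρ⁻¹ p) 3 = p 3
    rw [sc_3, sc_3, ← mul_assoc]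
    push_cast
    rw [mul_inv_cancel₀ h, one_mul]
  · rw [sc_c, sc_c, ← mul_assoc, ← mul_pow]
    push_cast
    rw [mul_inv_cancel₀ h, one_pow, one_mul]

theorem Ev_scale {a : ℕ} {T : Finset (ℕ × ℕ)} {c : ℕ × ℕ → ℂ} (hT : Adm a T) (ha : a ≤ 15)
    (ρ : ℝ) (v w : ℂ) :
    Ev T c ((ρ : ℂ) ^ a * v) ((ρ : ℂ) * w) = (ρ : ℂ) ^ (15 - a) * Ev T (cz a c ρ) v w := by
  unfold Ev
  rw [Finset.mul_sum]
  refine Finset.sum_congr rfl fun p hp => ?_
  obtain ⟨h1, -, h3⟩ := hT p hp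
  unfold cz
  have e : a * (p.1 - 1) + p.2 = (15 - a) + ex a p := by
    unfold ex
    obtain ⟨k, hk⟩ := Nat.exists_eq_add_of_le h1
    rw [hk] at h3 ⊢
    have : a * (1 + k) = a + a * k := by ring
    rw [this] at h3 ⊢
    have : 1 + k - 1 = k := by omega
    rw [this]
    omega
  calc c p * ((p.1 : ℂ) * ((ρ : ℂ) ^ a * v) ^ (p.1 - 1) * ((ρ : ℂ) * w) ^ p.2)
      = (ρ : ℂ) ^ (a * (p.1 - 1) + p.2) * (c p * ((p.1 : ℂ) * v ^ (p.1 - 1) * w ^ p.2)) := by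
        rw [mul_pow, mul_pow, ← pow_mul, pow_add]; ring
    _ = _ := by rw [e, pow_add]; ring

theorem Ew_scale {a : ℕ} {T : Finset (ℕ × ℕ)} {c : ℕ × ℕ → ℂ} (hT : Adm a T)
    (ρ : ℝ) (v w : ℂ) :
    Ew T c ((ρ : ℂ) ^ a * v) ((ρ : ℂ) * w) = (ρ : ℂ) ^ 14 * Ew T (cz a c ρ) v w := by
  unfold Ew
  rw [Finset.mul_sum]
  refine Finset.sum_congr rfl fun p hp => ?_
  obtain ⟨-, -, h3⟩ := hT p hp
  unfold cz
  rcases Nat.eq_zero_or_pos p.2 with h0 | h0
  · rw [h0]; simp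
  · have e : a * p.1 + (p.2 - 1) = 14 + ex a p := by
      unfold ex
      omega
    calc c p * (((ρ : ℂ) ^ a * v) ^ p.1 * ((p.2 : ℂ) * ((ρ : ℂ) * w) ^ (p.2 - 1)))
        = (ρ : ℂ) ^ (a * p.1 + (p.2 - 1)) * (c p * (v ^ p.1 * ((p.2 : ℂ) * w ^ (p.2 - 1)))) := by
          rw [mul_pow, mul_pow, ← pow_mul, pow_add]; ring
      _ = _ := by rw [e, pow_add]; ring

theorem dP_scale (b : Bool) (ρ : ℝ) (p : E4) (v : Fin 3) :
    dP b (sc b ρ p) v = (ρ : ℂ) ^ (15 - aw b v) * dP b p v := by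
  have h0 : sc b ρ p 0 = (ρ : ℂ) ^ aw b 0 * p 0 := rfl
  have h1 : sc b ρ p 1 = (ρ : ℂ) ^ aw b 1 * p 1 := rfl
  have h2 : sc b ρ p 2 = (ρ : ℂ) ^ aw b 2 * p 2 := rfl
  unfold dP
  rw [h0, h1, h2]
  unfold Ps Pt aw
  cases b <;> fin_cases v <;> simp <;> ring

variable {b : Bool} {T : Fin 3 → Finset (ℕ × ℕ)} {c : Fin 3 → ℕ × ℕ → ℂ}

theorem crit_scale (hd : ∀ v, ArmDat (aw b v) (T v) (c v)) {M ρ : ℝ} (hρ : 0 < ρ) {p : E4}
    (h : ∀ v, dpf b T c M (sc b ρ p) v = 0) (hw : dpw T c (sc b ρ p) = 0) :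
    (∀ v, M * dP b p v + Ev (T v) (cz (aw b v) (c v) ρ) (p v.castSucc) (p 3) = 0) ∧
      15 * p 3 ^ 14 + ∑ v, Ew (T v) (cz (aw b v) (c v) ρ) (p v.castSucc) (p 3) = 0 := by
  have hρ' : (ρ : ℂ) ≠ 0 := Complex.ofReal_ne_zero.2 hρ.ne'
  constructor
  · intro v
    have h1 := h v
    unfold dpf at h1
    rw [dP_scale, sc_c, sc_3, Ev_scale (hd v).adm (aw_le b v)] at h1
    have h2 : (ρ : ℂ) ^ (15 - aw b v) *
        (M * dP b p v + Ev (T v) (cz (aw b v) (c v) ρ) (p v.castSucc) (p 3)) = 0 := by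
      rw [← h1]; ring
    exact (mul_eq_zero.1 h2).resolve_left (pow_ne_zero _ hρ')
  · unfold dpw at hw
    have h1 : ∑ v, Ew (T v) (c v) (sc b ρ p v.castSucc) (sc b ρ p 3) =
        (ρ : ℂ) ^ 14 * ∑ v, Ew (T v) (cz (aw b v) (c v) ρ) (p v.castSucc) (p 3) := by
      rw [Finset.mul_sum]
      refine Finset.sum_congr rfl fun v _ => ?_
      rw [sc_c, sc_3, Ew_scale (hd v).adm]
    rw [h1, sc_3] at hw
    have h2 : (ρ : ℂ) ^ 14 *
        (15 * p 3 ^ 14 + ∑ v, Ew (T v) (cz (aw b v) (c v) ρ) (p v.castSucc) (p 3)) = 0 := by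
      rw [← hw]; ring
    exact (mul_eq_zero.1 h2).resolve_left (pow_ne_zero _ hρ')

/-! ### the core outside the tubes -/

theorem D_one (b : Bool) (p : E4) : Amal_52.D b 1 1 p = dP b p := by
  have h1 : ∀ s t, Amal_52.P2s b 1 1 s t = Ps b s t := by
    intro s t
    unfold Amal_52.P2s Ps
    cases b <;> simp only [cond_true, cond_false] <;> ring
  have h2 : ∀ s t, Amal_52.P2t b 1 1 s t = Pt b s t := by
    intro s t
    unfold Amal_52.P2t Pt
    cases b <;> simp only [cond_true, cond_false] <;> ring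
  unfold Amal_52.D dP
  rw [h1, h2]

theorem continuous_dP (b : Bool) (i : Fin 3) : Continuous fun p : E4 => dP b p i := by
  unfold dP Ps Pt
  cases b <;> fin_cases i <;> simp <;> fun_prop

theorem core_low (b : Bool) : ∃ c0 : ℝ, 0 < c0 ∧ ∀ p : E4, N b p = 1 → (∀ v, g b v p ≤ t1) →
    ∃ i, c0 ≤ ‖dP b p i‖ := by
  set K : Set E4 := {p | N b p = 1 ∧ (∀ v, g b v p ≤ t1) ∧ p 3 = 0} with hK
  have hKc : IsCompact K := by
    refine Metric.isCompact_of_isClosed_isBounded ?_ ?_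
    · have h1 : IsClosed {p : E4 | N b p = 1} :=
        isClosed_eq (Amal_52.continuous_N b) continuous_const
      have h2 : IsClosed {p : E4 | ∀ v, g b v p ≤ t1} := by
        simp only [Set.ofPred_forall]
        exact isClosed_iInter fun v => isClosed_le (Amal_52.continuous_g b v) continuous_const
      have h3 : IsClosed {p : E4 | p 3 = 0} := isClosed_eq (continuous_apply 3) continuous_const
      exact h1.inter (h2.inter h3)
    · refine (Metric.isBounded_closedBall (x := (0 : E4)) (r := 1)).subset ?_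
      intro p hp
      rw [mem_closedBall_zero_iff, pi_norm_le_iff_of_nonneg zero_le_one]
      intro i
      refine Fin.lastCases ?_ (fun v => ?_) i
      · change ‖p 3‖ ≤ 1
        rw [hp.2.2, norm_zero]; exact zero_le_one
      · exact Amal_52.norm_le_one hp.1 v
  have hcont : Continuous fun p : E4 => ∑ i, ‖dP b p i‖ :=
    continuous_finsetSum _ fun i _ => (continuous_dP b i).norm
  have hpos : ∀ p ∈ K, 0 < ∑ i, ‖dP b p i‖ := by
    intro p hp
    obtain ⟨i, hi⟩ := Amal_52.outside (b := b) one_ne_zero one_ne_zero hp.1 hp.2.1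
    rw [D_one] at hi
    exact Finset.sum_pos' (fun i _ => norm_nonneg _) ⟨i, Finset.mem_univ i, norm_pos_iff.2 hi⟩
  obtain ⟨m, hm, hmK⟩ : ∃ m : ℝ, 0 < m ∧ ∀ p ∈ K, m ≤ ∑ i, ‖dP b p i‖ := by
    rcases K.eq_empty_or_nonempty with h | h
    · exact ⟨1, one_pos, fun p hp => by rw [h] at hp; exact absurd hp (notMem_empty _)⟩
    · obtain ⟨q, hq, hq'⟩ := hKc.exists_isMinOn h hcont.continuousOn
      exact ⟨_, hpos q hq, fun p hp => hq' hp⟩
  refine ⟨m / 3, by positivity, fun p hN hg => ?_⟩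
  have hu : ∀ v : Fin 3, Function.update p 3 0 v.castSucc = p v.castSucc := by
    intro v
    refine Function.update_of_ne ?_ _ _
    fin_cases v <;> decide
  have hgu : ∀ v, g b v (Function.update p 3 0) = g b v p := fun v => by unfold g; rw [hu]
  have hNu : N b (Function.update p 3 0) = 1 := by
    rw [← hN]; unfold N; exact Finset.sum_congr rfl fun v _ => hgu v
  have hdu : dP b (Function.update p 3 0) = dP b p := by
    unfold dP
    have e0 := hu 0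
    have e1 := hu 1
    have e2 := hu 2
    change Function.update p 3 0 0 = p 0 at e0
    change Function.update p 3 0 1 = p 1 at e1
    change Function.update p 3 0 2 = p 2 at e2
    rw [e0, e1, e2]
  have hmem : Function.update p 3 0 ∈ K :=
    ⟨hNu, fun v => by rw [hgu]; exact hg v, Function.update_self _ _ _⟩
  have h1 := hmK _ hmem
  rw [hdu] at h1
  by_contra hc
  push Not at hc
  have h2 : ∑ i, ‖dP b p i‖ < ∑ _i : Fin 3, m / 3 :=
    Finset.sum_lt_sum_of_nonempty Finset.univ_nonempty fun i _ => hc i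
  rw [Finset.sum_const, Finset.card_univ, Fintype.card_fin, nsmul_eq_mul] at h2
  have h3 : ((3 : ℕ) : ℝ) * (m / 3) = m := by push_cast; ring
  linarith

/-! ### crude bounds of the arms -/

theorem cz_le {a : ℕ} {c : ℕ × ℕ → ℂ} {r : ℝ} (h0 : 0 ≤ r) (h1 : r ≤ 1) (q : ℕ × ℕ) :
    ‖cz a c r q‖ ≤ ‖c q‖ := by
  unfold cz
  rw [norm_mul, norm_pow, Complex.norm_real, Real.norm_eq_abs, abs_of_nonneg h0]
  exact mul_le_of_le_one_right (norm_nonneg _) (pow_le_one₀ h0 h1)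

theorem Ev_crude {a : ℕ} {T : Finset (ℕ × ℕ)} {c : ℕ × ℕ → ℂ} (hT : Adm a T) {r : ℝ}
    (h0 : 0 ≤ r) (h1 : r ≤ 1) {v w : ℂ} (hv : ‖v‖ ≤ 1) :
    ‖Ev T (cz a c r) v w‖ ≤ Kc T c * (1 + ‖w‖) ^ 14 := by
  unfold Ev Kc
  rw [Finset.sum_mul]
  refine (norm_sum_le _ _).trans (Finset.sum_le_sum fun p hp => ?_)
  obtain ⟨-, h2, -⟩ := hT p hp
  rw [norm_mul, norm_mul, norm_mul, norm_pow, norm_pow, Complex.norm_natCast]
  have hw := norm_nonneg w
  have k1 : ‖v‖ ^ (p.1 - 1) ≤ 1 := pow_le_one₀ (norm_nonneg _) hv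
  have k2 : ‖w‖ ^ p.2 ≤ (1 + ‖w‖) ^ 14 := by
    calc ‖w‖ ^ p.2 ≤ (1 + ‖w‖) ^ p.2 := by gcongr; linarith
      _ ≤ (1 + ‖w‖) ^ 14 := pow_le_pow_right₀ (by linarith) h2
  have k3 := cz_le (a := a) (c := c) h0 h1 p
  calc ‖cz a c r p‖ * ((p.1 : ℝ) * ‖v‖ ^ (p.1 - 1) * ‖w‖ ^ p.2)
      ≤ ‖c p‖ * ((p.1 : ℝ) * 1 * (1 + ‖w‖) ^ 14) := by gcongr
    _ = ((p.1 : ℝ) * ‖c p‖) * (1 + ‖w‖) ^ 14 := by ring
    _ ≤ (((p.1 : ℝ) + p.2 + 1) * ‖c p‖) * (1 + ‖w‖) ^ 14 := by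
        gcongr
        have : (0 : ℝ) ≤ p.2 := Nat.cast_nonneg _
        linarith

theorem Ew_crude {a : ℕ} {T : Finset (ℕ × ℕ)} {c : ℕ × ℕ → ℂ} (hT : Adm a T) {r : ℝ}
    (h0 : 0 ≤ r) (h1 : r ≤ 1) {v w : ℂ} (hv : ‖v‖ ≤ 1) (hw : 1 ≤ ‖w‖) :
    ‖Ew T (cz a c r) v w‖ ≤ Kc T c * ‖w‖ ^ 13 := by
  unfold Ew Kc
  rw [Finset.sum_mul]
  refine (norm_sum_le _ _).trans (Finset.sum_le_sum fun p hp => ?_)
  obtain ⟨-, h2, -⟩ := hT p hp
  rw [norm_mul, norm_mul, norm_mul, norm_pow, norm_pow, Complex.norm_natCast]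
  have k1 : ‖v‖ ^ p.1 ≤ 1 := pow_le_one₀ (norm_nonneg _) hv
  have k2 : ‖w‖ ^ (p.2 - 1) ≤ ‖w‖ ^ 13 := pow_le_pow_right₀ hw (by omega)
  have k3 := cz_le (a := a) (c := c) h0 h1 p
  calc ‖cz a c r p‖ * (‖v‖ ^ p.1 * ((p.2 : ℝ) * ‖w‖ ^ (p.2 - 1)))
      ≤ ‖c p‖ * (1 * ((p.2 : ℝ) * ‖w‖ ^ 13)) := by gcongr
    _ = ((p.2 : ℝ) * ‖c p‖) * ‖w‖ ^ 13 := by ring
    _ ≤ (((p.1 : ℝ) + p.2 + 1) * ‖c p‖) * ‖w‖ ^ 13 := by
        gcongr
        have : (0 : ℝ) ≤ p.1 := Nat.cast_nonneg _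
        linarith

/-- outside the tubes there is no critical point. -/
theorem no_crit_out (hd : ∀ v, ArmDat (aw b v) (T v) (c v)) {C c0 M r : ℝ}
    (hC : ∀ v, Kc (T v) (c v) ≤ C) (hM : C * (C + 2) ^ 14 < M * c0) (hM0 : 0 < M)
    (hr0 : 0 ≤ r) (hr1 : r ≤ 1) {p : E4} (hN : N b p = 1) {i : Fin 3} (hi : c0 ≤ ‖dP b p i‖)
    (hv : ∀ v, M * dP b p v + Ev (T v) (cz (aw b v) (c v) r) (p v.castSucc) (p 3) = 0)
    (hw : 15 * p 3 ^ 14 + ∑ v, Ew (T v) (cz (aw b v) (c v) r) (p v.castSucc) (p 3) = 0) :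
    False := by
  have hC0 : 0 ≤ C := (Kc_nonneg _ _).trans (hC 0)
  have hle := fun v => Amal_52.norm_le_one hN v
  have hwb : ‖p 3‖ ≤ C + 1 := by
    by_contra hc
    push Not at hc
    have h1 : 1 ≤ ‖p 3‖ := by linarith
    have h2 : ‖∑ v, Ew (T v) (cz (aw b v) (c v) r) (p v.castSucc) (p 3)‖ ≤
        3 * (C * ‖p 3‖ ^ 13) := by
      refine (norm_sum_le _ _).trans ?_
      calc ∑ v, ‖Ew (T v) (cz (aw b v) (c v) r) (p v.castSucc) (p 3)‖
          ≤ ∑ _v : Fin 3, C * ‖p 3‖ ^ 13 := Finset.sum_le_sum fun v _ =>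
            (Ew_crude (hd v).adm hr0 hr1 (hle v) h1).trans
              (mul_le_mul_of_nonneg_right (hC v) (by positivity))
        _ = 3 * (C * ‖p 3‖ ^ 13) := by
            rw [Finset.sum_const, Finset.card_univ, Fintype.card_fin, nsmul_eq_mul]
            push_cast; ring
    have h3 : ‖(15 : ℂ) * p 3 ^ 14‖ =
        ‖∑ v, Ew (T v) (cz (aw b v) (c v) r) (p v.castSucc) (p 3)‖ := by
      rw [show (15 : ℂ) * p 3 ^ 14 =
        -∑ v, Ew (T v) (cz (aw b v) (c v) r) (p v.castSucc) (p 3) by linear_combination hw,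
        norm_neg]
    rw [norm_mul, norm_pow, Complex.norm_ofNat] at h3
    have h4 : 15 * ‖p 3‖ ^ 14 ≤ 3 * (C * ‖p 3‖ ^ 13) := h3.le.trans h2
    have h5 : 0 < ‖p 3‖ ^ 13 := by positivity
    have h6 : 15 * ‖p 3‖ ^ 14 = (15 * ‖p 3‖) * ‖p 3‖ ^ 13 := by ring
    have h7 : 3 * (C * ‖p 3‖ ^ 13) = (3 * C) * ‖p 3‖ ^ 13 := by ring
    rw [h6, h7] at h4
    have h8 := le_of_mul_le_mul_right h4 h5
    linarith
  have h1 : M * ‖dP b p i‖ ≤ C * (C + 2) ^ 14 := by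
    have e : (M : ℂ) * dP b p i = -Ev (T i) (cz (aw b i) (c i) r) (p i.castSucc) (p 3) := by
      linear_combination hv i
    have e2 := congrArg norm e
    rw [norm_mul, norm_neg, Complex.norm_real, Real.norm_eq_abs, abs_of_pos hM0] at e2
    rw [e2]
    refine (Ev_crude (hd i).adm hr0 hr1 (hle i)).trans ?_
    have h9 := norm_nonneg (p 3)
    have : (1 + ‖p 3‖) ^ 14 ≤ (C + 2) ^ 14 :=
      pow_le_pow_left₀ (by linarith) (by linarith) 14
    exact mul_le_mul (hC i) this (by positivity) hC0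
  have h2 : M * c0 ≤ M * ‖dP b p i‖ := mul_le_mul_of_nonneg_left hi hM0.le
  linarith

/-! ### the tubes -/

theorem dP_zero {b : Bool} {p : E4} {v : Fin 3} (h : ∀ u, u ≠ v → p u.castSucc = 0) :
    dP b p v = 0 := by
  have e : ∀ u : Fin 3, u ≠ v → p u.castSucc = 0 := h
  fin_cases v
  · have h1 : p 1 = 0 := e 1 (by decide)
    have h2 : p 2 = 0 := e 2 (by decide)
    change Ps b (p 0) (p 1 * p 2) = 0
    rw [h1]
    unfold Ps; cases b <;> simp
  · have h2 : p 2 = 0 := e 2 (by decide)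
    change Pt b (p 0) (p 1 * p 2) * p 2 = 0
    rw [h2, mul_zero]
  · have h1 : p 1 = 0 := e 1 (by decide)
    change Pt b (p 0) (p 1 * p 2) * p 1 = 0
    rw [h1]
    exact mul_zero _

/-- in the `v`-tube there is no critical point. -/
theorem no_crit_tube (hd : ∀ v, ArmDat (aw b v) (T v) (c v)) {κ C M r : ℝ} (hκ : 0 < κ)
    (hC : ∀ v, Kc (T v) (c v) ≤ C)
    (hM : ∃ eta : ℝ, 0 < eta ∧ eta ≤ 1 ∧ 100 * (C + 1) * eta ≤ κ ∧
      16 * (C + 1) * (1 / eta) ^ 14 < M)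
    (hr0 : 0 ≤ r) (hr1 : r ≤ 1) (v : Fin 3) {p : E4} (hpv : ‖p v.castSucc‖ = 1)
    (hsm : ∀ u, u ≠ v → g b u p ≤ (1 / 2) ^ 40)
    (hpl : κ * ‖p 3‖ ^ 15 ≤ max ‖p v.castSucc * Ev (T v) (cz (aw b v) (c v) r) (p v.castSucc) (p 3)‖
        ‖15 * p 3 ^ 15 + p 3 * Ew (T v) (cz (aw b v) (c v) r) (p v.castSucc) (p 3)‖ ∧
      0 < max ‖p v.castSucc * Ev (T v) (cz (aw b v) (c v) r) (p v.castSucc) (p 3)‖
        ‖15 * p 3 ^ 15 + p 3 * Ew (T v) (cz (aw b v) (c v) r) (p v.castSucc) (p 3)‖)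
    (hv : ∀ v, M * dP b p v + Ev (T v) (cz (aw b v) (c v) r) (p v.castSucc) (p 3) = 0)
    (hw : 15 * p 3 ^ 14 + ∑ v, Ew (T v) (cz (aw b v) (c v) r) (p v.castSucc) (p 3) = 0) :
    False := by
  obtain ⟨h1, h2⟩ := NdT3_484.tube3 hd hκ hC hM hr0 hr1 (s := 1) (by simp) v hpv hsm
    (KK := p v.castSucc * Ev (T v) (cz (aw b v) (c v) r) (p v.castSucc) (p 3))
    (Kw := 15 * p 3 ^ 15 + p 3 * Ew (T v) (cz (aw b v) (c v) r) (p v.castSucc) (p 3))
    (fun u _ => by rw [Complex.ofReal_one, one_mul]; exact hv u)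
    (by
      rw [NdT3_484.sum_erase, Complex.ofReal_one, one_mul]
      rw [Fin.sum_univ_three] at hw
      linear_combination (p 3) * hw)
    (Or.inr (by linear_combination (p v.castSucc) * hv v))
    hpl.1
  have hpos := hpl.2
  have e1 : Ev (T v) (cz (aw b v) (c v) r) (p v.castSucc) (p 3) = 0 := by
    have := hv v
    rw [dP_zero h1, mul_zero, zero_add] at this
    exact this
  rw [e1, h2] at hpos
  simp at hpos

theorem exists_rho {b : Bool} (v : Fin 3) {x : ℂ} (hx : x ≠ 0) :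
    ∃ ρ : ℝ, 0 < ρ ∧ ρ ^ aw b v = ‖x‖ := by
  refine ⟨‖x‖ ^ ((aw b v : ℝ)⁻¹), Real.rpow_pos_of_pos (norm_pos_iff.2 hx) _, ?_⟩
  exact Real.rpow_inv_natCast_pow (norm_nonneg _) (by have := Amal_52.aw_pos b v; omega)

/-- the statement of the arm inequality (second half of `pl_arm`). -/
def PL (a : ℕ) (T : Finset (ℕ × ℕ)) (c : ℕ × ℕ → ℂ) : Prop :=
  ∃ κ > 0, ∃ r1 > 0, r1 ≤ 1 / 2 ∧ ∀ r, 0 < r → r ≤ r1 → ∀ v w : ℂ, ‖v‖ = 1 →
    (κ * ‖w‖ ^ 15 ≤ max ‖v * Ev T (cz a c r) v w‖ ‖15 * w ^ 15 + w * Ew T (cz a c r) v w‖ ∧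
      0 < max ‖v * Ev T (cz a c r) v w‖ ‖15 * w ^ 15 + w * Ew T (cz a c r) v w‖)

/-- **isolated critical point** (arm inequality as a hypothesis). -/
theorem iso_crit_of (hd : ∀ v, ArmDat (aw b v) (T v) (c v))
    (hpl : ∀ v, PL (aw b v) (T v) (c v)) :
    ∃ M1 > 0, ∀ M ≥ M1, ∀ᶠ p in 𝓝[≠] (0 : E4), (∃ v, dpf b T c M p v ≠ 0) ∨ dpw T c p ≠ 0 := by
  unfold PL at hpl
  choose κ hκ r1 hr1 hr1' hPL using hpl
  obtain ⟨κ0, hκ0, hκle⟩ : ∃ κ0 : ℝ, 0 < κ0 ∧ ∀ v, κ0 ≤ κ v := by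
    refine ⟨min (κ 0) (min (κ 1) (κ 2)), lt_min (hκ 0) (lt_min (hκ 1) (hκ 2)), fun v => ?_⟩
    fin_cases v
    · exact min_le_left _ _
    · exact (min_le_right _ _).trans (min_le_left _ _)
    · exact (min_le_right _ _).trans (min_le_right _ _)
  obtain ⟨c0, hc0, hcore⟩ := core_low b
  set C : ℝ := ∑ v, Kc (T v) (c v) with hCdef
  have hC : ∀ v, Kc (T v) (c v) ≤ C := fun v =>
    Finset.single_le_sum (f := fun v => Kc (T v) (c v)) (fun v _ => Kc_nonneg _ _)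
      (Finset.mem_univ v)
  have hC0 : 0 ≤ C := (Kc_nonneg _ _).trans (hC 0)
  set eta : ℝ := min 1 (κ0 / (100 * (C + 1))) with heta
  have heta0 : 0 < eta := lt_min one_pos (by positivity)
  have heta1 : eta ≤ 1 := min_le_left _ _
  have heta2 : 100 * (C + 1) * eta ≤ κ0 := by
    have h1 : eta ≤ κ0 / (100 * (C + 1)) := min_le_right _ _
    rw [le_div_iff₀ (by positivity)] at h1
    linarith
  have hA0 : 0 ≤ 16 * (C + 1) * (1 / eta) ^ 14 := by positivity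
  have hB0 : 0 ≤ C * (C + 2) ^ 14 / c0 := by positivity
  refine ⟨16 * (C + 1) * (1 / eta) ^ 14 + C * (C + 2) ^ 14 / c0 + 1, by positivity,
    fun M hM => ?_⟩
  have hMeta : 16 * (C + 1) * (1 / eta) ^ 14 < M := by linarith
  have hM0 : 0 < M := by linarith
  have hMc : C * (C + 2) ^ 14 < M * c0 := by
    have : C * (C + 2) ^ 14 / c0 < M := by linarith
    rwa [div_lt_iff₀ hc0] at this
  -- smallness
  have ev1 : ∀ᶠ p in 𝓝 (0 : E4), ∀ v : Fin 3, ‖p v.castSucc‖ < r1 v ^ aw b v := by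
    rw [Filter.eventually_all]
    intro v
    have h1 : Continuous fun p : E4 => ‖p v.castSucc‖ := (continuous_apply _).norm
    have h2 : ‖(0 : E4) v.castSucc‖ < r1 v ^ aw b v := by
      rw [Pi.zero_apply, norm_zero]
      exact pow_pos (hr1 v) _
    exact h1.continuousAt.eventually_lt continuousAt_const h2
  have ev2 : ∀ᶠ p in 𝓝 (0 : E4), N b p < 1 := by
    have h2 : N b (0 : E4) < 1 := by
      rw [Amal_52.N_eq_zero.2 fun v => rfl]; exact one_pos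
    exact (Amal_52.continuous_N b).continuousAt.eventually_lt continuousAt_const h2
  rw [eventually_nhdsWithin_iff]
  filter_upwards [ev1, ev2] with p hp1 hp2 hp0
  by_contra hcon
  push Not at hcon
  obtain ⟨hf, hw⟩ := hcon
  rcases (Amal_52.N_nonneg b p).eq_or_lt with hN0 | hNpos
  · -- the hub coordinates vanish
    have hz := Amal_52.N_eq_zero.1 hN0.symm
    have h1 : ∀ v, Ew (T v) (c v) (p v.castSucc) (p 3) = 0 := by
      intro v
      rw [hz v]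
      unfold Ew
      refine Finset.sum_eq_zero fun q hq => ?_
      have := ((hd v).adm q hq).1
      rw [zero_pow (by omega), zero_mul, mul_zero]
    unfold dpw at hw
    rw [Finset.sum_eq_zero fun v _ => h1 v, add_zero] at hw
    have h3 : p 3 = 0 := by
      have := (mul_eq_zero.1 hw).resolve_left (by norm_num)
      exact pow_eq_zero_iff (by norm_num) |>.1 this
    refine hp0 ?_
    rw [mem_singleton_iff]
    funext i
    exact Fin.lastCases h3 (fun v => hz v) i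
  by_cases htube : ∃ v, t1 * N b p < g b v p
  · -- a tube
    obtain ⟨v, hv⟩ := htube
    have ht1 : 0 < t1 := by linarith [Amal_52.lt_t1]
    have hgv : 0 < g b v p := lt_trans (mul_pos ht1 hNpos) hv
    have hpv : p v.castSucc ≠ 0 := fun h => hgv.ne' (Amal_52.g_eq_zero.2 h)
    obtain ⟨ρ, hρ, hρv⟩ := exists_rho (b := b) v hpv
    have haw := Amal_52.aw_pos b v
    have hρ1 : ρ ≤ r1 v := by
      by_contra hc
      push Not at hc
      have : r1 v ^ aw b v < ρ ^ aw b v := pow_lt_pow_left₀ hc (hr1 v).le (by omega)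
      rw [hρv] at this
      exact lt_asymm this (hp1 v)
    have hρle : ρ ≤ 1 := hρ1.trans ((hr1' v).trans (by norm_num))
    set p' := sc b ρ⁻¹ p with hp'
    have hpp : sc b ρ p' = p := sc_inv b hρ p
    rw [← hpp] at hf hw
    obtain ⟨e1, e2⟩ := crit_scale hd hρ hf hw
    have hn1 : ‖p' v.castSucc‖ = 1 := by
      have h1 : ‖p v.castSucc‖ = ρ ^ aw b v * ‖p' v.castSucc‖ := by
        conv_lhs => rw [← hpp, sc_c, norm_mul, norm_pow, Complex.norm_real, Real.norm_eq_abs,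
          abs_of_pos hρ]
      rw [← hρv] at h1
      have h2 : 0 < ρ ^ aw b v := pow_pos hρ _
      have h3 : ρ ^ aw b v * ‖p' v.castSucc‖ = ρ ^ aw b v * 1 := by rw [mul_one]; exact h1.symm
      exact mul_left_cancel₀ h2.ne' h3
    have hg1 : g b v p' = 1 := by unfold g; rw [hn1, one_pow]
    have hρ60 : 0 < ρ ^ 60 := pow_pos hρ _
    have hNp' : t1 * N b p' < 1 := by
      have h1 : t1 * N b p < g b v p := hv
      rw [← hpp, N_sc b hρ.le, g_sc b v hρ.le, hg1, mul_one] at h1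
      have h2 : (t1 * N b p') * ρ ^ 60 < 1 * ρ ^ 60 := by rw [one_mul]; linarith
      exact lt_of_mul_lt_mul_right h2 hρ60.le
    have hsm : ∀ u, u ≠ v → g b u p' ≤ (1 / 2) ^ 40 := by
      intro u hu
      have h1 : g b u p' + g b v p' ≤ N b p' := by
        unfold N
        have := Finset.sum_le_sum_of_subset_of_nonneg (f := fun v => g b v p')
          (Finset.subset_univ ({u, v} : Finset (Fin 3))) (fun i _ _ => Amal_52.g_nonneg b i p')
        rwa [Finset.sum_pair hu] at this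
      rw [hg1] at h1
      have h2 : t1 * (g b u p' + 1) < 1 :=
        lt_of_le_of_lt (mul_le_mul_of_nonneg_left h1 ht1.le) hNp'
      have h3 := Amal_52.g_nonneg b u p'
      unfold t1 at h2
      by_contra hc
      push Not at hc
      have h4 : (1 - (1 / 2 : ℝ) ^ 41) * ((1 / 2) ^ 40 + 1) < 1 := by
        refine lt_trans ?_ h2
        have : (0 : ℝ) < 1 - (1 / 2) ^ 41 := by norm_num
        exact mul_lt_mul_of_pos_left (by linarith) this
      norm_num at h4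
    exact no_crit_tube hd (κ := κ v) (hκ v) hC ⟨eta, heta0, heta1, heta2.trans (hκle v), hMeta⟩
      hρ.le hρle v hn1 hsm (hPL v ρ hρ hρ1 _ _ hn1) e1 e2
  · -- outside
    push Not at htube
    obtain ⟨ρ, hρ, hρN⟩ : ∃ ρ : ℝ, 0 < ρ ∧ ρ ^ 60 = N b p := by
      refine ⟨N b p ^ (((60 : ℕ) : ℝ)⁻¹), Real.rpow_pos_of_pos hNpos _, ?_⟩
      exact Real.rpow_inv_natCast_pow hNpos.le (by norm_num)
    have hρle : ρ ≤ 1 := by
      by_contra hc
      push Not at hc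
      have : 1 < ρ ^ 60 := one_lt_pow₀ hc (by norm_num)
      rw [hρN] at this
      exact lt_asymm this hp2
    set p' := sc b ρ⁻¹ p with hp'
    have hpp : sc b ρ p' = p := sc_inv b hρ p
    have hρ60 : 0 < ρ ^ 60 := pow_pos hρ _
    have hN1 : N b p' = 1 := by
      have h1 : N b p = ρ ^ 60 * N b p' := by conv_lhs => rw [← hpp, N_sc b hρ.le]
      rw [← hρN] at h1
      have h3 : ρ ^ 60 * N b p' = ρ ^ 60 * 1 := by rw [mul_one]; exact h1.symm
      exact mul_left_cancel₀ hρ60.ne' h3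
    have hg : ∀ v, g b v p' ≤ t1 := by
      intro v
      have h1 := htube v
      rw [← hpp, N_sc b hρ.le, g_sc b v hρ.le, hN1, mul_one] at h1
      have h2 : g b v p' * ρ ^ 60 ≤ t1 * ρ ^ 60 := by linarith
      exact le_of_mul_le_mul_right h2 hρ60
    obtain ⟨i, hi⟩ := hcore p' hN1 hg
    rw [← hpp] at hf hw
    obtain ⟨e1, e2⟩ := crit_scale hd hρ hf hw
    exact no_crit_out hd hC hMc hM0 hρ.le hρle hN1 hi e1 e2

end Crest.Agent.R267.EntC_610
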