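import Mathlib
import Crest.Agent.R267.EntC_610

/-!
# S0406, T3N entrance, leaf ENT-C, second part (helper610)

* `pl2` : the arm inequality with `v ∂_v` (second half of `pl_arm`);
* `iso_crit` : for `M ≥ M1` the polynomial function `pf b T c M` has an isolated critical point.
-/

set_option autoImplicit false
set_option linter.unusedSectionVars false

noncomputable section

open Set Filter Topology Finset
open Crest.Agent.R267.NdP_484 Crest.Agent.R267.NdR_484 Crest.Agent.R267.NdQ_484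
open Crest.Agent.R267.NdS_484 Crest.Agent.R267.EntC_610

namespace Crest.Agent.R267.EntC2_610

/-- the arm inequality with `v ∂_v`. -/
theorem pl2 {a : ℕ} {T : Finset (ℕ × ℕ)} {c : ℕ × ℕ → ℂ} (ha : 1 ≤ a) (ha' : a ≤ 15)
    (hd : ArmDat a T c) : PL a T c := by
  classical
  have h0 : ((0, 15) : ℕ × ℕ) ∉ T := fun h => by
    have := (hd.adm _ h).1
    simp at this
  set c' : ℕ × ℕ → ℂ := fun q => if q = (0, 15) then 1 else c q with hc'
  have hc0 : c' (0, 15) = 1 := by rw [hc']; simp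
  have hcT : ∀ q ∈ T, c' q = c q := by
    intro q hq
    have : q ≠ (0, 15) := fun h => h0 (h ▸ hq)
    rw [hc']; simp [this]
  obtain ⟨κ, hκ, δ, hδ, H⟩ := pl hd.conv (c := c')
    (by
      intro q hq
      rcases Finset.mem_insert.1 hq with h | h
      · rw [h, hc0]; exact one_ne_zero
      · rw [hcT q h]; exact hd.ne q h)
    (la := fun q => (q.1 : ℂ)) (mu := fun q => (q.2 : ℂ))
    (by
      intro q hq
      rcases Finset.mem_insert.1 hq with h | h
      · right; rw [h]; norm_num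
      · left
        have := (hd.adm _ h).1
        exact Nat.cast_ne_zero.2 (by omega))
    (by
      intro p hp q hq hpq h
      have h' : p.1 * q.2 = q.1 * p.2 := by exact_mod_cast h
      rcases lt_trichotomy p.1 q.1 with k | k | k
      · have k2 := hd.conv.mono _ hp _ hq k
        have k3 : p.1 * q.2 ≤ p.1 * p.2 := Nat.mul_le_mul_left _ k2.le
        have k4 : p.1 * p.2 < q.1 * p.2 := Nat.mul_lt_mul_of_pos_right k (by omega)
        omega
      · exact hpq (hd.conv.inj _ hp _ hq k)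
      · have k2 := hd.conv.mono _ hq _ hp k
        have k3 : q.1 * p.2 ≤ q.1 * q.2 := Nat.mul_le_mul_left _ k2.le
        have k4 : q.1 * q.2 < p.1 * q.2 := Nat.mul_lt_mul_of_pos_right k (by omega)
        omega)
  refine ⟨κ, hκ, min (1 / 2) (δ / 2), lt_min (by norm_num) (by positivity), min_le_left _ _,
    fun r hr hr1 v w hv => ?_⟩
  have hr2 : r ≤ 1 / 2 := hr1.trans (min_le_left _ _)
  have hr3 : r ≤ δ / 2 := hr1.trans (min_le_right _ _)
  have hrC : (r : ℂ) ≠ 0 := Complex.ofReal_ne_zero.2 hr.ne'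
  have hv0 : v ≠ 0 := by
    rintro rfl
    rw [norm_zero] at hv
    exact zero_ne_one hv
  have hV0 : (r : ℂ) ^ a * v ≠ 0 := mul_ne_zero (pow_ne_zero _ hrC) hv0
  have hVn : ‖(r : ℂ) ^ a * v‖ = r ^ a := by
    rw [norm_mul, norm_pow, Complex.norm_real, Real.norm_eq_abs, abs_of_pos hr, hv, mul_one]
  have hVδ : ‖(r : ℂ) ^ a * v‖ < δ := by
    rw [hVn]
    calc r ^ a ≤ r ^ 1 := pow_le_pow_of_le_one hr.le (by linarith) ha
      _ = r := pow_one r
      _ < δ := by linarith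
  have H1 := H _ ((r : ℂ) * w) hV0 hVδ
  have e1 : ws (insert (0, 15) T) c' (fun q => (q.1 : ℂ)) ((r : ℂ) ^ a * v) ((r : ℂ) * w) =
      (r : ℂ) ^ 15 * (v * Ev T (cz a c r) v w) := by
    have k1 : ws (insert (0, 15) T) c' (fun q => (q.1 : ℂ)) ((r : ℂ) ^ a * v) ((r : ℂ) * w) =
        ((r : ℂ) ^ a * v) * Ev T c ((r : ℂ) ^ a * v) ((r : ℂ) * w) := by
      unfold ws Ev
      rw [Finset.sum_insert h0, Finset.mul_sum]
      simp only [Nat.cast_zero, zero_mul, zero_add]
      refine Finset.sum_congr rfl fun q hq => ?_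
      rw [hcT q hq]
      unfold mon
      have h1 := (hd.adm _ hq).1
      have h2 : ((r : ℂ) ^ a * v) ^ q.1 = ((r : ℂ) ^ a * v) ^ (q.1 - 1) * ((r : ℂ) ^ a * v) := by
        rw [← pow_succ, Nat.sub_add_cancel h1]
      rw [h2]; ring
    rw [k1, Ev_scale hd.adm ha']
    have k2 : (r : ℂ) ^ 15 = (r : ℂ) ^ a * (r : ℂ) ^ (15 - a) := by
      rw [← pow_add]; congr 1; omega
    rw [k2]; ring
  have e2 : ws (insert (0, 15) T) c' (fun q => (q.2 : ℂ)) ((r : ℂ) ^ a * v) ((r : ℂ) * w) =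
      (r : ℂ) ^ 15 * (15 * w ^ 15 + w * Ew T (cz a c r) v w) := by
    have k1 : ws (insert (0, 15) T) c' (fun q => (q.2 : ℂ)) ((r : ℂ) ^ a * v) ((r : ℂ) * w) =
        15 * ((r : ℂ) * w) ^ 15 + ((r : ℂ) * w) * Ew T c ((r : ℂ) ^ a * v) ((r : ℂ) * w) := by
      unfold ws Ew
      rw [Finset.sum_insert h0, Finset.mul_sum, hc0]
      congr 1
      · unfold mon; simp
      · refine Finset.sum_congr rfl fun q hq => ?_
        rw [hcT q hq]
        unfold mon
        rcases Nat.eq_zero_or_pos q.2 with h | h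
        · simp [h]
        · have h2 : ((r : ℂ) * w) ^ q.2 = ((r : ℂ) * w) ^ (q.2 - 1) * ((r : ℂ) * w) := by
            rw [← pow_succ, Nat.sub_add_cancel h]
          rw [h2]; ring
    rw [k1, Ew_scale hd.adm]
    ring
  rw [e1, e2, norm_mul ((r : ℂ) ^ 15), norm_mul ((r : ℂ) ^ 15), norm_pow, Complex.norm_real,
    Real.norm_eq_abs, abs_of_pos hr, ← mul_max_of_nonneg _ _ (by positivity : (0 : ℝ) ≤ r ^ 15)]
    at H1
  have hr15 : 0 < r ^ 15 := by positivity
  constructor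
  · have h1 := H1 (0, 15) (Finset.mem_insert_self _ _)
    have h2 : ‖mon (0, 15) ((r : ℂ) ^ a * v) ((r : ℂ) * w)‖ = r ^ 15 * ‖w‖ ^ 15 := by
      unfold mon
      rw [pow_zero, one_mul, norm_pow, norm_mul, Complex.norm_real, Real.norm_eq_abs,
        abs_of_pos hr, mul_pow]
    rw [h2] at h1
    have h3 : r ^ 15 * (κ * ‖w‖ ^ 15) ≤ r ^ 15 *
        max ‖v * Ev T (cz a c r) v w‖ ‖15 * w ^ 15 + w * Ew T (cz a c r) v w‖ := by
      linarith
    exact le_of_mul_le_mul_left h3 hr15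
  · obtain ⟨q, hq, hq0⟩ := hd.conv.bot
    have h1 := H1 q hq
    have h2 : 0 < ‖mon q ((r : ℂ) ^ a * v) ((r : ℂ) * w)‖ := by
      unfold mon
      rw [hq0, pow_zero, mul_one]
      exact norm_pos_iff.2 (pow_ne_zero _ hV0)
    have h3 := lt_of_lt_of_le (mul_pos hκ h2) h1
    exact pos_of_mul_pos_right h3 hr15.le

/-- **isolated critical point.** -/
theorem iso_crit (b : Bool) (T : Fin 3 → Finset (ℕ × ℕ)) (c : Fin 3 → ℕ × ℕ → ℂ)
    (hd : ∀ v, ArmDat (aw b v) (T v) (c v)) :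
    ∃ M1 > 0, ∀ M ≥ M1, ∀ᶠ p in 𝓝[≠] (0 : E4), (∃ v, dpf b T c M p v ≠ 0) ∨ dpw T c p ≠ 0 :=
  iso_crit_of hd fun v => pl2 (Amal_52.aw_pos b v) (aw_le b v) (hd v)

end Crest.Agent.R267.EntC2_610
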