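import Mathlib

/-!
Row 267, node (d): a germ with an isolated critical point in dimension at least two is reduced.
-/

set_option autoImplicit false

namespace Crest.Agent.R267.Reduced_396

open Topology Filter Metric

variable {n : ℕ}

/-- In dimension at least two, the zeros of an analytic function vanishing at the origin
accumulate at the origin. -/
theorem frequently_zero (hn : 2 ≤ n) {h : (Fin n → ℂ) → ℂ} (hh : AnalyticAt ℂ h 0)
    (h0 : h 0 = 0) : ∃ᶠ x in 𝓝[≠] (0 : Fin n → ℂ), h x = 0 := by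
  intro hne
  rw [eventually_nhdsWithin_iff] at hne
  have hev := hh.eventually_analyticAt.and hne
  obtain ⟨r, hr, hball⟩ := Metric.eventually_nhds_iff_ball.1 hev
  set i0 : Fin n := ⟨0, by omega⟩ with hi0
  set i1 : Fin n := ⟨1, by omega⟩ with hi1
  have hi01 : i0 ≠ i1 := by
    simp [hi0, hi1]
  set L : ℂ × ℂ → (Fin n → ℂ) := fun p => p.1 • Pi.single i0 (1 : ℂ) + p.2 • Pi.single i1 (1 : ℂ)
    with hL
  have hL0 : ∀ p, L p i0 = p.1 := by
    intro p; simp [hL, hi01]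
  have hL1 : ∀ p, L p i1 = p.2 := by
    intro p; simp [hL, hi01.symm]
  have hLn : ∀ p, ‖L p‖ ≤ max ‖p.1‖ ‖p.2‖ := by
    intro p
    rw [pi_norm_le_iff_of_nonneg (le_max_of_le_left (norm_nonneg _))]
    intro i
    by_cases h1 : i = i0
    · subst h1; rw [hL0]; exact le_max_left _ _
    · by_cases h2 : i = i1
      · subst h2; rw [hL1]; exact le_max_right _ _
      · have : L p i = 0 := by simp [hL, h1, h2]
        rw [this, norm_zero]
        exact le_max_of_le_left (norm_nonneg _)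
  have hLdiff : Differentiable ℂ L := by
    rw [hL]; fun_prop
  have hLcont : Continuous L := hLdiff.continuous
  set ρ : ℝ := r / 2 with hρ
  have hρ0 : 0 < ρ := by positivity
  have hmem : ∀ p : ℂ × ℂ, ‖p.1‖ ≤ ρ → ‖p.2‖ ≤ ρ → L p ∈ ball (0 : Fin n → ℂ) r := by
    intro p h1 h2
    rw [mem_ball_zero_iff]
    calc ‖L p‖ ≤ max ‖p.1‖ ‖p.2‖ := hLn p
      _ ≤ ρ := max_le h1 h2
      _ < r := by rw [hρ]; linarith
  have hne0 : ∀ p : ℂ × ℂ, ‖p.1‖ ≤ ρ → ‖p.2‖ ≤ ρ → p ≠ 0 → h (L p) ≠ 0 := by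
    intro p h1 h2 hp
    refine (hball _ (hmem p h1 h2)).2 ?_
    intro hz
    apply hp
    have hz' : L p = 0 := hz
    have e1 : p.1 = 0 := by rw [← hL0 p, hz']; rfl
    have e2 : p.2 = 0 := by rw [← hL1 p, hz']; rfl
    exact Prod.ext e1 e2
  have hana : ∀ p : ℂ × ℂ, ‖p.1‖ ≤ ρ → ‖p.2‖ ≤ ρ → DifferentiableAt ℂ h (L p) :=
    fun p h1 h2 => (hball _ (hmem p h1 h2)).1.differentiableAt
  -- minimum of `|h|` on the circle
  have hK : IsCompact (sphere (0 : ℂ) ρ) := isCompact_sphere _ _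
  have hKne : (sphere (0 : ℂ) ρ).Nonempty := ⟨(ρ : ℂ), by simp [abs_of_pos hρ0]⟩
  have hcont0 : ContinuousOn (fun t : ℂ => ‖h (L (t, 0))‖) (sphere (0 : ℂ) ρ) := by
    intro t ht
    have ht' : ‖t‖ = ρ := by simpa using ht
    have h1 : ContinuousAt h (L (t, 0)) :=
      (hana (t, 0) ht'.le (by simpa using hρ0.le)).continuousAt
    have h2 : ContinuousAt (fun t : ℂ => L (t, 0)) t := by
      exact (hLcont.comp (by fun_prop : Continuous fun t : ℂ => ((t, 0) : ℂ × ℂ))).continuousAt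
    exact (ContinuousAt.norm (ContinuousAt.comp (f := fun t : ℂ => L (t, 0)) h1 h2)).continuousWithinAt
  obtain ⟨t0, ht0, hmin⟩ := hK.exists_isMinOn hKne hcont0
  set m : ℝ := ‖h (L (t0, 0))‖ with hm
  have ht0' : ‖t0‖ = ρ := by simpa using ht0
  have hm0 : 0 < m := by
    rw [hm, norm_pos_iff]
    refine hne0 (t0, 0) ht0'.le (by simpa using hρ0.le) ?_
    intro hz
    have : t0 = 0 := congrArg Prod.fst hz
    rw [this, norm_zero] at ht0'
    linarith
  -- uniform lower bound for nearby circles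
  have hunif : ∀ᶠ s in 𝓝 (0 : ℂ), ∀ t ∈ sphere (0 : ℂ) ρ, m / 2 < ‖h (L (t, s))‖ := by
    refine hK.eventually_forall_of_forall_eventually (fun t ht => ?_)
    have ht' : ‖t‖ = ρ := by simpa using ht
    have h1 : ContinuousAt h (L (t, 0)) :=
      (hana (t, 0) ht'.le (by simpa using hρ0.le)).continuousAt
    have h2 : ContinuousAt (fun z : ℂ × ℂ => L (z.2, z.1)) ((0 : ℂ), t) := by
      exact (hLcont.comp (by fun_prop : Continuous fun z : ℂ × ℂ => ((z.2, z.1) : ℂ × ℂ))).continuousAt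
    have h3 : ContinuousAt (fun z : ℂ × ℂ => ‖h (L (z.2, z.1))‖) ((0 : ℂ), t) :=
      ContinuousAt.norm (ContinuousAt.comp (f := fun z : ℂ × ℂ => L (z.2, z.1)) h1 h2)
    have h4 : m / 2 < ‖h (L (t, 0))‖ := by
      have := hmin ht
      simp only [Set.mem_ofPred_eq] at this
      linarith
    exact h3.eventually (lt_mem_nhds h4)
  have hsmall : ∀ᶠ s in 𝓝 (0 : ℂ), ‖s‖ < ρ := by
    have : ∀ᶠ s in 𝓝 (0 : ℂ), s ∈ ball (0 : ℂ) ρ := ball_mem_nhds _ hρ0
    filter_upwards [this] with s hs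
    simpa using hs
  have hlim : ∀ᶠ s in 𝓝 (0 : ℂ), ‖h (L (0, s))‖ < m / 2 := by
    have h1 : ContinuousAt h (L (0, 0)) :=
      (hana (0, 0) (by simpa using hρ0.le) (by simpa using hρ0.le)).continuousAt
    have h2 : ContinuousAt (fun s : ℂ => L (0, s)) 0 := by
      exact (hLcont.comp (by fun_prop : Continuous fun s : ℂ => ((0, s) : ℂ × ℂ))).continuousAt
    have h3 : ContinuousAt (fun s : ℂ => ‖h (L (0, s))‖) 0 :=
      ContinuousAt.norm (ContinuousAt.comp (f := fun s : ℂ => L (0, s)) h1 h2)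
    have h4 : ‖h (L (0, 0))‖ < m / 2 := by
      have : L (0, 0) = 0 := by simp [hL]
      rw [this, h0, norm_zero]; linarith
    exact h3.eventually (gt_mem_nhds h4)
  have hall := (hunif.and hsmall).and hlim
  obtain ⟨ε, hε, hε'⟩ := Metric.eventually_nhds_iff_ball.1 hall
  set s : ℂ := ((ε / 2 : ℝ) : ℂ) with hs
  have hs0 : s ≠ 0 := by
    rw [hs]
    exact_mod_cast (by positivity : (ε / 2 : ℝ) ≠ 0)
  have hsball : s ∈ ball (0 : ℂ) ε := by
    rw [mem_ball_zero_iff, hs, Complex.norm_real, Real.norm_eq_abs, abs_of_pos (by positivity)]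
    linarith
  obtain ⟨⟨hs1, hs2⟩, hs3⟩ := hε' s hsball
  -- the inverse function on the disc
  set G : ℂ → ℂ := fun t => (h (L (t, s)))⁻¹ with hG
  have hnz : ∀ t : ℂ, ‖t‖ ≤ ρ → h (L (t, s)) ≠ 0 := fun t ht =>
    hne0 (t, s) ht hs2.le (fun hz => hs0 (congrArg Prod.snd hz))
  have hGd : ∀ t : ℂ, ‖t‖ ≤ ρ → DifferentiableAt ℂ G t := by
    intro t ht
    have h1 : DifferentiableAt ℂ h (L (t, s)) := hana (t, s) ht hs2.le
    have h2 : DifferentiableAt ℂ (fun t : ℂ => L (t, s)) t := by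
      have h3 : DifferentiableAt ℂ L (t, s) := hLdiff _
      have h4 : DifferentiableAt ℂ (fun t : ℂ => ((t, s) : ℂ × ℂ)) t := by fun_prop
      exact DifferentiableAt.comp t h3 h4
    exact (DifferentiableAt.comp (f := fun t : ℂ => L (t, s)) t h1 h2).inv (hnz t ht)
  have hGdc : DiffContOnCl ℂ G (ball (0 : ℂ) ρ) := by
    refine ⟨fun t ht => (hGd t (by simpa using (mem_ball_zero_iff.1 ht).le)).differentiableWithinAt,
      ?_⟩
    rw [closure_ball (0 : ℂ) hρ0.ne']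
    intro t ht
    exact (hGd t (by simpa using ht)).continuousAt.continuousWithinAt
  have hbound : ‖G 0‖ ≤ (m / 2)⁻¹ := by
    refine Complex.norm_le_of_forall_mem_frontier_norm_le isBounded_ball hGdc ?_
      (subset_closure (mem_ball_self hρ0))
    intro t ht
    rw [frontier_ball (0 : ℂ) hρ0.ne'] at ht
    rw [hG]
    simp only [norm_inv]
    exact inv_anti₀ (by positivity) (hs1 t ht).le
  have hG0 : (m / 2)⁻¹ < ‖G 0‖ := by
    rw [hG]
    simp only [norm_inv]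
    have : 0 < ‖h (L (0, s))‖ := norm_pos_iff.2 (hnz 0 (by simpa using hρ0.le))
    exact (inv_lt_inv₀ (by positivity) this).2 hs3
  linarith

/-- A germ with an isolated critical point in dimension at least two is reduced. -/
theorem reduced_of_isolated (hn : 2 ≤ n) {f : (Fin n → ℂ) → ℂ}
    (hiso : ∀ᶠ x in 𝓝[≠] (0 : Fin n → ℂ), fderiv ℂ f x ≠ 0)
    (h u : (Fin n → ℂ) → ℂ) (hh : AnalyticAt ℂ h 0) (hu : AnalyticAt ℂ u 0) (h0 : h 0 = 0) :
    ¬ (f =ᶠ[𝓝 0] fun x => h x ^ 2 * u x) := by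
  intro hf
  have hfreq := frequently_zero hn hh h0
  have h1 : ∀ᶠ x in 𝓝[≠] (0 : Fin n → ℂ), f =ᶠ[𝓝 x] fun x => h x ^ 2 * u x :=
    (eventually_eventuallyEq_nhds.2 hf).filter_mono nhdsWithin_le_nhds
  have h2 : ∀ᶠ x in 𝓝[≠] (0 : Fin n → ℂ), DifferentiableAt ℂ h x :=
    (hh.eventually_analyticAt.filter_mono nhdsWithin_le_nhds).mono fun x hx => hx.differentiableAt
  have h3 : ∀ᶠ x in 𝓝[≠] (0 : Fin n → ℂ), DifferentiableAt ℂ u x :=
    (hu.eventually_analyticAt.filter_mono nhdsWithin_le_nhds).mono fun x hx => hx.differentiableAt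
  obtain ⟨x, hx0, ⟨⟨⟨hx1, hx2⟩, hx3⟩, hx4⟩⟩ :=
    (hfreq.and_eventually (((h1.and h2).and h3).and hiso)).exists
  apply hx4
  rw [hx1.fderiv_eq]
  have e0 : fderiv ℂ (fun x => h x ^ 2 * u x) x = 0 := by
    have e1 : HasFDerivAt (fun x => h x ^ 2 * u x) _ x :=
      (hx2.hasFDerivAt.pow 2).mul hx3.hasFDerivAt
    rw [e1.fderiv]
    ext v
    simp [hx0]
  exact e0

end Crest.Agent.R267.Reduced_396
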