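import Crest.Agent.R267.Order_396
import Crest.Agent.R267.Reduced_396

/-!
Row 267 (S0406), task 230: the literal (non topological) clauses of S0406 for polynomial functions
`x ↦ aeval x F`, in any number `n ≥ 2` of variables, and the assembly `s0406_of`.

* `order`      : orders of vanishing from the degrees of the monomials of `F`;
* `analyticAt`, `at_zero`, `fderiv_at_zero`, `fderiv_apply`, `fderiv_ne_zero_iff`;
* `reduced`    : isolated critical point `⟹` reduced germ (`Reduced_396`);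
* `isolated_of_cert`, `isolated_of_cert'` : an algebraic certificate for an isolated critical point:
  for every variable `X i` some power of `X i` times a polynomial not vanishing at `0` lies in the
  ideal generated by the partial derivatives;
* `s0406_of`   : two polynomials in four variables with these properties and a local
  homeomorphism of the zero sets give the literal statement of S0406.
-/

set_option autoImplicit false

namespace Crest.Agent.R267.NdLit_560

open Topology Filter MvPolynomial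

variable {n : ℕ}

/-- the polynomial function, written with `aeval` or with `eval`. -/
theorem aeval_eq (F : MvPolynomial (Fin n) ℂ) :
    (fun x : Fin n → ℂ => aeval x F) = fun x => eval x F := by
  funext x
  rw [← MvPolynomial.coe_aeval_eq_eval]
  rfl

/-- low homogeneous components vanish when all monomials have degree `≥ m`. -/
theorem comp_low {F : MvPolynomial (Fin n) ℂ} {m : ℕ} (h : ∀ d ∈ F.support, m ≤ d.degree) :
    ∀ j < m, homogeneousComponent j F = 0 := by
  intro j hj
  ext d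
  rw [coeff_homogeneousComponent, coeff_zero]
  split_ifs with h1
  · by_contra h2
    have := h d (mem_support_iff.2 h2)
    omega
  · rfl

theorem comp_ne {F : MvPolynomial (Fin n) ℂ} {m : ℕ} (h : ∃ d ∈ F.support, d.degree = m) :
    homogeneousComponent m F ≠ 0 := by
  obtain ⟨d, hd, hm⟩ := h
  intro h0
  have h1 : coeff d (homogeneousComponent m F) = 0 := by rw [h0, coeff_zero]
  rw [coeff_homogeneousComponent, if_pos hm] at h1
  exact (mem_support_iff.1 hd) h1

/-- **Order of vanishing** of a polynomial function at the origin. -/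
theorem order (F : MvPolynomial (Fin n) ℂ) (m : ℕ) (hlow : ∀ d ∈ F.support, m ≤ d.degree)
    (hm : ∃ d ∈ F.support, d.degree = m) :
    (∀ j < m, iteratedFDeriv ℂ j (fun x : Fin n → ℂ => aeval x F) 0 = 0) ∧
      iteratedFDeriv ℂ m (fun x : Fin n → ℂ => aeval x F) 0 ≠ 0 := by
  rw [aeval_eq]
  exact Order_396.order_eq F m (comp_low hlow) (comp_ne hm)

/-- polynomial functions are analytic. -/
theorem analyticAt (F : MvPolynomial (Fin n) ℂ) (x : Fin n → ℂ) :
    AnalyticAt ℂ (fun x : Fin n → ℂ => aeval x F) x := by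
  rw [aeval_eq]
  induction F using MvPolynomial.induction_on with
  | C a => simpa using (analyticAt_const (v := a) (x := x))
  | add p q hp hq =>
    have e1 : (fun x : Fin n → ℂ => eval x (p + q)) = (fun x : Fin n → ℂ => eval x p) +
        fun x : Fin n → ℂ => eval x q := by
      funext y; simp
    rw [e1]
    exact hp.add hq
  | mul_X p i hp =>
    have : AnalyticAt ℂ (fun x : Fin n → ℂ => x i) x :=
      (ContinuousLinearMap.proj (R := ℂ) (φ := fun _ : Fin n => ℂ) i).analyticAt x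
    have e1 : (fun x : Fin n → ℂ => eval x (p * X i)) = (fun x : Fin n → ℂ => eval x p) *
        fun x : Fin n → ℂ => x i := by
      funext y; simp
    rw [e1]
    exact hp.mul this

theorem differentiable (F : MvPolynomial (Fin n) ℂ) :
    Differentiable ℂ (fun x : Fin n → ℂ => aeval x F) :=
  fun x => (analyticAt F x).differentiableAt

theorem continuous (F : MvPolynomial (Fin n) ℂ) :
    Continuous (fun x : Fin n → ℂ => aeval x F) := (differentiable F).continuous

theorem at_zero (F : MvPolynomial (Fin n) ℂ) (h : ∀ d ∈ F.support, 1 ≤ d.degree) :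
    aeval (0 : Fin n → ℂ) F = 0 := by
  have h1 : coeff 0 F = 0 := by
    by_contra h2
    have := h 0 (mem_support_iff.2 h2)
    simp at this
  have h2 : aeval (0 : Fin n → ℂ) F = eval (0 : Fin n → ℂ) F := congrFun (aeval_eq F) 0
  rw [h2, ← constantCoeff_eq] at *
  simpa [MvPolynomial.constantCoeff_eq, MvPolynomial.eval_zero'] using h1

/-- The differential of a polynomial function, as a continuous linear map. -/
noncomputable def D (F : MvPolynomial (Fin n) ℂ) (x : Fin n → ℂ) : (Fin n → ℂ) →L[ℂ] ℂ :=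
  ∑ i, (aeval x (pderiv i F)) • (ContinuousLinearMap.proj i : (Fin n → ℂ) →L[ℂ] ℂ)

theorem D_apply (F : MvPolynomial (Fin n) ℂ) (x v : Fin n → ℂ) :
    D F x v = ∑ i, aeval x (pderiv i F) * v i := by
  unfold D
  simp

/-- The derivative of a polynomial function. -/
theorem hasFDerivAt (F : MvPolynomial (Fin n) ℂ) (x : Fin n → ℂ) :
    HasFDerivAt (fun x : Fin n → ℂ => aeval x F) (D F x) x := by
  classical
  induction F using MvPolynomial.induction_on with
  | C a =>
    have : D (C a : MvPolynomial (Fin n) ℂ) x = 0 := by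
      ext v
      rw [D_apply]
      simp
    rw [this]
    simpa using hasFDerivAt_const (𝕜 := ℂ) a x
  | add p q hp hq =>
    have h := hp.add hq
    have e1 : (fun x : Fin n → ℂ => aeval x (p + q)) = (fun x : Fin n → ℂ => aeval x p) +
        fun x : Fin n → ℂ => aeval x q := by
      funext y; simp
    rw [e1]
    refine h.congr_fderiv ?_
    ext v
    rw [D_apply, add_apply, D_apply, D_apply, ← Finset.sum_add_distrib]
    refine Finset.sum_congr rfl fun i _ => ?_
    rw [map_add, map_add, add_mul]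
  | mul_X p j hp =>
    have h := hp.mul ((ContinuousLinearMap.proj j : (Fin n → ℂ) →L[ℂ] ℂ).hasFDerivAt (x := x))
    have e1 : (fun x : Fin n → ℂ => aeval x (p * X j)) = (fun x : Fin n → ℂ => aeval x p) *
        fun x : Fin n → ℂ => (ContinuousLinearMap.proj j : (Fin n → ℂ) →L[ℂ] ℂ) x := by
      funext y; simp
    rw [e1]
    refine h.congr_fderiv ?_
    ext v
    rw [D_apply, add_apply, smul_apply, smul_apply, D_apply]
    simp only [ContinuousLinearMap.proj_apply, smul_eq_mul, Derivation.leibniz, pderiv_X, map_add,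
      map_mul, aeval_X]
    rw [Finset.mul_sum]
    symm
    have h4 : ∀ i ∈ (Finset.univ : Finset (Fin n)),
        (aeval x p * aeval x (Pi.single (M := fun _ => MvPolynomial (Fin n) ℂ) i 1 j)
          + x j * aeval x (pderiv i p)) * v i
          = (if i = j then aeval x p * v j else 0) + x j * (aeval x (pderiv i p) * v i) := by
      intro i _
      by_cases hij : i = j
      · subst hij
        rw [Pi.single_eq_same, if_pos rfl, map_one]
        ring
      · rw [Pi.single_eq_of_ne (Ne.symm hij), if_neg hij, map_zero]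
        ring
    rw [Finset.sum_congr rfl h4, Finset.sum_add_distrib]
    simp

theorem fderiv_eq (F : MvPolynomial (Fin n) ℂ) (x : Fin n → ℂ) :
    fderiv ℂ (fun x : Fin n → ℂ => aeval x F) x = D F x :=
  (hasFDerivAt F x).fderiv

theorem fderiv_apply (F : MvPolynomial (Fin n) ℂ) (x v : Fin n → ℂ) :
    fderiv ℂ (fun x : Fin n → ℂ => aeval x F) x v = ∑ i, aeval x (pderiv i F) * v i := by
  rw [fderiv_eq, D_apply]

theorem fderiv_single (F : MvPolynomial (Fin n) ℂ) (x : Fin n → ℂ) (i : Fin n) :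
    fderiv ℂ (fun x : Fin n → ℂ => aeval x F) x (Pi.single i 1) = aeval x (pderiv i F) := by
  classical
  rw [fderiv_apply, Finset.sum_eq_single i]
  · simp
  · intro b _ hb
    simp [Pi.single_eq_of_ne hb]
  · intro h; exact absurd (Finset.mem_univ i) h

/-- `df ≠ 0` iff some partial derivative does not vanish. -/
theorem fderiv_ne_zero_iff (F : MvPolynomial (Fin n) ℂ) (x : Fin n → ℂ) :
    fderiv ℂ (fun x : Fin n → ℂ => aeval x F) x ≠ 0 ↔ ∃ i, aeval x (pderiv i F) ≠ 0 := by
  constructor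
  · intro h
    by_contra h1
    push Not at h1
    apply h
    ext v
    rw [fderiv_apply]
    exact Finset.sum_eq_zero fun i _ => by rw [h1 i, zero_mul]
  · rintro ⟨i, hi⟩ h
    apply hi
    rw [← fderiv_single, h]
    rfl

/-- the differential at `0` vanishes when all monomials have degree `≥ 2`. -/
theorem fderiv_at_zero (F : MvPolynomial (Fin n) ℂ) (h : ∀ d ∈ F.support, 2 ≤ d.degree) :
    fderiv ℂ (fun x : Fin n → ℂ => aeval x F) 0 = 0 := by
  have h1 : iteratedFDeriv ℂ 1 (fun x : Fin n → ℂ => aeval x F) 0 = 0 := by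
    by_cases hF : ∃ m, (∀ d ∈ F.support, m ≤ d.degree) ∧ ∃ d ∈ F.support, d.degree = m
    · obtain ⟨m, hm1, hm2⟩ := hF
      obtain ⟨d, hd, hdm⟩ := hm2
      exact (order F m hm1 ⟨d, hd, hdm⟩).1 1 (by have := h d hd; omega)
    · have hF0 : F = 0 := by
        by_contra hne
        apply hF
        have hs : F.support.Nonempty := by
          rw [Finset.nonempty_iff_ne_empty]
          intro h2
          exact hne (MvPolynomial.support_eq_empty.1 h2)
        obtain ⟨d, hd, hmin⟩ := F.support.exists_min_image (fun d => d.degree) hs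
        exact ⟨d.degree, fun e he => hmin e he, d, hd, rfl⟩
      subst hF0
      have : (fun x : Fin n → ℂ => aeval x (0 : MvPolynomial (Fin n) ℂ)) = fun _ => (0 : ℂ) := by
        funext x; simp
      rw [this]
      simp
  ext v
  have h2 := congrArg (fun T => T (fun _ => v)) h1
  simpa [iteratedFDeriv_one_apply] using h2

/-- **Reduced germ.** -/
theorem reduced (hn : 2 ≤ n) (F : MvPolynomial (Fin n) ℂ)
    (hiso : ∀ᶠ x in 𝓝[≠] (0 : Fin n → ℂ), ∃ i, aeval x (pderiv i F) ≠ 0)
    (h u : (Fin n → ℂ) → ℂ) (hh : AnalyticAt ℂ h 0) (hu : AnalyticAt ℂ u 0) (h0 : h 0 = 0) :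
    ¬ ((fun x : Fin n → ℂ => aeval x F) =ᶠ[𝓝 0] fun x => h x ^ 2 * u x) :=
  Reduced_396.reduced_of_isolated hn
    (hiso.mono fun x hx => (fderiv_ne_zero_iff F x).2 hx) h u hh hu h0

/-- **Certificate for an isolated critical point.** For every variable `X i` there are `N`, a
polynomial `U i` with `U i (0) ≠ 0` and `X i ^ N * U i ∈ (∂₁F, …, ∂ₙF)`. -/
theorem isolated_of_cert (F : MvPolynomial (Fin n) ℂ)
    (cert : ∀ i, ∃ (N : ℕ) (U : MvPolynomial (Fin n) ℂ) (A : Fin n → MvPolynomial (Fin n) ℂ),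
      aeval (0 : Fin n → ℂ) U ≠ 0 ∧ X i ^ N * U = ∑ j, A j * pderiv j F) :
    ∀ᶠ x in 𝓝[≠] (0 : Fin n → ℂ), ∃ i, aeval x (pderiv i F) ≠ 0 := by
  choose N U A hU hA using cert
  have hU' : ∀ᶠ x in 𝓝 (0 : Fin n → ℂ), ∀ i, aeval x (U i) ≠ 0 := by
    rw [eventually_all]
    intro i
    exact (continuous (U i)).continuousAt.eventually_ne (hU i)
  have h1 : ∀ᶠ x in 𝓝[≠] (0 : Fin n → ℂ), x ≠ 0 := eventually_mem_nhdsWithin
  filter_upwards [hU'.filter_mono nhdsWithin_le_nhds, h1] with x hx hx0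
  by_contra hc
  push Not at hc
  apply hx0
  funext i
  have h2 := congrArg (aeval x) (hA i)
  rw [map_mul, map_pow, aeval_X, map_sum] at h2
  have h3 : ∑ j, aeval x (A i j * pderiv j F) = 0 :=
    Finset.sum_eq_zero fun j _ => by rw [map_mul, hc j, mul_zero]
  rw [h3] at h2
  rcases mul_eq_zero.1 h2 with h4 | h4
  · exact eq_zero_of_pow_eq_zero h4
  · exact absurd h4 (hx i)

/-- The same with pointwise evaluations only: if all partial derivatives vanish at `x` near `0`
then `x = 0`. -/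
theorem isolated_of_pt (F : MvPolynomial (Fin n) ℂ)
    (h : ∀ᶠ x in 𝓝 (0 : Fin n → ℂ), (∀ i, aeval x (pderiv i F) = 0) → x = 0) :
    ∀ᶠ x in 𝓝[≠] (0 : Fin n → ℂ), ∃ i, aeval x (pderiv i F) ≠ 0 := by
  have h1 : ∀ᶠ x in 𝓝[≠] (0 : Fin n → ℂ), x ≠ 0 := eventually_mem_nhdsWithin
  filter_upwards [h.filter_mono nhdsWithin_le_nhds, h1] with x hx hx0
  by_contra hc
  push Not at hc
  exact hx0 (hx hc)

/-- **Assembly**: the literal statement of S0406 from two polynomials in four variables. -/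
theorem s0406_of (F G : MvPolynomial (Fin 4) ℂ)
    (hF : ∀ d ∈ F.support, 4 ≤ d.degree) (hF' : ∃ d ∈ F.support, d.degree = 4)
    (hG : ∀ d ∈ G.support, 5 ≤ d.degree) (hG' : ∃ d ∈ G.support, d.degree = 5)
    (isoF : ∀ᶠ x in 𝓝[≠] (0 : Fin 4 → ℂ), ∃ i, aeval x (pderiv i F) ≠ 0)
    (isoG : ∀ᶠ x in 𝓝[≠] (0 : Fin 4 → ℂ), ∃ i, aeval x (pderiv i G) ≠ 0)
    (top : ∃ φ : OpenPartialHomeomorph (Fin 4 → ℂ) (Fin 4 → ℂ),
      (0 : Fin 4 → ℂ) ∈ φ.source ∧ φ 0 = 0 ∧
        ∀ x ∈ φ.source, (aeval x F = 0 ↔ aeval (φ x) G = 0)) :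
    ∃ (f g : (Fin 4 → ℂ) → ℂ),
      AnalyticAt ℂ f 0 ∧ AnalyticAt ℂ g 0 ∧ f 0 = 0 ∧ g 0 = 0 ∧
      (∀ h u : (Fin 4 → ℂ) → ℂ, AnalyticAt ℂ h 0 → AnalyticAt ℂ u 0 → h 0 = 0 →
        ¬ (f =ᶠ[𝓝 0] fun x => h x ^ 2 * u x)) ∧
      (∀ h u : (Fin 4 → ℂ) → ℂ, AnalyticAt ℂ h 0 → AnalyticAt ℂ u 0 → h 0 = 0 →
        ¬ (g =ᶠ[𝓝 0] fun x => h x ^ 2 * u x)) ∧
      fderiv ℂ f 0 = 0 ∧ (∀ᶠ x in 𝓝[≠] (0 : Fin 4 → ℂ), fderiv ℂ f x ≠ 0) ∧
      fderiv ℂ g 0 = 0 ∧ (∀ᶠ x in 𝓝[≠] (0 : Fin 4 → ℂ), fderiv ℂ g x ≠ 0) ∧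
      (∃ φ : OpenPartialHomeomorph (Fin 4 → ℂ) (Fin 4 → ℂ),
        (0 : Fin 4 → ℂ) ∈ φ.source ∧ φ 0 = 0 ∧ ∀ x ∈ φ.source, (f x = 0 ↔ g (φ x) = 0)) ∧
      (∀ j < 4, iteratedFDeriv ℂ j f 0 = 0) ∧ iteratedFDeriv ℂ 4 f 0 ≠ 0 ∧
      (∀ j < 5, iteratedFDeriv ℂ j g 0 = 0) ∧ iteratedFDeriv ℂ 5 g 0 ≠ 0 := by
  have oF := order F 4 hF hF'
  have oG := order G 5 hG hG'
  exact ⟨fun x => aeval x F, fun x => aeval x G, analyticAt F 0, analyticAt G 0,
    at_zero F fun d hd => le_trans (by norm_num) (hF d hd),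
    at_zero G fun d hd => le_trans (by norm_num) (hG d hd),
    fun h u hh hu h0 => reduced (by norm_num) F isoF h u hh hu h0,
    fun h u hh hu h0 => reduced (by norm_num) G isoG h u hh hu h0,
    fderiv_at_zero F fun d hd => le_trans (by norm_num) (hF d hd),
    isoF.mono fun x hx => (fderiv_ne_zero_iff F x).2 hx,
    fderiv_at_zero G fun d hd => le_trans (by norm_num) (hG d hd),
    isoG.mono fun x hx => (fderiv_ne_zero_iff G x).2 hx,
    top, oF.1, oF.2, oG.1, oG.2⟩

end Crest.Agent.R267.NdLit_560
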