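import Crest.Agent.R267.NdS_484
import Crest.Agent.R267.NdLit_560

/-!
# S0406, T3N entrance, leaf ENT-D (helper370)

* `Tf`, `Tg` : the exponents of the arms, `datf`, `datg` : they are admissible (`ArmDat`);
* `pol b T M` : the polynomial with function `pf b T 1 M`, its partial derivatives, its orders;
* `s0406_of_pf` : the literal statement of S0406 from isolatedness and the germ homeomorphism.
-/

set_option autoImplicit false
set_option linter.unusedSectionVars false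

noncomputable section

open Set Filter Topology Finset MvPolynomial
open Crest.Agent.R267.NdP_484 Crest.Agent.R267.NdR_484 Crest.Agent.R267.NdQ_484
open Crest.Agent.R267.NdS_484

namespace Crest.Agent.R267.EntD_370

/-! ### the data -/

/-- arms of `f`. -/
def Tf : Fin 3 → Finset (ℕ × ℕ) :=
  ![{(1, 9), (3, 4), (15, 0)}, {(4, 7), (8, 2), (10, 1), (15, 0)}, {(15, 0)}]

/-- arms of `g`. -/
def Tg : Fin 3 → Finset (ℕ × ℕ) :=
  ![{(4, 3), (9, 1), (15, 0)}, {(1, 10), (2, 8), (7, 4), (15, 0)}, {(15, 0)}]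

theorem armDat_of {a : ℕ} {T : Finset (ℕ × ℕ)}
    (h1 : ∀ p ∈ T, 1 ≤ p.1 ∧ p.2 ≤ 14 ∧ 15 ≤ a * p.1 + p.2)
    (h2 : ∃ p ∈ insert (0, 15) T, p.2 = 0)
    (h3 : ∀ p ∈ insert (0, 15) T, ∀ q ∈ insert (0, 15) T, p.1 < q.1 → q.2 < p.2)
    (h4 : ∀ p ∈ insert (0, 15) T, ∀ q ∈ insert (0, 15) T, p.1 = q.1 → p = q)
    (h5 : ∀ p ∈ insert (0, 15) T, ∀ m ∈ insert (0, 15) T, ∀ q ∈ insert (0, 15) T,
      p.1 < m.1 → m.1 < q.1 → (m.2 - q.2) * (m.1 - p.1) < (p.2 - m.2) * (q.1 - m.1)) :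
    ArmDat a T (fun _ => 1) :=
  ⟨h1, ⟨h2, h3, h4, h5⟩, fun _ _ => one_ne_zero⟩

set_option maxRecDepth 100000 in
theorem datf : ∀ v, ArmDat (aw true v) (Tf v) (fun _ => 1) := by
  intro v
  fin_cases v
  · exact armDat_of (a := 6) (T := {(1, 9), (3, 4), (15, 0)}) (by decide) (by decide) (by decide)
      (by decide) (by decide)
  · exact armDat_of (a := 2) (T := {(4, 7), (8, 2), (10, 1), (15, 0)}) (by decide) (by decide)
      (by decide) (by decide) (by decide)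
  · exact armDat_of (a := 1) (T := {(15, 0)}) (by decide) (by decide) (by decide)
      (by decide) (by decide)

set_option maxRecDepth 100000 in
theorem datg : ∀ v, ArmDat (aw false v) (Tg v) (fun _ => 1) := by
  intro v
  fin_cases v
  · exact armDat_of (a := 3) (T := {(4, 3), (9, 1), (15, 0)}) (by decide) (by decide) (by decide)
      (by decide) (by decide)
  · exact armDat_of (a := 5) (T := {(1, 10), (2, 8), (7, 4), (15, 0)}) (by decide) (by decide)
      (by decide) (by decide) (by decide)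
  · exact armDat_of (a := 1) (T := {(15, 0)}) (by decide) (by decide) (by decide)
      (by decide) (by decide)

/-! ### the polynomials -/

/-- an arm as a polynomial. -/
def arm (T : Finset (ℕ × ℕ)) (i : Fin 4) : MvPolynomial (Fin 4) ℂ :=
  ∑ p ∈ T, X i ^ p.1 * X 3 ^ p.2

/-- the core as a polynomial. -/
def core (b : Bool) : MvPolynomial (Fin 4) ℂ :=
  bif b then X 0 ^ 2 * (X 1 * X 2) + X 0 * (X 1 * X 2) ^ 3
  else X 0 * (X 1 * X 2) ^ 2 + X 0 ^ 3 * (X 1 * X 2)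

/-- **the polynomial.** -/
def pol (b : Bool) (T : Fin 3 → Finset (ℕ × ℕ)) (M : ℕ) : MvPolynomial (Fin 4) ℂ :=
  C (M : ℂ) * core b + X 3 ^ 15 + ∑ v : Fin 3, arm (T v) v.castSucc

theorem aeval_arm (T : Finset (ℕ × ℕ)) (i : Fin 4) (x : E4) :
    aeval x (arm T i) = E T (fun _ => 1) (x i) (x 3) := by
  unfold arm E
  rw [map_sum]
  refine Finset.sum_congr rfl fun p _ => ?_
  simp

theorem aeval_core (b : Bool) (x : E4) : aeval x (core b) = P b (x 0) (x 1 * x 2) := by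
  unfold core P
  cases b <;> simp

theorem aeval_pol (b : Bool) (T : Fin 3 → Finset (ℕ × ℕ)) (M : ℕ) (x : E4) :
    aeval x (pol b T M) = pf b T (fun _ _ => 1) (M : ℝ) x := by
  unfold pol pf
  rw [map_add, map_add, map_mul, map_sum, aeval_core, map_pow, aeval_X, aeval_C,
    Finset.sum_congr rfl fun v _ => aeval_arm (T v) v.castSucc x]
  simp

theorem pderiv_arm_self (T : Finset (ℕ × ℕ)) {i : Fin 4} (hi : i ≠ 3) (x : E4) :
    aeval x (pderiv i (arm T i)) = Ev T (fun _ => 1) (x i) (x 3) := by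
  unfold arm Ev
  rw [map_sum, map_sum]
  refine Finset.sum_congr rfl fun p _ => ?_
  rw [Derivation.leibniz, Derivation.leibniz_pow, Derivation.leibniz_pow, pderiv_X_self,
    pderiv_X_of_ne (Ne.symm hi)]
  simp
  ring

theorem pderiv_arm_ne (T : Finset (ℕ × ℕ)) {i j : Fin 4} (hj : j ≠ 3) (hij : i ≠ j) (x : E4) :
    aeval x (pderiv j (arm T i)) = 0 := by
  unfold arm
  rw [map_sum, map_sum]
  refine Finset.sum_eq_zero fun p _ => ?_
  rw [Derivation.leibniz, Derivation.leibniz_pow, Derivation.leibniz_pow,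
    pderiv_X_of_ne hij, pderiv_X_of_ne (Ne.symm hj)]
  simp

theorem pderiv_arm_three (T : Finset (ℕ × ℕ)) {i : Fin 4} (hi : i ≠ 3) (x : E4) :
    aeval x (pderiv 3 (arm T i)) = Ew T (fun _ => 1) (x i) (x 3) := by
  unfold arm Ew
  rw [map_sum, map_sum]
  refine Finset.sum_congr rfl fun p _ => ?_
  rw [Derivation.leibniz, Derivation.leibniz_pow, Derivation.leibniz_pow, pderiv_X_self,
    pderiv_X_of_ne hi]
  simp

theorem pderiv_core (b : Bool) (v : Fin 3) (x : E4) :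
    aeval x (pderiv v.castSucc (core b)) = dP b x v := by
  have h01 : (0 : Fin 4) ≠ 1 := by decide
  have h02 : (0 : Fin 4) ≠ 2 := by decide
  have h12 : (1 : Fin 4) ≠ 2 := by decide
  unfold core dP Ps Pt
  cases b <;> fin_cases v <;>
    simp [Derivation.leibniz, Derivation.leibniz_pow, pderiv_X_of_ne h01,
      pderiv_X_of_ne h02, pderiv_X_of_ne h12, pderiv_X_of_ne h01.symm, pderiv_X_of_ne h02.symm,
      pderiv_X_of_ne h12.symm] <;> ring

theorem pderiv_core_three (b : Bool) (x : E4) : aeval x (pderiv 3 (core b)) = 0 := by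
  have h0 : (0 : Fin 4) ≠ 3 := by decide
  have h1 : (1 : Fin 4) ≠ 3 := by decide
  have h2 : (2 : Fin 4) ≠ 3 := by decide
  unfold core
  cases b <;>
    simp [Derivation.leibniz, Derivation.leibniz_pow, pderiv_X_of_ne h0, pderiv_X_of_ne h1,
      pderiv_X_of_ne h2]

theorem cs_ne (v : Fin 3) : v.castSucc ≠ (3 : Fin 4) := by
  fin_cases v <;> decide

theorem pderiv_pol (b : Bool) (T : Fin 3 → Finset (ℕ × ℕ)) (M : ℕ) (v : Fin 3) (x : E4) :
    aeval x (pderiv v.castSucc (pol b T M)) = dpf b T (fun _ _ => 1) (M : ℝ) x v := by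
  unfold pol dpf
  simp only [map_add]
  rw [Derivation.leibniz, Derivation.leibniz_pow, pderiv_C,
    pderiv_X_of_ne (Ne.symm (cs_ne v)), map_sum, map_sum,
    Finset.sum_eq_single v (fun w _ hw => pderiv_arm_ne _ (cs_ne v)
      (fun h => hw (Fin.castSucc_injective _ h)) x) (fun h => absurd (Finset.mem_univ v) h),
    pderiv_arm_self _ (cs_ne v), map_add, smul_eq_mul, map_mul, pderiv_core, aeval_C]
  simp

theorem pderiv_pol_three (b : Bool) (T : Fin 3 → Finset (ℕ × ℕ)) (M : ℕ) (x : E4) :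
    aeval x (pderiv 3 (pol b T M)) = dpw T (fun _ _ => 1) x := by
  unfold pol dpw
  simp only [map_add]
  rw [Derivation.leibniz, Derivation.leibniz_pow, pderiv_C,
    pderiv_X_self, map_sum, map_sum,
    Finset.sum_congr rfl fun v _ => pderiv_arm_three _ (cs_ne v) x, map_add,
    smul_eq_mul, map_mul, pderiv_core_three]
  simp

/-! ### orders -/

/-- all monomials have degree `≥ m`. -/
def Lo (m : ℕ) (F : MvPolynomial (Fin 4) ℂ) : Prop := ∀ d ∈ F.support, m ≤ d.degree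

theorem Lo.mono {m n : ℕ} {F : MvPolynomial (Fin 4) ℂ} (h : Lo n F) (hmn : m ≤ n) : Lo m F :=
  fun d hd => hmn.trans (h d hd)

theorem Lo.add {m : ℕ} {F G : MvPolynomial (Fin 4) ℂ} (hF : Lo m F) (hG : Lo m G) :
    Lo m (F + G) := by
  classical
  intro d hd
  rcases Finset.mem_union.1 (MvPolynomial.support_add hd) with h | h
  · exact hF d h
  · exact hG d h

theorem Lo.mul {m n : ℕ} {F G : MvPolynomial (Fin 4) ℂ} (hF : Lo m F) (hG : Lo n G) :
    Lo (m + n) (F * G) := by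
  classical
  intro d hd
  obtain ⟨a, ha, b, hb, rfl⟩ := Finset.mem_add.1 (MvPolynomial.support_mul F G hd)
  have := hF a ha
  have := hG b hb
  have e : (a + b).degree = a.degree + b.degree := by
    exact map_add Finsupp.degree a b
  omega

theorem Lo.C (a : ℂ) : Lo 0 (MvPolynomial.C a) := fun _ _ => Nat.zero_le _

theorem Lo.zero (m : ℕ) : Lo m 0 := fun d hd => by simp at hd

theorem Lo.X (i : Fin 4) : Lo 1 (MvPolynomial.X i) := by
  intro d hd
  rw [MvPolynomial.support_X, Finset.mem_singleton] at hd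
  subst hd
  simp

theorem Lo.one : Lo 0 (1 : MvPolynomial (Fin 4) ℂ) := fun _ _ => Nat.zero_le _

theorem Lo.pow {m : ℕ} {F : MvPolynomial (Fin 4) ℂ} (hF : Lo m F) (k : ℕ) : Lo (k * m) (F ^ k) := by
  induction k with
  | zero => rw [zero_mul, pow_zero]; exact Lo.one
  | succ k ih =>
    rw [pow_succ]
    have := ih.mul hF
    rwa [← Nat.succ_mul] at this

theorem Lo.sum {ι : Type} {s : Finset ι} {m : ℕ} {F : ι → MvPolynomial (Fin 4) ℂ}
    (h : ∀ i ∈ s, Lo m (F i)) : Lo m (∑ i ∈ s, F i) := by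
  classical
  induction s using Finset.induction_on with
  | empty => rw [Finset.sum_empty]; exact Lo.zero m
  | insert a s ha ih =>
    rw [Finset.sum_insert ha]
    exact (h a (Finset.mem_insert_self a s)).add
      (ih fun i hi => h i (Finset.mem_insert_of_mem hi))

theorem lo_arm {T : Finset (ℕ × ℕ)} {m : ℕ} (h : ∀ p ∈ T, m ≤ p.1 + p.2) (i : Fin 4) :
    Lo m (arm T i) := by
  unfold arm
  refine Lo.sum fun p hp => ?_
  have := ((Lo.X i).pow p.1).mul ((Lo.X 3).pow p.2)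
  rw [mul_one, mul_one] at this
  exact this.mono (h p hp)

theorem lo_rest {T : Fin 3 → Finset (ℕ × ℕ)} {m : ℕ} (hm : m ≤ 15)
    (h : ∀ v, ∀ p ∈ T v, m ≤ p.1 + p.2) :
    Lo m (X 3 ^ 15 + ∑ v : Fin 3, arm (T v) v.castSucc) := by
  have h1 := (Lo.X 3).pow 15
  exact (h1.mono (by omega)).add (Lo.sum fun v _ => lo_arm (h v) _)

theorem pol_eq (b : Bool) (T : Fin 3 → Finset (ℕ × ℕ)) (M : ℕ) :
    pol b T M = C (M : ℂ) * core b + (X 3 ^ 15 + ∑ v : Fin 3, arm (T v) v.castSucc) := by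
  unfold pol
  rw [add_assoc]

theorem lo_f : ∀ v, ∀ p ∈ Tf v, 5 ≤ p.1 + p.2 := by
  intro v
  fin_cases v
  · change ∀ p ∈ ({(1, 9), (3, 4), (15, 0)} : Finset (ℕ × ℕ)), 5 ≤ p.1 + p.2
    decide
  · change ∀ p ∈ ({(4, 7), (8, 2), (10, 1), (15, 0)} : Finset (ℕ × ℕ)), 5 ≤ p.1 + p.2
    decide
  · change ∀ p ∈ ({(15, 0)} : Finset (ℕ × ℕ)), 5 ≤ p.1 + p.2
    decide

theorem lo_g : ∀ v, ∀ p ∈ Tg v, 6 ≤ p.1 + p.2 := by
  intro v
  fin_cases v
  · change ∀ p ∈ ({(4, 3), (9, 1), (15, 0)} : Finset (ℕ × ℕ)), 6 ≤ p.1 + p.2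
    decide
  · change ∀ p ∈ ({(1, 10), (2, 8), (7, 4), (15, 0)} : Finset (ℕ × ℕ)), 6 ≤ p.1 + p.2
    decide
  · change ∀ p ∈ ({(15, 0)} : Finset (ℕ × ℕ)), 6 ≤ p.1 + p.2
    decide

/-- the exponent of `x²yz`, resp. `x y² z²`. -/
def dd (i j : ℕ) : Fin 4 →₀ ℕ := Finsupp.single 0 i + (Finsupp.single 1 j + Finsupp.single 2 j)

theorem dd_degree (i j : ℕ) : (dd i j).degree = i + 2 * j := by
  unfold dd
  rw [map_add, map_add]
  simp
  ring

theorem mono_eq (i j : ℕ) :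
    (X 0 ^ i * (X 1 * X 2) ^ j : MvPolynomial (Fin 4) ℂ) = monomial (dd i j) 1 := by
  unfold dd
  rw [mul_pow, X_pow_eq_monomial, X_pow_eq_monomial, X_pow_eq_monomial, monomial_mul,
    monomial_mul, one_mul, one_mul]

theorem pol_support_of {F : MvPolynomial (Fin 4) ℂ} {i j : ℕ} {M : ℕ} (hM : 1 ≤ M)
    {R : MvPolynomial (Fin 4) ℂ} (hF : F = C (M : ℂ) * monomial (dd i j) 1 + R)
    (hR : coeff (dd i j) R = 0) : ∃ d ∈ F.support, d.degree = i + 2 * j := by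
  refine ⟨dd i j, ?_, dd_degree i j⟩
  rw [mem_support_iff, hF, coeff_add, hR, coeff_C_mul, coeff_monomial, if_pos rfl]
  simp
  omega

theorem coeff_of_lo {m : ℕ} {R : MvPolynomial (Fin 4) ℂ} (h : Lo m R) {d : Fin 4 →₀ ℕ}
    (hd : d.degree < m) : coeff d R = 0 := by
  by_contra h0
  have := h d (mem_support_iff.2 h0)
  omega

theorem lo_monomial (i j : ℕ) (a : ℂ) : Lo (i + 2 * j) (C a * monomial (dd i j) 1) := by
  intro d hd
  rw [C_mul_monomial] at hd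
  have := MvPolynomial.support_monomial_subset hd
  rw [Finset.mem_singleton] at this
  rw [this, dd_degree]

theorem f_eq (M : ℕ) : pol true Tf M = C (M : ℂ) * monomial (dd 2 1) 1 +
    (C (M : ℂ) * monomial (dd 1 3) 1 +
      (X 3 ^ 15 + ∑ v : Fin 3, arm (Tf v) v.castSucc)) := by
  rw [pol_eq, ← mono_eq, ← mono_eq]
  unfold core
  simp only [cond_true]
  ring

theorem g_eq (M : ℕ) : pol false Tg M = C (M : ℂ) * monomial (dd 1 2) 1 +
    (C (M : ℂ) * monomial (dd 3 1) 1 +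
      (X 3 ^ 15 + ∑ v : Fin 3, arm (Tg v) v.castSucc)) := by
  rw [pol_eq, ← mono_eq, ← mono_eq]
  unfold core
  simp only [cond_false]
  ring

theorem f_low (M : ℕ) : ∀ d ∈ (pol true Tf M).support, 4 ≤ d.degree := by
  rw [f_eq]
  exact (lo_monomial 2 1 _).add (((lo_monomial 1 3 _).mono (by norm_num)).add
    ((lo_rest (by norm_num) lo_f).mono (by norm_num)))

theorem g_low (M : ℕ) : ∀ d ∈ (pol false Tg M).support, 5 ≤ d.degree := by
  rw [g_eq]
  exact (lo_monomial 1 2 _).add ((lo_monomial 3 1 _).add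
    ((lo_rest (by norm_num) lo_g).mono (by norm_num)))

theorem f_deg {M : ℕ} (hM : 1 ≤ M) : ∃ d ∈ (pol true Tf M).support, d.degree = 4 := by
  refine pol_support_of (i := 2) (j := 1) hM (f_eq M) ?_
  refine coeff_of_lo (m := 5) (((lo_monomial 1 3 _).mono (by norm_num)).add
    (lo_rest (by norm_num) lo_f)) ?_
  rw [dd_degree]
  norm_num

theorem g_deg {M : ℕ} (hM : 1 ≤ M) : ∃ d ∈ (pol false Tg M).support, d.degree = 5 := by
  refine pol_support_of (i := 1) (j := 2) hM (g_eq M) ?_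
  rw [coeff_add, coeff_of_lo (m := 6) (lo_rest (by norm_num) lo_g) (by rw [dd_degree]; norm_num),
    add_zero, coeff_C_mul, coeff_monomial, if_neg, mul_zero]
  intro h
  have := congrArg (fun d : Fin 4 →₀ ℕ => d 0) h
  simp [dd] at this

/-! ### the literal statement -/

/-- **S0406 from the two isolatedness statements and the homeomorphism of the germs.** -/
theorem s0406_of_pf (M : ℕ) (hM : 1 ≤ M)
    (isoF : ∀ᶠ p in 𝓝[≠] (0 : E4), (∃ v, dpf true Tf (fun _ _ => 1) M p v ≠ 0) ∨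
      dpw Tf (fun _ _ => 1) p ≠ 0)
    (isoG : ∀ᶠ p in 𝓝[≠] (0 : E4), (∃ v, dpf false Tg (fun _ _ => 1) M p v ≠ 0) ∨
      dpw Tg (fun _ _ => 1) p ≠ 0)
    (top : ∃ φ : OpenPartialHomeomorph E4 E4, 0 ∈ φ.source ∧ φ 0 = 0 ∧
      ∀ x ∈ φ.source, (pf true Tf (fun _ _ => 1) M x = 0 ↔
        pf false Tg (fun _ _ => 1) M (φ x) = 0)) :
    ∃ (f g : (Fin 4 → ℂ) → ℂ),
      AnalyticAt ℂ f 0 ∧ AnalyticAt ℂ g 0 ∧ f 0 = 0 ∧ g 0 = 0 ∧
      (∀ h u : (Fin 4 → ℂ) → ℂ, AnalyticAt ℂ h 0 → AnalyticAt ℂ u 0 → h 0 = 0 →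
        ¬ (f =ᶠ[𝓝 0] fun x => h x ^ 2 * u x)) ∧
      (∀ h u : (Fin 4 → ℂ) → ℂ, AnalyticAt ℂ h 0 → AnalyticAt ℂ u 0 → h 0 = 0 →
        ¬ (g =ᶠ[𝓝 0] fun x => h x ^ 2 * u x)) ∧
      fderiv ℂ f 0 = 0 ∧ (∀ᶠ x in 𝓝[≠] (0 : Fin 4 → ℂ), fderiv ℂ f x ≠ 0) ∧
      fderiv ℂ g 0 = 0 ∧ (∀ᶠ x in 𝓝[≠] (0 : Fin 4 → ℂ), fderiv ℂ g x ≠ 0) ∧
      (∃ φ : OpenPartialHomeomorph (Fin 4 → ℂ) (Fin 4 → ℂ),
        (0 : Fin 4 → ℂ) ∈ φ.source ∧ φ 0 = 0 ∧ ∀ x ∈ φ.source, (f x = 0 ↔ g (φ x) = 0)) ∧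
      (∀ j < 4, iteratedFDeriv ℂ j f 0 = 0) ∧ iteratedFDeriv ℂ 4 f 0 ≠ 0 ∧
      (∀ j < 5, iteratedFDeriv ℂ j g 0 = 0) ∧ iteratedFDeriv ℂ 5 g 0 ≠ 0 := by
  refine NdLit_560.s0406_of (pol true Tf M) (pol false Tg M) (f_low M) (f_deg hM) (g_low M)
    (g_deg hM) (isoF.mono fun p hp => ?_) (isoG.mono fun p hp => ?_) ?_
  · rcases hp with ⟨v, hv⟩ | hw
    · exact ⟨v.castSucc, by rw [pderiv_pol]; exact hv⟩
    · exact ⟨3, by rw [pderiv_pol_three]; exact hw⟩
  · rcases hp with ⟨v, hv⟩ | hw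
    · exact ⟨v.castSucc, by rw [pderiv_pol]; exact hv⟩
    · exact ⟨3, by rw [pderiv_pol_three]; exact hw⟩
  · obtain ⟨φ, h0, h1, h2⟩ := top
    refine ⟨φ, h0, h1, fun x hx => ?_⟩
    rw [aeval_pol, aeval_pol]
    exact h2 x hx

end Crest.Agent.R267.EntD_370
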