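import Mathlib
import Crest.Agent.R267.NdS_484

/-!
# S0406, T3N entrance, leaf ENT-B: the cut off arm (helper172)

* `contDiff_Ac`, `Ac_hom`, `Ac_supp`, `Ac_zero`, `Ac_eq` : elementary properties of the cut off arm;
* `der_Ac` : derivative in the `w` direction, with a bound independent of `W`, `r`.
-/

set_option autoImplicit false
set_option linter.unusedSectionVars false

noncomputable section

open Set Filter Topology Finset
open scoped ContDiff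
open Crest.Agent.R267.NdP_484 Crest.Agent.R267.NdR_484 Crest.Agent.R267.NdQ_484
open Crest.Agent.R267.NdS_484

namespace Crest.Agent.R267.EntB2_172

variable {a : ℕ} {T : Finset (ℕ × ℕ)} {c : ℕ × ℕ → ℂ} {W r : ℝ}

/-! ### smoothness -/

theorem contDiff_ct (a : ℕ) (W : ℝ) :
    ContDiffOn ℝ 2 (fun q : ℝ × (ℂ × ℂ) => ct a W q.2.1 q.2.2)
      (univ ×ˢ {z : ℂ × ℂ | z.1 ≠ 0}) := by
  unfold ct
  by_cases hW : W = 0
  · subst hW
    simp only [ne_eq, OfNat.ofNat_ne_zero, not_false_eq_true, zero_pow, zero_mul, div_zero]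
    exact contDiffOn_const
  · refine Real.smoothTransition.contDiff.comp_contDiffOn ?_
    refine contDiffOn_const.sub (ContDiffOn.div ?_ ?_ ?_)
    · have : (fun q : ℝ × (ℂ × ℂ) => ‖q.2.2‖ ^ (2 * a)) =
          fun q : ℝ × (ℂ × ℂ) => (‖q.2.2‖ ^ 2) ^ a := by
        funext q; rw [pow_mul]
      rw [this]
      exact (((contDiff_snd.comp contDiff_snd).norm_sq ℝ).pow a).contDiffOn
    · exact (contDiff_const.mul ((contDiff_fst.comp contDiff_snd).norm_sq ℝ)).contDiffOn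
    · rintro q ⟨-, hq⟩
      have h1 : 0 < ‖q.2.1‖ := norm_pos_iff.2 hq
      have h2 : 0 < W ^ 2 := by positivity
      positivity

theorem contDiff_Ac (a : ℕ) (T : Finset (ℕ × ℕ)) (c : ℕ × ℕ → ℂ) (W : ℝ) :
    ContDiffOn ℝ 2 (fun q : ℝ × (ℂ × ℂ) => Ac a T c W q.1 q.2)
      (univ ×ˢ {z : ℂ × ℂ | z.1 ≠ 0}) := by
  unfold Ac
  have h1 : ContDiffOn ℝ 2 (fun q : ℝ × (ℂ × ℂ) => ((ct a W q.2.1 q.2.2 : ℝ) : ℂ))
      (univ ×ˢ {z : ℂ × ℂ | z.1 ≠ 0}) :=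
    Complex.ofRealCLM.contDiff.comp_contDiffOn (contDiff_ct a W)
  refine h1.mul ?_
  unfold E cz
  refine ContDiffOn.sum fun p hp => ?_
  have hz : ContDiffOn ℝ 2 (fun q : ℝ × (ℂ × ℂ) => q.1 * ‖q.2.1‖ ^ (-(1 / (a : ℝ))))
      (univ ×ˢ {z : ℂ × ℂ | z.1 ≠ 0}) := by
    refine contDiffOn_fst.mul ?_
    rintro q ⟨-, hq⟩
    have h3 : ContDiffAt ℝ 2 (fun q : ℝ × (ℂ × ℂ) => ‖q.2.1‖) q :=
      (contDiffAt_fst.comp q contDiffAt_snd).norm ℝ hq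
    exact (h3.rpow_const_of_ne (norm_ne_zero_iff.2 hq)).contDiffWithinAt
  have hz' : ContDiffOn ℝ 2 (fun q : ℝ × (ℂ × ℂ) =>
      ((q.1 * ‖q.2.1‖ ^ (-(1 / (a : ℝ))) : ℝ) : ℂ)) (univ ×ˢ {z : ℂ × ℂ | z.1 ≠ 0}) :=
    Complex.ofRealCLM.contDiff.comp_contDiffOn hz
  refine (contDiffOn_const.mul (hz'.pow _)).mul (ContDiffOn.mul ?_ ?_)
  · exact ((contDiff_fst.comp contDiff_snd).pow _).contDiffOn
  · exact ((contDiff_snd.comp contDiff_snd).pow _).contDiffOn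

/-! ### values -/

theorem Ac_zero (hT : Adm a T) (w : ℂ) : Ac a T c W r (0, w) = 0 := by
  unfold Ac E
  simp only
  rw [Finset.sum_eq_zero, mul_zero]
  intro p hp
  obtain ⟨h1, -, -⟩ := hT p hp
  rw [zero_pow (by omega), zero_mul, mul_zero]

theorem Ac_supp (hW : 0 < W) {u w : ℂ} (h : 2 * W ^ 2 * ‖u‖ ^ 2 ≤ ‖w‖ ^ (2 * a)) (hu : u ≠ 0) :
    Ac a T c W r (u, w) = 0 := by
  unfold Ac ct
  simp only
  have h1 : 0 < ‖u‖ := norm_pos_iff.2 hu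
  have h2 : 2 - ‖w‖ ^ (2 * a) / (W ^ 2 * ‖u‖ ^ 2) ≤ 0 := by
    rw [sub_nonpos, le_div_iff₀ (by positivity)]
    linarith
  rw [Real.smoothTransition.zero_of_nonpos h2, Complex.ofReal_zero, zero_mul]

theorem Ac_eq {v w : ℂ} (hv : ‖v‖ = 1) (hw : ‖w‖ ^ a ≤ W) :
    Ac a T c W r (v, w) = E T (cz a c r) v w := by
  unfold Ac ct
  simp only
  rw [hv, Real.one_rpow, mul_one, one_pow, mul_one]
  have h0 : 0 ≤ ‖w‖ ^ a := by positivity
  have h1 : 1 ≤ 2 - ‖w‖ ^ (2 * a) / W ^ 2 := by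
    have : ‖w‖ ^ (2 * a) / W ^ 2 ≤ 1 := by
      refine div_le_one_of_le₀ ?_ (by positivity)
      calc ‖w‖ ^ (2 * a) = (‖w‖ ^ a) ^ 2 := by rw [← pow_mul, mul_comm]
        _ ≤ W ^ 2 := by gcongr
    linarith
  rw [Real.smoothTransition.one_of_one_le h1, Complex.ofReal_one, one_mul]

theorem ct_hom {l : ℝ} (hl : 0 < l) (u w : ℂ) :
    ct a W ((l : ℂ) ^ a * u) ((l : ℂ) * w) = ct a W u w := by
  unfold ct
  congr 2
  rw [norm_mul, norm_mul, norm_pow, Complex.norm_real, Real.norm_eq_abs, abs_of_pos hl, mul_pow,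
    mul_pow, ← pow_mul, mul_comm a 2]
  have h1 : l ^ (2 * a) ≠ 0 := by positivity
  rw [mul_left_comm, mul_div_mul_left _ _ h1]

theorem cz_hom (ha : 1 ≤ a) {l : ℝ} (hl : 0 < l) (u : ℂ) :
    r * ‖(l : ℂ) ^ a * u‖ ^ (-(1 / (a : ℝ))) = (r * ‖u‖ ^ (-(1 / (a : ℝ)))) / l := by
  rw [norm_mul, norm_pow, Complex.norm_real, Real.norm_eq_abs, abs_of_pos hl,
    Real.mul_rpow (by positivity) (norm_nonneg _), ← Real.rpow_natCast l a,
    ← Real.rpow_mul hl.le]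
  have ha' : (a : ℝ) ≠ 0 := by positivity
  have : (a : ℝ) * -(1 / (a : ℝ)) = -1 := by field_simp
  rw [this, Real.rpow_neg_one]
  ring

theorem Ac_hom (ha : 1 ≤ a) (hT : Adm a T) {l : ℝ} (hl : 0 < l) (u w : ℂ) :
    Ac a T c W r ((l : ℂ) ^ a * u, (l : ℂ) * w) = (l : ℂ) ^ 15 * Ac a T c W r (u, w) := by
  unfold Ac
  simp only
  rw [ct_hom hl, cz_hom ha hl, mul_left_comm]
  congr 1
  unfold E cz
  rw [Finset.mul_sum]
  refine Finset.sum_congr rfl fun p hp => ?_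
  obtain ⟨h1, h2, h3⟩ := hT p hp
  have hl' : (l : ℂ) ≠ 0 := by exact_mod_cast hl.ne'
  have e1 : (l : ℂ) ^ (a * p.1) * (l : ℂ) ^ p.2 = (l : ℂ) ^ 15 * (l : ℂ) ^ ex a p := by
    rw [← pow_add, ← pow_add]; congr 1; unfold ex; omega
  rw [Complex.ofReal_div, div_pow, mul_pow, mul_pow, ← pow_mul]
  field_simp
  calc _ = c p * ((r * ‖u‖ ^ (-(1 / (a : ℝ))) : ℝ) : ℂ) ^ ex a p * u ^ p.1 * w ^ p.2 *
        ((l : ℂ) ^ (a * p.1) * (l : ℂ) ^ p.2) := by ring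
    _ = _ := by rw [e1]; ring

/-! ### derivative in `w` -/

/-- `x ↦ x · smoothTransition' (2 - x)` is bounded on `[0, ∞)`. -/
theorem bound_st : ∃ C0 : ℝ, 0 < C0 ∧ ∀ x : ℝ, 0 ≤ x →
    |x * deriv Real.smoothTransition (2 - x)| ≤ C0 := by
  have hc : Continuous (deriv Real.smoothTransition) :=
    (Real.smoothTransition.contDiff (n := 1)).continuous_deriv le_rfl
  have hG : Continuous fun x : ℝ => x * deriv Real.smoothTransition (2 - x) := by fun_prop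
  obtain ⟨C, hC⟩ := isCompact_Icc.exists_bound_of_continuousOn (s := Icc (0 : ℝ) 2)
    hG.continuousOn
  refine ⟨max C 1, by positivity, fun x hx => ?_⟩
  by_cases h : x ≤ 2
  · exact (hC x ⟨hx, h⟩).trans (le_max_left _ _)
  · push Not at h
    have h0 : deriv Real.smoothTransition (2 - x) = 0 := by
      have : Real.smoothTransition =ᶠ[𝓝 (2 - x)] fun _ => (0 : ℝ) := by
        filter_upwards [gt_mem_nhds (show (2 - x) < 0 by linarith)] with y hy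
        exact Real.smoothTransition.zero_of_nonpos hy.le
      rw [this.deriv_eq, deriv_const]
    rw [h0, mul_zero, abs_zero]
    positivity

/-- the constant of the arm. -/
def K0 (T : Finset (ℕ × ℕ)) (c : ℕ × ℕ → ℂ) : ℝ := 2 ^ 15 * Kc T c

/-- size of one scaled monomial. -/
theorem term_le (ha : 1 ≤ a) {p : ℕ × ℕ} (h2 : p.2 ≤ 14) (h3 : 15 ≤ a * p.1 + p.2)
    (hr : 0 < r) (hr1 : r ≤ 1) {v : ℂ} (hv : v ≠ 0) (hv2 : ‖v‖ ≤ 2) :
    ‖cz a c (r * ‖v‖ ^ (-(1 / (a : ℝ)))) p‖ * ‖v‖ ^ p.1 ≤ ‖c p‖ * 2 ^ 15 := by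
  have hv0 : 0 < ‖v‖ := norm_pos_iff.2 hv
  have ha' : (a : ℝ) ≠ 0 := by positivity
  have ha1 : (1 : ℝ) ≤ a := by exact_mod_cast ha
  set n : ℝ := ‖v‖ ^ (1 / (a : ℝ)) with hn
  have hn0 : 0 < n := Real.rpow_pos_of_pos hv0 _
  have hnv : ‖v‖ = n ^ a := by
    rw [hn, one_div, Real.rpow_inv_natCast_pow hv0.le (by omega)]
  have hn2 : n ≤ 2 := by
    calc n ≤ 2 ^ (1 / (a : ℝ)) := Real.rpow_le_rpow hv0.le hv2 (by positivity)
      _ ≤ 2 ^ (1 : ℝ) := by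
          refine Real.rpow_le_rpow_of_exponent_le (by norm_num) ?_
          rw [div_le_one (by positivity)]; exact ha1
      _ = 2 := Real.rpow_one 2
  have hneg : ‖v‖ ^ (-(1 / (a : ℝ))) = n⁻¹ := by rw [Real.rpow_neg hv0.le]
  unfold cz
  rw [hneg, norm_mul, norm_pow, Complex.norm_real, Real.norm_eq_abs,
    abs_of_pos (by positivity), mul_assoc]
  refine mul_le_mul_of_nonneg_left ?_ (norm_nonneg _)
  rw [hnv, ← pow_mul, mul_pow]
  have e1 : n⁻¹ ^ ex a p * n ^ (a * p.1) = n ^ (15 - p.2) := by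
    have : a * p.1 = ex a p + (15 - p.2) := by unfold ex; omega
    rw [this, pow_add, ← mul_assoc, ← mul_pow, inv_mul_cancel₀ hn0.ne', one_pow, one_mul]
  calc r ^ ex a p * n⁻¹ ^ ex a p * n ^ (a * p.1) = r ^ ex a p * n ^ (15 - p.2) := by
        rw [mul_assoc, e1]
    _ ≤ 1 * 2 ^ (15 - p.2) := by
        refine mul_le_mul (pow_le_one₀ hr.le hr1) (by gcongr) (by positivity) zero_le_one
    _ ≤ 2 ^ 15 := by
        rw [one_mul]
        exact pow_le_pow_right₀ (by norm_num) (by omega)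

theorem E_bd (ha : 1 ≤ a) (hT : Adm a T) (hr : 0 < r) (hr1 : r ≤ 1) {v w : ℂ} (hv : v ≠ 0)
    (hv2 : ‖v‖ ≤ 2) (hw : 1 ≤ ‖w‖) :
    ‖E T (cz a c (r * ‖v‖ ^ (-(1 / (a : ℝ))))) v w‖ ≤ K0 T c * ‖w‖ ^ 14 := by
  unfold E K0 Kc
  rw [Finset.mul_sum, Finset.sum_mul]
  refine (norm_sum_le _ _).trans (Finset.sum_le_sum fun p hp => ?_)
  obtain ⟨h1, h2, h3⟩ := hT p hp
  have h := term_le (c := c) ha h2 h3 hr hr1 hv hv2
  rw [norm_mul, norm_mul, norm_pow, norm_pow, ← mul_assoc]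
  calc _ ≤ ‖c p‖ * 2 ^ 15 * ‖w‖ ^ 14 := by
        refine mul_le_mul h (pow_le_pow_right₀ hw h2) (by positivity) (by positivity)
    _ ≤ _ := by
        refine mul_le_mul_of_nonneg_right ?_ (by positivity)
        have : 0 ≤ ((p.1 : ℝ) + p.2) * ‖c p‖ := by positivity
        nlinarith

theorem Ew_bd (ha : 1 ≤ a) (hT : Adm a T) (hr : 0 < r) (hr1 : r ≤ 1) {v w : ℂ} (hv : v ≠ 0)
    (hv2 : ‖v‖ ≤ 2) (hw : 1 ≤ ‖w‖) :
    ‖Ew T (cz a c (r * ‖v‖ ^ (-(1 / (a : ℝ))))) v w‖ ≤ K0 T c * ‖w‖ ^ 13 := by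
  unfold Ew K0 Kc
  rw [Finset.mul_sum, Finset.sum_mul]
  refine (norm_sum_le _ _).trans (Finset.sum_le_sum fun p hp => ?_)
  obtain ⟨h1, h2, h3⟩ := hT p hp
  have h := term_le (c := c) ha h2 h3 hr hr1 hv hv2
  rw [norm_mul, norm_mul, norm_mul, norm_pow, norm_pow, Complex.norm_natCast, ← mul_assoc]
  calc _ ≤ ‖c p‖ * 2 ^ 15 * ((p.2 : ℝ) * ‖w‖ ^ 13) := by
        refine mul_le_mul h ?_ (by positivity) (by positivity)
        refine mul_le_mul_of_nonneg_left (pow_le_pow_right₀ hw (by omega)) (by positivity)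
    _ ≤ _ := by
        have e : ‖c p‖ * 2 ^ 15 * ((p.2 : ℝ) * ‖w‖ ^ 13) =
          (2 ^ 15 * ((p.2 : ℝ) * ‖c p‖)) * ‖w‖ ^ 13 := by ring
        rw [e]
        refine mul_le_mul_of_nonneg_right ?_ (by positivity)
        have : 0 ≤ ((p.1 : ℝ) + 1) * ‖c p‖ := by positivity
        nlinarith

/-- derivative of `E` along a real line. -/
theorem hasDerivAt_E (T : Finset (ℕ × ℕ)) (c : ℕ × ℕ → ℂ) (v w h : ℂ) :
    HasDerivAt (fun ε : ℝ => E T c v (w + (ε : ℂ) * h)) (Ew T c v w * h) 0 := by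
  have h0 : HasDerivAt (fun ε : ℝ => w + (ε : ℂ) * h) h 0 := by
    have := ((Complex.ofRealCLM.hasDerivAt (x := (0 : ℝ))).mul_const h).const_add w
    simpa using this
  unfold E Ew
  rw [Finset.sum_mul]
  refine HasDerivAt.fun_sum fun p _ => ?_
  have h1 := (((h0.pow p.2).const_mul (v ^ p.1)).const_mul (c p))
  refine h1.congr_deriv ?_
  simp only [Complex.ofReal_zero, zero_mul, add_zero]
  ring

/-- derivative of the cut off along a real line. -/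
theorem hasDerivAt_ct {v w : ℂ} (hv : v ≠ 0) (hW : 0 < W) (hw : w ≠ 0) (ha : 1 ≤ a) (h : ℂ) :
    ∃ d : ℝ, HasDerivAt (fun ε : ℝ => ct a W v (w + (ε : ℂ) * h)) d 0 ∧
      |d| ≤ 2 * a * |(‖w‖ ^ (2 * a) / (W ^ 2 * ‖v‖ ^ 2)) *
        deriv Real.smoothTransition (2 - ‖w‖ ^ (2 * a) / (W ^ 2 * ‖v‖ ^ 2))| * (‖h‖ / ‖w‖) := by
  have hv0 : 0 < ‖v‖ := norm_pos_iff.2 hv
  have hw0 : 0 < ‖w‖ := norm_pos_iff.2 hw
  have h0 : HasDerivAt (fun ε : ℝ => w + (ε : ℂ) * h) h 0 := by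
    have := ((Complex.ofRealCLM.hasDerivAt (x := (0 : ℝ))).mul_const h).const_add w
    simpa using this
  have h1 : HasDerivAt (fun ε : ℝ => ‖w + (ε : ℂ) * h‖ ^ 2) (2 * inner ℝ w h) 0 := by
    have := h0.norm_sq
    simpa using this
  have h2 := ((h1.pow a).div_const (W ^ 2 * ‖v‖ ^ 2)).const_sub 2
  have h3 : HasDerivAt Real.smoothTransition
      (deriv Real.smoothTransition (2 - ‖w‖ ^ (2 * a) / (W ^ 2 * ‖v‖ ^ 2)))
      (2 - ‖w‖ ^ (2 * a) / (W ^ 2 * ‖v‖ ^ 2)) :=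
    ((Real.smoothTransition.contDiff (n := 1)).differentiable (by norm_num)).differentiableAt.hasDerivAt
  have h4 := HasDerivAt.comp_of_eq (0 : ℝ) h3 h2 (by simp [pow_mul])
  refine ⟨_, h4.congr_of_eventuallyEq (Eventually.of_forall fun ε => ?_), ?_⟩
  · simp only [ct, Function.comp, Pi.pow_apply, pow_mul]
  · have hi : |inner ℝ w h| ≤ ‖w‖ * ‖h‖ := abs_real_inner_le_norm w h
    simp only [Complex.ofReal_zero, zero_mul, add_zero]
    have e1 : (‖w‖ ^ 2) ^ (a - 1) * ‖w‖ ^ 2 = ‖w‖ ^ (2 * a) := by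
      rw [← pow_succ, Nat.sub_add_cancel ha, pow_mul]
    set D := deriv Real.smoothTransition (2 - ‖w‖ ^ (2 * a) / (W ^ 2 * ‖v‖ ^ 2)) with hD
    have hden : 0 < W ^ 2 * ‖v‖ ^ 2 := by positivity
    rw [abs_mul, abs_neg, abs_div, abs_mul, abs_mul, abs_mul, abs_of_pos hden, Nat.abs_cast,
      abs_of_nonneg (by positivity : (0:ℝ) ≤ (‖w‖ ^ 2) ^ (a - 1)), abs_two,
      abs_mul _ D, abs_of_nonneg (by positivity : 0 ≤ ‖w‖ ^ (2 * a) / (W ^ 2 * ‖v‖ ^ 2))]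
    calc |D| * ((a : ℝ) * (‖w‖ ^ 2) ^ (a - 1) * (2 * |inner ℝ w h|) / (W ^ 2 * ‖v‖ ^ 2))
        ≤ |D| * ((a : ℝ) * (‖w‖ ^ 2) ^ (a - 1) * (2 * (‖w‖ * ‖h‖)) / (W ^ 2 * ‖v‖ ^ 2)) := by
          gcongr
      _ = 2 * a * ((((‖w‖ ^ 2) ^ (a - 1) * ‖w‖ ^ 2) / (W ^ 2 * ‖v‖ ^ 2)) * |D|) *
          (‖h‖ / ‖w‖) := by field_simp
      _ = _ := by rw [e1]

/-- **(B2)** derivative of the cut off arm. -/
theorem der_Ac (ha : 1 ≤ a) (hT : Adm a T) : ∃ C : ℝ, 0 < C ∧ ∃ W1 : ℝ, 1 < W1 ∧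
    ∀ W ≥ W1, ∀ r : ℝ, 0 < r → r ≤ 1 → ∀ v w : ℂ, v ≠ 0 → ‖v‖ ≤ 2 → 1 ≤ ‖w‖ → ∀ h : ℂ,
      ∃ d : ℂ, HasDerivAt (fun ε : ℝ => Ac a T c W r (v, w + (ε : ℂ) * h)) d 0 ∧
        ‖d‖ ≤ C * ‖w‖ ^ 13 * ‖h‖ := by
  obtain ⟨C0, hC0, hst⟩ := bound_st
  have hK : 0 ≤ K0 T c := by unfold K0; have := Kc_nonneg T c; positivity
  refine ⟨(2 * a * C0 + 1) * K0 T c + 1, by positivity, 2, by norm_num,
    fun W hW r hr hr1 v w hv hv2 hw h => ?_⟩
  have hw0 : w ≠ 0 := by rintro rfl; rw [norm_zero] at hw; linarith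
  obtain ⟨d, hd, hdle⟩ := hasDerivAt_ct (a := a) (W := W) hv (by linarith) hw0 ha h
  have hE := hasDerivAt_E T (cz a c (r * ‖v‖ ^ (-(1 / (a : ℝ))))) v w h
  have hm := hd.ofReal_comp.mul hE
  refine ⟨_, hm, ?_⟩
  simp only [Complex.ofReal_zero, zero_mul, add_zero]
  have b1 := E_bd (c := c) ha hT hr hr1 hv hv2 hw
  have b2 := Ew_bd (c := c) ha hT hr hr1 hv hv2 hw
  have b3 : |d| ≤ 2 * a * C0 * (‖h‖ / ‖w‖) :=
    hdle.trans (by gcongr; exact hst _ (by positivity))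
  have b4 : ‖((ct a W v w : ℝ) : ℂ)‖ ≤ 1 := by
    rw [Complex.norm_real, Real.norm_eq_abs]
    unfold ct
    rw [abs_of_nonneg (Real.smoothTransition.nonneg _)]
    exact Real.smoothTransition.le_one _
  calc _ ≤ |d| * ‖E T (cz a c (r * ‖v‖ ^ (-(1 / (a : ℝ))))) v w‖ +
        ‖((ct a W v w : ℝ) : ℂ)‖ * (‖Ew T (cz a c (r * ‖v‖ ^ (-(1 / (a : ℝ))))) v w‖ * ‖h‖) := by
        refine (norm_add_le _ _).trans ?_
        rw [norm_mul, norm_mul, norm_mul, Complex.norm_real, Real.norm_eq_abs]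
    _ ≤ (2 * a * C0 * (‖h‖ / ‖w‖)) * (K0 T c * ‖w‖ ^ 14) +
        1 * ((K0 T c * ‖w‖ ^ 13) * ‖h‖) := by
        gcongr
    _ = ((2 * a * C0 + 1) * K0 T c) * ‖w‖ ^ 13 * ‖h‖ := by
        have : ‖w‖ ≠ 0 := by positivity
        field_simp
    _ ≤ _ := by gcongr; linarith

end Crest.Agent.R267.EntB2_172
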