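import Mathlib
import Crest.Agent.R267.EntB2_172

/-!
# S0406, T3N entrance, leaf ENT-B: every cut off arm is an arm (helper172)

`PlArm a T c` is the first half of the planar inequality (B1); `arm_of` : (B3) from it.
-/

set_option autoImplicit false
set_option linter.unusedSectionVars false

noncomputable section

open Set Filter Topology Finset
open scoped ContDiff
open Crest.Agent.R267.NdP_484 Crest.Agent.R267.NdR_484 Crest.Agent.R267.NdQ_484
open Crest.Agent.R267.NdS_484 Crest.Agent.R267.EntB2_172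

namespace Crest.Agent.R267.EntB3_172

variable {a : ℕ} {T : Finset (ℕ × ℕ)} {c : ℕ × ℕ → ℂ} {W r : ℝ}

/-- the constant path. -/
def Acp (a : ℕ) (T : Finset (ℕ × ℕ)) (c : ℕ × ℕ → ℂ) (W r : ℝ) (q : ℝ × (ℂ × ℂ)) : ℂ :=
  Ac a T c W r q.2

theorem contDiff_Acp : ContDiffOn ℝ 2 (Acp a T c W r)
    ((univ : Set ℝ) ×ˢ {z : ℂ × ℂ | z.1 ≠ 0}) := by
  have h := contDiff_Ac a T c W
  have h2 : ContDiff ℝ 2 (fun q : ℝ × (ℂ × ℂ) => ((r, q.2) : ℝ × (ℂ × ℂ))) :=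
    contDiff_const.prodMk contDiff_snd
  exact h.comp h2.contDiffOn fun q hq => ⟨trivial, hq.2⟩

theorem isOpen_S : IsOpen ((univ : Set ℝ) ×ˢ {z : ℂ × ℂ | z.1 ≠ 0}) :=
  isOpen_univ.prod (isOpen_ne.preimage continuous_fst)

theorem diffAt_Acp (t : ℝ) {u : ℂ} (w : ℂ) (hu : u ≠ 0) :
    DifferentiableAt ℝ (Acp a T c W r) (t, (u, w)) :=
  ((contDiff_Acp (a := a) (T := T) (c := c) (W := W) (r := r)).contDiffAt
    (isOpen_S.mem_nhds (show ((t, (u, w)) : ℝ × (ℂ × ℂ)) ∈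
      (univ : Set ℝ) ×ˢ {z : ℂ × ℂ | z.1 ≠ 0} from ⟨trivial, hu⟩))).differentiableAt
        (by norm_num)

/-- the derivative in the direction `(0, (0, h))`. -/
theorem fderiv_w (t : ℝ) {u : ℂ} (w : ℂ) (hu : u ≠ 0) (h d : ℂ)
    (hd : HasDerivAt (fun ε : ℝ => Ac a T c W r (u, w + (ε : ℂ) * h)) d 0) :
    fderiv ℝ (Acp a T c W r) (t, (u, w)) (0, ((0 : ℂ), h)) = d := by
  have h1 : HasDerivAt (fun ε : ℝ => ((t, (u, w + (ε : ℂ) * h)) : ℝ × (ℂ × ℂ)))
      (0, ((0 : ℂ), h)) 0 := by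
    have h0 : HasDerivAt (fun ε : ℝ => w + (ε : ℂ) * h) h 0 := by
      have := ((Complex.ofRealCLM.hasDerivAt (x := (0 : ℝ))).mul_const h).const_add w
      simpa using this
    exact (hasDerivAt_const _ _).prodMk ((hasDerivAt_const _ _).prodMk h0)
  have h2 := (diffAt_Acp (a := a) (T := T) (c := c) (W := W) (r := r) t w hu).hasFDerivAt
  have h3 := h2.comp_hasDerivAt_of_eq (0 : ℝ) h1 (by simp)
  exact h3.unique hd

/-- regularity in unit points. -/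
theorem reg_one (ha : 1 ≤ a) {C : ℝ}
    (hder : ∀ v w : ℂ, v ≠ 0 → ‖v‖ ≤ 2 → 1 ≤ ‖w‖ → ∀ h : ℂ,
      ∃ d : ℂ, HasDerivAt (fun ε : ℝ => Ac a T c W r (v, w + (ε : ℂ) * h)) d 0 ∧
        ‖d‖ ≤ C * ‖w‖ ^ 13 * ‖h‖) (hC : 0 < C) (hW : (C + 2) ^ a ≤ W)
    (hpos : ∀ v w : ℂ, ‖v‖ = 1 → 0 < max ‖w ^ 15 + E T (cz a c r) v w‖
      ‖15 * w ^ 15 + w * Ew T (cz a c r) v w‖) (t : ℝ) {u w : ℂ} (hu : ‖u‖ = 1)
    (h0 : w ^ 15 + Ac a T c W r (u, w) = 0) (e : ℂ) :
    ∃ h : ℂ, 15 * w ^ 14 * h + fderiv ℝ (Acp a T c W r) (t, (u, w)) (0, ((0 : ℂ), h)) = e := by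
  have hu0 : u ≠ 0 := by rintro rfl; rw [norm_zero] at hu; norm_num at hu
  by_cases hw : ‖w‖ ^ a < W
  · have hev : ∀ᶠ w' in 𝓝 w, Ac a T c W r (u, w') = E T (cz a c r) u w' := by
      have : ∀ᶠ w' in 𝓝 w, ‖w'‖ ^ a < W :=
        (continuous_norm.pow a).continuousAt.eventually_lt continuousAt_const hw
      filter_upwards [this] with w' hw'
      exact Ac_eq hu hw'.le
    have hE : w ^ 15 + E T (cz a c r) u w = 0 := by rw [← hev.self_of_nhds]; exact h0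
    have hp := hpos u w hu
    rw [hE, norm_zero] at hp
    have hne : 15 * w ^ 15 + w * Ew T (cz a c r) u w ≠ 0 := by
      intro h
      rw [h, norm_zero, max_self] at hp
      exact lt_irrefl _ hp
    have hne' : 15 * w ^ 14 + Ew T (cz a c r) u w ≠ 0 := by
      intro h
      apply hne
      linear_combination w * h
    refine ⟨e / (15 * w ^ 14 + Ew T (cz a c r) u w), ?_⟩
    have hk : ∀ k : ℂ, fderiv ℝ (Acp a T c W r) (t, (u, w)) (0, ((0 : ℂ), k)) =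
        Ew T (cz a c r) u w * k := by
      intro k
      refine fderiv_w t w hu0 k _ ?_
      refine (hasDerivAt_E T (cz a c r) u w k).congr_of_eventuallyEq ?_
      have hc : Tendsto (fun ε : ℝ => w + (ε : ℂ) * k) (𝓝 0) (𝓝 w) := by
        have : Continuous fun ε : ℝ => w + (ε : ℂ) * k := by fun_prop
        have h2 := this.tendsto 0
        simpa using h2
      exact hc.eventually hev
    rw [hk]
    field_simp
  · push Not at hw
    have hw1 : C + 2 ≤ ‖w‖ := by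
      by_contra hcon
      push Not at hcon
      have : ‖w‖ ^ a < (C + 2) ^ a := pow_lt_pow_left₀ hcon (norm_nonneg _) (by omega)
      linarith
    -- the linear map
    let L : ℂ →ₗ[ℝ] ℂ :=
      { toFun := fun h => 15 * w ^ 14 * h +
          fderiv ℝ (Acp a T c W r) (t, (u, w)) (0, ((0 : ℂ), h))
        map_add' := fun x y => by
          have : ((0 : ℝ), ((0 : ℂ), x + y)) = (0, ((0 : ℂ), x)) + (0, ((0 : ℂ), y)) := by simp
          rw [this, map_add]; ring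
        map_smul' := fun s x => by
          have : ((0 : ℝ), ((0 : ℂ), s • x)) = s • ((0 : ℝ), ((0 : ℂ), x)) := by simp
          rw [this, map_smul, RingHom.id_apply, smul_add]
          congr 1
          rw [mul_smul_comm] }
    have hinj : Function.Injective L := by
      rw [injective_iff_map_eq_zero]
      intro h hh
      by_contra hne
      obtain ⟨d, hd, hdle⟩ := hder u w hu0 (by linarith) (by linarith) h
      have h1 : 15 * w ^ 14 * h + d = 0 := by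
        rw [← fderiv_w t w hu0 h d hd]; exact hh
      have h2 : ‖15 * w ^ 14 * h‖ = ‖d‖ := by
        rw [eq_neg_of_add_eq_zero_left h1, norm_neg]
      rw [norm_mul, norm_mul, norm_pow, Complex.norm_ofNat] at h2
      have h3 : 0 < ‖h‖ := norm_pos_iff.2 hne
      have h4 : 0 < ‖w‖ := by linarith
      have h5 : C * ‖w‖ ^ 13 * ‖h‖ < 15 * ‖w‖ ^ 14 * ‖h‖ := by
        have : C < 15 * ‖w‖ := by linarith
        calc C * ‖w‖ ^ 13 * ‖h‖ < (15 * ‖w‖) * ‖w‖ ^ 13 * ‖h‖ := by gcongr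
          _ = _ := by ring
      linarith
    obtain ⟨h, hh⟩ := (LinearMap.injective_iff_surjective.1 hinj) e
    exact ⟨h, hh⟩

/-- scaling of the derivative. -/
theorem fderiv_hom (ha : 1 ≤ a) (hT : Adm a T) {l : ℝ} (hl : 0 < l) (t : ℝ) {u : ℂ} (w : ℂ)
    (hu : u ≠ 0) (y : ℂ × ℂ) :
    fderiv ℝ (Acp a T c W r) (t, ((l : ℂ) ^ a * u, (l : ℂ) * w))
      (0, ((l : ℂ) ^ a * y.1, (l : ℂ) * y.2)) =
    (l : ℂ) ^ 15 * fderiv ℝ (Acp a T c W r) (t, (u, w)) (0, y) := by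
  have hl' : (l : ℂ) ≠ 0 := by exact_mod_cast hl.ne'
  -- the curve `ε ↦ (t, (u, w) + ε y)`
  have hy1 : HasDerivAt (fun ε : ℝ => u + (ε : ℂ) * y.1) y.1 0 := by
    have := ((Complex.ofRealCLM.hasDerivAt (x := (0 : ℝ))).mul_const y.1).const_add u
    simpa using this
  have hy2 : HasDerivAt (fun ε : ℝ => w + (ε : ℂ) * y.2) y.2 0 := by
    have := ((Complex.ofRealCLM.hasDerivAt (x := (0 : ℝ))).mul_const y.2).const_add w
    simpa using this
  have k1 : HasDerivAt (fun ε : ℝ => ((t, (u + (ε : ℂ) * y.1, w + (ε : ℂ) * y.2)) :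
      ℝ × (ℂ × ℂ))) (0, y) 0 :=
    (hasDerivAt_const _ _).prodMk (hy1.prodMk hy2)
  have k2 : HasDerivAt (fun ε : ℝ => ((t, ((l : ℂ) ^ a * (u + (ε : ℂ) * y.1),
      (l : ℂ) * (w + (ε : ℂ) * y.2))) : ℝ × (ℂ × ℂ)))
      (0, ((l : ℂ) ^ a * y.1, (l : ℂ) * y.2)) 0 :=
    (hasDerivAt_const _ _).prodMk ((hy1.const_mul _).prodMk (hy2.const_mul _))
  have d1 := (diffAt_Acp (a := a) (T := T) (c := c) (W := W) (r := r) t w hu).hasFDerivAt
  have d2 := (diffAt_Acp (a := a) (T := T) (c := c) (W := W) (r := r) t ((l : ℂ) * w)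
    (mul_ne_zero (pow_ne_zero a hl') hu)).hasFDerivAt
  have e1 := (d1.comp_hasDerivAt_of_eq (0 : ℝ) k1 (by simp)).const_mul ((l : ℂ) ^ 15)
  have e2 := d2.comp_hasDerivAt_of_eq (0 : ℝ) k2 (by simp)
  refine e2.unique (e1.congr_of_eventuallyEq (Eventually.of_forall fun ε => ?_))
  simp only [Function.comp]
  exact Ac_hom ha hT hl _ _

/-- **(B3)** from the positivity part of (B1). -/
theorem arm_of (b : Bool) (v : Fin 3) (hT : Adm (aw b v) T)
    (h1 : ∃ r1 : ℝ, 0 < r1 ∧ ∀ r : ℝ, 0 < r → r ≤ r1 → ∀ v' w : ℂ, ‖v'‖ = 1 →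
      0 < max ‖w ^ 15 + E T (cz (aw b v) c r) v' w‖
        ‖15 * w ^ 15 + w * Ew T (cz (aw b v) c r) v' w‖) :
    ∃ r1 : ℝ, 0 < r1 ∧ ∃ W1 : ℝ, 1 < W1 ∧ ∀ r : ℝ, 0 < r → r ≤ r1 → ∀ W ≥ W1,
      Arm b v (Ac (aw b v) T c W r) := by
  have ha : 1 ≤ aw b v := by cases b <;> fin_cases v <;> simp [aw]
  set a := aw b v with haw
  obtain ⟨r1, hr1, hpos⟩ := h1
  obtain ⟨C, hC, W1, hW1, hder⟩ := der_Ac (c := c) ha hT
  refine ⟨min r1 1, by positivity, max W1 ((C + 2) ^ a), lt_max_of_lt_left hW1,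
    fun r hr hr' W hW => ?_⟩
  have hWW1 : W1 ≤ W := (le_max_left _ _).trans hW
  have hWC : (C + 2) ^ a ≤ W := (le_max_right _ _).trans hW
  have hWpos : 0 < W := by linarith
  have hrr : r ≤ 1 := hr'.trans (min_le_right _ _)
  refine ⟨⟨univ, isOpen_univ, subset_univ _, contDiff_Acp⟩, ?_, ⟨2 * W, by positivity, ?_⟩, ?_, ?_⟩
  · intro t _ l u w hl
    rw [← haw]
    exact Ac_hom ha hT hl u w
  · intro t u w h
    by_cases hu : u = 0
    · rw [hu]; exact Ac_zero hT w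
    · refine Ac_supp hWpos ?_ hu
      rw [← haw] at h
      have h2 : (2 * W * ‖u‖) ^ 2 ≤ (‖w‖ ^ a) ^ 2 := by gcongr
      have h3 : ‖w‖ ^ (2 * a) = (‖w‖ ^ a) ^ 2 := by rw [← pow_mul, mul_comm]
      rw [h3]
      have h4 : 0 ≤ W ^ 2 * ‖u‖ ^ 2 := by positivity
      nlinarith
  · intro t w
    exact Ac_zero hT w
  · intro t _ u w hu h0 e
    have hu0 : 0 < ‖u‖ := norm_pos_iff.2 hu
    set l : ℝ := ‖u‖ ^ (-(1 / (a : ℝ))) with hl
    have hlpos : 0 < l := Real.rpow_pos_of_pos hu0 _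
    have hl' : (l : ℂ) ≠ 0 := by exact_mod_cast hlpos.ne'
    have hla : l ^ a = ‖u‖⁻¹ := by
      rw [hl, ← Real.rpow_natCast, ← Real.rpow_mul hu0.le]
      have ha' : (a : ℝ) ≠ 0 := by positivity
      have : -(1 / (a : ℝ)) * (a : ℝ) = -1 := by field_simp
      rw [this, Real.rpow_neg_one]
    have hn : ‖(l : ℂ) ^ a * u‖ = 1 := by
      rw [norm_mul, norm_pow, Complex.norm_real, Real.norm_eq_abs, abs_of_pos hlpos, hla,
        inv_mul_cancel₀ hu0.ne']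
    have hz : ((l : ℂ) * w) ^ 15 + Ac a T c W r ((l : ℂ) ^ a * u, (l : ℂ) * w) = 0 := by
      rw [Ac_hom ha hT hlpos, mul_pow, ← mul_add, h0, mul_zero]
    obtain ⟨h, hh⟩ := reg_one ha (hder W hWW1 r hr hrr) hC hWC
      (hpos r hr (hr'.trans (min_le_left _ _))) t hn hz ((l : ℂ) ^ 15 * e)
    refine ⟨(0, h / (l : ℂ)), ?_⟩
    have hf := fderiv_hom (c := c) (W := W) (r := r) ha hT hlpos t w hu (0, h / (l : ℂ))
    simp only [mul_zero] at hf
    rw [mul_div_cancel₀ _ hl'] at hf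
    rw [hf] at hh
    have hl15 : (l : ℂ) ^ 15 ≠ 0 := pow_ne_zero _ hl'
    apply mul_left_cancel₀ hl15
    change (l : ℂ) ^ 15 * (15 * w ^ 14 * (h / (l : ℂ)) +
      fderiv ℝ (Acp a T c W r) (t, (u, w)) (0, (0, h / (l : ℂ)))) = (l : ℂ) ^ 15 * e
    rw [← hh]
    field_simp
    try ring

end Crest.Agent.R267.EntB3_172
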