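import Mathlib
import Crest.Agent.R267.EntB3_172

/-!
# S0406, T3N entrance, leaf ENT-B: planar inequality in unit points (helper172)

`pl_arm` = (B1), `arm_Ac` = (B3).
-/

set_option autoImplicit false
set_option linter.unusedSectionVars false

noncomputable section

open Set Filter Topology Finset
open scoped ContDiff
open Crest.Agent.R267.NdP_484 Crest.Agent.R267.NdR_484 Crest.Agent.R267.NdQ_484
open Crest.Agent.R267.NdS_484 Crest.Agent.R267.EntB2_172 Crest.Agent.R267.EntB3_172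

namespace Crest.Agent.R267.EntB_172

variable {a : ℕ} {T : Finset (ℕ × ℕ)} {c : ℕ × ℕ → ℂ} {W r : ℝ}

/-- coefficients with `w ^ 15`. -/
def c1 (c : ℕ × ℕ → ℂ) (q : ℕ × ℕ) : ℂ := if q = (0, 15) then 1 else c q

theorem not_mem (hT : Adm a T) : ((0, 15) : ℕ × ℕ) ∉ T := by
  intro h
  have := (hT _ h).1
  simp at this

theorem ne_of_mem (hT : Adm a T) {q : ℕ × ℕ} (hq : q ∈ T) : q ≠ (0, 15) := by
  rintro rfl
  exact not_mem hT hq

theorem ws_insert (hT : Adm a T) (la : ℕ × ℕ → ℂ) (V W : ℂ) :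
    ws (insert (0, 15) T) (c1 c) la V W =
      la (0, 15) * W ^ 15 + ∑ q ∈ T, la q * (c q * (V ^ q.1 * W ^ q.2)) := by
  unfold ws
  rw [Finset.sum_insert (not_mem hT)]
  congr 1
  · unfold c1 mon; simp
  · refine Finset.sum_congr rfl fun q hq => ?_
    unfold c1 mon
    rw [if_neg (ne_of_mem hT hq)]

theorem pow_term (hT : Adm a T) {q : ℕ × ℕ} (hq : q ∈ T) (c : ℕ × ℕ → ℂ) (r : ℝ) (v w : ℂ) :
    c q * (((r : ℂ) ^ a * v) ^ q.1 * ((r : ℂ) * w) ^ q.2) =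
      (r : ℂ) ^ 15 * (cz a c r q * (v ^ q.1 * w ^ q.2)) := by
  obtain ⟨h1, h2, h3⟩ := hT q hq
  have e1 : (r : ℂ) ^ (a * q.1) * (r : ℂ) ^ q.2 = (r : ℂ) ^ 15 * (r : ℂ) ^ ex a q := by
    rw [← pow_add, ← pow_add]; congr 1; unfold ex; omega
  unfold cz
  rw [mul_pow, mul_pow, ← pow_mul]
  calc _ = c q * v ^ q.1 * w ^ q.2 * ((r : ℂ) ^ (a * q.1) * (r : ℂ) ^ q.2) := by ring
    _ = _ := by rw [e1]; ring

theorem ws_scale (hT : Adm a T) (la : ℕ × ℕ → ℂ) (r : ℝ) (v w : ℂ) :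
    ws (insert (0, 15) T) (c1 c) la ((r : ℂ) ^ a * v) ((r : ℂ) * w) =
      (r : ℂ) ^ 15 * (la (0, 15) * w ^ 15 +
        ∑ q ∈ T, la q * (cz a c r q * (v ^ q.1 * w ^ q.2))) := by
  rw [ws_insert hT, mul_add, Finset.mul_sum]
  congr 1
  · ring
  · refine Finset.sum_congr rfl fun q hq => ?_
    rw [pow_term hT hq]; ring

theorem sum_one (T : Finset (ℕ × ℕ)) (d : ℕ × ℕ → ℂ) (v w : ℂ) :
    ∑ q ∈ T, 1 * (d q * (v ^ q.1 * w ^ q.2)) = E T d v w := by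
  unfold E
  exact Finset.sum_congr rfl fun q _ => one_mul _

theorem sum_w (T : Finset (ℕ × ℕ)) (d : ℕ × ℕ → ℂ) (v w : ℂ) :
    ∑ q ∈ T, (q.2 : ℂ) * (d q * (v ^ q.1 * w ^ q.2)) = w * Ew T d v w := by
  unfold Ew
  rw [Finset.mul_sum]
  refine Finset.sum_congr rfl fun q _ => ?_
  rcases Nat.eq_zero_or_pos q.2 with h0 | h0
  · rw [h0]; simp
  · have : w ^ q.2 = w ^ (q.2 - 1) * w := by rw [← pow_succ, Nat.sub_add_cancel h0]
    rw [this]; ring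

theorem sum_v (T : Finset (ℕ × ℕ)) (d : ℕ × ℕ → ℂ) (v w : ℂ) :
    ∑ q ∈ T, (q.1 : ℂ) * (d q * (v ^ q.1 * w ^ q.2)) = v * Ev T d v w := by
  unfold Ev
  rw [Finset.mul_sum]
  refine Finset.sum_congr rfl fun q _ => ?_
  rcases Nat.eq_zero_or_pos q.1 with h0 | h0
  · rw [h0]; simp
  · have : v ^ q.1 = v ^ (q.1 - 1) * v := by rw [← pow_succ, Nat.sub_add_cancel h0]
    rw [this]; ring

/-- strict monotonicity of a convex polygon. -/
theorem conv_lt {S : Finset (ℕ × ℕ)} (h : Conv S) {p q : ℕ × ℕ} (hp : p ∈ S) (hq : q ∈ S)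
    (hne : p ≠ q) : (p.1 < q.1 ∧ q.2 < p.2) ∨ (q.1 < p.1 ∧ p.2 < q.2) := by
  rcases lt_trichotomy p.1 q.1 with h1 | h1 | h1
  · exact Or.inl ⟨h1, h.mono _ hp _ hq h1⟩
  · exact absurd (h.inj _ hp _ hq h1) hne
  · exact Or.inr ⟨h1, h.mono _ hq _ hp h1⟩

/-- one half of (B1), for general weights. -/
theorem half (ha : 1 ≤ a) (hd : ArmDat a T c) {la mu : ℕ × ℕ → ℂ}
    (h1 : ∀ p ∈ insert (0, 15) T, la p ≠ 0 ∨ mu p ≠ 0)
    (h2 : ∀ p ∈ insert (0, 15) T, ∀ q ∈ insert (0, 15) T, p ≠ q → la p * mu q ≠ la q * mu p) :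
    ∃ κ : ℝ, 0 < κ ∧ ∃ r1 : ℝ, 0 < r1 ∧ ∀ r : ℝ, 0 < r → r ≤ r1 → ∀ v w : ℂ, ‖v‖ = 1 →
      κ * ‖w‖ ^ 15 ≤ max
        ‖la (0, 15) * w ^ 15 + ∑ q ∈ T, la q * (cz a c r q * (v ^ q.1 * w ^ q.2))‖
        ‖mu (0, 15) * w ^ 15 + ∑ q ∈ T, mu q * (cz a c r q * (v ^ q.1 * w ^ q.2))‖ ∧
      0 < max
        ‖la (0, 15) * w ^ 15 + ∑ q ∈ T, la q * (cz a c r q * (v ^ q.1 * w ^ q.2))‖
        ‖mu (0, 15) * w ^ 15 + ∑ q ∈ T, mu q * (cz a c r q * (v ^ q.1 * w ^ q.2))‖ := by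
  have hc : ∀ p ∈ insert (0, 15) T, c1 c p ≠ 0 := by
    intro p hp
    unfold c1
    rcases Finset.mem_insert.1 hp with h | h
    · rw [if_pos h]; exact one_ne_zero
    · rw [if_neg (ne_of_mem hd.adm h)]; exact hd.ne p h
  obtain ⟨κ, hκ, δ, hδ, H⟩ := pl hd.conv hc h1 h2
  refine ⟨κ, hκ, min (δ / 2) 1, by positivity, fun r hr hr1 v w hv => ?_⟩
  have hrδ : r ≤ δ / 2 := hr1.trans (min_le_left _ _)
  have hr1' : r ≤ 1 := hr1.trans (min_le_right _ _)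
  have hv0 : v ≠ 0 := by rintro rfl; rw [norm_zero] at hv; norm_num at hv
  have hr' : (r : ℂ) ≠ 0 := by exact_mod_cast hr.ne'
  have hV : (r : ℂ) ^ a * v ≠ 0 := mul_ne_zero (pow_ne_zero _ hr') hv0
  have hVn : ‖(r : ℂ) ^ a * v‖ = r ^ a := by
    rw [norm_mul, hv, mul_one, norm_pow, Complex.norm_real, Real.norm_eq_abs, abs_of_pos hr]
  have hVδ : ‖(r : ℂ) ^ a * v‖ < δ := by
    rw [hVn]
    calc r ^ a ≤ r ^ 1 := pow_le_pow_of_le_one hr.le hr1' ha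
      _ = r := pow_one r
      _ < δ := by linarith
  have key := H ((r : ℂ) ^ a * v) ((r : ℂ) * w) hV hVδ
  rw [ws_scale hd.adm, ws_scale hd.adm, norm_mul, norm_mul] at key
  set X := ‖la (0, 15) * w ^ 15 + ∑ q ∈ T, la q * (cz a c r q * (v ^ q.1 * w ^ q.2))‖ with hX
  set Y := ‖mu (0, 15) * w ^ 15 + ∑ q ∈ T, mu q * (cz a c r q * (v ^ q.1 * w ^ q.2))‖ with hY
  have hr15 : ‖(r : ℂ) ^ 15‖ = r ^ 15 := by
    rw [norm_pow, Complex.norm_real, Real.norm_eq_abs, abs_of_pos hr]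
  rw [hr15, ← mul_max_of_nonneg _ _ (by positivity : (0:ℝ) ≤ r ^ 15)] at key
  constructor
  · have h := key (0, 15) (Finset.mem_insert_self _ _)
    unfold mon at h
    simp only [pow_zero, one_mul] at h
    rw [norm_pow, norm_mul, Complex.norm_real, Real.norm_eq_abs, abs_of_pos hr, mul_pow,
      mul_left_comm] at h
    exact le_of_mul_le_mul_left h (by positivity)
  · obtain ⟨p, hp, hp0⟩ := hd.conv.bot
    have h := key p hp
    unfold mon at h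
    rw [hp0, pow_zero, mul_one, norm_pow, hVn] at h
    have h3 : 0 < r ^ 15 * max X Y := lt_of_lt_of_le (by positivity) h
    exact (pos_iff_pos_of_mul_pos h3).1 (by positivity)

/-- **(B1)** -/
theorem pl_arm (ha : 1 ≤ a) (hd : ArmDat a T c) :
    ∃ κ : ℝ, 0 < κ ∧ ∃ r1 : ℝ, 0 < r1 ∧ r1 ≤ 1 / 2 ∧ ∀ r : ℝ, 0 < r → r ≤ r1 →
      ∀ v w : ℂ, ‖v‖ = 1 →
      (κ * ‖w‖ ^ 15 ≤ max ‖w ^ 15 + E T (cz a c r) v w‖
          ‖15 * w ^ 15 + w * Ew T (cz a c r) v w‖ ∧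
        0 < max ‖w ^ 15 + E T (cz a c r) v w‖ ‖15 * w ^ 15 + w * Ew T (cz a c r) v w‖) ∧
      (κ * ‖w‖ ^ 15 ≤ max ‖v * Ev T (cz a c r) v w‖
          ‖15 * w ^ 15 + w * Ew T (cz a c r) v w‖ ∧
        0 < max ‖v * Ev T (cz a c r) v w‖ ‖15 * w ^ 15 + w * Ew T (cz a c r) v w‖) := by
  obtain ⟨κ1, hκ1, r1, hr1, H1⟩ := half ha hd (la := fun _ => 1) (mu := fun q => (q.2 : ℂ))
    (fun p _ => Or.inl one_ne_zero) (fun p hp q hq hne => by
      rw [one_mul, one_mul]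
      have := conv_lt hd.conv hp hq hne
      have h3 : q.2 ≠ p.2 := by omega
      exact_mod_cast h3)
  obtain ⟨κ2, hκ2, r2, hr2, H2⟩ := half ha hd (la := fun q => (q.1 : ℂ))
    (mu := fun q => (q.2 : ℂ))
    (fun p hp => by
      rcases Finset.mem_insert.1 hp with h | h
      · right; rw [h]; norm_num
      · left
        have := (hd.adm p h).1
        have h3 : p.1 ≠ 0 := by omega
        exact_mod_cast h3)
    (fun p hp q hq hne => by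
      have h3 : p.1 * q.2 ≠ q.1 * p.2 := by
        rcases conv_lt hd.conv hp hq hne with ⟨h4, h5⟩ | ⟨h4, h5⟩
        · have : p.1 * q.2 < q.1 * p.2 := by
            calc p.1 * q.2 ≤ p.1 * p.2 := Nat.mul_le_mul_left _ h5.le
              _ < q.1 * p.2 := Nat.mul_lt_mul_of_pos_right h4 (by omega)
          omega
        · have : q.1 * p.2 < p.1 * q.2 := by
            calc q.1 * p.2 ≤ q.1 * q.2 := Nat.mul_le_mul_left _ h5.le
              _ < p.1 * q.2 := Nat.mul_lt_mul_of_pos_right h4 (by omega)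
          omega
      exact_mod_cast h3)
  refine ⟨min κ1 κ2, by positivity, min (min r1 r2) (1 / 2), by positivity, min_le_right _ _,
    fun r hr hrr v w hv => ?_⟩
  have hA : r ≤ r1 := hrr.trans ((min_le_left _ _).trans (min_le_left _ _))
  have hB : r ≤ r2 := hrr.trans ((min_le_left _ _).trans (min_le_right _ _))
  have k1 := H1 r hr hA v w hv
  have k2 := H2 r hr hB v w hv
  simp only [sum_w, sum_v, one_mul, Nat.cast_zero, zero_mul, zero_add,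
    Nat.cast_ofNat] at k1 k2
  have h15 : 0 ≤ ‖w‖ ^ 15 := by positivity
  exact ⟨⟨(mul_le_mul_of_nonneg_right (min_le_left _ _) h15).trans k1.1, k1.2⟩,
    ⟨(mul_le_mul_of_nonneg_right (min_le_right _ _) h15).trans k2.1, k2.2⟩⟩

/-- **(B3)** -/
theorem arm_Ac (b : Bool) (v : Fin 3) (hd : ArmDat (aw b v) T c) :
    ∃ r1 : ℝ, 0 < r1 ∧ ∃ W1 : ℝ, 1 < W1 ∧ ∀ r : ℝ, 0 < r → r ≤ r1 → ∀ W ≥ W1,
      Arm b v (Ac (aw b v) T c W r) := by
  have ha : 1 ≤ aw b v := by cases b <;> fin_cases v <;> simp [aw]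
  obtain ⟨κ, hκ, r1, hr1, -, H⟩ := pl_arm ha hd
  exact arm_of b v hd.adm ⟨r1, hr1, fun r hr hrr v' w hv' => (H r hr hrr v' w hv').1.2⟩

end Crest.Agent.R267.EntB_172
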