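import Mathlib
import Crest.Agent.R267.NdT3_484

/-!
# S0406, T3N entrance: the star function `Ss` (helper484)
-/

set_option autoImplicit false
set_option linter.unusedSectionVars false

noncomputable section

open Set Filter Topology Finset
open scoped ContDiff
open Crest.Agent.R267.Cone_808 Crest.Agent.R267.Hm_951
open Crest.Agent.R267.NdP_484 Crest.Agent.R267.NdR_484 Crest.Agent.R267.NdQ_484
open Crest.Agent.R267.NdS_484
open Crest.Agent.R267.Amal_52 (g_nonneg N_nonneg bw_pos aw_pos g_eq_zero g_le_N N_eq_zero t1_lt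
  lt_t1 th_zero th_one contDiff_th contDiff_g contDiff_N continuous_g continuous_N act_coord
  act_three g_act N_act wt_pos)

namespace Crest.Agent.R267.NdSt_484

variable {b : Bool} {p : E4}

theorem N_pos (h : N b p ≠ 0) : 0 < N b p := lt_of_le_of_ne (N_nonneg b p) (Ne.symm h)

theorem Ds_nonneg (b : Bool) (p : E4) : 0 ≤ Ds b p := add_nonneg (N_nonneg b p) (by positivity)

theorem N_le_Ds (b : Bool) (p : E4) : N b p ≤ Ds b p := by
  unfold Ds
  have : 0 ≤ ‖p 3‖ ^ 60 := by positivity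
  linarith

theorem Ds_pos (hp : p ≠ 0) : 0 < Ds b p := by
  by_cases h : N b p = 0
  · have h1 := N_eq_zero.1 h
    have h3 : p 3 ≠ 0 := by
      intro h3
      apply hp
      funext i
      refine Fin.lastCases ?_ (fun j => ?_) i
      · exact h3
      · exact h1 j
    have : 0 < ‖p 3‖ ^ 60 := by
      have := norm_pos_iff.2 h3
      positivity
    unfold Ds
    linarith [N_nonneg b p]
  · exact (N_pos h).trans_le (N_le_Ds b p)

theorem contDiff_Ds (b : Bool) : ContDiff ℝ ∞ (Ds b) := by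
  unfold Ds
  refine (contDiff_N b).add ?_
  have h : ∀ p : E4, ‖p 3‖ ^ 60 = (‖p 3‖ ^ 2) ^ 30 := fun p => by rw [← pow_mul]
  simp_rw [h]
  have h1 : ContDiff ℝ ∞ fun p : E4 => p 3 := by fun_prop
  exact (h1.norm_sq ℝ).pow _

theorem th_nonneg (t : ℝ) : 0 ≤ th t := Real.smoothTransition.nonneg _

theorem th_le_one (t : ℝ) : th t ≤ 1 := Real.smoothTransition.le_one _

theorem psi_nonneg (h t : ℝ) : 0 ≤ psi h t := Real.smoothTransition.nonneg _

theorem psi_le_one (h t : ℝ) : psi h t ≤ 1 := Real.smoothTransition.le_one _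

theorem psi_zero {h t : ℝ} (h0 : 0 < h) (ht : t ≤ h) : psi h t = 0 := by
  unfold psi
  exact Real.smoothTransition.zero_of_nonpos (div_nonpos_of_nonpos_of_nonneg (by linarith) h0.le)

theorem psi_one {h t : ℝ} (h0 : 0 < h) (ht : 2 * h ≤ t) : psi h t = 1 := by
  unfold psi
  apply Real.smoothTransition.one_of_one_le
  rw [one_le_div h0]
  linarith

theorem contDiff_psi (h : ℝ) : ContDiff ℝ ∞ (psi h) := by
  unfold psi
  exact Real.smoothTransition.contDiff.comp (by fun_prop)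

/-! ### the star function of the hub -/

theorem g_add_le (b : Bool) (p : E4) {v u : Fin 3} (hu : u ≠ v) :
    g b v p + g b u p ≤ N b p := by
  have e : g b v p + g b u p = ∑ i ∈ ({v, u} : Finset (Fin 3)), g b i p :=
    (Finset.sum_pair (f := fun i => g b i p) hu.symm).symm
  rw [e]
  unfold N
  exact Finset.sum_le_sum_of_subset_of_nonneg (Finset.subset_univ _) fun i _ _ => g_nonneg b i p

/-- the two other quotients are small. -/
theorem other_small (hN : N b p ≠ 0) {v u : Fin 3} (hu : u ≠ v) {s : ℝ} (h : s < g b v p / N b p) :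
    g b u p / N b p < 1 - s := by
  have hp := N_pos hN
  rw [lt_div_iff₀ hp] at h
  rw [div_lt_iff₀ hp]
  have h2 : g b v p + g b u p ≤ N b p := g_add_le b p hu
  nlinarith

theorem other_small' (hN : N b p ≠ 0) {v u : Fin 3} (hu : u ≠ v) {s : ℝ}
    (h : s ≤ g b v p / N b p) : g b u p / N b p ≤ 1 - s := by
  have hp := N_pos hN
  rw [le_div_iff₀ hp] at h
  rw [div_le_iff₀ hp]
  have h2 : g b v p + g b u p ≤ N b p := g_add_le b p hu
  nlinarith

theorem exists_main (hN : N b p ≠ 0) : ∃ v : Fin 3, ∀ u, u ≠ v → g b u p / N b p ≤ 3 / 4 := by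
  by_cases h : ∃ v, 3 / 4 < g b v p / N b p
  · obtain ⟨v, hv⟩ := h
    refine ⟨v, fun u hu => ?_⟩
    have := other_small hN hu hv
    linarith
  · push Not at h
    exact ⟨0, fun u _ => h u⟩

theorem Qs_of {v : Fin 3} (h : ∀ u, u ≠ v → g b u p / N b p ≤ 3 / 4) :
    Qs b p = N b p - th (g b v p / N b p) * (N b p - g b v p) := by
  unfold Qs
  congr 1
  refine Finset.sum_eq_single v (fun u _ hu => ?_) (fun h => absurd (Finset.mem_univ v) h)
  rw [th_zero (h u hu), zero_mul]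

theorem Qs_core (hN : N b p ≠ 0) {v : Fin 3} (hv : t1 ≤ g b v p / N b p) : Qs b p = g b v p := by
  have h1 : ∀ u, u ≠ v → g b u p / N b p ≤ 3 / 4 := fun u hu => by
    have := other_small' hN hu hv
    have := lt_t1
    linarith
  rw [Qs_of h1, th_one hv]
  ring

theorem Qs_le (b : Bool) (p : E4) : Qs b p ≤ N b p := by
  unfold Qs
  have : 0 ≤ ∑ v, th (g b v p / N b p) * (N b p - g b v p) :=
    Finset.sum_nonneg fun v _ => mul_nonneg (th_nonneg _) (by linarith [g_le_N b v p])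
  linarith

theorem le_Qs (b : Bool) (p : E4) : (3 / 4) * N b p ≤ Qs b p := by
  by_cases hN : N b p = 0
  · have h1 : ∀ v, g b v p = 0 := fun v => g_eq_zero.2 (N_eq_zero.1 hN v)
    unfold Qs
    rw [hN]
    simp [h1]
  · have hp := N_pos hN
    obtain ⟨v, hv⟩ := exists_main hN
    rw [Qs_of hv]
    have h1 := g_le_N b v p
    rcases le_or_gt (g b v p / N b p) (3 / 4) with h | h
    · rw [th_zero h]
      linarith
    · rw [lt_div_iff₀ hp] at h
      have h2 : th (g b v p / N b p) * (N b p - g b v p) ≤ 1 * (N b p - g b v p) :=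
        mul_le_mul_of_nonneg_right (th_le_one _) (by linarith)
      linarith

theorem contDiffAt_th (hN : N b p ≠ 0) (v : Fin 3) :
    ContDiffAt ℝ ∞ (fun p => th (g b v p / N b p)) p :=
  contDiff_th.contDiffAt.comp p (((contDiff_g b v).contDiffAt).div (contDiff_N b).contDiffAt hN)

theorem contDiffAt_Qs (hN : N b p ≠ 0) : ContDiffAt ℝ ∞ (Qs b) p := by
  unfold Qs
  refine (contDiff_N b).contDiffAt.sub (ContDiffAt.sum fun v _ => ?_)
  exact (contDiffAt_th hN v).mul ((contDiff_N b).contDiffAt.sub (contDiff_g b v).contDiffAt)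

theorem quot_act (v : Fin 3) (s : ℝ) (p : E4) :
    g b v (act (wt b) s p) / N b (act (wt b) s p) = g b v p / N b p := by
  rw [g_act, N_act]
  exact mul_div_mul_left _ _ (Real.exp_pos _).ne'

theorem Qs_act (s : ℝ) (p : E4) : Qs b (act (wt b) s p) = Real.exp (4 * s) * Qs b p := by
  unfold Qs
  simp_rw [quot_act]
  simp_rw [g_act, N_act]
  rw [mul_sub, Finset.mul_sum]
  congr 1
  exact Finset.sum_congr rfl fun v _ => by ring

theorem Ds_act (s : ℝ) (p : E4) : Ds b (act (wt b) s p) = Real.exp (4 * s) * Ds b p := by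
  unfold Ds
  rw [N_act, act_three, norm_mul, mul_pow, Complex.norm_real, Real.norm_eq_abs,
    abs_of_pos (Real.exp_pos _), ← Real.exp_nat_mul, mul_add]
  congr 3
  push_cast
  ring

theorem Ss_act (h s : ℝ) (p : E4) : Ss b h (act (wt b) s p) = Real.exp (4 * s) * Ss b h p := by
  unfold Ss
  have e : N b (act (wt b) s p) / Ds b (act (wt b) s p) = N b p / Ds b p := by
    rw [N_act, Ds_act]
    exact mul_div_mul_left _ _ (Real.exp_pos _).ne'
  rw [e, Qs_act, Ds_act]
  ring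

variable {h : ℝ}

theorem Ss_pos (h0 : 0 < h) (hp : p ≠ 0) : 0 < Ss b h p := by
  have hD := Ds_pos (b := b) hp
  unfold Ss
  have h1 := psi_nonneg h (N b p / Ds b p)
  have h2 := psi_le_one h (N b p / Ds b p)
  rcases h1.eq_or_lt with h3 | h3
  · rw [← h3]
    linarith
  · have hN : 0 < N b p := by
      by_contra hn
      have : N b p = 0 := le_antisymm (not_lt.1 hn) (N_nonneg b p)
      rw [this, zero_div, psi_zero h0 h0.le] at h3
      exact lt_irrefl _ h3
    have hQ : 0 < Qs b p := lt_of_lt_of_le (by linarith) (le_Qs b p)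
    have h4 : 0 < psi h (N b p / Ds b p) * Qs b p := mul_pos h3 hQ
    have h5 : 0 ≤ (1 - psi h (N b p / Ds b p)) * Ds b p := mul_nonneg (by linarith) hD.le
    linarith

theorem le_Ss (b : Bool) (h : ℝ) (p : E4) : (3 / 4) * N b p ≤ Ss b h p := by
  unfold Ss
  have h1 := psi_nonneg h (N b p / Ds b p)
  have h2 := psi_le_one h (N b p / Ds b p)
  have h3 := le_Qs b p
  have h4 := N_le_Ds b p
  have h5 := N_nonneg b p
  nlinarith [mul_le_mul_of_nonneg_left h3 h1,
    mul_le_mul_of_nonneg_left (show (3 / 4) * N b p ≤ Ds b p by linarith) (sub_nonneg.2 h2)]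

theorem Ss_eq_Qs (h0 : 0 < h) (hD : 0 < Ds b p) (hN : 2 * h * Ds b p ≤ N b p) :
    Ss b h p = Qs b p := by
  unfold Ss
  rw [psi_one h0 (by rw [le_div_iff₀ hD]; exact hN)]
  ring

theorem Ss_eq_Ds (h0 : 0 < h) (hD : 0 < Ds b p) (hN : N b p ≤ h * Ds b p) :
    Ss b h p = Ds b p := by
  unfold Ss
  rw [psi_zero h0 (by rw [div_le_iff₀ hD]; exact hN)]
  ring

theorem ev_Ds (hp : p ≠ 0) : ∀ᶠ q in 𝓝 p, 0 < Ds b q :=
  ((contDiff_Ds b).continuous.continuousAt).eventually_const_lt (Ds_pos hp)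

/-- near such a point the star function is `Qs`. -/
theorem ev_Qs (h0 : 0 < h) (hp : p ≠ 0) (hN : 2 * h * Ds b p < N b p) :
    Ss b h =ᶠ[𝓝 p] Qs b := by
  have h1 : ∀ᶠ q in 𝓝 p, 2 * h * Ds b q < N b q :=
    (isOpen_lt (continuous_const.mul (contDiff_Ds b).continuous) (continuous_N b)).mem_nhds hN
  filter_upwards [h1, ev_Ds (b := b) hp] with q hq hq'
  exact Ss_eq_Qs h0 hq' hq.le

theorem ev_Dss (h0 : 0 < h) (hp : p ≠ 0) (hN : N b p < h * Ds b p) :
    Ss b h =ᶠ[𝓝 p] Ds b := by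
  have h1 : ∀ᶠ q in 𝓝 p, N b q < h * Ds b q :=
    (isOpen_lt (continuous_N b) (continuous_const.mul (contDiff_Ds b).continuous)).mem_nhds hN
  filter_upwards [h1, ev_Ds (b := b) hp] with q hq hq'
  exact Ss_eq_Ds h0 hq' hq.le

theorem contDiffAt_Ss (h0 : 0 < h) (hp : p ≠ 0) : ContDiffAt ℝ ∞ (Ss b h) p := by
  by_cases hN : N b p = 0
  · have h1 := ev_Dss (b := b) h0 hp (by rw [hN]; exact mul_pos h0 (Ds_pos hp))
    exact (contDiff_Ds b).contDiffAt.congr_of_eventuallyEq h1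
  · unfold Ss
    have h1 : ContDiffAt ℝ ∞ (fun p => psi h (N b p / Ds b p)) p :=
      (contDiff_psi h).contDiffAt.comp p
        ((contDiff_N b).contDiffAt.div (contDiff_Ds b).contDiffAt (Ds_pos hp).ne')
    exact (h1.mul (contDiffAt_Qs hN)).add
      ((contDiffAt_const.sub h1).mul (contDiff_Ds b).contDiffAt)

/-- `S^{-1/60}`. -/
def sg (b : Bool) (h : ℝ) (p : E4) : ℝ := Ss b h p ^ (-(1 / 60) : ℝ)

theorem contDiffAt_sg (h0 : 0 < h) (hp : p ≠ 0) : ContDiffAt ℝ ∞ (sg b h) p := by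
  unfold sg
  exact (contDiffAt_Ss h0 hp).rpow_const_of_ne (Ss_pos h0 hp).ne'

theorem sg_act (h0 : 0 < h) (s : ℝ) (hp : p ≠ 0) :
    sg b h (act (wt b) s p) = Real.exp (-(s / 15)) * sg b h p := by
  unfold sg
  rw [Ss_act, Real.mul_rpow (Real.exp_pos _).le (Ss_pos h0 hp).le, ← Real.exp_mul]
  congr 2
  ring

theorem sg_pos (h0 : 0 < h) (hp : p ≠ 0) : 0 < sg b h p := Real.rpow_pos_of_pos (Ss_pos h0 hp) _

theorem sg_one (hS : Ss b h p = 1) : sg b h p = 1 := by
  unfold sg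
  rw [hS, Real.one_rpow]

/-! ### sizes -/

theorem aw_bw (b : Bool) (v : Fin 3) : aw b v * (2 * bw b v) = 60 := by
  unfold aw bw
  cases b <;> fin_cases v <;> rfl

/-- the size of the hub point. -/
theorem exists_n (b : Bool) (p : E4) :
    ∃ n : ℝ, 0 ≤ n ∧ n ^ 60 = N b p ∧ ∀ v : Fin 3, ‖p v.castSucc‖ ≤ n ^ aw b v := by
  have hN := N_nonneg b p
  refine ⟨N b p ^ ((60 : ℕ) : ℝ)⁻¹, Real.rpow_nonneg hN _, Real.rpow_inv_natCast_pow hN (by norm_num),
    fun v => ?_⟩
  have h1 : (N b p ^ ((60 : ℕ) : ℝ)⁻¹) ^ 60 = N b p := Real.rpow_inv_natCast_pow hN (by norm_num)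
  have h2 : 0 ≤ N b p ^ ((60 : ℕ) : ℝ)⁻¹ := Real.rpow_nonneg hN _
  have h3 : ‖p v.castSucc‖ ^ (2 * bw b v) ≤
      ((N b p ^ ((60 : ℕ) : ℝ)⁻¹) ^ aw b v) ^ (2 * bw b v) := by
    rw [← pow_mul, aw_bw, h1]
    exact g_le_N b v p
  have := bw_pos b v
  exact (pow_le_pow_iff_left₀ (norm_nonneg _) (pow_nonneg h2 _) (by omega)).1 h3

theorem n_le_two {n : ℝ} (h : n ^ 60 ≤ 4 / 3) : n ≤ 2 := by
  by_contra hn
  push Not at hn
  have : (2 : ℝ) ^ 60 ≤ n ^ 60 := by gcongr
  norm_num at this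
  linarith

theorem Ss_zero (h0 : 0 < h) : Ss b h 0 = 0 := by
  have hN : N b (0 : E4) = 0 := N_eq_zero.2 fun v => rfl
  have hD : Ds b (0 : E4) = 0 := by
    unfold Ds
    rw [hN]
    simp
  unfold Ss
  rw [hN, hD, div_zero, psi_zero h0 h0.le]
  ring

theorem ne_of_Ss (h0 : 0 < h) (hS : Ss b h p = 1) : p ≠ 0 := by
  rintro rfl
  rw [Ss_zero h0] at hS
  exact zero_ne_one hS

end Crest.Agent.R267.NdSt_484
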