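import Mathlib
import Crest.Agent.R267.NdSt_484

/-!
# S0406, T3N entrance: smoothness and homogeneity of `F_{r,s}` (helper484)
-/

set_option autoImplicit false
set_option linter.unusedSectionVars false

noncomputable section

open Set Filter Topology Finset
open scoped ContDiff
open Crest.Agent.R267.Cone_808 Crest.Agent.R267.Hm_951
open Crest.Agent.R267.NdP_484 Crest.Agent.R267.NdR_484 Crest.Agent.R267.NdQ_484
open Crest.Agent.R267.NdS_484 Crest.Agent.R267.NdSt_484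
open Crest.Agent.R267.Amal_52 (g_nonneg N_nonneg bw_pos aw_pos g_eq_zero g_le_N N_eq_zero t1_lt
  lt_t1 th_zero th_one contDiff_th contDiff_g contDiff_N continuous_g continuous_N act_coord
  act_three g_act N_act wt_pos continuousAt_quot)

namespace Crest.Agent.R267.NdF_484

/-- what is used about the cut off arm. -/
structure AcOK (a : ℕ) (T : Finset (ℕ × ℕ)) (c : ℕ × ℕ → ℂ) (W : ℝ) : Prop where
  smooth : ContDiffOn ℝ 2 (fun q : ℝ × (ℂ × ℂ) => Ac a T c W q.1 q.2)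
    (univ ×ˢ {z : ℂ × ℂ | z.1 ≠ 0})
  hom : ∀ (r l : ℝ) (u w : ℂ), 0 < l →
    Ac a T c W r ((l : ℂ) ^ a * u, (l : ℂ) * w) = (l : ℂ) ^ 15 * Ac a T c W r (u, w)
  supp : ∀ (r : ℝ) (u w : ℂ), 2 * W ^ 2 * ‖u‖ ^ 2 ≤ ‖w‖ ^ (2 * a) → Ac a T c W r (u, w) = 0

/-- the slice `F_{r,s}`. -/
def Fs (b : Bool) (T : Fin 3 → Finset (ℕ × ℕ)) (c : Fin 3 → ℕ × ℕ → ℂ) (M W h r s : ℝ)
    (p : E4) : ℂ := Ff b T c M W h (r, s, p)

variable {b : Bool} {T : Fin 3 → Finset (ℕ × ℕ)} {c : Fin 3 → ℕ × ℕ → ℂ} {M W h r s : ℝ}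

/-- the core part. -/
def Co (b : Bool) (M : ℝ) (p : E4) : ℂ := M * P b (p 0) (p 1 * p 2) + p 3 ^ 15

/-- the part coming from the arms, for a general gauge `σ`. -/
def Re (b : Bool) (T : Fin 3 → Finset (ℕ × ℕ)) (c : Fin 3 → ℕ × ℕ → ℂ) (W : ℝ) (σ : E4 → ℝ)
    (q : ℝ × ℝ × E4) : ℂ :=
  ∑ v, (((1 - q.2.1 : ℝ) : ℂ) * E (T v)
        (cz (aw b v) (c v) (q.1 * σ q.2.2)) (q.2.2 v.castSucc) (q.2.2 3) +
      ((q.2.1 * th (g b v q.2.2 / N b q.2.2) : ℝ) : ℂ) *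
        Arms b T c W q.1 v (q.2.2 v.castSucc, q.2.2 3))

theorem Ff_eq (q : ℝ × ℝ × E4) :
    Ff b T c M W h q = Co b M q.2.2 + Re b T c W (sg b h) q := rfl

theorem contDiff_Co (b : Bool) (M : ℝ) : ContDiff ℝ ∞ (Co b M) := by
  unfold Co P
  cases b <;> simp only [cond_true, cond_false] <;> fun_prop

theorem contDiffAt_E {S : Finset (ℕ × ℕ)} {a : ℕ} {d : ℕ × ℕ → ℂ} {v : Fin 3} {σ : E4 → ℝ}
    {q : ℝ × ℝ × E4} (hσ : ContDiffAt ℝ ∞ σ q.2.2) :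
    ContDiffAt ℝ ∞ (fun q : ℝ × ℝ × E4 =>
      E S (cz a d (q.1 * σ q.2.2)) (q.2.2 v.castSucc) (q.2.2 3)) q := by
  unfold E cz
  refine ContDiffAt.sum fun m _ => ?_
  have h1 : ContDiffAt ℝ ∞ (fun q : ℝ × ℝ × E4 => q.1 * σ q.2.2) q :=
    contDiffAt_fst.mul (hσ.comp q (contDiffAt_snd.comp q contDiffAt_snd))
  have h2 : ContDiffAt ℝ ∞ (fun q : ℝ × ℝ × E4 => ((q.1 * σ q.2.2 : ℝ) : ℂ)) q :=
    Complex.ofRealCLM.contDiff.contDiffAt.comp q h1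
  have h3 : ContDiff ℝ ∞ (fun q : ℝ × ℝ × E4 => q.2.2 v.castSucc ^ m.1 * q.2.2 3 ^ m.2) := by
    fun_prop
  exact (contDiffAt_const.mul (h2.pow _)).mul h3.contDiffAt

theorem two_le : (2 : WithTop ℕ∞) ≤ ∞ := WithTop.coe_le_coe.2 le_top

/-- the cut off arm times its hub cut-off is smooth. -/
theorem contDiffAt_A {v : Fin 3} (hA : AcOK (aw b v) (T v) (c v) W)
    {q : ℝ × ℝ × E4} (hq : q.2.2 ≠ 0) :
    ContDiffAt ℝ 2 (fun q : ℝ × ℝ × E4 =>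
      ((q.2.1 * th (g b v q.2.2 / N b q.2.2) : ℝ) : ℂ) *
        Arms b T c W q.1 v (q.2.2 v.castSucc, q.2.2 3)) q := by
  by_cases hN : N b q.2.2 = 0
  · have hv : q.2.2 v.castSucc = 0 := N_eq_zero.1 hN v
    have h3 : q.2.2 3 ≠ 0 := by
      intro h3
      apply hq
      funext i
      refine Fin.lastCases ?_ (fun j => ?_) i
      · exact h3
      · exact N_eq_zero.1 hN j
    have hlt : 2 * W ^ 2 * ‖q.2.2 v.castSucc‖ ^ 2 < ‖q.2.2 3‖ ^ (2 * aw b v) := by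
      have h4 := norm_pos_iff.2 h3
      have h5 : 0 < ‖q.2.2 3‖ ^ (2 * aw b v) := pow_pos h4 _
      rw [hv, norm_zero]
      simpa using h5
    have h1 : ∀ᶠ q' : ℝ × ℝ × E4 in 𝓝 q,
        2 * W ^ 2 * ‖q'.2.2 v.castSucc‖ ^ 2 < ‖q'.2.2 3‖ ^ (2 * aw b v) := by
      have c1 : Continuous fun q' : ℝ × ℝ × E4 => 2 * W ^ 2 * ‖q'.2.2 v.castSucc‖ ^ 2 := by fun_prop
      have c2 : Continuous fun q' : ℝ × ℝ × E4 => ‖q'.2.2 3‖ ^ (2 * aw b v) := by fun_prop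
      exact (isOpen_lt c1 c2).mem_nhds hlt
    refine (contDiffAt_const (c := (0 : ℂ))).congr_of_eventuallyEq ?_
    filter_upwards [h1] with q' hq'
    have : Arms b T c W q'.1 v (q'.2.2 v.castSucc, q'.2.2 3) = 0 := hA.supp _ _ _ hq'.le
    rw [this, mul_zero]
  · by_cases hv : q.2.2 v.castSucc = 0
    · have h1 : ∀ᶠ q' : ℝ × ℝ × E4 in 𝓝 q, g b v q'.2.2 / N b q'.2.2 < 3 / 4 := by
        have hc : ContinuousAt (fun q' : ℝ × ℝ × E4 => g b v q'.2.2 / N b q'.2.2) q :=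
          ContinuousAt.comp (f := fun q : ℝ × ℝ × E4 => q.2.2) (x := q) (continuousAt_quot hN v)
            (by fun_prop)
        refine hc.eventually_lt_const ?_
        show g b v q.2.2 / N b q.2.2 < 3 / 4
        rw [g_eq_zero.2 hv, zero_div]
        norm_num
      refine (contDiffAt_const (c := (0 : ℂ))).congr_of_eventuallyEq ?_
      filter_upwards [h1] with q' hq'
      rw [th_zero hq'.le]
      simp
    · have h1 : ContDiffAt ℝ 2 (fun q : ℝ × ℝ × E4 => th (g b v q.2.2 / N b q.2.2)) q :=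
        ((contDiffAt_th hN v).of_le two_le).comp (f := fun q : ℝ × ℝ × E4 => q.2.2) q
          (by fun_prop)
      have h2 : ContDiffAt ℝ 2 (fun q : ℝ × ℝ × E4 =>
          ((q.2.1 * th (g b v q.2.2 / N b q.2.2) : ℝ) : ℂ)) q :=
        Complex.ofRealCLM.contDiff.contDiffAt.comp q
          ((contDiffAt_fst.comp q contDiffAt_snd).mul h1)
      have ho : IsOpen ((univ : Set ℝ) ×ˢ {z : ℂ × ℂ | z.1 ≠ 0}) :=
        isOpen_univ.prod (isOpen_ne_fun continuous_fst continuous_const)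
      have h3 : ContDiffAt ℝ 2 (fun q : ℝ × (ℂ × ℂ) => Ac (aw b v) (T v) (c v) W q.1 q.2)
          (q.1, (q.2.2 v.castSucc, q.2.2 3)) :=
        hA.smooth.contDiffAt (ho.mem_nhds ⟨mem_univ _, hv⟩)
      have h4 : ContDiffAt ℝ 2 (fun q : ℝ × ℝ × E4 =>
          Arms b T c W q.1 v (q.2.2 v.castSucc, q.2.2 3)) q :=
        h3.comp (f := fun q : ℝ × ℝ × E4 => (q.1, (q.2.2 v.castSucc, q.2.2 3))) q (by fun_prop)
      exact h2.mul h4

theorem contDiffAt_Re (hA : ∀ v, AcOK (aw b v) (T v) (c v) W) {σ : E4 → ℝ}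
    {q : ℝ × ℝ × E4} (hq : q.2.2 ≠ 0) (hσ : ContDiffAt ℝ ∞ σ q.2.2) :
    ContDiffAt ℝ 2 (Re b T c W σ) q := by
  unfold Re
  refine ContDiffAt.sum fun v _ => ?_
  refine ContDiffAt.add ?_ (contDiffAt_A (hA v) hq)
  have h2 : ContDiff ℝ ∞ fun q : ℝ × ℝ × E4 => (1 - q.2.1 : ℝ) := by fun_prop
  have h1 : ContDiff ℝ ∞ fun q : ℝ × ℝ × E4 => ((1 - q.2.1 : ℝ) : ℂ) :=
    Complex.ofRealCLM.contDiff.comp h2
  exact (h1.contDiffAt.mul (contDiffAt_E hσ)).of_le two_le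

/-- **smoothness.** -/
theorem contDiffAt_Ff (hA : ∀ v, AcOK (aw b v) (T v) (c v) W) (h0 : 0 < h)
    {q : ℝ × ℝ × E4} (hq : q.2.2 ≠ 0) : ContDiffAt ℝ 2 (Ff b T c M W h) q := by
  have h1 : ContDiffAt ℝ 2 (fun q : ℝ × ℝ × E4 => Co b M q.2.2) q :=
    (((contDiff_Co b M).contDiffAt).of_le two_le).comp (f := fun q : ℝ × ℝ × E4 => q.2.2) q
      (by fun_prop)
  have e : Ff b T c M W h = fun q => Co b M q.2.2 + Re b T c W (sg b h) q := funext Ff_eq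
  rw [e]
  exact h1.add (contDiffAt_Re hA hq (contDiffAt_sg h0 hq))

theorem contDiffAt_Fs (hA : ∀ v, AcOK (aw b v) (T v) (c v) W) (h0 : 0 < h)
    {p : E4} (hp : p ≠ 0) : ContDiffAt ℝ 2 (Fs b T c M W h r s) p :=
  (contDiffAt_Ff (M := M) hA h0 (q := (r, s, p)) hp).comp
    (f := fun p : E4 => ((r, s, p) : ℝ × ℝ × E4)) p (by fun_prop)

theorem differentiableAt_Fs (hA : ∀ v, AcOK (aw b v) (T v) (c v) W) (h0 : 0 < h)
    {p : E4} (hp : p ≠ 0) : DifferentiableAt ℝ (Fs b T c M W h r s) p :=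
  (contDiffAt_Fs hA h0 hp).differentiableAt (by norm_num)

/-! ### homogeneity -/

theorem E_act {a : ℕ} {S : Finset (ℕ × ℕ)} {d : ℕ × ℕ → ℂ} (hS : Adm a S) {l ζ : ℝ} (hl : 0 < l)
    (v w : ℂ) : E S (cz a d (ζ * l⁻¹)) ((l : ℂ) ^ a * v) ((l : ℂ) * w) =
      (l : ℂ) ^ 15 * E S (cz a d ζ) v w := by
  unfold E cz
  rw [Finset.mul_sum]
  refine Finset.sum_congr rfl fun m hm => ?_
  obtain ⟨-, -, h3⟩ := hS m hm
  have hl' : (l : ℂ) ≠ 0 := by exact_mod_cast hl.ne'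
  have e : (l : ℂ) ^ (a * m.1 + m.2) = (l : ℂ) ^ 15 * (l : ℂ) ^ ex a m := by
    rw [← pow_add]
    unfold ex
    congr 1
    omega
  have e2 : ((ζ * l⁻¹ : ℝ) : ℂ) ^ ex a m * (l : ℂ) ^ (a * m.1 + m.2) =
      (l : ℂ) ^ 15 * (ζ : ℂ) ^ ex a m := by
    rw [e]
    push_cast
    rw [mul_pow, inv_pow]
    field_simp
  calc d m * ((ζ * l⁻¹ : ℝ) : ℂ) ^ ex a m * (((l : ℂ) ^ a * v) ^ m.1 * ((l : ℂ) * w) ^ m.2)
      = d m * (((ζ * l⁻¹ : ℝ) : ℂ) ^ ex a m * (l : ℂ) ^ (a * m.1 + m.2)) * (v ^ m.1 * w ^ m.2) := by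
        rw [mul_pow, mul_pow, ← pow_mul, pow_add]; ring
    _ = (l : ℂ) ^ 15 * (d m * (ζ : ℂ) ^ ex a m * (v ^ m.1 * w ^ m.2)) := by rw [e2]; ring

theorem exp15 (t : ℝ) : ((Real.exp (t / 15) : ℝ) : ℂ) ^ 15 = ((Real.exp t : ℝ) : ℂ) := by
  rw [← Complex.ofReal_pow, ← Real.exp_nat_mul]
  congr 2
  push_cast
  ring

theorem Co_act (t : ℝ) (p : E4) :
    Co b M (act (wt b) t p) = ((Real.exp t : ℝ) : ℂ) * Co b M p := by
  have h0 := act_coord b t p 0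
  have h1 := act_coord b t p 1
  have h2 := act_coord b t p 2
  have h3 := act_three b t p
  have c0 : (0 : Fin 3).castSucc = (0 : Fin 4) := rfl
  have c1 : (1 : Fin 3).castSucc = (1 : Fin 4) := rfl
  have c2 : (2 : Fin 3).castSucc = (2 : Fin 4) := rfl
  rw [c0] at h0
  rw [c1] at h1
  rw [c2] at h2
  unfold Co
  rw [h0, h1, h2, h3, ← exp15 t]
  set l := ((Real.exp (t / 15) : ℝ) : ℂ)
  unfold P aw
  cases b
  · simp only [cond_false, Matrix.cons_val_zero, Matrix.cons_val_one, Matrix.cons_val]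
    ring
  · simp only [cond_true, Matrix.cons_val_zero, Matrix.cons_val_one, Matrix.cons_val]
    ring

/-- **homogeneity.** -/
theorem Fs_act (hd : ∀ v, Adm (aw b v) (T v)) (hA : ∀ v, AcOK (aw b v) (T v) (c v) W)
    (h0 : 0 < h) (t : ℝ) {p : E4} (hp : p ≠ 0) :
    Fs b T c M W h r s (act (wt b) t p) = ((Real.exp t : ℝ) : ℂ) * Fs b T c M W h r s p := by
  unfold Fs
  rw [Ff_eq, Ff_eq]
  simp only
  rw [Co_act, mul_add]
  congr 1
  unfold Re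
  simp only
  rw [Finset.mul_sum]
  refine Finset.sum_congr rfl fun v _ => ?_
  have hl : 0 < Real.exp (t / 15) := Real.exp_pos _
  rw [quot_act, act_coord, act_three, sg_act h0 t hp]
  have e1 : r * (Real.exp (-(t / 15)) * sg b h p) = (r * sg b h p) * (Real.exp (t / 15))⁻¹ := by
    rw [Real.exp_neg]; ring
  rw [e1, E_act (hd v) hl]
  unfold Arms
  rw [(hA v).hom r _ _ _ hl, ← exp15 t]
  ring

theorem Fs_smul (hd : ∀ v, Adm (aw b v) (T v)) (hA : ∀ v, AcOK (aw b v) (T v) (c v) W)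
    (h0 : 0 < h) (t : ℝ) (p : E4) (hz : Fs b T c M W h r s 0 = 0) :
    Fs b T c M W h r s (act (wt b) t p) = Real.exp t • Fs b T c M W h r s p := by
  by_cases hp : p = 0
  · rw [hp, act_zero, hz, smul_zero]
  · rw [Fs_act hd hA h0 t hp, Complex.real_smul]

theorem Fs_zero (hd : ∀ v, Adm (aw b v) (T v)) (hA : ∀ v, AcOK (aw b v) (T v) (c v) W) :
    Fs b T c M W h r s 0 = 0 := by
  unfold Fs
  rw [Ff_eq]
  have h1 : Co b M (0 : E4) = 0 := by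
    unfold Co P
    cases b <;> simp
  have h2 : Re b T c W (sg b h) (r, s, (0 : E4)) = 0 := by
    unfold Re
    refine Finset.sum_eq_zero fun v _ => ?_
    have e1 : E (T v) (cz (aw b v) (c v) (r * sg b h 0)) ((0 : E4) v.castSucc) ((0 : E4) 3) = 0 := by
      unfold E
      refine Finset.sum_eq_zero fun m hm => ?_
      obtain ⟨h1, -, -⟩ := hd v m hm
      simp [show m.1 ≠ 0 by omega]
    have e2 : Arms b T c W r v ((0 : E4) v.castSucc, (0 : E4) 3) = 0 := by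
      refine (hA v).supp r _ _ ?_
      simp [aw_pos b v |>.ne']
    simp only at e1 e2 ⊢
    rw [e1, e2, mul_zero, mul_zero, add_zero]
  simp only [h1, h2, add_zero]

end Crest.Agent.R267.NdF_484
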