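import Mathlib
import Crest.Agent.R267.NdF_484

/-!
# S0406, T3N entrance: estimates and derivatives along lines (helper484)
-/

set_option autoImplicit false
set_option linter.unusedSectionVars false

noncomputable section

open Set Filter Topology Finset
open scoped ContDiff
open Crest.Agent.R267.Cone_808 Crest.Agent.R267.Hm_951
open Crest.Agent.R267.NdP_484 Crest.Agent.R267.NdR_484 Crest.Agent.R267.NdQ_484
open Crest.Agent.R267.NdS_484 Crest.Agent.R267.NdSt_484 Crest.Agent.R267.NdF_484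
open Crest.Agent.R267.Amal_52 (g_nonneg N_nonneg bw_pos aw_pos g_eq_zero g_le_N N_eq_zero t1_lt
  lt_t1 th_zero th_one contDiff_th contDiff_g contDiff_N continuous_g continuous_N act_coord
  act_three g_act N_act wt_pos continuousAt_quot)

namespace Crest.Agent.R267.NdG_484

/-! ### bounds of the scaled arms -/

section bounds

variable {a : ℕ} {T : Finset (ℕ × ℕ)} {c : ℕ × ℕ → ℂ} {r n om : ℝ}

theorem Bd_cz (hT : Adm a T) (hr : 0 ≤ r) (hn : 0 ≤ n) (hrn : r * n ≤ 1) (hom : 0 ≤ om) {B : ℝ}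
    (hB : ∀ j ≤ 14, n ^ (15 - j) * om ^ j ≤ B) : Bd a T (cz a c r) n om ≤ Kc T c * B := by
  unfold Bd Kc
  rw [Finset.sum_mul]
  refine Finset.sum_le_sum fun q hq => ?_
  obtain ⟨h1, h2, h3⟩ := hT q hq
  have e1 : n ^ (a * q.1) = n ^ ex a q * n ^ (15 - q.2) := by
    rw [← pow_add]
    unfold ex
    congr 1
    omega
  unfold cz
  rw [norm_mul, norm_pow, Complex.norm_real, Real.norm_eq_abs, abs_of_nonneg hr, e1]
  have h4 : (r * n) ^ ex a q ≤ 1 := pow_le_one₀ (mul_nonneg hr hn) hrn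
  calc ((q.1 : ℝ) + q.2 + 1) * (‖c q‖ * r ^ ex a q) * (n ^ ex a q * n ^ (15 - q.2) * om ^ q.2)
      = ((q.1 : ℝ) + q.2 + 1) * ‖c q‖ * ((r * n) ^ ex a q * (n ^ (15 - q.2) * om ^ q.2)) := by
        rw [mul_pow]; ring
    _ ≤ ((q.1 : ℝ) + q.2 + 1) * ‖c q‖ * (1 * B) := by
        gcongr
        exact hB q.2 h2
    _ = _ := by ring

theorem Bd_eps (hT : Adm a T) (hr : 0 ≤ r) (hn : 0 ≤ n) (hrn : r * n ≤ 1) (hom : 0 ≤ om)
    {eta : ℝ} (he : 0 ≤ eta) (he1 : eta ≤ 1) (h : n ≤ eta * om) :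
    Bd a T (cz a c r) n om ≤ Kc T c * (eta * om ^ 15) := by
  refine Bd_cz hT hr hn hrn hom fun j hj => ?_
  have e : om ^ 15 = om ^ (15 - j) * om ^ j := by rw [← pow_add]; congr 1; omega
  calc n ^ (15 - j) * om ^ j ≤ (eta * om) ^ (15 - j) * om ^ j := by gcongr
    _ = eta ^ (15 - j) * om ^ 15 := by rw [mul_pow, e]; ring
    _ ≤ eta ^ 1 * om ^ 15 := by
        refine mul_le_mul_of_nonneg_right ?_ (by positivity)
        exact pow_le_pow_of_le_one he he1 (by omega)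
    _ = _ := by rw [pow_one]

theorem Bd_two (hT : Adm a T) (hr : 0 ≤ r) (hn : 0 ≤ n) (hrn : r * n ≤ 1) (hn2 : n ≤ 2)
    (hom : 1 ≤ om) : Bd a T (cz a c r) n om ≤ Kc T c * (2 ^ 15 * om ^ 14) := by
  refine Bd_cz hT hr hn hrn (by linarith) fun j hj => ?_
  have h1 : n ^ (15 - j) ≤ 2 ^ 15 := by
    calc n ^ (15 - j) ≤ 2 ^ (15 - j) := by gcongr
      _ ≤ 2 ^ 15 := pow_le_pow_right₀ (by norm_num) (by omega)
  have h2 : om ^ j ≤ om ^ 14 := pow_le_pow_right₀ hom hj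
  exact mul_le_mul h1 h2 (by positivity) (by positivity)

end bounds

theorem E_zero {T : Finset (ℕ × ℕ)} {a : ℕ} (hT : Adm a T) (c : ℕ × ℕ → ℂ) (w : ℂ) :
    E T c 0 w = 0 := by
  unfold E
  refine Finset.sum_eq_zero fun q hq => ?_
  obtain ⟨h1, -, -⟩ := hT q hq
  simp [show q.1 ≠ 0 by omega]

/-! ### derivatives along lines -/

theorem hasDerivAt_line (v a : ℂ) : HasDerivAt (fun ε : ℝ => v + ε • a) a 0 := by
  simpa using ((hasDerivAt_id (0 : ℝ)).smul_const a).const_add v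

theorem hasDerivAt_E (T : Finset (ℕ × ℕ)) (c : ℕ × ℕ → ℂ) (v w a b : ℂ) :
    HasDerivAt (fun ε : ℝ => E T c (v + ε • a) (w + ε • b))
      (Ev T c v w * a + Ew T c v w * b) 0 := by
  unfold E Ev Ew
  have h1 := hasDerivAt_line v a
  have h2 := hasDerivAt_line w b
  have h : ∀ q ∈ T, HasDerivAt (fun ε : ℝ => c q * ((v + ε • a) ^ q.1 * (w + ε • b) ^ q.2))
      (c q * (((q.1 : ℂ) * v ^ (q.1 - 1) * a) * w ^ q.2 +
        v ^ q.1 * ((q.2 : ℂ) * w ^ (q.2 - 1) * b))) 0 := by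
    intro q _
    have h3 := h1.fun_pow q.1
    have h4 := h2.fun_pow q.2
    have h5 := (h3.fun_mul h4).const_mul (c q)
    refine h5.congr_deriv ?_
    simp
  refine (HasDerivAt.fun_sum h).congr_deriv ?_
  rw [Finset.sum_mul, Finset.sum_mul, ← Finset.sum_add_distrib]
  exact Finset.sum_congr rfl fun q _ => by ring

theorem hasDerivAt_P (b : Bool) (x y z a1 a2 a3 : ℂ) :
    HasDerivAt (fun ε : ℝ => P b (x + ε • a1) ((y + ε • a2) * (z + ε • a3)))
      (Ps b x (y * z) * a1 + Pt b x (y * z) * (z * a2 + y * a3)) 0 := by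
  have hx := hasDerivAt_line x a1
  have hy := hasDerivAt_line y a2
  have hz := hasDerivAt_line z a3
  have ht := hy.fun_mul hz
  cases b
  · unfold P Ps Pt
    simp only [cond_false]
    have h1 := (hx.fun_mul (ht.fun_pow 2)).fun_add ((hx.fun_pow 3).fun_mul ht)
    refine h1.congr_deriv ?_
    simp
    ring
  · unfold P Ps Pt
    simp only [cond_true]
    have h1 := ((hx.fun_pow 2).fun_mul ht).fun_add (hx.fun_mul (ht.fun_pow 3))
    refine h1.congr_deriv ?_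
    simp
    ring

theorem hasDerivAt_Co (b : Bool) (M : ℝ) (p y : E4) :
    HasDerivAt (fun ε : ℝ => Co b M (p + ε • y))
      (M * ∑ v, dP b p v * y v.castSucc + 15 * p 3 ^ 14 * y 3) 0 := by
  unfold Co
  have h1 := (hasDerivAt_P b (p 0) (p 1) (p 2) (y 0) (y 1) (y 2)).const_mul (M : ℂ)
  have h2 := (hasDerivAt_line (p 3) (y 3)).fun_pow 15
  refine (h1.fun_add h2).congr_deriv ?_
  have d0 : dP b p 0 = Ps b (p 0) (p 1 * p 2) := rfl
  have d1 : dP b p 1 = Pt b (p 0) (p 1 * p 2) * p 2 := rfl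
  have d2 : dP b p 2 = Pt b (p 0) (p 1 * p 2) * p 1 := rfl
  have c0 : (0 : Fin 3).castSucc = (0 : Fin 4) := rfl
  have c1 : (1 : Fin 3).castSucc = (1 : Fin 4) := rfl
  have c2 : (2 : Fin 3).castSucc = (2 : Fin 4) := rfl
  rw [Fin.sum_univ_three, d0, d1, d2, c0, c1, c2, zero_smul, add_zero,
    show (15 - 1 : ℕ) = 14 from rfl, show ((15 : ℕ) : ℂ) = 15 from by norm_num]
  ring

/-- derivative from a line. -/
theorem fderiv_of_line {F : E4 → ℂ} {p y : E4} {d : ℂ} (hF : DifferentiableAt ℝ F p)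
    (hd : HasDerivAt (fun ε : ℝ => F (p + ε • y)) d 0) : fderiv ℝ F p y = d := by
  have h1 : HasDerivAt (fun ε : ℝ => p + ε • y) y 0 := by
    simpa using ((hasDerivAt_id (0 : ℝ)).smul_const y).const_add p
  have h2 : HasFDerivAt F (fderiv ℝ F p) (p + (0 : ℝ) • y) := by
    rw [zero_smul, add_zero]; exact hF.hasFDerivAt
  exact (h2.comp_hasDerivAt 0 h1).unique hd

/-- the embedding of a coordinate. -/
def sgl (i : Fin 4) : ℂ →ₗ[ℝ] E4 := LinearMap.single ℝ (fun _ : Fin 4 => ℂ) i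

theorem sgl_apply (i : Fin 4) (h : ℂ) : sgl i h = Pi.single i h := rfl

theorem onto_coord {F : E4 → ℂ} {p : E4} (i : Fin 4)
    (h : ∀ z : ℂ, z ≠ 0 → fderiv ℝ F p (Pi.single i z) ≠ 0) (β : ℂ) :
    ∃ y, fderiv ℝ F p y = β := by
  let L : ℂ →ₗ[ℝ] ℂ := (fderiv ℝ F p : E4 →ₗ[ℝ] ℂ).comp (sgl i)
  obtain ⟨z, hz⟩ := Amal_52.onto_pert L (fun z hz => h z hz) β
  exact ⟨_, hz⟩

/-- line near a point. -/
theorem ev_line {p y : E4} {s : E4 → Prop} (h : ∀ᶠ q in 𝓝 p, s q) :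
    ∀ᶠ ε : ℝ in 𝓝 0, s (p + ε • y) := by
  have hc : Tendsto (fun ε : ℝ => p + ε • y) (𝓝 0) (𝓝 p) := by
    have : Continuous fun ε : ℝ => p + ε • y := by fun_prop
    have := this.tendsto 0
    simpa using this
  exact hc.eventually h

end Crest.Agent.R267.NdG_484
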