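import Mathlib
import Crest.Agent.R267.NdG_484

/-!
# S0406, T3N entrance: regularity of `F_{r,s}`, far regions (helper484)
-/

set_option autoImplicit false
set_option linter.unusedSectionVars false

noncomputable section

open Set Filter Topology Finset
open scoped ContDiff
open Crest.Agent.R267.Cone_808 Crest.Agent.R267.Hm_951
open Crest.Agent.R267.NdP_484 Crest.Agent.R267.NdR_484 Crest.Agent.R267.NdQ_484
open Crest.Agent.R267.NdS_484 Crest.Agent.R267.NdSt_484 Crest.Agent.R267.NdF_484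
open Crest.Agent.R267.NdG_484
open Crest.Agent.R267.Amal_52 (g_nonneg N_nonneg bw_pos aw_pos g_eq_zero g_le_N N_eq_zero t1_lt
  lt_t1 th_zero th_one contDiff_th contDiff_g contDiff_N continuous_g continuous_N act_coord
  act_three g_act N_act wt_pos continuousAt_quot)

namespace Crest.Agent.R267.NdH_484

variable {b : Bool} {T : Fin 3 → Finset (ℕ × ℕ)} {c : Fin 3 → ℕ × ℕ → ℂ} {M W h r s : ℝ} {p : E4}

theorem N_le (hS : Ss b h p = 1) : N b p ≤ 4 / 3 := by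
  have := le_Ss b h p
  rw [hS] at this
  linarith

theorem P_le' {n : ℝ} (hn : 0 ≤ n) (hv : ∀ v : Fin 3, ‖p v.castSucc‖ ≤ n ^ aw b v) :
    ‖P b (p 0) (p 1 * p 2)‖ ≤ 4 * n ^ 15 := by
  have h0 : ‖p 0‖ ≤ n ^ aw b 0 := hv 0
  have h1 : ‖p 1‖ ≤ n ^ aw b 1 := hv 1
  have h2 : ‖p 2‖ ≤ n ^ aw b 2 := hv 2
  refine P_le b hn (h0.trans (le_of_eq ?_)) ?_
  · congr 1; unfold aw al; cases b <;> rfl
  · rw [norm_mul]
    calc ‖p 1‖ * ‖p 2‖ ≤ n ^ aw b 1 * n ^ aw b 2 := by gcongr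
      _ = n ^ be b := by
        rw [← pow_add]
        congr 1
        unfold aw be; cases b <;> rfl

/-- the value on the star sphere. -/
theorem Fs_one (hS : Ss b h p = 1) : Fs b T c M W h r s p = Co b M p +
    ∑ v, (((1 - s : ℝ) : ℂ) * E (T v) (cz (aw b v) (c v) r) (p v.castSucc) (p 3) +
      ((s * th (g b v p / N b p) : ℝ) : ℂ) * Arms b T c W r v (p v.castSucc, p 3)) := by
  unfold Fs
  rw [Ff_eq]
  unfold Re
  simp only [sg_one hS, mul_one]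

/-- **(a)** no zeros near the `w`-axis. -/
theorem no_zero (hd : ∀ v, Adm (aw b v) (T v)) (hA : ∀ v, AcOK (aw b v) (T v) (c v) W) {C0 : ℝ}
    (hC : ∀ v, Kc (T v) (c v) ≤ C0) {eps : ℝ} (he : 0 < eps) (he2 : eps ≤ 1 / 2) (hM : 0 ≤ M)
    (heM : (4 * M + 3 * C0) * eps < 1) (heW : 2 * W ^ 2 * eps ^ 2 ≤ 1)
    (hr0 : 0 ≤ r) (hr1 : r ≤ 1 / 2) (hs0 : 0 ≤ s) (hs1 : s ≤ 1)
    (hh : h = eps ^ 60 / 4) (hS : Ss b h p = 1) (hN : N b p ≤ 3 * h * Ds b p) :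
    Fs b T c M W h r s p ≠ 0 := by
  have h0 : 0 < h := by rw [hh]; positivity
  have hp := ne_of_Ss h0 hS
  obtain ⟨n, hn0, hn60, hnv⟩ := exists_n b p
  have hN43 := N_le hS
  have hn2 : n ≤ 2 := n_le_two (hn60 ▸ hN43)
  have hh12 : h ≤ 1 / 12 := by
    rw [hh]
    have : eps ^ 60 ≤ (1 / 2) ^ 2 := by
      calc eps ^ 60 ≤ eps ^ 2 := pow_le_pow_of_le_one he.le (by linarith) (by norm_num)
        _ ≤ (1 / 2) ^ 2 := by gcongr
    linarith
  have hN0 := N_nonneg b p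
  have hD : Ds b p = N b p + ‖p 3‖ ^ 60 := rfl
  have hw60 : 0 ≤ ‖p 3‖ ^ 60 := pow_nonneg (norm_nonneg _) _
  have hNe : N b p ≤ (eps * ‖p 3‖) ^ 60 := by
    rw [mul_pow]
    rw [hD] at hN
    have e : eps ^ 60 = 4 * h := by rw [hh]; ring
    rw [e]
    have h3 : (3 / 4) * N b p ≤ 3 * h * ‖p 3‖ ^ 60 := by nlinarith
    linarith
  have hne : n ≤ eps * ‖p 3‖ := by
    rw [← hn60] at hNe
    exact (pow_le_pow_iff_left₀ hn0 (by positivity) (by norm_num)).1 hNe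
  have hw : 0 < ‖p 3‖ := by
    rcases (norm_nonneg (p 3)).eq_or_lt with h1 | h1
    · exfalso
      rw [← h1, mul_zero] at hne
      have h2 : n = 0 := le_antisymm hne hn0
      have h3 : Ds b p = 0 := by
        rw [hD, ← hn60, h2, ← h1]
        norm_num
      exact (Ds_pos (b := b) hp).ne' h3
    · exact h1
  have hC0 : 0 ≤ C0 := (Kc_nonneg _ _).trans (hC 0)
  have he1 : eps ≤ 1 := by linarith
  have hrn : r * n ≤ 1 := by nlinarith
  have hB0 : 0 ≤ eps * ‖p 3‖ ^ 15 := by positivity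
  -- the arms vanish
  have hArm : ∀ v, Arms b T c W r v (p v.castSucc, p 3) = 0 := by
    intro v
    refine (hA v).supp r _ _ ?_
    have h1 : ‖p v.castSucc‖ ≤ eps * ‖p 3‖ ^ aw b v := by
      calc ‖p v.castSucc‖ ≤ n ^ aw b v := hnv v
        _ ≤ (eps * ‖p 3‖) ^ aw b v := by gcongr
        _ = eps ^ aw b v * ‖p 3‖ ^ aw b v := mul_pow _ _ _
        _ ≤ eps ^ 1 * ‖p 3‖ ^ aw b v := by
          refine mul_le_mul_of_nonneg_right ?_ (by positivity)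
          exact pow_le_pow_of_le_one he.le he1 (aw_pos b v)
        _ = _ := by rw [pow_one]
    calc 2 * W ^ 2 * ‖p v.castSucc‖ ^ 2 ≤ 2 * W ^ 2 * (eps * ‖p 3‖ ^ aw b v) ^ 2 := by gcongr
      _ = (2 * W ^ 2 * eps ^ 2) * ‖p 3‖ ^ (2 * aw b v) := by rw [mul_pow, ← pow_mul]; ring
      _ ≤ 1 * ‖p 3‖ ^ (2 * aw b v) := by gcongr
      _ = _ := one_mul _
  have hE : ∀ v, ‖((1 - s : ℝ) : ℂ) * E (T v) (cz (aw b v) (c v) r) (p v.castSucc) (p 3)‖ ≤
      C0 * (eps * ‖p 3‖ ^ 15) := by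
    intro v
    rw [norm_mul, Complex.norm_real, Real.norm_eq_abs, abs_of_nonneg (by linarith)]
    have h1 := (E_le (c := cz (aw b v) (c v) r) (w := p 3) (hd v) hn0 (hnv v)).trans
      (Bd_eps (hd v) hr0 hn0 hrn (norm_nonneg _) he.le he1 hne)
    calc (1 - s) * ‖E (T v) (cz (aw b v) (c v) r) (p v.castSucc) (p 3)‖
        ≤ 1 * ‖E (T v) (cz (aw b v) (c v) r) (p v.castSucc) (p 3)‖ := by
          gcongr
          linarith
      _ = ‖E (T v) (cz (aw b v) (c v) r) (p v.castSucc) (p 3)‖ := one_mul _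
      _ ≤ Kc (T v) (c v) * (eps * ‖p 3‖ ^ 15) := h1
      _ ≤ _ := by gcongr; exact hC v
  have hMP : ‖(M : ℂ) * P b (p 0) (p 1 * p 2)‖ ≤ 4 * M * (eps * ‖p 3‖ ^ 15) := by
    rw [norm_mul, Complex.norm_real, Real.norm_eq_abs, abs_of_nonneg hM]
    calc M * ‖P b (p 0) (p 1 * p 2)‖ ≤ M * (4 * n ^ 15) := by
          gcongr
          exact P_le' hn0 hnv
      _ ≤ M * (4 * (eps * ‖p 3‖) ^ 15) := by gcongr
      _ = 4 * M * (eps ^ 15 * ‖p 3‖ ^ 15) := by rw [mul_pow]; ring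
      _ ≤ 4 * M * (eps ^ 1 * ‖p 3‖ ^ 15) := by
          have : eps ^ 15 ≤ eps ^ 1 := pow_le_pow_of_le_one he.le he1 (by norm_num)
          gcongr
      _ = _ := by rw [pow_one]
  intro hz
  rw [Fs_one hS] at hz
  simp only [hArm, mul_zero, add_zero] at hz
  rw [Fin.sum_univ_three] at hz
  unfold Co at hz
  have hw15 : p 3 ^ 15 = -((M : ℂ) * P b (p 0) (p 1 * p 2)) -
      ((1 - s : ℝ) : ℂ) * E (T 0) (cz (aw b 0) (c 0) r) (p (Fin.castSucc 0)) (p 3) -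
      ((1 - s : ℝ) : ℂ) * E (T 1) (cz (aw b 1) (c 1) r) (p (Fin.castSucc 1)) (p 3) -
      ((1 - s : ℝ) : ℂ) * E (T 2) (cz (aw b 2) (c 2) r) (p (Fin.castSucc 2)) (p 3) := by
    linear_combination hz
  have h1 := congrArg norm hw15
  rw [norm_pow] at h1
  have h2 := norm_sub_le (-((M : ℂ) * P b (p 0) (p 1 * p 2)) -
      ((1 - s : ℝ) : ℂ) * E (T 0) (cz (aw b 0) (c 0) r) (p (Fin.castSucc 0)) (p 3) -
      ((1 - s : ℝ) : ℂ) * E (T 1) (cz (aw b 1) (c 1) r) (p (Fin.castSucc 1)) (p 3))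
      (((1 - s : ℝ) : ℂ) * E (T 2) (cz (aw b 2) (c 2) r) (p (Fin.castSucc 2)) (p 3))
  have h3 := norm_sub_le (-((M : ℂ) * P b (p 0) (p 1 * p 2)) -
      ((1 - s : ℝ) : ℂ) * E (T 0) (cz (aw b 0) (c 0) r) (p (Fin.castSucc 0)) (p 3))
      (((1 - s : ℝ) : ℂ) * E (T 1) (cz (aw b 1) (c 1) r) (p (Fin.castSucc 1)) (p 3))
  have h4 := norm_sub_le (-((M : ℂ) * P b (p 0) (p 1 * p 2)))
      (((1 - s : ℝ) : ℂ) * E (T 0) (cz (aw b 0) (c 0) r) (p (Fin.castSucc 0)) (p 3))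
  rw [norm_neg] at h4
  have k0 := hE 0
  have k1 := hE 1
  have k2 := hE 2
  have hw15' : 0 < ‖p 3‖ ^ 15 := by positivity
  have hfin : ‖p 3‖ ^ 15 ≤ ((4 * M + 3 * C0) * eps) * ‖p 3‖ ^ 15 := by nlinarith
  nlinarith

/-! ### the far region -/

theorem hub_congr {q : E4} (hq : ∀ v : Fin 3, q v.castSucc = p v.castSucc) (v : Fin 3) :
    g b v q = g b v p := by
  unfold g
  rw [hq]

theorem N_congr {q : E4} (hq : ∀ v : Fin 3, q v.castSucc = p v.castSucc) : N b q = N b p :=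
  Finset.sum_congr rfl fun v _ => hub_congr hq v

theorem Qs_congr {q : E4} (hq : ∀ v : Fin 3, q v.castSucc = p v.castSucc) : Qs b q = Qs b p := by
  unfold Qs
  rw [N_congr hq]
  congr 1
  exact Finset.sum_congr rfl fun v _ => by rw [hub_congr hq]

theorem norm_le_two (hN : N b p ≤ 4 / 3) (v : Fin 3) : ‖p v.castSucc‖ ≤ 2 := by
  by_contra hn
  push Not at hn
  have h1 : g b v p ≤ 4 / 3 := (g_le_N b v p).trans hN
  unfold g at h1
  have hb := bw_pos b v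
  have h2 : (2 : ℝ) ^ 1 ≤ ‖p v.castSucc‖ ^ (2 * bw b v) := by
    calc (2 : ℝ) ^ 1 ≤ 2 ^ (2 * bw b v) := pow_le_pow_right₀ (by norm_num) (by omega)
      _ ≤ ‖p v.castSucc‖ ^ (2 * bw b v) := by gcongr
  linarith

/-- the derivative estimate of the cut off arms. -/
def Der (b : Bool) (T : Fin 3 → Finset (ℕ × ℕ)) (c : Fin 3 → ℕ × ℕ → ℂ) (W C2 : ℝ) : Prop :=
  ∀ v : Fin 3, ∀ r : ℝ, 0 < r → r ≤ 1 → ∀ u w : ℂ, u ≠ 0 → ‖u‖ ≤ 2 → 1 ≤ ‖w‖ → ∀ h : ℂ, ∃ d : ℂ,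
    HasDerivAt (fun ε : ℝ => Ac (aw b v) (T v) (c v) W r (u, w + (ε : ℂ) * h)) d 0 ∧
      ‖d‖ ≤ C2 * ‖w‖ ^ 13 * ‖h‖

/-- near a point of the hub region the function is given on the star sphere. -/
theorem ev_sg (h0 : 0 < h) (hp : p ≠ 0) (hN : 2 * h * Ds b p < N b p) :
    ∀ᶠ q in 𝓝 p, sg b h q = Qs b q ^ (-(1 / 60) : ℝ) := by
  filter_upwards [ev_Qs (b := b) h0 hp hN] with q hq
  unfold sg
  rw [hq]

/-- **(b)** the far region. -/
theorem reg_far (hd : ∀ v, Adm (aw b v) (T v)) (hA : ∀ v, AcOK (aw b v) (T v) (c v) W) {C0 : ℝ}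
    (hC : ∀ v, Kc (T v) (c v) ≤ C0) {C2 : ℝ} (hC2 : 0 ≤ C2) (hder : Der b T c W C2) {W1 : ℝ}
    (hW1 : 1 ≤ W1) (hW1' : 3 * (2 ^ 15 * C0) + 3 * C2 < 15 * W1) (h0 : 0 < h)
    (hr0 : 0 < r) (hr1 : r ≤ 1 / 2) (hs0 : 0 ≤ s) (hs1 : s ≤ 1)
    (hS : Ss b h p = 1) (hN : 2 * h * Ds b p < N b p) (hw : W1 ≤ ‖p 3‖) (β : ℂ) :
    ∃ y, fderiv ℝ (Fs b T c M W h r s) p y = β := by
  have hp := ne_of_Ss h0 hS
  have hN43 := N_le hS
  obtain ⟨n, hn0, hn60, hnv⟩ := exists_n b p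
  have hn2 : n ≤ 2 := n_le_two (hn60 ▸ hN43)
  have hrn : r * n ≤ 1 := by nlinarith
  have hw1 : 1 ≤ ‖p 3‖ := hW1.trans hw
  have hQ : Qs b p = 1 := by rw [← hS, (ev_Qs (b := b) h0 hp hN).self_of_nhds]
  refine onto_coord 3 (fun z hz => ?_) β
  set y : E4 := Pi.single 3 z with hy
  have hyv : ∀ v : Fin 3, y v.castSucc = 0 := by
    intro v
    rw [hy, Pi.single_apply, if_neg]
    exact (Fin.castSucc_lt_last v).ne
  have hy3 : y 3 = z := by rw [hy, Pi.single_eq_same]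
  have hcoord : ∀ (ε : ℝ) (v : Fin 3), (p + ε • y) v.castSucc = p v.castSucc := by
    intro ε v
    rw [Pi.add_apply, Pi.smul_apply, hyv, smul_zero, add_zero]
  have hcoord3 : ∀ ε : ℝ, (p + ε • y) 3 = p 3 + ε • z := by
    intro ε
    rw [Pi.add_apply, Pi.smul_apply, hy3]
  -- derivatives of the arms
  have hAd : ∀ v, ∃ d : ℂ, HasDerivAt (fun ε : ℝ =>
      Arms b T c W r v (p v.castSucc, p 3 + ε • z)) d 0 ∧ ‖d‖ ≤ C2 * ‖p 3‖ ^ 13 * ‖z‖ := by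
    intro v
    by_cases hv : p v.castSucc = 0
    · refine ⟨0, ?_, by rw [norm_zero]; positivity⟩
      have e : (fun ε : ℝ => Arms b T c W r v (p v.castSucc, p 3 + ε • z)) = fun _ => 0 := by
        funext ε
        refine (hA v).supp r _ _ ?_
        rw [hv, norm_zero]
        simp
      rw [e]
      exact hasDerivAt_const _ _
    · obtain ⟨d, h1, h2⟩ := hder v r hr0 (by linarith) (p v.castSucc) (p 3) hv
        (norm_le_two hN43 v) hw1 z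
      refine ⟨d, ?_, h2⟩
      have e : (fun ε : ℝ => Arms b T c W r v (p v.castSucc, p 3 + ε • z)) =
          fun ε : ℝ => Ac (aw b v) (T v) (c v) W r (p v.castSucc, p 3 + (ε : ℂ) * z) := by
        funext ε
        rw [Complex.real_smul]
        rfl
      rw [e]
      exact h1
  choose dA hdA hdA' using hAd
  -- the derivative of the whole function
  have hder : HasDerivAt (fun ε : ℝ => Fs b T c M W h r s (p + ε • y))
      ((M * ∑ v, dP b p v * y v.castSucc + 15 * p 3 ^ 14 * y 3) +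
        ∑ v, (((1 - s : ℝ) : ℂ) * (Ev (T v) (cz (aw b v) (c v) r) (p v.castSucc) (p 3) * 0 +
            Ew (T v) (cz (aw b v) (c v) r) (p v.castSucc) (p 3) * z) +
          ((s * th (g b v p / N b p) : ℝ) : ℂ) * dA v)) 0 := by
    have h1 : HasDerivAt (fun ε : ℝ => Co b M (p + ε • y) +
        ∑ v, (((1 - s : ℝ) : ℂ) * E (T v) (cz (aw b v) (c v) r) (p v.castSucc + ε • (0 : ℂ))
            (p 3 + ε • z) +
          ((s * th (g b v p / N b p) : ℝ) : ℂ) * Arms b T c W r v (p v.castSucc, p 3 + ε • z)))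
        ((M * ∑ v, dP b p v * y v.castSucc + 15 * p 3 ^ 14 * y 3) +
        ∑ v, (((1 - s : ℝ) : ℂ) * (Ev (T v) (cz (aw b v) (c v) r) (p v.castSucc) (p 3) * 0 +
            Ew (T v) (cz (aw b v) (c v) r) (p v.castSucc) (p 3) * z) +
          ((s * th (g b v p / N b p) : ℝ) : ℂ) * dA v)) 0 := by
      refine (hasDerivAt_Co b M p y).fun_add (HasDerivAt.fun_sum fun v _ => ?_)
      exact ((hasDerivAt_E (T v) (cz (aw b v) (c v) r) (p v.castSucc) (p 3) 0 z).const_mul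
        _).fun_add ((hdA v).const_mul _)
    refine h1.congr_of_eventuallyEq ?_
    filter_upwards [ev_line (y := y) (ev_sg (b := b) h0 hp hN)] with ε hε
    have hQε : Qs b (p + ε • y) = 1 := by rw [Qs_congr (hcoord ε), hQ]
    rw [hQε, Real.one_rpow] at hε
    unfold Fs
    rw [Ff_eq]
    unfold Re
    simp only [hε, mul_one, hcoord, hcoord3, smul_zero, add_zero, N_congr (hcoord ε),
      hub_congr (hcoord ε)]
  rw [fderiv_of_line (differentiableAt_Fs hA h0 hp) hder]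
  simp only [hyv, hy3, mul_zero, Finset.sum_const_zero, zero_add]
  -- the estimate
  have hC0 : 0 ≤ C0 := (Kc_nonneg _ _).trans (hC 0)
  have hz' : 0 < ‖z‖ := norm_pos_iff.2 hz
  have hw0 : 0 < ‖p 3‖ := by linarith
  have hEw : ∀ v, ‖Ew (T v) (cz (aw b v) (c v) r) (p v.castSucc) (p 3)‖ ≤
      2 ^ 15 * C0 * ‖p 3‖ ^ 13 := by
    intro v
    have h1 := (Ew_le (c := cz (aw b v) (c v) r) (w := p 3) (hd v) hn0 (hnv v)).trans
      (Bd_two (hd v) hr0.le hn0 hrn hn2 hw1)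
    rw [norm_mul] at h1
    have h2 : Kc (T v) (c v) * (2 ^ 15 * ‖p 3‖ ^ 14) ≤ ‖p 3‖ * (2 ^ 15 * C0 * ‖p 3‖ ^ 13) := by
      calc Kc (T v) (c v) * (2 ^ 15 * ‖p 3‖ ^ 14) ≤ C0 * (2 ^ 15 * ‖p 3‖ ^ 14) := by
            gcongr
            exact hC v
        _ = _ := by ring
    exact le_of_mul_le_mul_left (h1.trans h2) hw0
  have hterm : ∀ v, ‖((1 - s : ℝ) : ℂ) * (Ew (T v) (cz (aw b v) (c v) r) (p v.castSucc) (p 3) * z) +
      ((s * th (g b v p / N b p) : ℝ) : ℂ) * dA v‖ ≤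
      (2 ^ 15 * C0 + C2) * ‖p 3‖ ^ 13 * ‖z‖ := by
    intro v
    refine (norm_add_le _ _).trans ?_
    rw [norm_mul, norm_mul, norm_mul, Complex.norm_real, Complex.norm_real, Real.norm_eq_abs,
      Real.norm_eq_abs, abs_of_nonneg (by linarith : 0 ≤ 1 - s),
      abs_of_nonneg (mul_nonneg hs0 (th_nonneg _))]
    have h1 : (1 - s) * (‖Ew (T v) (cz (aw b v) (c v) r) (p v.castSucc) (p 3)‖ * ‖z‖) ≤
        1 * (2 ^ 15 * C0 * ‖p 3‖ ^ 13 * ‖z‖) := by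
      have := hEw v
      gcongr
      linarith
    have h2 : (s * th (g b v p / N b p)) * ‖dA v‖ ≤ 1 * (C2 * ‖p 3‖ ^ 13 * ‖z‖) := by
      have h3 := hdA' v
      have h4 : s * th (g b v p / N b p) ≤ 1 := by
        calc s * th (g b v p / N b p) ≤ 1 * 1 :=
              mul_le_mul hs1 (th_le_one _) (th_nonneg _) zero_le_one
          _ = 1 := one_mul 1
      gcongr
    calc _ ≤ 1 * (2 ^ 15 * C0 * ‖p 3‖ ^ 13 * ‖z‖) + 1 * (C2 * ‖p 3‖ ^ 13 * ‖z‖) := add_le_add h1 h2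
      _ = _ := by ring
  intro hzero
  have hsum : ‖∑ v, (((1 - s : ℝ) : ℂ) *
      (Ew (T v) (cz (aw b v) (c v) r) (p v.castSucc) (p 3) * z) +
      ((s * th (g b v p / N b p) : ℝ) : ℂ) * dA v)‖ ≤
      3 * ((2 ^ 15 * C0 + C2) * ‖p 3‖ ^ 13 * ‖z‖) := by
    refine (norm_sum_le _ _).trans ?_
    refine (Finset.sum_le_sum fun v _ => hterm v).trans (le_of_eq ?_)
    simp
  have hEq : 15 * p 3 ^ 14 * z = -∑ v, (((1 - s : ℝ) : ℂ) *
      (Ew (T v) (cz (aw b v) (c v) r) (p v.castSucc) (p 3) * z) +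
      ((s * th (g b v p / N b p) : ℝ) : ℂ) * dA v) := by
    linear_combination hzero
  have h1 := congrArg norm hEq
  rw [norm_neg, norm_mul, norm_mul, norm_pow, Complex.norm_ofNat] at h1
  have h2 : 15 * ‖p 3‖ ^ 14 * ‖z‖ ≤ (3 * (2 ^ 15 * C0) + 3 * C2) * ‖p 3‖ ^ 13 * ‖z‖ := by
    rw [h1]
    refine hsum.trans (le_of_eq (by ring))
  have h3 : (3 * (2 ^ 15 * C0) + 3 * C2) * ‖p 3‖ ^ 13 * ‖z‖ < 15 * ‖p 3‖ ^ 14 * ‖z‖ := by
    have h4 : (3 * (2 ^ 15 * C0) + 3 * C2) < 15 * ‖p 3‖ := hW1'.trans_le (by linarith)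
    have h5 : 0 < ‖p 3‖ ^ 13 * ‖z‖ := by positivity
    calc (3 * (2 ^ 15 * C0) + 3 * C2) * ‖p 3‖ ^ 13 * ‖z‖
        = (3 * (2 ^ 15 * C0) + 3 * C2) * (‖p 3‖ ^ 13 * ‖z‖) := by ring
      _ < 15 * ‖p 3‖ * (‖p 3‖ ^ 13 * ‖z‖) := by gcongr
      _ = _ := by ring
  linarith

end Crest.Agent.R267.NdH_484
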