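import Mathlib
import Crest.Agent.R267.NdH_484

/-!
# S0406, T3N entrance: regularity of `F_{r,s}`, tubes and middle (helper484)
-/

set_option autoImplicit false
set_option linter.unusedSectionVars false

noncomputable section

open Set Filter Topology Finset
open scoped ContDiff
open Crest.Agent.R267.Cone_808 Crest.Agent.R267.Hm_951
open Crest.Agent.R267.NdP_484 Crest.Agent.R267.NdR_484 Crest.Agent.R267.NdQ_484
open Crest.Agent.R267.NdS_484 Crest.Agent.R267.NdSt_484 Crest.Agent.R267.NdF_484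
open Crest.Agent.R267.NdG_484 Crest.Agent.R267.NdH_484 Crest.Agent.R267.NdT3_484
open Crest.Agent.R267.Amal_52 (g_nonneg N_nonneg bw_pos aw_pos g_eq_zero g_le_N N_eq_zero t1_lt
  lt_t1 th_zero th_one contDiff_th contDiff_g contDiff_N continuous_g continuous_N act_coord
  act_three g_act N_act wt_pos continuousAt_quot)

namespace Crest.Agent.R267.NdI_484

variable {b : Bool} {T : Fin 3 → Finset (ℕ × ℕ)} {c : Fin 3 → ℕ × ℕ → ℂ} {M W h r s : ℝ} {p : E4}

/-- the function on the slice of the `v`-tube. -/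
def Gv (b : Bool) (T : Fin 3 → Finset (ℕ × ℕ)) (c : Fin 3 → ℕ × ℕ → ℂ) (M r s : ℝ) (v : Fin 3)
    (q : E4) : ℂ :=
  Co b M q + E (T v) (cz (aw b v) (c v) r) (q v.castSucc) (q 3) +
    ((1 - s : ℝ) : ℂ) * ∑ u ∈ univ.erase v, E (T u) (cz (aw b u) (c u) r) (q u.castSucc) (q 3)

/-- what is used about the arm `v` where the cut-off is one. -/
def AcEq (b : Bool) (T : Fin 3 → Finset (ℕ × ℕ)) (c : Fin 3 → ℕ × ℕ → ℂ) (W : ℝ) : Prop :=
  ∀ (v : Fin 3) (r : ℝ) (u w : ℂ), ‖u‖ = 1 → ‖w‖ ^ aw b v ≤ W →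
    Ac (aw b v) (T v) (c v) W r (u, w) = E (T v) (cz (aw b v) (c v) r) u w

theorem ev_Gv (heq : AcEq b T c W) (h0 : 0 < h) (hp : p ≠ 0)
    (hN : 2 * h * Ds b p < N b p) {v : Fin 3} (hv : t1 < g b v p / N b p)
    (hw : ‖p 3‖ ^ aw b v < W) :
    ∀ᶠ q in 𝓝 p, ‖q v.castSucc‖ = 1 → Fs b T c M W h r s q = Gv b T c M r s v q := by
  have hN0 : N b p ≠ 0 := by
    have := Ds_pos (b := b) hp
    have : 0 < 2 * h * Ds b p := by positivity
    linarith [this]
  have h1 : ∀ᶠ q in 𝓝 p, N b q ≠ 0 := (continuous_N b).continuousAt.eventually_ne hN0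
  have h2 : ∀ᶠ q in 𝓝 p, t1 < g b v q / N b q :=
    (continuousAt_quot hN0 v).eventually_const_lt hv
  have h3 : ∀ᶠ q : E4 in 𝓝 p, ‖q 3‖ ^ aw b v < W := by
    have c1 : Continuous fun q : E4 => ‖q 3‖ ^ aw b v := by fun_prop
    exact c1.continuousAt.eventually_lt_const hw
  filter_upwards [h1, h2, h3, ev_sg (b := b) h0 hp hN] with q hq1 hq2 hq3 hq4 hqv
  have hQ : Qs b q = 1 := by
    rw [Qs_core hq1 hq2.le]
    unfold g
    rw [hqv, one_pow]
  rw [hQ, Real.one_rpow] at hq4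
  unfold Fs
  rw [Ff_eq]
  unfold Re Gv
  simp only [hq4, mul_one]
  rw [add_assoc]
  congr 1
  rw [← Finset.add_sum_erase univ _ (Finset.mem_univ v), Finset.mul_sum]
  congr 1
  · rw [th_one hq2.le]
    unfold Arms
    rw [heq v r _ _ hqv hq3.le]
    push_cast
    ring
  · refine Finset.sum_congr rfl fun u hu => ?_
    have hu' : u ≠ v := (Finset.mem_erase.1 hu).1
    have h5 := other_small hq1 hu' hq2
    have h6 := lt_t1
    rw [th_zero (by linarith)]
    simp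

theorem hasDerivAt_Gv (v : Fin 3) (y : E4) (hy : y v.castSucc = 0) :
    HasDerivAt (fun ε : ℝ => Gv b T c M r s v (p + ε • y))
      (M * ∑ u, dP b p u * y u.castSucc +
        ((1 - s : ℝ) : ℂ) * ∑ u ∈ univ.erase v,
          Ev (T u) (cz (aw b u) (c u) r) (p u.castSucc) (p 3) * y u.castSucc +
        (15 * p 3 ^ 14 + Ew (T v) (cz (aw b v) (c v) r) (p v.castSucc) (p 3) +
          ((1 - s : ℝ) : ℂ) * ∑ u ∈ univ.erase v,
            Ew (T u) (cz (aw b u) (c u) r) (p u.castSucc) (p 3)) * y 3) 0 := by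
  unfold Gv
  have hE : ∀ u : Fin 3, HasDerivAt (fun ε : ℝ => E (T u) (cz (aw b u) (c u) r)
      ((p + ε • y) u.castSucc) ((p + ε • y) 3))
      (Ev (T u) (cz (aw b u) (c u) r) (p u.castSucc) (p 3) * y u.castSucc +
        Ew (T u) (cz (aw b u) (c u) r) (p u.castSucc) (p 3) * y 3) 0 := fun u =>
    hasDerivAt_E (T u) (cz (aw b u) (c u) r) (p u.castSucc) (p 3) (y u.castSucc) (y 3)
  have h1 := ((hasDerivAt_Co b M p y).fun_add (hE v)).fun_add
    ((HasDerivAt.fun_sum (u := univ.erase v) fun u _ => hE u).const_mul ((1 - s : ℝ) : ℂ))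
  refine h1.congr_deriv ?_
  rw [hy, Finset.sum_add_distrib, ← Finset.sum_mul]
  ring

/-- **(c)** tubes. -/
theorem reg_tube (hd : ∀ v, ArmDat (aw b v) (T v) (c v))
    (hA : ∀ v, AcOK (aw b v) (T v) (c v) W) (heq : AcEq b T c W) {κ C0 : ℝ} (hκ : 0 < κ)
    (hC : ∀ v, Kc (T v) (c v) ≤ C0)
    (hpl : ∀ (v : Fin 3) (u w : ℂ), ‖u‖ = 1 →
      κ * ‖w‖ ^ 15 ≤ max ‖w ^ 15 + E (T v) (cz (aw b v) (c v) r) u w‖
        ‖15 * w ^ 15 + w * Ew (T v) (cz (aw b v) (c v) r) u w‖ ∧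
      0 < max ‖w ^ 15 + E (T v) (cz (aw b v) (c v) r) u w‖
        ‖15 * w ^ 15 + w * Ew (T v) (cz (aw b v) (c v) r) u w‖)
    (hM : ∃ eta : ℝ, 0 < eta ∧ eta ≤ 1 ∧ 100 * (C0 + 1) * eta ≤ κ ∧
      16 * (C0 + 1) * (1 / eta) ^ 14 < M)
    (h0 : 0 < h) (hr0 : 0 ≤ r) (hr1 : r ≤ 1) (hs0 : 0 ≤ s) (hs1 : s ≤ 1)
    (hS : Ss b h p = 1) (hN : 2 * h * Ds b p < N b p) {v : Fin 3} (hv : t1 < g b v p / N b p)
    (hw : ‖p 3‖ ^ aw b v < W) (hz : Fs b T c M W h r s p = 0) (β : ℂ) :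
    ∃ y, fderiv ℝ (Fs b T c M W h r s) p y = β := by
  have hp := ne_of_Ss h0 hS
  have hN0 : N b p ≠ 0 := by
    have := Ds_pos (b := b) hp
    have : 0 < 2 * h * Ds b p := by positivity
    linarith [this]
  have hNp := N_pos hN0
  have hQ : Qs b p = 1 := by rw [← hS, (ev_Qs (b := b) h0 hp hN).self_of_nhds]
  have hg : g b v p = 1 := by rw [← Qs_core hN0 hv.le, hQ]
  have hpv : ‖p v.castSucc‖ = 1 := by
    unfold g at hg
    exact (pow_eq_one_iff_of_nonneg (norm_nonneg _) (by have := bw_pos b v; omega)).1 hg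
  have hsm : ∀ u, u ≠ v → g b u p ≤ (1 / 2) ^ 40 := by
    intro u hu
    have h1 := other_small hN0 hu hv
    rw [div_lt_iff₀ hNp] at h1
    have h2 : N b p ≤ 2 := (N_le hS).trans (by norm_num)
    have e : (1 : ℝ) - t1 = (1 / 2) ^ 41 := by unfold t1; ring
    rw [e] at h1
    calc g b u p ≤ (1 / 2) ^ 41 * N b p := h1.le
      _ ≤ (1 / 2) ^ 41 * 2 := by gcongr
      _ = (1 / 2) ^ 40 := by norm_num
  have hev := ev_Gv (M := M) (r := r) (s := s) heq h0 hp hN hv hw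
  have hcoord : ∀ y : E4, y v.castSucc = 0 → ∀ ε : ℝ, ‖(p + ε • y) v.castSucc‖ = 1 := by
    intro y hy ε
    rw [Pi.add_apply, Pi.smul_apply, hy, smul_zero, add_zero, hpv]
  have key : ∀ y : E4, y v.castSucc = 0 → fderiv ℝ (Fs b T c M W h r s) p y =
      M * ∑ u, dP b p u * y u.castSucc +
        ((1 - s : ℝ) : ℂ) * ∑ u ∈ univ.erase v,
          Ev (T u) (cz (aw b u) (c u) r) (p u.castSucc) (p 3) * y u.castSucc +
        (15 * p 3 ^ 14 + Ew (T v) (cz (aw b v) (c v) r) (p v.castSucc) (p 3) +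
          ((1 - s : ℝ) : ℂ) * ∑ u ∈ univ.erase v,
            Ew (T u) (cz (aw b u) (c u) r) (p u.castSucc) (p 3)) * y 3 := by
    intro y hy
    refine fderiv_of_line (differentiableAt_Fs hA h0 hp) ?_
    refine (hasDerivAt_Gv v y hy).congr_of_eventuallyEq ?_
    filter_upwards [ev_line (y := y) hev] with ε hε
    exact hε (hcoord y hy ε)
  by_contra hcon
  have eu : ∀ u, u ≠ v → M * dP b p u + ((1 - s : ℝ) : ℂ) *
      Ev (T u) (cz (aw b u) (c u) r) (p u.castSucc) (p 3) = 0 := by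
    intro u hu
    by_contra hne
    apply hcon
    refine onto_coord u.castSucc (fun z hz' => ?_) β
    rw [key _ (by rw [Pi.single_apply, if_neg fun h => hu (Fin.castSucc_injective _ h).symm])]
    have h3 : (Pi.single u.castSucc z : E4) 3 = 0 := by
      rw [Pi.single_apply, if_neg]
      exact (Fin.castSucc_lt_last u).ne'
    have h4 : ∑ i, dP b p i * (Pi.single u.castSucc z : E4) i.castSucc = dP b p u * z := by
      rw [Finset.sum_eq_single u]
      · rw [Pi.single_eq_same]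
      · intro i _ hi
        rw [Pi.single_apply, if_neg fun h => hi (Fin.castSucc_injective _ h), mul_zero]
      · exact fun h => absurd (Finset.mem_univ u) h
    have h5 : ∑ i ∈ univ.erase v, Ev (T i) (cz (aw b i) (c i) r) (p i.castSucc) (p 3) *
        (Pi.single u.castSucc z : E4) i.castSucc =
        Ev (T u) (cz (aw b u) (c u) r) (p u.castSucc) (p 3) * z := by
      rw [Finset.sum_eq_single u]
      · rw [Pi.single_eq_same]
      · intro i _ hi
        rw [Pi.single_apply, if_neg fun h => hi (Fin.castSucc_injective _ h), mul_zero]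
      · exact fun h => absurd (Finset.mem_erase.2 ⟨hu, Finset.mem_univ u⟩) h
    rw [h3, h4, h5, mul_zero, add_zero]
    have e : M * (dP b p u * z) + ((1 - s : ℝ) : ℂ) *
        (Ev (T u) (cz (aw b u) (c u) r) (p u.castSucc) (p 3) * z) =
        (M * dP b p u + ((1 - s : ℝ) : ℂ) *
          Ev (T u) (cz (aw b u) (c u) r) (p u.castSucc) (p 3)) * z := by ring
    rw [e]
    exact mul_ne_zero hne hz'
  have ew0 : 15 * p 3 ^ 14 + Ew (T v) (cz (aw b v) (c v) r) (p v.castSucc) (p 3) +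
      ((1 - s : ℝ) : ℂ) * ∑ u ∈ univ.erase v,
        Ew (T u) (cz (aw b u) (c u) r) (p u.castSucc) (p 3) = 0 := by
    by_contra hne
    apply hcon
    refine onto_coord 3 (fun z hz' => ?_) β
    have h3 : ∀ u : Fin 3, (Pi.single 3 z : E4) u.castSucc = 0 := by
      intro u
      rw [Pi.single_apply, if_neg]
      exact (Fin.castSucc_lt_last u).ne
    rw [key _ (h3 v)]
    simp only [h3, mul_zero, Finset.sum_const_zero, zero_add, Pi.single_eq_same]
    exact mul_ne_zero hne hz'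
  have ew : (15 * p 3 ^ 15 + p 3 * Ew (T v) (cz (aw b v) (c v) r) (p v.castSucc) (p 3)) +
      ((1 - s : ℝ) : ℂ) * ∑ u ∈ univ.erase v,
        p 3 * Ew (T u) (cz (aw b u) (c u) r) (p u.castSucc) (p 3) = 0 := by
    rw [← Finset.mul_sum]
    linear_combination p 3 * ew0
  have e0 : M * P b (p 0) (p 1 * p 2) +
      (p 3 ^ 15 + E (T v) (cz (aw b v) (c v) r) (p v.castSucc) (p 3)) +
      ((1 - s : ℝ) : ℂ) * ∑ u ∈ univ.erase v,
        E (T u) (cz (aw b u) (c u) r) (p u.castSucc) (p 3) = 0 := by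
    have h1 := hev.self_of_nhds hpv
    rw [hz] at h1
    unfold Gv Co at h1
    linear_combination -h1
  obtain ⟨hPL, hpos⟩ := hpl v (p v.castSucc) (p 3) hpv
  obtain ⟨h1, h2⟩ := tube3 hd hκ hC hM hr0 hr1 (s := 1 - s)
    (by rw [abs_of_nonneg (by linarith)]; linarith) v hpv hsm eu ew (Or.inl e0) hPL
  have hP0 : P b (p 0) (p 1 * p 2) = 0 := by
    have ht : p 1 * p 2 = 0 := by
      fin_cases v
      · rw [show p 1 = 0 from h1 1 (by decide), zero_mul]
      · rw [show p 2 = 0 from h1 2 (by decide), mul_zero]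
      · rw [show p 1 = 0 from h1 1 (by decide), zero_mul]
    rw [ht]
    unfold P
    cases b <;> simp
  have hE0 : ∑ u ∈ univ.erase v, E (T u) (cz (aw b u) (c u) r) (p u.castSucc) (p 3) = 0 := by
    refine Finset.sum_eq_zero fun u hu => ?_
    rw [h1 u (Finset.mem_erase.1 hu).1]
    exact E_zero (hd u).adm _ _
  have hK : p 3 ^ 15 + E (T v) (cz (aw b v) (c v) r) (p v.castSucc) (p 3) = 0 := by
    rw [hP0, hE0] at e0
    linear_combination e0
  have hKw : 15 * p 3 ^ 15 + p 3 * Ew (T v) (cz (aw b v) (c v) r) (p v.castSucc) (p 3) = 0 := by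
    rw [h2]; ring
  rw [hK, hKw] at hpos
  simp at hpos

/-! ### the middle -/

/-- the compact part of the hub. -/
def Km (b : Bool) (W1 : ℝ) : Set E4 :=
  {p | 1 ≤ N b p ∧ N b p ≤ 4 / 3 ∧ (∀ v, g b v p ≤ t1 * N b p) ∧ ‖p 3‖ ≤ W1}

theorem isCompact_Km (b : Bool) (W1 : ℝ) : IsCompact (Km b W1) := by
  have hcl : IsClosed (Km b W1) := by
    refine (isClosed_le continuous_const (continuous_N b)).inter
      ((isClosed_le (continuous_N b) continuous_const).inter (IsClosed.inter ?_ ?_))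
    · have : {p : E4 | ∀ v, g b v p ≤ t1 * N b p} = ⋂ v, {p | g b v p ≤ t1 * N b p} := by
        ext p; simp
      show IsClosed {p : E4 | ∀ v, g b v p ≤ t1 * N b p}
      rw [this]
      exact isClosed_iInter fun v =>
        isClosed_le (continuous_g b v) (continuous_const.mul (continuous_N b))
    · exact isClosed_le (by fun_prop : Continuous fun p : E4 => ‖p 3‖) continuous_const
  refine Metric.isCompact_of_isClosed_isBounded hcl
    ((Metric.isBounded_closedBall (x := (0 : E4)) (r := max 2 W1)).subset ?_)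
  rintro p ⟨-, h2, -, h4⟩
  rw [mem_closedBall_zero_iff, pi_norm_le_iff_of_nonneg (le_max_of_le_left (by norm_num))]
  intro i
  refine Fin.lastCases ?_ (fun v => ?_) i
  · exact h4.trans (le_max_right _ _)
  · exact (norm_le_two h2 v).trans (le_max_left _ _)

theorem dP_ne {p : E4} (hN : N b p ≠ 0) (hv : ∀ v, g b v p ≤ t1 * N b p) :
    ∃ u, dP b p u ≠ 0 := by
  by_contra hc
  push Not at hc
  have hNp := N_pos hN
  have h0 : Ps b (p 0) (p 1 * p 2) = 0 := hc 0
  have h1 : Pt b (p 0) (p 1 * p 2) * p 2 = 0 := hc 1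
  have h2 : Pt b (p 0) (p 1 * p 2) * p 1 = 0 := hc 2
  have hsum : g b 0 p + g b 1 p + g b 2 p = N b p := by
    unfold N; rw [Fin.sum_univ_three]
  have hlt : t1 * N b p < N b p := by nlinarith [t1_lt]
  have z : ∀ v : Fin 3, p v.castSucc = 0 → g b v p = 0 := fun v h => g_eq_zero.2 h
  by_cases hPt : Pt b (p 0) (p 1 * p 2) = 0
  · have hs : p 0 = 0 ∧ p 1 * p 2 = 0 := by
      refine Amal_52.core_iso (b := b) (m := 1) (n := 1) one_ne_zero one_ne_zero ?_ ?_
      · rw [← h0]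
        unfold Amal_52.P2s Ps
        cases b <;> simp
      · rw [← hPt]
        unfold Amal_52.P2t Pt
        cases b <;> simp <;> ring
    have g0 := z 0 hs.1
    rcases mul_eq_zero.1 hs.2 with h | h
    · have g1 := z 1 h
      have := hv 2
      linarith
    · have g2 := z 2 h
      have := hv 1
      linarith
  · have e2 : p 2 = 0 := (mul_eq_zero.1 h1).resolve_left hPt
    have e1 : p 1 = 0 := (mul_eq_zero.1 h2).resolve_left hPt
    have g1 := z 1 e1
    have g2 := z 2 e2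
    have := hv 0
    linarith

/-- the gauge of the hub. -/
def sQ (b : Bool) (q : E4) : ℝ := Qs b q ^ (-(1 / 60) : ℝ)

theorem contDiffAt_sQ (hN : N b p ≠ 0) : ContDiffAt ℝ ∞ (sQ b) p := by
  unfold sQ
  refine (contDiffAt_Qs hN).rpow_const_of_ne ?_
  have h1 := le_Qs b p
  have h2 := N_pos hN
  exact (lt_of_lt_of_le (by positivity) h1).ne'

theorem exists_mid (hA : ∀ v, AcOK (aw b v) (T v) (c v) W) (W1 : ℝ) :
    ∃ C c0 : ℝ, 0 < c0 ∧ 0 ≤ C ∧ ∀ p ∈ Km b W1, (∃ u, c0 ≤ ‖dP b p u‖) ∧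
      ∀ r ∈ Icc (0 : ℝ) 1, ∀ s ∈ Icc (0 : ℝ) 1, ∀ y : E4,
        ‖fderiv ℝ (fun x => Re b T c W (sQ b) (r, s, x)) p y‖ ≤ C * ‖y‖ := by
  have hK := isCompact_Km b W1
  have hKN : ∀ p ∈ Km b W1, N b p ≠ 0 := fun p hp => (zero_lt_one.trans_le hp.1).ne'
  -- gradient of the core
  obtain ⟨C1, hC1⟩ : ∃ C1 : ℝ, ∀ p ∈ Km b W1, ‖(∑ u, ‖dP b p u‖)⁻¹‖ ≤ C1 := by
    refine hK.exists_bound_of_continuousOn (ContinuousOn.inv₀ ?_ ?_)
    · refine (continuous_finsetSum _ fun u _ => ?_).continuousOn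
      refine Continuous.norm ?_
      have hs : Continuous fun p : E4 => Ps b (p 0) (p 1 * p 2) := by
        unfold Ps; cases b <;> simp only [cond_true, cond_false] <;> fun_prop
      have ht : Continuous fun p : E4 => Pt b (p 0) (p 1 * p 2) := by
        unfold Pt; cases b <;> simp only [cond_true, cond_false] <;> fun_prop
      fin_cases u
      · exact hs
      · exact ht.mul (by fun_prop)
      · exact ht.mul (by fun_prop)
    · intro p hp
      obtain ⟨u, hu⟩ := dP_ne (hKN p hp) hp.2.2.1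
      have : 0 < ∑ u, ‖dP b p u‖ :=
        Finset.sum_pos' (fun _ _ => norm_nonneg _) ⟨u, Finset.mem_univ u, norm_pos_iff.2 hu⟩
      exact this.ne'
  -- derivative of the rest
  set U : Set (ℝ × ℝ × E4) := {q | N b q.2.2 ≠ 0} with hU
  have hUo : IsOpen U := by
    have : Continuous fun q : ℝ × ℝ × E4 => N b q.2.2 := (continuous_N b).comp (by fun_prop)
    exact isOpen_ne_fun this continuous_const
  have hN0 : N b (0 : E4) = 0 := N_eq_zero.2 fun v => rfl
  have hne : ∀ q : E4, N b q ≠ 0 → q ≠ 0 := by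
    rintro q hq rfl
    exact hq hN0
  have hcd : ∀ q ∈ U, ContDiffAt ℝ 2 (Re b T c W (sQ b)) q := fun q hq =>
    contDiffAt_Re hA (hne _ hq) (contDiffAt_sQ hq)
  have hcont : ContinuousOn (fderiv ℝ (Re b T c W (sQ b))) U := by
    have h1 : ContDiffOn ℝ 2 (Re b T c W (sQ b)) U := fun q hq => (hcd q hq).contDiffWithinAt
    exact h1.continuousOn_fderiv_of_isOpen hUo (by norm_num)
  have hK' : IsCompact (Icc (0 : ℝ) 1 ×ˢ Icc (0 : ℝ) 1 ×ˢ Km b W1) :=
    isCompact_Icc.prod (isCompact_Icc.prod hK)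
  obtain ⟨C2, hC2⟩ := hK'.exists_bound_of_continuousOn
    (hcont.mono fun q hq => hKN _ hq.2.2)
  refine ⟨max C2 0, 1 / (3 * (max C1 0 + 1)), by positivity, le_max_right _ _, fun p hp => ⟨?_, ?_⟩⟩
  · by_contra hn
    push Not at hn
    have h1 := hC1 p hp
    obtain ⟨u, hu⟩ := dP_ne (hKN p hp) hp.2.2.1
    have h2 : 0 < ∑ u, ‖dP b p u‖ :=
      Finset.sum_pos' (fun _ _ => norm_nonneg _) ⟨u, Finset.mem_univ u, norm_pos_iff.2 hu⟩
    have h3 : ∑ u, ‖dP b p u‖ < 3 * (1 / (3 * (max C1 0 + 1))) := by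
      rw [Fin.sum_univ_three]
      linarith [hn 0, hn 1, hn 2]
    have h4 : 3 * (1 / (3 * (max C1 0 + 1))) = 1 / (max C1 0 + 1) := by
      field_simp
    rw [h4] at h3
    rw [norm_inv, Real.norm_eq_abs, abs_of_pos h2] at h1
    have h5 : (max C1 0 + 1) < (∑ u, ‖dP b p u‖)⁻¹ := by
      rw [lt_inv_comm₀ (by positivity) h2, ← one_div]
      exact h3
    have h6 := le_max_left C1 0
    linarith
  · intro r hr s hs y
    have hq : (r, s, p) ∈ Icc (0 : ℝ) 1 ×ˢ Icc (0 : ℝ) 1 ×ˢ Km b W1 := ⟨hr, hs, hp⟩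
    have h1 := hC2 _ hq
    have hda : DifferentiableAt ℝ (Re b T c W (sQ b)) (r, s, p) :=
      (hcd _ (hKN p hp)).differentiableAt (by norm_num)
    have h2 : HasFDerivAt (fun x : E4 => ((r, s, x) : ℝ × ℝ × E4))
        ((ContinuousLinearMap.inr ℝ ℝ (ℝ × E4)).comp (ContinuousLinearMap.inr ℝ ℝ E4)) p :=
      (hasFDerivAt_prodMk_right r (s, p)).comp p (hasFDerivAt_prodMk_right s p)
    have h3 : HasFDerivAt (fun x => Re b T c W (sQ b) (r, s, x))
        ((fderiv ℝ (Re b T c W (sQ b)) (r, s, p)).comp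
          ((ContinuousLinearMap.inr ℝ ℝ (ℝ × E4)).comp (ContinuousLinearMap.inr ℝ ℝ E4))) p :=
      HasFDerivAt.comp (g := Re b T c W (sQ b)) (f := fun x : E4 => ((r, s, x) : ℝ × ℝ × E4)) p
        hda.hasFDerivAt h2
    rw [h3.fderiv]
    have h4 : ((fderiv ℝ (Re b T c W (sQ b)) (r, s, p)).comp
        ((ContinuousLinearMap.inr ℝ ℝ (ℝ × E4)).comp (ContinuousLinearMap.inr ℝ ℝ E4))) y =
        fderiv ℝ (Re b T c W (sQ b)) (r, s, p) (0, 0, y) := rfl
    rw [h4]
    refine ((fderiv ℝ (Re b T c W (sQ b)) (r, s, p)).le_opNorm _).trans ?_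
    have h5 : ‖((0 : ℝ), ((0 : ℝ), y))‖ = ‖y‖ := by
      rw [Prod.norm_def, Prod.norm_def]
      simp
    rw [h5]
    gcongr
    exact h1.trans (le_max_left _ _)

theorem norm_single (i : Fin 4) (z : ℂ) : ‖(Pi.single i z : E4)‖ ≤ ‖z‖ := by
  rw [pi_norm_le_iff_of_nonneg (norm_nonneg _)]
  intro j
  rw [Pi.single_apply]
  split_ifs
  · exact le_rfl
  · rw [norm_zero]; exact norm_nonneg _

/-- **(d)** the middle. -/
theorem reg_mid (hA : ∀ v, AcOK (aw b v) (T v) (c v) W) {W1 C c0 : ℝ}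
    (hmid : ∀ p ∈ Km b W1, (∃ u, c0 ≤ ‖dP b p u‖) ∧
      ∀ r ∈ Icc (0 : ℝ) 1, ∀ s ∈ Icc (0 : ℝ) 1, ∀ y : E4,
        ‖fderiv ℝ (fun x => Re b T c W (sQ b) (r, s, x)) p y‖ ≤ C * ‖y‖) (hC : 0 ≤ C)
    (hM0 : 0 < M) (hM : C < M * c0) (h0 : 0 < h) (hr : r ∈ Icc (0 : ℝ) 1) (hs : s ∈ Icc (0 : ℝ) 1)
    (hS : Ss b h p = 1) (hN : 2 * h * Ds b p < N b p) (hv : ∀ v, g b v p / N b p ≤ t1)
    (hw : ‖p 3‖ ≤ W1) (β : ℂ) :
    ∃ y, fderiv ℝ (Fs b T c M W h r s) p y = β := by
  have hp := ne_of_Ss h0 hS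
  have hN0 : N b p ≠ 0 := by
    have := Ds_pos (b := b) hp
    have : 0 < 2 * h * Ds b p := by positivity
    linarith [this]
  have hNp := N_pos hN0
  have hQ : Qs b p = 1 := by rw [← hS, (ev_Qs (b := b) h0 hp hN).self_of_nhds]
  have hK : p ∈ Km b W1 := by
    refine ⟨?_, N_le hS, fun v => ?_, hw⟩
    · have := Qs_le b p
      linarith
    · have := hv v
      rwa [div_le_iff₀ hNp] at this
  obtain ⟨⟨u, hu⟩, hb⟩ := hmid p hK
  refine onto_coord u.castSucc (fun z hz => ?_) β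
  have hev : Fs b T c M W h r s =ᶠ[𝓝 p] fun q => Co b M q + Re b T c W (sQ b) (r, s, q) := by
    filter_upwards [ev_sg (b := b) h0 hp hN] with q hq
    unfold Fs
    rw [Ff_eq]
    unfold Re sQ
    simp only [hq]
  have hCo : DifferentiableAt ℝ (Co b M) p :=
    (contDiff_Co b M).contDiffAt.differentiableAt (by simp)
  have hRe : DifferentiableAt ℝ (fun q => Re b T c W (sQ b) (r, s, q)) p := by
    have h1 : ContDiffAt ℝ 2 (Re b T c W (sQ b)) (r, s, p) :=
      contDiffAt_Re hA hp (contDiffAt_sQ hN0)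
    exact (h1.differentiableAt (by norm_num)).comp (f := fun q : E4 => ((r, s, q) : ℝ × ℝ × E4)) p
      (by fun_prop)
  rw [hev.fderiv_eq, fderiv_fun_add hCo hRe, _root_.add_apply]
  have h1 : fderiv ℝ (Co b M) p (Pi.single u.castSucc z) = M * (dP b p u * z) := by
    rw [fderiv_of_line hCo (hasDerivAt_Co b M p _)]
    have h3 : (Pi.single u.castSucc z : E4) 3 = 0 := by
      rw [Pi.single_apply, if_neg]
      exact (Fin.castSucc_lt_last u).ne'
    rw [h3, mul_zero, add_zero, Finset.sum_eq_single u]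
    · rw [Pi.single_eq_same]
    · intro i _ hi
      rw [Pi.single_apply, if_neg fun h => hi (Fin.castSucc_injective _ h), mul_zero]
    · exact fun h => absurd (Finset.mem_univ u) h
  rw [h1]
  intro hzero
  have h2 := hb r hr s hs (Pi.single u.castSucc z)
  have h3 : ‖(M : ℂ) * (dP b p u * z)‖ ≤ C * ‖z‖ := by
    have e : (M : ℂ) * (dP b p u * z) =
        -fderiv ℝ (fun x => Re b T c W (sQ b) (r, s, x)) p (Pi.single u.castSucc z) := by
      linear_combination hzero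
    rw [e, norm_neg]
    refine h2.trans ?_
    gcongr
    exact norm_single _ _
  rw [norm_mul, norm_mul, Complex.norm_real, Real.norm_eq_abs, abs_of_pos hM0] at h3
  have hz' : 0 < ‖z‖ := norm_pos_iff.2 hz
  have h4 : M * c0 * ‖z‖ ≤ M * (‖dP b p u‖ * ‖z‖) := by
    calc M * c0 * ‖z‖ = M * (c0 * ‖z‖) := by ring
      _ ≤ M * (‖dP b p u‖ * ‖z‖) := by gcongr
  have h5 : C * ‖z‖ < M * c0 * ‖z‖ := by gcongr
  linarith

end Crest.Agent.R267.NdI_484
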