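import Mathlib
import Crest.Agent.R267.NdI_484
import Crest.Agent.R267.EntB_172

/-!
# S0406, T3N entrance: the family `F_{r,s}` is regular (helper484)

* `reg_sph` : regularity on the star sphere, `reg_all` : everywhere;
* `zeq_am` : `F_{r,0} ~ am b M (Arms b T c W r)`;
* `con_pf` : the germ of `f_M` is described by `F_{r,0}`.
-/

set_option autoImplicit false
set_option linter.unusedSectionVars false

noncomputable section

open Set Filter Topology Finset
open scoped ContDiff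
open Crest.Agent.R267.Cone_808 Crest.Agent.R267.Hm_951
open Crest.Agent.R267.NdP_484 Crest.Agent.R267.NdR_484 Crest.Agent.R267.NdQ_484
open Crest.Agent.R267.NdS_484 Crest.Agent.R267.NdSt_484 Crest.Agent.R267.NdF_484
open Crest.Agent.R267.NdG_484 Crest.Agent.R267.NdH_484 Crest.Agent.R267.NdI_484
open Crest.Agent.R267.Amal_52 (g_nonneg N_nonneg bw_pos aw_pos g_eq_zero g_le_N N_eq_zero t1_lt
  lt_t1 th_zero th_one contDiff_th contDiff_g contDiff_N continuous_g continuous_N act_coord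
  act_three g_act N_act wt_pos continuousAt_quot)

namespace Crest.Agent.R267.NdJ_484

variable {b : Bool} {T : Fin 3 → Finset (ℕ × ℕ)} {c : Fin 3 → ℕ × ℕ → ℂ} {M W h r s : ℝ} {p : E4}

theorem acOK {a : ℕ} {S : Finset (ℕ × ℕ)} {d : ℕ × ℕ → ℂ} (ha : 1 ≤ a) (hS : Adm a S)
    (hW : 0 < W) : AcOK a S d W where
  smooth := EntB2_172.contDiff_Ac a S d W
  hom r l u w hl := EntB2_172.Ac_hom ha hS hl u w
  supp r u w hu := by
    by_cases h : u = 0
    · rw [h]; exact EntB2_172.Ac_zero hS w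
    · exact EntB2_172.Ac_supp hW hu h

theorem aw_le (b : Bool) (v : Fin 3) : aw b v ≤ 6 := by
  unfold aw; cases b <;> fin_cases v <;> simp

/-- **regularity on the star sphere.** -/
theorem reg_sph (hd : ∀ v, ArmDat (aw b v) (T v) (c v)) :
    ∃ r1 : ℝ, 0 < r1 ∧ r1 ≤ 1 / 2 ∧ ∃ W0 : ℝ, 1 ≤ W0 ∧ ∀ W ≥ W0, ∃ M1 : ℝ, 1 ≤ M1 ∧ ∀ M ≥ M1,
      ∃ h : ℝ, 0 < h ∧ ∀ r, 0 < r → r ≤ r1 → ∀ s ∈ Icc (0 : ℝ) 1, ∀ p : E4, Ss b h p = 1 →
        Fs b T c M W h r s p = 0 → ∀ β : ℂ, ∃ y, fderiv ℝ (Fs b T c M W h r s) p y = β := by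
  have hadm := fun v => (hd v).adm
  choose κ hκ ρ1 hρ1 hρ2 hpl using fun v => EntB_172.pl_arm (aw_pos b v) (hd v)
  choose C' hC' W' hW' hder using fun v => EntB2_172.der_Ac (c := c v) (aw_pos b v) (hadm v)
  set C0 : ℝ := ∑ v, Kc (T v) (c v) with hC0d
  have hC0 : ∀ v, Kc (T v) (c v) ≤ C0 := fun v =>
    Finset.single_le_sum (f := fun v => Kc (T v) (c v)) (fun v _ => Kc_nonneg _ _)
      (Finset.mem_univ v)
  have hC0n : 0 ≤ C0 := (Kc_nonneg _ _).trans (hC0 0)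
  set C2 : ℝ := ∑ v, C' v with hC2d
  have hC2 : ∀ v, C' v ≤ C2 := fun v =>
    Finset.single_le_sum (f := C') (fun v _ => (hC' v).le) (Finset.mem_univ v)
  have hC2n : 0 ≤ C2 := (hC' 0).le.trans (hC2 0)
  set W2 : ℝ := ∑ v, W' v with hW2d
  have hW2 : ∀ v, W' v ≤ W2 := fun v =>
    Finset.single_le_sum (f := W') (fun v _ => by have := hW' v; linarith) (Finset.mem_univ v)
  have hW2n : 0 ≤ W2 := by have := hW' 0; have := hW2 0; linarith
  set W1 : ℝ := (3 * (2 ^ 15 * C0) + 3 * C2) / 15 + 1 with hW1d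
  have hW1 : 1 ≤ W1 := by
    rw [hW1d]
    have : 0 ≤ (3 * (2 ^ 15 * C0) + 3 * C2) / 15 := by positivity
    linarith
  have hW1' : 3 * (2 ^ 15 * C0) + 3 * C2 < 15 * W1 := by rw [hW1d]; linarith
  obtain ⟨κ0, hκ0, hκ0'⟩ : ∃ κ0 : ℝ, 0 < κ0 ∧ ∀ v, κ0 ≤ κ v := by
    obtain ⟨v0, hv0⟩ := Finite.exists_min κ
    exact ⟨κ v0, hκ v0, hv0⟩
  obtain ⟨r1, hr1, hr1', hr12⟩ : ∃ r1 : ℝ, 0 < r1 ∧ (∀ v, r1 ≤ ρ1 v) ∧ r1 ≤ 1 / 2 := by
    obtain ⟨v0, hv0⟩ := Finite.exists_min ρ1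
    exact ⟨ρ1 v0, hρ1 v0, hv0, hρ2 v0⟩
  refine ⟨r1, hr1, hr12, W2 + (W1 + 1) ^ 6, ?_, fun W hW => ?_⟩
  · have : (1 : ℝ) ≤ (W1 + 1) ^ 6 := one_le_pow₀ (by linarith)
    linarith
  have hpow1 : (1 : ℝ) ≤ (W1 + 1) ^ 6 := one_le_pow₀ (by linarith)
  have hWW2 : W2 ≤ W := by linarith
  have hW0 : 0 < W := by linarith
  have hA : ∀ v, AcOK (aw b v) (T v) (c v) W := fun v => acOK (aw_pos b v) (hadm v) hW0
  have hDer : Der b T c W C2 := by
    intro v r hr hr1 u w hu hu2 hw z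
    obtain ⟨d, h1, h2⟩ := hder v W ((hW2 v).trans hWW2) r hr hr1 u w hu hu2 hw z
    refine ⟨d, h1, h2.trans ?_⟩
    have := hC2 v
    gcongr
  have heq : AcEq b T c W := fun v r u w hu hw => EntB2_172.Ac_eq hu hw
  obtain ⟨C, c0, hc0, hC, hmid⟩ := exists_mid hA W1
  set eta : ℝ := min 1 (κ0 / (100 * (C0 + 1))) with heta
  have heta0 : 0 < eta := by rw [heta]; positivity
  have heta1 : eta ≤ 1 := min_le_left _ _
  have heta2 : 100 * (C0 + 1) * eta ≤ κ0 := by
    have h1 : eta ≤ κ0 / (100 * (C0 + 1)) := min_le_right _ _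
    rw [le_div_iff₀ (by positivity)] at h1
    linarith
  refine ⟨16 * (C0 + 1) * (1 / eta) ^ 14 + C / c0 + 1, ?_, fun M hM => ?_⟩
  · have h1 : 0 ≤ 16 * (C0 + 1) * (1 / eta) ^ 14 := by positivity
    have h2 : 0 ≤ C / c0 := by positivity
    linarith
  have hk1 : 0 ≤ 16 * (C0 + 1) * (1 / eta) ^ 14 := by positivity
  have hk2 : 0 ≤ C / c0 := by positivity
  have hM0 : 0 < M := by linarith
  have hMa : 16 * (C0 + 1) * (1 / eta) ^ 14 < M := by linarith
  have hMc : C < M * c0 := by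
    have h1 : C / c0 < M := by linarith
    rwa [div_lt_iff₀ hc0] at h1
  set eps : ℝ := 1 / (4 * M + 3 * C0 + 2 * W + 2) with heps
  have hden : 0 < 4 * M + 3 * C0 + 2 * W + 2 := by positivity
  have he0 : 0 < eps := by rw [heps]; positivity
  have he2 : eps ≤ 1 / 2 := by
    rw [heps]
    exact one_div_le_one_div_of_le (by norm_num) (by linarith)
  have heM : (4 * M + 3 * C0) * eps < 1 := by
    rw [heps, mul_one_div, div_lt_one hden]
    linarith
  have heW : 2 * W ^ 2 * eps ^ 2 ≤ 1 := by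
    have h1 : W * eps ≤ 1 / 2 := by
      rw [heps, mul_one_div, div_le_div_iff₀ hden (by norm_num)]
      linarith
    have h2 : 0 ≤ W * eps := by positivity
    nlinarith
  refine ⟨eps ^ 60 / 4, by positivity, fun r hr hrr s hs p hS hz β => ?_⟩
  have h0 : 0 < eps ^ 60 / 4 := by positivity
  set h := eps ^ 60 / 4 with hh
  have hp := ne_of_Ss h0 hS
  have hDp := Ds_pos (b := b) hp
  by_cases hN : N b p ≤ 3 * h * Ds b p
  · exact absurd hz (no_zero hadm hA hC0 he0 he2 hM0.le heM heW hr.le (hrr.trans hr12) hs.1 hs.2 hh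
      hS hN)
  · push Not at hN
    have hN' : 2 * h * Ds b p < N b p := by
      have : 0 < h * Ds b p := mul_pos h0 hDp
      nlinarith
    by_cases hw : W1 ≤ ‖p 3‖
    · exact reg_far hadm hA hC0 hC2n hDer hW1 hW1' h0 hr (hrr.trans hr12) hs.1 hs.2 hS hN' hw β
    · push Not at hw
      have hwa : ∀ v, ‖p 3‖ ^ aw b v < W := by
        intro v
        calc ‖p 3‖ ^ aw b v ≤ (W1 + 1) ^ aw b v := by gcongr; linarith
          _ ≤ (W1 + 1) ^ 6 := pow_le_pow_right₀ (by linarith) (aw_le b v)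
          _ < W := by
            have := hW' 0
            have := hW2 0
            linarith
      by_cases hv : ∃ v, t1 < g b v p / N b p
      · obtain ⟨v, hv⟩ := hv
        refine reg_tube hd hA heq hκ0 hC0 (fun v u w hu => ?_) ⟨eta, heta0, heta1, heta2, hMa⟩ h0
          hr.le (by linarith) hs.1 hs.2 hS hN' hv (hwa v) hz β
        obtain ⟨⟨h1, h2⟩, -⟩ := hpl v r hr (hrr.trans (hr1' v)) u w hu
        refine ⟨le_trans ?_ h1, h2⟩
        have := hκ0' v
        gcongr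
      · push Not at hv
        exact reg_mid hA hmid hC hM0 hMc h0 ⟨hr.le, by linarith⟩ hs hS hN' hv hw.le β

/-- `act` is additive. -/
theorem act_line (w : Fin 4 → ℝ) (t : ℝ) (p y : E4) (ε : ℝ) :
    act w t (p + ε • y) = act w t p + ε • act w t y := by
  funext i
  simp only [act, Pi.add_apply, Pi.smul_apply, Complex.real_smul]
  ring

/-- regularity at all points, by homogeneity. -/
theorem reg_of_sph (hd : ∀ v, Adm (aw b v) (T v)) (hA : ∀ v, AcOK (aw b v) (T v) (c v) W)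
    (h0 : 0 < h)
    (hreg : ∀ p : E4, Ss b h p = 1 → Fs b T c M W h r s p = 0 →
      ∀ β : ℂ, ∃ y, fderiv ℝ (Fs b T c M W h r s) p y = β) {p : E4} (hp : p ≠ 0)
    (hz : Fs b T c M W h r s p = 0) (β : ℂ) :
    ∃ y, fderiv ℝ (Fs b T c M W h r s) p y = β := by
  have hS := Ss_pos (b := b) h0 hp
  set t : ℝ := -(1 / 4) * Real.log (Ss b h p) with ht
  set p' := act (wt b) t p with hp'
  have hp0 : p' ≠ 0 := act_ne_zero hp
  have hS' : Ss b h p' = 1 := by
    rw [hp', Ss_act, ht]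
    have : 4 * (-(1 / 4) * Real.log (Ss b h p)) = -Real.log (Ss b h p) := by ring
    rw [this, Real.exp_neg, Real.exp_log hS, inv_mul_cancel₀ hS.ne']
  have hz' : Fs b T c M W h r s p' = 0 := by rw [hp', Fs_act hd hA h0 t hp, hz, mul_zero]
  obtain ⟨y, hy⟩ := hreg p' hS' hz' (((Real.exp t : ℝ) : ℂ) * β)
  refine ⟨act (wt b) (-t) y, ?_⟩
  have hda := differentiableAt_Fs (M := M) (r := r) (s := s) hA h0 hp0
  have h1 : HasDerivAt (fun ε : ℝ => Fs b T c M W h r s (p' + ε • y))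
      (((Real.exp t : ℝ) : ℂ) * β) 0 := by
    have h2 : HasDerivAt (fun ε : ℝ => p' + ε • y) y 0 := by
      simpa using ((hasDerivAt_id (0 : ℝ)).smul_const y).const_add p'
    have h3 : HasFDerivAt (Fs b T c M W h r s) (fderiv ℝ (Fs b T c M W h r s) p')
        (p' + (0 : ℝ) • y) := by
      rw [zero_smul, add_zero]; exact hda.hasFDerivAt
    have h4 := h3.comp_hasDerivAt 0 h2
    rw [hy] at h4
    exact h4
  refine fderiv_of_line (differentiableAt_Fs hA h0 hp) ?_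
  have h5 := h1.const_mul (((Real.exp t : ℝ) : ℂ)⁻¹)
  have hne : ((Real.exp t : ℝ) : ℂ) ≠ 0 := by exact_mod_cast (Real.exp_pos t).ne'
  rw [inv_mul_cancel_left₀ hne] at h5
  refine h5.congr_of_eventuallyEq ?_
  have hev : ∀ᶠ q in 𝓝 p, q ≠ 0 := continuousAt_id.eventually_ne hp
  filter_upwards [ev_line (y := act (wt b) (-t) y) hev] with ε hε
  have e : p' + ε • y = act (wt b) t (p + ε • act (wt b) (-t) y) := by
    rw [act_line, act_act_neg]
  rw [e, Fs_act hd hA h0 t hε, inv_mul_cancel_left₀ hne]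

theorem Fs_s1 : Fs b T c M W h r 1 = am b M (Arms b T c W r) := by
  funext p
  unfold Fs Ff am
  simp only [sub_self, Complex.ofReal_zero, zero_mul, zero_add, one_mul]

/-- **the cut off homotopy.** -/
theorem zeq_am (hd : ∀ v, Adm (aw b v) (T v)) (hA : ∀ v, AcOK (aw b v) (T v) (c v) W)
    (h0 : 0 < h)
    (hreg : ∀ s ∈ Icc (0 : ℝ) 1, ∀ p : E4, Ss b h p = 1 → Fs b T c M W h r s p = 0 →
      ∀ β : ℂ, ∃ y, fderiv ℝ (Fs b T c M W h r s) p y = β) :
    ZEq (Fs b T c M W h r 0) (am b M (Arms b T c W r)) := by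
  have hsm : ∀ q : ℝ × E4, q.2 ≠ 0 →
      ContDiffAt ℝ 2 (fun q : ℝ × E4 => Fs b T c M W h r q.1 q.2) q := by
    intro q hq
    exact (contDiffAt_Ff (M := M) hA h0 (q := (r, q.1, q.2)) hq).comp
      (f := fun q : ℝ × E4 => ((r, q.1, q.2) : ℝ × ℝ × E4)) q (by fun_prop)
  have hP : HPath0 (fun q : ℝ × E4 => Fs b T c M W h r q.1 q.2) := by
    refine ⟨⟨univ, isOpen_univ, subset_univ _, fun q hq => (hsm q hq.2).contDiffWithinAt⟩,
      fun t _ => ⟨wt b, wt_pos b, fun s x => ?_⟩, fun t ht x hx hz β => ?_⟩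
    · exact Fs_smul hd hA h0 s x (Fs_zero hd hA)
    · obtain ⟨y, hy⟩ := reg_of_sph hd hA h0 (hreg t ht) hx hz β
      refine ⟨y, ?_⟩
      rw [← hy]
      have hda : DifferentiableAt ℝ (fun q : ℝ × E4 => Fs b T c M W h r q.1 q.2) (t, x) :=
        (hsm (t, x) hx).differentiableAt (by norm_num)
      exact (Amal_52.fderiv_part hda y).symm
  have h1 := hP.link
  have e : (fun x : E4 => Fs b T c M W h r 1 x) = am b M (Arms b T c W r) := Fs_s1
  simp only at h1
  rw [e] at h1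
  exact h1

/-! ### the germ of `f_M` -/

theorem cz_one (a : ℕ) (d : ℕ × ℕ → ℂ) : cz a d 1 = d := by
  funext q
  simp [cz]

/-- the function `f_M` along the weighted dilations. -/
theorem pf_act (hd : ∀ v, Adm (aw b v) (T v)) (t : ℝ) (p : E4) :
    pf b T c M (act (wt b) t p) = ((Real.exp t : ℝ) : ℂ) * (Co b M p +
      ∑ v, E (T v) (cz (aw b v) (c v) (Real.exp (t / 15))) (p v.castSucc) (p 3)) := by
  have e : pf b T c M (act (wt b) t p) = Co b M (act (wt b) t p) +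
      ∑ v, E (T v) (c v) (act (wt b) t p v.castSucc) (act (wt b) t p 3) := rfl
  rw [e, Co_act, mul_add, Finset.mul_sum]
  congr 1
  refine Finset.sum_congr rfl fun v _ => ?_
  have hl : 0 < Real.exp (t / 15) := Real.exp_pos _
  have h1 := E_act (d := c v) (hd v) (ζ := Real.exp (t / 15)) hl (p v.castSucc) (p 3)
  rw [mul_inv_cancel₀ hl.ne', cz_one] at h1
  rw [act_coord, act_three, h1, exp15]

/-- logarithm of the gauge. -/
def rho (b : Bool) (h : ℝ) (p : E4) : ℝ := (1 / 4) * Real.log (Ss b h p)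

theorem sg_eq (h0 : 0 < h) (hp : p ≠ 0) : sg b h p = Real.exp (-(rho b h p / 15)) := by
  unfold sg rho
  rw [Real.rpow_def_of_pos (Ss_pos h0 hp)]
  congr 1
  ring

theorem con_pf (hd : ∀ v, Adm (aw b v) (T v)) (hA : ∀ v, AcOK (aw b v) (T v) (c v) W)
    (h0 : 0 < h) {r1 : ℝ} (hr1 : 0 < r1)
    (hreg : ∀ r, 0 < r → r ≤ r1 → ∀ p : E4, Ss b h p = 1 → Fs b T c M W h r 0 p = 0 →
      ∀ β : ℂ, ∃ y, fderiv ℝ (Fs b T c M W h r 0) p y = β) :
    Con (wt b) (pf b T c M) (rho b h) (fun q => Fs b T c M W h (Real.exp (q.1 / 15)) 0 q.2)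
      (15 * Real.log r1) := by
  have hle : ∀ t, t ≤ 15 * Real.log r1 → Real.exp (t / 15) ≤ r1 := by
    intro t ht
    calc Real.exp (t / 15) ≤ Real.exp (Real.log r1) := Real.exp_le_exp.2 (by linarith)
      _ = r1 := Real.exp_log hr1
  have hsm : ∀ q : ℝ × E4, q.2 ≠ 0 →
      ContDiffAt ℝ 2 (fun q : ℝ × E4 => Fs b T c M W h (Real.exp (q.1 / 15)) 0 q.2) q := by
    intro q hq
    exact (contDiffAt_Ff (M := M) hA h0 (q := (Real.exp (q.1 / 15), 0, q.2)) hq).comp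
      (f := fun q : ℝ × E4 => ((Real.exp (q.1 / 15), 0, q.2) : ℝ × ℝ × E4)) q (by fun_prop)
  refine ⟨wt_pos b, ?_, ?_, ?_, ?_, ?_, ?_⟩
  · have h1 := pf_act (c := c) (M := M) hd 0 (0 : E4)
    rw [act_zero] at h1
    rw [h1, Real.exp_zero]
    have h2 : Co b M (0 : E4) = 0 := by
      unfold Co P
      cases b <;> simp
    have h3 : ∀ v : Fin 3, E (T v) (cz (aw b v) (c v) (Real.exp (0 / 15)))
        ((0 : E4) v.castSucc) ((0 : E4) 3) = 0 := fun v => E_zero (hd v) _ _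
    rw [h2, Finset.sum_eq_zero fun v _ => h3 v]
    simp
  · rw [continuous_iff_continuousAt]
    intro u
    have hu : (u : E4) ≠ 0 := u.ne_zero
    have h1 : ContinuousAt (rho b h) (u : E4) := by
      unfold rho
      exact continuousAt_const.mul ((contDiffAt_Ss h0 hu).continuousAt.log (Ss_pos h0 hu).ne')
    exact h1.comp continuousAt_subtype_val
  · intro t u _
    have hu : (u : E4) ≠ 0 := u.ne_zero
    rw [pf_act hd]
    have hne : ((Real.exp (t - rho b h u) : ℝ) : ℂ) ≠ 0 := by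
      exact_mod_cast (Real.exp_pos _).ne'
    have e : Real.exp ((t - rho b h u) / 15) = Real.exp (t / 15) * sg b h u := by
      rw [sg_eq h0 hu, ← Real.exp_add]
      congr 1
      ring
    have e2 : Fs b T c M W h (Real.exp (t / 15)) 0 (u : E4) = Co b M u +
        ∑ v, E (T v) (cz (aw b v) (c v) (Real.exp (t / 15) * sg b h u)) ((u : E4) v.castSucc)
          ((u : E4) 3) := by
      unfold Fs
      rw [Ff_eq]
      unfold Re
      simp only [sub_zero, Complex.ofReal_one, one_mul, zero_mul, Complex.ofReal_zero, add_zero]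
    simp only
    rw [e, e2, mul_eq_zero, or_iff_right hne]
  · exact fun q hq => (hsm q hq.2).contDiffWithinAt
  · intro t _ s x
    exact Fs_smul hd hA h0 s x (Fs_zero hd hA)
  · intro t ht x hx hz β
    obtain ⟨y, hy⟩ := reg_of_sph hd hA h0
      (hreg (Real.exp (t / 15)) (Real.exp_pos _) (hle t ht)) hx hz β
    refine ⟨y, ?_⟩
    rw [← hy]
    have hda : DifferentiableAt ℝ
        (fun q : ℝ × E4 => Fs b T c M W h (Real.exp (q.1 / 15)) 0 q.2) (t, x) :=
      (hsm (t, x) hx).differentiableAt (by norm_num)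
    exact (Amal_52.fderiv_part hda y).symm

/-- **the entrance**, one function. -/
theorem entrance (hd : ∀ v, ArmDat (aw b v) (T v) (c v)) :
    ∃ r1 : ℝ, 0 < r1 ∧ ∃ W0 : ℝ, 1 ≤ W0 ∧ ∀ W ≥ W0, ∃ M1 : ℝ, 1 ≤ M1 ∧ ∀ M ≥ M1,
      ∀ r, 0 < r → r ≤ r1 → ∃ (ρ : E4 → ℝ) (H : ℝ × E4 → ℂ) (t0 : ℝ),
        Con (wt b) (pf b T c M) ρ H t0 ∧
          ZEq (fun x => H (t0, x)) (am b M (Arms b T c W r)) := by
  have hadm := fun v => (hd v).adm
  obtain ⟨r1, hr1, -, W0, hW0, H⟩ := reg_sph hd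
  refine ⟨r1, hr1, W0, hW0, fun W hW => ?_⟩
  obtain ⟨M1, hM1, H1⟩ := H W hW
  refine ⟨M1, hM1, fun M hM r hr hrr => ?_⟩
  obtain ⟨h, h0, hreg⟩ := H1 M hM
  have hWp : 0 < W := by linarith
  have hA : ∀ v, AcOK (aw b v) (T v) (c v) W := fun v => acOK (aw_pos b v) (hadm v) hWp
  refine ⟨rho b h, fun q => Fs b T c M W h (Real.exp (q.1 / 15)) 0 q.2, 15 * Real.log r,
    con_pf hadm hA h0 hr fun r' hr' hrr' => hreg r' hr' (hrr'.trans hrr) 0 (by simp), ?_⟩
  have h1 := zeq_am (M := M) hadm hA h0 fun s hs => hreg r hr hrr s hs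
  have e : Real.exp (15 * Real.log r / 15) = r := by
    rw [mul_div_cancel_left₀ _ (by norm_num : (15 : ℝ) ≠ 0), Real.exp_log hr]
  simp only [e]
  exact h1

end Crest.Agent.R267.NdJ_484
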