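import Mathlib
import Crest.Agent.R267.NdJ_484
import Crest.Agent.R267.EntA_125
import Crest.Agent.R267.EntC2_610
import Crest.Agent.R267.EntD_370

/-!
# S0406, T3N entrance: the final statements (helper484)

* `Lit` : the literal statement of S0406;
* `lit_of_amal` : `ZEq` of the two amalgams (arms `Arms b T 1 W r`, `M` a large natural number)
  implies `Lit`;
* `lit_of_arms` : the same after homotopies of the arms (`ArmPath`), `M`, `M'` large reals.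
-/

set_option autoImplicit false
set_option linter.unusedSectionVars false

noncomputable section

open Set Filter Topology Finset
open Crest.Agent.R267.Cone_808 Crest.Agent.R267.Hm_951
open Crest.Agent.R267.NdR_484 Crest.Agent.R267.NdS_484 Crest.Agent.R267.EntD_370

namespace Crest.Agent.R267.NdZ_484

/-- the literal statement of S0406. -/
def Lit : Prop :=
    ∃ (f g : (Fin 4 → ℂ) → ℂ),
      AnalyticAt ℂ f 0 ∧ AnalyticAt ℂ g 0 ∧ f 0 = 0 ∧ g 0 = 0 ∧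
      (∀ h u : (Fin 4 → ℂ) → ℂ, AnalyticAt ℂ h 0 → AnalyticAt ℂ u 0 → h 0 = 0 →
        ¬ (f =ᶠ[𝓝 0] fun x => h x ^ 2 * u x)) ∧
      (∀ h u : (Fin 4 → ℂ) → ℂ, AnalyticAt ℂ h 0 → AnalyticAt ℂ u 0 → h 0 = 0 →
        ¬ (g =ᶠ[𝓝 0] fun x => h x ^ 2 * u x)) ∧
      fderiv ℂ f 0 = 0 ∧ (∀ᶠ x in 𝓝[≠] (0 : Fin 4 → ℂ), fderiv ℂ f x ≠ 0) ∧
      fderiv ℂ g 0 = 0 ∧ (∀ᶠ x in 𝓝[≠] (0 : Fin 4 → ℂ), fderiv ℂ g x ≠ 0) ∧
      (∃ φ : OpenPartialHomeomorph (Fin 4 → ℂ) (Fin 4 → ℂ),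
        (0 : Fin 4 → ℂ) ∈ φ.source ∧ φ 0 = 0 ∧ ∀ x ∈ φ.source, (f x = 0 ↔ g (φ x) = 0)) ∧
      (∀ j < 4, iteratedFDeriv ℂ j f 0 = 0) ∧ iteratedFDeriv ℂ 4 f 0 ≠ 0 ∧
      (∀ j < 5, iteratedFDeriv ℂ j g 0 = 0) ∧ iteratedFDeriv ℂ 5 g 0 ≠ 0

/-- the arms of `f`. -/
def Af (W r : ℝ) : Fin 3 → ℂ × ℂ → ℂ := Arms true Tf (fun _ _ => 1) W r

/-- the arms of `g`. -/
def Ag (W r : ℝ) : Fin 3 → ℂ × ℂ → ℂ := Arms false Tg (fun _ _ => 1) W r

/-- **the entrance.** -/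
theorem lit_of_amal : ∃ r1 : ℝ, 0 < r1 ∧ ∃ W0 : ℝ, 1 ≤ W0 ∧ ∀ W ≥ W0, ∃ M1 : ℝ, 1 ≤ M1 ∧
    ∀ M : ℕ, M1 ≤ M → ∀ r, 0 < r → r ≤ r1 →
      ZEq (am true M (Af W r)) (am false M (Ag W r)) → Lit := by
  obtain ⟨r1, hr1, W0, hW0, H⟩ := NdJ_484.entrance (b := true) (T := Tf) (c := fun _ _ => 1) datf
  obtain ⟨r2, hr2, W2, hW2, H'⟩ := NdJ_484.entrance (b := false) (T := Tg) (c := fun _ _ => 1) datg
  obtain ⟨m1, hm1, hf⟩ := EntC2_610.iso_crit true Tf (fun _ _ => 1) datf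
  obtain ⟨m2, hm2, hg⟩ := EntC2_610.iso_crit false Tg (fun _ _ => 1) datg
  refine ⟨min r1 r2, lt_min hr1 hr2, max W0 W2, le_max_of_le_left hW0, fun W hW => ?_⟩
  obtain ⟨M1, hM1, K⟩ := H W ((le_max_left _ _).trans hW)
  obtain ⟨M2, hM2, K'⟩ := H' W ((le_max_right _ _).trans hW)
  refine ⟨max (max M1 M2) (max m1 m2), le_max_of_le_left (le_max_of_le_left hM1),
    fun M hM r hr hrr hZ => ?_⟩
  have h1 : M1 ≤ M := ((le_max_left _ _).trans (le_max_left _ _)).trans hM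
  have h2 : M2 ≤ M := ((le_max_right _ _).trans (le_max_left _ _)).trans hM
  have h3 : m1 ≤ M := ((le_max_left _ _).trans (le_max_right _ _)).trans hM
  have h4 : m2 ≤ M := ((le_max_right _ _).trans (le_max_right _ _)).trans hM
  obtain ⟨ρ, G, t0, hc, hz⟩ := K M h1 r hr (hrr.trans (min_le_left _ _))
  obtain ⟨ρ', G', t0', hc', hz'⟩ := K' M h2 r hr (hrr.trans (min_le_right _ _))
  have hMn : 1 ≤ M := by
    have : (1 : ℝ) ≤ M := hM1.trans h1
    exact_mod_cast this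
  exact s0406_of_pf M hMn (hf M h3) (hg M h4)
    (EntA_125.germ_of_con hc hc' ((hz.trans hZ).trans hz'.symm))

/-- all the arms are arms. -/
theorem arms_arm : ∃ r1 : ℝ, 0 < r1 ∧ ∃ W0 : ℝ, 1 ≤ W0 ∧ ∀ W ≥ W0, ∀ r, 0 < r → r ≤ r1 →
    (∀ v, Arm true v (Af W r v)) ∧ ∀ v, Arm false v (Ag W r v) := by
  choose ρ hρ W' hW' H using fun v => EntB_172.arm_Ac true v (datf v)
  choose ρ' hρ' W'' hW'' H' using fun v => EntB_172.arm_Ac false v (datg v)
  obtain ⟨v0, hv0⟩ := Finite.exists_min ρ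
  obtain ⟨v1, hv1⟩ := Finite.exists_min ρ'
  obtain ⟨v2, hv2⟩ := Finite.exists_max W'
  obtain ⟨v3, hv3⟩ := Finite.exists_max W''
  refine ⟨min (ρ v0) (ρ' v1), lt_min (hρ v0) (hρ' v1), max (W' v2) (W'' v3),
    le_max_of_le_left (hW' v2).le, fun W hW r hr hrr => ⟨fun v => ?_, fun v => ?_⟩⟩
  · exact H v r hr ((hrr.trans (min_le_left _ _)).trans (hv0 v)) W
      (((hv2 v).trans (le_max_left _ _)).trans hW)
  · exact H' v r hr ((hrr.trans (min_le_right _ _)).trans (hv1 v)) W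
      (((hv3 v).trans (le_max_right _ _)).trans hW)

/-- **the entrance after homotopies of the arms.** -/
theorem lit_of_arms : ∃ r1 : ℝ, 0 < r1 ∧ ∃ W0 : ℝ, 1 ≤ W0 ∧ ∀ W ≥ W0, ∀ r, 0 < r → r ≤ r1 →
    ∀ A A' : Fin 3 → ℝ × (ℂ × ℂ) → ℂ, (∀ v, ArmPath true v (A v)) → (∀ v, ArmPath false v (A' v)) →
      (∀ v z, A v (0, z) = Af W r v z) → (∀ v z, A' v (0, z) = Ag W r v z) →
      (∀ M0 : ℝ, ∃ M ≥ M0, ∃ M' ≥ M0,
        ZEq (am true M fun v z => A v (1, z)) (am false M' fun v z => A' v (1, z))) → Lit := by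
  obtain ⟨r1, hr1, W0, hW0, H⟩ := lit_of_amal
  obtain ⟨r2, hr2, W2, hW2, H'⟩ := arms_arm
  refine ⟨min r1 r2, lt_min hr1 hr2, max W0 W2, le_max_of_le_left hW0,
    fun W hW r hr hrr A A' hA hA' h0 h0' hZ => ?_⟩
  obtain ⟨M1, hM1, K⟩ := H W ((le_max_left _ _).trans hW)
  obtain ⟨hAf, hAg⟩ := H' W ((le_max_right _ _).trans hW) r hr (hrr.trans (min_le_right _ _))
  obtain ⟨m1, hm1, k1⟩ := Amal_52.amal_path (b := true) A hA
  obtain ⟨m2, hm2, k2⟩ := Amal_52.amal_path (b := false) A' hA'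
  obtain ⟨m3, hm3, k3⟩ := Amal_52.amal_M (b := true) (Af W r) hAf
  obtain ⟨m4, hm4, k4⟩ := Amal_52.amal_M (b := false) (Ag W r) hAg
  obtain ⟨M, hM, M', hM', hz⟩ := hZ (max (max m1 m2) (max m3 m4))
  obtain ⟨L, hL⟩ := exists_nat_ge (max M1 (max m3 m4))
  have e1 : ZEq (am true M (Af W r)) (am true M fun v z => A v (1, z)) := by
    have h := (k1 M (((le_max_left _ _).trans (le_max_left _ _)).trans hM)).link
    simp only [h0] at h
    exact h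
  have e2 : ZEq (am false M' (Ag W r)) (am false M' fun v z => A' v (1, z)) := by
    have h := (k2 M' (((le_max_right _ _).trans (le_max_left _ _)).trans hM')).link
    simp only [h0'] at h
    exact h
  have e3 : ZEq (am true L (Af W r)) (am true M (Af W r)) :=
    k3 L M (((le_max_left _ _).trans (le_max_right _ _)).trans hL)
      (((le_max_left _ _).trans (le_max_right _ _)).trans hM)
  have e4 : ZEq (am false L (Ag W r)) (am false M' (Ag W r)) :=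
    k4 L M' (((le_max_right _ _).trans (le_max_right _ _)).trans hL)
      (((le_max_right _ _).trans (le_max_right _ _)).trans hM')
  exact K L ((le_max_left _ _).trans hL) r hr (hrr.trans (min_le_left _ _))
    ((e3.trans (e1.trans (hz.trans e2.symm))).trans e4.symm)

end Crest.Agent.R267.NdZ_484
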