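import Mathlib
import Crest.Agent.R267.NdY_484

/-!
# S0406: arms in polar coordinates (helper484)

* `LA b v k` : the arm `A` with `w^15 + A (e^{iθ}, w) = k (θ, w)`;
* `PA b v h` : the arm with `w^15 + A (e^{iθ}, u e^{iω}) = h (θ, u, ω)`;
* `astep_LA`, `astep_PA` : homotopies.
-/

set_option autoImplicit false
set_option linter.unusedSectionVars false

noncomputable section

open Set Filter Topology
open scoped Real
open Crest.Agent.R267.NdR_484 Crest.Agent.R267.NdY_484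

namespace Crest.Agent.R267.PolArm_484

/-- the arm with `w^15 + A = k (θ, w)` on `|v| = 1`. -/
def LA (b : Bool) (v : Fin 3) (k : ℝ × ℂ → ℂ) (z : ℂ × ℂ) : ℂ :=
  if z.1 = 0 then 0 else
    ((‖z.1‖ ^ (15 / (aw b v : ℝ)) : ℝ) : ℂ) *
      k (Complex.arg z.1, ((‖z.1‖ ^ (-(1 / (aw b v : ℝ))) : ℝ) : ℂ) * z.2) - z.2 ^ 15

/-- the arm with `w^15 + A = h (θ, u, ω)` on `|v| = 1`, `w = u e^{iω}`. -/
def PA (b : Bool) (v : Fin 3) (h : ℝ × ℝ × ℝ → ℂ) : ℂ × ℂ → ℂ :=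
  LA b v fun q => h (q.1, ‖q.2‖, Complex.arg q.2)

theorem per_eq {α : Type*} {f : ℝ → α} (hf : ∀ x, f (x + 2 * π) = f x) {x y : ℝ}
    (h : (x : Real.Angle) = y) : f x = f y := by
  obtain ⟨k, hk⟩ := Real.Angle.angle_eq_iff_two_pi_dvd_sub.1 h
  have hp : Function.Periodic f (2 * π) := hf
  have e : x = y + k * (2 * π) := by linarith
  rw [e]
  exact hp.int_mul k y

/-- a smooth branch of the argument. -/
theorem arg_branch {u0 : ℂ} (hu : u0 ≠ 0) : ∃ α : ℂ → ℝ, ContDiffAt ℝ 2 α u0 ∧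
    α u0 = Complex.arg u0 ∧ ∀ᶠ u in 𝓝 u0, (α u : Real.Angle) = Complex.arg u := by
  refine ⟨fun u => Complex.arg (u / u0) + Complex.arg u0, ?_, ?_, ?_⟩
  · have h1 : (fun u => Complex.arg (u / u0) + Complex.arg u0) =
        fun u => (Complex.log (u / u0)).im + Complex.arg u0 := by
      funext u; rw [Complex.log_im]
    rw [h1]
    have h2 : ContDiffAt ℝ 2 (fun u : ℂ => Complex.log (u / u0)) u0 := by
      have h3 : ContDiffAt ℝ 2 Complex.log (u0 / u0) := by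
        rw [div_self hu]
        exact (Complex.contDiffAt_log Complex.one_mem_slitPlane).restrict_scalars ℝ
      have h4 : ContDiffAt ℝ 2 (fun u : ℂ => u / u0) u0 := by
        have : (fun u : ℂ => u / u0) = fun u => u * u0⁻¹ := by funext u; rw [div_eq_mul_inv]
        rw [this]
        fun_prop
      exact ContDiffAt.comp u0 (g := Complex.log) (f := fun u : ℂ => u / u0) h3 h4
    have h5 : ContDiffAt ℝ 2 (fun u : ℂ => (Complex.log (u / u0)).im) u0 :=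
      (Complex.imCLM.contDiff.contDiffAt).comp u0 h2
    exact h5.add contDiffAt_const
  · show Complex.arg (u0 / u0) + Complex.arg u0 = _
    rw [div_self hu, Complex.arg_one, zero_add]
  · filter_upwards [isOpen_ne.mem_nhds hu] with u hu'
    rw [Real.Angle.coe_add, ← Complex.arg_mul_coe_angle (div_ne_zero hu' hu) hu,
      div_mul_cancel₀ u hu]

/-- the argument of `r e^{iθ}`. -/
theorem arg_polar {r : ℝ} (hr : 0 < r) (θ : ℝ) :
    (Complex.arg ((r : ℂ) * Complex.exp (θ * Complex.I)) : Real.Angle) = θ := by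
  have := Complex.arg_mul_cos_add_sin_mul_I_coe_angle hr (θ : Real.Angle)
  rw [Real.Angle.cos_coe, Real.Angle.sin_coe] at this
  rw [Complex.exp_mul_I, ← Complex.ofReal_cos, ← Complex.ofReal_sin]
  exact this

theorem aw_pos (b : Bool) (v : Fin 3) : (0 : ℝ) < aw b v := by
  cases b <;> fin_cases v <;> norm_num [aw]

theorem norm_smooth {u0 : ℂ} (hu : u0 ≠ 0) (e : ℝ) :
    ContDiffAt ℝ 2 (fun u : ℂ => ‖u‖ ^ e) u0 :=
  (contDiffAt_norm ℝ hu).rpow_const_of_ne (norm_ne_zero_iff.2 hu)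

/-- slices. -/
theorem slice_smooth {E : Type*} [NormedAddCommGroup E] [NormedSpace ℝ E] {k : ℝ → E → ℂ}
    {U : Set E} (hU : IsOpen U)
    (hk : ContDiffOn ℝ 2 (fun q : ℝ × E => k q.1 q.2) (Icc (0 : ℝ) 1 ×ˢ U)) {t : ℝ}
    (ht : t ∈ Icc (0 : ℝ) 1) {p : E} (hp : p ∈ U) : ContDiffAt ℝ 2 (k t) p := by
  have h1 : ContDiffOn ℝ 2 (fun p : E => (t, p)) U := by fun_prop
  have h2 : ContDiffOn ℝ 2 (k t) U := hk.comp h1 fun p hp => ⟨ht, hp⟩
  exact h2.contDiffAt (hU.mem_nhds hp)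

section LAs

variable {b : Bool} {v : Fin 3} {k : ℝ → ℝ × ℂ → ℂ}

theorem LA_congr {k : ℝ × ℂ → ℂ} (hper : ∀ θ w, k (θ + 2 * π, w) = k (θ, w)) {u w : ℂ} {θ : ℝ}
    (hu : u ≠ 0) (h : (θ : Real.Angle) = Complex.arg u) :
    w ^ 15 + LA b v k (u, w) = ((‖u‖ ^ (15 / (aw b v : ℝ)) : ℝ) : ℂ) *
      k (θ, ((‖u‖ ^ (-(1 / (aw b v : ℝ))) : ℝ) : ℂ) * w) := by
  unfold LA
  rw [if_neg hu]
  rw [per_eq (f := fun x => k (x, ((‖u‖ ^ (-(1 / (aw b v : ℝ))) : ℝ) : ℂ) * w))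
    (fun x => hper x _) h]
  ring

theorem astep_LA (hk : ContDiffOn ℝ 2 (fun q : ℝ × (ℝ × ℂ) => k q.1 q.2) (Icc (0 : ℝ) 1 ×ˢ univ))
    (hper : ∀ t ∈ Icc (0 : ℝ) 1, ∀ θ w, k t (θ + 2 * π, w) = k t (θ, w))
    (hout : ∃ W : ℝ, ∀ t ∈ Icc (0 : ℝ) 1, ∀ θ w, W ≤ ‖w‖ → k t (θ, w) = w ^ 15)
    (hreg : ∀ t ∈ Icc (0 : ℝ) 1, ∀ p, k t p = 0 → ∀ c, ∃ y, fderiv ℝ (k t) p y = c) :
    AStep b v (LA b v (k 0)) (LA b v (k 1)) := by
  have ha := aw_pos b v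
  set a : ℝ := (aw b v : ℝ) with ha_def
  let τ : ℝ → ℝ := Real.smoothTransition
  have hτ : ∀ t, τ t ∈ Icc (0 : ℝ) 1 := fun t =>
    ⟨Real.smoothTransition.nonneg t, Real.smoothTransition.le_one t⟩
  have hτs : ContDiff ℝ 2 τ := Real.smoothTransition.contDiff
  refine ⟨fun q => LA b v (k (τ q.1)) q.2, ?_, fun z => ?_, fun z => ?_⟩
  swap
  · show LA b v (k (Real.smoothTransition 0)) z = _
    rw [Real.smoothTransition.zero]
  swap
  · show LA b v (k (Real.smoothTransition 1)) z = _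
    rw [Real.smoothTransition.one]
  -- smoothness
  have hS : ∀ q0 : ℝ × (ℂ × ℂ), q0.2.1 ≠ 0 →
      ContDiffAt ℝ 2 (fun q : ℝ × (ℂ × ℂ) => LA b v (k (τ q.1)) q.2) q0 := by
    rintro ⟨t0, u0, w0⟩ hu0
    simp only at hu0
    obtain ⟨α, hα, hα0, hα1⟩ := arg_branch hu0
    have hfst : ContDiffAt ℝ 2 (fun q : ℝ × (ℂ × ℂ) => q.2.1) (t0, u0, w0) := by fun_prop
    have hsnd : ContDiffAt ℝ 2 (fun q : ℝ × (ℂ × ℂ) => q.2.2) (t0, u0, w0) := by fun_prop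
    have hn : ∀ e : ℝ, ContDiffAt ℝ 2 (fun q : ℝ × (ℂ × ℂ) => ((‖q.2.1‖ ^ e : ℝ) : ℂ))
        (t0, u0, w0) := fun e => by
      have h1 : ContDiffAt ℝ 2 (fun q : ℝ × (ℂ × ℂ) => ‖q.2.1‖ ^ e) (t0, u0, w0) :=
        ContDiffAt.comp (t0, u0, w0) (g := fun u : ℂ => ‖u‖ ^ e) (norm_smooth hu0 e) hfst
      exact (Complex.ofRealCLM.contDiff.contDiffAt).comp (t0, u0, w0) h1
    have hαc : ContDiffAt ℝ 2 (fun q : ℝ × (ℂ × ℂ) => α q.2.1) (t0, u0, w0) :=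
      hα.comp (t0, u0, w0) hfst
    have hΦ : ContDiffAt ℝ 2 (fun q : ℝ × (ℂ × ℂ) =>
        ((τ q.1, (α q.2.1, ((‖q.2.1‖ ^ (-(1 / a)) : ℝ) : ℂ) * q.2.2)) : ℝ × (ℝ × ℂ)))
        (t0, u0, w0) := by
      have h1 : ContDiffAt ℝ 2 (fun q : ℝ × (ℂ × ℂ) => τ q.1) (t0, u0, w0) :=
        (hτs.comp contDiff_fst).contDiffAt
      exact h1.prodMk (hαc.prodMk ((hn _).mul hsnd))
    have hK : ContDiffAt ℝ 2 (fun q : ℝ × (ℂ × ℂ) =>
        k (τ q.1) (α q.2.1, ((‖q.2.1‖ ^ (-(1 / a)) : ℝ) : ℂ) * q.2.2)) (t0, u0, w0) := by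
      have h1 : ContDiffWithinAt ℝ 2 (fun q : ℝ × (ℝ × ℂ) => k q.1 q.2) (Icc (0 : ℝ) 1 ×ˢ univ)
          (τ t0, (α u0, ((‖u0‖ ^ (-(1 / a)) : ℝ) : ℂ) * w0)) := hk _ ⟨hτ t0, mem_univ _⟩
      have h2 := h1.comp (t0, u0, w0) (s := univ) (f := fun q : ℝ × (ℂ × ℂ) =>
        ((τ q.1, (α q.2.1, ((‖q.2.1‖ ^ (-(1 / a)) : ℝ) : ℂ) * q.2.2)) : ℝ × (ℝ × ℂ)))
        hΦ.contDiffWithinAt (fun q _ => ⟨hτ q.1, mem_univ _⟩)
      exact contDiffWithinAt_univ.1 h2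
    have hF : ContDiffAt ℝ 2 (fun q : ℝ × (ℂ × ℂ) => ((‖q.2.1‖ ^ (15 / a) : ℝ) : ℂ) *
        k (τ q.1) (α q.2.1, ((‖q.2.1‖ ^ (-(1 / a)) : ℝ) : ℂ) * q.2.2) - q.2.2 ^ 15)
        (t0, u0, w0) := ((hn _).mul hK).sub (hsnd.pow 15)
    refine hF.congr_of_eventuallyEq ?_
    have h1 : ∀ᶠ q : ℝ × (ℂ × ℂ) in 𝓝 (t0, u0, w0), (α q.2.1 : Real.Angle) = Complex.arg q.2.1 :=
      hfst.continuousAt.eventually hα1
    have h2 : ∀ᶠ q : ℝ × (ℂ × ℂ) in 𝓝 (t0, u0, w0), q.2.1 ≠ 0 :=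
      hfst.continuousAt.eventually (isOpen_ne.mem_nhds hu0)
    filter_upwards [h1, h2] with q hq hq0
    have h3 := LA_congr (b := b) (v := v) (w := q.2.2) (hper (τ q.1) (hτ q.1)) hq0 hq
    show LA b v (k (τ q.1)) (q.2.1, q.2.2) = _
    rw [← h3]
    ring
  refine ⟨⟨univ, isOpen_univ, subset_univ _, fun q hq => (hS q hq.2).contDiffWithinAt⟩, ?_, ?_, ?_,
    ?_⟩
  · -- homogeneity
    intro t ht l u w hl
    simp only [LA]
    by_cases hu : u = 0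
    · simp [hu]
    · have hlc : (l : ℂ) ≠ 0 := by exact_mod_cast hl.ne'
      rw [if_neg (mul_ne_zero (pow_ne_zero _ hlc) hu), if_neg hu]
      have e1 : ‖(l : ℂ) ^ aw b v * u‖ = l ^ a * ‖u‖ := by
        rw [norm_mul, norm_pow, Complex.norm_real, Real.norm_of_nonneg hl.le, ha_def,
          Real.rpow_natCast]
      have hla : 0 < l ^ a := Real.rpow_pos_of_pos hl _
      have hun : 0 < ‖u‖ := norm_pos_iff.2 hu
      have e2 : Complex.arg ((l : ℂ) ^ aw b v * u) = Complex.arg u := by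
        have : ((l : ℂ) ^ aw b v) = ((l ^ aw b v : ℝ) : ℂ) := by push_cast; rfl
        rw [this]
        exact Complex.arg_real_mul u (pow_pos hl _)
      have e3 : (l ^ a * ‖u‖) ^ (15 / a) = l ^ (15 : ℕ) * ‖u‖ ^ (15 / a) := by
        rw [Real.mul_rpow hla.le hun.le, ← Real.rpow_mul hl.le, mul_div_cancel₀ _ ha.ne']
        congr 1
        exact_mod_cast Real.rpow_natCast l 15
      have e4 : (l ^ a * ‖u‖) ^ (-(1 / a)) = l⁻¹ * ‖u‖ ^ (-(1 / a)) := by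
        rw [Real.mul_rpow hla.le hun.le, ← Real.rpow_mul hl.le]
        congr 1
        rw [show a * -(1 / a) = -1 by field_simp, Real.rpow_neg_one]
      rw [e1, e2, e3, e4]
      have e5 : (((l⁻¹ * ‖u‖ ^ (-(1 / a)) : ℝ)) : ℂ) * ((l : ℂ) * w) =
          ((‖u‖ ^ (-(1 / a)) : ℝ) : ℂ) * w := by
        push_cast
        field_simp
      rw [e5]
      push_cast
      ring
  · -- support
    obtain ⟨W, hW⟩ := hout
    refine ⟨(max W 1) ^ a, Real.rpow_pos_of_pos (lt_max_of_lt_right one_pos) _, fun t u w h => ?_⟩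
    simp only [LA]
    by_cases hu : u = 0
    · simp [hu]
    rw [if_neg hu]
    have hun : 0 < ‖u‖ := norm_pos_iff.2 hu
    have hup : 0 < ‖u‖ ^ (-(1 / a)) := Real.rpow_pos_of_pos hun _
    have h1 : W ≤ ‖((‖u‖ ^ (-(1 / a)) : ℝ) : ℂ) * w‖ := by
      rw [norm_mul, Complex.norm_real, Real.norm_of_nonneg hup.le]
      have h2 : (max W 1) * ‖u‖ ^ (1 / a) ≤ ‖w‖ := by
        have h3 : ((max W 1) * ‖u‖ ^ (1 / a)) ^ a ≤ ‖w‖ ^ a := by
          rw [Real.mul_rpow (le_max_of_le_right zero_le_one) (Real.rpow_nonneg hun.le _),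
            ← Real.rpow_mul hun.le, one_div_mul_cancel ha.ne', Real.rpow_one]
          refine h.trans (le_of_eq ?_)
          rw [ha_def, Real.rpow_natCast]
        exact (Real.rpow_le_rpow_iff (by positivity) (norm_nonneg _) ha).1 h3
      calc W ≤ max W 1 := le_max_left _ _
        _ = ‖u‖ ^ (-(1 / a)) * ((max W 1) * ‖u‖ ^ (1 / a)) := by
          rw [Real.rpow_neg hun.le]
          field_simp
        _ ≤ _ := mul_le_mul_of_nonneg_left h2 hup.le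
    rw [hW _ (hτ t) _ _ h1, mul_pow, ← mul_assoc]
    have e : (((‖u‖ ^ (15 / a) : ℝ)) : ℂ) * (((‖u‖ ^ (-(1 / a)) : ℝ)) : ℂ) ^ 15 = 1 := by
      have : ‖u‖ ^ (15 / a) * (‖u‖ ^ (-(1 / a))) ^ 15 = 1 := by
        rw [← Real.rpow_natCast (‖u‖ ^ (-(1 / a))) 15, ← Real.rpow_mul hun.le,
          ← Real.rpow_add hun]
        have : 15 / a + -(1 / a) * ((15 : ℕ) : ℝ) = 0 := by push_cast; ring
        rw [this, Real.rpow_zero]
      exact_mod_cast this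
    rw [e, one_mul, sub_self]
  · intro t w
    simp only [LA]
    simp
  · -- regularity
    intro t ht u w hu h0 c
    have hd : DifferentiableAt ℝ (fun q : ℝ × (ℂ × ℂ) => LA b v (k (τ q.1)) q.2) (t, (u, w)) :=
      (hS (t, (u, w)) hu).differentiableAt (by norm_num)
    have hun : 0 < ‖u‖ := norm_pos_iff.2 hu
    set R : ℝ := ‖u‖ ^ (15 / a) with hR
    set ρ : ℝ := ‖u‖ ^ (-(1 / a)) with hρ
    set ρ' : ℝ := ‖u‖ ^ (1 / a) with hρ'
    have hRp : 0 < R := Real.rpow_pos_of_pos hun _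
    have hρp : 0 < ρ := Real.rpow_pos_of_pos hun _
    have hρρ : ρ * ρ' = 1 := by
      rw [hρ, hρ', ← Real.rpow_add hun, neg_add_cancel, Real.rpow_zero]
    -- the local chart
    let Ψ : ℝ × ℂ → ℂ × ℂ := fun p => ((‖u‖ : ℂ) * Complex.exp (p.1 * Complex.I), (ρ' : ℂ) * p.2)
    have hΨ : Differentiable ℝ Ψ := by fun_prop
    have hu' : (‖u‖ : ℂ) * Complex.exp (Complex.arg u * Complex.I) = u :=
      Complex.norm_mul_exp_arg_mul_I u
    set p0 : ℝ × ℂ := (Complex.arg u, (ρ : ℂ) * w) with hp0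
    have hρρc : (ρ' : ℂ) * (ρ : ℂ) = 1 := by
      have : ρ' * ρ = 1 := by rw [mul_comm]; exact hρρ
      exact_mod_cast this
    have hΨ0 : Ψ p0 = (u, w) := by
      show ((‖u‖ : ℂ) * Complex.exp (Complex.arg u * Complex.I), (ρ' : ℂ) * ((ρ : ℂ) * w)) = _
      rw [hu', ← mul_assoc, hρρc, one_mul]
    have hk0 : k (τ t) p0 = 0 := by
      have h1 := LA_congr (b := b) (v := v) (w := w) (hper (τ t) (hτ t)) hu rfl
      rw [← ha_def, ← hR, ← hρ] at h1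
      have h2 : (R : ℂ) * k (τ t) p0 = 0 := by rw [← h1]; exact h0
      exact (mul_eq_zero.1 h2).resolve_left (by exact_mod_cast hRp.ne')
    obtain ⟨y, hy⟩ := hreg (τ t) (hτ t) p0 hk0 ((R : ℂ)⁻¹ * c)
    let G : ℂ × ℂ → ℂ := fun z => z.2 ^ 15 + LA b v (k (τ t)) z
    have hLd : DifferentiableAt ℝ (LA b v (k (τ t))) (u, w) := by
      have h1 : DifferentiableAt ℝ (fun z : ℂ × ℂ => ((t, z) : ℝ × (ℂ × ℂ))) (u, w) := by fun_prop
      exact DifferentiableAt.comp (u, w)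
        (g := fun q : ℝ × (ℂ × ℂ) => LA b v (k (τ q.1)) q.2) hd h1
    have hGd : HasFDerivAt G (fderiv ℝ G (u, w)) (u, w) := by
      have : DifferentiableAt ℝ G (u, w) := by
        refine DifferentiableAt.add ?_ hLd
        fun_prop
      exact this.hasFDerivAt
    have hG1 : ∀ Y : ℂ × ℂ, fderiv ℝ G (u, w) Y =
        15 * w ^ 14 * Y.2 + fderiv ℝ (fun q : ℝ × (ℂ × ℂ) => LA b v (k (τ q.1)) q.2)
          (t, (u, w)) (0, Y) := by
      intro Y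
      rw [slice hd]
      have h2 : HasFDerivAt (fun z : ℂ × ℂ => z.2) (ContinuousLinearMap.snd ℝ ℂ ℂ) (u, w) :=
        hasFDerivAt_snd
      have h1 := h2.pow 15
      have h4 := (h1.add hLd.hasFDerivAt).fderiv
      show fderiv ℝ ((fun z : ℂ × ℂ => z.2 ^ 15) + LA b v (k (τ t))) (u, w) Y = _
      rw [h4]
      simp
    have hcomp : HasFDerivAt (fun p => G (Ψ p)) ((fderiv ℝ G (u, w)).comp (fderiv ℝ Ψ p0)) p0 := by
      have h1 : HasFDerivAt G (fderiv ℝ G (u, w)) (Ψ p0) := by rw [hΨ0]; exact hGd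
      exact h1.comp p0 (hΨ p0).hasFDerivAt
    have hkd : DifferentiableAt ℝ (k (τ t)) p0 :=
      (slice_smooth isOpen_univ hk (hτ t) (mem_univ p0)).differentiableAt (by norm_num)
    have hcomp' : HasFDerivAt (fun p => (R : ℂ) * k (τ t) p) ((R : ℂ) • fderiv ℝ (k (τ t)) p0) p0 :=
      hkd.hasFDerivAt.const_mul (R : ℂ)
    have he : (fun p => G (Ψ p)) = fun p => (R : ℂ) * k (τ t) p := by
      funext p
      have hne : (‖u‖ : ℂ) * Complex.exp (p.1 * Complex.I) ≠ 0 :=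
        mul_ne_zero (by exact_mod_cast hun.ne') (Complex.exp_ne_zero _)
      have hnn : ‖(‖u‖ : ℂ) * Complex.exp (p.1 * Complex.I)‖ = ‖u‖ := by
        rw [norm_mul, Complex.norm_exp_ofReal_mul_I, mul_one, Complex.norm_real, norm_norm]
      have hang : ((p.1 : ℝ) : Real.Angle) =
          Complex.arg ((‖u‖ : ℂ) * Complex.exp (p.1 * Complex.I)) := by
        exact (arg_polar hun p.1).symm
      have h1 := LA_congr (b := b) (v := v) (w := (ρ' : ℂ) * p.2) (hper (τ t) (hτ t)) hne hang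
      rw [hnn, ← ha_def, ← hR, ← hρ, ← mul_assoc, mul_comm (ρ : ℂ) (ρ' : ℂ), hρρc, one_mul] at h1
      exact h1
    rw [he] at hcomp
    have huniq := hcomp.unique hcomp'
    refine ⟨fderiv ℝ Ψ p0 y, ?_⟩
    rw [← hG1]
    have h2 : (fderiv ℝ G (u, w)) (fderiv ℝ Ψ p0 y) =
        ((fderiv ℝ G (u, w)).comp (fderiv ℝ Ψ p0)) y := rfl
    rw [h2, huniq]
    show (R : ℂ) * fderiv ℝ (k (τ t)) p0 y = c
    rw [hy, ← mul_assoc, mul_inv_cancel₀ (by exact_mod_cast hRp.ne'), one_mul]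

end LAs

section PAs

variable {b : Bool} {v : Fin 3} {h : ℝ → ℝ × ℝ × ℝ → ℂ}

/-- smoothness of the polar family at `w = 0` included. -/
theorem polar_family
    (hh : ContDiffOn ℝ 2 (fun q : ℝ × (ℝ × ℝ × ℝ) => h q.1 q.2)
      (Icc (0 : ℝ) 1 ×ˢ {p | 0 < p.2.1}))
    (hper2 : ∀ t ∈ Icc (0 : ℝ) 1, ∀ θ u ω, 0 < u → h t (θ, u, ω + 2 * π) = h t (θ, u, ω))
    (hin : ∃ u0 : ℝ, 0 < u0 ∧ ∀ t ∈ Icc (0 : ℝ) 1, ∀ θ u ω, 0 ≤ u → u ≤ u0 →
      h t (θ, u, ω) = h t (θ, u0, 0)) :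
    ContDiffOn ℝ 2 (fun q : ℝ × (ℝ × ℂ) => h q.1 (q.2.1, ‖q.2.2‖, Complex.arg q.2.2))
      (Icc (0 : ℝ) 1 ×ˢ univ) := by
  obtain ⟨u0, hu0, hin⟩ := hin
  rintro ⟨t0, θ0, w0⟩ hq
  have ht0 : t0 ∈ Icc (0 : ℝ) 1 := hq.1
  by_cases hw : w0 = 0
  · subst hw
    set S' : Set (ℝ × (ℝ × ℂ)) := Icc (0 : ℝ) 1 ×ˢ {p : ℝ × ℂ | ‖p.2‖ < u0} with hS'
    have hmem : S' ∈ 𝓝[Icc (0 : ℝ) 1 ×ˢ univ] ((t0, θ0, 0) : ℝ × (ℝ × ℂ)) := by
      have h1 : {q : ℝ × (ℝ × ℂ) | ‖q.2.2‖ < u0} ∈ 𝓝 ((t0, θ0, 0) : ℝ × (ℝ × ℂ)) := by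
        refine (isOpen_lt (by fun_prop) continuous_const).mem_nhds ?_
        show ‖(0 : ℂ)‖ < u0
        rw [norm_zero]; exact hu0
      filter_upwards [self_mem_nhdsWithin, mem_nhdsWithin_of_mem_nhds h1] with q hq1 hq2
      exact ⟨hq1.1, hq2⟩
    have hc : ContDiffWithinAt ℝ 2 (fun q : ℝ × (ℝ × ℂ) => h q.1 (q.2.1, u0, 0)) S'
        (t0, θ0, 0) := by
      have h1 : ContDiffWithinAt ℝ 2 (fun q : ℝ × (ℝ × ℝ × ℝ) => h q.1 q.2)
          (Icc (0 : ℝ) 1 ×ˢ {p | 0 < p.2.1}) (t0, (θ0, u0, 0)) := hh _ ⟨ht0, hu0⟩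
      have hΦ : ContDiff ℝ 2 fun q : ℝ × (ℝ × ℂ) =>
          ((q.1, (q.2.1, u0, 0)) : ℝ × (ℝ × ℝ × ℝ)) := by fun_prop
      exact h1.comp (t0, θ0, 0) (f := fun q : ℝ × (ℝ × ℂ) =>
        ((q.1, (q.2.1, u0, 0)) : ℝ × (ℝ × ℝ × ℝ))) hΦ.contDiffWithinAt (fun q hq => ⟨hq.1, hu0⟩)
    have hc2 : ContDiffWithinAt ℝ 2 (fun q : ℝ × (ℝ × ℂ) =>
          h q.1 (q.2.1, ‖q.2.2‖, Complex.arg q.2.2)) S' (t0, θ0, 0) := by
      refine hc.congr (fun q hq => ?_) ?_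
      · exact hin q.1 hq.1 _ _ _ (norm_nonneg _) (le_of_lt hq.2)
      · exact hin t0 ht0 _ _ _ (norm_nonneg _) (by rw [norm_zero]; exact hu0.le)
    exact hc2.mono_of_mem_nhdsWithin hmem
  · obtain ⟨α, hα, hα0, hα1⟩ := arg_branch hw
    set S' : Set (ℝ × (ℝ × ℂ)) := Icc (0 : ℝ) 1 ×ˢ {p : ℝ × ℂ | p.2 ≠ 0 ∧
      (α p.2 : Real.Angle) = Complex.arg p.2} with hS'
    have hmem : S' ∈ 𝓝[Icc (0 : ℝ) 1 ×ˢ univ] ((t0, θ0, w0) : ℝ × (ℝ × ℂ)) := by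
      have h0 : ContinuousAt (fun q : ℝ × (ℝ × ℂ) => q.2.2) (t0, θ0, w0) := by fun_prop
      have h1 := h0.eventually (isOpen_ne.mem_nhds hw)
      have h2 := h0.eventually hα1
      filter_upwards [self_mem_nhdsWithin, mem_nhdsWithin_of_mem_nhds h1,
        mem_nhdsWithin_of_mem_nhds h2] with q hq1 hq2 hq3
      exact ⟨hq1.1, hq2, hq3⟩
    have hc : ContDiffWithinAt ℝ 2 (fun q : ℝ × (ℝ × ℂ) => h q.1 (q.2.1, ‖q.2.2‖, α q.2.2)) S'
        (t0, θ0, w0) := by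
      have h1 : ContDiffWithinAt ℝ 2 (fun q : ℝ × (ℝ × ℝ × ℝ) => h q.1 q.2)
          (Icc (0 : ℝ) 1 ×ˢ {p | 0 < p.2.1}) (t0, (θ0, ‖w0‖, α w0)) :=
        hh _ ⟨ht0, norm_pos_iff.2 hw⟩
      have hΦ : ContDiffAt ℝ 2 (fun q : ℝ × (ℝ × ℂ) =>
          ((q.1, (q.2.1, ‖q.2.2‖, α q.2.2)) : ℝ × (ℝ × ℝ × ℝ))) (t0, θ0, w0) := by
        have h2 : ContDiffAt ℝ 2 (fun q : ℝ × (ℝ × ℂ) => q.2.2) (t0, θ0, w0) := by fun_prop
        have h3 : ContDiffAt ℝ 2 (fun q : ℝ × (ℝ × ℂ) => ‖q.2.2‖) (t0, θ0, w0) :=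
          ContDiffAt.comp (t0, θ0, w0) (g := fun w : ℂ => ‖w‖) (contDiffAt_norm ℝ hw) h2
        have h4 : ContDiffAt ℝ 2 (fun q : ℝ × (ℝ × ℂ) => α q.2.2) (t0, θ0, w0) :=
          hα.comp (t0, θ0, w0) h2
        have h5 : ContDiffAt ℝ 2 (fun q : ℝ × (ℝ × ℂ) => q.2.1) (t0, θ0, w0) := by fun_prop
        exact contDiffAt_fst.prodMk (h5.prodMk (h3.prodMk h4))
      exact h1.comp (t0, θ0, w0) (f := fun q : ℝ × (ℝ × ℂ) =>
        ((q.1, (q.2.1, ‖q.2.2‖, α q.2.2)) : ℝ × (ℝ × ℝ × ℝ))) hΦ.contDiffWithinAt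
        (fun q hq => ⟨hq.1, norm_pos_iff.2 hq.2.1⟩)
    have hc2 : ContDiffWithinAt ℝ 2 (fun q : ℝ × (ℝ × ℂ) =>
          h q.1 (q.2.1, ‖q.2.2‖, Complex.arg q.2.2)) S' (t0, θ0, w0) := by
      refine hc.congr (fun q hq => ?_) ?_
      · exact per_eq (f := fun x => h q.1 (q.2.1, ‖q.2.2‖, x))
          (fun x => hper2 q.1 hq.1 _ _ x (norm_pos_iff.2 hq.2.1)) hq.2.2.symm
      · show h t0 (θ0, ‖w0‖, Complex.arg w0) = h t0 (θ0, ‖w0‖, α w0)
        rw [hα0]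
    exact hc2.mono_of_mem_nhdsWithin hmem

/-- the same for one function. -/
theorem polar_smooth {h : ℝ × ℝ × ℝ → ℂ} (hh : ContDiffOn ℝ 2 h {p | 0 < p.2.1})
    (hper2 : ∀ θ u ω, 0 < u → h (θ, u, ω + 2 * π) = h (θ, u, ω))
    (hin : ∃ u0 : ℝ, 0 < u0 ∧ ∀ θ u ω, 0 ≤ u → u ≤ u0 → h (θ, u, ω) = h (θ, u0, 0)) :
    ContDiff ℝ 2 fun q : ℝ × ℂ => h (q.1, ‖q.2‖, Complex.arg q.2) := by
  obtain ⟨u0, hu0, hin⟩ := hin
  have h1 := polar_family (h := fun _ => h)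
    (hh.comp contDiffOn_snd fun q hq => hq.2) (fun t _ => hper2) ⟨u0, hu0, fun t _ => hin⟩
  rw [← contDiffOn_univ]
  have h2 : ContDiffOn ℝ 2 (fun q : ℝ × ℂ => ((0 : ℝ), q)) univ := by fun_prop
  exact h1.comp h2 fun q _ => ⟨⟨le_rfl, zero_le_one⟩, mem_univ _⟩

/-- **homotopy of arms in polar coordinates** `(θ, u, ω)`, `|v| = 1`, `w = u e^{iω}`. -/
theorem astep_PA
    (hh : ContDiffOn ℝ 2 (fun q : ℝ × (ℝ × ℝ × ℝ) => h q.1 q.2)
      (Icc (0 : ℝ) 1 ×ˢ {p | 0 < p.2.1}))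
    (hper1 : ∀ t ∈ Icc (0 : ℝ) 1, ∀ θ u ω, 0 < u → h t (θ + 2 * π, u, ω) = h t (θ, u, ω))
    (hper2 : ∀ t ∈ Icc (0 : ℝ) 1, ∀ θ u ω, 0 < u → h t (θ, u, ω + 2 * π) = h t (θ, u, ω))
    (hin : ∃ u0 : ℝ, 0 < u0 ∧ ∀ t ∈ Icc (0 : ℝ) 1, ∀ θ u ω, 0 ≤ u → u ≤ u0 →
      h t (θ, u, ω) = h t (θ, u0, 0))
    (hout : ∃ W : ℝ, ∀ t ∈ Icc (0 : ℝ) 1, ∀ θ u ω, W ≤ u →
      h t (θ, u, ω) = ((u : ℂ) * Complex.exp (ω * Complex.I)) ^ 15)
    (hreg : ∀ t ∈ Icc (0 : ℝ) 1, ∀ θ u ω, 0 < u → h t (θ, u, ω) = 0 →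
      ∀ c, ∃ y, fderiv ℝ (h t) (θ, u, ω) y = c) :
    AStep b v (PA b v (h 0)) (PA b v (h 1)) := by
  obtain ⟨u0, hu0, hin⟩ := hin
  let k : ℝ → ℝ × ℂ → ℂ := fun t q => h t (q.1, ‖q.2‖, Complex.arg q.2)
  have hoU : IsOpen {p : ℝ × ℝ × ℝ | 0 < p.2.1} :=
    isOpen_lt continuous_const (continuous_fst.comp continuous_snd)
  refine astep_LA (k := k) ?_ ?_ ?_ ?_
  · exact polar_family hh hper2 ⟨u0, hu0, hin⟩
  · -- periodicity
    intro t ht θ w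
    show h t (θ + 2 * π, ‖w‖, Complex.arg w) = h t (θ, ‖w‖, Complex.arg w)
    by_cases hw : w = 0
    · have hn : ‖w‖ ≤ u0 := by rw [hw, norm_zero]; exact hu0.le
      rw [hin t ht _ _ _ (norm_nonneg _) hn, hin t ht _ _ _ (norm_nonneg _) hn,
        hper1 t ht _ _ _ hu0]
    · exact hper1 t ht _ _ _ (norm_pos_iff.2 hw)
  · -- outer
    obtain ⟨W, hW⟩ := hout
    refine ⟨W, fun t ht θ w hw => ?_⟩
    show h t (θ, ‖w‖, Complex.arg w) = w ^ 15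
    rw [hW t ht _ _ _ hw, Complex.norm_mul_exp_arg_mul_I]
  · -- regularity
    rintro t ht ⟨θ, w⟩ h0 c
    have hkd : DifferentiableAt ℝ (k t) (θ, w) := by
      by_cases hw : w = 0
      · subst hw
        have h1 : (k t) =ᶠ[𝓝 (θ, (0 : ℂ))] fun q => h t (q.1, u0, 0) := by
          have h2 : {q : ℝ × ℂ | ‖q.2‖ < u0} ∈ 𝓝 (θ, (0 : ℂ)) := by
            refine (isOpen_lt (by fun_prop) continuous_const).mem_nhds ?_
            show ‖(0 : ℂ)‖ < u0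
            rw [norm_zero]; exact hu0
          filter_upwards [h2] with q hq
          exact hin t ht _ _ _ (norm_nonneg _) (le_of_lt hq)
        have h3 : DifferentiableAt ℝ (h t) (θ, u0, 0) :=
          (slice_smooth hoU hh ht (p := (θ, u0, 0)) hu0).differentiableAt (by norm_num)
        have h4 : DifferentiableAt ℝ (fun q : ℝ × ℂ => h t (q.1, u0, 0)) (θ, 0) :=
          DifferentiableAt.comp (θ, (0 : ℂ)) (g := h t)
            (f := fun q : ℝ × ℂ => ((q.1, u0, 0) : ℝ × ℝ × ℝ)) h3 (by fun_prop)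
        exact h4.congr_of_eventuallyEq h1
      · obtain ⟨α, hα, hα0, hα1⟩ := arg_branch hw
        have h1 : (k t) =ᶠ[𝓝 (θ, w)] fun q => h t (q.1, ‖q.2‖, α q.2) := by
          have hc : ContinuousAt (fun q : ℝ × ℂ => q.2) (θ, w) := by fun_prop
          filter_upwards [hc.eventually (isOpen_ne.mem_nhds hw), hc.eventually hα1] with q hq hq1
          exact per_eq (f := fun x => h t (q.1, ‖q.2‖, x))
            (fun x => hper2 t ht _ _ x (norm_pos_iff.2 hq)) hq1.symm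
        have h3 : DifferentiableAt ℝ (h t) (θ, ‖w‖, α w) :=
          (slice_smooth hoU hh ht (p := (θ, ‖w‖, α w)) (norm_pos_iff.2 hw)).differentiableAt
            (by norm_num)
        have h4 : DifferentiableAt ℝ (fun q : ℝ × ℂ => h t (q.1, ‖q.2‖, α q.2)) (θ, w) := by
          refine DifferentiableAt.comp (θ, w) (g := h t)
            (f := fun q : ℝ × ℂ => ((q.1, ‖q.2‖, α q.2) : ℝ × ℝ × ℝ)) h3 ?_
          have h5 : DifferentiableAt ℝ (fun q : ℝ × ℂ => ‖q.2‖) (θ, w) :=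
            DifferentiableAt.comp (θ, w) (g := fun w : ℂ => ‖w‖)
              ((contDiffAt_norm ℝ (n := 2) hw).differentiableAt (by norm_num)) differentiableAt_snd
          have h6 : DifferentiableAt ℝ (fun q : ℝ × ℂ => α q.2) (θ, w) :=
            DifferentiableAt.comp (θ, w) (g := α) (hα.differentiableAt (by norm_num))
              differentiableAt_snd
          exact differentiableAt_fst.prodMk (h5.prodMk h6)
        exact h4.congr_of_eventuallyEq h1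
    -- a map `Φ` with `h t = k t ∘ Φ` near `p0`
    have key : ∀ (p0 : ℝ × ℝ × ℝ) (Φ : ℝ × ℝ × ℝ → ℝ × ℂ), 0 < p0.2.1 → Differentiable ℝ Φ →
        Φ p0 = (θ, w) → (∀ᶠ p in 𝓝 p0, h t p = k t (Φ p)) → ∃ y, fderiv ℝ (k t) (θ, w) y = c := by
      intro p0 Φ hp0 hΦ hΦ0 he
      have hz : h t p0 = 0 := by rw [he.self_of_nhds, hΦ0]; exact h0
      obtain ⟨y, hy⟩ := hreg t ht p0.1 p0.2.1 p0.2.2 hp0 hz c
      have h3 : HasFDerivAt (h t) (fderiv ℝ (h t) p0) p0 :=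
        ((slice_smooth hoU hh ht (p := p0) hp0).differentiableAt (by norm_num)).hasFDerivAt
      have h4 : HasFDerivAt (fun p => k t (Φ p))
          ((fderiv ℝ (k t) (θ, w)).comp (fderiv ℝ Φ p0)) p0 := by
        have h5 : HasFDerivAt (k t) (fderiv ℝ (k t) (θ, w)) (Φ p0) := by
          rw [hΦ0]; exact hkd.hasFDerivAt
        exact h5.comp p0 (hΦ p0).hasFDerivAt
      have h6 := (h4.congr_of_eventuallyEq he).unique h3
      refine ⟨fderiv ℝ Φ p0 y, ?_⟩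
      have h7 : fderiv ℝ (k t) (θ, w) (fderiv ℝ Φ p0 y) =
        ((fderiv ℝ (k t) (θ, w)).comp (fderiv ℝ Φ p0)) y := rfl
      rw [h7, h6]
      exact hy
    by_cases hw : w = 0
    · subst hw
      refine key (θ, u0 / 2, 0) (fun p => (p.1, 0)) (half_pos hu0) (by fun_prop) rfl ?_
      have h2 : {q : ℝ × ℝ × ℝ | 0 < q.2.1 ∧ q.2.1 < u0} ∈ 𝓝 (θ, u0 / 2, (0 : ℝ)) := by
        have hc : Continuous fun q : ℝ × ℝ × ℝ => q.2.1 := by fun_prop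
        refine ((isOpen_lt continuous_const hc).inter
          (isOpen_lt hc continuous_const)).mem_nhds ⟨?_, ?_⟩
        · exact half_pos hu0
        · exact half_lt_self hu0
      filter_upwards [h2] with p hp
      show h t (p.1, p.2.1, p.2.2) = h t (p.1, ‖(0 : ℂ)‖, Complex.arg 0)
      rw [hin t ht _ _ _ hp.1.le hp.2.le,
        hin t ht _ _ _ (norm_nonneg _) (by rw [norm_zero]; exact hu0.le)]
    · have hwn : 0 < ‖w‖ := norm_pos_iff.2 hw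
      refine key (θ, ‖w‖, Complex.arg w)
        (fun p => (p.1, (p.2.1 : ℂ) * Complex.exp (p.2.2 * Complex.I))) hwn (by fun_prop) ?_ ?_
      · show (θ, (‖w‖ : ℂ) * Complex.exp (Complex.arg w * Complex.I)) = (θ, w)
        rw [Complex.norm_mul_exp_arg_mul_I]
      · have h2 : {q : ℝ × ℝ × ℝ | 0 < q.2.1} ∈ 𝓝 (θ, ‖w‖, Complex.arg w) := hoU.mem_nhds hwn
        filter_upwards [h2] with p hp
        have hp' : 0 < p.2.1 := hp
        show h t (p.1, p.2.1, p.2.2) = h t (p.1, ‖(p.2.1 : ℂ) * Complex.exp (p.2.2 * Complex.I)‖,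
          Complex.arg ((p.2.1 : ℂ) * Complex.exp (p.2.2 * Complex.I)))
        rw [norm_mul, Complex.norm_exp_ofReal_mul_I, mul_one, Complex.norm_real,
          Real.norm_of_nonneg hp'.le]
        exact per_eq (f := fun x => h t (p.1, p.2.1, x))
          (fun x => hper2 t ht _ _ x hp') (arg_polar hp' p.2.2).symm

end PAs

end Crest.Agent.R267.PolArm_484
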