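import Crest.Agent.R267.Calc_957
import Crest.Agent.R267.PolArm_484

/-!
# Row 267, T3N, C1 = (N2) planar arms by bilinear staircases: definitions and Props (helper966)

Coordinates of one arm on `|v| = 1`: `θ = arg v`, `u = |w|`, `ω = arg w`;
`x = n θ / 2π`, `lam = log u`, `y = 15 ω / 2π`.

* `Sp` : staircase profile (rises on `[k, k+1/2]`, flat on `[k+1/2, k+1]`), `Gp` : gap profile
  (flat on `[k, k+1/2]`, rises on `[k+1/2, k+1]`);
* `bil N X Y` : bilinear interpolation of `N : ℤ → ℤ → ℝ`;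
* `PD ι` : polar data of a family (parameter `t`) of arms (own phases `q`, `p`, own coefficient `cv`,
  couplings `E, c, ψ`), `PD.K` the raw polar function (all `lam`), `PD.h` the function with the two
  radial cut-offs in the letters of `PolArm_484.astep_PA`, `PD.Ok` formal conditions, `PD.Reg`
  regularity of `K`; `LiftPD` : `Ok`, `Reg` imply `AStep` for all small `u0`, large `W`;
* `NS` : nested systems of integer staircases (with SIGNED cells of the `v`-circle, so the insertion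
  of `+15 ... -15 ...` is part of the tables), `NS.Ok`;
* `NS.pathA`, `NS.pathB`, `NS.pathC`, `NS.fin` : the families; `Neg` : every coupling dominates
  the sum of all other terms somewhere.
-/

set_option autoImplicit false
set_option linter.unusedSectionVars false

noncomputable section

open Set Filter Topology Finset
open scoped ContDiff
open Crest.Agent.R267.NdR_484 Crest.Agent.R267.NdS_484 Crest.Agent.R267.NdY_484
open Crest.Agent.R267.PolArm_484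
open Crest.Agent.R267.T3aDefs_957 (st)

namespace Crest.Agent.R267.NSDefs_966

/-- `exp (2 π i x)`. -/
def e (x : ℝ) : ℂ := Complex.exp (2 * Real.pi * x * Complex.I)

/-- staircase profile: rises from `k` to `k+1` on `[k, k+1/2]`, flat on `[k+1/2, k+1]`. -/
def Sp (x : ℝ) : ℝ := ⌊x⌋ + st (2 * Int.fract x)

/-- gap profile: `k` on `[k, k+1/2]`, rises on `[k+1/2, k+1]`. -/
def Gp (x : ℝ) : ℝ := Sp (x - 1 / 2)

/-- bilinear interpolation. -/
def bil (N : ℤ → ℤ → ℝ) (X Y : ℝ) : ℝ :=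
  (1 - Int.fract X) * (1 - Int.fract Y) * N ⌊X⌋ ⌊Y⌋ +
    Int.fract X * (1 - Int.fract Y) * N (⌊X⌋ + 1) ⌊Y⌋ +
    (1 - Int.fract X) * Int.fract Y * N ⌊X⌋ (⌊Y⌋ + 1) +
    Int.fract X * Int.fract Y * N (⌊X⌋ + 1) (⌊Y⌋ + 1)

/-- inner cut-off: `0` for `u ≤ u0/2`, `1` for `u ≥ u0`. -/
def ca (u0 u : ℝ) : ℝ := st (2 * u / u0 - 1)

/-- outer cut-off: `1` for `u ≤ W`, `0` for `u ≥ 2 W`. -/
def cb (W u : ℝ) : ℝ := 1 - st (u / W - 1)

/-! ### polar data of one arm -/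

/-- polar data of a family (parameter `t`) of arms; the variables are `t`, `x = n arg v / 2π`,
`y = 15 arg w / 2π`. -/
structure PD (ι : Type) where
  /-- number of cells of the `v`-circle -/
  n : ℕ
  /-- own phase of `w` as a function of `(t, y)` -/
  q : ℝ × ℝ → ℝ
  /-- own coefficient of `v` as a function of `t` -/
  cv : ℝ → ℝ
  /-- own phase of `v` as a function of `(t, x)` -/
  p : ℝ × ℝ → ℝ
  /-- exponents of the couplings -/
  E : ι → ℝ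
  /-- coefficients of the couplings, `(t, x, y)` -/
  c : ι → ℝ × ℝ × ℝ → ℝ
  /-- phases of the couplings, `(t, x, y)` -/
  ψ : ι → ℝ × ℝ × ℝ → ℝ

namespace PD

variable {ι : Type} [Fintype ι] (D : PD ι)

/-- the couplings; `z = (x, lam, y)`. -/
def mid (t : ℝ) (z : ℝ × ℝ × ℝ) : ℂ :=
  ∑ σ, ((D.c σ (t, z.1, z.2.2) * Real.exp (D.E σ * z.2.1) : ℝ) : ℂ) * e (D.ψ σ (t, z.1, z.2.2))

/-- the raw polar function; `z = (x, lam, y)`. -/
def K (t : ℝ) (z : ℝ × ℝ × ℝ) : ℂ :=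
  ((Real.exp (15 * z.2.1) : ℝ) : ℂ) * e (D.q (t, z.2.2)) + ((D.cv t : ℝ) : ℂ) * e (D.p (t, z.1)) +
    D.mid t z

/-- formal conditions. -/
structure Ok : Prop where
  hn : 0 < D.n
  cq : ContDiff ℝ 2 D.q
  ccv : ContDiff ℝ 2 D.cv
  cp : ContDiff ℝ 2 D.p
  cc : ∀ σ, ContDiff ℝ 2 (D.c σ)
  cψ : ∀ σ, ContDiff ℝ 2 (D.ψ σ)
  pq : ∀ t y, D.q (t, y + 15) = D.q (t, y) + 15
  pp : ∀ t x, D.p (t, x + D.n) = D.p (t, x) + 15
  hcv : ∀ t ∈ Icc (0 : ℝ) 1, 0 < D.cv t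
  hE : ∀ σ, 1 ≤ D.E σ ∧ D.E σ ≤ 14
  pcx : ∀ σ t x y, D.c σ (t, x + D.n, y) = D.c σ (t, x, y)
  pcy : ∀ σ t x y, D.c σ (t, x, y + 15) = D.c σ (t, x, y)
  pψx : ∀ σ, ∃ i : ℤ, ∀ t x y, D.ψ σ (t, x + D.n, y) = D.ψ σ (t, x, y) + i
  pψy : ∀ σ, ∃ j : ℤ, ∀ t x y, D.ψ σ (t, x, y + 15) = D.ψ σ (t, x, y) + j

/-- `0` is a regular value of the raw polar function. -/
def Reg : Prop := ∀ t ∈ Icc (0 : ℝ) 1, ∀ z : ℝ × ℝ × ℝ, D.K t z = 0 →
  Function.Surjective (fderiv ℝ (D.K t) z)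

/-- the function with the two radial cut-offs, in the variables `(θ, u, ω)` of `astep_PA`. -/
def h (u0 W t : ℝ) (z : ℝ × ℝ × ℝ) : ℂ :=
  ((ca u0 z.2.1 * z.2.1 ^ 15 : ℝ) : ℂ) *
      e (cb W z.2.1 * D.q (t, 15 * z.2.2 / (2 * Real.pi)) +
        (1 - cb W z.2.1) * (15 * z.2.2 / (2 * Real.pi))) +
    (cb W z.2.1 : ℂ) * (((D.cv t : ℝ) : ℂ) * e (D.p (t, D.n * z.1 / (2 * Real.pi))) +
      (ca u0 z.2.1 : ℂ) *
        D.mid t (D.n * z.1 / (2 * Real.pi), Real.log z.2.1, 15 * z.2.2 / (2 * Real.pi)))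

end PD

/-- **LEAF LIFT**: a regular family gives a step, for every small `u0` and large `W`. -/
def LiftPD : Prop := ∀ (ι : Type) [Fintype ι] (D : PD ι), D.Ok → D.Reg →
  ∃ u1 : ℝ, 0 < u1 ∧ ∃ W1 : ℝ, u1 ≤ W1 ∧ ∀ u0 W : ℝ, 0 < u0 → u0 ≤ u1 → W1 ≤ W →
    ∀ (b : Bool) (v : Fin 3), AStep b v (PA b v (D.h u0 W 0)) (PA b v (D.h u0 W 1))

/-! ### nested systems -/

/-- a nested system: terms `0, …, m+1`, the first is the own term of `w`, the last the own term of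
`v`; `n` cells of the `v`-circle with signs `sg k = ±1`. -/
structure NS (m : ℕ) where
  n : ℕ
  sg : ℤ → ℤ
  i : Fin (m + 2) → ℕ
  j : Fin (m + 2) → ℕ
  N : Fin (m + 2) → ℤ → ℤ → ℤ

namespace NS

variable {m : ℕ} (S : NS m)

/-- the conditions; all of them are decidable on one period. -/
structure Ok : Prop where
  hn : 0 < S.n
  sg1 : ∀ k, S.sg k = 1 ∨ S.sg k = -1
  i0 : S.i 0 = 0
  j0 : S.j 0 = 15
  N0 : ∀ k l, S.N 0 k l = l
  i1 : S.i (Fin.last (m + 1)) = 15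
  j1 : S.j (Fin.last (m + 1)) = 0
  N1 : ∀ k l l', S.N (Fin.last (m + 1)) k l = S.N (Fin.last (m + 1)) k l'
  N1s : ∀ k l, S.N (Fin.last (m + 1)) (k + 1) l = S.N (Fin.last (m + 1)) k l + S.sg k
  hj : StrictAnti S.j
  perk : ∀ s k l, S.N s (k + S.n) l = S.N s k l + S.i s
  perl : ∀ s k l, S.N s k (l + 15) = S.N s k l + S.j s
  stepk : ∀ s k l, S.sg k * (S.N s (k + 1) l - S.N s k l) = 0 ∨
    S.sg k * (S.N s (k + 1) l - S.N s k l) = 1
  stepl : ∀ s k l, S.N s k (l + 1) - S.N s k l = 0 ∨ S.N s k (l + 1) - S.N s k l = 1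
  /-- no cell is crossed twice (positive cells; negative cells are mirror images) -/
  diagp : ∀ s k l, S.sg k = 1 → S.N s (k + 1) (l + 1) ≤ S.N s k l + 1
  diagn : ∀ s k l, S.sg k = -1 → S.N s k (l + 1) ≤ S.N s (k + 1) l + 1
  nestk : ∀ (s : Fin (m + 1)) k l,
    S.sg k * (S.N s.castSucc (k + 1) l - S.N s.succ (k + 1) l) ≤
      S.sg k * (S.N s.castSucc k l - S.N s.succ k l)
  nestl : ∀ (s : Fin (m + 1)) k l,
    S.N s.castSucc k l - S.N s.succ k l ≤ S.N s.castSucc k (l + 1) - S.N s.succ k (l + 1)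

/-- index of the coupling `s = 1, …, m`. -/
def ix (s : Fin m) : Fin (m + 2) := s.castSucc.succ

/-- the staircase phase of the term `s` (without the shift `1/2`). -/
def hat (s : Fin (m + 2)) (x y : ℝ) : ℝ := bil (fun k l => (S.N s k l : ℝ)) (Sp x) (Sp y)

/-- the term `s` is flat on the cell `(k, l)`. -/
def flat (s : Fin (m + 2)) (k l : ℤ) : Prop :=
  S.N s (k + 1) l = S.N s k l ∧ S.N s k (l + 1) = S.N s k l ∧ S.N s (k + 1) (l + 1) = S.N s k l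

instance (s : Fin (m + 2)) (k l : ℤ) : Decidable (S.flat s k l) := by unfold flat; infer_instance

/-- killed cells. -/
def kill (k l : ℤ) : Prop := ∃ s, S.flat s k l

instance (k l : ℤ) : Decidable (S.kill k l) := by unfold kill; infer_instance

/-- window of the cells where the term `s` is flat. -/
def fl (s : Fin (m + 2)) (x y : ℝ) : ℝ :=
  bil (fun k l => if S.flat s k l then 1 else 0) (Gp x) (Gp y)

/-- window of the killed cells. -/
def kl (x y : ℝ) : ℝ := bil (fun k l => if S.kill k l then 1 else 0) (Gp x) (Gp y)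

/-- **path A**: from the linear phases to the staircases. `M s` are the coefficients of the
couplings `s = 1, …, m`, `Mv` the coefficient of the own term of `v`. -/
def pathA (M : Fin m → ℝ) (Mv : ℝ) : PD (Fin m) where
  n := S.n
  q := fun z => (1 - z.1) * z.2 + z.1 * (Sp z.2 + 1 / 2)
  cv := fun _ => Mv
  p := fun z => (1 - z.1) * (15 * z.2 / S.n) + z.1 * (S.hat (Fin.last (m + 1)) z.2 0 + 1 / 2)
  E := fun s => S.j (ix s)
  c := fun s _ => M s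
  ψ := fun s z => (1 - z.1) * (S.i (ix s) * z.2.1 / S.n + S.j (ix s) * z.2.2 / 15) +
    z.1 * (S.hat (ix s) z.2.1 z.2.2 + 1 / 2)

/-- **path B**: every coupling is switched off where it is not flat. -/
def pathB (M : Fin m → ℝ) (Mv : ℝ) : PD (Fin m) where
  n := S.n
  q := fun z => Sp z.2 + 1 / 2
  cv := fun _ => Mv
  p := fun z => S.hat (Fin.last (m + 1)) z.2 0 + 1 / 2
  E := fun s => S.j (ix s)
  c := fun s z => M s * (1 - z.1 + z.1 * S.fl (ix s) z.2.1 z.2.2)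
  ψ := fun s z => S.hat (ix s) z.2.1 z.2.2 + 1 / 2

/-- **path C**: real deletions only. `h1 t` is the coefficient of the new deletion (exponent
`15/2`), `h2 t` the multiplier of the flat couplings, `cv t` the own coefficient. -/
def pathC (M : Fin m → ℝ) (cv h1 h2 : ℝ → ℝ) : PD (Option (Fin m)) where
  n := S.n
  q := fun z => Sp z.2 + 1 / 2
  cv := cv
  p := fun z => S.hat (Fin.last (m + 1)) z.2 0 + 1 / 2
  E := fun s => Option.elim s (15 / 2) fun s => (S.j (ix s) : ℝ)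
  c := fun s z => Option.elim s (h1 z.1 * S.kl z.2.1 z.2.2) fun s =>
    M s * h2 z.1 * S.fl (ix s) z.2.1 z.2.2
  ψ := fun _ _ => 1 / 2

/-- **end form**: own words minus real deletions of the killed cells. -/
def fin : PD Unit where
  n := S.n
  q := fun z => Sp z.2 + 1 / 2
  cv := fun _ => 1
  p := fun z => S.hat (Fin.last (m + 1)) z.2 0 + 1 / 2
  E := fun _ => 15 / 2
  c := fun _ z => 5 * S.kl z.2.1 z.2.2
  ψ := fun _ _ => 1 / 2

/-- every coupling dominates the sum of all the other terms somewhere. -/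
def Neg (M : Fin m → ℝ) (Mv : ℝ) : Prop := ∀ s : Fin m, ∃ lam : ℝ,
  Real.exp (15 * lam) + Mv + ∑ s' ∈ univ.erase s, M s' * Real.exp (S.j (ix s') * lam) <
    M s * Real.exp (S.j (ix s) * lam)

/-- coefficients of 484's arms: `r ^ (a i + j - 15)`. -/
def Mr (a : ℕ) (r : ℝ) (s : Fin m) : ℝ := r ^ (a * S.i (ix s) + S.j (ix s) - 15)

/-- the own coefficient of 484's arms: `r ^ (15 a - 15)`. -/
def Mvr (a : ℕ) (r : ℝ) : ℝ := r ^ (15 * a - 15)

end NS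

/-! ### the literal leaves -/

/-- **LEAF OK**: all paths satisfy the formal conditions. -/
def OkProp : Prop := ∀ (m : ℕ) (S : NS m), S.Ok →
  (∀ (M : Fin m → ℝ) (Mv : ℝ), 0 < Mv → (S.pathA M Mv).Ok ∧ (S.pathB M Mv).Ok) ∧
  ∀ (M : Fin m → ℝ) (cv h1 h2 : ℝ → ℝ), ContDiff ℝ 2 cv → ContDiff ℝ 2 h1 → ContDiff ℝ 2 h2 →
    (∀ t, 0 < cv t) → (S.pathC M cv h1 h2).Ok

/-- **LEAF PAIR** (zone condition of path A): adjacent phases. `S.pha s (t, x, y)`. -/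
def NS.pha {m : ℕ} (S : NS m) (s : Fin (m + 2)) (z : ℝ × ℝ × ℝ) : ℝ :=
  (1 - z.1) * (S.i s * z.2.1 / S.n + S.j s * z.2.2 / 15) + z.1 * (S.hat s z.2.1 z.2.2 + 1 / 2)

/-- **LEAF PAIR**. -/
def PairProp : Prop := ∀ (m : ℕ) (S : NS m), S.Ok → ∀ t ∈ Icc (0 : ℝ) 1, ∀ (s : Fin (m + 1))
  (x y : ℝ), (∃ k : ℤ, S.pha s.castSucc (t, x, y) - S.pha s.succ (t, x, y) = k + 1 / 2) →
    deriv (fun x' => S.pha s.castSucc (t, x', y) - S.pha s.succ (t, x', y)) x ≠ 0 ∨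
    deriv (fun y' => S.pha s.castSucc (t, x, y') - S.pha s.succ (t, x, y')) y ≠ 0

/-- all coefficients: `1`, `M`, `Mv`. -/
def cf {m : ℕ} (M : Fin m → ℝ) (Mv : ℝ) : Fin (m + 2) → ℝ :=
  Fin.cons (α := fun _ => ℝ) 1 (Fin.snoc (α := fun _ => ℝ) M Mv)

/-- the terms are pairwise separated: at every radius two neighbours dominate. -/
def NS.Sep {m : ℕ} (S : NS m) (M : Fin m → ℝ) (Mv δ : ℝ) : Prop := ∀ lam : ℝ, ∃ s : Fin (m + 1),
  ∀ s' : Fin (m + 2), s' ≠ s.castSucc → s' ≠ s.succ →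
    cf M Mv s' * Real.exp (S.j s' * lam) ≤
      δ * max (cf M Mv s.castSucc * Real.exp (S.j s.castSucc * lam))
        (cf M Mv s.succ * Real.exp (S.j s.succ * lam))

/-- **LEAF ZONE** (uses PAIR). -/
def ZoneProp : Prop := ∀ (m : ℕ) (S : NS m), S.Ok → ∃ δ > 0, ∀ (M : Fin m → ℝ) (Mv : ℝ),
  (∀ s, 0 < M s) → 0 < Mv → S.Sep M Mv δ → (S.pathA M Mv).Reg

/-- strict convexity of the exponents `a i + j` of 484's arms. -/
def NS.Cvx {m : ℕ} (S : NS m) (a : ℕ) : Prop :=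
  (∀ s, 15 ≤ a * S.i s + S.j s) ∧ 1 ≤ a ∧ ∀ s s' s'' : Fin (m + 2), s < s' → s' < s'' →
    ((a * S.i s' + S.j s' : ℕ) : ℤ) * ((S.j s : ℤ) - S.j s'') <
      ((a * S.i s + S.j s : ℕ) : ℤ) * ((S.j s' : ℤ) - S.j s'') +
        ((a * S.i s'' + S.j s'' : ℕ) : ℤ) * ((S.j s : ℤ) - S.j s')

/-- **LEAF SEP**. -/
def SepProp : Prop := ∀ (m : ℕ) (S : NS m) (a : ℕ), S.Ok → S.Cvx a → ∀ δ > 0, ∃ r0 > 0,
  ∀ r : ℝ, 0 < r → r ≤ r0 → S.Sep (S.Mr a r) (NS.Mvr a r) δ ∧ S.Neg (S.Mr a r) (NS.Mvr a r)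

/-- **LEAF REGB**. -/
def RegBProp : Prop := ∀ (m : ℕ) (S : NS m), S.Ok → ∀ (M : Fin m → ℝ) (Mv : ℝ),
  (∀ s, 0 < M s) → 0 < Mv → S.Neg M Mv → (S.pathB M Mv).Reg

/-- **LEAF REGC**. -/
def RegCProp : Prop := ∀ (m : ℕ) (S : NS m), S.Ok → ∀ (M : Fin m → ℝ) (cv h1 h2 : ℝ → ℝ),
  (∀ s, 0 < M s) → (∀ t, 0 < cv t) → (∀ t ∈ Icc (0 : ℝ) 1, 0 ≤ h1 t ∧ 0 ≤ h2 t) →
  (∀ t ∈ Icc (0 : ℝ) 1, 2 * √(cv t) < h1 t ∨ (h2 t = 1 ∧ S.Neg M (cv t))) →
  (S.pathC M cv h1 h2).Reg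

end Crest.Agent.R267.NSDefs_966
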