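import Crest.Agent.R267.WordPh2_9
import Crest.Agent.R267.NSDefs_966

/-!
# Row 267, N2 EXIT, part A (helper649): one circle

Cells `[k, k+1)`, signs `sg k`, heights `N k`; `M + 1` cells per turn.
* `hx N` : the phase of `NSDefs_966` (lobes `[k, k+1/2]`);
* `pE = hx - N 0 - 1/2`, `pT` = 9's phase `wph` with the lobes `|x - k| ≤ tau`, `tau = 3 / 2π`,
  both in units of `2π`;
* `circ` : `pm s = (1-s) pE + s pT`: where `cos (2π pm) ≥ 0`: `|x - k| < tau`, `pm' ≠ 0`.
-/

set_option autoImplicit false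

noncomputable section

open Set Filter Topology Finset
open Crest.Agent.R267.T3aDefs_957 (st)
open Crest.Agent.R267.Calc_957
open Crest.Agent.R267.GlNDefs_9 (se cen tot Arcs WinA)
open Crest.Agent.R267.WordPh_9 Crest.Agent.R267.WordPh2_9
open Crest.Agent.R267.NSDefs_966 (Sp Gp bil)

namespace Crest.Agent.R267.ArmExA_649

/-- half width of the wide lobes -/
def tau : ℝ := 3 / (2 * Real.pi)

theorem tau_gt : (476 : ℝ) / 1000 < tau := by
  unfold tau
  rw [lt_div_iff₀ (by positivity)]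
  nlinarith [Real.pi_lt_d2]

theorem tau_lt : tau < 1 / 2 := by
  unfold tau
  rw [div_lt_iff₀ (by positivity)]
  nlinarith [Real.pi_gt_three]

theorem tau_pos : 0 < tau := by linarith [tau_gt]

theorem two_pi_tau : 2 * Real.pi * tau = 3 := by
  unfold tau
  have := Real.pi_pos
  field_simp

/-! ### local formulas -/

theorem Sp_loc {k : ℤ} {x : ℝ} (h1 : (k : ℝ) - 1 / 2 ≤ x) (h2 : x ≤ k + 1 / 2) :
    Sp x = k + st (2 * (x - k)) := by
  unfold Sp
  rcases lt_or_ge x k with h | h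
  · have hf : ⌊x⌋ = k - 1 := by
      rw [Int.floor_eq_iff]
      push_cast
      constructor <;> linarith
    rw [Int.fract, hf, st_of_ge (by push_cast; linarith), st_of_le (by linarith)]
    push_cast
    ring
  · have hf : ⌊x⌋ = k := by
      rw [Int.floor_eq_iff]
      constructor <;> linarith
    rw [Int.fract, hf]

theorem Gp_loc {k : ℤ} {x : ℝ} (h1 : (k : ℝ) ≤ x) (h2 : x ≤ k + 1) :
    Gp x = k + st (2 * (x - k) - 1) := by
  unfold Gp
  rw [Sp_loc (k := k) (by linarith) (by linarith)]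
  congr 2
  ring

theorem Gp_flat {k : ℤ} {x : ℝ} (h1 : (k : ℝ) ≤ x) (h2 : x ≤ k + 1 / 2) : Gp x = k := by
  rw [Gp_loc h1 (by linarith), st_of_le (by linarith), add_zero]

/-- interpolation in one variable -/
def il (N : ℤ → ℝ) (X : ℝ) : ℝ := (1 - Int.fract X) * N ⌊X⌋ + Int.fract X * N (⌊X⌋ + 1)

theorem il_add (N : ℤ → ℝ) (k : ℤ) {f : ℝ} (h0 : 0 ≤ f) (h1 : f ≤ 1) :
    il N (k + f) = (1 - f) * N k + f * N (k + 1) := by
  unfold il
  rcases h1.lt_or_eq with h | h
  · have hf : ⌊(k : ℝ) + f⌋ = k := by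
      rw [Int.floor_eq_iff]
      constructor <;> linarith
    rw [Int.fract, hf]
    ring
  · subst h
    have hf : ⌊(k : ℝ) + 1⌋ = k + 1 := by
      rw [Int.floor_eq_iff]
      push_cast
      constructor <;> linarith
    rw [Int.fract, hf]
    push_cast
    ring

theorem bil_eq (N : ℤ → ℤ → ℝ) (X Y : ℝ) :
    bil N X Y = il (fun k => il (fun l => N k l) Y) X := by
  unfold bil il
  ring

theorem bil_eq' (N : ℤ → ℤ → ℝ) (X Y : ℝ) :
    bil N X Y = il (fun l => il (fun k => N k l) X) Y := by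
  unfold bil il
  ring

theorem il_int (N : ℤ → ℝ) (k : ℤ) : il N k = N k := by
  have := il_add N k le_rfl zero_le_one
  simpa using this

theorem il_nonneg {N : ℤ → ℝ} (h : ∀ k, 0 ≤ N k) (X : ℝ) : 0 ≤ il N X := by
  unfold il
  have h1 := Int.fract_nonneg X
  have h2 := (Int.fract_lt_one X).le
  exact add_nonneg (mul_nonneg (by linarith) (h _)) (mul_nonneg h1 (h _))

/-- the phase of the cells -/
def hx (N : ℤ → ℤ) (x : ℝ) : ℝ := il (fun k => (N k : ℝ)) (Sp x)

theorem hx_loc (N : ℤ → ℤ) {k : ℤ} {x : ℝ} (h1 : (k : ℝ) - 1 / 2 ≤ x) (h2 : x ≤ k + 1 / 2) :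
    hx N x = N k + ((N (k + 1) : ℝ) - N k) * st (2 * (x - k)) := by
  unfold hx
  rw [Sp_loc h1 h2, il_add _ _ (st_nonneg _) (st_le_one _)]
  ring

/-! ### the data of a circle -/

/-- heights, signs and the word `e` -/
structure Circ (M : ℕ) (e : ℕ → ℝ) (N sg : ℤ → ℤ) : Prop where
  sg1 : ∀ k, sg k = 1 ∨ sg k = -1
  step : ∀ k, N (k + 1) = N k + sg k
  per : ∀ k, N (k + ((M : ℤ) + 1)) = N k + 15
  se : ∀ i : ℕ, i ≤ M → ((sg i : ℤ) : ℝ) = se e i

variable {M : ℕ} {e : ℕ → ℝ} {N sg : ℤ → ℤ}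

theorem Circ.per_int (h : Circ M e N sg) (j k : ℤ) : N (k + ((M : ℤ) + 1) * j) = N k + 15 * j := by
  induction j using Int.induction_on with
  | zero => simp
  | succ j ih =>
    have : k + ((M : ℤ) + 1) * ((j : ℤ) + 1) = (k + ((M : ℤ) + 1) * j) + ((M : ℤ) + 1) := by ring
    rw [this, h.per, ih]
    ring
  | pred j ih =>
    have h1 := h.per (k + ((M : ℤ) + 1) * (-(j : ℤ) - 1))
    have : k + ((M : ℤ) + 1) * (-(j : ℤ) - 1) + ((M : ℤ) + 1) = k + ((M : ℤ) + 1) * -(j : ℤ) := by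
      ring
    rw [this, ih] at h1
    linarith

theorem Circ.sum (h : Circ M e N sg) {i : ℕ} (hi : i ≤ M + 1) :
    ∑ k ∈ range i, GlNDefs_9.se e k = (N i : ℝ) - N 0 := by
  induction i with
  | zero => simp
  | succ i ih =>
    rw [Finset.sum_range_succ, ih (by omega)]
    have h1 := h.step (i : ℤ)
    have h2 := h.se i (by omega)
    rw [← h2]
    push_cast
    rw [h1]
    push_cast
    ring

theorem Circ.cen (h : Circ M e N sg) {i : ℕ} (hi : i ≤ M) :
    GlNDefs_9.cen e i = 2 * Real.pi * ((N i : ℝ) - N 0) - Real.pi + Real.pi * (sg i : ℝ) := by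
  rw [cen_eq, h.sum (by omega), h.se i hi]
  ring

theorem Circ.tot (h : Circ M e N sg) : GlNDefs_9.tot e M = 2 * Real.pi * 15 := by
  rw [tot_eq, h.sum le_rfl]
  have := h.per 0
  rw [zero_add] at this
  have e1 : ((M + 1 : ℕ) : ℤ) = (M : ℤ) + 1 := by push_cast; ring
  rw [e1, this]
  push_cast
  ring

/-- the wide phase near the cell `k`. -/
theorem Circ.wph_loc (h : Circ M e N sg) {k : ℤ} {x : ℝ} (h1 : (k : ℝ) - 1 / 2 ≤ x)
    (h2 : x ≤ k + 1 / 2) :
    wph e M (aE M) (bE M) (2 * Real.pi * x / (M + 1)) =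
      2 * Real.pi * ((N k : ℝ) - N 0) - Real.pi +
        2 * Real.pi * (sg k : ℝ) * st ((x - k + tau) / (2 * tau)) := by
  have hA := arcsE M
  have hM : (0 : ℝ) < M + 1 := by positivity
  have hpi := Real.pi_pos
  have hpi3 := Real.pi_gt_three
  have ht := tau_pos
  have ht2 := two_pi_tau
  -- reduction to one turn
  obtain ⟨j, i, hi, hk⟩ : ∃ (j : ℤ) (i : ℕ), i ≤ M ∧ k = (i : ℤ) + ((M : ℤ) + 1) * j := by
    have hM1 : (0 : ℤ) < (M : ℤ) + 1 := by positivity
    refine ⟨k / ((M : ℤ) + 1), (k % ((M : ℤ) + 1)).toNat, ?_, ?_⟩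
    · have := Int.emod_lt_of_pos k hM1
      have := Int.emod_nonneg k hM1.ne'
      omega
    · have h3 := Int.emod_nonneg k hM1.ne'
      rw [Int.toNat_of_nonneg h3]
      have := Int.emod_add_mul_ediv k ((M : ℤ) + 1)
      linarith
  have hNk : (N k : ℝ) = (N i : ℝ) + 15 * j := by
    rw [hk, h.per_int]
    push_cast
    ring
  have hsgk : sg k = sg i := by
    have e1 := h.step k
    have e2 := h.step i
    have e3 : N (k + 1) = N ((i : ℤ) + 1) + 15 * j := by
      have := h.per_int j ((i : ℤ) + 1)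
      rw [← this, hk]
      congr 1
      ring
    have e4 : N k = N i + 15 * j := by rw [hk, h.per_int]
    linarith
  set x' : ℝ := x - ((M : ℝ) + 1) * j with hx'
  have hkr : (k : ℝ) = i + ((M : ℝ) + 1) * j := by rw [hk]; push_cast; ring
  have g1 : (i : ℝ) - 1 / 2 ≤ x' := by rw [hx']; linarith
  have g2 : x' ≤ i + 1 / 2 := by rw [hx']; linarith
  have hxk : x - k = x' - i := by rw [hx', hkr]; ring
  have hθ : 2 * Real.pi * x / (M + 1) = 2 * Real.pi * x' / (M + 1) + 2 * Real.pi * j := by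
    rw [hx']
    field_simp
    ring
  rw [hθ, wph_add_int, h.tot, hNk, hsgk, hxk]
  have hcen := h.cen hi
  -- main claim on one turn
  have main : wph e M (aE M) (bE M) (2 * Real.pi * x' / (M + 1)) =
      2 * Real.pi * ((N i : ℝ) - N 0) - Real.pi +
        2 * Real.pi * (sg i : ℝ) * st ((x' - i + tau) / (2 * tau)) := by
    rcases le_or_gt (i - tau) x' with h3 | h3
    · -- in the lobe or the following gap
      have a1 : aE M i ≤ 2 * Real.pi * x' / (M + 1) := by
        unfold aE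
        refine div_le_div_of_nonneg_right ?_ hM.le
        nlinarith
      have a2 : 2 * Real.pi * x' / (M + 1) ≤ aE M (i + 1) := by
        unfold aE
        refine div_le_div_of_nonneg_right ?_ hM.le
        push_cast
        nlinarith
      rw [wph_val hA hi a1 a2, hcen, ← h.se i hi]
      have e1 : (2 * Real.pi * x' / (M + 1) - aE M i) / (bE M i - aE M i) =
          (x' - i + tau) / (2 * tau) := by
        have e2 : bE M i - aE M i = 6 / (M + 1) := by unfold aE bE; ring
        have e3 : 2 * Real.pi * x' / (M + 1) - aE M i =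
            (2 * Real.pi * (x' - i) + 3) / (M + 1) := by unfold aE; ring
        rw [e2, e3]
        rw [div_div_div_cancel_right₀ hM.ne']
        rw [div_eq_div_iff (by norm_num) (by positivity)]
        have : 3 = 2 * Real.pi * tau := ht2.symm
        linear_combination (2 * (x' - i)) * ht2
      rw [e1]
      ring
    · -- in the gap before the lobe
      rw [st_of_le (div_nonpos_of_nonpos_of_nonneg (by linarith) (by linarith)), mul_zero,
        add_zero]
      rcases Nat.eq_zero_or_pos i with h0 | h0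
      · subst h0
        have b1 : bE M M ≤ 2 * Real.pi * x' / (M + 1) + 2 * Real.pi := by
          unfold bE
          rw [div_add' _ _ _ hM.ne']
          refine div_le_div_of_nonneg_right ?_ hM.le
          simp only [CharP.cast_eq_zero] at g1
          nlinarith
        have b2 : 2 * Real.pi * x' / (M + 1) + 2 * Real.pi ≤ aE M (M + 1) := by
          unfold aE
          rw [div_add' _ _ _ hM.ne']
          refine div_le_div_of_nonneg_right ?_ hM.le
          simp only [CharP.cast_eq_zero] at h3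
          push_cast
          nlinarith
        have e1 := wph_flat hA le_rfl (e := e) b1 b2
        rw [wph_add] at e1
        have e2 : GlNDefs_9.tot e M = GlNDefs_9.cen e M + Real.pi * (GlNDefs_9.se e M + 1) := rfl
        simp only [CharP.cast_eq_zero, sub_self, mul_zero, zero_sub]
        linarith
      · obtain ⟨i', rfl⟩ : ∃ i', i = i' + 1 := ⟨i - 1, by omega⟩
        have b1 : bE M i' ≤ 2 * Real.pi * x' / (M + 1) := by
          unfold bE
          refine div_le_div_of_nonneg_right ?_ hM.le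
          push_cast at g1
          nlinarith
        have b2 : 2 * Real.pi * x' / (M + 1) ≤ aE M (i' + 1) := by
          unfold aE
          refine div_le_div_of_nonneg_right ?_ hM.le
          push_cast at h3 ⊢
          nlinarith
        rw [wph_flat hA (by omega) b1 b2]
        have e2 : GlNDefs_9.cen e (i' + 1) = GlNDefs_9.cen e i' +
          Real.pi * (GlNDefs_9.se e i' + GlNDefs_9.se e (i' + 1)) := rfl
        have e3 := h.se (i' + 1) hi
        rw [hcen, ← e3] at e2
        linarith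
  rw [main]
  ring

/-! ### the mixed phase -/

/-- phase of `NSDefs_966`, normalised, in units of `2π` -/
def pE (N : ℤ → ℤ) (x : ℝ) : ℝ := hx N x - N 0 - 1 / 2

/-- 9's phase in units of `2π` -/
def pT (e : ℕ → ℝ) (M : ℕ) (x : ℝ) : ℝ :=
  wph e M (aE M) (bE M) (2 * Real.pi * x / (M + 1)) / (2 * Real.pi)

/-- profile of the mixed lobe -/
def ff (s z : ℝ) : ℝ := (1 - s) * st (2 * z) + s * st ((z + tau) / (2 * tau))

theorem Circ.pE_loc (h : Circ M e N sg) {k : ℤ} {x : ℝ} (h1 : (k : ℝ) - 1 / 2 ≤ x)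
    (h2 : x ≤ k + 1 / 2) : pE N x = (N k : ℝ) - N 0 - 1 / 2 + sg k * st (2 * (x - k)) := by
  unfold pE
  rw [hx_loc N h1 h2, h.step]
  push_cast
  ring

theorem Circ.pT_loc (h : Circ M e N sg) {k : ℤ} {x : ℝ} (h1 : (k : ℝ) - 1 / 2 ≤ x)
    (h2 : x ≤ k + 1 / 2) :
    pT e M x = (N k : ℝ) - N 0 - 1 / 2 + sg k * st ((x - k + tau) / (2 * tau)) := by
  unfold pT
  rw [h.wph_loc h1 h2, div_eq_iff (by positivity)]
  ring

/-- the mixed phase -/
def pm (e : ℕ → ℝ) (M : ℕ) (N : ℤ → ℤ) (s x : ℝ) : ℝ := (1 - s) * pE N x + s * pT e M x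

theorem Circ.pm_loc (h : Circ M e N sg) (s : ℝ) {k : ℤ} {x : ℝ} (h1 : (k : ℝ) - 1 / 2 ≤ x)
    (h2 : x ≤ k + 1 / 2) :
    pm e M N s x = (N k : ℝ) - N 0 - 1 / 2 + sg k * ff s (x - k) := by
  unfold pm ff
  rw [h.pE_loc h1 h2, h.pT_loc h1 h2]
  ring

theorem ff_nonneg {s : ℝ} (h0 : 0 ≤ s) (h1 : s ≤ 1) (z : ℝ) : 0 ≤ ff s z := by
  unfold ff
  exact add_nonneg (mul_nonneg (by linarith) (st_nonneg _)) (mul_nonneg h0 (st_nonneg _))

theorem ff_le_one {s : ℝ} (h0 : 0 ≤ s) (h1 : s ≤ 1) (z : ℝ) : ff s z ≤ 1 := by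
  unfold ff
  nlinarith [st_le_one (2 * z), st_le_one ((z + tau) / (2 * tau)),
    mul_nonneg (by linarith : 0 ≤ 1 - s) (by linarith [st_le_one (2 * z)] : 0 ≤ 1 - st (2 * z)),
    mul_nonneg h0 (by linarith [st_le_one ((z + tau) / (2 * tau))] :
      0 ≤ 1 - st ((z + tau) / (2 * tau)))]

/-- where the profile is in the middle half, we are in the open wide lobe. -/
theorem abs_lt_tau {s z : ℝ} (h0 : 0 ≤ s) (h1 : s ≤ 1) (h : 1 / 4 ≤ ff s z)
    (h' : ff s z ≤ 3 / 4) : |z| < tau := by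
  have ht := tau_pos
  have ht2 := tau_gt
  rw [abs_lt]
  constructor
  · by_contra hc
    push Not at hc
    unfold ff at h
    rw [st_of_le (by linarith : 2 * z ≤ 0),
      st_of_le (div_nonpos_of_nonpos_of_nonneg (by linarith) (by linarith) :
        (z + tau) / (2 * tau) ≤ 0)] at h
    linarith
  · by_contra hc
    push Not at hc
    have e1 : st ((z + tau) / (2 * tau)) = 1 := by
      apply st_of_ge
      rw [le_div_iff₀ (by linarith)]
      linarith
    have e2 : (752 : ℝ) / 1000 ≤ st (2 * z) := by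
      have e3 : st (2 * (476 / 1000)) ≤ st (2 * z) := st_mono (by linarith)
      have e4 := st_near (u := 2 * (476 / 1000)) (by norm_num) (by norm_num)
      rw [abs_le] at e4
      linarith [e4.1]
    unfold ff at h'
    rw [e1] at h'
    nlinarith [mul_nonneg (by linarith : 0 ≤ 1 - s)
      (by linarith : 0 ≤ st (2 * z) - 752 / 1000)]

theorem hasDerivAt_ff (s z : ℝ) : HasDerivAt (ff s)
    ((1 - s) * (std (2 * z) * 2) + s * (std ((z + tau) / (2 * tau)) * (1 / (2 * tau)))) z := by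
  unfold ff
  have h1 : HasDerivAt (fun z : ℝ => 2 * z) 2 z := by
    simpa using (hasDerivAt_id z).const_mul (2 : ℝ)
  have h2 : HasDerivAt (fun z : ℝ => (z + tau) / (2 * tau)) (1 / (2 * tau)) z :=
    ((hasDerivAt_id z).add_const tau).div_const _
  exact (((hasDerivAt_st _).comp z h1).const_mul (1 - s)).add
    (((hasDerivAt_st _).comp z h2).const_mul s)

theorem ffd_pos {s z : ℝ} (h0 : 0 ≤ s) (h1 : s ≤ 1) (h : 1 / 4 ≤ ff s z)
    (h' : ff s z ≤ 3 / 4) : 0 < (1 - s) * (std (2 * z) * 2) +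
      s * (std ((z + tau) / (2 * tau)) * (1 / (2 * tau))) := by
  have ht := tau_pos
  have hz := abs_lt.1 (abs_lt_tau h0 h1 h h')
  rcases h0.eq_or_lt with hs | hs
  · subst hs
    have h2 : ff 0 z = st (2 * z) := by unfold ff; ring
    rw [h2] at h h'
    have a1 : 0 < 2 * z := by
      by_contra hc
      push Not at hc
      rw [st_of_le hc] at h
      norm_num at h
    have a2 : 2 * z < 1 := by
      by_contra hc
      push Not at hc
      rw [st_of_ge hc] at h'
      norm_num at h'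
    have := std_pos a1 a2
    simp
    linarith
  · have a1 : 0 < (z + tau) / (2 * tau) := div_pos (by linarith) (by linarith)
    have a2 : (z + tau) / (2 * tau) < 1 := by
      rw [div_lt_one (by linarith)]
      linarith
    have h3 := std_pos a1 a2
    have h4 : 0 < s * (std ((z + tau) / (2 * tau)) * (1 / (2 * tau))) := by positivity
    have h5 : 0 ≤ (1 - s) * (std (2 * z) * 2) :=
      mul_nonneg (by linarith) (mul_nonneg (std_nonneg _) (by norm_num))
    linarith

/-- `cos (2π (n - 1/2 ± f)) = - cos (2π f)` -/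
theorem cos_shift (n : ℤ) {σ : ℤ} (hσ : σ = 1 ∨ σ = -1) (f : ℝ) :
    Real.cos (2 * Real.pi * ((n : ℝ) - 1 / 2 + σ * f)) = -Real.cos (2 * Real.pi * f) := by
  have e1 : 2 * Real.pi * ((n : ℝ) - 1 / 2 + σ * f) =
      (2 * Real.pi * (σ * f) - Real.pi) + n * (2 * Real.pi) := by ring
  rw [e1, Real.cos_add_int_mul_two_pi, Real.cos_sub_pi]
  rcases hσ with h | h <;> subst h
  · simp
  · have : 2 * Real.pi * (((-1 : ℤ) : ℝ) * f) = -(2 * Real.pi * f) := by push_cast; ring
    rw [this, Real.cos_neg]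

theorem quarter {f : ℝ} (h0 : 0 ≤ f) (h1 : f ≤ 1) (h : 0 ≤ -Real.cos (2 * Real.pi * f)) :
    1 / 4 ≤ f ∧ f ≤ 3 / 4 := by
  have hpi := Real.pi_pos
  constructor
  · by_contra hc
    push Not at hc
    have : 0 < Real.cos (2 * Real.pi * f) :=
      Real.cos_pos_of_mem_Ioo ⟨by nlinarith, by nlinarith⟩
    linarith
  · by_contra hc
    push Not at hc
    have : 0 < Real.cos (2 * Real.pi * f) := by
      have e1 : Real.cos (2 * Real.pi * f) = Real.cos (2 * Real.pi * f - 2 * Real.pi) := by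
        rw [Real.cos_sub_two_pi]
      rw [e1]
      exact Real.cos_pos_of_mem_Ioo ⟨by nlinarith, by nlinarith⟩
    linarith

/-- nearest integer -/
theorem exists_near (x : ℝ) : ∃ k : ℤ, (k : ℝ) - 1 / 2 ≤ x ∧ x < k + 1 / 2 :=
  ⟨⌊x + 1 / 2⌋, by linarith [Int.floor_le (x + 1 / 2)], by
    linarith [Int.lt_floor_add_one (x + 1 / 2)]⟩

/-- **the mixed phase stops only where `cos < 0`.** -/
theorem Circ.main (h : Circ M e N sg) {s : ℝ} (h0 : 0 ≤ s) (h1 : s ≤ 1) {x : ℝ}
    (hc : 0 ≤ Real.cos (2 * Real.pi * pm e M N s x)) :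
    ∃ k : ℤ, |x - k| < tau ∧ deriv (pm e M N s) x ≠ 0 ∧
      (s = 0 → (k : ℝ) < x ∧ x < k + 1 / 2) := by
  obtain ⟨k, a1, a2⟩ := exists_near x
  have hloc := h.pm_loc s a1 a2.le
  have e1 : (N k : ℝ) - N 0 - 1 / 2 + sg k * ff s (x - k) =
      ((N k - N 0 : ℤ) : ℝ) - 1 / 2 + sg k * ff s (x - k) := by push_cast; ring
  rw [hloc, e1, cos_shift _ (h.sg1 k)] at hc
  obtain ⟨b1, b2⟩ := quarter (ff_nonneg h0 h1 _) (ff_le_one h0 h1 _) hc
  have hz := abs_lt_tau h0 h1 b1 b2
  refine ⟨k, hz, ?_, ?_⟩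
  · have hz' := abs_lt.1 hz
    have ht := tau_lt
    have hev : pm e M N s =ᶠ[𝓝 x] fun x => (N k : ℝ) - N 0 - 1 / 2 + sg k * ff s (x - k) := by
      filter_upwards [Ioo_mem_nhds (show (k : ℝ) - 1 / 2 < x by linarith) a2] with y hy
      exact h.pm_loc s hy.1.le hy.2.le
    have hd : HasDerivAt (fun x : ℝ => (N k : ℝ) - N 0 - 1 / 2 + sg k * ff s (x - k)) (sg k *
        ((1 - s) * (std (2 * (x - k)) * 2) +
          s * (std (((x - k) + tau) / (2 * tau)) * (1 / (2 * tau))))) x :=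
      ((HasDerivAt.comp_sub_const x (k : ℝ) (hasDerivAt_ff s (x - k))).const_mul
        (sg k : ℝ)).const_add _
    rw [hev.deriv_eq, hd.deriv]
    refine mul_ne_zero ?_ (ffd_pos h0 h1 b1 b2).ne'
    rcases h.sg1 k with hs | hs <;> rw [hs] <;> norm_num
  · intro hs
    subst hs
    have h2 : ff 0 (x - k) = st (2 * (x - k)) := by unfold ff; ring
    rw [h2] at b1 b2
    constructor
    · by_contra hcc
      push Not at hcc
      rw [st_of_le (by linarith)] at b1
      norm_num at b1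
    · exact a2

/-! ### windows -/

/-- a window near the cell `k` -/
theorem win_loc {lo hi : ℕ} (hlo : lo ≤ hi) (hhi : hi ≤ M) {k : ℤ} {x : ℝ} (hx : |x - k| ≤ tau) :
    ∃ (j : ℤ) (i : ℕ), i ≤ M ∧ k = (i : ℤ) + ((M : ℤ) + 1) * j ∧
      deriv (wn (aE M) (bE M) lo hi) (2 * Real.pi * x / (M + 1)) = 0 ∧
      wn (aE M) (bE M) lo hi (2 * Real.pi * x / (M + 1)) = if lo < i ∧ i ≤ hi then 1 else 0 := by
  have hA := arcsE M
  have hM : (0 : ℝ) < M + 1 := by positivity
  have hpi := Real.pi_pos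
  have ht2 := two_pi_tau
  obtain ⟨j, i, hi', hk⟩ : ∃ (j : ℤ) (i : ℕ), i ≤ M ∧ k = (i : ℤ) + ((M : ℤ) + 1) * j := by
    have hM1 : (0 : ℤ) < (M : ℤ) + 1 := by positivity
    refine ⟨k / ((M : ℤ) + 1), (k % ((M : ℤ) + 1)).toNat, ?_, ?_⟩
    · have := Int.emod_lt_of_pos k hM1
      have := Int.emod_nonneg k hM1.ne'
      omega
    · have h3 := Int.emod_nonneg k hM1.ne'
      rw [Int.toNat_of_nonneg h3]
      have := Int.emod_add_mul_ediv k ((M : ℤ) + 1)
      linarith
  have hkr : (k : ℝ) = i + ((M : ℝ) + 1) * j := by rw [hk]; push_cast; ring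
  rw [abs_le] at hx
  set x' : ℝ := x - ((M : ℝ) + 1) * j with hx'
  have g1 : i - tau ≤ x' := by rw [hx']; linarith
  have g2 : x' ≤ i + tau := by rw [hx']; linarith
  have hθ : 2 * Real.pi * x / (M + 1) = 2 * Real.pi * x' / (M + 1) + 2 * Real.pi * j := by
    rw [hx']
    field_simp
    ring
  have a1 : aE M i ≤ 2 * Real.pi * x' / (M + 1) := by
    unfold aE
    refine div_le_div_of_nonneg_right ?_ hM.le
    nlinarith
  have a2 : 2 * Real.pi * x' / (M + 1) ≤ bE M i := by
    unfold bE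
    refine div_le_div_of_nonneg_right ?_ hM.le
    nlinarith
  refine ⟨j, i, hi', hk, ?_, ?_⟩
  · rw [hθ, deriv_wn_add_int]
    exact deriv_wn_lobe hA hlo hhi hi' a1 a2
  · rw [hθ, wn_add_int]
    exact wn_lobe hA hlo hhi hi' a1 a2

end Crest.Agent.R267.ArmExA_649
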