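import Mathlib

/-!
# Row 267, N2 (helper649): pointwise regularity of `a e^{iq} + e^{ip} - B`

`κ = a(u) e^{iq} + e^{ip} - B`, `B` real, `0 ≤ B`, `0 ≤ u`-derivative of `B`, `a B_u ≤ a' B`; the
derivatives are `∂_θ = i p' e^{ip} - B_θ`, `∂_u = a' e^{iq} - B_u`, `∂_ω = i a q' e^{iq} - B_ω`.
* `reg_pt`: `p' ≠ 0`, `B_θ = 0` where `cos p ≥ 0`; `q' ≠ 0`, `B_ω = 0` where `cos q ≥ 0`; at real
  zeros with `p = q = 0` the function `1 + a - B` has `u`-derivative `≠ 0` (or `B = 0`).
* `ins_pt`: `B = 0` and `Q = Q(θ, ω)`.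
-/

set_option autoImplicit false

noncomputable section

open Complex

namespace Crest.Agent.R267.ArmPt_649

/-- two vectors with non zero cross product span `ℂ` over `ℝ`. -/
theorem span_of_cross {v w : ℂ} (h : v.re * w.im - v.im * w.re ≠ 0) (c : ℂ) :
    ∃ x y : ℝ, (x : ℂ) * v + (y : ℂ) * w = c := by
  refine ⟨(c.re * w.im - c.im * w.re) / (v.re * w.im - v.im * w.re),
    (v.re * c.im - v.im * c.re) / (v.re * w.im - v.im * w.re), ?_⟩
  apply Complex.ext
  · simp only [add_re, re_ofReal_mul]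
    rw [div_mul_eq_mul_div, div_mul_eq_mul_div, ← add_div, div_eq_iff h]
    ring
  · simp only [add_im, im_ofReal_mul]
    rw [div_mul_eq_mul_div, div_mul_eq_mul_div, ← add_div, div_eq_iff h]
    ring

/-- `e^{ip}` -/
def ce (p : ℝ) : ℂ := Complex.exp (p * I)

theorem ce_re (p : ℝ) : (ce p).re = Real.cos p := by
  unfold ce; exact Complex.exp_ofReal_mul_I_re p

theorem ce_im (p : ℝ) : (ce p).im = Real.sin p := by
  unfold ce; exact Complex.exp_ofReal_mul_I_im p

theorem ce_add (p q : ℝ) : ce (p + q) = ce p * ce q := by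
  unfold ce
  rw [← Complex.exp_add]
  push_cast
  ring_nf

set_option maxHeartbeats 1000000 in
/-- **pointwise regularity** -/
theorem reg_pt {a a' p p' q q' B Bu Bθ Bω : ℝ} (ha : 0 < a) (ha' : 0 < a')
    (h0 : (a : ℂ) * ce q + ce p - (B : ℂ) = 0) (hB : 0 ≤ B) (hBu : 0 ≤ Bu)
    (hBu' : a * Bu ≤ a' * B) (hp : 0 ≤ Real.cos p → p' ≠ 0 ∧ Bθ = 0)
    (hq : 0 ≤ Real.cos q → q' ≠ 0 ∧ Bω = 0)
    (hs : Real.cos p = 1 → Real.cos q = 1 → a' ≠ Bu) (c : ℂ) :
    ∃ x y z : ℝ, (x : ℂ) * (I * p' * ce p - Bθ) + (y : ℂ) * (a' * ce q - Bu) +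
      (z : ℂ) * (I * a * q' * ce q - Bω) = c := by
  have e1 : a * Real.cos q + Real.cos p = B := by
    have := congrArg Complex.re h0
    simp only [sub_re, add_re, re_ofReal_mul, ce_re, ofReal_re, zero_re] at this
    linarith
  have e2 : a * Real.sin q + Real.sin p = 0 := by
    have := congrArg Complex.im h0
    simp only [sub_im, add_im, im_ofReal_mul, ce_im, ofReal_im, zero_im] at this
    linarith
  have r1 : (I * p' * ce p - Bθ : ℂ).re = -p' * Real.sin p - Bθ := by
    simp [ce_re, ce_im]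
  have i1 : (I * p' * ce p - Bθ : ℂ).im = p' * Real.cos p := by
    simp [ce_re, ce_im]
  have r2 : (a' * ce q - Bu : ℂ).re = a' * Real.cos q - Bu := by
    simp [ce_re]
  have i2 : (a' * ce q - Bu : ℂ).im = a' * Real.sin q := by
    simp [ce_im]
  have r3 : (I * a * q' * ce q - Bω : ℂ).re = -a * q' * Real.sin q - Bω := by
    simp [ce_re, ce_im]
  have i3 : (I * a * q' * ce q - Bω : ℂ).im = a * q' * Real.cos q := by
    simp [ce_re, ce_im]
  have sp := Real.sin_sq_add_cos_sq p
  have sq := Real.sin_sq_add_cos_sq q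
  -- reduction to cross products
  have k12 : (I * p' * ce p - Bθ : ℂ).re * (a' * ce q - Bu : ℂ).im -
      (I * p' * ce p - Bθ : ℂ).im * (a' * ce q - Bu : ℂ).re ≠ 0 →
      ∃ x y z : ℝ, (x : ℂ) * (I * p' * ce p - Bθ) + (y : ℂ) * (a' * ce q - Bu) +
      (z : ℂ) * (I * a * q' * ce q - Bω) = c := fun h => by
    obtain ⟨x, y, hxy⟩ := span_of_cross h c
    exact ⟨x, y, 0, by rw [hxy]; simp⟩
  have k32 : (I * a * q' * ce q - Bω : ℂ).re * (a' * ce q - Bu : ℂ).im -
      (I * a * q' * ce q - Bω : ℂ).im * (a' * ce q - Bu : ℂ).re ≠ 0 →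
      ∃ x y z : ℝ, (x : ℂ) * (I * p' * ce p - Bθ) + (y : ℂ) * (a' * ce q - Bu) +
      (z : ℂ) * (I * a * q' * ce q - Bω) = c := fun h => by
    obtain ⟨x, y, hxy⟩ := span_of_cross h c
    exact ⟨0, y, x, by rw [← hxy]; push_cast; ring⟩
  have k31 : (I * a * q' * ce q - Bω : ℂ).re * (I * p' * ce p - Bθ : ℂ).im -
      (I * a * q' * ce q - Bω : ℂ).im * (I * p' * ce p - Bθ : ℂ).re ≠ 0 →
      ∃ x y z : ℝ, (x : ℂ) * (I * p' * ce p - Bθ) + (y : ℂ) * (a' * ce q - Bu) +
      (z : ℂ) * (I * a * q' * ce q - Bω) = c := fun h => by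
    obtain ⟨x, y, hxy⟩ := span_of_cross h c
    exact ⟨y, 0, x, by rw [← hxy]; push_cast; ring⟩
  rw [r1, i1, r2, i2] at k12
  rw [r3, i3, r2, i2] at k32
  rw [r3, i3, r1, i1] at k31
  rcases le_or_gt 0 (Real.cos p) with cp | cp <;> rcases le_or_gt 0 (Real.cos q) with cq | cq
  · -- both in the lobes
    obtain ⟨hp', hBθ⟩ := hp cp
    obtain ⟨hq', hBω⟩ := hq cq
    rcases hB.eq_or_lt with hB0 | hB0
    · -- `B = 0`
      have hcp : Real.cos p = 0 := by linarith [mul_nonneg ha.le cq]
      have hcq : Real.cos q = 0 := by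
        have : a * Real.cos q = 0 := by linarith
        rcases mul_eq_zero.1 this with h | h
        · exact absurd h ha.ne'
        · exact h
      have hBu0 : Bu = 0 := by
        have h1 : a * Bu ≤ 0 := by rw [← hB0, mul_zero] at hBu'; exact hBu'
        have h2 : Bu ≤ 0 := by
          by_contra h3
          push Not at h3
          nlinarith [mul_pos ha h3]
        linarith
      apply k12
      rw [hBθ, hBu0, hcp, hcq]
      have hsp : Real.sin p ^ 2 = 1 := by rw [hcp] at sp; linarith
      have hsp0 : Real.sin p ≠ 0 := by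
        intro h
        rw [h] at hsp
        norm_num at hsp
      have hsq0 : Real.sin q ≠ 0 := by
        intro h
        rw [h, hcq] at sq
        norm_num at sq
      have : (-p' * Real.sin p - 0) * (a' * Real.sin q) - p' * 0 * (a' * 0 - 0) =
          -(p' * Real.sin p * a' * Real.sin q) := by ring
      rw [this]
      exact neg_ne_zero.2 (mul_ne_zero (mul_ne_zero (mul_ne_zero hp' hsp0) ha'.ne') hsq0)
    · by_cases hsq : Real.sin q = 0
      · have hsp : Real.sin p = 0 := by rw [hsq] at e2; linarith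
        have hcp : Real.cos p = 1 := by
          rw [hsp] at sp
          nlinarith
        have hcq : Real.cos q = 1 := by
          rw [hsq] at sq
          nlinarith
        apply k32
        rw [hBω, hcq, hsq]
        have : (-a * q' * 0 - 0) * (a' * 0) - a * q' * 1 * (a' * 1 - Bu) =
            -(a * q' * (a' - Bu)) := by ring
        rw [this]
        exact neg_ne_zero.2 (mul_ne_zero (mul_ne_zero ha.ne' hq') (sub_ne_zero.2 (hs hcp hcq)))
      · apply k31
        rw [hBθ, hBω]
        have : (-a * q' * Real.sin q - 0) * (p' * Real.cos p) -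
            a * q' * Real.cos q * (-p' * Real.sin p - 0) =
            a * q' * p' * (Real.cos q * Real.sin p - Real.sin q * Real.cos p) := by ring
        rw [this]
        have h1 : Real.cos q * Real.sin p - Real.sin q * Real.cos p = -(Real.sin q * B) := by
          rw [← e1]
          have : Real.sin p = -(a * Real.sin q) := by linarith
          rw [this]
          ring
        rw [h1]
        exact mul_ne_zero (mul_ne_zero (mul_ne_zero ha.ne' hq') hp')
          (neg_ne_zero.2 (mul_ne_zero hsq hB0.ne'))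
  · -- `p` in, `q` out
    obtain ⟨hp', hBθ⟩ := hp cp
    have hBc : B < Real.cos p := by linarith [mul_neg_of_pos_of_neg ha cq]
    have hcp : 0 < Real.cos p := lt_of_le_of_lt hB hBc
    apply k12
    rw [hBθ]
    have e3 : a * (Real.cos q * Real.cos p + Real.sin q * Real.sin p) = B * Real.cos p - 1 := by
      have h1 : a * Real.cos q = B - Real.cos p := by linarith
      have h2 : a * Real.sin q = -Real.sin p := by linarith
      calc a * (Real.cos q * Real.cos p + Real.sin q * Real.sin p) =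
          (a * Real.cos q) * Real.cos p + (a * Real.sin q) * Real.sin p := by ring
        _ = B * Real.cos p - (Real.sin p ^ 2 + Real.cos p ^ 2) := by rw [h1, h2]; ring
        _ = _ := by rw [sp]
    have h3 : a * (a' * (Real.cos q * Real.cos p + Real.sin q * Real.sin p) -
        Bu * Real.cos p) < 0 := by
      have h4 : a * (a' * (Real.cos q * Real.cos p + Real.sin q * Real.sin p) -
          Bu * Real.cos p) = a' * (B * Real.cos p - 1) - (a * Bu) * Real.cos p := by
        rw [← e3]; ring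
      rw [h4]
      have h5 : B * Real.cos p < 1 := by
        have h6 : Real.cos p ≤ 1 := Real.cos_le_one p
        nlinarith
      have h7 : 0 ≤ (a * Bu) * Real.cos p := mul_nonneg (mul_nonneg ha.le hBu) hcp.le
      have h8 : a' * (B * Real.cos p - 1) < 0 := mul_neg_of_pos_of_neg ha' (by linarith)
      linarith
    have h9 : (-p' * Real.sin p - 0) * (a' * Real.sin q) -
        p' * Real.cos p * (a' * Real.cos q - Bu) =
        -p' * (a' * (Real.cos q * Real.cos p + Real.sin q * Real.sin p) - Bu * Real.cos p) := by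
      ring
    rw [h9]
    refine mul_ne_zero (neg_ne_zero.2 hp') fun h => ?_
    rw [h, mul_zero] at h3
    exact lt_irrefl _ h3
  · -- `p` out, `q` in
    obtain ⟨hq', hBω⟩ := hq cq
    have hBc : B < a * Real.cos q := by linarith
    have hcq : 0 < Real.cos q := by
      rcases cq.eq_or_lt with h | h
      · rw [← h, mul_zero] at hBc
        linarith
      · exact h
    apply k32
    rw [hBω]
    have h3 : 0 < a * (a' - Bu * Real.cos q) := by
      have h4 : a * (a' - Bu * Real.cos q) = a * a' - (a * Bu) * Real.cos q := by ring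
      rw [h4]
      have h5 : (a * Bu) * Real.cos q ≤ (a' * B) * Real.cos q :=
        mul_le_mul_of_nonneg_right hBu' hcq.le
      have h6 : (a' * B) * Real.cos q < a' * (a * Real.cos q) * Real.cos q := by
        have := mul_lt_mul_of_pos_left hBc ha'
        exact mul_lt_mul_of_pos_right this hcq
      have h7 : a' * (a * Real.cos q) * Real.cos q ≤ a * a' := by
        have h8 : Real.cos q ^ 2 ≤ 1 := by linarith [sq_nonneg (Real.sin q)]
        have h9 : 0 ≤ a * a' := (mul_pos ha ha').le
        have h10 := mul_le_mul_of_nonneg_left h8 h9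
        have h11 : a' * (a * Real.cos q) * Real.cos q = a * a' * Real.cos q ^ 2 := by ring
        linarith
      linarith
    have h9 : (-a * q' * Real.sin q - 0) * (a' * Real.sin q) -
        a * q' * Real.cos q * (a' * Real.cos q - Bu) =
        -(a * q') * (a' * (Real.sin q ^ 2 + Real.cos q ^ 2) - Bu * Real.cos q) := by ring
    rw [h9, sq, mul_one]
    refine mul_ne_zero (neg_ne_zero.2 (mul_ne_zero ha.ne' hq')) fun h => ?_
    rw [h, mul_zero] at h3
    exact lt_irrefl _ h3
  · exfalso
    have := mul_neg_of_pos_of_neg ha cq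
    linarith

/-- **pointwise regularity without deletions, `Q = Q(θ, ω)`** -/
theorem ins_pt {a a' p p' Q Qθ Qω : ℝ} (ha : 0 < a) (ha' : 0 < a')
    (h0 : (a : ℂ) * ce Q + ce p = 0) (h : Qω ≠ 0 ∨ Qθ ≠ p') (c : ℂ) :
    ∃ x y z : ℝ, (x : ℂ) * (I * a * Qθ * ce Q + I * p' * ce p) + (y : ℂ) * (a' * ce Q) +
      (z : ℂ) * (I * a * Qω * ce Q) = c := by
  have e0 : ce p = -((a : ℂ) * ce Q) := by linear_combination h0
  have sq := Real.sin_sq_add_cos_sq Q
  rcases h with h | h
  · have hc : (a' * ce Q : ℂ).re * (I * a * Qω * ce Q : ℂ).im -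
        (a' * ce Q : ℂ).im * (I * a * Qω * ce Q : ℂ).re ≠ 0 := by
      have r2 : (a' * ce Q : ℂ).re = a' * Real.cos Q := by simp [ce_re]
      have i2 : (a' * ce Q : ℂ).im = a' * Real.sin Q := by simp [ce_im]
      have r3 : (I * a * Qω * ce Q : ℂ).re = -a * Qω * Real.sin Q := by simp [ce_re, ce_im]
      have i3 : (I * a * Qω * ce Q : ℂ).im = a * Qω * Real.cos Q := by simp [ce_re, ce_im]
      rw [r2, i2, r3, i3]
      have : a' * Real.cos Q * (a * Qω * Real.cos Q) - a' * Real.sin Q * (-a * Qω * Real.sin Q) =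
          a' * a * Qω * (Real.sin Q ^ 2 + Real.cos Q ^ 2) := by ring
      rw [this, sq, mul_one]
      exact mul_ne_zero (mul_ne_zero ha'.ne' ha.ne') h
    obtain ⟨x, y, hxy⟩ := span_of_cross hc c
    exact ⟨0, x, y, by rw [← hxy]; push_cast; ring⟩
  · have hc : (a' * ce Q : ℂ).re * (I * a * Qθ * ce Q + I * p' * ce p : ℂ).im -
        (a' * ce Q : ℂ).im * (I * a * Qθ * ce Q + I * p' * ce p : ℂ).re ≠ 0 := by
      rw [e0]
      have e1 : (I * a * Qθ * ce Q + I * p' * -((a : ℂ) * ce Q) : ℂ) =
          I * a * ((Qθ - p' : ℝ) : ℂ) * ce Q := by push_cast; ring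
      rw [e1]
      have r2 : (a' * ce Q : ℂ).re = a' * Real.cos Q := by simp [ce_re]
      have i2 : (a' * ce Q : ℂ).im = a' * Real.sin Q := by simp [ce_im]
      have r3 : (I * a * ((Qθ - p' : ℝ) : ℂ) * ce Q : ℂ).re = -a * (Qθ - p') * Real.sin Q := by
        simp [ce_re, ce_im]
      have i3 : (I * a * ((Qθ - p' : ℝ) : ℂ) * ce Q : ℂ).im = a * (Qθ - p') * Real.cos Q := by
        simp [ce_re, ce_im]
      rw [r2, i2, r3, i3]
      have : a' * Real.cos Q * (a * (Qθ - p') * Real.cos Q) -
          a' * Real.sin Q * (-a * (Qθ - p') * Real.sin Q) =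
          a' * a * (Qθ - p') * (Real.sin Q ^ 2 + Real.cos Q ^ 2) := by ring
      rw [this, sq, mul_one]
      exact mul_ne_zero (mul_ne_zero ha'.ne' ha.ne') (sub_ne_zero.2 h)
    obtain ⟨x, y, hxy⟩ := span_of_cross hc c
    exact ⟨y, x, 0, by rw [← hxy]; push_cast; ring⟩

end Crest.Agent.R267.ArmPt_649
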