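import Crest.Agent.R267.ArmExA_649
import Crest.Agent.R267.ArmPt_649

/-!
# Row 267, N2 EXIT, part B (helper649): regularity of real deletions, smoothness, periodicity

`uni n q p c r : PD Unit` : own phases `q`, `p`, one coupling of exponent `15/2` with coefficient `c`
and phase `r t`.
* `uni_reg` : pointwise conditions imply `Reg` (`r = -1/2`);
* `rot_reg` : rotation of all phases;
* smoothness and periodicity of `pE`, `pT`, `pm`, `kl`.
-/

set_option autoImplicit false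

noncomputable section

open Set Filter Topology Finset
open Crest.Agent.R267.T3aDefs_957 (st)
open Crest.Agent.R267.Calc_957
open Crest.Agent.R267.WordPh_9 Crest.Agent.R267.WordPh2_9
open Crest.Agent.R267.NSDefs_966 (Sp Gp bil PD)
open Crest.Agent.R267.ArmPt_649 Crest.Agent.R267.ArmExA_649

namespace Crest.Agent.R267.ArmExB_649

/-- `e = exp (2 π i ·)` -/
theorem e_eq (x : ℝ) : NSDefs_966.e x = ce (2 * Real.pi * x) := by
  unfold NSDefs_966.e ce
  push_cast
  rfl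

theorem e_add (x y : ℝ) : NSDefs_966.e (x + y) = NSDefs_966.e x * NSDefs_966.e y := by
  rw [e_eq, e_eq, e_eq, mul_add, ce_add]

theorem e_int (n : ℤ) : NSDefs_966.e n = 1 := by
  unfold NSDefs_966.e
  rw [show (2 * Real.pi * ((n : ℝ) : ℂ) * Complex.I : ℂ) = (n : ℂ) * (2 * Real.pi * Complex.I) by
    push_cast; ring]
  exact Complex.exp_int_mul_two_pi_mul_I n

theorem e_half : NSDefs_966.e (1 / 2) = -1 := by
  unfold NSDefs_966.e
  rw [show (2 * Real.pi * ((1 / 2 : ℝ) : ℂ) * Complex.I : ℂ) = Real.pi * Complex.I by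
    push_cast; ring]
  exact Complex.exp_pi_mul_I

theorem e_neg_half : NSDefs_966.e (-(1 / 2)) = -1 := by
  have h := e_add (-(1 / 2)) (1 / 2)
  rw [neg_add_cancel, e_half] at h
  have h0 : NSDefs_966.e 0 = 1 := by simpa using e_int 0
  rw [h0] at h
  linear_combination h

theorem e_ne (x : ℝ) : NSDefs_966.e x ≠ 0 := Complex.exp_ne_zero _

/-- a family with one coupling -/
def uni (n : ℕ) (q p : ℝ × ℝ → ℝ) (c : ℝ × ℝ × ℝ → ℝ) (r : ℝ → ℝ) : PD Unit where
  n := n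
  q := q
  cv := fun _ => 1
  p := p
  E := fun _ => 15 / 2
  c := fun _ => c
  ψ := fun _ z => r z.1

theorem uni_K (n : ℕ) (q p : ℝ × ℝ → ℝ) (c : ℝ × ℝ × ℝ → ℝ) (r : ℝ → ℝ) (t x l y : ℝ) :
    (uni n q p c r).K t (x, l, y) = ((Real.exp (15 * l) : ℝ) : ℂ) * NSDefs_966.e (q (t, y)) +
      NSDefs_966.e (p (t, x)) +
      ((c (t, x, y) * Real.exp (15 / 2 * l) : ℝ) : ℂ) * NSDefs_966.e (r t) := by
  unfold PD.K PD.mid uni
  simp

section Reg

variable {n : ℕ} {q p : ℝ × ℝ → ℝ} {c : ℝ × ℝ × ℝ → ℝ} {r : ℝ → ℝ}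

theorem contDiff_e {E : Type*} [NormedAddCommGroup E] [NormedSpace ℝ E] {f : E → ℝ}
    (hf : ContDiff ℝ 2 f) : ContDiff ℝ 2 fun x => NSDefs_966.e (f x) := by
  unfold NSDefs_966.e
  exact ((contDiff_const.mul (Complex.ofRealCLM.contDiff.comp hf)).mul contDiff_const).cexp

theorem contDiff_K (hq : ContDiff ℝ 2 q) (hp : ContDiff ℝ 2 p) (hc : ContDiff ℝ 2 c) (t : ℝ) :
    ContDiff ℝ 2 ((uni n q p c r).K t) := by
  have h1 : ContDiff ℝ 2 fun z : ℝ × ℝ × ℝ => ((Real.exp (15 * z.2.1) : ℝ) : ℂ) :=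
    Complex.ofRealCLM.contDiff.comp (Real.contDiff_exp.comp
      (by fun_prop : ContDiff ℝ 2 fun z : ℝ × ℝ × ℝ => 15 * z.2.1))
  have h2 : ContDiff ℝ 2 fun z : ℝ × ℝ × ℝ => NSDefs_966.e (q (t, z.2.2)) :=
    contDiff_e (hq.comp (by fun_prop : ContDiff ℝ 2 fun z : ℝ × ℝ × ℝ => (t, z.2.2)))
  have h3 : ContDiff ℝ 2 fun z : ℝ × ℝ × ℝ => NSDefs_966.e (p (t, z.1)) :=
    contDiff_e (hp.comp (by fun_prop : ContDiff ℝ 2 fun z : ℝ × ℝ × ℝ => (t, z.1)))
  have h4 : ContDiff ℝ 2 fun z : ℝ × ℝ × ℝ =>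
      ((c (t, z.1, z.2.2) * Real.exp (15 / 2 * z.2.1) : ℝ) : ℂ) :=
    Complex.ofRealCLM.contDiff.comp ((hc.comp
      (by fun_prop : ContDiff ℝ 2 fun z : ℝ × ℝ × ℝ => (t, z.1, z.2.2))).mul
        (Real.contDiff_exp.comp (by fun_prop : ContDiff ℝ 2 fun z : ℝ × ℝ × ℝ => 15 / 2 * z.2.1)))
  have h5 : (uni n q p c r).K t = fun z : ℝ × ℝ × ℝ =>
      ((Real.exp (15 * z.2.1) : ℝ) : ℂ) * NSDefs_966.e (q (t, z.2.2)) +
      NSDefs_966.e (p (t, z.1)) +
      ((c (t, z.1, z.2.2) * Real.exp (15 / 2 * z.2.1) : ℝ) : ℂ) * NSDefs_966.e (r t) := by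
    funext z
    exact uni_K n q p c r t z.1 z.2.1 z.2.2
  rw [h5]
  exact ((h1.mul h2).add h3).add (h4.mul contDiff_const)

theorem hasDerivAt_e {f : ℝ → ℝ} {f' x : ℝ} (hf : HasDerivAt f f' x) :
    HasDerivAt (fun x => NSDefs_966.e (f x)) (Complex.I * ((2 * Real.pi * f' : ℝ) : ℂ) *
      ce (2 * Real.pi * f x)) x := by
  have h1 : HasDerivAt (fun x => Complex.exp (2 * Real.pi * (f x : ℂ) * Complex.I))
      (Complex.exp (2 * Real.pi * (f x : ℂ) * Complex.I) * (2 * Real.pi * (f' : ℂ) * Complex.I))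
      x := ((hf.ofReal_comp.const_mul (2 * Real.pi : ℂ)).mul_const Complex.I).cexp
  refine h1.congr_deriv ?_
  have e1 : Complex.exp (2 * Real.pi * (f x : ℂ) * Complex.I) = ce (2 * Real.pi * f x) := by
    unfold ce
    push_cast
    rfl
  rw [e1]
  push_cast
  ring

/-- **pointwise conditions imply regularity** -/
theorem uni_reg (hq : ContDiff ℝ 2 q) (hp : ContDiff ℝ 2 p) (hc : ContDiff ℝ 2 c)
    (hr : ∀ t, NSDefs_966.e (r t) = -1)
    (H1 : ∀ t ∈ Icc (0 : ℝ) 1, ∀ x, 0 ≤ Real.cos (2 * Real.pi * p (t, x)) →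
      deriv (fun x => p (t, x)) x ≠ 0 ∧ ∀ y, deriv (fun x => c (t, x, y)) x = 0)
    (H2 : ∀ t ∈ Icc (0 : ℝ) 1, ∀ y, 0 ≤ Real.cos (2 * Real.pi * q (t, y)) →
      deriv (fun y => q (t, y)) y ≠ 0 ∧ ∀ x, deriv (fun y => c (t, x, y)) y = 0)
    (H3 : ∀ t ∈ Icc (0 : ℝ) 1, ∀ x y, 0 ≤ c (t, x, y))
    (H4 : ∀ t ∈ Icc (0 : ℝ) 1, ∀ x y, 0 ≤ Real.cos (2 * Real.pi * p (t, x)) →
      0 ≤ Real.cos (2 * Real.pi * q (t, y)) → c (t, x, y) ≠ 2) :
    (uni n q p c r).Reg := by
  rintro t ht ⟨x, l, y⟩ h0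
  have hpi := Real.pi_pos
  rw [uni_K, hr] at h0
  -- derivatives of the data
  have dp : HasDerivAt (fun x => p (t, x)) (deriv (fun x => p (t, x)) x) x :=
    ((hp.comp (by fun_prop : ContDiff ℝ 2 fun x : ℝ => (t, x))).differentiable
      (by norm_num) x).hasDerivAt
  have dq : HasDerivAt (fun y => q (t, y)) (deriv (fun y => q (t, y)) y) y :=
    ((hq.comp (by fun_prop : ContDiff ℝ 2 fun y : ℝ => (t, y))).differentiable
      (by norm_num) y).hasDerivAt
  have dcx : HasDerivAt (fun x => c (t, x, y)) (deriv (fun x => c (t, x, y)) x) x :=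
    ((hc.comp (by fun_prop : ContDiff ℝ 2 fun x : ℝ => (t, x, y))).differentiable
      (by norm_num) x).hasDerivAt
  have dcy : HasDerivAt (fun y => c (t, x, y)) (deriv (fun y => c (t, x, y)) y) y :=
    ((hc.comp (by fun_prop : ContDiff ℝ 2 fun y : ℝ => (t, x, y))).differentiable
      (by norm_num) y).hasDerivAt
  set p' := deriv (fun x => p (t, x)) x
  set q' := deriv (fun y => q (t, y)) y
  set cx := deriv (fun x => c (t, x, y)) x
  set cy := deriv (fun y => c (t, x, y)) y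
  set a := Real.exp (15 * l) with ha
  set g := Real.exp (15 / 2 * l) with hg
  have hap : 0 < a := Real.exp_pos _
  have hgp : 0 < g := Real.exp_pos _
  have hag : a = g ^ 2 := by
    rw [ha, hg, ← Real.exp_nat_mul]
    congr 1
    push_cast
    ring
  -- the total derivative
  have hd : HasFDerivAt ((uni n q p c r).K t) (fderiv ℝ ((uni n q p c r).K t) (x, l, y))
      (x, l, y) :=
    ((contDiff_K hq hp hc t).differentiable (by norm_num) _).hasFDerivAt
  set L := fderiv ℝ ((uni n q p c r).K t) (x, l, y)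
  have L1 : L (1, 0, 0) = Complex.I * ((2 * Real.pi * p' : ℝ) : ℂ) * ce (2 * Real.pi * p (t, x)) -
      ((cx * g : ℝ) : ℂ) := by
    have hcv : HasDerivAt (fun x' : ℝ => ((x', l, y) : ℝ × ℝ × ℝ)) (1, 0, 0) x :=
      (hasDerivAt_id x).prodMk (hasDerivAt_const _ _)
    have h1 := hd.comp_hasDerivAt x hcv
    have h2 : HasDerivAt (fun x' : ℝ => (uni n q p c r).K t (x', l, y))
        (Complex.I * ((2 * Real.pi * p' : ℝ) : ℂ) * ce (2 * Real.pi * p (t, x)) +
          ((cx * g : ℝ) : ℂ) * -1) x := by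
      have h3 : HasDerivAt (fun x' : ℝ => ((a : ℝ) : ℂ) * NSDefs_966.e (q (t, y)) +
          NSDefs_966.e (p (t, x')) + ((c (t, x', y) * g : ℝ) : ℂ) * -1)
          (Complex.I * ((2 * Real.pi * p' : ℝ) : ℂ) * ce (2 * Real.pi * p (t, x)) +
          ((cx * g : ℝ) : ℂ) * -1) x :=
        ((hasDerivAt_e dp).const_add _).add (((dcx.mul_const g).ofReal_comp).mul_const (-1))
      refine h3.congr_of_eventuallyEq (Filter.Eventually.of_forall fun x' => ?_)
      change (uni n q p c r).K t (x', l, y) = _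
      rw [uni_K, hr]
    have h4 := h1.unique h2
    rw [h4]
    ring
  have L2 : L (0, 1, 0) = ((15 * a : ℝ) : ℂ) * ce (2 * Real.pi * q (t, y)) -
      ((c (t, x, y) * (15 / 2 * g) : ℝ) : ℂ) := by
    have hcv : HasDerivAt (fun l' : ℝ => ((x, l', y) : ℝ × ℝ × ℝ)) (0, 1, 0) l :=
      (hasDerivAt_const _ _).prodMk ((hasDerivAt_id l).prodMk (hasDerivAt_const _ _))
    have h1 := hd.comp_hasDerivAt l hcv
    have da : HasDerivAt (fun l' : ℝ => Real.exp (15 * l')) (15 * a) l := by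
      have := ((hasDerivAt_id l).const_mul (15 : ℝ)).exp
      refine this.congr_deriv ?_
      simp [ha]
      ring
    have dg : HasDerivAt (fun l' : ℝ => Real.exp (15 / 2 * l')) (15 / 2 * g) l := by
      have := ((hasDerivAt_id l).const_mul (15 / 2 : ℝ)).exp
      refine this.congr_deriv ?_
      simp [hg]
      ring
    have h2 : HasDerivAt (fun l' : ℝ => (uni n q p c r).K t (x, l', y))
        (((15 * a : ℝ) : ℂ) * NSDefs_966.e (q (t, y)) +
          ((c (t, x, y) * (15 / 2 * g) : ℝ) : ℂ) * -1) l := by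
      have h3 : HasDerivAt (fun l' : ℝ => ((Real.exp (15 * l') : ℝ) : ℂ) *
          NSDefs_966.e (q (t, y)) + NSDefs_966.e (p (t, x)) +
          ((c (t, x, y) * Real.exp (15 / 2 * l') : ℝ) : ℂ) * -1)
          (((15 * a : ℝ) : ℂ) * NSDefs_966.e (q (t, y)) +
          ((c (t, x, y) * (15 / 2 * g) : ℝ) : ℂ) * -1) l :=
        ((da.ofReal_comp.mul_const _).add_const _).add
          (((dg.const_mul _).ofReal_comp).mul_const (-1))
      refine h3.congr_of_eventuallyEq (Filter.Eventually.of_forall fun l' => ?_)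
      change (uni n q p c r).K t (x, l', y) = _
      rw [uni_K, hr]
    have h4 := h1.unique h2
    rw [h4, e_eq]
    ring
  have L3 : L (0, 0, 1) = Complex.I * ((a : ℝ) : ℂ) * ((2 * Real.pi * q' : ℝ) : ℂ) *
      ce (2 * Real.pi * q (t, y)) - ((cy * g : ℝ) : ℂ) := by
    have hcv : HasDerivAt (fun y' : ℝ => ((x, l, y') : ℝ × ℝ × ℝ)) (0, 0, 1) y :=
      (hasDerivAt_const _ _).prodMk ((hasDerivAt_const _ _).prodMk (hasDerivAt_id y))
    have h1 := hd.comp_hasDerivAt y hcv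
    have h2 : HasDerivAt (fun y' : ℝ => (uni n q p c r).K t (x, l, y'))
        (((a : ℝ) : ℂ) * (Complex.I * ((2 * Real.pi * q' : ℝ) : ℂ) *
          ce (2 * Real.pi * q (t, y))) + ((cy * g : ℝ) : ℂ) * -1) y := by
      have h3 : HasDerivAt (fun y' : ℝ => ((a : ℝ) : ℂ) * NSDefs_966.e (q (t, y')) +
          NSDefs_966.e (p (t, x)) + ((c (t, x, y') * g : ℝ) : ℂ) * -1)
          (((a : ℝ) : ℂ) * (Complex.I * ((2 * Real.pi * q' : ℝ) : ℂ) *
          ce (2 * Real.pi * q (t, y))) + ((cy * g : ℝ) : ℂ) * -1) y :=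
        (((hasDerivAt_e dq).const_mul _).add_const _).add
          (((dcy.mul_const g).ofReal_comp).mul_const (-1))
      refine h3.congr_of_eventuallyEq (Filter.Eventually.of_forall fun y' => ?_)
      change (uni n q p c r).K t (x, l, y') = _
      rw [uni_K, hr]
    have h4 := h1.unique h2
    rw [h4]
    ring
  -- the pointwise lemma
  have key := fun w : ℂ => reg_pt (a := a) (a' := 15 * a) (p := 2 * Real.pi * p (t, x))
    (p' := 2 * Real.pi * p') (q := 2 * Real.pi * q (t, y)) (q' := 2 * Real.pi * q')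
    (B := c (t, x, y) * g) (Bu := c (t, x, y) * (15 / 2 * g)) (Bθ := cx * g) (Bω := cy * g)
    hap (by positivity) (by
      rw [e_eq, e_eq] at h0
      rw [← h0]
      push_cast
      ring) (mul_nonneg (H3 t ht x y) hgp.le)
    (mul_nonneg (H3 t ht x y) (by positivity)) (by
      have := mul_nonneg (mul_nonneg (H3 t ht x y) hgp.le) hap.le
      nlinarith)
    (fun h => ⟨mul_ne_zero (by positivity) (H1 t ht x h).1, by
      have : cx = 0 := (H1 t ht x h).2 y
      rw [this, zero_mul]⟩)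
    (fun h => ⟨mul_ne_zero (by positivity) (H2 t ht y h).1, by
      have : cy = 0 := (H2 t ht y h).2 x
      rw [this, zero_mul]⟩)
    (fun hcp hcq h => by
      -- real zero: `a + 1 = c g`, `15 a = c (15/2) g` give `g = 1`, `c = 2`
      have hs1 : Real.sin (2 * Real.pi * p (t, x)) = 0 := by
        have := Real.sin_sq_add_cos_sq (2 * Real.pi * p (t, x))
        rw [hcp] at this
        nlinarith
      have hre := congrArg Complex.re h0
      rw [e_eq, e_eq] at hre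
      simp only [Complex.add_re, Complex.re_ofReal_mul, ce_re, Complex.zero_re,
        Complex.neg_re, Complex.one_re] at hre
      rw [hcp, hcq] at hre
      have h5 : a = 1 := by nlinarith
      have h6 : g = 1 := by
        rw [hag] at h5
        nlinarith
      have h7 : c (t, x, y) = 2 := by
        rw [h6, h5] at hre
        linarith
      exact H4 t ht x y (by rw [hcp]; exact zero_le_one) (by rw [hcq]; exact zero_le_one) h7) w
  intro w
  obtain ⟨α, β, γ, hw⟩ := key w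
  refine ⟨(α, β, γ), ?_⟩
  have e1 : ((α, β, γ) : ℝ × ℝ × ℝ) = α • ((1, 0, 0) : ℝ × ℝ × ℝ) +
      β • ((0, 1, 0) : ℝ × ℝ × ℝ) + γ • ((0, 0, 1) : ℝ × ℝ × ℝ) := by
    simp
  rw [e1, map_add, map_add, map_smul, map_smul, map_smul, L1, L2, L3, ← hw]
  simp only [Complex.real_smul]

end Reg

/-! ### smoothness and periods -/

theorem Sp_loc' {k : ℤ} {x : ℝ} (h1 : (k : ℝ) - 1 / 2 ≤ x) (h2 : x ≤ k + 1) :
    Sp x = k + st (2 * (x - k)) := by
  rcases le_or_gt x (k + 1 / 2) with h | h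
  · exact Sp_loc h1 h
  · rw [Sp_loc (k := k + 1) (by push_cast; linarith) (by push_cast; linarith),
      st_of_le (by push_cast; linarith), st_of_ge (by linarith)]
    push_cast
    ring

theorem Sp_add_int (x : ℝ) (m : ℤ) : Sp (x + m) = Sp x + m := by
  unfold Sp
  rw [Int.floor_add_intCast, Int.fract_add_intCast]
  push_cast
  ring

theorem Gp_add_int (x : ℝ) (m : ℤ) : Gp (x + m) = Gp x + m := by
  unfold Gp
  rw [show x + (m : ℝ) - 1 / 2 = (x - 1 / 2) + m by ring, Sp_add_int]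

theorem il_add_int (N : ℤ → ℝ) (X : ℝ) (m : ℤ) : il N (X + m) = il (fun k => N (k + m)) X := by
  unfold il
  rw [Int.floor_add_intCast, Int.fract_add_intCast]
  congr 2
  congr 1
  ring

theorem il_add_const (N : ℤ → ℝ) (c X : ℝ) : il (fun k => N k + c) X = il N X + c := by
  unfold il
  ring

/-- a real is in the middle of some good interval -/
theorem exists_mid (x c : ℝ) : ∃ k : ℤ, (k : ℝ) + c ≤ x ∧ x < k + c + 1 :=
  ⟨⌊x - c⌋, by linarith [Int.floor_le (x - c)], by linarith [Int.lt_floor_add_one (x - c)]⟩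

theorem contDiff_st2 (k : ℤ) (c : ℝ) : ContDiff ℝ 2 fun x : ℝ => st (2 * (x - k) + c) :=
  contDiff_st.comp (by fun_prop)

theorem contDiff_hx (N : ℤ → ℤ) : ContDiff ℝ 2 (hx N) := by
  rw [contDiff_iff_contDiffAt]
  intro x
  obtain ⟨k, h1, h2⟩ := exists_mid x (-1 / 4)
  have hev : hx N =ᶠ[𝓝 x] fun x => (N k : ℝ) + ((N (k + 1) : ℝ) - N k) * st (2 * (x - k) + 0) := by
    filter_upwards [Ioo_mem_nhds (show (k : ℝ) - 1 / 2 < x by linarith)
      (show x < (k : ℝ) + 1 by linarith)] with y hy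
    unfold hx
    rw [Sp_loc' hy.1.le hy.2.le, il_add _ _ (st_nonneg _) (st_le_one _), add_zero]
    ring
  exact ContDiffAt.congr_of_eventuallyEq
    (contDiff_const.add (contDiff_const.mul (contDiff_st2 k 0))).contDiffAt hev

theorem contDiff_pE (N : ℤ → ℤ) : ContDiff ℝ 2 (pE N) :=
  ((contDiff_hx N).sub contDiff_const).sub contDiff_const

theorem contDiff_pT (e : ℕ → ℝ) (M : ℕ) : ContDiff ℝ 2 (pT e M) :=
  ((contDiff_wph (e := e) (arcsE M)).comp (by fun_prop :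
    ContDiff ℝ 2 fun x : ℝ => 2 * Real.pi * x / (M + 1))).div_const _

theorem contDiff_pm (e : ℕ → ℝ) (M : ℕ) (N : ℤ → ℤ) :
    ContDiff ℝ 2 fun z : ℝ × ℝ => pm e M N z.1 z.2 := by
  unfold pm
  exact ((contDiff_const.sub contDiff_fst).mul ((contDiff_pE N).comp contDiff_snd)).add
    (contDiff_fst.mul ((contDiff_pT e M).comp contDiff_snd))

section Per

variable {M : ℕ} {e : ℕ → ℝ} {N sg : ℤ → ℤ}

theorem pE_per (h : Circ M e N sg) (x : ℝ) : pE N (x + ((M : ℝ) + 1)) = pE N x + 15 := by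
  unfold pE hx
  have e1 : x + ((M : ℝ) + 1) = x + (((M : ℤ) + 1 : ℤ) : ℝ) := by push_cast; ring
  rw [e1, Sp_add_int, il_add_int]
  have e2 : (fun k : ℤ => ((N (k + ((M : ℤ) + 1)) : ℤ) : ℝ)) = fun k => ((N k : ℤ) : ℝ) + 15 := by
    funext k
    rw [h.per]
    push_cast
    ring
  rw [e2, il_add_const]
  ring

theorem pT_per (h : Circ M e N sg) (x : ℝ) : pT e M (x + ((M : ℝ) + 1)) = pT e M x + 15 := by
  unfold pT
  have hM : (0 : ℝ) < M + 1 := by positivity
  have e1 : 2 * Real.pi * (x + ((M : ℝ) + 1)) / (M + 1) =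
      2 * Real.pi * x / (M + 1) + 2 * Real.pi := by
    field_simp
  rw [e1, wph_add, h.tot]
  have := Real.pi_pos
  field_simp

theorem pm_per (h : Circ M e N sg) (s x : ℝ) :
    pm e M N s (x + ((M : ℝ) + 1)) = pm e M N s x + 15 := by
  unfold pm
  rw [pE_per h, pT_per h]
  ring

end Per

/-! ### the window of the killed cells -/

/-- `bil K (Gp x) (Gp y)` -/
def kw (K : ℤ → ℤ → ℝ) (x y : ℝ) : ℝ := bil K (Gp x) (Gp y)

theorem kw_swap (K : ℤ → ℤ → ℝ) (x y : ℝ) : kw K x y = kw (fun l k => K k l) y x := by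
  unfold kw
  rw [bil_eq, bil_eq']

theorem kw_flat {K : ℤ → ℤ → ℝ} {k : ℤ} {x : ℝ} (h1 : (k : ℝ) ≤ x) (h2 : x ≤ k + 1 / 2) (y : ℝ) :
    kw K x y = il (fun l => K k l) (Gp y) := by
  unfold kw
  rw [bil_eq, Gp_flat h1 h2, il_int]

theorem kw_val {K : ℤ → ℤ → ℝ} {k l : ℤ} {x y : ℝ} (h1 : (k : ℝ) ≤ x) (h2 : x ≤ k + 1 / 2)
    (h3 : (l : ℝ) ≤ y) (h4 : y ≤ l + 1 / 2) : kw K x y = K k l := by
  rw [kw_flat h1 h2, Gp_flat h3 h4, il_int]

theorem kw_dx {K : ℤ → ℤ → ℝ} {k : ℤ} {x : ℝ} (h1 : (k : ℝ) < x) (h2 : x < k + 1 / 2) (y : ℝ) :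
    deriv (fun x => kw K x y) x = 0 := by
  have hev : (fun x => kw K x y) =ᶠ[𝓝 x] fun _ => il (fun l => K k l) (Gp y) := by
    filter_upwards [Ioo_mem_nhds h1 h2] with x' hx'
    exact kw_flat hx'.1.le hx'.2.le y
  rw [hev.deriv_eq, deriv_const]

theorem kw_nonneg {K : ℤ → ℤ → ℝ} (h : ∀ k l, 0 ≤ K k l) (x y : ℝ) : 0 ≤ kw K x y := by
  unfold kw
  rw [bil_eq]
  exact il_nonneg (fun k => il_nonneg (fun l => h k l) _) _

theorem contDiff_kw (K : ℤ → ℤ → ℝ) : ContDiff ℝ 2 fun z : ℝ × ℝ => kw K z.1 z.2 := by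
  rw [contDiff_iff_contDiffAt]
  rintro ⟨x, y⟩
  obtain ⟨k, h1, h2⟩ := exists_mid x (1 / 4)
  obtain ⟨l, h3, h4⟩ := exists_mid y (1 / 4)
  have hG : ∀ (k : ℤ) (x : ℝ), (k : ℝ) < x → x < k + 3 / 2 → Gp x = k + st (2 * (x - k) + -1) := by
    intro k x h1 h2
    unfold Gp
    rw [Sp_loc' (k := k) (by linarith) (by linarith)]
    congr 2
    ring
  have hev : (fun z : ℝ × ℝ => kw K z.1 z.2) =ᶠ[𝓝 (x, y)] fun z =>
      (1 - st (2 * (z.1 - k) + -1)) * ((1 - st (2 * (z.2 - l) + -1)) * K k l +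
        st (2 * (z.2 - l) + -1) * K k (l + 1)) +
      st (2 * (z.1 - k) + -1) * ((1 - st (2 * (z.2 - l) + -1)) * K (k + 1) l +
        st (2 * (z.2 - l) + -1) * K (k + 1) (l + 1)) := by
    have hm : Ioo (k : ℝ) (k + 3 / 2) ×ˢ Ioo (l : ℝ) (l + 3 / 2) ∈ 𝓝 (x, y) :=
      prod_mem_nhds (Ioo_mem_nhds (by linarith) (by linarith))
        (Ioo_mem_nhds (by linarith) (by linarith))
    filter_upwards [hm] with z hz
    unfold kw
    rw [bil_eq, hG k z.1 hz.1.1 hz.1.2, hG l z.2 hz.2.1 hz.2.2,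
      il_add _ _ (st_nonneg _) (st_le_one _), il_add _ _ (st_nonneg _) (st_le_one _),
      il_add _ _ (st_nonneg _) (st_le_one _)]
  have hs1 : ContDiff ℝ 2 fun z : ℝ × ℝ => st (2 * (z.1 - k) + -1) :=
    (contDiff_st2 k (-1)).comp contDiff_fst
  have hs2 : ContDiff ℝ 2 fun z : ℝ × ℝ => st (2 * (z.2 - l) + -1) :=
    (contDiff_st2 l (-1)).comp contDiff_snd
  refine ContDiffAt.congr_of_eventuallyEq (ContDiff.contDiffAt ?_) hev
  exact ((contDiff_const.sub hs1).mul (((contDiff_const.sub hs2).mul contDiff_const).add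
    (hs2.mul contDiff_const))).add (hs1.mul (((contDiff_const.sub hs2).mul contDiff_const).add
    (hs2.mul contDiff_const)))

theorem kw_per_x {K : ℤ → ℤ → ℝ} {n : ℤ} (h : ∀ k l, K (k + n) l = K k l) (x y : ℝ) :
    kw K (x + n) y = kw K x y := by
  unfold kw
  rw [bil_eq, bil_eq, Gp_add_int, il_add_int]
  congr 1
  funext k
  congr 1
  funext l
  exact h k l

theorem kw_per_y {K : ℤ → ℤ → ℝ} {n : ℤ} (h : ∀ k l, K k (l + n) = K k l) (x y : ℝ) :
    kw K x (y + n) = kw K x y := by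
  rw [kw_swap K x (y + n), kw_per_x (fun k l => h l k), ← kw_swap]

end Crest.Agent.R267.ArmExB_649
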