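import Crest.Agent.R267.MnegC_951

/-!
# Row 267 (helper951): functions with moving degree of homogeneity are `C²` at the origin

`contDiffOn_of_hom`: `T` open, `D : ℝ → ℝ` of class `C²`, `2 < D t` on `T`,
`H : ℝ × E → F` of class `C²` on `T × {0}ᶜ`, `H (t, r x) = r ^ D t H (t, x)` for `0 < r`;
then `H` is `C²` on `T × E`.
-/

set_option autoImplicit false
set_option linter.unusedSectionVars false

noncomputable section

open Set Filter Topology Metric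
open scoped NNReal ContDiff
open Crest.Agent.R267.Mneg_951

namespace Crest.Agent.R267.Pow_951

variable {E F : Type*} [NormedAddCommGroup E] [NormedSpace ℝ E]
  [NormedAddCommGroup F] [NormedSpace ℝ F]

theorem hasFDerivAt_flat {F' : Type*} [NormedAddCommGroup F'] [NormedSpace ℝ F']
    {K : ℝ × E → F'} {t ε κ C : ℝ} (hε : 0 < ε) (hκ : 0 < κ) (hC0 : 0 ≤ C)
    (hK0 : ∀ s ∈ closedBall t ε, K (s, 0) = 0)
    (hK : ∀ s ∈ closedBall t ε, ∀ x : E, x ≠ 0 → ‖x‖ ≤ 1 → ‖K (s, x)‖ ≤ C * ‖x‖ ^ (1 + κ)) :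
    HasFDerivAt K (0 : ℝ × E →L[ℝ] F') (t, (0 : E)) := by
  rw [hasFDerivAt_iff_isLittleO_nhds_zero]
  have h2 : ∀ᶠ p : ℝ × E in 𝓝 0, (t, (0 : E)) + p ∈ ball t ε ×ˢ ball (0 : E) 1 := by
    have h3 : ContinuousAt (fun p : ℝ × E => (t, (0 : E)) + p) 0 := by fun_prop
    refine h3.eventually (IsOpen.mem_nhds (isOpen_ball.prod isOpen_ball) ?_)
    show (t, (0 : E)) + 0 ∈ ball t ε ×ˢ ball (0 : E) 1
    rw [add_zero]
    exact ⟨mem_ball_self hε, mem_ball_self one_pos⟩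
  rw [Asymptotics.isLittleO_iff]
  intro c hc
  have h3 : ∀ᶠ p : ℝ × E in 𝓝 0, C * ‖p.2‖ ^ κ < c := by
    have h4 : ContinuousAt (fun p : ℝ × E => C * ‖p.2‖ ^ κ) 0 :=
      ContinuousAt.mul continuousAt_const
        ((continuous_snd.norm.continuousAt).rpow_const (Or.inr hκ.le))
    refine h4.eventually (gt_mem_nhds ?_)
    show C * ‖((0 : ℝ × E)).2‖ ^ κ < c
    rw [Prod.snd_zero, norm_zero, Real.zero_rpow hκ.ne', mul_zero]
    exact hc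
  filter_upwards [h2, h3] with p hp hp3
  have e : (t, (0 : E)) + p = (t + p.1, p.2) := by
    refine Prod.ext rfl ?_
    show 0 + p.2 = p.2
    rw [zero_add]
  rw [e] at hp
  have hs' : t + p.1 ∈ closedBall t ε := ball_subset_closedBall hp.1
  have hp2 : ‖p.2‖ ≤ 1 := by
    have := hp.2
    rw [mem_ball_zero_iff] at this
    exact this.le
  rw [hK0 t (mem_closedBall_self hε.le), sub_zero, show (0 : ℝ × E →L[ℝ] F') p = 0 from rfl,
    sub_zero, e]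
  by_cases hx : p.2 = 0
  · rw [hx, hK0 _ hs', norm_zero]
    positivity
  · have hxp : 0 < ‖p.2‖ := norm_pos_iff.2 hx
    calc ‖K (t + p.1, p.2)‖ ≤ C * ‖p.2‖ ^ (1 + κ) := hK _ hs' _ hx hp2
      _ = C * ‖p.2‖ ^ κ * ‖p.2‖ := by rw [Real.rpow_add hxp, Real.rpow_one]; ring
      _ ≤ c * ‖p.2‖ := mul_le_mul_of_nonneg_right hp3.le hxp.le
      _ ≤ c * ‖p‖ := mul_le_mul_of_nonneg_left (norm_snd_le p) hc.le

/-- flat points -/
theorem contDiffOn_of_flat {T : Set ℝ} (hT : IsOpen T) {H : ℝ × E → F}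
    (hC : ContDiffOn ℝ 2 H (T ×ˢ {0}ᶜ)) (h0 : ∀ t ∈ T, H (t, 0) = 0)
    (hb : ∀ t ∈ T, ∃ ε : ℝ, 0 < ε ∧ ∃ κ : ℝ, 0 < κ ∧ ∃ C : ℝ, 0 ≤ C ∧ closedBall t ε ⊆ T ∧
      ∀ s ∈ closedBall t ε, ∀ x : E, x ≠ 0 → ‖x‖ ≤ 1 → ‖H (s, x)‖ ≤ C * ‖x‖ ^ (2 + κ) ∧
        ‖fderiv ℝ H (s, x)‖ ≤ C * ‖x‖ ^ (1 + κ) ∧
        ‖fderiv ℝ (fderiv ℝ H) (s, x)‖ ≤ C * ‖x‖ ^ κ) :
    ContDiffOn ℝ 2 H (T ×ˢ univ) := by
  have hop : IsOpen (T ×ˢ (univ : Set E)) := hT.prod isOpen_univ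
  have hop' := isOpen_dom (E := E) hT
  have hCd : ∀ q ∈ T ×ˢ ({0}ᶜ : Set E), ContDiffAt ℝ 2 H q := fun q hq =>
    (hC _ hq).contDiffAt (hop'.mem_nhds hq)
  have hCf : ∀ q ∈ T ×ˢ ({0}ᶜ : Set E), ContDiffAt ℝ 1 (fderiv ℝ H) q := fun q hq =>
    (hCd q hq).fderiv_right (m := 1) (by norm_num)
  have hH0 : ∀ t ∈ T, HasFDerivAt H (0 : ℝ × E →L[ℝ] F) (t, (0 : E)) := by
    intro t ht
    obtain ⟨ε, hε, κ, hκ, C, hC0, hcb, h⟩ := hb t ht
    refine hasFDerivAt_flat hε (by positivity : 0 < 1 + κ) hC0 (fun s hs => h0 s (hcb hs))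
      fun s hs x hx hx1 => ?_
    have := (h s hs x hx hx1).1
    have e : 1 + (1 + κ) = 2 + κ := by ring
    rwa [e]
  have hG0 : ∀ t ∈ T, HasFDerivAt (fderiv ℝ H) (0 : ℝ × E →L[ℝ] (ℝ × E →L[ℝ] F)) (t, (0 : E)) := by
    intro t ht
    obtain ⟨ε, hε, κ, hκ, C, hC0, hcb, h⟩ := hb t ht
    exact hasFDerivAt_flat hε hκ hC0 (fun s hs => (hH0 s (hcb hs)).fderiv)
      fun s hs x hx hx1 => (h s hs x hx hx1).2.1
  have e2 : (2 : WithTop ℕ∞) = 1 + 1 := by norm_num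
  rw [e2, contDiffOn_succ_iff_fderiv_of_isOpen hop]
  refine ⟨fun p hp => ?_, by simp, ?_⟩
  · by_cases hx : p.2 = 0
    · have : p = (p.1, (0 : E)) := Prod.ext rfl hx
      rw [this]
      exact (hH0 p.1 hp.1).differentiableAt.differentiableWithinAt
    · exact ((hCd p ⟨hp.1, hx⟩).differentiableAt (by norm_num)).differentiableWithinAt
  · have e1 : (1 : WithTop ℕ∞) = 0 + 1 := by norm_num
    rw [e1, contDiffOn_succ_iff_fderiv_of_isOpen hop]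
    refine ⟨fun p hp => ?_, by simp, ?_⟩
    · by_cases hx : p.2 = 0
      · have : p = (p.1, (0 : E)) := Prod.ext rfl hx
        rw [this]
        exact (hG0 p.1 hp.1).differentiableAt.differentiableWithinAt
      · exact ((hCf p ⟨hp.1, hx⟩).differentiableAt (by norm_num)).differentiableWithinAt
    · rw [contDiffOn_zero]
      intro p hp
      by_cases hx : p.2 = 0
      · have hpe : p = (p.1, (0 : E)) := Prod.ext rfl hx
        refine ContinuousAt.continuousWithinAt ?_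
        obtain ⟨ε, hε, κ, hκ, C, hC0, hcb, h⟩ := hb p.1 hp.1
        rw [ContinuousAt, hpe, (hG0 p.1 hp.1).fderiv]
        rw [tendsto_zero_iff_norm_tendsto_zero]
        have h3 : Tendsto (fun q : ℝ × E => C * ‖q.2‖ ^ κ) (𝓝 (p.1, (0 : E))) (𝓝 0) := by
          have h4 : ContinuousAt (fun q : ℝ × E => C * ‖q.2‖ ^ κ) (p.1, (0 : E)) :=
            ContinuousAt.mul continuousAt_const
              ((continuous_snd.norm.continuousAt).rpow_const (Or.inr hκ.le))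
          have h5 : C * ‖((p.1, (0 : E)) : ℝ × E).2‖ ^ κ = 0 := by
            show C * ‖(0 : E)‖ ^ κ = 0
            rw [norm_zero, Real.zero_rpow hκ.ne', mul_zero]
          rw [ContinuousAt, h5] at h4
          exact h4
        have hn : ∀ᶠ q : ℝ × E in 𝓝 (p.1, (0 : E)), q ∈ ball p.1 ε ×ˢ ball (0 : E) 1 :=
          (isOpen_ball.prod isOpen_ball).mem_nhds ⟨mem_ball_self hε, mem_ball_self one_pos⟩
        refine squeeze_zero' (Eventually.of_forall fun _ => norm_nonneg _) ?_ h3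
        filter_upwards [hn] with q hq
        have hq1 : q.1 ∈ closedBall p.1 ε := ball_subset_closedBall hq.1
        by_cases hqx : q.2 = 0
        · have : q = (q.1, (0 : E)) := Prod.ext rfl hqx
          rw [this, (hG0 q.1 (hcb hq1)).fderiv, norm_zero]
          positivity
        · have hq2 : ‖q.2‖ ≤ 1 := by
            have := hq.2
            rw [mem_ball_zero_iff] at this
            exact this.le
          exact (h q.1 hq1 q.2 hqx hq2).2.2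
      · have h1 := hCf p ⟨hp.1, hx⟩
        exact (h1.fderiv_right (m := 0) (by norm_num)).continuousAt.continuousWithinAt

/-- abstract estimate 1 -/
theorem est1 {X Y F' : Type*} [NormedAddCommGroup X] [NormedSpace ℝ X] [NormedAddCommGroup Y]
    [NormedSpace ℝ Y] [NormedAddCommGroup F'] [NormedSpace ℝ F'] {f1 : X →L[ℝ] ℝ}
    (hf : ‖f1‖ ≤ 1) {S : F' →L[ℝ] Y} (hS : ∀ y, ‖S y‖ ≤ ‖y‖) {G' : X →L[ℝ] Y} {A : X →L[ℝ] F'}
    {h : F'} {c1 c2 M N : ℝ} (hM : 0 ≤ M) (hN : 0 ≤ N) (hG : ‖G'‖ ≤ M) (hA : ‖A‖ ≤ M)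
    (hh : ‖h‖ ≤ M) (h1 : |c1| ≤ N) (h2 : |c2| ≤ N) :
    ‖G' + (c1 • S.comp A + ContinuousLinearMap.smulRight (c2 • f1) (S h))‖ ≤
      M + (N * M + N * M) := by
  have e1 : ‖S.comp A‖ ≤ M := by
    refine ContinuousLinearMap.opNorm_le_bound _ hM fun v => ?_
    refine (hS _).trans ?_
    exact (ContinuousLinearMap.le_opNorm _ _).trans (mul_le_mul_of_nonneg_right hA (norm_nonneg _))
  have e2 : ‖c1 • S.comp A‖ ≤ N * M := by
    rw [norm_smul, Real.norm_eq_abs]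
    exact mul_le_mul h1 e1 (norm_nonneg _) hN
  have e3 : ‖ContinuousLinearMap.smulRight (c2 • f1) (S h)‖ ≤ N * M := by
    rw [ContinuousLinearMap.norm_smulRight_apply, norm_smul, Real.norm_eq_abs]
    have e4 : |c2| * ‖f1‖ ≤ N := by
      calc |c2| * ‖f1‖ ≤ N * 1 := mul_le_mul h2 hf (norm_nonneg _) hN
        _ = N := mul_one _
    exact mul_le_mul e4 ((hS _).trans hh) (norm_nonneg _) hN
  exact (norm_add_le _ _).trans (add_le_add hG ((norm_add_le _ _).trans (add_le_add e2 e3)))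

/-- abstract estimate 2 -/
theorem est2 {X Y : Type*} [NormedAddCommGroup X] [NormedSpace ℝ X] [NormedAddCommGroup Y]
    [NormedSpace ℝ Y] {f1 : X →L[ℝ] ℝ} (hf : ‖f1‖ ≤ 1) {R : Y →L[ℝ] Y} {ρ : ℝ} (hρ : 0 ≤ ρ)
    (hR : ∀ y, ‖R y‖ ≤ ‖y‖ * ρ) {K' : X →L[ℝ] Y} {k : Y} {a b c0 e c : ℝ} (ha : 0 ≤ a)
    (hb : 0 ≤ b) (hc0 : 0 ≤ c0) (he : 0 ≤ e) (hK : ‖K'‖ ≤ a) (hk : ‖k‖ ≤ b) (hc : |c| ≤ c0) :
    ‖e • R.comp K' + ContinuousLinearMap.smulRight (e • (c • f1)) (R k)‖ ≤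
      e * (a + c0 * b) * ρ := by
  have e1 : ‖R.comp K'‖ ≤ a * ρ := by
    refine ContinuousLinearMap.opNorm_le_bound _ (mul_nonneg ha hρ) fun v => ?_
    refine (hR _).trans ?_
    have := (ContinuousLinearMap.le_opNorm K' v).trans
      (mul_le_mul_of_nonneg_right hK (norm_nonneg v))
    calc ‖K' v‖ * ρ ≤ (a * ‖v‖) * ρ := mul_le_mul_of_nonneg_right this hρ
      _ = a * ρ * ‖v‖ := by ring
  have e2 : ‖R k‖ ≤ b * ρ := (hR _).trans (mul_le_mul_of_nonneg_right hk hρ)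
  have e3 : ‖e • R.comp K'‖ ≤ e * (a * ρ) := by
    rw [norm_smul, Real.norm_of_nonneg he]
    exact mul_le_mul_of_nonneg_left e1 he
  have e4 : ‖ContinuousLinearMap.smulRight (e • (c • f1)) (R k)‖ ≤ e * c0 * (b * ρ) := by
    rw [ContinuousLinearMap.norm_smulRight_apply, norm_smul, norm_smul,
      Real.norm_of_nonneg he, Real.norm_eq_abs]
    have e5 : |c| * ‖f1‖ ≤ c0 := by
      calc |c| * ‖f1‖ ≤ c0 * 1 := mul_le_mul hc hf (norm_nonneg _) hc0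
        _ = c0 := mul_one _
    exact mul_le_mul (mul_le_mul_of_nonneg_left e5 he) e2 (norm_nonneg _) (by positivity)
  calc ‖e • R.comp K' + ContinuousLinearMap.smulRight (e • (c • f1)) (R k)‖
      ≤ e * (a * ρ) + e * c0 * (b * ρ) := (norm_add_le _ _).trans (add_le_add e3 e4)
    _ = e * (a + c0 * b) * ρ := by ring

section Scale

variable {T : Set ℝ} {D : ℝ → ℝ} {H : ℝ × E → F}

/-- first coordinate -/
abbrev fs : ℝ × E →L[ℝ] ℝ := ContinuousLinearMap.fst ℝ ℝ E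

theorem norm_fs_le : ‖(fs : ℝ × E →L[ℝ] ℝ)‖ ≤ 1 := ContinuousLinearMap.norm_fst_le ℝ ℝ E

/-- corrected derivative -/
def Kf (D : ℝ → ℝ) (H : ℝ × E → F) (r : ℝ) (p : ℝ × E) : ℝ × E →L[ℝ] F :=
  fderiv ℝ H p + (deriv D p.1 * Real.log r) • (ContinuousLinearMap.smulRight fs (H p))

theorem hasFDerivAt_exp {D : ℝ → ℝ} {p : ℝ × E} (hD : DifferentiableAt ℝ D p.1) (r : ℝ) :
    HasFDerivAt (fun q : ℝ × E => Real.exp (D q.1 * Real.log r))
      (Real.exp (D p.1 * Real.log r) • ((deriv D p.1 * Real.log r) • (fs : ℝ × E →L[ℝ] ℝ))) p := by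
  have h1 : HasFDerivAt (fun q : ℝ × E => D q.1) (deriv D p.1 • (fs : ℝ × E →L[ℝ] ℝ)) p :=
    hD.hasDerivAt.comp_hasFDerivAt p hasFDerivAt_fst
  have h2 := (h1.mul_const (Real.log r)).exp
  refine h2.congr_fderiv ?_
  rw [smul_smul (Real.log r), mul_comm (Real.log r)]

theorem fderiv_scale (hT : IsOpen T) (hD : ContDiffOn ℝ 2 D T)
    (hC : ContDiffOn ℝ 2 H (T ×ˢ {0}ᶜ))
    (hom : ∀ t ∈ T, ∀ r : ℝ, 0 < r → ∀ x, H (t, r • x) = Real.exp (D t * Real.log r) • H (t, x))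
    {p : ℝ × E} (hp : p ∈ T ×ˢ ({0}ᶜ : Set E)) {r : ℝ} (hr : 0 < r) :
    fderiv ℝ H (dil r p) = Real.exp (D p.1 * Real.log r) • (Kf D H r p).comp (dil r⁻¹) := by
  have hop := isOpen_dom (E := E) hT
  have hp' : dil r p ∈ T ×ˢ ({0}ᶜ : Set E) := ⟨hp.1, smul_ne_zero hr.ne' hp.2⟩
  have hDd : DifferentiableAt ℝ D p.1 :=
    ((hD _ hp.1).contDiffAt (hT.mem_nhds hp.1)).differentiableAt (by norm_num)
  have h1 : HasFDerivAt (fun q => H (dil r q)) ((fderiv ℝ H (dil r p)).comp (dil r)) p := by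
    have h2 : HasFDerivAt H (fderiv ℝ H (dil r p)) (dil r p) :=
      (((hC _ hp').contDiffAt (hop.mem_nhds hp')).differentiableAt (by norm_num)).hasFDerivAt
    exact h2.comp p (dil (E := E) r).hasFDerivAt
  have h2 : HasFDerivAt (fun q => H (dil r q))
      (Real.exp (D p.1 * Real.log r) • Kf D H r p) p := by
    have h3 := (hasFDerivAt_exp (E := E) hDd r).fun_smul
      (((hC _ hp).contDiffAt (hop.mem_nhds hp)).differentiableAt (by norm_num)).hasFDerivAt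
    refine (h3.congr_fderiv ?_).congr_of_eventuallyEq ?_
    · unfold Kf
      refine ContinuousLinearMap.ext fun v => ?_
      simp [smul_smul]
    · filter_upwards [hop.mem_nhds hp] with q hq
      exact hom q.1 hq.1 r hr q.2
  have h3 := h1.unique h2
  refine ContinuousLinearMap.ext fun v => ?_
  have h4 := congrArg (fun A : ℝ × E →L[ℝ] F => A (dil r⁻¹ v)) h3
  simp only [ContinuousLinearMap.comp_apply, dil_inv hr.ne'] at h4
  rw [h4]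
  rfl

theorem norm_Kf_le {M : ℝ} (hM : 1 ≤ M) {p : ℝ × E} {r : ℝ} (h0 : ‖H p‖ ≤ M)
    (h1 : ‖fderiv ℝ H p‖ ≤ M) (hd : |deriv D p.1| ≤ M) :
    ‖Kf D H r p‖ ≤ M ^ 2 * (1 + |Real.log r|) := by
  unfold Kf
  have hl := abs_nonneg (Real.log r)
  have h2 : ‖ContinuousLinearMap.smulRight (fs : ℝ × E →L[ℝ] ℝ) (H p)‖ ≤ M := by
    rw [ContinuousLinearMap.norm_smulRight_apply]
    calc ‖(fs : ℝ × E →L[ℝ] ℝ)‖ * ‖H p‖ ≤ 1 * M :=
          mul_le_mul norm_fs_le h0 (norm_nonneg _) zero_le_one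
      _ = M := one_mul M
  have h3 : ‖(deriv D p.1 * Real.log r) • ContinuousLinearMap.smulRight (fs : ℝ × E →L[ℝ] ℝ) (H p)‖
      ≤ M * |Real.log r| * M := by
    rw [norm_smul, Real.norm_eq_abs, abs_mul]
    exact mul_le_mul (mul_le_mul_of_nonneg_right hd hl) h2 (norm_nonneg _) (by positivity)
  have h4 := (norm_add_le (fderiv ℝ H p)
    ((deriv D p.1 * Real.log r) • ContinuousLinearMap.smulRight (fs : ℝ × E →L[ℝ] ℝ) (H p)))
  nlinarith [mul_nonneg (by linarith : (0 : ℝ) ≤ M) hl]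

theorem fderiv2_scale_le (hT : IsOpen T) (hD : ContDiffOn ℝ 2 D T)
    (hC : ContDiffOn ℝ 2 H (T ×ˢ {0}ᶜ))
    (hom : ∀ t ∈ T, ∀ r : ℝ, 0 < r → ∀ x, H (t, r • x) = Real.exp (D t * Real.log r) • H (t, x))
    {p : ℝ × E} (hp : p ∈ T ×ˢ ({0}ᶜ : Set E)) {r : ℝ} (hr : 0 < r) (hr1 : r ≤ 1) {M : ℝ}
    (hM : 1 ≤ M) (h0 : ‖H p‖ ≤ M) (h1 : ‖fderiv ℝ H p‖ ≤ M)
    (h2 : ‖fderiv ℝ (fderiv ℝ H) p‖ ≤ M) (hd : |deriv D p.1| ≤ M)
    (hd2 : |deriv (deriv D) p.1| ≤ M) :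
    ‖fderiv ℝ (fderiv ℝ H) (dil r p)‖ ≤
      Real.exp (D p.1 * Real.log r) * (3 * M ^ 3 * (1 + |Real.log r|) ^ 2) * (r⁻¹ * r⁻¹) := by
  have hop := isOpen_dom (E := E) hT
  have hp' : dil r p ∈ T ×ˢ ({0}ᶜ : Set E) := ⟨hp.1, smul_ne_zero hr.ne' hp.2⟩
  have hDc : ContDiffAt ℝ 2 D p.1 := (hD _ hp.1).contDiffAt (hT.mem_nhds hp.1)
  have hDd : DifferentiableAt ℝ D p.1 := hDc.differentiableAt (by norm_num)
  have hDd2 : DifferentiableAt ℝ (deriv D) p.1 := by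
    have h3 : ContDiffAt ℝ 1 (fderiv ℝ D) p.1 := hDc.fderiv_right (m := 1) (by norm_num)
    have h4 : deriv D = fun t => fderiv ℝ D t 1 := by funext t; rfl
    rw [h4]
    exact (h3.differentiableAt (by norm_num)).clm_apply (differentiableAt_const _)
  have hHd : ∀ q ∈ T ×ˢ ({0}ᶜ : Set E), DifferentiableAt ℝ H q := fun q hq =>
    ((hC _ hq).contDiffAt (hop.mem_nhds hq)).differentiableAt (by norm_num)
  have hGd : ∀ q ∈ T ×ˢ ({0}ᶜ : Set E), DifferentiableAt ℝ (fderiv ℝ H) q := fun q hq =>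
    (((hC _ hq).contDiffAt (hop.mem_nhds hq)).fderiv_right (m := 1) (by norm_num)).differentiableAt
      (by norm_num)
  let R : (ℝ × E →L[ℝ] F) →L[ℝ] (ℝ × E →L[ℝ] F) :=
    (ContinuousLinearMap.compL ℝ (ℝ × E) (ℝ × E) F).flip (dil r⁻¹)
  have hR : ∀ A, R A = A.comp (dil r⁻¹) := fun A => rfl
  let Sm : F →L[ℝ] (ℝ × E →L[ℝ] F) := ContinuousLinearMap.smulRightL ℝ (ℝ × E) F fs
  have hSm : ∀ y, Sm y = ContinuousLinearMap.smulRight fs y := fun y => rfl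
  have hSmn : ∀ y, ‖Sm y‖ ≤ ‖y‖ := by
    intro y
    rw [hSm, ContinuousLinearMap.norm_smulRight_apply]
    calc ‖(fs : ℝ × E →L[ℝ] ℝ)‖ * ‖y‖ ≤ 1 * ‖y‖ :=
          mul_le_mul_of_nonneg_right norm_fs_le (norm_nonneg _)
      _ = ‖y‖ := one_mul _
  set ℓ : ℝ := Real.log r with hℓ
  set K' : ℝ × E →L[ℝ] (ℝ × E →L[ℝ] F) := fderiv ℝ (fderiv ℝ H) p +
    ((deriv D p.1 * ℓ) • Sm.comp (fderiv ℝ H p) +
      ContinuousLinearMap.smulRight ((deriv (deriv D) p.1 * ℓ) • (fs : ℝ × E →L[ℝ] ℝ)) (Sm (H p)))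
    with hK'
  have hK : HasFDerivAt (Kf D H r) K' p := by
    have h3 : HasFDerivAt (fun q : ℝ × E => deriv D q.1 * ℓ)
        ((deriv (deriv D) p.1 * ℓ) • (fs : ℝ × E →L[ℝ] ℝ)) p := by
      have h4 : HasFDerivAt (fun q : ℝ × E => deriv D q.1)
          (deriv (deriv D) p.1 • (fs : ℝ × E →L[ℝ] ℝ)) p :=
        hDd2.hasDerivAt.comp_hasFDerivAt p hasFDerivAt_fst
      refine (h4.mul_const ℓ).congr_fderiv ?_
      rw [smul_smul, mul_comm ℓ]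
    have h5 : HasFDerivAt (fun q : ℝ × E => Sm (H q)) (Sm.comp (fderiv ℝ H p)) p :=
      Sm.hasFDerivAt.comp p (hHd p hp).hasFDerivAt
    exact (hGd p hp).hasFDerivAt.add (h3.fun_smul h5)
  have hl := abs_nonneg ℓ
  have hM0 : 0 ≤ M := by linarith
  have hc1 : |deriv D p.1 * ℓ| ≤ M * |ℓ| := by
    rw [abs_mul]; exact mul_le_mul_of_nonneg_right hd hl
  have hc2 : |deriv (deriv D) p.1 * ℓ| ≤ M * |ℓ| := by
    rw [abs_mul]; exact mul_le_mul_of_nonneg_right hd2 hl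
  have hKn : ‖K'‖ ≤ 2 * M ^ 2 * (1 + |ℓ|) := by
    have e1 := est1 (X := ℝ × E) (Y := ℝ × E →L[ℝ] F) (F' := F) (f1 := fs) (S := Sm)
      norm_fs_le hSmn (G' := fderiv ℝ (fderiv ℝ H) p) (A := fderiv ℝ H p)
      (h := H p) hM0 (mul_nonneg hM0 hl) h2 h1 h0 hc1 hc2
    have e2 : M + (M * |ℓ| * M + M * |ℓ| * M) ≤ 2 * M ^ 2 * (1 + |ℓ|) := by
      nlinarith [mul_nonneg hM0 hl]
    exact le_trans e1 e2
  have h3 : HasFDerivAt (fun q => fderiv ℝ H (dil r q))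
      ((fderiv ℝ (fderiv ℝ H) (dil r p)).comp (dil r)) p :=
    HasFDerivAt.comp (g := fderiv ℝ H) (f := fun q : ℝ × E => dil r q) p
      (hGd _ hp').hasFDerivAt (dil (E := E) r).hasFDerivAt
  set W : ℝ × E →L[ℝ] (ℝ × E →L[ℝ] F) := Real.exp (D p.1 * ℓ) • R.comp K' +
    ContinuousLinearMap.smulRight (Real.exp (D p.1 * ℓ) • ((deriv D p.1 * ℓ) •
      (fs : ℝ × E →L[ℝ] ℝ))) (R (Kf D H r p)) with hW
  have h4 : HasFDerivAt (fun q => fderiv ℝ H (dil r q)) W p := by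
    have h5 := (hasFDerivAt_exp (E := E) hDd r).fun_smul (R.hasFDerivAt.comp p hK)
    refine h5.congr_of_eventuallyEq ?_
    filter_upwards [hop.mem_nhds hp] with q hq
    exact fderiv_scale hT hD hC hom hq hr
  have h5 := h3.unique h4
  have hn := norm_dil_inv_le (E := E) hr hr1
  have hri : 0 ≤ r⁻¹ := inv_nonneg.2 hr.le
  have hRn : ∀ A, ‖R A‖ ≤ ‖A‖ * r⁻¹ := fun A => by
    rw [hR]
    exact (ContinuousLinearMap.opNorm_comp_le _ _).trans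
      (mul_le_mul_of_nonneg_left hn (norm_nonneg _))
  have he : 0 < Real.exp (D p.1 * ℓ) := Real.exp_pos _
  have hWn : ‖W‖ ≤ Real.exp (D p.1 * ℓ) * (3 * M ^ 3 * (1 + |ℓ|) ^ 2) * r⁻¹ := by
    have e1 := est2 (X := ℝ × E) (Y := ℝ × E →L[ℝ] F) (f1 := fs) (R := R) norm_fs_le hri hRn
      (K' := K') (k := Kf D H r p)
      (by positivity : 0 ≤ 2 * M ^ 2 * (1 + |ℓ|)) (by positivity : 0 ≤ M ^ 2 * (1 + |ℓ|))
      (mul_nonneg hM0 hl) he.le hKn (norm_Kf_le hM h0 h1 hd) hc1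
    refine le_trans e1 ?_
    refine mul_le_mul_of_nonneg_right (mul_le_mul_of_nonneg_left ?_ he.le) hri
    have e8 : M ^ 2 ≤ M ^ 3 := pow_le_pow_right₀ hM (by norm_num)
    have e9 : (1 + |ℓ|) ≤ (1 + |ℓ|) ^ 2 := by nlinarith
    have e10 : 0 ≤ M ^ 3 := by positivity
    calc 2 * M ^ 2 * (1 + |ℓ|) + M * |ℓ| * (M ^ 2 * (1 + |ℓ|))
        = 2 * M ^ 2 * (1 + |ℓ|) + M ^ 3 * |ℓ| * (1 + |ℓ|) := by ring
      _ ≤ 2 * M ^ 3 * (1 + |ℓ|) ^ 2 + M ^ 3 * (1 + |ℓ|) ^ 2 := by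
          refine add_le_add (mul_le_mul (by linarith) e9 (by positivity) (by positivity)) ?_
          nlinarith
      _ = 3 * M ^ 3 * (1 + |ℓ|) ^ 2 := by ring
  have h6 : fderiv ℝ (fderiv ℝ H) (dil r p) = W.comp (dil r⁻¹) := by
    refine ContinuousLinearMap.ext fun v => ?_
    have h7 := congrArg (fun A : ℝ × E →L[ℝ] (ℝ × E →L[ℝ] F) => A (dil r⁻¹ v)) h5
    simp only [ContinuousLinearMap.comp_apply, dil_inv hr.ne'] at h7
    rw [h7]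
    rfl
  rw [h6]
  refine (ContinuousLinearMap.opNorm_comp_le _ _).trans ?_
  calc ‖W‖ * ‖dil (E := E) r⁻¹‖ ≤
        (Real.exp (D p.1 * ℓ) * (3 * M ^ 3 * (1 + |ℓ|) ^ 2) * r⁻¹) * r⁻¹ :=
        mul_le_mul hWn hn (norm_nonneg _) (by positivity)
    _ = _ := by ring

/-- `(1 + |log r|)² r^(D₀ - 2)` is small -/
theorem log_bound {δ r : ℝ} (hδ : 0 < δ) (hr : 0 < r) (hr1 : r ≤ 1) :
    (1 + |Real.log r|) ^ 2 * r ^ (4 * δ) ≤ (1 + 1 / δ) ^ 2 * r ^ (2 * δ) := by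
  have h1 := (Real.abs_log_mul_self_rpow_lt r δ hr hr1 hδ).le
  have hp : 0 < r ^ δ := Real.rpow_pos_of_pos hr _
  rw [abs_mul, abs_of_pos hp] at h1
  have h2 : r ^ δ ≤ 1 := Real.rpow_le_one hr.le hr1 hδ.le
  have h3 : (1 + |Real.log r|) * r ^ δ ≤ 1 + 1 / δ := by
    rw [add_mul, one_mul]; linarith
  have h4 : r ^ (4 * δ) = r ^ δ * r ^ δ * r ^ (2 * δ) := by
    rw [← Real.rpow_add hr, ← Real.rpow_add hr]; congr 1; ring
  have h5 : 0 ≤ (1 + |Real.log r|) * r ^ δ := by positivity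
  calc (1 + |Real.log r|) ^ 2 * r ^ (4 * δ)
      = ((1 + |Real.log r|) * r ^ δ) ^ 2 * r ^ (2 * δ) := by rw [h4]; ring
    _ ≤ (1 + 1 / δ) ^ 2 * r ^ (2 * δ) :=
        mul_le_mul_of_nonneg_right (pow_le_pow_left₀ h5 h3 2) (Real.rpow_pos_of_pos hr _).le

/-- **moving degree `> 2`: `C²` at the origin** -/
theorem contDiffOn_of_hom [FiniteDimensional ℝ E] (hT : IsOpen T) (hD : ContDiffOn ℝ 2 D T)
    (hD2 : ∀ t ∈ T, 2 < D t) (hC : ContDiffOn ℝ 2 H (T ×ˢ {0}ᶜ)) (h0 : ∀ t ∈ T, H (t, 0) = 0)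
    (hom : ∀ t ∈ T, ∀ r : ℝ, 0 < r → ∀ x, H (t, r • x) = (r ^ (D t)) • H (t, x)) :
    ContDiffOn ℝ 2 H (T ×ˢ univ) := by
  have : ProperSpace E := FiniteDimensional.proper_real E
  have hop := isOpen_dom (E := E) hT
  have hom' : ∀ t ∈ T, ∀ r : ℝ, 0 < r → ∀ x,
      H (t, r • x) = Real.exp (D t * Real.log r) • H (t, x) := by
    intro t ht r hr x
    rw [hom t ht r hr, Real.rpow_def_of_pos hr, mul_comm (Real.log r)]
  refine contDiffOn_of_flat hT hC h0 fun t ht => ?_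
  obtain ⟨ε', hε', hball⟩ := Metric.isOpen_iff.1 hT t ht
  have hε : 0 < ε' / 2 := half_pos hε'
  have hcb : closedBall t (ε' / 2) ⊆ T :=
    Subset.trans (closedBall_subset_ball (half_lt_self hε')) hball
  set Q : Set (ℝ × E) := closedBall t (ε' / 2) ×ˢ sphere (0 : E) 1 with hQ
  have hQc : IsCompact Q := (isCompact_closedBall _ _).prod (isCompact_sphere _ _)
  have hQs : Q ⊆ T ×ˢ ({0}ᶜ : Set E) := by
    intro p hp
    refine ⟨hcb hp.1, fun h0 => ?_⟩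
    have h1 : ‖p.2‖ = 1 := by simpa using hp.2
    have h0' : p.2 = 0 := h0
    rw [h0', norm_zero] at h1
    exact zero_ne_one h1
  have hCd : ∀ q ∈ T ×ˢ ({0}ᶜ : Set E), ContDiffAt ℝ 2 H q := fun q hq =>
    (hC _ hq).contDiffAt (hop.mem_nhds hq)
  have hCf : ∀ q ∈ T ×ˢ ({0}ᶜ : Set E), ContDiffAt ℝ 1 (fderiv ℝ H) q := fun q hq =>
    (hCd q hq).fderiv_right (m := 1) (by norm_num)
  obtain ⟨M₀, hM₀⟩ := hQc.exists_bound_of_continuousOn (f := H)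
    fun p hp => (hCd p (hQs hp)).continuousAt.continuousWithinAt
  obtain ⟨M₁, hM₁⟩ := hQc.exists_bound_of_continuousOn (f := fderiv ℝ H)
    fun p hp => (hCf p (hQs hp)).continuousAt.continuousWithinAt
  obtain ⟨M₂, hM₂⟩ := hQc.exists_bound_of_continuousOn (f := fderiv ℝ (fderiv ℝ H))
    fun p hp => ((hCf p (hQs hp)).fderiv_right (m := 0) (by norm_num)).continuousAt.continuousWithinAt
  have hderiv : ∀ s ∈ T, ContDiffAt ℝ 1 (deriv D) s := by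
    intro s hs
    have h3 : ContDiffAt ℝ 1 (fderiv ℝ D) s :=
      ((hD _ hs).contDiffAt (hT.mem_nhds hs)).fderiv_right (m := 1) (by norm_num)
    have h4 : deriv D = fun t => fderiv ℝ D t 1 := by funext t; rfl
    rw [h4]
    exact h3.clm_apply contDiffAt_const
  obtain ⟨M₃, hM₃⟩ := (isCompact_closedBall t (ε' / 2)).exists_bound_of_continuousOn
    (f := deriv D) fun s hs => (hderiv s (hcb hs)).continuousAt.continuousWithinAt
  obtain ⟨M₄, hM₄⟩ := (isCompact_closedBall t (ε' / 2)).exists_bound_of_continuousOn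
    (f := deriv (deriv D)) fun s hs => by
      have h4 : deriv (deriv D) = fun t => fderiv ℝ (deriv D) t 1 := by funext t; rfl
      rw [h4]
      exact (((hderiv s (hcb hs)).fderiv_right (m := 0) (by norm_num)).clm_apply
        contDiffAt_const).continuousAt.continuousWithinAt
  obtain ⟨s₀, hs₀, hmin⟩ := (isCompact_closedBall t (ε' / 2)).exists_isMinOn
    ⟨t, mem_closedBall_self hε.le⟩ (f := D) (hD.continuousOn.mono hcb)
  set M : ℝ := max 1 (max M₀ (max M₁ (max M₂ (max M₃ M₄)))) with hM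
  have hM1 : 1 ≤ M := le_max_left _ _
  have b0 : M₀ ≤ M := (le_max_left _ _).trans (le_max_right _ _)
  have b1 : M₁ ≤ M := (le_max_left _ _).trans ((le_max_right _ _).trans (le_max_right _ _))
  have b2 : M₂ ≤ M := (le_max_left _ _).trans ((le_max_right _ _).trans ((le_max_right _ _).trans
    (le_max_right _ _)))
  have b3 : M₃ ≤ M := (le_max_left _ _).trans ((le_max_right _ _).trans ((le_max_right _ _).trans
    ((le_max_right _ _).trans (le_max_right _ _))))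
  have b4 : M₄ ≤ M := (le_max_right _ _).trans ((le_max_right _ _).trans ((le_max_right _ _).trans
    ((le_max_right _ _).trans (le_max_right _ _))))
  set δ : ℝ := (D s₀ - 2) / 4 with hδ
  have hδ0 : 0 < δ := by
    have := hD2 s₀ (hcb hs₀)
    rw [hδ]; linarith
  set C : ℝ := 3 * M ^ 3 * (1 + 1 / δ) ^ 2 with hCdef
  have hC0 : 0 ≤ C := by positivity
  refine ⟨ε' / 2, hε, 2 * δ, by positivity, C, hC0, hcb, fun s hs x hx hx1 => ?_⟩
  have hn : 0 < ‖x‖ := norm_pos_iff.2 hx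
  have hp : (s, ‖x‖⁻¹ • x) ∈ Q := ⟨hs, by
    rw [mem_sphere_zero_iff_norm]; exact FlowG_951.norm_unit hx⟩
  have hback : dil ‖x‖ (s, ‖x‖⁻¹ • x) = (s, x) := by
    rw [dil_apply, smul_smul, mul_inv_cancel₀ hn.ne', one_smul]
  have hl := abs_nonneg (Real.log ‖x‖)
  have hexp : Real.exp (D s * Real.log ‖x‖) ≤ ‖x‖ ^ (2 + 4 * δ) := by
    have h1 : Real.exp (D s * Real.log ‖x‖) = ‖x‖ ^ (D s) := by
      rw [Real.rpow_def_of_pos hn, mul_comm]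
    rw [h1]
    refine Real.rpow_le_rpow_of_exponent_ge hn hx1 ?_
    have h2 : D s₀ ≤ D s := hmin hs
    rw [hδ]; linarith
  have hlb := log_bound hδ0 hn hx1
  have hpow : ∀ k : ℝ, 0 ≤ k → (1 + |Real.log ‖x‖|) ^ 2 * ‖x‖ ^ (k + 4 * δ) ≤
      (1 + 1 / δ) ^ 2 * ‖x‖ ^ (k + 2 * δ) := by
    intro k hk
    rw [Real.rpow_add hn, Real.rpow_add hn]
    calc (1 + |Real.log ‖x‖|) ^ 2 * (‖x‖ ^ k * ‖x‖ ^ (4 * δ))
        = ‖x‖ ^ k * ((1 + |Real.log ‖x‖|) ^ 2 * ‖x‖ ^ (4 * δ)) := by ring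
      _ ≤ ‖x‖ ^ k * ((1 + 1 / δ) ^ 2 * ‖x‖ ^ (2 * δ)) :=
          mul_le_mul_of_nonneg_left hlb (Real.rpow_pos_of_pos hn _).le
      _ = _ := by ring
  have hsq1 : (1 : ℝ) ≤ (1 + |Real.log ‖x‖|) ^ 2 := by nlinarith
  have hlin : (1 + |Real.log ‖x‖|) ≤ (1 + |Real.log ‖x‖|) ^ 2 := by nlinarith
  have hM3 : M ≤ 3 * M ^ 3 := by nlinarith [mul_self_nonneg (M - 1), sq_nonneg M]
  have hM23 : M ^ 2 ≤ 3 * M ^ 3 := by nlinarith [sq_nonneg M]
  have hM3' : 0 ≤ 3 * M ^ 3 := by positivity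
  refine ⟨?_, ?_, ?_⟩
  · have e0 := hom' s (hcb hs) ‖x‖ hn (‖x‖⁻¹ • x)
    rw [smul_smul, mul_inv_cancel₀ hn.ne', one_smul] at e0
    rw [e0, norm_smul, Real.norm_of_nonneg (Real.exp_pos _).le]
    calc Real.exp (D s * Real.log ‖x‖) * ‖H (s, ‖x‖⁻¹ • x)‖
        ≤ ‖x‖ ^ (2 + 4 * δ) * M :=
          mul_le_mul hexp ((hM₀ _ hp).trans b0) (norm_nonneg _) (Real.rpow_pos_of_pos hn _).le
      _ ≤ ((1 + |Real.log ‖x‖|) ^ 2 * ‖x‖ ^ (2 + 4 * δ)) * (3 * M ^ 3) := by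
          have := (Real.rpow_pos_of_pos hn (2 + 4 * δ)).le
          refine mul_le_mul ?_ hM3 (by positivity) (by positivity)
          nlinarith
      _ ≤ ((1 + 1 / δ) ^ 2 * ‖x‖ ^ (2 + 2 * δ)) * (3 * M ^ 3) :=
          mul_le_mul_of_nonneg_right (hpow 2 (by norm_num)) hM3'
      _ = C * ‖x‖ ^ (2 + 2 * δ) := by rw [hCdef]; ring
  · have e1 := fderiv_scale hT hD hC hom' (hQs hp) hn
    rw [hback] at e1
    rw [e1, norm_smul, Real.norm_of_nonneg (Real.exp_pos _).le]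
    have e2 : ‖(Kf D H ‖x‖ (s, ‖x‖⁻¹ • x)).comp (dil ‖x‖⁻¹)‖ ≤
        M ^ 2 * (1 + |Real.log ‖x‖|) * ‖x‖⁻¹ := by
      refine (ContinuousLinearMap.opNorm_comp_le _ _).trans ?_
      exact mul_le_mul (norm_Kf_le hM1 ((hM₀ _ hp).trans b0) ((hM₁ _ hp).trans b1)
        ((Real.norm_eq_abs _ ▸ hM₃ s hs).trans b3)) (norm_dil_inv_le hn hx1) (norm_nonneg _)
        (by positivity)
    have e3 : ‖x‖ ^ (2 + 4 * δ) * ‖x‖⁻¹ = ‖x‖ ^ (1 + 4 * δ) := by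
      rw [← Real.rpow_neg_one, ← Real.rpow_add hn]; congr 1; ring
    calc Real.exp (D s * Real.log ‖x‖) * ‖(Kf D H ‖x‖ (s, ‖x‖⁻¹ • x)).comp (dil ‖x‖⁻¹)‖
        ≤ ‖x‖ ^ (2 + 4 * δ) * (M ^ 2 * (1 + |Real.log ‖x‖|) * ‖x‖⁻¹) :=
          mul_le_mul hexp e2 (norm_nonneg _) (Real.rpow_pos_of_pos hn _).le
      _ = (M ^ 2 * (1 + |Real.log ‖x‖|)) * (‖x‖ ^ (2 + 4 * δ) * ‖x‖⁻¹) := by ring
      _ = (M ^ 2 * (1 + |Real.log ‖x‖|)) * ‖x‖ ^ (1 + 4 * δ) := by rw [e3]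
      _ ≤ (3 * M ^ 3 * (1 + |Real.log ‖x‖|) ^ 2) * ‖x‖ ^ (1 + 4 * δ) :=
          mul_le_mul_of_nonneg_right (mul_le_mul hM23 hlin (by positivity) hM3')
            (Real.rpow_pos_of_pos hn _).le
      _ = 3 * M ^ 3 * ((1 + |Real.log ‖x‖|) ^ 2 * ‖x‖ ^ (1 + 4 * δ)) := by ring
      _ ≤ 3 * M ^ 3 * ((1 + 1 / δ) ^ 2 * ‖x‖ ^ (1 + 2 * δ)) :=
          mul_le_mul_of_nonneg_left (hpow 1 (by norm_num)) hM3'
      _ = C * ‖x‖ ^ (1 + 2 * δ) := by rw [hCdef]; ring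
  · have e1 := fderiv2_scale_le hT hD hC hom' (hQs hp) hn hx1 hM1 ((hM₀ _ hp).trans b0)
      ((hM₁ _ hp).trans b1) ((hM₂ _ hp).trans b2) ((Real.norm_eq_abs _ ▸ hM₃ s hs).trans b3)
      ((Real.norm_eq_abs _ ▸ hM₄ s hs).trans b4)
    rw [hback] at e1
    refine le_trans e1 ?_
    have e3 : ‖x‖ ^ (2 + 4 * δ) * (‖x‖⁻¹ * ‖x‖⁻¹) = ‖x‖ ^ (0 + 4 * δ) := by
      rw [← Real.rpow_neg_one, ← Real.rpow_add hn, ← Real.rpow_add hn]; congr 1; ring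
    calc Real.exp (D s * Real.log ‖x‖) * (3 * M ^ 3 * (1 + |Real.log ‖x‖|) ^ 2) *
          (‖x‖⁻¹ * ‖x‖⁻¹)
        ≤ ‖x‖ ^ (2 + 4 * δ) * (3 * M ^ 3 * (1 + |Real.log ‖x‖|) ^ 2) * (‖x‖⁻¹ * ‖x‖⁻¹) := by
          refine mul_le_mul_of_nonneg_right (mul_le_mul_of_nonneg_right hexp ?_) ?_
          · positivity
          · positivity
      _ = 3 * M ^ 3 * ((1 + |Real.log ‖x‖|) ^ 2 * (‖x‖ ^ (2 + 4 * δ) * (‖x‖⁻¹ * ‖x‖⁻¹))) := by
          ring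
      _ = 3 * M ^ 3 * ((1 + |Real.log ‖x‖|) ^ 2 * ‖x‖ ^ (0 + 4 * δ)) := by rw [e3]
      _ ≤ 3 * M ^ 3 * ((1 + 1 / δ) ^ 2 * ‖x‖ ^ (0 + 2 * δ)) :=
          mul_le_mul_of_nonneg_left (hpow 0 le_rfl) hM3'
      _ = C * ‖x‖ ^ (2 * δ) := by rw [hCdef, zero_add]; ring

end Scale

end Crest.Agent.R267.Pow_951
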