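import Crest.Agent.R267.HmD_951
import Crest.Agent.R267.Pow_951
import Crest.Agent.R267.LemLF_951

/-!
# Row 267 (helper951): tools for `HPath`

* `contDiffOn_rpow_smul`: `(t, z) ↦ ‖z‖ ^ D t • q (t, z)`, `q` of degree `0`, `2 < D t`, is `C²`
  everywhere;
* `contDiffOn_coord`: composition with a coordinate;
* `HPath.of_slices`, `HPath0.of_slices`;
* `wh_lobB`: weighted homogeneity of `lobB`.
-/

set_option autoImplicit false
set_option linter.unusedSectionVars false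

noncomputable section

open Set Filter Topology Metric
open scoped NNReal ContDiff
open Crest.Agent.R267.Cone_808 Crest.Agent.R267.SphReg_808 Crest.Agent.R267.Mneg_951
open Crest.Agent.R267.Pow_951 Crest.Agent.R267.LemL_951

namespace Crest.Agent.R267.Hm_951

section Planar

variable {F : Type*} [NormedAddCommGroup F] [NormedSpace ℝ F]

theorem contDiffOn_rpow {T : Set ℝ} {D : ℝ → ℝ} (hD : ContDiffOn ℝ 2 D T) :
    ContDiffOn ℝ 2 (fun p : ℝ × ℂ => ‖p.2‖ ^ (D p.1)) (T ×ˢ {0}ᶜ) := by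
  intro p hp
  have hn : ‖p.2‖ ≠ 0 := norm_ne_zero_iff.2 hp.2
  have h1 : ContDiffWithinAt ℝ 2 (fun p : ℝ × ℂ => ‖p.2‖) (T ×ˢ {0}ᶜ) p :=
    (contDiffAt_snd.norm ℝ hp.2).contDiffWithinAt
  have h2 : ContDiffWithinAt ℝ 2 (fun p : ℝ × ℂ => D p.1) (T ×ˢ {0}ᶜ) p :=
    (hD p.1 hp.1).comp p contDiffWithinAt_fst fun q hq => hq.1
  exact h1.rpow h2 hn

/-- **moving exponents** -/
theorem contDiffOn_rpow_smul {T : Set ℝ} (hT : IsOpen T) {D : ℝ → ℝ} (hD : ContDiffOn ℝ 2 D T)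
    (hD2 : ∀ t ∈ T, 2 < D t) {q : ℝ × ℂ → F} (hq : ContDiffOn ℝ 2 q (T ×ˢ {0}ᶜ))
    (hq0 : ∀ t ∈ T, ∀ r : ℝ, 0 < r → ∀ z : ℂ, q (t, (r : ℂ) * z) = q (t, z)) :
    ContDiffOn ℝ 2 (fun p : ℝ × ℂ => ‖p.2‖ ^ (D p.1) • q p) (T ×ˢ univ) := by
  refine contDiffOn_of_hom hT hD hD2 ((contDiffOn_rpow hD).smul hq) (fun t ht => ?_)
    fun t ht r hr z => ?_
  · show ‖(0 : ℂ)‖ ^ (D t) • q (t, 0) = 0
    rw [norm_zero, Real.zero_rpow (by have := hD2 t ht; linarith), zero_smul]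
  · show ‖r • z‖ ^ (D t) • q (t, r • z) = (r ^ (D t)) • (‖z‖ ^ (D t) • q (t, z))
    rw [norm_smul, Real.norm_of_nonneg hr.le, Real.mul_rpow hr.le (norm_nonneg _), smul_smul,
      Complex.real_smul, hq0 t ht r hr]

variable {ι : Type*} [Fintype ι]

/-- composition with a coordinate -/
theorem contDiffOn_coord {T : Set ℝ} {P : ℝ × ℂ → F} (hP : ContDiffOn ℝ 2 P (T ×ˢ univ)) (i : ι)
    {S : Set (ι → ℂ)} : ContDiffOn ℝ 2 (fun p : ℝ × (ι → ℂ) => P (p.1, p.2 i)) (T ×ˢ S) := by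
  have h1 : ContDiff ℝ 2 (fun p : ℝ × (ι → ℂ) => (p.1, p.2 i)) := by fun_prop
  exact hP.comp h1.contDiffOn fun p hp => ⟨hp.1, mem_univ _⟩

end Planar

section Slices

variable {ι : Type} [Fintype ι]

theorem fderiv_slice {F : ℝ × (ι → ℂ) → ℂ} {t : ℝ} {x : ι → ℂ}
    (hd : DifferentiableAt ℝ F (t, x)) (y : ι → ℂ) :
    fderiv ℝ F (t, x) (0, y) = fderiv ℝ (fun z => F (t, z)) x y := by
  have h2 : HasFDerivAt (fun z : ι → ℂ => (t, z))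
      ((0 : (ι → ℂ) →L[ℝ] ℝ).prod (ContinuousLinearMap.id ℝ (ι → ℂ))) x :=
    (hasFDerivAt_const t x).prodMk (hasFDerivAt_id x)
  have h3 : HasFDerivAt (fun z => F (t, z)) ((fderiv ℝ F (t, x)).comp
      ((0 : (ι → ℂ) →L[ℝ] ℝ).prod (ContinuousLinearMap.id ℝ (ι → ℂ)))) x :=
    HasFDerivAt.comp x (f := fun z : ι → ℂ => (t, z)) (g := F) hd.hasFDerivAt h2
  rw [h3.fderiv]
  rfl

theorem HPath.of_slices {F : ℝ × (ι → ℂ) → ℂ} {T : Set ℝ} (hT : IsOpen T)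
    (hsub : Icc (0 : ℝ) 1 ⊆ T) (hC : ContDiffOn ℝ 2 F (T ×ˢ {0}ᶜ))
    (hwh : ∀ t ∈ Icc (0 : ℝ) 1, ∃ w : ι → ℝ, (∀ i, 0 < w i) ∧ WH w (fun x => F (t, x)))
    (hreg : ∀ t ∈ Icc (0 : ℝ) 1, ∀ x : ι → ℂ, x ≠ 0 → 0 ≤ (F (t, x)).re →
      Function.Surjective (fderiv ℝ (fun z => F (t, z)) x)) : HPath F where
  smooth := ⟨T, hT, hsub, hC⟩
  wh := hwh
  reg := by
    intro t ht x hx hre b
    have hmem : (t, x) ∈ T ×ˢ ({0}ᶜ : Set (ι → ℂ)) := ⟨hsub ht, hx⟩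
    have hd : DifferentiableAt ℝ F (t, x) :=
      ((hC _ hmem).contDiffAt ((isOpen_dom hT).mem_nhds hmem)).differentiableAt (by norm_num)
    obtain ⟨y, hy⟩ := hreg t ht x hx hre b
    exact ⟨y, by rw [fderiv_slice hd, hy]⟩

theorem HPath0.of_slices {F : ℝ × (ι → ℂ) → ℂ} {T : Set ℝ} (hT : IsOpen T)
    (hsub : Icc (0 : ℝ) 1 ⊆ T) (hC : ContDiffOn ℝ 2 F (T ×ˢ {0}ᶜ))
    (hwh : ∀ t ∈ Icc (0 : ℝ) 1, ∃ w : ι → ℝ, (∀ i, 0 < w i) ∧ WH w (fun x => F (t, x)))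
    (hreg : ∀ t ∈ Icc (0 : ℝ) 1, ∀ x : ι → ℂ, x ≠ 0 → F (t, x) = 0 →
      Function.Surjective (fderiv ℝ (fun z => F (t, z)) x)) : HPath0 F where
  smooth := ⟨T, hT, hsub, hC⟩
  wh := hwh
  reg := by
    intro t ht x hx h0 b
    have hmem : (t, x) ∈ T ×ˢ ({0}ᶜ : Set (ι → ℂ)) := ⟨hsub ht, hx⟩
    have hd : DifferentiableAt ℝ F (t, x) :=
      ((hC _ hmem).contDiffAt ((isOpen_dom hT).mem_nhds hmem)).differentiableAt (by norm_num)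
    obtain ⟨y, hy⟩ := hreg t ht x hx h0 b
    exact ⟨y, by rw [fderiv_slice hd, hy]⟩

/-- weighted homogeneity of `lobB` -/
theorem wh_lobB {ι : Type*} [Fintype ι] {P : ι → ℂ → ℂ} {B : (ι → ℂ) → ℝ} {D : ι → ℝ}
    (hD : ∀ i, 0 < D i) (hPH : ∀ i, PH (D i) (P i))
    (hB : ∀ (s : ℝ) (x : ι → ℂ), B (act (fun i => (D i)⁻¹) s x) = Real.exp s * B x) :
    WH (fun i => (D i)⁻¹) (lobB P B) := by
  intro s x
  have h1 : ∀ i, P i (act (fun i => (D i)⁻¹) s x i) = Real.exp s • P i (x i) := by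
    intro i
    have h2 := hPH i (Real.exp (s * (D i)⁻¹)) (Real.exp_pos _) (x i)
    show P i ((Real.exp (s * (D i)⁻¹) : ℂ) * x i) = _
    rw [h2, ← Real.exp_mul]
    congr 2
    rw [mul_assoc, inv_mul_cancel₀ (hD i).ne', mul_one]
  unfold lobB
  simp only [h1]
  rw [hB, smul_sub, Finset.smul_sum, Complex.ofReal_mul, Complex.real_smul (x := Real.exp s)
    (z := (B x : ℂ))]

end Slices

end Crest.Agent.R267.Hm_951
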