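import Crest.Agent.R267.LemL_951

/-!
# Row 267 (helper407): step S4 of #2295 (helper855), pointwise form

At a point there are variables `i : ι` as in `LemL_951.lemL`, one more variable `y` with the term
`C e^{i d ξ}` (`C > 0`, `d = a + 1`) and the coupling `S b` (`S ≥ 0`) with
`b = (1 - v) e^{i a ξ} + v β`, `β` real, between `y` and the variable `i0`.
`s4`: if the real part of the sum is `≥ 0` then the derivative is onto.
-/

set_option autoImplicit false
set_option maxHeartbeats 1000000

noncomputable section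

open Finset

namespace Crest.Agent.R267.S4_407

open Crest.Agent.R267.LemL_951

/-- `e^{i θ}` -/
def cis (θ : ℝ) : ℂ := ⟨Real.cos θ, Real.sin θ⟩

@[simp] theorem cis_re (θ : ℝ) : (cis θ).re = Real.cos θ := rfl
@[simp] theorem cis_im (θ : ℝ) : (cis θ).im = Real.sin θ := rfl

theorem cis_eq (θ : ℝ) : cis θ = Complex.exp (θ * Complex.I) := by
  rw [Complex.exp_mul_I]
  refine Complex.ext ?_ ?_
  · simp [← Complex.ofReal_cos, ← Complex.ofReal_sin]
  · simp [← Complex.ofReal_cos, ← Complex.ofReal_sin]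

theorem exists_arg {u : ℂ} (hu : ‖u‖ = 1) (h0 : 0 ≤ u.re) :
    ∃ f : ℝ, |f| ≤ Real.pi / 2 ∧ u = cis f := by
  refine ⟨u.arg, Complex.abs_arg_le_pi_div_two_iff.2 h0, ?_⟩
  have hne : u ≠ 0 := by
    intro h; rw [h, norm_zero] at hu; norm_num at hu
  refine Complex.ext ?_ ?_
  · rw [cis_re, Complex.cos_arg hne, hu, div_one]
  · rw [cis_im, Complex.sin_arg, hu, div_one]

theorem rf_cis (f θ : ℝ) : rf (cis f) (cis θ) = Real.cos (θ - f) := by
  rw [Real.cos_sub]; simp only [rf, cis_re, cis_im]; ring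

theorem jf_cis (f θ : ℝ) : jf (cis f) (cis θ) = Real.sin (θ - f) := by
  rw [Real.sin_sub]; simp only [jf, cis_re, cis_im]; ring

/-! ### zone 1 -/

/-- the key inequality in zone 1, in real trigonometric form -/
theorem zone1 {d a C S v ξ f : ℝ} (hd : d = a + 1) (ha : 1 ≤ a) (hC : 0 < C) (hS : 0 < S)
    (hv0 : 0 ≤ v) (hv1 : v ≤ 1) (hξ : |ξ| ≤ Real.pi / (2 * d)) (hf : |f| ≤ Real.pi / 2)
    (hR : d * C * Real.cos (d * ξ - f) =
      a * S * ((1 - v) * Real.cos (a * ξ - f) + v * Real.cos f))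
    (hA : d * C * Real.sin (d * ξ - f) = a * S * ((1 - v) * Real.sin (a * ξ - f))) :
    0 ≤ (1 - v) * Real.cos (a * ξ - f) + v * Real.cos f ∧
    0 ≤ Real.sin f * (C * Real.sin (d * ξ - f) -
      S * ((1 - v) * Real.sin (a * ξ - f) - v * Real.sin f)) ∧
    (Real.sin f * (C * Real.sin (d * ξ - f) -
      S * ((1 - v) * Real.sin (a * ξ - f) - v * Real.sin f)) = 0 →
      f = 0 ∧ ξ = 0 ∧ d * C = a * S) := by
  have hpi := Real.pi_pos
  have hdpos : 0 < d := by linarith
  have hapos : 0 < a := by linarith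
  -- the expression of the key quantity
  have hE : C * Real.sin (d * ξ - f) - S * ((1 - v) * Real.sin (a * ξ - f) - v * Real.sin f) =
      S * ((1 - v) / d * Real.sin (f - a * ξ) + v * Real.sin f) := by
    have h1 : C * Real.sin (d * ξ - f) = a / d * S * ((1 - v) * Real.sin (a * ξ - f)) := by
      have h0 : d * (C * Real.sin (d * ξ - f)) = d * (a / d * S * ((1 - v) * Real.sin (a * ξ - f))) := by
        rw [← mul_assoc, hA]
        field_simp
      exact mul_left_cancel₀ hdpos.ne' h0
    have h2 : Real.sin (f - a * ξ) = - Real.sin (a * ξ - f) := by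
      rw [← Real.sin_neg]; congr 1; ring
    rw [h1, h2, hd]
    field_simp
    ring
  have hkey : (1 - v) * Real.sin ξ = v * Real.cos f * Real.sin (f - d * ξ) := by
    have h1 : a * S * ((1 - v) * (Real.cos (a * ξ - f) * Real.sin (d * ξ - f) -
        Real.sin (a * ξ - f) * Real.cos (d * ξ - f)) + v * Real.cos f * Real.sin (d * ξ - f)) = 0 := by
      have e1 : d * C * Real.cos (d * ξ - f) * Real.sin (d * ξ - f) =
        a * S * ((1 - v) * Real.cos (a * ξ - f) + v * Real.cos f) * Real.sin (d * ξ - f) := by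
        rw [hR]
      have e2 : d * C * Real.sin (d * ξ - f) * Real.cos (d * ξ - f) =
        a * S * ((1 - v) * Real.sin (a * ξ - f)) * Real.cos (d * ξ - f) := by rw [hA]
      linear_combination e2 - e1
    have h2 : Real.cos (a * ξ - f) * Real.sin (d * ξ - f) -
        Real.sin (a * ξ - f) * Real.cos (d * ξ - f) = Real.sin ξ := by
      have : ξ = (d * ξ - f) - (a * ξ - f) := by rw [hd]; ring
      conv_rhs => rw [this, Real.sin_sub]
      ring
    rw [h2] at h1
    have h3 : Real.sin (f - d * ξ) = - Real.sin (d * ξ - f) := by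
      rw [← Real.sin_neg]; congr 1; ring
    have h4 : (1 - v) * Real.sin ξ + v * Real.cos f * Real.sin (d * ξ - f) = 0 := by
      rcases mul_eq_zero.1 h1 with h | h
      · exact absurd h (mul_pos hapos hS).ne'
      · exact h
    rw [h3]; linarith
  have hcf : 0 ≤ Real.cos f := Real.cos_nonneg_of_neg_pi_div_two_le_of_le (by linarith [(abs_le.1 hf).1]) (abs_le.1 hf).2
  have hdxi : d * |ξ| ≤ Real.pi / 2 := by
    have := mul_le_mul_of_nonneg_left hξ hdpos.le
    calc d * |ξ| ≤ d * (Real.pi / (2 * d)) := this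
      _ = Real.pi / 2 := by field_simp
  -- the case of positive angle, in a symmetric form
  have main : ∀ σ : ℝ, (σ = 1 ∨ σ = -1) → 0 < σ * ξ → d * (σ * ξ) ≤ σ * f := by
    intro σ hσ hpos
    have hσ2 : σ * σ = 1 := by rcases hσ with h | h <;> rw [h] <;> norm_num
    have hx : d * (σ * ξ) ≤ Real.pi / 2 := by
      refine le_trans ?_ hdxi
      refine mul_le_mul_of_nonneg_left ?_ hdpos.le
      rcases hσ with h | h <;> rw [h]
      · rw [one_mul]; exact le_abs_self _
      · rw [neg_one_mul]; exact neg_le_abs _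
    have hx1 : σ * ξ ≤ Real.pi / 2 := by
      have : σ * ξ ≤ d * (σ * ξ) := by nlinarith
      linarith
    have hsx : 0 < Real.sin (σ * ξ) := Real.sin_pos_of_pos_of_lt_pi hpos (by linarith)
    have hk : (1 - v) * Real.sin (σ * ξ) = v * Real.cos f * Real.sin (σ * f - d * (σ * ξ)) := by
      rcases hσ with h | h
      · rw [h]; simpa using hkey
      · rw [h]
        have e1 : Real.sin (-1 * ξ) = - Real.sin ξ := by rw [neg_one_mul, Real.sin_neg]
        have e2 : Real.sin (-1 * f - d * (-1 * ξ)) = - Real.sin (f - d * ξ) := by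
          rw [← Real.sin_neg]; congr 1; ring
        rw [e1, e2]; linarith
    have hcf0 : 0 < Real.cos f := by
      rcases hcf.lt_or_eq with h | h
      · exact h
      · exfalso
        rw [← h] at hk
        have hv : 1 - v = 0 := by
          have : (1 - v) * Real.sin (σ * ξ) = 0 := by rw [hk]; ring
          exact (mul_eq_zero.1 this).resolve_right hsx.ne'
        rw [hv, ← h] at hR
        rw [hv] at hA
        have h1 : Real.cos (d * ξ - f) = 0 := by
          have : d * C * Real.cos (d * ξ - f) = 0 := by rw [hR]; ring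
          exact (mul_eq_zero.1 this).resolve_left (mul_pos hdpos hC).ne'
        have h2 : Real.sin (d * ξ - f) = 0 := by
          have : d * C * Real.sin (d * ξ - f) = 0 := by rw [hA]; ring
          exact (mul_eq_zero.1 this).resolve_left (mul_pos hdpos hC).ne'
        have h3 := Real.sin_sq_add_cos_sq (d * ξ - f)
        rw [h1, h2] at h3
        norm_num at h3
    have hσf : |σ * f| ≤ Real.pi / 2 := by
      rw [abs_mul]
      rcases hσ with h | h <;> rw [h] <;> simpa using hf
    by_contra hlt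
    push Not at hlt
    -- `σ f - d σ ξ ∈ (-π, 0)`
    have h1 : Real.sin (σ * f - d * (σ * ξ)) < 0 := by
      refine Real.sin_neg_of_neg_of_neg_pi_lt (by linarith) ?_
      have := (abs_le.1 hσf).1
      rcases (lt_or_eq_of_le hx) with h | h
      · linarith
      · rcases (lt_or_eq_of_le this) with h' | h'
        · linarith
        · exfalso
          -- then cos f = 0
          have : Real.cos f = 0 := by
            have h5 : Real.cos (σ * f) = 0 := by
              rw [← h', show -(Real.pi / 2) = -(Real.pi / 2) from rfl, Real.cos_neg, Real.cos_pi_div_two]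
            rcases hσ with h6 | h6
            · rwa [h6, one_mul] at h5
            · rwa [h6, neg_one_mul, Real.cos_neg] at h5
          rw [this] at hcf0
          exact lt_irrefl _ hcf0
    have h2 : 0 ≤ (1 - v) * Real.sin (σ * ξ) := mul_nonneg (by linarith) hsx.le
    rw [hk] at h2
    rcases hv0.lt_or_eq with h3 | h3
    · have := mul_neg_of_pos_of_neg (mul_pos h3 hcf0) h1
      linarith
    · rw [← h3] at hk
      have : Real.sin (σ * ξ) = 0 := by linarith
      exact hsx.ne' this
  rcases lt_trichotomy ξ 0 with hx | hx | hx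
  · -- negative angle
    have h1 := main (-1) (Or.inr rfl) (by linarith)
    have h2 : d * ξ ≥ f := by linarith
    have hf1 := (abs_le.1 hf).1
    have h3 : a * ξ - f ≤ Real.pi / 2 := by nlinarith
    have h4 : 0 ≤ a * ξ - f := by nlinarith
    have hpos : 0 < a * ξ - f := by nlinarith
    have hcos : 0 ≤ Real.cos (a * ξ - f) := Real.cos_nonneg_of_neg_pi_div_two_le_of_le (by linarith) h3
    have hfneg : f < 0 := by nlinarith
    have hsf : Real.sin f < 0 := Real.sin_neg_of_neg_of_neg_pi_lt hfneg (by linarith)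
    have hs : Real.sin (f - a * ξ) < 0 :=
      Real.sin_neg_of_neg_of_neg_pi_lt (by linarith) (by linarith)
    have hstrict : 0 < Real.sin f * (S * ((1 - v) / d * Real.sin (f - a * ξ) + v * Real.sin f)) := by
      have e : Real.sin f * (S * ((1 - v) / d * Real.sin (f - a * ξ) + v * Real.sin f)) =
          S * ((1 - v) / d * (Real.sin f * Real.sin (f - a * ξ)) + v * (Real.sin f) ^ 2) := by ring
      rw [e]
      refine mul_pos hS ?_
      have h5 : 0 < Real.sin f * Real.sin (f - a * ξ) := mul_pos_of_neg_of_neg hsf hs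
      have h6 : 0 < (Real.sin f) ^ 2 := (sq_pos_iff).2 hsf.ne
      rcases hv0.lt_or_eq with h7 | h7
      · have : 0 ≤ (1 - v) / d := div_nonneg (by linarith) hdpos.le
        have h8 := mul_nonneg this h5.le
        have h9 := mul_pos h7 h6
        linarith
      · rw [← h7]
        have : 0 < (1 - (0:ℝ)) / d := by rw [sub_zero]; positivity
        have h8 := mul_pos this h5
        linarith
    rw [hE]
    refine ⟨add_nonneg (mul_nonneg (by linarith) hcos) (mul_nonneg hv0 hcf), hstrict.le, fun h => ?_⟩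
    rw [h] at hstrict
    exact absurd hstrict (lt_irrefl _)
  · -- zero angle
    subst hx
    rw [hE]
    have e0 : a * (0:ℝ) - f = -f := by ring
    have e1 : f - a * (0:ℝ) = f := by ring
    rw [e0, e1, Real.cos_neg]
    have e2 : Real.sin f * (S * ((1 - v) / d * Real.sin f + v * Real.sin f)) =
        S * ((1 - v) / d + v) * (Real.sin f) ^ 2 := by ring
    have hco : 0 < S * ((1 - v) / d + v) := by
      refine mul_pos hS ?_
      rcases hv0.lt_or_eq with h7 | h7
      · have : 0 ≤ (1 - v) / d := div_nonneg (by linarith) hdpos.le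
        linarith
      · rw [← h7]
        have : 0 < (1 - (0:ℝ)) / d := by rw [sub_zero]; positivity
        linarith
    rw [e2]
    refine ⟨by nlinarith, mul_nonneg hco.le (sq_nonneg _), fun h => ?_⟩
    have hs0 : Real.sin f = 0 := by
      rcases mul_eq_zero.1 h with h' | h'
      · exact absurd h' hco.ne'
      · exact pow_eq_zero_iff (two_ne_zero) |>.1 h'
    have hf0 : f = 0 := by
      have := abs_le.1 hf
      exact (Real.sin_eq_zero_iff_of_lt_of_lt (by linarith) (by linarith)).1 hs0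
    refine ⟨hf0, rfl, ?_⟩
    rw [hf0] at hR
    simp at hR
    linarith
  · have h1 := main 1 (Or.inl rfl) (by linarith)
    have h2 : d * ξ ≤ f := by linarith
    have hf1 := (abs_le.1 hf).2
    have h3 : f - a * ξ ≤ Real.pi / 2 := by nlinarith
    have hpos : 0 < f - a * ξ := by nlinarith
    have hcos : 0 ≤ Real.cos (a * ξ - f) := by
      rw [← Real.cos_neg]
      exact Real.cos_nonneg_of_neg_pi_div_two_le_of_le (by linarith) (by linarith)
    have hfpos : 0 < f := by nlinarith
    have hsf : 0 < Real.sin f := Real.sin_pos_of_pos_of_lt_pi hfpos (by linarith)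
    have hs : 0 < Real.sin (f - a * ξ) := Real.sin_pos_of_pos_of_lt_pi hpos (by linarith)
    have hstrict : 0 < Real.sin f * (S * ((1 - v) / d * Real.sin (f - a * ξ) + v * Real.sin f)) := by
      refine mul_pos hsf (mul_pos hS ?_)
      rcases hv0.lt_or_eq with h7 | h7
      · have : 0 ≤ (1 - v) / d := div_nonneg (by linarith) hdpos.le
        have h8 := mul_nonneg this hs.le
        have h9 := mul_pos h7 hsf
        linarith
      · rw [← h7]
        have : 0 < (1 - (0:ℝ)) / d := by rw [sub_zero]; positivity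
        have h8 := mul_pos this hs
        linarith
    rw [hE]
    refine ⟨add_nonneg (mul_nonneg (by linarith) hcos) (mul_nonneg hv0 hcf), hstrict.le, fun h => ?_⟩
    rw [h] at hstrict
    exact absurd hstrict (lt_irrefl _)

/-! ### zone 2 -/

theorem zone2 {a d v β ξ f : ℝ} (hd : 1 ≤ d) (h : 1 ≤ (2 * d - 1) * Real.cos (a * ξ))
    (hv0 : 0 ≤ v) (hv1 : v ≤ 1) (hβ : 0 ≤ β) (hcf : 0 ≤ Real.cos f) :
    Real.cos f * ((1 - v) * Real.cos (a * ξ - f) + v * β * Real.cos f) ≤
      d * ((1 - v) * Real.cos (a * ξ) + v * β) := by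
  have h1 : Real.cos f * Real.cos (a * ξ - f) ≤ (1 + Real.cos (a * ξ)) / 2 := by
    have k1 : Real.cos (a * ξ) = Real.cos (a * ξ - f) * Real.cos f -
        Real.sin (a * ξ - f) * Real.sin f := by
      rw [← Real.cos_add]; congr 1; ring
    have k2 : Real.cos (a * ξ - 2 * f) = Real.cos (a * ξ - f) * Real.cos f +
        Real.sin (a * ξ - f) * Real.sin f := by
      rw [← Real.cos_sub]; congr 1; ring
    have := Real.cos_le_one (a * ξ - 2 * f)
    linarith
  have h2 : Real.cos f * Real.cos f ≤ 1 := by nlinarith [Real.cos_le_one f]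
  have h3 : (1 + Real.cos (a * ξ)) / 2 ≤ d * Real.cos (a * ξ) := by linarith
  have e1 : (1 - v) * (Real.cos f * Real.cos (a * ξ - f)) ≤
      (1 - v) * (d * Real.cos (a * ξ)) :=
    mul_le_mul_of_nonneg_left (h1.trans h3) (by linarith)
  have hvβ : 0 ≤ v * β := mul_nonneg hv0 hβ
  have e2 : v * β * (Real.cos f * Real.cos f) ≤ v * β * d :=
    mul_le_mul_of_nonneg_left (h2.trans hd) hvβ
  calc Real.cos f * ((1 - v) * Real.cos (a * ξ - f) + v * β * Real.cos f) =
      (1 - v) * (Real.cos f * Real.cos (a * ξ - f)) + v * β * (Real.cos f * Real.cos f) := by ring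
    _ ≤ (1 - v) * (d * Real.cos (a * ξ)) + v * β * d := add_le_add e1 e2
    _ = _ := by ring

/-! ### the whole step -/

/-- the coupling coefficient -/
def bb (a v β ξ : ℝ) : ℂ := ((1 - v : ℝ) : ℂ) * cis (a * ξ) + ((v * β : ℝ) : ℂ)

/-- its derivative -/
def db (a v β' ξ : ℝ) : ℂ :=
  ((1 - v : ℝ) : ℂ) * ((a : ℂ) * (Complex.I * cis (a * ξ))) + ((v * β' : ℝ) : ℂ)

theorem rf_bb (a v β ξ f : ℝ) :
    rf (cis f) (bb a v β ξ) = (1 - v) * Real.cos (a * ξ - f) + v * β * Real.cos f := by
  rw [bb, rf_add, rf_real_mul, rf_cis, rf_ofReal, cis_re]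
  ring

theorem jf_bb (a v β ξ f : ℝ) :
    jf (cis f) (bb a v β ξ) = (1 - v) * Real.sin (a * ξ - f) - v * β * Real.sin f := by
  rw [bb, jf_add, jf_real_mul, jf_cis, jf_ofReal, cis_im]
  ring

theorem rf_db (a v β' ξ f : ℝ) :
    rf (cis f) (db a v β' ξ) = -((1 - v) * a * Real.sin (a * ξ - f)) + v * β' * Real.cos f := by
  rw [db, rf_add, rf_real_mul, rf_real_mul, rf_I_mul, jf_cis, rf_ofReal, cis_re]
  ring

theorem bb_re (a v β ξ : ℝ) : (bb a v β ξ).re = (1 - v) * Real.cos (a * ξ) + v * β := by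
  simp [bb]

/-- **STEP S4, pointwise.** -/
theorem s4 {ι ε V : Type*} [Fintype ι] [DecidableEq ι] [Fintype ε] [AddCommGroup V] [Module ℝ V]
    (L : V →ₗ[ℝ] ℂ) (ρ α : ι → V) (ρy αy : V) (i0 : ι)
    (D : ι → ℝ) (hD : ∀ i, 0 < D i) (n : ε → ι → ℝ)
    (hn : ∀ e i, 0 ≤ n e i) (hsum : ∀ e, ∑ i, n e i / D i = 1) (Q : ι → ℂ) (B : ε → ℝ)
    (hB : ∀ e, 0 ≤ B e) {a d P C S v β β' ξ : ℝ} (hd : d = a + 1) (ha : 1 ≤ a)
    (hP : P / D i0 = 1 / d) (hC : 0 < C) (hS : 0 ≤ S) (hv0 : 0 ≤ v) (hv1 : v ≤ 1)
    (hrad : ∀ i, L (ρ i) = (D i : ℂ) * Q i - ((∑ e, n e i * B e : ℝ) : ℂ) -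
      if i = i0 then ((P * S : ℝ) : ℂ) * bb a v β ξ else 0)
    (hρy : L ρy = ((d * C : ℝ) : ℂ) * cis (d * ξ) - ((a * S : ℝ) : ℂ) * bb a v β ξ)
    (hαy : L αy = ((d * C : ℝ) : ℂ) * (Complex.I * cis (d * ξ)) - ((S : ℝ) : ℂ) * db a v β' ξ)
    (hgood : ∀ i, i ≠ i0 → Q i = 0 ∨ Good (L (α i)) (Q i))
    (h0 : S ≠ 0 → (Q i0).re < 0 ∨ ∃ ψ : ℝ, ψ ≠ 0 ∧ L (α i0) = (ψ : ℂ) * (Complex.I * Q i0))
    (hzone : (|ξ| ≤ Real.pi / (2 * d) ∧ β = 1 ∧ β' = 0) ∨
      (Real.cos (d * ξ) < 0 ∧ 1 ≤ (2 * d - 1) * Real.cos (a * ξ) ∧ 0 ≤ β ∧ β ≤ 1) ∨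
      (β = 0 ∧ β' = 0 ∧ cis ξ ≠ 1))
    (hNC : ξ = 0 → d * C = a * S → P * S ≤ D i0 * (Q i0).re → False)
    (hre : 0 ≤ ∑ i, (Q i).re - ∑ e, B e + C * Real.cos (d * ξ) - S * (bb a v β ξ).re) :
    Function.Surjective L := by
  by_contra hL
  obtain ⟨u, hu, hu0, hconv⟩ := exists_conormal L hL
  obtain ⟨f, hf, rfl⟩ := exists_arg hu hu0
  have hdpos : 0 < d := by linarith
  have hapos : 0 < a := by linarith
  have hcf : 0 ≤ Real.cos f := hu0
  -- the equations in `y`
  have hR : d * C * Real.cos (d * ξ - f) = a * S * rf (cis f) (bb a v β ξ) := by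
    have h := hconv ρy
    rw [hρy, rf_sub, rf_real_mul, rf_real_mul, rf_cis] at h
    linarith
  have hA : d * C * Real.sin (d * ξ - f) = - (S * rf (cis f) (db a v β' ξ)) := by
    have h := hconv αy
    rw [hαy, rf_sub, rf_real_mul, rf_real_mul, rf_I_mul, jf_cis] at h
    linarith
  -- `S` is positive
  have hSpos : 0 < S := by
    rcases hS.lt_or_eq with h | h
    · exact h
    · exfalso
      rw [← h] at hR hA
      have h1 : Real.cos (d * ξ - f) = 0 := by
        have : d * C * Real.cos (d * ξ - f) = 0 := by rw [hR]; ring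
        exact (mul_eq_zero.1 this).resolve_left (mul_pos hdpos hC).ne'
      have h2 : Real.sin (d * ξ - f) = 0 := by
        have : d * C * Real.sin (d * ξ - f) = 0 := by rw [hA]; ring
        exact (mul_eq_zero.1 this).resolve_left (mul_pos hdpos hC).ne'
      have h3 := Real.sin_sq_add_cos_sq (d * ξ - f)
      rw [h1, h2] at h3
      norm_num at h3
  have h0' := h0 hSpos.ne'
  -- radial equations
  have hS' : ∀ i, 0 ≤ ∑ e, n e i * B e := fun i =>
    sum_nonneg fun e _ => mul_nonneg (hn e i) (hB e)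
  have hrf : ∀ i, D i * rf (cis f) (Q i) = Real.cos f * ∑ e, n e i * B e +
      if i = i0 then P * S * rf (cis f) (bb a v β ξ) else 0 := by
    intro i
    have h1 := hconv (ρ i)
    rw [hrad, rf_sub, rf_sub, rf_real_mul, rf_ofReal, cis_re] at h1
    by_cases hi : i = i0
    · rw [if_pos hi, rf_real_mul] at h1
      rw [if_pos hi]; linarith
    · rw [if_neg hi] at h1
      rw [if_neg hi]
      have : rf (cis f) 0 = 0 := by simp [rf]
      rw [this] at h1; linarith
  have hrf0 : ∀ i, i ≠ i0 → 0 ≤ rf (cis f) (Q i) := by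
    intro i hi
    by_contra h
    push Not at h
    have h1 := hrf i
    rw [if_neg hi] at h1
    have h2 := mul_nonneg hcf (hS' i)
    have h3 := mul_neg_of_pos_of_neg (hD i) h
    linarith
  have hrfi0 : 1 / d * S * rf (cis f) (bb a v β ξ) ≤ rf (cis f) (Q i0) := by
    have h1 := hrf i0
    rw [if_pos rfl] at h1
    have h2 := mul_nonneg hcf (hS' i0)
    rw [← hP]
    have h3 : D i0 * (P / D i0 * S * rf (cis f) (bb a v β ξ)) ≤ D i0 * rf (cis f) (Q i0) := by
      have e : D i0 * (P / D i0 * S * rf (cis f) (bb a v β ξ)) =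
          P * S * rf (cis f) (bb a v β ξ) := by
        have := (hD i0).ne'
        field_simp
      rw [e, h1]; linarith
    exact le_of_mul_le_mul_left h3 (hD i0)
  have hrfF : ∑ i, rf (cis f) (Q i) = Real.cos f * ∑ e, B e +
      1 / d * S * rf (cis f) (bb a v β ξ) := by
    have h1 : ∀ i, rf (cis f) (Q i) = Real.cos f * ∑ e, n e i / D i * B e +
        if i = i0 then 1 / d * S * rf (cis f) (bb a v β ξ) else 0 := by
      intro i
      have h2 := hrf i
      have h3 : ∑ e, n e i / D i * B e = (D i)⁻¹ * ∑ e, n e i * B e := by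
        rw [mul_sum]
        exact sum_congr rfl fun e _ => by ring
      have h4 : rf (cis f) (Q i) = (D i)⁻¹ * (D i * rf (cis f) (Q i)) := by
        rw [← mul_assoc, inv_mul_cancel₀ (hD i).ne', one_mul]
      rw [h4, h2, h3]
      by_cases hi : i = i0
      · rw [if_pos hi, if_pos hi, ← hP, hi]; ring
      · rw [if_neg hi, if_neg hi]; ring
    calc ∑ i, rf (cis f) (Q i) = ∑ i, (Real.cos f * ∑ e, n e i / D i * B e +
        if i = i0 then 1 / d * S * rf (cis f) (bb a v β ξ) else 0) := sum_congr rfl fun i _ => h1 i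
      _ = Real.cos f * ∑ e, (∑ i, n e i / D i) * B e + 1 / d * S * rf (cis f) (bb a v β ξ) := by
          rw [sum_add_distrib, ← mul_sum, sum_comm, sum_ite_eq' univ i0, if_pos (mem_univ _)]
          congr 2
          exact sum_congr rfl fun e _ => by rw [sum_mul]
      _ = _ := by simp only [hsum, one_mul]
  have hterm : ∀ i, i ≠ i0 → 0 ≤ Real.sin f * jf (cis f) (Q i) := by
    intro i hi
    rcases hgood i hi with h | h
    · rw [h]; simp [jf]
    · exact h (cis f) hu hu0 (hconv _) (hrf0 i hi)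
  have hsumre : ∑ i, (Q i).re = Real.cos f * ∑ i, rf (cis f) (Q i) -
      ∑ i, Real.sin f * jf (cis f) (Q i) := by
    rw [mul_sum, ← sum_sub_distrib]
    exact sum_congr rfl fun i _ => re_eq hu (Q i)
  have hB0 : 0 ≤ ∑ e, B e := sum_nonneg fun e _ => hB e
  have hsq : Real.cos f ^ 2 + Real.sin f ^ 2 = 1 := by
    have := Real.sin_sq_add_cos_sq f; linarith
  -- the `y` term
  set E : ℝ := Real.sin f * (C * Real.sin (d * ξ - f) - S * jf (cis f) (bb a v β ξ)) with hEdef
  have hyre : C * Real.cos (d * ξ) - S * (bb a v β ξ).re =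
      - (1 / d * S * (Real.cos f * rf (cis f) (bb a v β ξ))) - E := by
    have h1 := re_eq hu (cis (d * ξ))
    have h2 := re_eq hu (bb a v β ξ)
    rw [rf_cis, jf_cis] at h1
    rw [cis_re, cis_re, cis_im] at h1
    rw [cis_re, cis_im] at h2
    rw [h1, h2, hEdef]
    have h3 : C * Real.cos (d * ξ - f) = a / d * S * rf (cis f) (bb a v β ξ) := by
      have h0 : d * (C * Real.cos (d * ξ - f)) = d * (a / d * S * rf (cis f) (bb a v β ξ)) := by
        rw [← mul_assoc, hR]
        field_simp
      exact mul_left_cancel₀ hdpos.ne' h0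
    have h4 : C * (Real.cos f * Real.cos (d * ξ - f) - Real.sin f * Real.sin (d * ξ - f)) =
        Real.cos f * (a / d * S * rf (cis f) (bb a v β ξ)) -
          Real.sin f * (C * Real.sin (d * ξ - f)) := by
      rw [← h3]; ring
    rw [h4]
    have h5 : a / d = 1 - 1 / d := by
      have : a = d - 1 := by linarith
      rw [this]; field_simp
    rw [h5]; ring
  have hkey : Real.sin f ^ 2 * ∑ e, B e + ∑ i, Real.sin f * jf (cis f) (Q i) + E ≤ 0 := by
    have h1 : ∑ i, (Q i).re - ∑ e, B e + C * Real.cos (d * ξ) - S * (bb a v β ξ).re =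
        Real.cos f * (Real.cos f * ∑ e, B e + 1 / d * S * rf (cis f) (bb a v β ξ)) -
          ∑ i, Real.sin f * jf (cis f) (Q i) - ∑ e, B e -
          (1 / d * S * (Real.cos f * rf (cis f) (bb a v β ξ))) - E := by
      rw [hsumre, hrfF]; linarith
    rw [h1] at hre
    have h2 : Real.sin f ^ 2 * ∑ e, B e = ∑ e, B e - Real.cos f * (Real.cos f * ∑ e, B e) := by
      have h3 : Real.sin f ^ 2 = 1 - Real.cos f ^ 2 := by linarith
      rw [h3]; ring
    rw [h2]; linarith
  have hb0 : 0 ≤ Real.sin f ^ 2 * ∑ e, B e := mul_nonneg (sq_nonneg _) hB0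
  have hsplit : ∑ i, Real.sin f * jf (cis f) (Q i) =
      ∑ i ∈ univ.erase i0, Real.sin f * jf (cis f) (Q i) + Real.sin f * jf (cis f) (Q i0) :=
    (sum_erase_add univ _ (mem_univ i0)).symm
  have hrest : 0 ≤ ∑ i ∈ univ.erase i0, Real.sin f * jf (cis f) (Q i) :=
    sum_nonneg fun i hi => hterm i (ne_of_mem_erase hi)
  -- the variable `i0`
  have hi0 : 0 ≤ rf (cis f) (Q i0) → 0 ≤ Real.sin f * jf (cis f) (Q i0) := by
    intro h
    rcases h0' with h1 | ⟨ψ, hψ, h1⟩
    · exact (case_b hu hu0 h h1).le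
    · have h2 := hconv (α i0)
      rw [h1, rf_real_mul, rf_I_mul] at h2
      have : jf (cis f) (Q i0) = 0 := by
        rcases mul_eq_zero.1 h2 with h | h
        · exact absurd h hψ
        · linarith
      rw [this, mul_zero]
  rcases hzone with ⟨hz, hβ, hβ'⟩ | ⟨hz1, hz2, hz3, hz4⟩ | ⟨hβ, hβ', hz⟩
  · -- zone 1
    subst hβ hβ'
    have hR' : d * C * Real.cos (d * ξ - f) =
        a * S * ((1 - v) * Real.cos (a * ξ - f) + v * Real.cos f) := by
      rw [hR, rf_bb, mul_one]
    have hA' : d * C * Real.sin (d * ξ - f) = a * S * ((1 - v) * Real.sin (a * ξ - f)) := by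
      rw [hA, rf_db]; ring
    obtain ⟨k1, k2, k3⟩ := zone1 hd ha hC hSpos hv0 hv1 hz hf hR' hA'
    have hE : E = Real.sin f * (C * Real.sin (d * ξ - f) -
      S * ((1 - v) * Real.sin (a * ξ - f) - v * Real.sin f)) := by
      rw [hEdef, jf_bb, mul_one]
    have hrb : 0 ≤ rf (cis f) (bb a v 1 ξ) := by rw [rf_bb, mul_one]; exact k1
    have hq0 : 0 ≤ rf (cis f) (Q i0) := by
      refine le_trans ?_ hrfi0
      have : 0 ≤ 1 / d := by positivity
      exact mul_nonneg (mul_nonneg this hS) hrb
    have ht0 := hi0 hq0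
    rw [← hE] at k2 k3
    have hE0 : E = 0 := by linarith
    obtain ⟨rfl, rfl, hdC⟩ := k3 hE0
    refine hNC rfl hdC ?_
    have h1 := hrf i0
    rw [if_pos rfl, rf_bb] at h1
    have h2 : rf (cis 0) (Q i0) = (Q i0).re := by simp [rf]
    rw [h2] at h1
    simp only [Real.cos_zero, mul_zero, sub_zero, mul_one, one_mul] at h1
    have h3 := hS' i0
    have h4 : P * S * (1 - v + v) = P * S := by ring
    rw [h4] at h1
    linarith
  · -- zone 2
    have hcosa : 0 < Real.cos (a * ξ) := by
      have : 0 < 2 * d - 1 := by linarith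
      by_contra h
      push Not at h
      nlinarith
    have hbre : 0 ≤ (bb a v β ξ).re := by
      rw [bb_re]
      exact add_nonneg (mul_nonneg (by linarith) hcosa.le) (mul_nonneg hv0 hz3)
    have hE : E = - (C * Real.cos (d * ξ)) + S * (bb a v β ξ).re -
        1 / d * S * (Real.cos f * rf (cis f) (bb a v β ξ)) := by linarith
    have hCneg : 0 < - (C * Real.cos (d * ξ)) := by
      have := mul_neg_of_pos_of_neg hC hz1
      linarith
    by_cases hrb : 0 ≤ rf (cis f) (bb a v β ξ)
    · have hq0 : 0 ≤ rf (cis f) (Q i0) := by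
        refine le_trans ?_ hrfi0
        have : 0 ≤ 1 / d := by positivity
        exact mul_nonneg (mul_nonneg this hS) hrb
      have ht0 := hi0 hq0
      -- the estimate
      have hest : 1 / d * (Real.cos f * rf (cis f) (bb a v β ξ)) ≤ (bb a v β ξ).re := by
        rw [rf_bb, bb_re, one_div, inv_mul_le_iff₀ hdpos]
        exact zone2 (by linarith) hz2 hv0 hv1 hz3 hcf
      have : 1 / d * S * (Real.cos f * rf (cis f) (bb a v β ξ)) ≤ S * (bb a v β ξ).re := by
        calc 1 / d * S * (Real.cos f * rf (cis f) (bb a v β ξ)) =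
            S * (1 / d * (Real.cos f * rf (cis f) (bb a v β ξ))) := by ring
          _ ≤ S * (bb a v β ξ).re := mul_le_mul_of_nonneg_left hest hS
      linarith
    · push Not at hrb
      have hSb : 0 ≤ S * (bb a v β ξ).re := mul_nonneg hS hbre
      have hneg : 1 / d * S * (Real.cos f * rf (cis f) (bb a v β ξ)) ≤ 0 := by
        have h1 : 0 ≤ 1 / d * S := by positivity
        exact mul_nonpos_of_nonneg_of_nonpos h1 (mul_nonpos_of_nonneg_of_nonpos hcf hrb.le)
      rcases h0' with h1 | ⟨ψ, hψ, h1⟩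
      · have h2 := re_eq hu (Q i0)
        rw [cis_re, cis_im] at h2
        have h3 : Real.cos f * (1 / d * S * rf (cis f) (bb a v β ξ)) ≤
            Real.cos f * rf (cis f) (Q i0) := mul_le_mul_of_nonneg_left hrfi0 hcf
        have h4 : Real.cos f * (1 / d * S * rf (cis f) (bb a v β ξ)) =
            1 / d * S * (Real.cos f * rf (cis f) (bb a v β ξ)) := by ring
        linarith
      · have h2 := hconv (α i0)
        rw [h1, rf_real_mul, rf_I_mul] at h2
        have h3 : jf (cis f) (Q i0) = 0 := by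
          rcases mul_eq_zero.1 h2 with h | h
          · exact absurd h hψ
          · linarith
        rw [h3, mul_zero] at hsplit
        linarith
  · -- zone 3
    subst hβ hβ'
    have hR' : d * C * Real.cos (d * ξ - f) = a * S * ((1 - v) * Real.cos (a * ξ - f)) := by
      rw [hR, rf_bb]; ring
    have hA' : d * C * Real.sin (d * ξ - f) = a * S * ((1 - v) * Real.sin (a * ξ - f)) := by
      rw [hA, rf_db]; ring
    have e1 : ξ = (d * ξ - f) - (a * ξ - f) := by rw [hd]; ring
    have hsin : (d * C) * (a * S * (1 - v)) * Real.sin ξ = 0 := by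
      conv_lhs => rw [e1, Real.sin_sub]
      linear_combination (a * S * (1 - v)) * Real.cos (a * ξ - f) * hA' -
        (a * S * (1 - v)) * Real.sin (a * ξ - f) * hR'
    have hsq2 : (d * C) ^ 2 = (a * S * (1 - v)) ^ 2 := by
      have h1 := Real.sin_sq_add_cos_sq (d * ξ - f)
      have h2 := Real.sin_sq_add_cos_sq (a * ξ - f)
      linear_combination (-(d * C) ^ 2) * h1 + ((a * S * (1 - v)) ^ 2) * h2 +
        (d * C * Real.cos (d * ξ - f) + a * S * ((1 - v) * Real.cos (a * ξ - f))) * hR' +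
        (d * C * Real.sin (d * ξ - f) + a * S * ((1 - v) * Real.sin (a * ξ - f))) * hA'
    have hdC : 0 < d * C := mul_pos hdpos hC
    have hk : 0 ≤ a * S * (1 - v) := mul_nonneg (mul_nonneg hapos.le hS) (by linarith)
    have heq : d * C = a * S * (1 - v) := by nlinarith
    have hcos : (d * C) * (a * S * (1 - v)) * Real.cos ξ = (d * C) * (d * C) := by
      conv_lhs => rw [e1, Real.cos_sub]
      have h2 := Real.sin_sq_add_cos_sq (a * ξ - f)
      linear_combination (a * S * (1 - v)) * Real.cos (a * ξ - f) * hR' +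
        (a * S * (1 - v)) * Real.sin (a * ξ - f) * hA' + (a * S * (1 - v)) ^ 2 * h2 - hsq2
    rw [← heq] at hsin hcos
    apply hz
    refine Complex.ext ?_ ?_
    · rw [cis_re, Complex.one_re]
      exact mul_left_cancel₀ (mul_pos hdC hdC).ne' (by rw [mul_one]; exact hcos)
    · rw [cis_im, Complex.one_im]
      exact (mul_eq_zero.1 hsin).resolve_left (mul_pos hdC hdC).ne'

end Crest.Agent.R267.S4_407
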