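import Crest.Agent.R267.LobeDefs_407
import Crest.Agent.R267.HmE_951
import Crest.Agent.R267.AngB_739
import Crest.Agent.R267.S4_407

/-!
# Row 267 (helper407): tools for T3b (LobeDefs_407)
-/

set_option autoImplicit false
set_option linter.unusedSectionVars false

noncomputable section

open Set Filter Topology Finset
open Crest.Agent.R267.Ang_739 Crest.Agent.R267.Hm_951
open Crest.Agent.R267.LemL_951 hiding dg
open Crest.Agent.R267.Sys_808 Crest.Agent.R267.LobeDefs_407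

namespace Crest.Agent.R267.LobeKit_407

variable {n : ℕ}

/-! ### calculus of `GF` -/

section GFcalc

variable {Q : Fin (n + 1) → ℂ → ℂ} {g h : Fin n → ℂ → ℂ} {z : Fin (n + 1) → ℂ}

theorem hasFDerivAt_GF (hQ : ∀ i, DifferentiableAt ℝ (Q i) (z i))
    (hg : ∀ e : Fin n, DifferentiableAt ℝ (g e) (z e.castSucc))
    (hh : ∀ e : Fin n, DifferentiableAt ℝ (h e) (z e.succ)) :
    HasFDerivAt (GF Q g h)
      (∑ i, (fderiv ℝ (Q i) (z i)).comp (ContinuousLinearMap.proj (R := ℝ) (φ := fun _ => ℂ) i) -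
        ∑ e : Fin n, (g e (z e.castSucc) • (fderiv ℝ (h e) (z e.succ)).comp
            (ContinuousLinearMap.proj (R := ℝ) (φ := fun _ => ℂ) e.succ) +
          h e (z e.succ) • (fderiv ℝ (g e) (z e.castSucc)).comp
            (ContinuousLinearMap.proj (R := ℝ) (φ := fun _ => ℂ) e.castSucc))) z := by
  have hpr : ∀ i : Fin (n + 1), HasFDerivAt (fun z : Fin (n + 1) → ℂ => z i)
      (ContinuousLinearMap.proj (R := ℝ) (φ := fun _ => ℂ) i) z := fun i => hasFDerivAt_apply i z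
  exact (HasFDerivAt.fun_sum fun i _ => (hQ i).hasFDerivAt.comp z (hpr i)).sub
    (HasFDerivAt.fun_sum fun e _ => ((hg e).hasFDerivAt.comp z (hpr _)).mul
      ((hh e).hasFDerivAt.comp z (hpr _)))

theorem fderiv_GF_single (hQ : ∀ i, DifferentiableAt ℝ (Q i) (z i))
    (hg : ∀ e : Fin n, DifferentiableAt ℝ (g e) (z e.castSucc))
    (hh : ∀ e : Fin n, DifferentiableAt ℝ (h e) (z e.succ)) (i : Fin (n + 1)) (v : ℂ) :
    fderiv ℝ (GF Q g h) z (Pi.single i v) = fderiv ℝ (Q i) (z i) v -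
      ∑ e : Fin n, ((if e.castSucc = i then fderiv ℝ (g e) (z i) v * h e (z e.succ) else 0) +
        if e.succ = i then g e (z e.castSucc) * fderiv ℝ (h e) (z i) v else 0) := by
  rw [(hasFDerivAt_GF hQ hg hh).fderiv]
  have h1 : ∀ (j : Fin (n + 1)) (T : ℂ →L[ℝ] ℂ), T (Pi.single (M := fun _ => ℂ) i v j) =
      if j = i then T v else 0 := by
    intro j T
    by_cases hj : j = i
    · subst hj; rw [if_pos rfl, Pi.single_eq_same]
    · rw [if_neg hj, Pi.single_eq_of_ne hj, map_zero]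
  simp only [_root_.sub_apply, _root_.sum_apply, ContinuousLinearMap.comp_apply, _root_.add_apply,
    ContinuousLinearMap.proj_apply, _root_.smul_apply, smul_eq_mul, h1]
  congr 1
  · rw [Finset.sum_ite_eq' univ i]
    simp
  · refine Finset.sum_congr rfl fun e _ => ?_
    rw [add_comm]
    congr 1
    · split_ifs with h2
      · rw [h2]; ring
      · ring
    · split_ifs with h2
      · rw [h2]
      · ring

theorem fderiv_sum_single {L : (Fin (n + 1) → ℂ) →L[ℝ] ℂ} (w : Fin (n + 1) → ℂ) :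
    L w = ∑ i, L (Pi.single i (w i)) := by
  conv_lhs => rw [← Finset.univ_sum_single w]
  rw [map_sum]

end GFcalc

/-! ### planar pieces -/

theorem ph_congr {F : Type*} [AddCommGroup F] [Module ℝ F] {D D' : ℝ} {P : ℂ → F}
    (h : PH D P) (e : D = D') : PH D' P := e ▸ h

theorem ph_zero {F : Type*} [AddCommGroup F] [Module ℝ F] (D : ℝ) : PH D (0 : ℂ → F) :=
  fun r _ z => by simp

theorem ph_id : PH 1 (id : ℂ → ℂ) := fun r _ z => by
  rw [Real.rpow_one, Complex.real_smul]; rfl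

theorem ph_pow (k : ℕ) : PH (k : ℝ) fun z : ℂ => z ^ k := fun r _ z => by
  show ((r : ℂ) * z) ^ k = _ • z ^ k
  rw [mul_pow, Real.rpow_natCast, Complex.real_smul]; push_cast; rfl

theorem ph_const_mul {D : ℝ} {P : ℂ → ℂ} (h : PH D P) (c : ℂ) : PH D fun z => c * P z :=
  fun r hr z => by
    show c * P _ = _ • (c * P z)
    rw [h r hr z, Complex.real_smul, Complex.real_smul]; ring

theorem ph_const_mul' {D : ℝ} {P : ℂ → ℝ} (h : PH D P) (c : ℝ) : PH D fun z => c * P z :=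
  fun r hr z => by
    show c * P _ = _ • (c * P z)
    rw [h r hr z, smul_eq_mul, smul_eq_mul]; ring

theorem ph_ofReal {D : ℝ} {P : ℂ → ℝ} (h : PH D P) : PH D fun z => (P z : ℂ) := fun r hr z => by
  show ((P _ : ℝ) : ℂ) = _ • ((P z : ℝ) : ℂ)
  rw [h r hr z, Complex.real_smul, smul_eq_mul]; push_cast; ring

theorem ph_sub {D : ℝ} {P P' : ℂ → ℂ} (h : PH D P) (h' : PH D P') : PH D fun z => P z - P' z :=
  fun r hr z => by
    show P _ - P' _ = _ • (P z - P' z)
    rw [h r hr z, h' r hr z, smul_sub]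

theorem ph_npow {D : ℝ} {P : ℂ → ℂ} (h : PH D P) (k : ℕ) : PH (D * k) fun z => P z ^ k :=
  fun r hr z => by
    show P _ ^ k = _ • P z ^ k
    rw [h r hr z, Complex.real_smul, mul_pow, Real.rpow_mul hr.le, Real.rpow_natCast,
      Complex.real_smul]
    push_cast; rfl

/-- a homogeneous function of degree `> 1` has derivative `0` at `0`. -/
theorem ph_fderiv_zero {F : Type*} [NormedAddCommGroup F] [NormedSpace ℝ F] {D : ℝ} {P : ℂ → F}
    (h : PH D P) (hD : 1 < D) (hd : DifferentiableAt ℝ P 0) : fderiv ℝ P 0 = 0 := by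
  ext v
  have h0 : P 0 = 0 := h.zero (by linarith)
  have h1 : HasDerivAt (fun r : ℝ => P ((r : ℂ) * v)) (fderiv ℝ P 0 v) 0 := by
    have h2 : HasDerivAt (fun r : ℝ => (r : ℂ) * v) v 0 := by
      have h3 : HasDerivAt (fun r : ℝ => (r : ℂ)) 1 0 := Complex.ofRealCLM.hasDerivAt
      simpa using h3.mul_const v
    have h4 : HasFDerivAt P (fderiv ℝ P 0) (((0 : ℝ) : ℂ) * v) := by
      rw [Complex.ofReal_zero, zero_mul]; exact hd.hasFDerivAt
    exact h4.comp_hasDerivAt (0 : ℝ) h2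
  have h2 : HasDerivAt (fun r : ℝ => (r ^ D) • P v) 0 0 := by
    have h5 := (Real.hasDerivAt_rpow_const (x := 0) (p := D) (Or.inr hD.le)).smul_const (P v)
    rwa [Real.zero_rpow (by linarith), mul_zero, zero_smul] at h5
  have h3 : HasDerivWithinAt (fun r : ℝ => P ((r : ℂ) * v)) 0 (Ici 0) 0 := by
    refine h2.hasDerivWithinAt.congr (fun r hr => ?_) ?_
    · rcases (mem_Ici.1 hr).eq_or_lt with h6 | h6
      · rw [← h6, Complex.ofReal_zero, zero_mul, h0, Real.zero_rpow (by linarith), zero_smul]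
      · exact h r h6 v
    · rw [Complex.ofReal_zero, zero_mul, h0, Real.zero_rpow (by linarith), zero_smul]
  have h4 := (uniqueDiffOn_Ici (0 : ℝ) 0 self_mem_Ici).eq_deriv _ h1.hasDerivWithinAt h3
  simpa using h4

theorem arg_hom {r : ℝ} (hr : 0 < r) (z : ℂ) : Complex.arg ((r : ℂ) * z) = Complex.arg z :=
  Complex.arg_real_mul _ hr

/-- polar functions of degree `> 2` are `C²` everywhere -/
theorem contDiff_pol {F : Type*} [NormedAddCommGroup F] [NormedSpace ℝ F] {D : ℝ} (hD : 2 < D)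
    {q : ℝ → F} (hper : Per q) (hq : ContDiff ℝ 2 q) : ContDiff ℝ 2 (pol D q) := by
  have h1 : ContDiffOn ℝ 2 (fun p : ℝ × ℂ => ‖p.2‖ ^ D • q (Complex.arg p.2))
      ((univ : Set ℝ) ×ˢ (univ : Set ℂ)) := by
    refine contDiffOn_rpow_smul (T := univ) isOpen_univ (D := fun _ => D) contDiffOn_const
      (fun _ _ => hD) (q := fun p : ℝ × ℂ => q (Complex.arg p.2)) ?_ fun t _ r hr z => ?_
    · exact contDiffOn_ang2 (q := fun p : ℝ × ℝ => q p.2) (fun _ => hper) isOpen_univ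
        (hq.comp contDiff_snd).contDiffOn
    · show q _ = q _
      rw [arg_hom hr]
  rw [univ_prod_univ, contDiffOn_univ] at h1
  exact h1.comp (f := fun z : ℂ => ((0 : ℝ), z)) (contDiff_const.prodMk contDiff_id)

theorem differentiable_pol {F : Type*} [NormedAddCommGroup F] [NormedSpace ℝ F] {D : ℝ}
    (hD : 2 < D) {q : ℝ → F} (hper : Per q) (hq : ContDiff ℝ 2 q) :
    Differentiable ℝ (pol D q) := (contDiff_pol hD hper hq).differentiable (by norm_num)

/-- a level function composed with a phase is periodic -/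
theorem lev_comp_per {d : ℕ} {l φ : ℝ → ℝ} (h : Lev d l) (hφ : Deg d φ) :
    Per fun x => l (φ x) := fun x => by
  show l (φ (x + 2 * Real.pi)) = l (φ x)
  rw [hφ x, h.per]

theorem lev_periodic {d : ℕ} {l : ℝ → ℝ} (h : Lev d l) : Function.Periodic l (2 * Real.pi * d) :=
  h.per

theorem lev_per_int {d : ℕ} {l : ℝ → ℝ} (h : Lev d l) (x : ℝ) (q : ℤ) :
    l (x - q * (2 * Real.pi * d)) = l x := (lev_periodic h).sub_int_mul_eq q

/-- every level with `cos ≥ 0` belongs to a lobe -/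
theorem exists_lobe {d : ℕ} (hd : 0 < d) {x : ℝ} (hx : 0 ≤ Real.cos x) :
    ∃ (q : ℤ) (k : ℕ), k < d ∧
      |x - q * (2 * Real.pi * d) - 2 * Real.pi * (k + 1)| ≤ Real.pi / 2 := by
  -- nearest multiple of `2π`
  have hpi := Real.pi_pos
  have h2pi : (0 : ℝ) < 2 * Real.pi := by positivity
  obtain ⟨K, hK⟩ : ∃ K : ℤ, |x - K * (2 * Real.pi)| ≤ Real.pi / 2 := by
    have hm := toIocMod_mem_Ioc h2pi (-Real.pi) x
    have he : x - toIocDiv h2pi (-Real.pi) x • (2 * Real.pi) = toIocMod h2pi (-Real.pi) x := rfl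
    refine ⟨toIocDiv h2pi (-Real.pi) x, ?_⟩
    rw [zsmul_eq_mul] at he
    rw [he]
    have hcos : Real.cos (toIocMod h2pi (-Real.pi) x) = Real.cos x := by
      rw [← he]
      exact Real.cos_periodic.sub_int_mul_eq _
    set y := toIocMod h2pi (-Real.pi) x with hy
    have hy1 : -Real.pi < y := hm.1
    have hy2 : y ≤ Real.pi := by have := hm.2; linarith
    rw [abs_le]
    rw [← hcos] at hx
    constructor
    · by_contra hc
      push Not at hc
      have : Real.cos y < 0 := by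
        rw [← Real.cos_neg]
        exact Real.cos_neg_of_pi_div_two_lt_of_lt (by linarith) (by linarith)
      linarith
    · by_contra hc
      push Not at hc
      have : Real.cos y < 0 := Real.cos_neg_of_pi_div_two_lt_of_lt (by linarith) (by linarith)
      linarith
  refine ⟨(K - 1) / d, ((K - 1) % d).toNat, ?_, ?_⟩
  · have h1 : 0 ≤ (K - 1) % (d : ℤ) := Int.emod_nonneg _ (by positivity)
    have h2 : (K - 1) % (d : ℤ) < d := Int.emod_lt_of_pos _ (by exact_mod_cast hd)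
    omega
  · have h1 : 0 ≤ (K - 1) % (d : ℤ) := Int.emod_nonneg _ (by positivity)
    have h3 : ((((K - 1) % (d : ℤ)).toNat : ℕ) : ℝ) = (((K - 1) % (d : ℤ) : ℤ) : ℝ) := by
      have : ((((K - 1) % (d : ℤ)).toNat : ℕ) : ℤ) = (K - 1) % (d : ℤ) := Int.toNat_of_nonneg h1
      exact_mod_cast this
    have h4 : (d : ℤ) * ((K - 1) / d) + (K - 1) % d = K - 1 := Int.mul_ediv_add_emod _ _
    have h5 : (d : ℝ) * (((K - 1) / (d : ℤ) : ℤ) : ℝ) + (((K - 1) % (d : ℤ) : ℤ) : ℝ) = K - 1 := by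
      exact_mod_cast h4
    have h6 : x - (((K - 1) / (d : ℤ) : ℤ) : ℝ) * (2 * Real.pi * d) -
        2 * Real.pi * (((((K - 1) % (d : ℤ)).toNat : ℕ) : ℝ) + 1) = x - K * (2 * Real.pi) := by
      rw [h3]
      linear_combination (-(2 * Real.pi)) * h5
    rw [h6]
    exact hK

/-- a level function with a pattern takes the values `0, 1` where `cos ≥ 0` -/
theorem lev_val {d : ℕ} (hd : 0 < d) {l : ℝ → ℝ} (h : Lev d l) {p : ℕ → Prop} [DecidablePred p]
    (hp : ∀ k < d, ∀ x : ℝ, |x - 2 * Real.pi * (k + 1)| ≤ Real.pi / 2 → l x = if p k then 1 else 0)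
    {x : ℝ} (hx : 0 ≤ Real.cos x) : l x = 0 ∨ l x = 1 := by
  obtain ⟨q, k, hk, h1⟩ := exists_lobe hd hx
  have h2 := hp k hk _ h1
  rw [lev_per_int h] at h2
  rw [h2]
  split_ifs
  · exact Or.inr rfl
  · exact Or.inl rfl

/-! ### the pieces of lobe data -/

theorem pha_pos {d : ℕ} {φ : ℝ → ℝ} (h : Pha d φ) : 0 < d := by
  have h1 : StrictMono φ := strictMono_of_deriv_pos h.pos
  have h2 : φ 0 < φ (0 + 2 * Real.pi) := h1 (by have := Real.pi_pos; linarith)
  rw [h.deg 0] at h2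
  rcases Nat.eq_zero_or_pos d with h3 | h3
  · rw [h3] at h2; simp at h2
  · exact h3

theorem pha_hasDerivAt {d : ℕ} {φ : ℝ → ℝ} (h : Pha d φ) (x : ℝ) : HasDerivAt φ (deriv φ x) x :=
  ((h.smooth.differentiable (by norm_num)) x).hasDerivAt

theorem pha_per {d : ℕ} {φ : ℝ → ℝ} (h : Pha d φ) (ep : ℝ) :
    Per fun x => (ep : ℂ) * cis (φ x) := h.deg.per ep

theorem contDiff_epscis {φ : ℝ → ℝ} (h : ContDiff ℝ 2 φ) (ep : ℝ) :
    ContDiff ℝ 2 fun x => (ep : ℂ) * cis (φ x) :=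
  contDiff_const.mul (contDiff_cis.comp h)

theorem contDiff_pc {D ep : ℝ} {d : ℕ} {φ : ℝ → ℝ} (hD : 2 < D) (h : Pha d φ) :
    ContDiff ℝ 2 (pc D ep φ) := contDiff_pol hD (pha_per h ep) (contDiff_epscis h.smooth ep)

theorem cis_re (x : ℝ) : (cis x).re = Real.cos x := Complex.exp_ofReal_mul_I_re x

theorem cis_im (x : ℝ) : (cis x).im = Real.sin x := Complex.exp_ofReal_mul_I_im x

theorem cis_eq_S4 (x : ℝ) : cis x = S4_407.cis x :=
  Complex.ext (by rw [cis_re, S4_407.cis_re]) (by rw [cis_im, S4_407.cis_im])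

section Pieces

variable {X : LD n} {a : Fin (n + 1) → ℕ} {j : ℕ} {i : Fin (n + 1)} {e : Fin n} {z : ℂ}

theorem Q_ph (X : LD n) (i : Fin (n + 1)) : PH (X.D i) (X.Q i) := pc_hom _ _ _

theorem h_ph (X : LD n) (e : Fin n) : PH (X.m e) (X.h e) := pol_hom _ _

theorem g_ph (X : LD n) (e : Fin n) : PH (X.p e) (X.g e) :=
  ph_const_mul' (P := pol (X.p e) fun x => X.lam e (X.ph e.castSucc x)) (pol_hom _ _) _

theorem Q_contDiff (hX : X.Ok a j) (hi : (i : ℕ) ≤ j) : ContDiff ℝ 2 (X.Q i) :=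
  contDiff_pc (hX.hD i hi) (hX.hph i hi)

theorem lt_succ (he : (e : ℕ) < j) : ((e.succ : Fin (n + 1)) : ℕ) ≤ j := by
  rw [Fin.val_succ]; omega

theorem le_cast (he : (e : ℕ) < j) : ((e.castSucc : Fin (n + 1)) : ℕ) ≤ j := by
  rw [Fin.val_castSucc]; omega

theorem h_contDiff (hX : X.Ok a j) (he : (e : ℕ) < j) : ContDiff ℝ 2 (X.h e) :=
  contDiff_pol (hX.hm e he) (lev_comp_per (hX.hbet e he) (hX.hph _ (lt_succ he)).deg)
    ((hX.hbet e he).smooth.comp (hX.hph _ (lt_succ he)).smooth)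

theorem g_contDiff (hX : X.Ok a j) (he : (e : ℕ) < j) : ContDiff ℝ 2 (X.g e) :=
  contDiff_const.mul (contDiff_pol (hX.hp e he)
    (lev_comp_per (hX.hlam e he) (hX.hph _ (le_cast he)).deg)
    ((hX.hlam e he).smooth.comp (hX.hph _ (le_cast he)).smooth))

theorem Q_diff (hX : X.Ok a j) (hi : (i : ℕ) ≤ j) : Differentiable ℝ (X.Q i) :=
  (Q_contDiff hX hi).differentiable (by norm_num)

theorem h_diff (hX : X.Ok a j) (he : (e : ℕ) < j) : Differentiable ℝ (X.h e) :=
  (h_contDiff hX he).differentiable (by norm_num)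

theorem g_diff (hX : X.Ok a j) (he : (e : ℕ) < j) : Differentiable ℝ (X.g e) :=
  (g_contDiff hX he).differentiable (by norm_num)

theorem Q_eq (X : LD n) (i : Fin (n + 1)) (z : ℂ) :
    X.Q i z = ((X.ep i * ‖z‖ ^ X.D i : ℝ) : ℂ) * cis (X.ph i (Complex.arg z)) := by
  unfold LD.Q pc pol
  rw [Complex.real_smul]; push_cast; ring

theorem Q_re (X : LD n) (i : Fin (n + 1)) (z : ℂ) :
    (X.Q i z).re = X.ep i * ‖z‖ ^ X.D i * Real.cos (X.ph i (Complex.arg z)) := by
  rw [Q_eq, Complex.re_ofReal_mul, cis_re]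

theorem Q_im (X : LD n) (i : Fin (n + 1)) (z : ℂ) :
    (X.Q i z).im = X.ep i * ‖z‖ ^ X.D i * Real.sin (X.ph i (Complex.arg z)) := by
  rw [Q_eq, Complex.im_ofReal_mul, cis_im]

theorem Q_norm (hX : X.Ok a j) (hi : (i : ℕ) ≤ j) (z : ℂ) : ‖X.Q i z‖ = X.ep i * ‖z‖ ^ X.D i :=
  norm_pc (hX.hep i hi).le _ _

theorem Q_ne (hX : X.Ok a j) (hi : (i : ℕ) ≤ j) (hz : z ≠ 0) : X.Q i z ≠ 0 :=
  pc_ne (hX.hep i hi) _ hz

theorem epn_pos (hX : X.Ok a j) (hi : (i : ℕ) ≤ j) (hz : z ≠ 0) : 0 < X.ep i * ‖z‖ ^ X.D i :=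
  mul_pos (hX.hep i hi) (Real.rpow_pos_of_pos (norm_pos_iff.2 hz) _)

theorem cos_of_re (hX : X.Ok a j) (hi : (i : ℕ) ≤ j) (hz : z ≠ 0) (h : 0 ≤ (X.Q i z).re) :
    0 ≤ Real.cos (X.ph i (Complex.arg z)) := by
  rw [Q_re] at h
  exact (mul_nonneg_iff_of_pos_left (epn_pos hX hi hz)).1 h

theorem Q_cases (hX : X.Ok a j) (hi : (i : ℕ) ≤ j) (hz : z ≠ 0) :
    (X.Q i z).re < 0 ∨ 0 ≤ Real.cos (X.ph i (Complex.arg z)) := by
  rcases lt_or_ge (X.Q i z).re 0 with h | h
  · exact Or.inl h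
  · exact Or.inr (cos_of_re hX hi hz h)

theorem fderiv_Q_I (hX : X.Ok a j) (hi : (i : ℕ) ≤ j) (hz : z ≠ 0) :
    fderiv ℝ (X.Q i) z (Complex.I * z) =
      ((deriv (X.ph i) (Complex.arg z) : ℝ) : ℂ) * (Complex.I * X.Q i z) :=
  fderiv_pc_I (hX.hph i hi).deg hz (pha_hasDerivAt (hX.hph i hi) _)

theorem good_Q (hX : X.Ok a j) (hi : (i : ℕ) ≤ j) (hz : z ≠ 0) :
    Good2 (fderiv ℝ (X.Q i) z (Complex.I * z)) (X.Q i z) := by
  rw [fderiv_Q_I hX hi hz]
  exact good2_of_rot ((hX.hph i hi).pos _).ne'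

theorem deriv_lev_comp {d : ℕ} {l φ : ℝ → ℝ} (hl : Lev d l) (hφ : Pha d φ) {x : ℝ}
    (hx : 0 ≤ Real.cos (φ x)) : HasDerivAt (fun x => l (φ x)) 0 x := by
  have h1 : HasDerivAt l (deriv l (φ x)) (φ x) :=
    ((hl.smooth.differentiable (by norm_num)) _).hasDerivAt
  have h2 := h1.comp x (pha_hasDerivAt hφ x)
  rw [hl.flat _ hx, zero_mul] at h2
  exact h2

theorem fderiv_h_I (hX : X.Ok a j) (he : (e : ℕ) < j) (hz : z ≠ 0)
    (hc : 0 ≤ Real.cos (X.ph e.succ (Complex.arg z))) :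
    fderiv ℝ (X.h e) z (Complex.I * z) = 0 := by
  have h1 := fderiv_pol_I (X.m e) (lev_comp_per (hX.hbet e he) (hX.hph _ (lt_succ he)).deg) hz
    (deriv_lev_comp (hX.hbet e he) (hX.hph _ (lt_succ he)) hc)
  rw [smul_zero] at h1
  exact h1

theorem fderiv_g_I (hX : X.Ok a j) (he : (e : ℕ) < j) (hz : z ≠ 0)
    (hc : 0 ≤ Real.cos (X.ph e.castSucc (Complex.arg z))) :
    fderiv ℝ (X.g e) z (Complex.I * z) = 0 := by
  have h1 := fderiv_pol_I (X.p e) (lev_comp_per (hX.hlam e he) (hX.hph _ (le_cast he)).deg) hz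
    (deriv_lev_comp (hX.hlam e he) (hX.hph _ (le_cast he)) hc)
  rw [smul_zero] at h1
  have h2 : X.g e = fun z => X.c e * pol (X.p e) (fun x => X.lam e (X.ph e.castSucc x)) z := rfl
  have h3 : DifferentiableAt ℝ (pol (X.p e) fun x => X.lam e (X.ph e.castSucc x)) z :=
    (contDiff_pol (hX.hp e he) (lev_comp_per (hX.hlam e he) (hX.hph _ (le_cast he)).deg)
    ((hX.hlam e he).smooth.comp (hX.hph _ (le_cast he)).smooth)).differentiable (by norm_num) z
  rw [h2, fderiv_const_mul h3, _root_.smul_apply, h1, smul_zero]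

theorem pol_nonneg {D : ℝ} {q : ℝ → ℝ} (h : ∀ x, 0 ≤ q x) (z : ℂ) : 0 ≤ pol D q z :=
  mul_nonneg (Real.rpow_nonneg (norm_nonneg _) _) (h _)

theorem h_nonneg (hX : X.Ok a j) (he : (e : ℕ) < j) (z : ℂ) : 0 ≤ X.h e z :=
  pol_nonneg (fun _ => (hX.hbet e he).nn _) z

theorem g_nonneg (hX : X.Ok a j) (he : (e : ℕ) < j) (z : ℂ) : 0 ≤ X.g e z :=
  mul_nonneg (hX.hc e he).le (pol_nonneg (fun _ => (hX.hlam e he).nn _) z)

theorem h_val (hX : X.Ok a j) (he : (e : ℕ) < j)
    (hc : 0 ≤ Real.cos (X.ph e.succ (Complex.arg z))) : X.h e z = 0 ∨ X.h e z = ‖z‖ ^ X.m e := by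
  rcases lev_val (pha_pos (hX.hph _ (lt_succ he))) (hX.hbet e he)
    (p := fun k => k + 1 = dg a e.succ) (hX.bet1 e he) hc with h | h
  · left
    show ‖z‖ ^ X.m e * X.bet e (X.ph e.succ z.arg) = 0
    rw [h, mul_zero]
  · right
    show ‖z‖ ^ X.m e * X.bet e (X.ph e.succ z.arg) = _
    rw [h, mul_one]

theorem g_val (hX : X.Ok a j) (he : (e : ℕ) < j)
    (hc : 0 ≤ Real.cos (X.ph e.castSucc (Complex.arg z))) :
    X.g e z = 0 ∨ X.g e z = X.c e * ‖z‖ ^ X.p e := by
  rcases lev_val (pha_pos (hX.hph _ (le_cast he))) (hX.hlam e he)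
    (p := fun k => dg a e.succ ≤ k) (hX.lam1 e he) hc with h | h
  · left
    show X.c e * (‖z‖ ^ X.p e * X.lam e (X.ph e.castSucc z.arg)) = 0
    rw [h, mul_zero, mul_zero]
  · right
    show X.c e * (‖z‖ ^ X.p e * X.lam e (X.ph e.castSucc z.arg)) = _
    rw [h, mul_one]

end Pieces

/-! ### LEMMA L for `X.tr` -/

theorem nc_num {D D' p m c e1 e2 rx ry : ℝ} (hD : 0 < D) (hD' : 0 < D') (hp : 0 < p) (hm : 0 < m)
    (hsum : p / D + m / D' = 1) (hc : 0 < c) (h1 : 0 < e1) (h2 : 0 < e2) (hx : 0 < rx)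
    (hy : 0 < ry)
    (hNC : e1 ^ (p / D) * e2 ^ (m / D') < (p / D) ^ (p / D) * (m / D') ^ (m / D') * c)
    (i1 : p * (c * rx ^ p * ry ^ m) ≤ D * (e1 * rx ^ D))
    (i2 : m * (c * rx ^ p * ry ^ m) ≤ D' * (e2 * ry ^ D')) : False := by
  set θ : ℝ := p / D with hθ
  set η : ℝ := m / D' with hη
  have hθ0 : 0 < θ := div_pos hp hD
  have hη0 : 0 < η := div_pos hm hD'
  have hxp : 0 < rx ^ p := Real.rpow_pos_of_pos hx _
  have hym : 0 < ry ^ m := Real.rpow_pos_of_pos hy _
  have hxD : 0 < rx ^ D := Real.rpow_pos_of_pos hx _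
  have hyD : 0 < ry ^ D' := Real.rpow_pos_of_pos hy _
  set B : ℝ := c * rx ^ p * ry ^ m with hB
  have hBpos : 0 < B := by positivity
  have e1' : θ * B ≤ e1 * rx ^ D := by
    rw [hθ, div_mul_eq_mul_div, div_le_iff₀ hD]
    linarith
  have e2' : η * B ≤ e2 * ry ^ D' := by
    rw [hη, div_mul_eq_mul_div, div_le_iff₀ hD']
    linarith
  have e3 : (θ * B) ^ θ * (η * B) ^ η ≤ (e1 * rx ^ D) ^ θ * (e2 * ry ^ D') ^ η :=
    mul_le_mul (Real.rpow_le_rpow (by positivity) e1' hθ0.le)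
      (Real.rpow_le_rpow (by positivity) e2' hη0.le) (by positivity) (by positivity)
  have e4 : (θ * B) ^ θ * (η * B) ^ η = θ ^ θ * η ^ η * B := by
    rw [Real.mul_rpow hθ0.le hBpos.le, Real.mul_rpow hη0.le hBpos.le]
    have : B ^ θ * B ^ η = B := by rw [← Real.rpow_add hBpos, hsum, Real.rpow_one]
    calc θ ^ θ * B ^ θ * (η ^ η * B ^ η) = θ ^ θ * η ^ η * (B ^ θ * B ^ η) := by ring
      _ = _ := by rw [this]
  have e5 : (e1 * rx ^ D) ^ θ * (e2 * ry ^ D') ^ η = (e1 ^ θ * e2 ^ η) * (rx ^ p * ry ^ m) := by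
    rw [Real.mul_rpow h1.le hxD.le, Real.mul_rpow h2.le hyD.le, ← Real.rpow_mul hx.le,
      ← Real.rpow_mul hy.le, hθ, hη, mul_div_cancel₀ p hD.ne', mul_div_cancel₀ m hD'.ne']
    ring
  rw [e4, e5] at e3
  have e6 : θ ^ θ * η ^ η * B = (θ ^ θ * η ^ η * c) * (rx ^ p * ry ^ m) := by rw [hB]; ring
  rw [e6] at e3
  have := le_of_mul_le_mul_right e3 (mul_pos hxp hym)
  linarith

/-- the planar functions of `X.tr j R` -/
def trQ (X : LD n) (j : ℕ) (R : ℂ → ℂ) (i : Fin (n + 1)) : ℂ → ℂ :=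
  if (i : ℕ) < j then X.Q i else if (i : ℕ) = j then R else 0

def trg (X : LD n) (j : ℕ) (e : Fin n) : ℂ → ℝ := if (e : ℕ) < j then X.g e else 0

def trh (X : LD n) (j : ℕ) (e : Fin n) : ℂ → ℝ := if (e : ℕ) < j then X.h e else 0

theorem tr_eq (X : LD n) (j : ℕ) (R : ℂ → ℂ) :
    X.tr j R = lobB (trQ X j R) (prodB Fin.castSucc Fin.succ (trg X j) (trh X j)) := by
  funext z
  unfold LD.tr GF lobB prodB
  rw [Complex.ofReal_sum]
  congr 1
  refine Finset.sum_congr rfl fun e _ => ?_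
  unfold trg trh
  by_cases h : (e : ℕ) < j
  · simp only [h, if_true, Complex.ofReal_mul]
  · simp [h]

theorem trP (a : Fin (n + 1) → ℕ) (j : Fin (n + 1)) : TrP a j := by
  intro X R hX hR hRd hcond hnc z hz hz0 hre
  rw [tr_eq] at hre ⊢
  set D : Fin (n + 1) → ℝ := fun i => if (i : ℕ) ≤ j then X.D i else 1 with hDdef
  have hDpos : ∀ i, 0 < D i := by
    intro i
    show 0 < if (i : ℕ) ≤ j then X.D i else 1
    split_ifs with h
    · have := hX.hD i h; linarith
    · exact one_pos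
  have hDle : ∀ i : Fin (n + 1), (i : ℕ) ≤ j → D i = X.D i := fun i h => if_pos h
  have hQlt : ∀ i : Fin (n + 1), (i : ℕ) < j → trQ X j R i = X.Q i := fun i h => if_pos h
  have hQeq : trQ X j R j = R := by unfold trQ; rw [if_neg (lt_irrefl _), if_pos rfl]
  have hQgt : ∀ i : Fin (n + 1), (j : ℕ) < i → trQ X j R i = 0 := fun i h => by
    unfold trQ; rw [if_neg (by omega), if_neg (by omega)]
  have hglt : ∀ e : Fin n, (e : ℕ) < j → trg X j e = X.g e := fun e h => if_pos h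
  have hhlt : ∀ e : Fin n, (e : ℕ) < j → trh X j e = X.h e := fun e h => if_pos h
  have hgge : ∀ e : Fin n, ¬ (e : ℕ) < j → trg X j e = 0 := fun e h => if_neg h
  have hhge : ∀ e : Fin n, ¬ (e : ℕ) < j → trh X j e = 0 := fun e h => if_neg h
  refine chain_reg (D := D) (p := fun e => if (e : ℕ) < j then X.p e else D e.castSucc / 2)
    (m := fun e => if (e : ℕ) < j then X.m e else D e.succ / 2) hDpos ?_ ?_ ?_ ?_ ?_ ?_ ?_ ?_ ?_ ?_
    ?_ ?_ hz ?_ hre
  · intro e
    show 0 < if (e : ℕ) < j then X.p e else D e.castSucc / 2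
    split_ifs with h
    · have := hX.hp e h; linarith
    · exact half_pos (hDpos _)
  · intro e
    show 0 < if (e : ℕ) < j then X.m e else D e.succ / 2
    split_ifs with h
    · have := hX.hm e h; linarith
    · exact half_pos (hDpos _)
  · intro e
    show (if (e : ℕ) < j then X.p e else D e.castSucc / 2) / D e.castSucc +
      (if (e : ℕ) < j then X.m e else D e.succ / 2) / D e.succ = 1
    split_ifs with h
    · rw [hDle _ (le_cast h), hDle _ (lt_succ h)]
      exact hX.sum e h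
    · have h1 := (hDpos e.castSucc).ne'
      have h2 := (hDpos e.succ).ne'
      field_simp
      norm_num
  · intro i
    rcases lt_trichotomy (i : ℕ) j with h | h | h
    · rw [hQlt i h, hDle i h.le]; exact Q_ph X i
    · have h' : i = j := Fin.ext h
      rw [h', hQeq, hDle j le_rfl]; exact hR
    · rw [hQgt i h]; exact ph_zero _
  · intro e
    by_cases h : (e : ℕ) < j
    · rw [hglt e h]
      simp only [if_pos h]
      exact g_ph X e
    · rw [hgge e h]; exact ph_zero _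
  · intro e
    by_cases h : (e : ℕ) < j
    · rw [hhlt e h]
      simp only [if_pos h]
      exact h_ph X e
    · rw [hhge e h]; exact ph_zero _
  · intro i
    rcases lt_trichotomy (i : ℕ) j with h | h | h
    · rw [hQlt i h]; exact Q_diff hX h.le _
    · have h' : i = j := Fin.ext h
      rw [h', hQeq]; exact hRd _
    · rw [hQgt i h]; exact differentiableAt_const _
  · intro e
    by_cases h : (e : ℕ) < j
    · rw [hglt e h]; exact g_diff hX h _
    · rw [hgge e h]; exact differentiableAt_const _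
  · intro e
    by_cases h : (e : ℕ) < j
    · rw [hhlt e h]; exact h_diff hX h _
    · rw [hhge e h]; exact differentiableAt_const _
  · intro e x
    by_cases h : (e : ℕ) < j
    · rw [hglt e h]; exact g_nonneg hX h _
    · rw [hgge e h]; exact le_rfl
  · intro e x
    by_cases h : (e : ℕ) < j
    · rw [hhlt e h]; exact h_nonneg hX h _
    · rw [hhge e h]; exact le_rfl
  · intro i hi
    rcases lt_trichotomy (i : ℕ) j with h | h | h
    · right
      rw [hQlt i h]
      refine ⟨Q_ne hX h.le hi, ?_⟩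
      rcases Q_cases hX h.le hi with h1 | h1
      · exact Or.inl h1
      · right
        refine ⟨Complex.I * z i, fun e he => ?_, fun e he => ?_, good_Q hX h.le hi⟩
        · by_cases h2 : (e : ℕ) < j
          · rw [hglt e h2]
            subst he
            exact fderiv_g_I hX h2 hi h1
          · rw [hgge e h2, fderiv_zero]; rfl
        · by_cases h2 : (e : ℕ) < j
          · rw [hhlt e h2]
            subst he
            exact fderiv_h_I hX h2 hi h1
          · rw [hhge e h2, fderiv_zero]; rfl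
    · have h' : i = j := Fin.ext h
      subst h'
      right
      rw [hQeq]
      obtain ⟨h1, h2⟩ := hcond _ hi
      refine ⟨h1, ?_⟩
      rcases h2 with h2 | ⟨v, h2, h3⟩
      · exact Or.inl h2
      · right
        refine ⟨v, fun e he => ?_, fun e he => ?_, h3⟩
        · have h4 : ¬ (e : ℕ) < i := by
            have := congrArg Fin.val he
            rw [Fin.val_castSucc] at this
            omega
          rw [hgge e h4, fderiv_zero]; rfl
        · have h4 : (e : ℕ) < i := by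
            have := congrArg Fin.val he
            rw [Fin.val_succ] at this
            omega
          rw [hhlt e h4]
          exact h2 e he
    · exact absurd (hz0 i h) hi
  · intro e hx hy hB h3 h4 h5 h6 h7 h8
    have he : (e : ℕ) < j := by
      by_contra h
      rw [hgge e h] at hB
      simp at hB
    have hce : ((e.castSucc : Fin (n + 1)) : ℕ) < j := by rw [Fin.val_castSucc]; exact he
    simp only [if_pos he] at h3 h4
    rw [hglt e he, hhlt e he] at hB h3 h4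
    rw [hQlt _ hce] at h3 h5 h6
    rw [hDle _ hce.le] at h3
    rw [hDle _ (lt_succ he)] at h4
    have hg0 := g_nonneg hX he (z e.castSucc)
    have hh0 := h_nonneg hX he (z e.succ)
    have hgpos : 0 < X.g e (z e.castSucc) := by
      rcases hg0.eq_or_lt with h | h
      · rw [← h, zero_mul] at hB; exact absurd hB (lt_irrefl _)
      · exact h
    have hhpos : 0 < X.h e (z e.succ) := by
      rcases hh0.eq_or_lt with h | h
      · rw [← h, mul_zero] at hB; exact absurd hB (lt_irrefl _)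
      · exact h
    have hgv : X.g e (z e.castSucc) = X.c e * ‖z e.castSucc‖ ^ X.p e :=
      (g_val hX he (cos_of_re hX hce.le hx h5.le)).resolve_left hgpos.ne'
    have hN1 : (X.Q e.castSucc (z e.castSucc)).re ≤ X.ep e.castSucc *
        ‖z e.castSucc‖ ^ X.D e.castSucc := by
      rw [← Q_norm hX hce.le]
      exact (le_abs_self _).trans (Complex.abs_re_le_norm _)
    have key : X.h e (z e.succ) = ‖z e.succ‖ ^ X.m e ∧
        (trQ X j R e.succ (z e.succ)).re ≤ X.ep e.succ * ‖z e.succ‖ ^ X.D e.succ := by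
      by_cases h9 : e.succ = j
      · subst h9
        rw [hQeq] at h7 h8 ⊢
        have h10 := hnc e rfl (z e.succ) hy hhpos h7 h8
        exact ⟨h10.1, ((le_abs_self _).trans (Complex.abs_re_le_norm _)).trans h10.2⟩
      · have h10 : ((e.succ : Fin (n + 1)) : ℕ) < j :=
          lt_of_le_of_ne (lt_succ he) fun h => h9 (Fin.ext h)
        rw [hQlt _ h10] at h7 ⊢
        refine ⟨(h_val hX he (cos_of_re hX h10.le hy h7.le)).resolve_left hhpos.ne', ?_⟩
        rw [← Q_norm hX h10.le]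
        exact (le_abs_self _).trans (Complex.abs_re_le_norm _)
    obtain ⟨hhv, hN2⟩ := key
    have hDx : 0 < X.D e.castSucc := by have := hX.hD _ hce.le; linarith
    have hDy : 0 < X.D e.succ := by have := hX.hD _ (lt_succ he); linarith
    refine nc_num hDx hDy (by have := hX.hp e he; linarith) (by have := hX.hm e he; linarith)
      (hX.sum e he) (hX.hc e he) (hX.hep _ hce.le) (hX.hep _ (lt_succ he))
      (norm_pos_iff.2 hx) (norm_pos_iff.2 hy) (hX.nc e he) ?_ ?_
    · rw [hgv, hhv] at h3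
      exact h3.trans (mul_le_mul_of_nonneg_left hN1 hDx.le)
    · rw [hgv, hhv] at h4
      rw [← h4]
      exact mul_le_mul_of_nonneg_left hN2 hDy.le

/-! ### weights -/

theorem wh_GF {w : Fin (n + 1) → ℝ} (hw : ∀ i, 0 < w i) {Q : Fin (n + 1) → ℂ → ℂ}
    {g h : Fin n → ℂ → ℂ} (hQ : ∀ i, PH (w i)⁻¹ (Q i))
    (hgh : ∀ e : Fin n, ∃ p m : ℝ, PH p (g e) ∧ PH m (h e) ∧
      p * w e.castSucc + m * w e.succ = 1) : WH w (GF Q g h) := by
  intro s x
  have h1 : ∀ i, Q i (Cone_808.act w s x i) = Real.exp s • Q i (x i) := by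
    intro i
    have h2 := hQ i (Real.exp (s * w i)) (Real.exp_pos _) (x i)
    show Q i ((Real.exp (s * w i) : ℂ) * x i) = _
    rw [h2, ← Real.exp_mul]
    congr 2
    rw [mul_assoc, mul_inv_cancel₀ (hw i).ne', mul_one]
  have h2 : ∀ e : Fin n, g e (Cone_808.act w s x e.castSucc) * h e (Cone_808.act w s x e.succ) =
      Real.exp s • (g e (x e.castSucc) * h e (x e.succ)) := by
    intro e
    obtain ⟨p, m, hg, hh, hs⟩ := hgh e
    have e1 := hg (Real.exp (s * w e.castSucc)) (Real.exp_pos _) (x e.castSucc)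
    have e2 := hh (Real.exp (s * w e.succ)) (Real.exp_pos _) (x e.succ)
    show g e ((Real.exp (s * w e.castSucc) : ℂ) * x e.castSucc) *
      h e ((Real.exp (s * w e.succ) : ℂ) * x e.succ) = _
    rw [e1, e2, ← Real.exp_mul, ← Real.exp_mul, smul_mul_smul_comm, ← Real.exp_add]
    congr 2
    linear_combination s * hs
  unfold GF
  simp only [h1, h2]
  rw [smul_sub, Finset.smul_sum, Finset.smul_sum]

/-- weights: `1 / D i` for `i ≤ j`, `w i + a (i+1) w (i+1) = 1` above. -/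
theorem exists_wt {a : Fin (n + 1) → ℕ} (ha : ∀ i, 2 ≤ a i) (D : Fin (n + 1) → ℝ) (j : ℕ)
    (hD : ∀ i : Fin (n + 1), (i : ℕ) ≤ j → 1 < D i) :
    ∃ w : Fin (n + 1) → ℝ, (∀ i, 0 < w i) ∧ (∀ i, w i < 1) ∧
      (∀ i : Fin (n + 1), (i : ℕ) ≤ j → w i = (D i)⁻¹) ∧
      ∀ e : Fin n, j ≤ (e : ℕ) → w e.castSucc + a e.succ * w e.succ = 1 := by
  classical
  let DN : ℕ → ℝ := fun k => if h : k < n + 1 then (D ⟨k, h⟩)⁻¹ else 1 / 2
  let aN : ℕ → ℝ := fun k => if h : k < n + 1 then (a ⟨k, h⟩ : ℝ) else 2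
  let wN : ℕ → ℝ := fun k => Nat.rec (DN 0)
    (fun k w => if k + 1 ≤ j then DN (k + 1) else (1 - w) / aN (k + 1)) k
  have hw0 : wN 0 = DN 0 := rfl
  have hws : ∀ k, wN (k + 1) = if k + 1 ≤ j then DN (k + 1) else (1 - wN k) / aN (k + 1) :=
    fun k => rfl
  have hDN : ∀ k, k ≤ j → 0 < DN k ∧ DN k < 1 := by
    intro k hk
    show 0 < (if h : k < n + 1 then (D ⟨k, h⟩)⁻¹ else 1 / 2) ∧
      (if h : k < n + 1 then (D ⟨k, h⟩)⁻¹ else 1 / 2) < 1
    split_ifs with h
    · have h1 := hD ⟨k, h⟩ hk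
      exact ⟨inv_pos.2 (by linarith), inv_lt_one_of_one_lt₀ h1⟩
    · norm_num
  have haN : ∀ k, 2 ≤ aN k := by
    intro k
    show (2 : ℝ) ≤ if h : k < n + 1 then (a ⟨k, h⟩ : ℝ) else 2
    split_ifs with h
    · exact_mod_cast ha _
    · exact le_rfl
  have hwN : ∀ k, 0 < wN k ∧ wN k < 1 := by
    intro k
    induction k with
    | zero => exact hDN 0 (Nat.zero_le _)
    | succ k ih =>
      rw [hws]
      split_ifs with h
      · exact hDN _ h
      · have h1 := haN (k + 1)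
        refine ⟨div_pos (by linarith [ih.2]) (by linarith), ?_⟩
        rw [div_lt_one (by linarith)]
        linarith [ih.1]
  refine ⟨fun i => wN i, fun i => (hwN i).1, fun i => (hwN i).2, fun i hi => ?_, fun e he => ?_⟩
  · have hi2 : (i : ℕ) < n + 1 := i.2
    have h1 : DN (i : ℕ) = (D i)⁻¹ := dif_pos hi2
    rw [← h1]
    rcases Nat.eq_zero_or_pos (i : ℕ) with h0 | h0
    · show wN (i : ℕ) = DN (i : ℕ)
      rw [h0]
      exact hw0
    · obtain ⟨k, hk⟩ : ∃ k, (i : ℕ) = k + 1 := ⟨(i : ℕ) - 1, by omega⟩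
      show wN (i : ℕ) = DN (i : ℕ)
      rw [hk, hws, if_pos (by omega)]
  · have h1 : wN ((e.succ : Fin (n + 1)) : ℕ) = (1 - wN (e : ℕ)) / aN ((e : ℕ) + 1) := by
      rw [Fin.val_succ, hws, if_neg (by omega)]
    have h2 : aN ((e : ℕ) + 1) = (a e.succ : ℝ) := dif_pos (by omega)
    show wN ((e.castSucc : Fin (n + 1)) : ℕ) + (a e.succ : ℝ) * wN ((e.succ : Fin (n + 1)) : ℕ) = 1
    rw [h1, h2, Fin.val_castSucc]
    have h3 : (a e.succ : ℝ) ≠ 0 := by
      have := ha e.succ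
      positivity
    field_simp
    ring

theorem wh_mid {X : LD n} {a : Fin (n + 1) → ℕ} (ha : ∀ i, 2 ≤ a i) {e : Fin n} (hX : X.Ok a e)
    {Y η H : ℂ → ℂ} {DY pη mH : ℝ} (hDY : 1 < DY) (hY : PH DY Y) (hη : PH pη η) (hH : PH mH H)
    (hsum : pη / X.D e.castSucc + mH / DY = 1) :
    ∃ w : Fin (n + 1) → ℝ, (∀ i, 0 < w i) ∧ WH w (X.mid a e Y η H) := by
  obtain ⟨w, hw, hw1, hwD, hwt⟩ := exists_wt ha
    (fun i => if (i : ℕ) ≤ e then X.D i else DY) ((e : ℕ) + 1) (fun i hi => by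
      show 1 < if (i : ℕ) ≤ e then X.D i else DY
      split_ifs with h
      · have := hX.hD i h; linarith
      · exact hDY)
  have hwle : ∀ i : Fin (n + 1), (i : ℕ) ≤ e → w i = (X.D i)⁻¹ := fun i hi => by
    rw [hwD i (by omega)]
    show (if (i : ℕ) ≤ e then X.D i else DY)⁻¹ = _
    rw [if_pos hi]
  have hws : w e.succ = DY⁻¹ := by
    rw [hwD e.succ (by rw [Fin.val_succ])]
    show (if ((e.succ : Fin (n + 1)) : ℕ) ≤ e then X.D e.succ else DY)⁻¹ = _
    rw [if_neg (by rw [Fin.val_succ]; omega)]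
  refine ⟨w, hw, wh_GF hw (fun i => ?_) fun e' => ?_⟩
  · rcases lt_trichotomy (i : ℕ) ((e : ℕ) + 1) with h | h | h
    · rw [if_pos (by omega), hwle i (by omega), inv_inv]
      exact Q_ph X i
    · have hi : i = e.succ := Fin.ext (by rw [Fin.val_succ]; exact h)
      rw [if_neg (by omega), if_pos h, hi, hws, inv_inv]
      exact hY
    · rw [if_neg (by omega), if_neg (by omega)]
      exact ph_zero _
  · rcases lt_trichotomy (e' : ℕ) (e : ℕ) with h | h | h
    · refine ⟨X.p e', X.m e', ?_, ?_, ?_⟩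
      · rw [if_pos h]; exact ph_ofReal (g_ph X e')
      · rw [if_pos h]; exact ph_ofReal (h_ph X e')
      · rw [hwle _ (by rw [Fin.val_castSucc]; omega), hwle _ (by rw [Fin.val_succ]; omega)]
        have := hX.sum e' h
        rwa [div_eq_mul_inv, div_eq_mul_inv] at this
    · have he : e' = e := Fin.ext h
      subst he
      refine ⟨pη, mH, ?_, ?_, ?_⟩
      · rw [if_neg (lt_irrefl _), if_pos rfl]; exact hη
      · rw [if_neg (lt_irrefl _), if_pos rfl]; exact hH
      · rw [hwle _ (by rw [Fin.val_castSucc]), hws]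
        rwa [div_eq_mul_inv, div_eq_mul_inv] at hsum
    · refine ⟨1, a e'.succ, ?_, ?_, ?_⟩
      · rw [if_neg (by omega), if_neg (by omega)]; exact ph_id
      · rw [if_neg (by omega), if_neg (by omega)]; exact ph_pow _
      · rw [one_mul]
        exact hwt e' (by omega)

theorem wh_st {X : LD n} {a : Fin (n + 1) → ℕ} (ha : ∀ i, 2 ≤ a i) {j : ℕ} (hX : X.Ok a j) :
    ∃ w : Fin (n + 1) → ℝ, (∀ i, 0 < w i) ∧ WH w (X.st a j) := by
  obtain ⟨w, hw, hw1, hwD, hwt⟩ := exists_wt ha X.D j fun i hi => by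
    have := hX.hD i hi; linarith
  refine ⟨w, hw, wh_GF hw (fun i => ?_) fun e' => ?_⟩
  · by_cases h : (i : ℕ) ≤ j
    · rw [if_pos h, hwD i h, inv_inv]
      exact Q_ph X i
    · rw [if_neg h]
      exact ph_zero _
  · by_cases h : (e' : ℕ) < j
    · refine ⟨X.p e', X.m e', ?_, ?_, ?_⟩
      · rw [if_pos h]; exact ph_ofReal (g_ph X e')
      · rw [if_pos h]; exact ph_ofReal (h_ph X e')
      · rw [hwD _ (le_cast h), hwD _ (lt_succ h)]
        have := hX.sum e' h
        rwa [div_eq_mul_inv, div_eq_mul_inv] at this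
    · refine ⟨1, a e'.succ, ?_, ?_, ?_⟩
      · rw [if_neg h]; exact ph_id
      · rw [if_neg h]; exact ph_pow _
      · rw [one_mul]
        exact hwt e' (by omega)

end Crest.Agent.R267.LobeKit_407
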