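import Crest.Agent.R267.WHom_920
import Crest.Agent.R267.Ang_739
import Crest.Agent.R267.T3aNDefs_88
import Crest.Agent.R267.LobeKit_407

/-!
# Row 267 (helper920): harmonic boxes in polar coordinates

`HB S D l z = Hm S (|z_j|^{D j}) * ∏_{j ∈ S} l j (arg z_j)`: `C²` on the whole space
(`contDiff_HB`), homogeneous (`HB_act`), zero where some `z_j = 0`, `j ∈ S` (`HB_zero`).
-/

set_option autoImplicit false
set_option linter.unusedSectionVars false

noncomputable section

open Set Filter Topology Metric Finset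
open scoped ContDiff
open Crest.Agent.R267.Cone_808 Crest.Agent.R267.Ang_739 Crest.Agent.R267.WHom_920
open Crest.Agent.R267.T3aNDefs_88 (Hm)

namespace Crest.Agent.R267.HarmBox_920

variable {ι : Type}

/-! ### the harmonic combination -/

theorem Hm_pos {S : Finset ι} {R : ι → ℝ} (hS : S.Nonempty) (h : ∀ j ∈ S, 0 < R j) :
    0 < Hm S R := by
  classical
  unfold Hm
  rw [if_pos h]
  exact one_div_pos.2 (Finset.sum_pos (fun j hj => one_div_pos.2 (h j hj)) hS)

theorem Hm_zero {S : Finset ι} {R : ι → ℝ} {j : ι} (hj : j ∈ S) (h : R j ≤ 0) : Hm S R = 0 := by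
  classical
  unfold Hm
  rw [if_neg]
  exact fun h' => absurd (h' j hj) (not_lt.2 h)

theorem Hm_nonneg (S : Finset ι) (R : ι → ℝ) : 0 ≤ Hm S R := by
  classical
  rcases S.eq_empty_or_nonempty with rfl | hS
  · unfold Hm; simp
  · by_cases h : ∀ j ∈ S, 0 < R j
    · exact (Hm_pos hS h).le
    · push Not at h
      obtain ⟨j, hj, h⟩ := h
      rw [Hm_zero hj h]

theorem Hm_singleton {i : ι} {R : ι → ℝ} (h : 0 ≤ R i) : Hm {i} R = R i := by
  classical
  rcases h.eq_or_lt with h | h
  · rw [Hm_zero (Finset.mem_singleton_self i) h.symm.le, ← h]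
  · unfold Hm
    rw [if_pos (by simpa using h)]
    simp

theorem Hm_insert [DecidableEq ι] {S : Finset ι} {i : ι} {R : ι → ℝ} (hi : i ∉ S)
    (hS : S.Nonempty) (h : 0 < R i) :
    Hm (insert i S) R = Hm S R * (R i / (R i + Hm S R)) := by
  classical
  by_cases hp : ∀ j ∈ S, 0 < R j
  · have hs := Hm_pos hS hp
    have hsum : 0 < ∑ j ∈ S, 1 / R j :=
      Finset.sum_pos (fun j hj => one_div_pos.2 (hp j hj)) hS
    have e1 : Hm S R = 1 / ∑ j ∈ S, 1 / R j := by unfold Hm; rw [if_pos hp]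
    have e2 : Hm (insert i S) R = 1 / (1 / R i + ∑ j ∈ S, 1 / R j) := by
      unfold Hm
      rw [if_pos, Finset.sum_insert hi]
      intro j hj
      rcases Finset.mem_insert.1 hj with rfl | hj
      · exact h
      · exact hp j hj
    rw [e2, e1]
    have h3 : (1 / R i + ∑ j ∈ S, 1 / R j) ≠ 0 := by positivity
    have h4 : (R i + 1 / ∑ j ∈ S, 1 / R j) ≠ 0 := by positivity
    have h5 : R i * (∑ j ∈ S, 1 / R j) + 1 ≠ 0 := by positivity
    field_simp
    try ring
  · push Not at hp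
    obtain ⟨j, hj, hp⟩ := hp
    rw [Hm_zero hj hp, Hm_zero (Finset.mem_insert_of_mem hj) hp, zero_mul]

theorem Hm_congr {S : Finset ι} {R R' : ι → ℝ} (h : ∀ j ∈ S, R j = R' j) : Hm S R = Hm S R' := by
  classical
  unfold Hm
  have e : (∀ j ∈ S, 0 < R j) ↔ ∀ j ∈ S, 0 < R' j :=
    forall₂_congr fun j hj => by rw [h j hj]
  by_cases hp : ∀ j ∈ S, 0 < R j
  · rw [if_pos hp, if_pos (e.1 hp)]
    congr 1
    exact Finset.sum_congr rfl fun j hj => by rw [h j hj]
  · rw [if_neg hp, if_neg fun h' => hp (e.2 h')]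

theorem Hm_smul {S : Finset ι} {R : ι → ℝ} {c : ℝ} (hc : 0 < c) :
    Hm S (fun j => c * R j) = c * Hm S R := by
  classical
  unfold Hm
  have e : (∀ j ∈ S, 0 < c * R j) ↔ ∀ j ∈ S, 0 < R j :=
    forall₂_congr fun j _ => mul_pos_iff_of_pos_left hc
  by_cases hp : ∀ j ∈ S, 0 < R j
  · rw [if_pos hp, if_pos (e.2 hp)]
    have : ∑ j ∈ S, 1 / (c * R j) = c⁻¹ * ∑ j ∈ S, 1 / R j := by
      rw [Finset.mul_sum]
      exact Finset.sum_congr rfl fun j _ => by rw [one_div, mul_inv, one_div]
    rw [this, one_div, mul_inv, inv_inv, one_div]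
  · rw [if_neg hp, if_neg fun h' => hp (e.1 h'), mul_zero]

theorem Hm_le {S : Finset ι} {R : ι → ℝ} {j : ι} (hj : j ∈ S) (h0 : 0 ≤ R j) : Hm S R ≤ R j := by
  classical
  by_cases hp : ∀ j ∈ S, 0 < R j
  · have h1 : 1 / R j ≤ ∑ j ∈ S, 1 / R j :=
      Finset.single_le_sum (f := fun j => 1 / R j)
        (fun i hi => (one_div_pos.2 (hp i hi)).le) hj
    unfold Hm
    rw [if_pos hp]
    calc 1 / ∑ j ∈ S, 1 / R j ≤ 1 / (1 / R j) :=
          one_div_le_one_div_of_le (one_div_pos.2 (hp j hj)) h1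
      _ = R j := one_div_one_div _
  · push Not at hp
    obtain ⟨i, hi, hp⟩ := hp
    rw [Hm_zero hi hp]
    exact h0

/-! ### boxes -/

/-- magnitudes -/
def rr (D : ι → ℝ) (z : ι → ℂ) (j : ι) : ℝ := ‖z j‖ ^ D j

theorem rr_nonneg (D : ι → ℝ) (z : ι → ℂ) (j : ι) : 0 ≤ rr D z j :=
  Real.rpow_nonneg (norm_nonneg _) _

theorem rr_pos {D : ι → ℝ} {z : ι → ℂ} {j : ι} (h : z j ≠ 0) : 0 < rr D z j :=
  Real.rpow_pos_of_pos (norm_pos_iff.2 h) _

theorem rr_zero {D : ι → ℝ} {z : ι → ℂ} {j : ι} (hD : D j ≠ 0) (h : z j = 0) : rr D z j = 0 := by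
  unfold rr
  rw [h, norm_zero, Real.zero_rpow hD]

/-- **harmonic box** -/
def HB (S : Finset ι) (D : ι → ℝ) (l : ι → ℝ → ℝ) (z : ι → ℂ) : ℝ :=
  Hm S (rr D z) * ∏ j ∈ S, l j (Complex.arg (z j))

theorem HB_zero {S : Finset ι} {D : ι → ℝ} (l : ι → ℝ → ℝ) {z : ι → ℂ} {j : ι} (hj : j ∈ S)
    (hD : D j ≠ 0) (h : z j = 0) : HB S D l z = 0 := by
  unfold HB
  rw [Hm_zero hj (rr_zero hD h).le, zero_mul]

theorem HB_congr {S : Finset ι} {D : ι → ℝ} {l : ι → ℝ → ℝ} {z z' : ι → ℂ}
    (h : ∀ j ∈ S, z j = z' j) : HB S D l z = HB S D l z' := by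
  unfold HB
  rw [Hm_congr (R' := rr D z') fun j hj => by unfold rr; rw [h j hj]]
  congr 1
  exact Finset.prod_congr rfl fun j hj => by rw [h j hj]

theorem rr_act {D w : ι → ℝ} {j : ι} (h : w j * D j = 1) (s : ℝ) (z : ι → ℂ) :
    rr D (act w s z) j = Real.exp s * rr D z j := by
  unfold rr act
  rw [norm_mul, Complex.norm_real, Real.norm_eq_abs, abs_of_pos (Real.exp_pos _),
    Real.mul_rpow (Real.exp_pos _).le (norm_nonneg _), ← Real.exp_mul, mul_assoc, h, mul_one]

theorem arg_act (w : ι → ℝ) (s : ℝ) (z : ι → ℂ) (j : ι) :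
    Complex.arg (act w s z j) = Complex.arg (z j) := by
  unfold act
  rw [Complex.arg_real_mul _ (Real.exp_pos _)]

theorem HB_act {S : Finset ι} {D w : ι → ℝ} (l : ι → ℝ → ℝ) (h : ∀ j ∈ S, w j * D j = 1) (s : ℝ)
    (z : ι → ℂ) : HB S D l (act w s z) = Real.exp s * HB S D l z := by
  unfold HB
  rw [Hm_congr (R' := fun j => Real.exp s * rr D z j) fun j hj => rr_act (h j hj) s z,
    Hm_smul (Real.exp_pos s), mul_assoc]
  congr 2
  exact Finset.prod_congr rfl fun j _ => by rw [arg_act]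

variable [Fintype ι]

theorem contDiffAt_rr {D : ι → ℝ} {z : ι → ℂ} {j : ι} (h : z j ≠ 0) :
    ContDiffAt ℝ 2 (fun z => rr D z j) z := by
  unfold rr
  have h1 : ContDiffAt ℝ 2 (fun z : ι → ℂ => z j) z := by fun_prop
  have h2 : ContDiffAt ℝ 2 (fun z : ι → ℂ => ‖z j‖) z := h1.norm ℝ h
  exact h2.rpow contDiffAt_const (norm_ne_zero_iff.2 h)

theorem contDiffAt_l {l : ℝ → ℝ} (hp : Per l) (hl : ContDiff ℝ 2 l) {z : ι → ℂ} {j : ι}
    (h : z j ≠ 0) : ContDiffAt ℝ 2 (fun z : ι → ℂ => l (Complex.arg (z j))) z := by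
  have h1 : ContDiffAt ℝ 2 (fun z : ι → ℂ => z j) z := by fun_prop
  exact ContDiffAt.comp (g := fun u : ℂ => l (Complex.arg u)) (f := fun z : ι → ℂ => z j) z
    (contDiffAt_ang hp h hl.contDiffAt) h1

theorem HB_singleton {i : ι} {D : ι → ℝ} {l : ι → ℝ → ℝ} :
    HB {i} D l = fun z => pol (D i) (l i) (z i) := by
  funext z
  unfold HB pol
  rw [Hm_singleton (rr_nonneg D z i), Finset.prod_singleton, smul_eq_mul]
  rfl

/-- step: `C²` where some coordinate is nonzero -/
theorem step [DecidableEq ι] {S : Finset ι} {D : ι → ℝ} {l : ι → ℝ → ℝ}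
    {i : ι} (hi : i ∈ S) (hS : (S.erase i).Nonempty)
    (hlp : Per (l i)) (hl : ContDiff ℝ 2 (l i))
    (h1 : ContDiff ℝ 2 (HB (S.erase i) D l))
    (h2 : ContDiff ℝ 2 (HB (S.erase i) D fun _ _ => 1)) {z : ι → ℂ} (hz : z i ≠ 0) :
    ContDiffAt ℝ 2 (HB S D l) z := by
  have e : ∀ z : ι → ℂ, z i ≠ 0 → HB S D l z = HB (S.erase i) D l z *
      l i (Complex.arg (z i)) *
        (rr D z i / (rr D z i + HB (S.erase i) D (fun _ _ => 1) z)) := by
    intro z hz
    have e1 : HB (S.erase i) D (fun _ _ => 1) z = Hm (S.erase i) (rr D z) := by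
      unfold HB; simp
    rw [e1]
    unfold HB
    have e2 : Hm S (rr D z) = Hm (S.erase i) (rr D z) *
        (rr D z i / (rr D z i + Hm (S.erase i) (rr D z))) := by
      rw [← Hm_insert (Finset.notMem_erase i S) hS (rr_pos hz), Finset.insert_erase hi]
    rw [e2, ← Finset.mul_prod_erase S _ hi]
    ring
  have hev : HB S D l =ᶠ[𝓝 z] fun z => HB (S.erase i) D l z *
      l i (Complex.arg (z i)) *
        (rr D z i / (rr D z i + HB (S.erase i) D (fun _ _ => 1) z)) := by
    have h3 : ∀ᶠ z' : ι → ℂ in 𝓝 z, z' i ≠ 0 :=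
      (continuous_apply i).continuousAt.eventually_ne hz
    filter_upwards [h3] with z' hz'
    exact e z' hz'
  refine ContDiffAt.congr_of_eventuallyEq ?_ hev
  have hr := contDiffAt_rr (D := D) hz
  refine (h1.contDiffAt.mul (contDiffAt_l hlp hl hz)).mul (hr.div (hr.add h2.contDiffAt) ?_)
  have h5 : 0 ≤ HB (S.erase i) D (fun _ _ => 1) z := by
    unfold HB
    simpa using Hm_nonneg _ _
  have := rr_pos (D := D) hz
  positivity

/-- **harmonic boxes are `C²`** -/
theorem contDiff_HB {S : Finset ι} (hS : S.Nonempty) {D : ι → ℝ} (hD : ∀ j ∈ S, 2 < D j)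
    {l : ι → ℝ → ℝ} (hlp : ∀ j ∈ S, Per (l j)) (hl : ∀ j ∈ S, ContDiff ℝ 2 (l j)) :
    ContDiff ℝ 2 (HB S D l) := by
  classical
  induction hn : S.card using Nat.strong_induction_on generalizing S l with
  | _ n ih =>
    by_cases h1 : S.card = 1
    · obtain ⟨i, rfl⟩ := Finset.card_eq_one.1 h1
      rw [HB_singleton]
      have hi := Finset.mem_singleton_self i
      have h2 := LobeKit_407.contDiff_pol (hD i hi) (hlp i hi) (hl i hi)
      exact h2.comp (by fun_prop : ContDiff ℝ 2 fun z : ι → ℂ => z i)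
    · have hcard : 2 ≤ S.card := by
        have := hS.card_pos
        omega
      have hoff : ∀ z : ι → ℂ, (∃ i ∈ S, z i ≠ 0) → ContDiffAt ℝ 2 (HB S D l) z := by
        rintro z ⟨i, hi, hz⟩
        have hne : (S.erase i).Nonempty := by
          rw [← Finset.card_pos, Finset.card_erase_of_mem hi]
          omega
        have hlt : (S.erase i).card < n := by
          rw [Finset.card_erase_of_mem hi]
          omega
        have hsub : ∀ j ∈ S.erase i, j ∈ S := fun j hj => Finset.mem_of_mem_erase hj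
        refine step hi hne (hlp i hi) (hl i hi) ?_ ?_ hz
        · exact ih _ hlt hne (fun j hj => hD j (hsub j hj)) (fun j hj => hlp j (hsub j hj))
            (fun j hj => hl j (hsub j hj)) rfl
        · exact ih _ hlt hne (fun j hj => hD j (hsub j hj)) (fun j _ => fun _ => rfl)
            (fun j _ => contDiff_const) rfl
      -- factor through the coordinates in `S`
      let ex : (S → ℂ) →L[ℝ] (ι → ℂ) := ContinuousLinearMap.pi fun i =>
        if h : i ∈ S then ContinuousLinearMap.proj (R := ℝ) (φ := fun _ : S => ℂ) ⟨i, h⟩ else 0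
      have hex : ∀ (y : S → ℂ) (i : ι) (h : i ∈ S), ex y i = y ⟨i, h⟩ := by
        intro y i h
        simp [ex, h]
      let re : (ι → ℂ) →L[ℝ] (S → ℂ) := ContinuousLinearMap.pi fun i =>
        ContinuousLinearMap.proj (i : ι)
      have hre : ∀ (z : ι → ℂ) (i : S), re z i = z i := fun z i => rfl
      have hfac : HB S D l = fun z => HB S D l (ex (re z)) := by
        funext z
        exact HB_congr fun j hj => by rw [hex _ j hj, hre]
      rw [hfac]
      have hF : ContDiff ℝ 2 fun y : S → ℂ => HB S D l (ex y) := by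
        obtain ⟨i0, hi0, hmax⟩ := S.exists_min_image D hS
        have hD0 := hD i0 hi0
        refine contDiff_of_wh (w := fun j : S => 1 / D j) (m := 1 / D i0) (fun j => ?_)
          (fun j => ?_) ?_ ?_ ?_ fun s y => ?_
        · have := hD j j.2
          positivity
        · exact one_div_le_one_div_of_le (by linarith) (hmax j j.2)
        · rw [div_lt_div_iff₀ (by linarith) (by norm_num)]
          linarith
        · intro y hy
          have hy' : y ≠ 0 := hy
          obtain ⟨j, hj⟩ : ∃ j, y j ≠ 0 := by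
            by_contra hc
            push Not at hc
            exact hy' (funext hc)
          refine (ContDiffAt.comp y (hoff (ex y) ⟨j, j.2, ?_⟩)
            ex.contDiff.contDiffAt).contDiffWithinAt
          rw [hex y j j.2]
          exact hj
        · obtain ⟨j, hj⟩ := hS
          exact HB_zero l hj (by have := hD j hj; linarith) (by rw [hex _ j hj]; rfl)
        · have e : HB S D l (ex (act (fun j : S => 1 / D j) s y)) =
              HB S D l (act (fun j => 1 / D j) s (ex y)) := by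
            refine HB_congr fun j hj => ?_
            rw [hex _ j hj]
            unfold act
            rw [hex _ j hj]
          rw [e, HB_act l (fun j hj => ?_) s (ex y), smul_eq_mul]
          have := hD j hj
          field_simp
      exact hF.comp re.contDiff

end Crest.Agent.R267.HarmBox_920
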