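import Crest.Agent.R267.PolCpt_943
import Crest.Agent.R267.RndP_222

/-!
# Row 267 (helper370): engine of the hub step C7 (for `f` and `g`)

`Hub`: own words `|z_i|^{D_i} e^{i p_i(arg z_i)}`, couplings `amp · |z|^{sh} · e^{i Φ(ph)}` with staircase
phases `Φ` of the reduced own phases `ph_i`, product boxes `- c |z|^{th} ∏ lam`.

* `Hub.Ok T e`: hypotheses; state trichotomy `st` (in a hub lobe / in the word sector `J` / flat);
* `coef`, `hpath0`: reduction of `HPath0 (PF H.E H.C)` to pointwise data `Out` (`out`);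
* `Out`: exact radial equations, own directions `e`-parallel to the conormal, couplings `2 e`-parallel,
  the conormal almost real or nothing off-lobe, flat, deleted;
* `Out.real_form`, `Out.near`: signs, primed magnitudes, integer positions.
-/

set_option autoImplicit false
set_option linter.unusedSectionVars false

noncomputable section

open Set Filter Topology
open scoped ContDiff
open Crest.Agent.R267.Ang_739 Crest.Agent.R267.StairFn_739 Crest.Agent.R267.StairPh_739
open Crest.Agent.R267.LemL_951 Crest.Agent.R267.PolF_943 Crest.Agent.R267.RndP_222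
open Crest.Agent.R267.Cone_808 Crest.Agent.R267.SphReg_808 Crest.Agent.R267.Hm_951

namespace Crest.Agent.R267.HubEng_370

variable {ι ε β : Type} [Fintype ι] [DecidableEq ι] [Fintype ε] [Fintype β]

/-- a hub function: own words, couplings, product boxes -/
structure Hub (ι ε β : Type) where
  /-- own degrees -/
  D : ι → ℝ
  /-- own phases -/
  p : ι → ℝ → ℝ
  /-- reduced own phases (constant `-1` in the word sector) -/
  ph : ι → ℝ → ℝ
  /-- phases of the couplings -/
  Φ : ε → (ι → ℝ) → ℝ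
  /-- exponents of the couplings -/
  sh : ε → ι → ℝ
  /-- amplitudes of the couplings -/
  amp : ε → ℝ × (ι → ℝ) → ℝ
  /-- exponents of the boxes -/
  th : β → ι → ℝ
  /-- constants of the boxes -/
  cb : β → ℝ
  /-- windows of the boxes -/
  lam : β → ι → ℝ → ℝ

namespace Hub

variable (H : Hub ι ε β)

/-- exponents -/
def E : ι ⊕ (ε ⊕ β) → ι → ℝ
  | .inl i => Pi.single i (H.D i)
  | .inr (.inl v) => H.sh v
  | .inr (.inr c) => H.th c

/-- own coefficients -/
def Co (i : ι) (q : ℝ × (ι → ℝ)) : ℂ := cis (H.p i (q.2 i))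

/-- coupling coefficients -/
def Cc (v : ε) (q : ℝ × (ι → ℝ)) : ℂ := (H.amp v q : ℂ) * cis (H.Φ v (lft H.ph q.2))

/-- window product -/
def La (c : β) (θ : ι → ℝ) : ℝ := ∏ i, H.lam c i (θ i)

/-- box coefficients -/
def Cb (c : β) (q : ℝ × (ι → ℝ)) : ℂ := -((H.cb c * H.La c q.2 : ℝ) : ℂ)

/-- coefficients -/
def C : ι ⊕ (ε ⊕ β) → ℝ × (ι → ℝ) → ℂ
  | .inl i => H.Co i
  | .inr (.inl v) => H.Cc v
  | .inr (.inr c) => H.Cb c

/-- the function -/
def fn : ℝ × (ι → ℂ) → ℂ := PF H.E H.C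

/-- hypotheses; `T` an open set of parameters, `e` the tolerance of the phases -/
structure Ok (T : Set ℝ) (e : ℝ) : Prop where
  D2 : ∀ i, 2 < H.D i
  sh2 : ∀ v i, H.sh v i = 0 ∨ 2 < H.sh v i
  th2 : ∀ c i, H.th c i = 0 ∨ 2 < H.th c i
  shW : ∀ v, ∑ i, H.sh v i / H.D i = 1
  thW : ∀ c, ∑ i, H.th c i / H.D i = 1
  pC : ∀ i, ContDiff ℝ 2 (H.p i)
  pper : ∀ i x, cis (H.p i (x + 2 * Real.pi)) = cis (H.p i x)
  phC : ∀ i, ContDiff ℝ 2 (H.ph i)
  e0 : 0 ≤ e
  Φp : ∀ v, Ph (H.Φ v) e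
  Φper : ∀ v i θ, cis (H.Φ v (lft H.ph (Function.update θ i (θ i + 2 * Real.pi)))) =
    cis (H.Φ v (lft H.ph θ))
  Φind : ∀ v i, H.sh v i = 0 → ∀ u x, H.Φ v (Function.update u i x) = H.Φ v u
  ampC : ∀ v, ContDiffOn ℝ 2 (H.amp v) (T ×ˢ univ)
  amp0 : ∀ v, ∀ t ∈ Icc (0 : ℝ) 1, ∀ θ, 0 ≤ H.amp v (t, θ)
  ampper : ∀ v i, ∀ t ∈ T, ∀ θ, H.amp v (t, Function.update θ i (θ i + 2 * Real.pi)) =
    H.amp v (t, θ)
  ampind : ∀ v i, H.sh v i = 0 → ∀ t ∈ T, ∀ θ x, H.amp v (t, Function.update θ i x) =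
    H.amp v (t, θ)
  cb0 : ∀ c, 0 ≤ H.cb c
  lamC : ∀ c i, ContDiff ℝ 2 (H.lam c i)
  lam0 : ∀ c i x, 0 ≤ H.lam c i x
  lamper : ∀ c i x, H.lam c i (x + 2 * Real.pi) = H.lam c i x
  lamind : ∀ c i, H.th c i = 0 → ∀ x y, H.lam c i x = H.lam c i y
  /-- states -/
  st : ∀ i x, (deriv (H.p i) x ≠ 0 ∧ deriv (H.ph i) x = deriv (H.p i) x ∧
      cis (H.ph i x) = cis (H.p i x)) ∨
    (deriv (H.p i) x ≠ 0 ∧ deriv (H.ph i) x = 0 ∧ cis (H.ph i x) = -1) ∨
    (deriv (H.p i) x = 0 ∧ deriv (H.ph i) x = 0 ∧ cis (H.p i x) = -1 ∧ cis (H.ph i x) = -1)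
  /-- windows and amplitudes move only where the own phase is flat -/
  lamd : ∀ c i x, deriv (H.p i) x ≠ 0 → deriv (H.lam c i) x = 0
  ampd : ∀ v i, ∀ t ∈ T, ∀ θ, deriv (H.p i) (θ i) ≠ 0 →
    deriv (fun x => H.amp v (t, Function.update θ i x)) (θ i) = 0

variable {H} {T : Set ℝ} {e : ℝ}

/-! ### coefficients -/

theorem Ok.coef_o (h : H.Ok T e) (i : ι) : Coef T (Pi.single i (H.D i)) (H.Co i) where
  exp := fun j => by
    by_cases hj : j = i
    · subst hj; right; rw [Pi.single_eq_same]; exact h.D2 _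
    · left; rw [Pi.single_eq_of_ne hj]
  smooth := (contDiff_cis.comp ((h.pC i).comp
    ((contDiff_apply ℝ ℝ i).comp contDiff_snd))).contDiffOn
  per := fun t _ θ j => by
    by_cases hj : j = i
    · subst hj
      simp only [Co, Function.update_self]
      rw [h.pper]
    · simp only [Co, Function.update_of_ne (Ne.symm hj)]
  ind := fun j hj t _ θ x => by
    have hij : i ≠ j := by
      rintro rfl
      rw [Pi.single_eq_same] at hj
      have := h.D2 i
      linarith
    simp only [Co, Function.update_of_ne hij]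

theorem Ok.Φind' (h : H.Ok T e) (v : ε) (i : ι) (hs : H.sh v i = 0) (θ : ι → ℝ) (x : ℝ) :
    H.Φ v (lft H.ph (Function.update θ i x)) = H.Φ v (lft H.ph θ) := by
  have : lft H.ph (Function.update θ i x) = Function.update (lft H.ph θ) i (H.ph i x) := by
    funext j
    by_cases hj : j = i
    · subst hj; simp [lft]
    · simp [lft, Function.update_of_ne hj]
  rw [this, h.Φind v i hs]

theorem Ok.lftC (h : H.Ok T e) : ContDiff ℝ 2 (lft H.ph) :=
  contDiff_pi.2 fun i => (h.phC i).comp (contDiff_apply ℝ ℝ i)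

theorem Ok.coef_c (h : H.Ok T e) (v : ε) : Coef T (H.sh v) (H.Cc v) where
  exp := h.sh2 v
  smooth := by
    refine ContDiffOn.mul (Complex.ofRealCLM.contDiff.comp_contDiffOn (h.ampC v)) ?_
    exact (contDiff_cis.comp (((h.Φp v).smooth.of_le two_le_infty).comp
      (h.lftC.comp contDiff_snd))).contDiffOn
  per := fun t ht θ j => by
    simp only [Cc]
    rw [h.ampper v j t ht, h.Φper v j θ]
  ind := fun j hj t ht θ x => by
    simp only [Cc]
    rw [h.ampind v j hj t ht, h.Φind' v j hj]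

theorem Ok.coef_b (h : H.Ok T e) (c : β) : Coef T (H.th c) (H.Cb c) where
  exp := h.th2 c
  smooth := by
    have h1 : ContDiff ℝ 2 fun q : ℝ × (ι → ℝ) => H.cb c * H.La c q.2 := by
      refine contDiff_const.mul (contDiff_prod fun i _ => ?_)
      exact (h.lamC c i).comp ((contDiff_apply ℝ ℝ i).comp contDiff_snd)
    exact (Complex.ofRealCLM.contDiff.comp h1).neg.contDiffOn
  per := fun t _ θ j => by
    have : H.La c (Function.update θ j (θ j + 2 * Real.pi)) = H.La c θ := by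
      refine Finset.prod_congr rfl fun i _ => ?_
      by_cases hi : i = j
      · subst hi; rw [Function.update_self, h.lamper]
      · rw [Function.update_of_ne hi]
    simp only [Cb, this]
  ind := fun j hj t _ θ x => by
    have : H.La c (Function.update θ j x) = H.La c θ := by
      refine Finset.prod_congr rfl fun i _ => ?_
      by_cases hi : i = j
      · subst hi; exact h.lamind c i hj _ _
      · rw [Function.update_of_ne hi]
    simp only [Cb, this]

theorem Ok.coef (h : H.Ok T e) : ∀ v, Coef T (H.E v) (H.C v)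
  | .inl i => h.coef_o i
  | .inr (.inl v) => h.coef_c v
  | .inr (.inr c) => h.coef_b c

theorem Ok.D0 (h : H.Ok T e) (i : ι) : 0 < H.D i := by linarith [h.D2 i]

theorem Ok.wE (h : H.Ok T e) : ∀ v, ∑ i, (1 / H.D i) * H.E v i = 1
  | .inl i => by
    have : ∀ j, (1 / H.D j) * H.E (.inl i) j = if j = i then 1 else 0 := by
      intro j
      by_cases hj : j = i
      · subst hj
        rw [if_pos rfl]
        show (1 / H.D j) * (Pi.single j (H.D j) : ι → ℝ) j = 1
        rw [Pi.single_eq_same, one_div, inv_mul_cancel₀ (h.D0 j).ne']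
      · rw [if_neg hj]
        show (1 / H.D j) * (Pi.single i (H.D i) : ι → ℝ) j = 0
        rw [Pi.single_eq_of_ne hj, mul_zero]
    rw [Finset.sum_congr rfl fun j _ => this j]
    simp
  | .inr (.inl v) => by
    refine (Finset.sum_congr rfl fun j _ => ?_).trans (h.shW v)
    show 1 / H.D j * H.sh v j = _
    ring
  | .inr (.inr c) => by
    refine (Finset.sum_congr rfl fun j _ => ?_).trans (h.thW c)
    show 1 / H.D j * H.th c j = _
    ring

/-! ### angular derivatives -/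

theorem Ok.dC_o (h : H.Ok T e) (j : ι) (t : ℝ) (θ : ι → ℝ) (i : ι) :
    dC (H.Co j) t θ i = if i = j then
      ((deriv (H.p i) (θ i) : ℝ) : ℂ) * (Complex.I * cis (H.p i (θ i))) else 0 := by
  by_cases hij : i = j
  · subst hij
    rw [if_pos rfl, dC]
    have h1 : (fun x => H.Co i (t, Function.update θ i x)) = fun x => cis (H.p i x) := by
      funext x; simp [Co]
    rw [h1]
    have h2 : HasDerivAt (H.p i) (deriv (H.p i) (θ i)) (θ i) :=
      ((h.pC i).differentiable (by norm_num) _).hasDerivAt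
    have h3 := (hasDerivAt_cis (H.p i (θ i))).scomp (θ i) h2
    rw [Complex.real_smul] at h3
    exact h3.deriv
  · rw [if_neg hij, dC]
    have h1 : (fun x => H.Co j (t, Function.update θ i x)) = fun _ => cis (H.p j (θ j)) := by
      funext x; simp [Co, Function.update_of_ne (Ne.symm hij)]
    rw [h1, deriv_const]

theorem Ok.hasDeriv_Φ (h : H.Ok T e) (v : ε) (θ : ι → ℝ) (i : ι) :
    HasDerivAt (fun x => H.Φ v (lft H.ph (Function.update θ i x)))
      (wt (H.Φ v) (lft H.ph θ) i * deriv (H.ph i) (θ i)) (θ i) := by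
  have h2 : HasDerivAt (fun x => Function.update (lft H.ph θ) i (H.ph i x))
      (Pi.single i (deriv (H.ph i) (θ i))) (θ i) := by
    rw [hasDerivAt_pi]
    intro j
    by_cases hj : j = i
    · subst hj
      simp only [Function.update_self, Pi.single_eq_same]
      exact ((h.phC j).differentiable (by norm_num) _).hasDerivAt
    · simp only [Function.update_of_ne hj, Pi.single_eq_of_ne hj]
      exact hasDerivAt_const _ _
  have e1 : ∀ x, lft H.ph (Function.update θ i x) =
      Function.update (lft H.ph θ) i (H.ph i x) := by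
    intro x
    funext j
    by_cases hj : j = i
    · subst hj; simp [lft]
    · simp [lft, Function.update_of_ne hj]
  have e2 : Function.update (lft H.ph θ) i (H.ph i (θ i)) = lft H.ph θ := by
    have : H.ph i (θ i) = lft H.ph θ i := rfl
    rw [this, Function.update_eq_self]
  simp only [e1]
  have h3 : HasFDerivAt (H.Φ v) (fderiv ℝ (H.Φ v) (lft H.ph θ))
      (Function.update (lft H.ph θ) i (H.ph i (θ i))) := by
    rw [e2]; exact ((h.Φp v).diff _).hasFDerivAt
  have h4 := h3.comp_hasDerivAt (θ i) h2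
  have h6 : (Pi.single i (deriv (H.ph i) (θ i)) : ι → ℝ) =
      (deriv (H.ph i) (θ i)) • Pi.single i (1 : ℝ) := by
    rw [← Pi.single_smul, smul_eq_mul, mul_one]
  rw [h6, map_smul, smul_eq_mul, mul_comm] at h4
  exact h4

theorem Ok.diff_amp (h : H.Ok T e) (hT : IsOpen T) (v : ε) {t : ℝ} (ht : t ∈ T) (θ : ι → ℝ)
    (i : ι) : DifferentiableAt ℝ (fun x => H.amp v (t, Function.update θ i x)) (θ i) := by
  have h1 : DifferentiableAt ℝ (H.amp v) ((fun x : ℝ => (t, Function.update θ i x)) (θ i)) :=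
    ((h.ampC v _ ⟨ht, mem_univ _⟩).contDiffAt
      ((hT.prod isOpen_univ).mem_nhds ⟨ht, mem_univ _⟩)).differentiableAt (by norm_num)
  exact h1.comp (θ i) ((differentiableAt_const t).prodMk
    (hasDerivAt_update θ i (θ i)).differentiableAt)

/-- where the own phase moves only the phase of a coupling moves -/
theorem Ok.dC_c (h : H.Ok T e) (hT : IsOpen T) (v : ε) {t : ℝ} (ht : t ∈ T) (θ : ι → ℝ) (i : ι)
    (hp : deriv (H.p i) (θ i) ≠ 0) :
    dC (H.Cc v) t θ i = ((H.amp v (t, θ) * (wt (H.Φ v) (lft H.ph θ) i * deriv (H.ph i) (θ i)) : ℝ)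
      : ℂ) * (Complex.I * cis (H.Φ v (lft H.ph θ))) := by
  have h1 : HasDerivAt (fun x => (H.amp v (t, Function.update θ i x) : ℂ)) ((0 : ℝ) : ℂ) (θ i) := by
    have := (h.diff_amp hT v ht θ i).hasDerivAt
    rw [h.ampd v i t ht θ hp] at this
    exact this.ofReal_comp
  have h2 := (hasDerivAt_cis (H.Φ v (lft H.ph (Function.update θ i (θ i))))).scomp (θ i)
    (h.hasDeriv_Φ v θ i)
  rw [Function.update_eq_self, Complex.real_smul] at h2
  have h3 := h1.mul h2
  rw [dC]
  have h4 : (fun x => H.Cc v (t, Function.update θ i x)) = (fun x => (H.amp v (t, Function.update θ i x) : ℂ)) *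
      (cis ∘ fun x => H.Φ v (lft H.ph (Function.update θ i x))) := rfl
  rw [h4, h3.deriv]
  simp only [Function.comp, Function.update_eq_self, Complex.ofReal_zero, zero_mul, zero_add]
  push_cast
  ring

/-- where the own phase moves no box moves -/
theorem Ok.dC_b (h : H.Ok T e) (c : β) (t : ℝ) (θ : ι → ℝ) (i : ι)
    (hp : deriv (H.p i) (θ i) ≠ 0) : dC (H.Cb c) t θ i = 0 := by
  have h1 : HasDerivAt (H.lam c i) 0 (θ i) := by
    have := ((h.lamC c i).differentiable (by norm_num) (θ i)).hasDerivAt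
    rwa [h.lamd c i _ hp] at this
  have h2 : ∀ x, H.La c (Function.update θ i x) =
      H.lam c i x * ∏ j ∈ Finset.univ.erase i, H.lam c j (θ j) := by
    intro x
    rw [La, ← Finset.mul_prod_erase Finset.univ _ (Finset.mem_univ i), Function.update_self]
    congr 1
    refine Finset.prod_congr rfl fun j hj => ?_
    rw [Function.update_of_ne (Finset.ne_of_mem_erase hj)]
  have h3 : HasDerivAt (fun x => H.cb c * H.La c (Function.update θ i x)) 0 (θ i) := by
    simp only [h2]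
    have := (h1.mul_const (∏ j ∈ Finset.univ.erase i, H.lam c j (θ j))).const_mul (H.cb c)
    simpa using this
  have h4 := h3.ofReal_comp.neg
  rw [dC]
  have h5 : (fun x => H.Cb c (t, Function.update θ i x)) =
      -fun x => ((H.cb c * H.La c (Function.update θ i x) : ℝ) : ℂ) := rfl
  rw [h5]
  have h6 := h4.deriv
  simpa using h6

/-! ### the data at a point -/

variable (H)

/-- modulus of an own term -/
def R (z : ι → ℂ) (i : ι) : ℝ := ‖z i‖ ^ H.D i

/-- direction of an own term -/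
def ka (z : ι → ℂ) (i : ι) : ℂ := cis (H.p i (ag z i))

/-- modulus of a coupling -/
def r (t : ℝ) (z : ι → ℂ) (v : ε) : ℝ := H.amp v (t, ag z) * mag (H.sh v) z

/-- direction of a coupling -/
def ta (z : ι → ℂ) (v : ε) : ℂ := cis (H.Φ v (lft H.ph (ag z)))

/-- deletion -/
def B (z : ι → ℂ) (c : β) : ℝ := H.cb c * H.La c (ag z) * mag (H.th c) z

/-- in a hub lobe -/
def act (z : ι → ℂ) (i : ι) : Prop :=
  deriv (H.p i) (ag z i) ≠ 0 ∧ deriv (H.ph i) (ag z i) ≠ 0

/-- in a lobe of the word sector -/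
def inJ (z : ι → ℂ) (i : ι) : Prop :=
  deriv (H.p i) (ag z i) ≠ 0 ∧ deriv (H.ph i) (ag z i) = 0

/-- pointwise data at a critical zero -/
structure Out (e t : ℝ) (z : ι → ℂ) (ζ : ℂ) : Prop where
  norm : ‖ζ‖ = 1
  re : 0 ≤ ζ.re
  /-- radial equations -/
  rad : ∀ i, H.R z i * rf ζ (H.ka z i) + ∑ v, H.sh v i / H.D i * (H.r t z v * rf ζ (H.ta z v)) =
    ζ.re * ∑ c, H.th c i / H.D i * H.B z c
  /-- own directions -/
  own : ∀ i, 0 < H.R z i → deriv (H.p i) (ag z i) ≠ 0 → |jf ζ (H.ka z i)| ≤ e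
  /-- own directions in the word sector -/
  ownJ : ∀ i, 0 < H.R z i → H.inJ z i → jf ζ (H.ka z i) = 0
  /-- couplings -/
  cpl : ∀ v, 0 < H.r t z v → |jf ζ (H.ta z v)| ≤ 2 * e
  /-- real conormal, or everything off-lobe, flat, deleted vanishes; in the second case every
  coupling follows a variable in a hub lobe -/
  alt : |ζ.im| ≤ e ∨ (e < |ζ.im| ∧ (∀ i, deriv (H.p i) (ag z i) = 0 → H.R z i = 0) ∧
    (∀ v, 0 < H.r t z v → ∃ i, H.act z i ∧ 0 < H.R z i ∧ H.sh v i ≠ 0 ∧
      ‖H.ta z v - H.ka z i‖ ≤ e) ∧ ∀ c, H.B z c = 0)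

variable {H}

theorem R_nonneg (z : ι → ℂ) (i : ι) : 0 ≤ H.R z i := Real.rpow_nonneg (norm_nonneg _) _

theorem Ok.R_pos_iff (h : H.Ok T e) (z : ι → ℂ) (i : ι) : 0 < H.R z i ↔ z i ≠ 0 := by
  constructor
  · rintro hR rfl'
    rw [R, rfl', norm_zero, Real.zero_rpow (h.D0 i).ne'] at hR
    exact lt_irrefl _ hR
  · exact fun hz => Real.rpow_pos_of_pos (norm_pos_iff.2 hz) _

theorem Ok.La_nonneg (h : H.Ok T e) (c : β) (θ : ι → ℝ) : 0 ≤ H.La c θ :=
  Finset.prod_nonneg fun i _ => h.lam0 c i _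

theorem Ok.B_nonneg (h : H.Ok T e) (z : ι → ℂ) (c : β) : 0 ≤ H.B z c :=
  mul_nonneg (mul_nonneg (h.cb0 c) (h.La_nonneg c _)) (mag_nonneg _ _)

theorem Ok.r_nonneg (h : H.Ok T e) {t : ℝ} (ht : t ∈ Icc (0 : ℝ) 1) (z : ι → ℂ) (v : ε) :
    0 ≤ H.r t z v :=
  mul_nonneg (h.amp0 v t ht _) (mag_nonneg _ _)

theorem r_pos_var {t : ℝ} {z : ι → ℂ} {v : ε} (hr : 0 < H.r t z v) {i : ι}
    (hs : H.sh v i ≠ 0) : z i ≠ 0 := by
  intro hz
  rw [r, mag_eq_zero hs hz, mul_zero] at hr
  exact lt_irrefl _ hr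

theorem mag_single (i : ι) (a : ℝ) (z : ι → ℂ) : mag (Pi.single i a) z = ‖z i‖ ^ a := by
  rw [mag, Finset.prod_eq_single i]
  · rw [Pi.single_eq_same]
  · intro j _ hj
    rw [Pi.single_eq_of_ne hj, Real.rpow_zero]
  · intro hi; exact absurd (Finset.mem_univ i) hi

theorem Ok.wt_zero (h : H.Ok T e) (v : ε) (i : ι) (hs : H.sh v i = 0) (u : ι → ℝ) :
    wt (H.Φ v) u i = 0 := by
  have h1 : HasDerivAt (fun x : ℝ => Function.update u i x) (Pi.single i 1) (u i) :=
    hasDerivAt_update u i (u i)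
  have h2 : HasFDerivAt (H.Φ v) (fderiv ℝ (H.Φ v) u) (Function.update u i (u i)) := by
    rw [Function.update_eq_self]; exact ((h.Φp v).diff _).hasFDerivAt
  have h3 := h2.comp_hasDerivAt (u i) h1
  have h4 : (H.Φ v ∘ fun x : ℝ => Function.update u i x) = fun _ => H.Φ v u := by
    funext x; exact h.Φind v i hs u x
  rw [h4] at h3
  exact h3.unique (hasDerivAt_const _ _)

/-- **engine**: at a critical zero -/
theorem Ok.out (h : H.Ok T e) (hT : IsOpen T) {t : ℝ} (ht : t ∈ T) (ht1 : t ∈ Icc (0 : ℝ) 1)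
    {z : ι → ℂ}
    (h0 : PF H.E H.C (t, z) = 0) (hb : Bad H.E H.C t (fun v => mag (H.E v) z) (ag z)) :
    ∃ ζ, H.Out e t z ζ := by
  classical
  obtain ⟨ζ, hn, hre, hE⟩ := PolCpt_943.bad_iff.1 hb
  -- magnitudes
  have mo : ∀ i, mag (H.E (.inl i)) z = H.R z i := fun i => mag_single i _ z
  -- radial equations
  have hrad : ∀ i, H.R z i * rf ζ (H.ka z i) +
      ∑ v, H.sh v i / H.D i * (H.r t z v * rf ζ (H.ta z v)) =
      ζ.re * ∑ c, H.th c i / H.D i * H.B z c := by
    intro i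
    have h1 := (hE i).1
    rw [Fintype.sum_sum_type, Fintype.sum_sum_type] at h1
    have e1 : ∑ j, H.E (.inl j) i * mag (H.E (.inl j)) z *
        ((starRingEnd ℂ) ζ * H.C (.inl j) (t, ag z)).re = H.D i * (H.R z i * rf ζ (H.ka z i)) := by
      rw [Finset.sum_eq_single i]
      · rw [mo]
        show (Pi.single i (H.D i) : ι → ℝ) i * H.R z i * ((starRingEnd ℂ) ζ * H.ka z i).re = _
        rw [Pi.single_eq_same, ← rf_eq]
        ring
      · intro j _ hj
        show (Pi.single j (H.D j) : ι → ℝ) i * _ * _ = 0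
        rw [Pi.single_eq_of_ne (Ne.symm hj), zero_mul, zero_mul]
      · intro hi; exact absurd (Finset.mem_univ i) hi
    have e2 : ∑ v, H.E (.inr (.inl v)) i * mag (H.E (.inr (.inl v))) z *
        ((starRingEnd ℂ) ζ * H.C (.inr (.inl v)) (t, ag z)).re =
        H.D i * ∑ v, H.sh v i / H.D i * (H.r t z v * rf ζ (H.ta z v)) := by
      rw [Finset.mul_sum]
      refine Finset.sum_congr rfl fun v _ => ?_
      show H.sh v i * mag (H.sh v) z * ((starRingEnd ℂ) ζ *
        ((H.amp v (t, ag z) : ℂ) * H.ta z v)).re = _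
      rw [← rf_eq, rf_real_mul, r]
      have := (h.D0 i).ne'
      field_simp
    have e3 : ∑ c, H.E (.inr (.inr c)) i * mag (H.E (.inr (.inr c))) z *
        ((starRingEnd ℂ) ζ * H.C (.inr (.inr c)) (t, ag z)).re =
        -(H.D i * (ζ.re * ∑ c, H.th c i / H.D i * H.B z c)) := by
      rw [Finset.mul_sum, Finset.mul_sum, ← Finset.sum_neg_distrib]
      refine Finset.sum_congr rfl fun c _ => ?_
      show H.th c i * mag (H.th c) z * ((starRingEnd ℂ) ζ *
        (-((H.cb c * H.La c (ag z) : ℝ) : ℂ))).re = _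
      rw [← rf_eq, ← Complex.ofReal_neg, rf_ofReal, B]
      have := (h.D0 i).ne'
      field_simp
    rw [e1, e2, e3] at h1
    have hD := h.D0 i
    have h2 : H.D i * (H.R z i * rf ζ (H.ka z i) +
        ∑ v, H.sh v i / H.D i * (H.r t z v * rf ζ (H.ta z v)) -
        ζ.re * ∑ c, H.th c i / H.D i * H.B z c) = 0 := by linarith
    have h3 := (mul_eq_zero.1 h2).resolve_left hD.ne'
    linarith
  -- angular equations
  have hang : ∀ i, deriv (H.p i) (ag z i) ≠ 0 →
      deriv (H.p i) (ag z i) * (H.R z i * jf ζ (H.ka z i)) + deriv (H.ph i) (ag z i) *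
        ∑ v, wt (H.Φ v) (lft H.ph (ag z)) i * (H.r t z v * jf ζ (H.ta z v)) = 0 := by
    intro i hp
    have h1 := (hE i).2
    rw [Fintype.sum_sum_type, Fintype.sum_sum_type] at h1
    have e1 : ∑ j, mag (H.E (.inl j)) z * ((starRingEnd ℂ) ζ * dC (H.C (.inl j)) t (ag z) i).re =
        -(deriv (H.p i) (ag z i) * (H.R z i * jf ζ (H.ka z i))) := by
      rw [Finset.sum_eq_single i]
      · rw [mo]
        have : dC (H.C (.inl i)) t (ag z) i = _ := h.dC_o i t (ag z) i
        rw [this, if_pos rfl, ← rf_eq, rf_real_mul, rf_I_mul]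
        show _ = -(deriv (H.p i) (ag z i) * (H.R z i * jf ζ (cis (H.p i (ag z i)))))
        ring
      · intro j _ hj
        have : dC (H.C (.inl j)) t (ag z) i = _ := h.dC_o j t (ag z) i
        rw [this, if_neg (Ne.symm hj), mul_zero, Complex.zero_re, mul_zero]
      · intro hi; exact absurd (Finset.mem_univ i) hi
    have e2 : ∑ v, mag (H.E (.inr (.inl v))) z *
        ((starRingEnd ℂ) ζ * dC (H.C (.inr (.inl v))) t (ag z) i).re =
        -(deriv (H.ph i) (ag z i) *
          ∑ v, wt (H.Φ v) (lft H.ph (ag z)) i * (H.r t z v * jf ζ (H.ta z v))) := by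
      rw [Finset.mul_sum, ← Finset.sum_neg_distrib]
      refine Finset.sum_congr rfl fun v _ => ?_
      have : dC (H.C (.inr (.inl v))) t (ag z) i = _ := h.dC_c hT v ht (ag z) i hp
      rw [this, ← rf_eq, rf_real_mul, rf_I_mul, r]
      show mag (H.sh v) z * _ = _
      show _ = -(deriv (H.ph i) (ag z i) * (wt (H.Φ v) (lft H.ph (ag z)) i *
        (H.amp v (t, ag z) * mag (H.sh v) z * jf ζ (cis (H.Φ v (lft H.ph (ag z)))))))
      ring
    have e3 : ∑ c, mag (H.E (.inr (.inr c))) z *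
        ((starRingEnd ℂ) ζ * dC (H.C (.inr (.inr c))) t (ag z) i).re = 0 := by
      refine Finset.sum_eq_zero fun c _ => ?_
      have : dC (H.C (.inr (.inr c))) t (ag z) i = _ := h.dC_b c t (ag z) i hp
      rw [this, mul_zero, Complex.zero_re, mul_zero]
    rw [e1, e2, e3] at h1
    linarith
  -- the value
  have hval : ∑ i, H.R z i * jf ζ (H.ka z i) + ∑ v, H.r t z v * jf ζ (H.ta z v) +
      (∑ c, H.B z c) * ζ.im = 0 := by
    have h1 : jf ζ (PF H.E H.C (t, z)) = 0 := by rw [h0]; simp [jf]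
    rw [PF, jf_sum, Fintype.sum_sum_type, Fintype.sum_sum_type] at h1
    have e1 : ∀ i, jf ζ (PM (H.E (.inl i)) (H.C (.inl i)) (t, z)) = H.R z i * jf ζ (H.ka z i) := by
      intro i
      rw [PM, jf_real_mul]
      show mag (H.E (.inl i)) z * _ = _
      rw [mo]; rfl
    have e2 : ∀ v, jf ζ (PM (H.E (.inr (.inl v))) (H.C (.inr (.inl v))) (t, z)) =
        H.r t z v * jf ζ (H.ta z v) := by
      intro v
      rw [PM, jf_real_mul]
      show mag (H.sh v) z * jf ζ ((H.amp v (t, ag z) : ℂ) * H.ta z v) = _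
      rw [jf_real_mul, r]; ring
    have e3 : ∀ c, jf ζ (PM (H.E (.inr (.inr c))) (H.C (.inr (.inr c))) (t, z)) =
        H.B z c * ζ.im := by
      intro c
      rw [PM, jf_real_mul]
      show mag (H.th c) z * jf ζ (-((H.cb c * H.La c (ag z) : ℝ) : ℂ)) = _
      rw [← Complex.ofReal_neg, jf_ofReal, B]; ring
    rw [Finset.sum_congr rfl fun i _ => e1 i, Finset.sum_congr rfl fun v _ => e2 v,
      Finset.sum_congr rfl fun c _ => e3 c, ← Finset.sum_mul] at h1
    linarith
  -- states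
  have hact : ∀ i, H.act z i → deriv (H.ph i) (ag z i) = deriv (H.p i) (ag z i) ∧
      H.ka z i = cis (lft H.ph (ag z) i) := by
    rintro i ⟨h1, h2⟩
    rcases h.st i (ag z i) with h3 | h3 | h3
    · exact ⟨h3.2.1, h3.2.2.symm⟩
    · exact absurd h3.2.1 h2
    · exact absurd h3.1 h1
  have hoff : ∀ i, ¬ H.act z i → cis (lft H.ph (ag z) i) = -1 := by
    intro i hi
    rcases h.st i (ag z i) with h3 | h3 | h3
    · exact absurd ⟨h3.1, by rw [h3.2.1]; exact h3.1⟩ hi
    · exact h3.2.2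
    · exact h3.2.2.2
  have hJ : ∀ i, ¬ H.act z i → ¬ H.inJ z i → H.ka z i = -1 := by
    intro i hi hi'
    rcases h.st i (ag z i) with h3 | h3 | h3
    · exact absurd ⟨h3.1, by rw [h3.2.1]; exact h3.1⟩ hi
    · exact absurd ⟨h3.1, h3.2.1⟩ hi'
    · exact h3.2.2.1
  let P : Stair_739.Dat ι ε := datOf H.Φ h.Φp h.e0 (lft H.ph (ag z)) (H.act z) (H.inJ z)
    (H.R z) (R_nonneg z) (H.r t z) (h.r_nonneg ht1 z) (H.ka z) (fun i => norm_cis _)
    (fun i hi => (hact i hi).2) hoff hJ
  have hB : 0 ≤ ∑ c, H.B z c := Finset.sum_nonneg fun c _ => h.B_nonneg z c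
  have hst := Stair_739.stair P hn (∑ c, H.B z c) hB (by
    intro i hi
    show H.R z i * jf ζ (H.ka z i) + ∑ v, (if H.act z i then wt (H.Φ v) (lft H.ph (ag z)) i else 0) *
      (H.r t z v * jf ζ (H.ta z v)) = 0
    by_cases ha : H.act z i
    · simp only [if_pos ha]
      have h1 := hang i ha.1
      rw [(hact i ha).1, ← mul_add] at h1
      exact (mul_eq_zero.1 h1).resolve_left ha.1
    · simp only [if_neg ha, zero_mul, Finset.sum_const_zero, add_zero]
      have hj : H.inJ z i := hi.resolve_left ha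
      have h1 := hang i hj.1
      rw [hj.2, zero_mul, add_zero] at h1
      exact (mul_eq_zero.1 h1).resolve_left hj.1) hval
  have hon : ∀ i, deriv (H.p i) (ag z i) ≠ 0 → (H.act z i ∨ H.inJ z i) := by
    intro i hi
    by_cases h1 : deriv (H.ph i) (ag z i) = 0
    · exact Or.inr ⟨hi, h1⟩
    · exact Or.inl ⟨hi, h1⟩
  have hown : ∀ i, 0 < H.R z i → deriv (H.p i) (ag z i) ≠ 0 → |jf ζ (H.ka z i)| ≤ e :=
    fun i hR hi => hst.1 i (hon i hi) hR
  have hownJ : ∀ i, 0 < H.R z i → H.inJ z i → jf ζ (H.ka z i) = 0 := by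
    intro i hR hj
    have h1 := hang i hj.1
    rw [hj.2, zero_mul, add_zero] at h1
    exact (mul_eq_zero.1 ((mul_eq_zero.1 h1).resolve_left hj.1)).resolve_left hR.ne'
  -- a coupling follows a variable in a hub lobe, or is flat
  have hfol : ∀ v, 0 < H.r t z v → (∃ i, H.act z i ∧ 0 < H.R z i ∧ H.sh v i ≠ 0 ∧
      ‖H.ta z v - H.ka z i‖ ≤ e) ∨ (‖H.ta z v - (-1)‖ ≤ e ∧
        ∑ i, (if H.act z i then wt (H.Φ v) (lft H.ph (ag z)) i else 0) = 0) := by
    intro v hv
    by_cases hex : ∃ i, H.act z i ∧ 0 < wt (H.Φ v) (lft H.ph (ag z)) i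
    · obtain ⟨i, hi, hw⟩ := hex
      left
      have hs : H.sh v i ≠ 0 := by
        intro hs
        rw [h.wt_zero v i hs] at hw
        exact lt_irrefl _ hw
      refine ⟨i, hi, (h.R_pos_iff z i).2 (r_pos_var hv hs), hs, ?_⟩
      rw [(hact i hi).2]
      exact (h.Φp v).close _ i hw
    · right
      push Not at hex
      have hs0 : ∑ i, (if H.act z i then wt (H.Φ v) (lft H.ph (ag z)) i else 0) = 0 := by
        refine Finset.sum_eq_zero fun i _ => ?_
        split_ifs with hi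
        · exact le_antisymm (hex i hi) ((h.Φp v).nn _ i)
        · rfl
      refine ⟨?_, hs0⟩
      exact P.flat v (by
        show ∑ i, (if H.act z i then wt (H.Φ v) (lft H.ph (ag z)) i else 0) < 1
        rw [hs0]; exact one_pos)
  have him1 : ∀ w : ℂ, ‖w - (-1)‖ ≤ e → |ζ.im| ≤ e → |jf ζ w| ≤ 2 * e := by
    intro w hw hi
    have h1 := Stair_739.jf_close hn hw
    have h2 : jf ζ (-1) = ζ.im := by simp [jf]
    rw [h2] at h1
    have := abs_sub_abs_le_abs_sub (jf ζ w) ζ.im
    linarith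
  have hfol' : ∀ v i, H.act z i → 0 < H.R z i → ‖H.ta z v - H.ka z i‖ ≤ e →
      |jf ζ (H.ta z v)| ≤ 2 * e := by
    intro v i hi hR hc
    have h1 := Stair_739.jf_close hn hc
    have h2 := hown i hR hi.1
    have := abs_sub_abs_le_abs_sub (jf ζ (H.ta z v)) (jf ζ (H.ka z i))
    linarith
  have halt : |ζ.im| ≤ e ∨ (e < |ζ.im| ∧ (∀ i, deriv (H.p i) (ag z i) = 0 → H.R z i = 0) ∧
      (∀ v, 0 < H.r t z v → ∃ i, H.act z i ∧ 0 < H.R z i ∧ H.sh v i ≠ 0 ∧
        ‖H.ta z v - H.ka z i‖ ≤ e) ∧ ∀ c, H.B z c = 0) := by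
    rcases le_or_gt |ζ.im| e with hi | hi
    · exact Or.inl hi
    · right
      rcases hst.2 with h1 | ⟨h1, h2, h3⟩
      · exact absurd h1 (not_le.2 hi)
      · refine ⟨hi, fun i hp => h1 i ?_, fun v hv => ?_, fun c => ?_⟩
        · rintro (h4 | h4)
          · exact h4.1 hp
          · exact h4.1 hp
        · rcases hfol v hv with h4 | ⟨-, h4⟩
          · exact h4
          · rcases h2 v with h5 | h5
            · exact absurd h5 hv.ne'
            · exfalso
              have h6 : ∑ i, (if H.act z i then wt (H.Φ v) (lft H.ph (ag z)) i else 0) = 1 := h5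
              rw [h4] at h6
              exact zero_ne_one h6
        · exact (Finset.sum_eq_zero_iff_of_nonneg fun c _ => h.B_nonneg z c).1 h3 c
            (Finset.mem_univ c)
  refine ⟨ζ, hn, hre, hrad, hown, hownJ, fun v hv => ?_, halt⟩
  rcases halt with hi | hi
  · rcases hfol v hv with ⟨i, h1, h2, -, h3⟩ | ⟨h1, -⟩
    · exact hfol' v i h1 h2 h3
    · exact him1 _ h1 hi
  · obtain ⟨i, h1, h2, -, h3⟩ := hi.2.2.1 v hv
    exact hfol' v i h1 h2 h3

/-- **`0`-regular path** from the exclusion of `Out` -/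
theorem Ok.hpath0 (h : H.Ok T e) (hT : IsOpen T) (hsub : Icc (0 : ℝ) 1 ⊆ T)
    (hno : ∀ t ∈ Icc (0 : ℝ) 1, ∀ z : ι → ℂ, z ≠ 0 → ∀ ζ, ¬ H.Out e t z ζ) : HPath0 H.fn := by
  refine PolF_943.hpath0 hT hsub h.coef (w := fun i => 1 / H.D i)
    (fun i => one_div_pos.2 (h.D0 i)) h.wE fun t ht z hz h0 hb => ?_
  obtain ⟨ζ, hζ⟩ := h.out hT (hsub ht) ht h0 hb
  exact hno t ht z hz ζ hζ

end Hub

end Crest.Agent.R267.HubEng_370
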