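import Crest.Agent.R267.ArmExB_649
import Crest.Agent.R267.HubDefs_284

/-!
# Row 267, N2 EXIT, part C (helper649): from `NS.fin` to the literal words and windows

`exitA` : `AEq b v (PA b v (S.fin.h u0 W 0)) (PA b v (HE D v u0 W))` for small `u0`, large `W`.
Steps: rotation of all phases; windows `kl → WW`; own words `pE → pT`.
-/

set_option autoImplicit false

noncomputable section

open Set Filter Topology Finset
open Crest.Agent.R267.T3aDefs_957 (st)
open Crest.Agent.R267.T3aNDefs_88 (SD)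
open Crest.Agent.R267.Calc_957
open Crest.Agent.R267.GlNDefs_9 (se cen tot Arcs WinA)
open Crest.Agent.R267.WordPh_9 Crest.Agent.R267.WordPh2_9
open Crest.Agent.R267.NSDefs_966
open Crest.Agent.R267.NdY_484 Crest.Agent.R267.PolArm_484
open Crest.Agent.R267.ArmPt_649 Crest.Agent.R267.ArmExA_649 Crest.Agent.R267.ArmExB_649
open Crest.Agent.R267.HubDefs_284 (pp ww)

namespace Crest.Agent.R267.ArmExC_649

/-! ### literal interface with `ArmExitB_502` -/

/-- the windows of the arm `v` -/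
def WW (D : SD 4) (v : Fin 3) (θ ω : ℝ) : ℝ :=
  ∑ e ∈ univ.filter (fun e => (D.bx e).S = {v.castSucc, 3}), ww D e v.castSucc θ * ww D e 3 ω

/-- the arm with the literal words and windows, exponent `15/2`, both cut-offs -/
def HE (D : SD 4) (v : Fin 3) (u0 W : ℝ) (z : ℝ × ℝ × ℝ) : ℂ :=
  ((ca u0 z.2.1 * z.2.1 ^ 15 : ℝ) : ℂ) *
      Ang_739.cis (cb W z.2.1 * pp D 3 z.2.2 + (1 - cb W z.2.1) * (15 * z.2.2)) +
    (cb W z.2.1 : ℂ) * (Ang_739.cis (pp D v.castSucc z.1) -
      ((ca u0 z.2.1 * (5 * z.2.1 ^ (15 / 2 : ℝ) * WW D v z.1 z.2.2) : ℝ) : ℂ))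

/-- the data `D` -/
structure DOk (D : SD 4) : Prop where
  hlo : ∀ e, ∀ j ∈ (D.bx e).S, (D.bx e).lo j ≤ (D.bx e).hi j
  hM3 : D.M 3 = 14
  hs3 : ∀ l, D.neg 3 l = false

/-- the lobes `(i, l)` are in a pair box of `v` and `w` -/
def Kl (D : SD 4) (v : Fin 3) (i l : ℕ) : Prop := ∃ e, (D.bx e).S = {v.castSucc, 3} ∧
  ((D.bx e).lo v.castSucc < i ∧ i ≤ (D.bx e).hi v.castSucc) ∧
  ((D.bx e).lo 3 < l ∧ l ≤ (D.bx e).hi 3)

/-- the nested system `S` belongs to the arm `v` of `D` -/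
structure Match {m : ℕ} (S : NS m) (D : SD 4) (v : Fin 3) : Prop where
  n : S.n = D.M v.castSucc + 1
  sg : ∀ i : ℕ, i ≤ D.M v.castSucc → ((S.sg i : ℤ) : ℝ) = se (D.sn v.castSucc) i
  kill : ∀ i l : ℕ, i ≤ D.M v.castSucc → l ≤ 14 → (S.kill i l ↔ Kl D v i l)

variable {m : ℕ} {S : NS m} {D : SD 4} {v : Fin 3}

/-! ### circles -/

/-- heights of the `v`-circle -/
def Nv (S : NS m) (k : ℤ) : ℤ := S.N (Fin.last (m + 1)) k 0

theorem circ_v (hS : S.Ok) (hM : Match S D v) :
    Circ (D.M v.castSucc) (D.sn v.castSucc) (Nv S) S.sg where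
  sg1 := hS.sg1
  step := fun k => hS.N1s k 0
  per := fun k => by
    have h := hS.perk (Fin.last (m + 1)) k 0
    rw [hS.i1, hM.n] at h
    have e1 : (k + (((D.M v.castSucc + 1 : ℕ)) : ℤ)) = k + ((D.M v.castSucc : ℤ) + 1) := by
      push_cast; ring
    rw [e1] at h
    unfold Nv
    rw [h]
    norm_num
  se := hM.sg

/-- heights of the `w`-circle -/
def Nw (k : ℤ) : ℤ := k

theorem circ_w (hD : DOk D) : Circ 14 (D.sn 3) Nw fun _ => 1 where
  sg1 := fun _ => Or.inl rfl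
  step := fun k => rfl
  per := fun k => by unfold Nw; norm_num
  se := fun i _ => by
    unfold se SD.sn
    split
    · norm_num
    · rw [hD.hs3]; norm_num

theorem Nw_zero : Nw 0 = 0 := rfl

theorem hx_Nw (y : ℝ) : hx Nw y = Sp y := by
  unfold hx
  obtain ⟨k, f, h0, h1, h2⟩ : ∃ (k : ℤ) (f : ℝ), 0 ≤ f ∧ f ≤ 1 ∧ Sp y = k + f :=
    ⟨⌊Sp y⌋, Int.fract (Sp y), Int.fract_nonneg _, (Int.fract_lt_one _).le,
      (Int.floor_add_fract _).symm⟩
  rw [h2, il_add _ _ h0 h1]
  unfold Nw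
  push_cast
  ring

theorem Sp_zero : Sp 0 = ((0 : ℤ) : ℝ) := by
  have := Sp_loc (k := 0) (x := 0) (by norm_num) (by norm_num)
  rw [this]
  simp [st_of_le]

theorem hat_eq (x : ℝ) : S.hat (Fin.last (m + 1)) x 0 = hx (Nv S) x := by
  unfold NS.hat
  rw [bil_eq, Sp_zero]
  unfold hx Nv
  congr 1
  funext k
  rw [il_int]

/-! ### killed cells -/

open Classical in
/-- indicator of the killed cells -/
def K1 (S : NS m) (k l : ℤ) : ℝ := if S.kill k l then 1 else 0

theorem kl_eq (x y : ℝ) : S.kl x y = kw (K1 S) x y := by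
  unfold NS.kl kw
  congr 1

theorem K1_nonneg (k l : ℤ) : 0 ≤ K1 S k l := by
  unfold K1
  split_ifs
  · exact zero_le_one
  · exact le_rfl

theorem flat_n (hS : S.Ok) (s : Fin (m + 2)) (k l : ℤ) :
    S.flat s (k + S.n) l ↔ S.flat s k l := by
  unfold NS.flat
  have e1 : k + (S.n : ℤ) + 1 = (k + 1) + S.n := by ring
  rw [e1, hS.perk, hS.perk, hS.perk, hS.perk]
  constructor <;> rintro ⟨h1, h2, h3⟩ <;> refine ⟨?_, ?_, ?_⟩ <;> linarith

theorem flat_15 (hS : S.Ok) (s : Fin (m + 2)) (k l : ℤ) :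
    S.flat s k (l + 15) ↔ S.flat s k l := by
  unfold NS.flat
  have e1 : l + 15 + 1 = (l + 1) + 15 := by ring
  rw [e1, hS.perl, hS.perl, hS.perl, hS.perl]
  constructor <;> rintro ⟨h1, h2, h3⟩ <;> refine ⟨?_, ?_, ?_⟩ <;> linarith

theorem K1_n (hS : S.Ok) (k l : ℤ) : K1 S (k + S.n) l = K1 S k l := by
  unfold K1
  have : S.kill (k + S.n) l ↔ S.kill k l := exists_congr fun s => flat_n hS s k l
  simp only [this]

theorem K1_15 (hS : S.Ok) (k l : ℤ) : K1 S k (l + 15) = K1 S k l := by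
  unfold K1
  have : S.kill k (l + 15) ↔ S.kill k l := exists_congr fun s => flat_15 hS s k l
  simp only [this]

theorem K1_n_int (hS : S.Ok) (j k l : ℤ) : K1 S (k + S.n * j) l = K1 S k l := by
  induction j using Int.induction_on with
  | zero => simp
  | succ j ih =>
    rw [show k + (S.n : ℤ) * ((j : ℤ) + 1) = (k + S.n * j) + S.n by ring, K1_n hS, ih]
  | pred j ih =>
    rw [← K1_n hS, show k + (S.n : ℤ) * (-(j : ℤ) - 1) + S.n = k + S.n * -(j : ℤ) by ring, ih]

theorem K1_15_int (hS : S.Ok) (j k l : ℤ) : K1 S k (l + 15 * j) = K1 S k l := by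
  induction j using Int.induction_on with
  | zero => simp
  | succ j ih =>
    rw [show l + 15 * ((j : ℤ) + 1) = (l + 15 * j) + 15 by ring, K1_15 hS, ih]
  | pred j ih =>
    rw [← K1_15 hS, show l + 15 * (-(j : ℤ) - 1) + 15 = l + 15 * -(j : ℤ) by ring, ih]

/-! ### the windows in cell coordinates -/

/-- `WW` in cell coordinates -/
def WC (D : SD 4) (v : Fin 3) (x y : ℝ) : ℝ :=
  WW D v (2 * Real.pi * x / (D.M v.castSucc + 1)) (2 * Real.pi * y / (14 + 1))

theorem mem_v {e : Fin D.nb} (he : (D.bx e).S = {v.castSucc, 3}) : v.castSucc ∈ (D.bx e).S := by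
  rw [he]; exact mem_insert_self _ _

theorem mem_3 {e : Fin D.nb} (he : (D.bx e).S = {v.castSucc, 3}) : (3 : Fin 4) ∈ (D.bx e).S := by
  rw [he]; exact mem_insert_of_mem (mem_singleton_self _)

theorem winA_ww (hD : DOk D) {e : Fin D.nb} {j : Fin 4} (hj : j ∈ (D.bx e).S) :
    WinA (D.M j) (aE (D.M j)) (bE (D.M j)) ((D.bx e).lo j) ((D.bx e).hi j) (ww D e j) :=
  winA (arcsE _) (hD.hlo e j hj) (D.hhi e j hj)

theorem WW_nonneg (hD : DOk D) (θ ω : ℝ) : 0 ≤ WW D v θ ω := by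
  unfold WW
  refine Finset.sum_nonneg fun e he => ?_
  have he' := (Finset.mem_filter.1 he).2
  exact mul_nonneg ((winA_ww hD (mem_v he')).nn _) ((winA_ww hD (mem_3 he')).nn _)

theorem contDiff_WC (hD : DOk D) : ContDiff ℝ 2 fun z : ℝ × ℝ => WC D v z.1 z.2 := by
  unfold WC WW
  refine ContDiff.sum fun e he => ?_
  have he' := (Finset.mem_filter.1 he).2
  exact ((winA_ww hD (mem_v he')).smooth.comp (by fun_prop : ContDiff ℝ 2 fun z : ℝ × ℝ =>
    2 * Real.pi * z.1 / (D.M v.castSucc + 1))).mul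
    ((winA_ww hD (mem_3 he')).smooth.comp (by fun_prop : ContDiff ℝ 2 fun z : ℝ × ℝ =>
    2 * Real.pi * z.2 / (14 + 1)))

theorem WC_dx (hD : DOk D) {k : ℤ} {x : ℝ} (hx : |x - k| < tau) (y : ℝ) :
    deriv (fun x => WC D v x y) x = 0 := by
  unfold WC WW
  have key : HasDerivAt (fun x => ∑ e ∈ univ.filter (fun e => (D.bx e).S = {v.castSucc, 3}),
      ww D e v.castSucc (2 * Real.pi * x / (D.M v.castSucc + 1)) *
        ww D e 3 (2 * Real.pi * y / (14 + 1)))
      (∑ e ∈ univ.filter (fun e => (D.bx e).S = {v.castSucc, 3}), 0) x := by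
    refine HasDerivAt.fun_sum fun e he => ?_
    have he' := (Finset.mem_filter.1 he).2
    have hj := mem_v he'
    obtain ⟨j, i, -, -, h1, -⟩ := win_loc (hD.hlo e _ hj) (D.hhi e _ hj) hx.le
    have h2 : HasDerivAt (ww D e v.castSucc) 0 (2 * Real.pi * x / (D.M v.castSucc + 1)) := by
      have h3 := (((winA_ww hD hj).smooth.differentiable (by norm_num))
        (2 * Real.pi * x / (D.M v.castSucc + 1))).hasDerivAt
      have h4 : deriv (ww D e v.castSucc) (2 * Real.pi * x / (D.M v.castSucc + 1)) = 0 := h1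
      rwa [h4] at h3
    have h5 : HasDerivAt (fun x : ℝ => 2 * Real.pi * x / (D.M v.castSucc + 1))
        (2 * Real.pi * 1 / (D.M v.castSucc + 1)) x :=
      ((hasDerivAt_id x).const_mul _).div_const _
    have h6 := (h2.comp x h5).mul_const (ww D e 3 (2 * Real.pi * y / (14 + 1)))
    simpa using h6
  rw [key.deriv, Finset.sum_const_zero]

theorem WC_dy (hD : DOk D) {k : ℤ} {y : ℝ} (hy : |y - k| < tau) (x : ℝ) :
    deriv (fun y => WC D v x y) y = 0 := by
  unfold WC WW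
  have key : HasDerivAt (fun y => ∑ e ∈ univ.filter (fun e => (D.bx e).S = {v.castSucc, 3}),
      ww D e v.castSucc (2 * Real.pi * x / (D.M v.castSucc + 1)) *
        ww D e 3 (2 * Real.pi * y / (14 + 1)))
      (∑ e ∈ univ.filter (fun e => (D.bx e).S = {v.castSucc, 3}), 0) y := by
    refine HasDerivAt.fun_sum fun e he => ?_
    have he' := (Finset.mem_filter.1 he).2
    have hj := mem_3 he'
    have hhi := D.hhi e _ hj
    rw [hD.hM3] at hhi
    obtain ⟨j, i, -, -, h1, -⟩ := win_loc (M := 14) (hD.hlo e _ hj) hhi hy.le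
    have h2 : HasDerivAt (ww D e 3) 0 (2 * Real.pi * y / (14 + 1)) := by
      have h3 := (((winA_ww hD hj).smooth.differentiable (by norm_num))
        (2 * Real.pi * y / (14 + 1))).hasDerivAt
      have h4 : deriv (ww D e 3) (2 * Real.pi * y / (14 + 1)) = 0 := by
        unfold ww
        rw [hD.hM3]
        push_cast at h1
        exact h1
      rwa [h4] at h3
    have h5 : HasDerivAt (fun y : ℝ => 2 * Real.pi * y / (14 + 1))
        (2 * Real.pi * 1 / (14 + 1)) y :=
      ((hasDerivAt_id y).const_mul _).div_const _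
    have h6 := (h2.comp y h5).const_mul
      (ww D e v.castSucc (2 * Real.pi * x / (D.M v.castSucc + 1)))
    simpa using h6
  rw [key.deriv, Finset.sum_const_zero]

/-- value of the windows in the lobes: the number of active boxes. -/
theorem WC_val (hS : S.Ok) (hD : DOk D) (hM : Match S D v) {k l : ℤ} {x y : ℝ}
    (hx : |x - k| < tau) (hy : |y - l| < tau) :
    (K1 S k l = 0 ∧ WC D v x y = 0) ∨ (K1 S k l = 1 ∧ 1 ≤ WC D v x y) := by
  have hM1 : (0 : ℤ) < (D.M v.castSucc : ℤ) + 1 := by positivity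
  -- indices
  set i : ℕ := (k % ((D.M v.castSucc : ℤ) + 1)).toNat with hi
  set l' : ℕ := (l % 15).toNat with hl'
  have hkn := Int.emod_nonneg k hM1.ne'
  have hln := Int.emod_nonneg l (by norm_num : (15 : ℤ) ≠ 0)
  have hklt := Int.emod_lt_of_pos k hM1
  have hllt := Int.emod_lt_of_pos l (by norm_num : (0 : ℤ) < 15)
  have hiz : (i : ℤ) = k % ((D.M v.castSucc : ℤ) + 1) := Int.toNat_of_nonneg hkn
  have hlz : (l' : ℤ) = l % 15 := Int.toNat_of_nonneg hln
  have hiM : i ≤ D.M v.castSucc := by omega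
  have hl14 : l' ≤ 14 := by omega
  have hK : K1 S k l = K1 S i l' := by
    have e1 : k = (i : ℤ) + (S.n : ℤ) * (k / ((D.M v.castSucc : ℤ) + 1)) := by
      rw [hM.n, hiz]
      push_cast
      exact (Int.emod_add_mul_ediv k _).symm
    have e2 : l = (l' : ℤ) + 15 * (l / 15) := by
      rw [hlz]
      exact (Int.emod_add_mul_ediv l 15).symm
    rw [e1, e2, K1_n_int hS, K1_15_int hS]
  -- values of the windows
  have hval : ∀ e, (D.bx e).S = {v.castSucc, 3} →
      ww D e v.castSucc (2 * Real.pi * x / (D.M v.castSucc + 1)) *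
        ww D e 3 (2 * Real.pi * y / (14 + 1)) =
      if ((D.bx e).lo v.castSucc < i ∧ i ≤ (D.bx e).hi v.castSucc) ∧
        ((D.bx e).lo 3 < l' ∧ l' ≤ (D.bx e).hi 3) then 1 else 0 := by
    intro e he
    have hj := mem_v he
    have hj3 := mem_3 he
    have hhi3 := D.hhi e _ hj3
    rw [hD.hM3] at hhi3
    obtain ⟨j1, i1, hi1, hk1, -, h1⟩ := win_loc (hD.hlo e _ hj) (D.hhi e _ hj) hx.le
    obtain ⟨j2, i2, hi2, hk2, -, h2⟩ := win_loc (M := 14) (hD.hlo e _ hj3) hhi3 hy.le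
    have ei : i1 = i := by
      have : (i1 : ℤ) = k % ((D.M v.castSucc : ℤ) + 1) := by
        rw [hk1, Int.add_mul_emod_self_left]
        exact (Int.emod_eq_of_lt (by positivity) (by omega)).symm
      omega
    have el : i2 = l' := by
      have e14 : ((14 : ℕ) : ℤ) + 1 = 15 := by norm_num
      rw [e14] at hk2
      omega
    have h2' : ww D e 3 (2 * Real.pi * y / (14 + 1)) =
        if (D.bx e).lo 3 < i2 ∧ i2 ≤ (D.bx e).hi 3 then 1 else 0 := by
      unfold ww
      rw [hD.hM3]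
      push_cast at h2
      exact h2
    have h1' : ww D e v.castSucc (2 * Real.pi * x / (D.M v.castSucc + 1)) =
        if (D.bx e).lo v.castSucc < i1 ∧ i1 ≤ (D.bx e).hi v.castSucc then 1 else 0 := h1
    rw [h1', h2', ei, el]
    by_cases c1 : (D.bx e).lo v.castSucc < i ∧ i ≤ (D.bx e).hi v.castSucc
    · by_cases c2 : (D.bx e).lo 3 < l' ∧ l' ≤ (D.bx e).hi 3
      · rw [if_pos c1, if_pos c2, if_pos ⟨c1, c2⟩, one_mul]
      · rw [if_neg c2, mul_zero]
        exact (if_neg (fun h => c2 h.2)).symm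
    · rw [if_neg c1, zero_mul]
      exact (if_neg (fun h => c1 h.1)).symm
  have hkill := hM.kill i l' hiM hl14
  rw [hK]
  by_cases hk : S.kill i l'
  · right
    refine ⟨by unfold K1; rw [if_pos hk], ?_⟩
    obtain ⟨e, he, hc1, hc2⟩ := hkill.1 hk
    unfold WC WW
    have hmem : e ∈ univ.filter (fun e => (D.bx e).S = {v.castSucc, 3}) :=
      Finset.mem_filter.2 ⟨mem_univ _, he⟩
    have h1 := Finset.single_le_sum (f := fun e =>
      ww D e v.castSucc (2 * Real.pi * x / (D.M v.castSucc + 1)) *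
        ww D e 3 (2 * Real.pi * y / (14 + 1))) (fun e' he' => by
        have he'' := (Finset.mem_filter.1 he').2
        exact mul_nonneg ((winA_ww hD (mem_v he'')).nn _) ((winA_ww hD (mem_3 he'')).nn _)) hmem
    refine le_trans (le_of_eq ?_) h1
    change (1 : ℝ) = ww D e v.castSucc (2 * Real.pi * x / (D.M v.castSucc + 1)) *
        ww D e 3 (2 * Real.pi * y / (14 + 1))
    rw [hval e he, if_pos ⟨hc1, hc2⟩]
  · left
    refine ⟨by unfold K1; rw [if_neg hk], ?_⟩
    unfold WC WW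
    refine Finset.sum_eq_zero fun e he => ?_
    have he' := (Finset.mem_filter.1 he).2
    rw [hval e he', if_neg]
    rintro ⟨hc1, hc2⟩
    exact hk (hkill.2 ⟨e, he', hc1, hc2⟩)

/-! ### the three families -/

/-- rotation -/
def famR (S : NS m) : PD Unit :=
  uni S.n (fun z => Sp z.2 + 1 / 2 - z.1) (fun z => hx (Nv S) z.2 + 1 / 2 - z.1)
    (fun z => 5 * kw (K1 S) z.2.1 z.2.2) fun t => 1 / 2 - t

/-- windows -/
def fam1 (S : NS m) (D : SD 4) (v : Fin 3) : PD Unit :=
  uni S.n (fun z => pE Nw z.2) (fun z => pE (Nv S) z.2)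
    (fun z => 5 * ((1 - z.1) * kw (K1 S) z.2.1 z.2.2 + z.1 * WC D v z.2.1 z.2.2))
    fun _ => -(1 / 2)

/-- own words -/
def fam2 (S : NS m) (D : SD 4) (v : Fin 3) : PD Unit :=
  uni S.n (fun z => pm (D.sn 3) 14 Nw z.1 z.2)
    (fun z => pm (D.sn v.castSucc) (D.M v.castSucc) (Nv S) z.1 z.2)
    (fun z => 5 * WC D v z.2.1 z.2.2) fun _ => -(1 / 2)

theorem reg1 (hS : S.Ok) (hD : DOk D) (hM : Match S D v) : (fam1 S D v).Reg := by
  have hv := circ_v hS hM
  have hw := circ_w hD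
  have hpm : ∀ (e : ℕ → ℝ) (M : ℕ) (N : ℤ → ℤ), pm e M N 0 = pE N := by
    intro e M N
    funext x
    unfold pm
    ring
  have ck : ContDiff ℝ 2 fun z : ℝ × ℝ × ℝ => kw (K1 S) z.2.1 z.2.2 :=
    (contDiff_kw (K1 S)).comp contDiff_snd
  have cw : ContDiff ℝ 2 fun z : ℝ × ℝ × ℝ => WC D v z.2.1 z.2.2 :=
    (contDiff_WC hD).comp contDiff_snd
  -- local information
  have hvx : ∀ x, 0 ≤ Real.cos (2 * Real.pi * pE (Nv S) x) → ∃ k : ℤ, |x - k| < tau ∧
      deriv (pE (Nv S)) x ≠ 0 ∧ (k : ℝ) < x ∧ x < k + 1 / 2 := by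
    intro x hx
    rw [← hpm (D.sn v.castSucc) (D.M v.castSucc) (Nv S)] at hx ⊢
    obtain ⟨k, h1, h2, h3⟩ := hv.main le_rfl zero_le_one hx
    exact ⟨k, h1, h2, h3 rfl⟩
  have hwy : ∀ y, 0 ≤ Real.cos (2 * Real.pi * pE Nw y) → ∃ k : ℤ, |y - k| < tau ∧
      deriv (pE Nw) y ≠ 0 ∧ (k : ℝ) < y ∧ y < k + 1 / 2 := by
    intro y hy
    rw [← hpm (D.sn 3) 14 Nw] at hy ⊢
    obtain ⟨k, h1, h2, h3⟩ := hw.main le_rfl zero_le_one hy
    exact ⟨k, h1, h2, h3 rfl⟩
  refine uni_reg ((contDiff_pE _).comp contDiff_snd) ((contDiff_pE _).comp contDiff_snd)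
    (contDiff_const.mul (((contDiff_const.sub contDiff_fst).mul ck).add (contDiff_fst.mul cw)))
    (fun _ => e_neg_half) ?_ ?_ ?_ ?_
  · intro t ht x hx
    obtain ⟨k, h1, h2, h3, h4⟩ := hvx x hx
    refine ⟨h2, fun y => ?_⟩
    have d1 : HasDerivAt (fun x => kw (K1 S) x y) 0 x := by
      have h5 := (((contDiff_kw (K1 S)).comp (by fun_prop : ContDiff ℝ 2 fun x : ℝ =>
        (x, y))).differentiable (by norm_num) x).hasDerivAt
      have h6 := kw_dx (K := K1 S) h3 h4 y
      change HasDerivAt (fun x => kw (K1 S) x y) (deriv (fun x => kw (K1 S) x y) x) x at h5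
      rwa [h6] at h5
    have d2 : HasDerivAt (fun x => WC D v x y) 0 x := by
      have h5 := (((contDiff_WC (v := v) hD).comp (by fun_prop : ContDiff ℝ 2 fun x : ℝ =>
        (x, y))).differentiable (by norm_num) x).hasDerivAt
      have h6 := WC_dx (v := v) hD h1 y
      change HasDerivAt (fun x => WC D v x y) (deriv (fun x => WC D v x y) x) x at h5
      rwa [h6] at h5
    have d3 := ((d1.const_mul (1 - t)).add (d2.const_mul t)).const_mul 5
    have d4 := d3.deriv
    simp only [mul_zero, add_zero] at d4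
    exact d4
  · intro t ht y hy
    obtain ⟨k, h1, h2, h3, h4⟩ := hwy y hy
    refine ⟨h2, fun x => ?_⟩
    have d1 : HasDerivAt (fun y => kw (K1 S) x y) 0 y := by
      have h5 := (((contDiff_kw (K1 S)).comp (by fun_prop : ContDiff ℝ 2 fun y : ℝ =>
        (x, y))).differentiable (by norm_num) y).hasDerivAt
      have h6 : deriv (fun y => kw (K1 S) x y) y = 0 := by
        have h7 : (fun y => kw (K1 S) x y) = fun y => kw (fun l k => K1 S k l) y x := by
          funext y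
          exact kw_swap _ _ _
        rw [h7]
        exact kw_dx h3 h4 x
      change HasDerivAt (fun y => kw (K1 S) x y) (deriv (fun y => kw (K1 S) x y) y) y at h5
      rwa [h6] at h5
    have d2 : HasDerivAt (fun y => WC D v x y) 0 y := by
      have h5 := (((contDiff_WC (v := v) hD).comp (by fun_prop : ContDiff ℝ 2 fun y : ℝ =>
        (x, y))).differentiable (by norm_num) y).hasDerivAt
      have h6 := WC_dy (v := v) hD h1 x
      change HasDerivAt (fun y => WC D v x y) (deriv (fun y => WC D v x y) y) y at h5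
      rwa [h6] at h5
    have d3 := ((d1.const_mul (1 - t)).add (d2.const_mul t)).const_mul 5
    have d4 := d3.deriv
    simp only [mul_zero, add_zero] at d4
    exact d4
  · intro t ht x y
    have h1 := kw_nonneg (K1_nonneg (S := S)) x y
    have h2 := WW_nonneg (v := v) hD (2 * Real.pi * x / (D.M v.castSucc + 1))
      (2 * Real.pi * y / (14 + 1))
    exact mul_nonneg (by norm_num) (add_nonneg (mul_nonneg (by linarith [ht.2]) h1)
      (mul_nonneg ht.1 h2))
  · intro t ht x y hx hy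
    obtain ⟨k, h1, -, h3, h4⟩ := hvx x hx
    obtain ⟨l, g1, -, g3, g4⟩ := hwy y hy
    have e1 := kw_val (K := K1 S) h3.le h4.le g3.le g4.le
    change 5 * ((1 - t) * kw (K1 S) x y + t * WC D v x y) ≠ 2
    rw [e1]
    rcases WC_val hS hD hM h1 g1 with ⟨a1, a2⟩ | ⟨a1, a2⟩
    · rw [a1, a2]; norm_num
    · rw [a1]
      have h5 : t * 1 ≤ t * WC D v x y := mul_le_mul_of_nonneg_left a2 ht.1
      intro h
      linarith

theorem reg2 (hS : S.Ok) (hD : DOk D) (hM : Match S D v) : (fam2 S D v).Reg := by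
  have hv := circ_v hS hM
  have hw := circ_w hD
  have cw : ContDiff ℝ 2 fun z : ℝ × ℝ × ℝ => WC D v z.2.1 z.2.2 :=
    (contDiff_WC hD).comp contDiff_snd
  refine uni_reg (contDiff_pm _ _ _) (contDiff_pm _ _ _)
    (contDiff_const.mul cw) (fun _ => e_neg_half) ?_ ?_ ?_ ?_
  · intro t ht x hx
    obtain ⟨k, h1, h2, -⟩ := hv.main ht.1 ht.2 hx
    refine ⟨h2, fun y => ?_⟩
    have h5 := (((contDiff_WC (v := v) hD).comp (by fun_prop : ContDiff ℝ 2 fun x : ℝ =>
      (x, y))).differentiable (by norm_num) x).hasDerivAt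
    have h6 := WC_dx (v := v) hD h1 y
    change HasDerivAt (fun x => WC D v x y) (deriv (fun x => WC D v x y) x) x at h5
    rw [h6] at h5
    have d4 := (h5.const_mul 5).deriv
    simp only [mul_zero] at d4
    exact d4
  · intro t ht y hy
    obtain ⟨k, h1, h2, -⟩ := hw.main ht.1 ht.2 hy
    refine ⟨h2, fun x => ?_⟩
    have h5 := (((contDiff_WC (v := v) hD).comp (by fun_prop : ContDiff ℝ 2 fun y : ℝ =>
      (x, y))).differentiable (by norm_num) y).hasDerivAt
    have h6 := WC_dy (v := v) hD h1 x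
    change HasDerivAt (fun y => WC D v x y) (deriv (fun y => WC D v x y) y) y at h5
    rw [h6] at h5
    have d4 := (h5.const_mul 5).deriv
    simp only [mul_zero] at d4
    exact d4
  · intro t ht x y
    exact mul_nonneg (by norm_num) (WW_nonneg (v := v) hD _ _)
  · intro t ht x y hx hy
    obtain ⟨k, h1, -, -⟩ := hv.main ht.1 ht.2 hx
    obtain ⟨l, g1, -, -⟩ := hw.main ht.1 ht.2 hy
    change 5 * WC D v x y ≠ 2
    rcases WC_val hS hD hM h1 g1 with ⟨a1, a2⟩ | ⟨a1, a2⟩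
    · rw [a2]; norm_num
    · intro h
      linarith

theorem regR (hS : S.Ok) (hD : DOk D) (hM : Match S D v) : (famR S).Reg := by
  intro t ht z h0
  -- `K_t = e(-t) K_1(0)`
  have e1 : (famR S).K t = fun z => NSDefs_966.e (-t) * (fam1 S D v).K 0 z := by
    funext z
    obtain ⟨x, l, y⟩ := z
    unfold famR fam1
    rw [uni_K, uni_K]
    have a1 : NSDefs_966.e (Sp y + 1 / 2 - t) = NSDefs_966.e (-t) * NSDefs_966.e (pE Nw y) := by
      have : Sp y + 1 / 2 - t = (-t + pE Nw y) + ((1 : ℤ) : ℝ) := by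
        unfold pE
        rw [hx_Nw, Nw_zero]
        push_cast
        ring
      rw [this, e_add, e_int, mul_one, e_add]
    have a2 : NSDefs_966.e (hx (Nv S) x + 1 / 2 - t) =
        NSDefs_966.e (-t) * NSDefs_966.e (pE (Nv S) x) := by
      have : hx (Nv S) x + 1 / 2 - t = (-t + pE (Nv S) x) + ((Nv S 0 + 1 : ℤ) : ℝ) := by
        unfold pE
        push_cast
        ring
      rw [this, e_add, e_int, mul_one, e_add]
    have a3 : NSDefs_966.e (1 / 2 - t) = NSDefs_966.e (-t) * NSDefs_966.e (-(1 / 2)) := by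
      have : (1 / 2 - t : ℝ) = (-t + -(1 / 2)) + ((1 : ℤ) : ℝ) := by push_cast; ring
      rw [this, e_add, e_int, mul_one, e_add]
    rw [a1, a2, a3]
    simp only [sub_zero, one_mul, zero_mul, add_zero]
    ring
  rw [e1] at h0 ⊢
  have hne := e_ne (-t)
  have h1 : (fam1 S D v).K 0 z = 0 := (mul_eq_zero.1 h0).resolve_left hne
  have hsur := reg1 hS hD hM 0 ⟨le_rfl, zero_le_one⟩ z h1
  have hdiff : DifferentiableAt ℝ ((fam1 S D v).K 0) z := by
    have ck : ContDiff ℝ 2 fun z : ℝ × ℝ × ℝ => kw (K1 S) z.2.1 z.2.2 :=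
      (contDiff_kw (K1 S)).comp contDiff_snd
    have cw : ContDiff ℝ 2 fun z : ℝ × ℝ × ℝ => WC D v z.2.1 z.2.2 :=
      (contDiff_WC hD).comp contDiff_snd
    exact (contDiff_K ((contDiff_pE _).comp contDiff_snd) ((contDiff_pE _).comp contDiff_snd)
      (contDiff_const.mul (((contDiff_const.sub contDiff_fst).mul ck).add
        (contDiff_fst.mul cw))) 0).differentiable (by norm_num) z
  have h2 : fderiv ℝ (fun z => NSDefs_966.e (-t) * (fam1 S D v).K 0 z) z =
      NSDefs_966.e (-t) • fderiv ℝ ((fam1 S D v).K 0) z :=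
    (hdiff.hasFDerivAt.const_mul _).fderiv
  rw [h2]
  intro w
  obtain ⟨y, hy⟩ := hsur ((NSDefs_966.e (-t))⁻¹ * w)
  refine ⟨y, ?_⟩
  change NSDefs_966.e (-t) * (fderiv ℝ ((fam1 S D v).K 0) z) y = w
  rw [hy, ← mul_assoc, mul_inv_cancel₀ hne, one_mul]

/-! ### formal conditions -/

section Ok

theorem Sp_15 (y : ℝ) : Sp (y + 15) = Sp y + 15 := by
  have := Sp_add_int y 15
  push_cast at this
  exact this

theorem contDiff_Sp : ContDiff ℝ 2 Sp := by
  have : Sp = hx Nw := funext fun y => (hx_Nw y).symm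
  rw [this]
  exact contDiff_hx Nw

theorem kwc (S : NS m) : ContDiff ℝ 2 fun z : ℝ × ℝ × ℝ => kw (K1 S) z.2.1 z.2.2 :=
  (contDiff_kw (K1 S)).comp contDiff_snd

theorem wcc (hD : DOk D) : ContDiff ℝ 2 fun z : ℝ × ℝ × ℝ => WC D v z.2.1 z.2.2 :=
  (contDiff_WC hD).comp contDiff_snd

theorem WC_x (hD : DOk D) (x y : ℝ) : WC D v (x + ((D.M v.castSucc : ℝ) + 1)) y = WC D v x y := by
  unfold WC WW
  have hM : (0 : ℝ) < (D.M v.castSucc : ℝ) + 1 := by positivity
  have e1 : 2 * Real.pi * (x + ((D.M v.castSucc : ℝ) + 1)) / (D.M v.castSucc + 1) =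
      2 * Real.pi * x / (D.M v.castSucc + 1) + 2 * Real.pi := by
    field_simp
  rw [e1]
  refine Finset.sum_congr rfl fun e he => ?_
  have he' := (Finset.mem_filter.1 he).2
  rw [(winA_ww hD (mem_v he')).per]

theorem WC_y (hD : DOk D) (x y : ℝ) : WC D v x (y + 15) = WC D v x y := by
  unfold WC WW
  have e1 : 2 * Real.pi * (y + 15) / (14 + 1) = 2 * Real.pi * y / (14 + 1) + 2 * Real.pi := by
    ring
  rw [e1]
  refine Finset.sum_congr rfl fun e he => ?_
  have he' := (Finset.mem_filter.1 he).2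
  rw [(winA_ww hD (mem_3 he')).per]

theorem kwx (hS : S.Ok) (x y : ℝ) : kw (K1 S) (x + S.n) y = kw (K1 S) x y := by
  have := kw_per_x (K := K1 S) (n := (S.n : ℤ)) (fun k l => K1_n hS k l) x y
  push_cast at this
  exact this

theorem kwy (hS : S.Ok) (x y : ℝ) : kw (K1 S) x (y + 15) = kw (K1 S) x y := by
  have := kw_per_y (K := K1 S) (n := 15) (fun k l => K1_15 hS k l) x y
  push_cast at this
  exact this

/-- formal conditions of a family with one coupling -/
theorem uni_ok {n : ℕ} {q p : ℝ × ℝ → ℝ} {c : ℝ × ℝ × ℝ → ℝ} {r : ℝ → ℝ} (hn : 0 < n)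
    (hq : ContDiff ℝ 2 q) (hp : ContDiff ℝ 2 p) (hc : ContDiff ℝ 2 c) (hr : ContDiff ℝ 2 r)
    (pq : ∀ t y, q (t, y + 15) = q (t, y) + 15) (pp : ∀ t x, p (t, x + n) = p (t, x) + 15)
    (cx : ∀ t x y, c (t, x + n, y) = c (t, x, y)) (cy : ∀ t x y, c (t, x, y + 15) = c (t, x, y)) :
    (uni n q p c r).Ok where
  hn := hn
  cq := hq
  ccv := contDiff_const
  cp := hp
  cc := fun _ => hc
  cψ := fun _ => hr.comp contDiff_fst
  pq := pq
  pp := pp
  hcv := fun _ _ => one_pos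
  hE := fun _ => by
    change (1 : ℝ) ≤ 15 / 2 ∧ (15 / 2 : ℝ) ≤ 14
    constructor <;> norm_num
  pcx := fun _ t x y => cx t x y
  pcy := fun _ t x y => cy t x y
  pψx := fun _ => ⟨0, fun t x y => by simp [uni]⟩
  pψy := fun _ => ⟨0, fun t x y => by simp [uni]⟩

theorem okR (hS : S.Ok) (hM : Match S D v) : (famR S).Ok := by
  have hv := circ_v hS hM
  have hn : (S.n : ℝ) = (D.M v.castSucc : ℝ) + 1 := by rw [hM.n]; push_cast; ring
  refine uni_ok hS.hn (((contDiff_Sp.comp contDiff_snd).add contDiff_const).sub contDiff_fst)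
    ((((contDiff_hx _).comp contDiff_snd).add contDiff_const).sub contDiff_fst)
    (contDiff_const.mul (kwc S)) (contDiff_const.sub contDiff_id) ?_ ?_ ?_ ?_
  · intro t y
    change Sp (y + 15) + 1 / 2 - t = Sp y + 1 / 2 - t + 15
    rw [Sp_15]
    ring
  · intro t x
    change hx (Nv S) (x + S.n) + 1 / 2 - t = hx (Nv S) x + 1 / 2 - t + 15
    have := pE_per hv x
    unfold pE at this
    rw [hn]
    linarith
  · intro t x y
    change 5 * kw (K1 S) (x + S.n) y = 5 * kw (K1 S) x y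
    rw [kwx hS]
  · intro t x y
    change 5 * kw (K1 S) x (y + 15) = 5 * kw (K1 S) x y
    rw [kwy hS]

theorem ok1 (hS : S.Ok) (hD : DOk D) (hM : Match S D v) : (fam1 S D v).Ok := by
  have hv := circ_v hS hM
  have hw := circ_w hD
  have hn : (S.n : ℝ) = (D.M v.castSucc : ℝ) + 1 := by rw [hM.n]; push_cast; ring
  refine uni_ok hS.hn ((contDiff_pE _).comp contDiff_snd) ((contDiff_pE _).comp contDiff_snd)
    (contDiff_const.mul (((contDiff_const.sub contDiff_fst).mul (kwc S)).add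
      (contDiff_fst.mul (wcc hD)))) contDiff_const ?_ ?_ ?_ ?_
  · intro t y
    have := pE_per hw y
    push_cast at this
    norm_num at this
    exact this
  · intro t x
    change pE (Nv S) (x + S.n) = pE (Nv S) x + 15
    rw [hn]
    exact pE_per hv x
  · intro t x y
    change 5 * ((1 - t) * kw (K1 S) (x + S.n) y + t * WC D v (x + S.n) y) =
      5 * ((1 - t) * kw (K1 S) x y + t * WC D v x y)
    rw [kwx hS, hn, WC_x hD]
  · intro t x y
    change 5 * ((1 - t) * kw (K1 S) x (y + 15) + t * WC D v x (y + 15)) =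
      5 * ((1 - t) * kw (K1 S) x y + t * WC D v x y)
    rw [kwy hS, WC_y hD]

theorem ok2 (hS : S.Ok) (hD : DOk D) (hM : Match S D v) : (fam2 S D v).Ok := by
  have hv := circ_v hS hM
  have hw := circ_w hD
  have hn : (S.n : ℝ) = (D.M v.castSucc : ℝ) + 1 := by rw [hM.n]; push_cast; ring
  refine uni_ok hS.hn (contDiff_pm _ _ _) (contDiff_pm _ _ _)
    (contDiff_const.mul (wcc hD)) contDiff_const ?_ ?_ ?_ ?_
  · intro t y
    have := pm_per hw t y
    push_cast at this
    norm_num at this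
    exact this
  · intro t x
    change pm (D.sn v.castSucc) (D.M v.castSucc) (Nv S) t (x + S.n) =
      pm (D.sn v.castSucc) (D.M v.castSucc) (Nv S) t x + 15
    rw [hn]
    exact pm_per hv t x
  · intro t x y
    change 5 * WC D v (x + S.n) y = 5 * WC D v x y
    rw [hn, WC_x hD]
  · intro t x y
    change 5 * WC D v x (y + 15) = 5 * WC D v x y
    rw [WC_y hD]

end Ok

/-! ### splices -/

theorem h_uni (n : ℕ) (q p : ℝ × ℝ → ℝ) (c : ℝ × ℝ × ℝ → ℝ) (r : ℝ → ℝ) (u0 W t : ℝ)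
    (z : ℝ × ℝ × ℝ) : (uni n q p c r).h u0 W t z =
    ((ca u0 z.2.1 * z.2.1 ^ 15 : ℝ) : ℂ) *
      NSDefs_966.e (cb W z.2.1 * q (t, 15 * z.2.2 / (2 * Real.pi)) +
        (1 - cb W z.2.1) * (15 * z.2.2 / (2 * Real.pi))) +
    (cb W z.2.1 : ℂ) * (NSDefs_966.e (p (t, n * z.1 / (2 * Real.pi))) +
      (ca u0 z.2.1 : ℂ) * (((c (t, n * z.1 / (2 * Real.pi), 15 * z.2.2 / (2 * Real.pi)) *
        Real.exp (15 / 2 * Real.log z.2.1) : ℝ) : ℂ) * NSDefs_966.e (r t))) := by
  unfold PD.h PD.mid uni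
  simp

theorem splice0 (u0 W : ℝ) : S.fin.h u0 W 0 = (famR S).h u0 W 0 := by
  funext z
  unfold famR
  rw [h_uni]
  unfold PD.h PD.mid NS.fin
  simp only [hat_eq, kl_eq]
  simp

theorem splice1 (u0 W : ℝ) : (famR S).h u0 W 1 = (fam1 S D v).h u0 W 0 := by
  funext z
  unfold famR fam1
  rw [h_uni, h_uni]
  have a1 : ∀ y : ℝ, Sp y + 1 / 2 - 1 = pE Nw y := by
    intro y
    unfold pE
    rw [hx_Nw, Nw_zero]
    push_cast
    ring
  have a2 : ∀ x : ℝ, NSDefs_966.e (hx (Nv S) x + 1 / 2 - 1) = NSDefs_966.e (pE (Nv S) x) := by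
    intro x
    have : hx (Nv S) x + 1 / 2 - 1 = pE (Nv S) x + ((Nv S 0 : ℤ) : ℝ) := by
      unfold pE
      ring
    rw [this, e_add, e_int, mul_one]
  have a3 : (1 / 2 - 1 : ℝ) = -(1 / 2) := by norm_num
  simp only [a1, a2, a3, sub_zero, one_mul, zero_mul, add_zero]

theorem splice2 (u0 W : ℝ) : (fam1 S D v).h u0 W 1 = (fam2 S D v).h u0 W 0 := by
  funext z
  unfold fam1 fam2
  rw [h_uni, h_uni]
  have hpm : ∀ (e : ℕ → ℝ) (M : ℕ) (N : ℤ → ℤ) (x : ℝ), pm e M N 0 x = pE N x := by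
    intro e M N x
    unfold pm
    ring
  simp only [hpm, sub_self, zero_mul, zero_add, one_mul]

theorem splice3 (hM : Match S D v) (hD : DOk D) {u0 : ℝ} (hu0 : 0 < u0) (W : ℝ) :
    (fam2 S D v).h u0 W 1 = HE D v u0 W := by
  funext z
  obtain ⟨θ, u, ω⟩ := z
  unfold fam2
  rw [h_uni]
  unfold HE
  have hpi := Real.pi_pos
  have hn : (S.n : ℝ) = (D.M v.castSucc : ℝ) + 1 := by rw [hM.n]; push_cast; ring
  have hMp : (0 : ℝ) < (D.M v.castSucc : ℝ) + 1 := by positivity
  have hpm : ∀ (e : ℕ → ℝ) (M : ℕ) (N : ℤ → ℤ) (x : ℝ), pm e M N 1 x = pT e M x := by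
    intro e M N x
    unfold pm
    ring
  have hecis : ∀ x : ℝ, NSDefs_966.e (x / (2 * Real.pi)) = Ang_739.cis x := by
    intro x
    rw [e_eq]
    unfold ce Ang_739.cis
    congr 2
    have : 2 * Real.pi * (x / (2 * Real.pi)) = x := by field_simp
    rw [this]
  have a1 : pT (D.sn 3) 14 (15 * ω / (2 * Real.pi)) = pp D 3 ω / (2 * Real.pi) := by
    unfold pT pp
    rw [hD.hM3]
    congr 2
    push_cast
    field_simp
    ring
  have a2 : pT (D.sn v.castSucc) (D.M v.castSucc) (S.n * θ / (2 * Real.pi)) =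
      pp D v.castSucc θ / (2 * Real.pi) := by
    unfold pT pp
    rw [hn]
    congr 2
    field_simp
  have a3 : WC D v (S.n * θ / (2 * Real.pi)) (15 * ω / (2 * Real.pi)) = WW D v θ ω := by
    unfold WC
    rw [hn]
    congr 1
    · field_simp
    · field_simp
      ring
  simp only [hpm, a1, a2, a3, e_neg_half, hecis]
  have a4 : cb W u * (pp D 3 ω / (2 * Real.pi)) + (1 - cb W u) * (15 * ω / (2 * Real.pi)) =
      (cb W u * pp D 3 ω + (1 - cb W u) * (15 * ω)) / (2 * Real.pi) := by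
    ring
  rw [a4, hecis]
  rcases le_or_gt u (u0 / 2) with hu | hu
  · have hca : ca u0 u = 0 := by
      unfold ca
      refine st_of_le ?_
      rw [sub_nonpos, div_le_one hu0]
      linarith
    rw [hca]
    simp
  · have hup : 0 < u := by linarith
    have a5 : Real.exp (15 / 2 * Real.log u) = u ^ (15 / 2 : ℝ) := by
      rw [Real.rpow_def_of_pos hup, mul_comm]
    rw [a5]
    push_cast
    ring

/-- **EXIT, first half.** -/
theorem exitA (hL : LiftPD) (hS : S.Ok) (hD : DOk D) (hM : Match S D v) (b : Bool) :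
    ∃ u1 : ℝ, 0 < u1 ∧ ∃ W1 : ℝ, u1 ≤ W1 ∧ ∀ u0 W : ℝ, 0 < u0 → u0 ≤ u1 → W1 ≤ W →
      AEq b v (PA b v (S.fin.h u0 W 0)) (PA b v (HE D v u0 W)) := by
  obtain ⟨u1, h1, W1, h1', H1⟩ := hL Unit (famR S) (okR hS hM) (regR hS hD hM)
  obtain ⟨u2, h2, W2, h2', H2⟩ := hL Unit (fam1 S D v) (ok1 hS hD hM) (reg1 hS hD hM)
  obtain ⟨u3, h3, W3, h3', H3⟩ := hL Unit (fam2 S D v) (ok2 hS hD hM) (reg2 hS hD hM)
  refine ⟨min u1 (min u2 u3), lt_min h1 (lt_min h2 h3), max W1 (max W2 W3), ?_, ?_⟩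
  · exact (min_le_left _ _).trans (h1'.trans (le_max_left _ _))
  · intro u0 W hu0 hu hW
    have a1 := H1 u0 W hu0 (hu.trans (min_le_left _ _)) ((le_max_left _ _).trans hW) b v
    have a2 := H2 u0 W hu0 (hu.trans ((min_le_right _ _).trans (min_le_left _ _)))
      ((le_max_left _ _).trans ((le_max_right _ _).trans hW)) b v
    have a3 := H3 u0 W hu0 (hu.trans ((min_le_right _ _).trans (min_le_right _ _)))
      ((le_max_right _ _).trans ((le_max_right _ _).trans hW)) b v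
    rw [← splice0, splice1 (D := D) (v := v)] at a1
    rw [splice2] at a2
    rw [splice3 hM hD hu0] at a3
    exact ((Relation.ReflTransGen.single a1).tail a2).tail a3

end Crest.Agent.R267.ArmExC_649
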