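import Crest.Agent.R267.PolArm_484
import Crest.Agent.R267.NCut_88

/-!
# Row 267, planar arms: paths of uncut functions give homotopies of arms

`UPath F P Q` : a path of functions `F t (θ, u, ω)` (`|v| = 1`, `w = u e^{iω}`, `u > 0`), close to
`P t θ` for small `u`, close to `u^15 e^{i Q t θ ω}` for large `u`, with onto slice derivatives at
all the zeros. `UPath.step` : the cut functions (`NCut_88.cut`) are joined by an `AStep`.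
`CEq` : the resulting equivalence relation on triples `(F, P, Q)`.
-/

set_option autoImplicit false

noncomputable section

namespace Crest.Agent.R267.NStep_88

open Set Real
open Crest.Agent.R267.NdR_484 Crest.Agent.R267.NdY_484 Crest.Agent.R267.PolArm_484
open Crest.Agent.R267.NCut_88

variable {bo : Bool} {v : Fin 3}

/-- a path of uncut functions. -/
structure UPath (F : ℝ → ℝ × ℝ × ℝ → ℂ) (P : ℝ → ℝ → ℂ) (Q : ℝ → ℝ → ℝ → ℝ) : Prop where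
  smF : ContDiffOn ℝ 2 (fun q : ℝ × ℝ × ℝ × ℝ => F q.1 q.2) (Icc (0 : ℝ) 1 ×ˢ {p | 0 < p.2.1})
  smP : ContDiffOn ℝ 2 (fun q : ℝ × ℝ => P q.1 q.2) (Icc (0 : ℝ) 1 ×ˢ univ)
  smQ : ContDiffOn ℝ 2 (fun q : ℝ × ℝ × ℝ => Q q.1 q.2.1 q.2.2) (Icc (0 : ℝ) 1 ×ˢ univ)
  perF1 : ∀ t ∈ Icc (0 : ℝ) 1, ∀ θ u ω, 0 < u → F t (θ + 2 * π, u, ω) = F t (θ, u, ω)
  perF2 : ∀ t ∈ Icc (0 : ℝ) 1, ∀ θ u ω, 0 < u → F t (θ, u, ω + 2 * π) = F t (θ, u, ω)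
  perP : ∀ t ∈ Icc (0 : ℝ) 1, ∀ θ, P t (θ + 2 * π) = P t θ
  perQ1 : ∀ t ∈ Icc (0 : ℝ) 1, ∀ θ ω, Q t (θ + 2 * π) ω = Q t θ ω
  perQ2 : ∀ t ∈ Icc (0 : ℝ) 1, ∀ θ ω, Q t θ (ω + 2 * π) = Q t θ ω + 15 * (2 * π)
  low : ∃ a0 : ℝ, 0 < a0 ∧ ∀ t ∈ Icc (0 : ℝ) 1, ∀ θ u ω, 0 < u → u ≤ a0 →
    ‖F t (θ, u, ω) - P t θ‖ < ‖P t θ‖
  high : ∃ b0 : ℝ, ∀ t ∈ Icc (0 : ℝ) 1, ∀ θ u ω, b0 ≤ u →
    ‖F t (θ, u, ω) - ((u ^ 15 : ℝ) : ℂ) * cis (Q t θ ω)‖ < u ^ 15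
  reg : ∀ t ∈ Icc (0 : ℝ) 1, ∀ θ u ω, 0 < u → F t (θ, u, ω) = 0 →
    ∀ c : ℂ, ∃ y : ℝ × ℝ × ℝ, fderiv ℝ (F t) (θ, u, ω) y = c

/-- a function on `u > 0` with its two asymptotic terms. -/
structure Tri where
  F : ℝ × ℝ × ℝ → ℂ
  P : ℝ → ℂ
  Q : ℝ → ℝ → ℝ

/-- the arm of a triple with the cut-offs `a`, `b`. -/
def Tri.arm (X : Tri) (bo : Bool) (v : Fin 3) (a b : ℝ) : ℂ × ℂ → ℂ :=
  PA bo v (cut a b X.F X.P X.Q)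

theorem cis_pow (u ω : ℝ) : ((u ^ 15 : ℝ) : ℂ) * cis (15 * ω) =
    ((u : ℂ) * Complex.exp (ω * Complex.I)) ^ 15 := by
  unfold cis
  rw [mul_pow, ← Complex.exp_nat_mul]
  push_cast
  congr 2
  ring

/-- **a path of uncut functions gives a homotopy of arms.** -/
theorem UPath.step {F : ℝ → ℝ × ℝ × ℝ → ℂ} {P : ℝ → ℝ → ℂ} {Q : ℝ → ℝ → ℝ → ℝ}
    (h : UPath F P Q) : ∃ a0 : ℝ, 0 < a0 ∧ ∃ b0 : ℝ, ∀ a b : ℝ, 0 < a → a ≤ a0 → b0 ≤ b → a ≤ b →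
      AStep bo v (Tri.arm ⟨F 0, P 0, Q 0⟩ bo v a b) (Tri.arm ⟨F 1, P 1, Q 1⟩ bo v a b) := by
  obtain ⟨a0, ha0, hlow⟩ := h.low
  obtain ⟨b0, hhigh⟩ := h.high
  refine ⟨a0, ha0, b0, fun a b ha haa hbb hab => ?_⟩
  have hb := ha.trans_le hab
  refine astep_PA (h := fun t => cut a b (F t) (P t) (Q t)) ?_ ?_ ?_ ?_ ?_ ?_
  · exact cut_smooth a b h.smF h.smP h.smQ
  · intro t ht θ u ω hu
    show cut a b (F t) (P t) (Q t) (θ + 2 * π, u, ω) = cut a b (F t) (P t) (Q t) (θ, u, ω)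
    unfold cut Qu
    simp only [h.perF1 t ht θ u ω hu, h.perP t ht θ, h.perQ1 t ht θ ω]
  · intro t ht θ u ω hu
    show cut a b (F t) (P t) (Q t) (θ, u, ω + 2 * π) = cut a b (F t) (P t) (Q t) (θ, u, ω)
    unfold cut Qu
    simp only [h.perF2 t ht θ u ω hu, h.perQ2 t ht θ ω]
    have e1 : cis (Q t θ ω + 15 * (2 * π)) = cis (Q t θ ω) := by
      have := cis_add_two_pi_mul (Q t θ ω) 15
      push_cast at this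
      exact this
    have e2 : cis ((1 - hi b u) * (Q t θ ω + 15 * (2 * π)) + hi b u * (15 * (ω + 2 * π))) =
        cis ((1 - hi b u) * Q t θ ω + hi b u * (15 * ω)) := by
      have := cis_add_two_pi_mul ((1 - hi b u) * Q t θ ω + hi b u * (15 * ω)) 15
      push_cast at this
      rw [← this]
      congr 1
      ring
    rw [e1, e2]
  · refine ⟨a / 2, half_pos ha, fun t _ θ u ω _ hu => ?_⟩
    show cut a b (F t) (P t) (Q t) (θ, u, ω) = cut a b (F t) (P t) (Q t) (θ, a / 2, 0)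
    rw [cut_inner ha hab (q := (θ, u, ω)) hu, cut_inner ha hab (q := (θ, a / 2, 0)) (le_refl _)]
  · refine ⟨2 * b, fun t _ θ u ω hu => ?_⟩
    show cut a b (F t) (P t) (Q t) (θ, u, ω) = _
    rw [cut_outer ha hab (q := (θ, u, ω)) hu, cis_pow]
  · intro t ht θ u ω hu h0 c
    exact cut_reg ha hab (fun θ u ω hu hua => hlow t ht θ u ω hu (hua.trans haa))
      (fun θ u ω hbu => hhigh t ht θ u ω (hbb.trans hbu)) (h.reg t ht) θ u ω hu h0 c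

/-- **equivalence of triples**: the arms are joined for all small `a` and all large `b`. -/
def CEq (bo : Bool) (v : Fin 3) (X Y : Tri) : Prop :=
  ∃ a0 : ℝ, 0 < a0 ∧ ∃ b0 : ℝ, ∀ a b : ℝ, 0 < a → a ≤ a0 → b0 ≤ b → a ≤ b →
    AEq bo v (X.arm bo v a b) (Y.arm bo v a b)

theorem CEq.refl (X : Tri) : CEq bo v X X := ⟨1, one_pos, 0, fun _ _ _ _ _ _ => AEq.refl _⟩

theorem CEq.symm {X Y : Tri} (h : CEq bo v X Y) : CEq bo v Y X := by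
  obtain ⟨a0, ha0, b0, H⟩ := h
  exact ⟨a0, ha0, b0, fun a b h1 h2 h3 h4 => (H a b h1 h2 h3 h4).symm⟩

theorem CEq.trans {X Y Z : Tri} (h : CEq bo v X Y) (h' : CEq bo v Y Z) : CEq bo v X Z := by
  obtain ⟨a0, ha0, b0, H⟩ := h
  obtain ⟨a1, ha1, b1, H'⟩ := h'
  refine ⟨min a0 a1, lt_min ha0 ha1, max b0 b1, fun a b h1 h2 h3 h4 => ?_⟩
  exact (H a b h1 (h2.trans (min_le_left _ _)) ((le_max_left _ _).trans h3) h4).trans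
    (H' a b h1 (h2.trans (min_le_right _ _)) ((le_max_right _ _).trans h3) h4)

/-- **a path of uncut functions gives an equivalence.** -/
theorem UPath.ceq {F : ℝ → ℝ × ℝ × ℝ → ℂ} {P : ℝ → ℝ → ℂ} {Q : ℝ → ℝ → ℝ → ℝ}
    (h : UPath F P Q) : CEq bo v ⟨F 0, P 0, Q 0⟩ ⟨F 1, P 1, Q 1⟩ := by
  obtain ⟨a0, ha0, b0, H⟩ := h.step (bo := bo) (v := v)
  exact ⟨a0, ha0, b0, fun a b h1 h2 h3 h4 => (H a b h1 h2 h3 h4).aeq⟩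

/-- the same with named ends. -/
theorem UPath.ceq' {F : ℝ → ℝ × ℝ × ℝ → ℂ} {P : ℝ → ℝ → ℂ} {Q : ℝ → ℝ → ℝ → ℝ}
    (h : UPath F P Q) {X Y : Tri} (h0 : X = ⟨F 0, P 0, Q 0⟩) (h1 : Y = ⟨F 1, P 1, Q 1⟩) :
    CEq bo v X Y := by
  rw [h0, h1]
  exact h.ceq

/-! ### sums of terms -/

/-- `low` for `F t = u^15 e^{iQ} + (middle terms) + P`, `|P| = 1`, exponents of the middle terms in
`[1, 14]`, coefficients bounded by `Cm`. -/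
theorem low_sum {ι : Type} (s : Finset ι) {e : ι → ℝ} {c : ι → ℝ → ℝ → ℝ → ℝ → ℂ} {Cm : ℝ}
    {F : ℝ → ℝ × ℝ × ℝ → ℂ} {P : ℝ → ℝ → ℂ} {Q : ℝ → ℝ → ℝ → ℝ} (hCm : 0 ≤ Cm)
    (he : ∀ i ∈ s, 1 ≤ e i)
    (hc : ∀ t ∈ Icc (0 : ℝ) 1, ∀ i ∈ s, ∀ θ u ω, ‖c i t θ u ω‖ ≤ Cm)
    (hP : ∀ t ∈ Icc (0 : ℝ) 1, ∀ θ, ‖P t θ‖ = 1)
    (hF : ∀ t ∈ Icc (0 : ℝ) 1, ∀ θ u ω : ℝ, 0 < u →
      F t (θ, u, ω) = ((u ^ 15 : ℝ) : ℂ) * cis (Q t θ ω) +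
      (∑ i ∈ s, ((u ^ e i : ℝ) : ℂ) * c i t θ u ω) + P t θ) :
    ∃ a0 : ℝ, 0 < a0 ∧ ∀ t ∈ Icc (0 : ℝ) 1, ∀ θ u ω, 0 < u → u ≤ a0 →
      ‖F t (θ, u, ω) - P t θ‖ < ‖P t θ‖ := by
  have hX : 0 < 2 * (1 + s.card * Cm) := by positivity
  refine ⟨min 1 (1 / (2 * (1 + s.card * Cm))), lt_min one_pos (by positivity),
    fun t ht θ u ω hu h => ?_⟩
  refine low_of_sum (c := fun i => c i t) s he (hc t ht) (min_le_left _ _) ?_ (hP t ht)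
    (hF t ht) hCm θ u ω hu h
  calc 2 * (1 + s.card * Cm) * min 1 (1 / (2 * (1 + s.card * Cm))) ≤
      2 * (1 + s.card * Cm) * (1 / (2 * (1 + s.card * Cm))) :=
        mul_le_mul_of_nonneg_left (min_le_right _ _) hX.le
    _ = 1 := by field_simp

/-- `high` for the same functions. -/
theorem high_sum {ι : Type} (s : Finset ι) {e : ι → ℝ} {c : ι → ℝ → ℝ → ℝ → ℝ → ℂ} {Cm : ℝ}
    {F : ℝ → ℝ × ℝ × ℝ → ℂ} {P : ℝ → ℝ → ℂ} {Q : ℝ → ℝ → ℝ → ℝ} (hCm : 0 ≤ Cm)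
    (he : ∀ i ∈ s, e i ≤ 14)
    (hc : ∀ t ∈ Icc (0 : ℝ) 1, ∀ i ∈ s, ∀ θ u ω, ‖c i t θ u ω‖ ≤ Cm)
    (hP : ∀ t ∈ Icc (0 : ℝ) 1, ∀ θ, ‖P t θ‖ = 1)
    (hF : ∀ t ∈ Icc (0 : ℝ) 1, ∀ θ u ω : ℝ, 0 < u →
      F t (θ, u, ω) = ((u ^ 15 : ℝ) : ℂ) * cis (Q t θ ω) +
      (∑ i ∈ s, ((u ^ e i : ℝ) : ℂ) * c i t θ u ω) + P t θ) :
    ∃ b0 : ℝ, ∀ t ∈ Icc (0 : ℝ) 1, ∀ θ u ω, b0 ≤ u →
      ‖F t (θ, u, ω) - ((u ^ 15 : ℝ) : ℂ) * cis (Q t θ ω)‖ < u ^ 15 := by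
  refine ⟨2 + s.card * Cm, fun t ht θ u ω h => ?_⟩
  have h1 : (0 : ℝ) ≤ s.card * Cm := by positivity
  exact high_of_sum (c := fun i => c i t) s he (hc t ht) (by linarith) (by linarith) (hP t ht)
    (hF t ht) hCm θ u ω h

end Crest.Agent.R267.NStep_88
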