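import Mathlib.Analysis.Convex.SpecificFunctions.Basic
import Mathlib.Analysis.SpecialFunctions.Exp
import Mathlib.Algebra.BigOperators.Fin

/-!
# Row 267 (helper543): one-variable sign lemmas (Descartes) for the planar arms

A critical zero of a real sign pattern is a double positive root of `u ↦ Σ e_i u^{l_i}`;
at the double root `u = 1` (after rescaling): `Σ e_i = 0` and `Σ l_i e_i = 0`.
-/

set_option autoImplicit false

namespace Crest.Agent.R267.PlSign_543

open Finset Real

/-- One sign change: nothing nonzero away from the changing exponent. -/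
theorem one_change {ι : Type*} {s : Finset ι} {e l : ι → ℝ} {lam : ℝ}
    (h : ∀ i ∈ s, (0 ≤ e i ∧ l i ≤ lam) ∨ (e i ≤ 0 ∧ lam ≤ l i))
    (h0 : ∑ i ∈ s, e i = 0) (h1 : ∑ i ∈ s, l i * e i = 0) :
    ∀ i ∈ s, l i ≠ lam → e i = 0 := by
  have h2 : ∑ i ∈ s, (lam - l i) * e i = 0 := by
    have : ∑ i ∈ s, (lam - l i) * e i = lam * ∑ i ∈ s, e i - ∑ i ∈ s, l i * e i := by
      rw [Finset.mul_sum, ← Finset.sum_sub_distrib]
      exact Finset.sum_congr rfl fun i _ => by ring
    rw [this, h0, h1]; ring
  have h3 : ∀ i ∈ s, 0 ≤ (lam - l i) * e i := by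
    intro i hi
    rcases h i hi with ⟨a, b⟩ | ⟨a, b⟩
    · exact mul_nonneg (by linarith) a
    · exact mul_nonneg_of_nonpos_of_nonpos (by linarith) a
  intro i hi hl
  have h4 := (Finset.sum_eq_zero_iff_of_nonneg h3).1 h2 i hi
  rcases mul_eq_zero.1 h4 with h5 | h5
  · exact absurd (by linarith) hl
  · exact h5

/-- One sign change, the other orientation. -/
theorem one_change' {ι : Type*} {s : Finset ι} {e l : ι → ℝ} {lam : ℝ}
    (h : ∀ i ∈ s, (e i ≤ 0 ∧ l i ≤ lam) ∨ (0 ≤ e i ∧ lam ≤ l i))
    (h0 : ∑ i ∈ s, e i = 0) (h1 : ∑ i ∈ s, l i * e i = 0) :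
    ∀ i ∈ s, l i ≠ lam → e i = 0 := by
  have := one_change (s := s) (e := fun i => - e i) (l := l) (lam := lam)
    (fun i hi => by
      rcases h i hi with ⟨a, b⟩ | ⟨a, b⟩
      · exact Or.inl ⟨by linarith, b⟩
      · exact Or.inr ⟨by linarith, b⟩)
    (by rw [Finset.sum_neg_distrib, h0, neg_zero])
    (by
      have : ∑ i ∈ s, l i * - e i = - ∑ i ∈ s, l i * e i := by
        rw [← Finset.sum_neg_distrib]; exact Finset.sum_congr rfl fun i _ => by ring
      rw [this, h1, neg_zero])
  intro i hi hl
  have := this i hi hl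
  linarith

/-- the chord of `exp (τ ·)` through `a < b` lies above inside and below outside. -/
theorem chord {a b : ℝ} (hab : a < b) (τ : ℝ) : ∃ α β : ℝ,
    (∀ x, a ≤ x → x ≤ b → exp (x * τ) ≤ α + β * x) ∧
    (∀ x, x ≤ a ∨ b ≤ x → α + β * x ≤ exp (x * τ)) := by
  have hc : ConvexOn ℝ Set.univ (fun x : ℝ => exp (x * τ)) := by
    have := convexOn_exp.comp_linearMap (LinearMap.mulRight ℝ τ)
    simpa [Function.comp_def] using this
  set f : ℝ → ℝ := fun x => exp (x * τ) with hf
  have hba : 0 < b - a := by linarith
  refine ⟨f a - (f b - f a) / (b - a) * a, (f b - f a) / (b - a), ?_, ?_⟩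
  · intro x h1 h2
    have h3 := hc.2 (Set.mem_univ a) (Set.mem_univ b)
      (div_nonneg (by linarith : 0 ≤ b - x) hba.le) (div_nonneg (by linarith : 0 ≤ x - a) hba.le)
      (by field_simp; ring)
    have h4 : ((b - x) / (b - a)) • a + ((x - a) / (b - a)) • b = x := by
      simp only [smul_eq_mul]; field_simp; ring
    rw [h4] at h3
    simp only [smul_eq_mul] at h3
    have h5 : (b - x) / (b - a) * f a + (x - a) / (b - a) * f b
        = f a - (f b - f a) / (b - a) * a + (f b - f a) / (b - a) * x := by
      field_simp; ring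
    linarith [h3, h5]
  · intro x hx
    rcases hx with hx | hx
    · rcases eq_or_lt_of_le hx with rfl | hx'
      · have : f x - (f b - f x) / (b - x) * x + (f b - f x) / (b - x) * x = f x := by ring
        exact this.le
      · -- a between x and b
        have hbx : 0 < b - x := by linarith
        have h3 := hc.2 (Set.mem_univ x) (Set.mem_univ b)
          (div_nonneg hba.le hbx.le) (div_nonneg (by linarith : 0 ≤ a - x) hbx.le)
          (by field_simp; ring)
        have h4 : ((b - a) / (b - x)) • x + ((a - x) / (b - x)) • b = a := by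
          simp only [smul_eq_mul]; field_simp; ring
        rw [h4] at h3
        simp only [smul_eq_mul] at h3
        have h6 : f a * (b - x) ≤ (b - a) * f x + (a - x) * f b := by
          have := mul_le_mul_of_nonneg_right h3 hbx.le
          have h7 : ((b - a) / (b - x) * f x + (a - x) / (b - x) * f b) * (b - x)
              = (b - a) * f x + (a - x) * f b := by field_simp
          linarith [this, h7]
        have h8 : (f a - (f b - f a) / (b - a) * a + (f b - f a) / (b - a) * x) * (b - a)
            ≤ f x * (b - a) := by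
          have : (f a - (f b - f a) / (b - a) * a + (f b - f a) / (b - a) * x) * (b - a)
              = f a * (b - a) - (f b - f a) * (a - x) := by field_simp; ring
          rw [this]; nlinarith
        exact le_of_mul_le_mul_right h8 hba
    · rcases eq_or_lt_of_le hx with rfl | hx'
      · have : f a - (f b - f a) / (b - a) * a + (f b - f a) / (b - a) * b = f b := by
          field_simp; ring
        exact this.le
      · have hxa : 0 < x - a := by linarith
        have h3 := hc.2 (Set.mem_univ a) (Set.mem_univ x)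
          (div_nonneg (by linarith : 0 ≤ x - b) hxa.le) (div_nonneg hba.le hxa.le)
          (by field_simp; ring)
        have h4 : ((x - b) / (x - a)) • a + ((b - a) / (x - a)) • x = b := by
          simp only [smul_eq_mul]; field_simp; ring
        rw [h4] at h3
        simp only [smul_eq_mul] at h3
        have h6 : f b * (x - a) ≤ (x - b) * f a + (b - a) * f x := by
          have := mul_le_mul_of_nonneg_right h3 hxa.le
          have h7 : ((x - b) / (x - a) * f a + (b - a) / (x - a) * f x) * (x - a)
              = (x - b) * f a + (b - a) * f x := by field_simp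
          linarith [this, h7]
        have h8 : (f a - (f b - f a) / (b - a) * a + (f b - f a) / (b - a) * x) * (b - a)
            ≤ f x * (b - a) := by
          have : (f a - (f b - f a) / (b - a) * a + (f b - f a) / (b - a) * x) * (b - a)
              = f a * (b - a) + (f b - f a) * (x - a) := by field_simp; ring
          rw [this]; nlinarith
        exact le_of_mul_le_mul_right h8 hba

/-- Two sign changes `+ - +`: at a double root the function is `≥ 0` everywhere. -/
theorem two_change {ι : Type*} {s : Finset ι} {e l : ι → ℝ} {a b : ℝ} (hab : a < b)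
    (h : ∀ i ∈ s, (0 ≤ e i ∧ (l i ≤ a ∨ b ≤ l i)) ∨ (e i ≤ 0 ∧ a ≤ l i ∧ l i ≤ b))
    (h0 : ∑ i ∈ s, e i = 0) (h1 : ∑ i ∈ s, l i * e i = 0) (τ : ℝ) :
    0 ≤ ∑ i ∈ s, e i * exp (l i * τ) := by
  obtain ⟨α, β, hin, hout⟩ := chord hab τ
  have h2 : ∑ i ∈ s, e i * exp (l i * τ) = ∑ i ∈ s, e i * (exp (l i * τ) - (α + β * l i)) := by
    have : ∑ i ∈ s, e i * (exp (l i * τ) - (α + β * l i))
        = ∑ i ∈ s, e i * exp (l i * τ) - α * ∑ i ∈ s, e i - β * ∑ i ∈ s, l i * e i := by
      rw [Finset.mul_sum, Finset.mul_sum, ← Finset.sum_sub_distrib, ← Finset.sum_sub_distrib]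
      exact Finset.sum_congr rfl fun i _ => by ring
    rw [this, h0, h1]; ring
  rw [h2]
  refine Finset.sum_nonneg fun i hi => ?_
  rcases h i hi with ⟨p, q⟩ | ⟨p, q, r⟩
  · exact mul_nonneg p (by linarith [hout _ q])
  · exact mul_nonneg_of_nonpos_of_nonpos p (by linarith [hin _ q r])

end Crest.Agent.R267.PlSign_543
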