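import Crest.Agent.R267.NSCell_796
import Crest.Agent.R267.NSLift_966
import Crest.Agent.R267.PlSign_543

/-!
# Row 267, N2 (helper796): `RegBProp`

`0` is a regular value of path B of every nested system.
-/

set_option autoImplicit false
set_option linter.unusedSectionVars false

noncomputable section

open Finset Real Set Filter Topology
open Crest.Agent.R267.T3aDefs_957 (st)
open Crest.Agent.R267.Calc_957 (std st_of_le st_of_ge st_nonneg st_le_one std_pos hasDerivAt_st)
open Crest.Agent.R267.NSDefs_966 Crest.Agent.R267.NSHat_966 Crest.Agent.R267.NSOk_966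
open Crest.Agent.R267.NSKept_796 Crest.Agent.R267.NSCell_796

namespace Crest.Agent.R267.NSRegB_796

/-! ### periodicity and derivatives of the components -/

theorem Cc_int (A B u : ℝ) (n : ℤ) : Cc A B (n + u) = Cc A B u := by
  unfold Cc
  rw [show 2 * π * ((n : ℝ) + u) = 2 * π * u + n * (2 * π) by ring, cos_add_int_mul_two_pi,
    sin_add_int_mul_two_pi]

theorem Sc_int (A B u : ℝ) (n : ℤ) : Sc A B (n + u) = Sc A B u := by
  unfold Sc
  rw [show 2 * π * ((n : ℝ) + u) = 2 * π * u + n * (2 * π) by ring, cos_add_int_mul_two_pi,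
    sin_add_int_mul_two_pi]

theorem cos_int (u : ℝ) (n : ℤ) : cos (2 * π * (n + u)) = cos (2 * π * u) := by
  rw [show 2 * π * ((n : ℝ) + u) = 2 * π * u + n * (2 * π) by ring, cos_add_int_mul_two_pi]

theorem sin_int (u : ℝ) (n : ℤ) : sin (2 * π * (n + u)) = sin (2 * π * u) := by
  rw [show 2 * π * ((n : ℝ) + u) = 2 * π * u + n * (2 * π) by ring, sin_add_int_mul_two_pi]

theorem hasDerivAt_Cc (A B u : ℝ) : HasDerivAt (Cc A B) (2 * π * Sc A B u) u := by
  have h0 : HasDerivAt (fun u : ℝ => 2 * π * u) (2 * π) u := by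
    simpa using (hasDerivAt_id u).const_mul (2 * π)
  have h1 : HasDerivAt (fun u : ℝ => A * cos (2 * π * u)) (A * (-sin (2 * π * u) * (2 * π))) u :=
    ((hasDerivAt_cos (2 * π * u)).comp u h0).const_mul A
  have h2 : HasDerivAt (fun u : ℝ => B * sin (2 * π * u)) (B * (cos (2 * π * u) * (2 * π))) u :=
    ((hasDerivAt_sin (2 * π * u)).comp u h0).const_mul B
  have h3 := h1.add h2
  have e : 2 * π * Sc A B u = A * (-sin (2 * π * u) * (2 * π)) + B * (cos (2 * π * u) * (2 * π)) := by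
    unfold Sc; ring
  rw [e]
  exact h3

theorem e_re (u : ℝ) : (e u).re = cos (2 * π * u) := by
  unfold e
  rw [Complex.exp_re]
  simp

theorem e_im (u : ℝ) : (e u).im = sin (2 * π * u) := by
  unfold e
  rw [Complex.exp_im]
  simp

theorem e_half (u : ℝ) : e (u + 1 / 2) = -e u := by
  apply Complex.ext
  · rw [Complex.neg_re, e_re, e_re, show 2 * π * (u + 1 / 2) = 2 * π * u + π by ring, cos_add_pi]
  · rw [Complex.neg_im, e_im, e_im, show 2 * π * (u + 1 / 2) = 2 * π * u + π by ring, sin_add_pi]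

/-- onto from covectors -/
theorem surj_of (D : (ℝ × ℝ × ℝ) →L[ℝ] ℂ)
    (h : ∀ A B : ℝ, (∀ v, A * (D v).re + B * (D v).im = 0) → A = 0 ∧ B = 0) :
    Function.Surjective D := by
  by_contra hns
  have hlt : LinearMap.range (D : (ℝ × ℝ × ℝ) →ₗ[ℝ] ℂ) < ⊤ := by
    rw [lt_top_iff_ne_top]
    intro htop
    exact hns (LinearMap.range_eq_top.1 htop)
  obtain ⟨f, hf, hle⟩ := Submodule.exists_le_ker_of_lt_top _ hlt
  have hfz : ∀ z : ℂ, f z = f 1 * z.re + f Complex.I * z.im := by
    intro z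
    have : z = z.re • (1 : ℂ) + z.im • Complex.I := by
      apply Complex.ext <;> simp
    conv_lhs => rw [this]
    rw [map_add, map_smul, map_smul, smul_eq_mul, smul_eq_mul]
    ring
  have h1 := h (f 1) (f Complex.I) fun v => by
    rw [← hfz]
    exact hle (LinearMap.mem_range_self _ v)
  apply hf
  ext z
  rw [hfz, h1.1, h1.2]
  simp

/-! ### the cell of a nested system -/

section cell

variable {m : ℕ} (S : NS m)

/-- base column, other column. -/
def kb (k : ℤ) : ℤ := if S.sg k = 1 then k else k + 1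
def ko (k : ℤ) : ℤ := if S.sg k = 1 then k + 1 else k

/-- increments. -/
def aa (k l : ℤ) (s : Fin (m + 2)) : ℤ := S.N s (ko S k) l - S.N s (kb S k) l
def bb (k l : ℤ) (s : Fin (m + 2)) : ℤ := S.N s (kb S k) (l + 1) - S.N s (kb S k) l
def cc (k l : ℤ) (s : Fin (m + 2)) : ℤ := S.N s (ko S k) (l + 1) - S.N s (kb S k) l

/-- mirror coordinate. -/
def mt (k : ℤ) (μ : ℝ) : ℝ := if S.sg k = 1 then μ else 1 - μ

/-- sign -/
def sn (k : ℤ) : ℝ := if S.sg k = 1 then 1 else -1

theorem sn_ne (k : ℤ) : sn S k ≠ 0 := by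
  unfold sn; split_ifs <;> norm_num

theorem hasDerivAt_mt (k : ℤ) (μ : ℝ) : HasDerivAt (mt S k) (sn S k) μ := by
  unfold mt sn
  split_ifs
  · exact hasDerivAt_id μ
  · simpa using (hasDerivAt_id μ).const_sub 1

theorem bf_eq (k l : ℤ) (s : Fin (m + 2)) (μ ν : ℝ) :
    bf (S.N s k l) (S.N s (k + 1) l) (S.N s k (l + 1)) (S.N s (k + 1) (l + 1)) μ ν =
      (S.N s (kb S k) l : ℝ) + Hb (aa S k l s) (bb S k l s) (cc S k l s) (mt S k μ) ν := by
  unfold bf Hb aa bb cc mt kb ko
  split_ifs <;> push_cast <;> ring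

variable {S} (hS : S.Ok)
include hS

theorem cell_ok (k l : ℤ) : Cell (aa S k l) (bb S k l) (cc S k l) := by
  rcases hS.sg1 k with hk | hk
  · have e1 : kb S k = k := if_pos hk
    have e2 : ko S k = k + 1 := if_pos hk
    have st1 : ∀ s l, S.N s (k + 1) l - S.N s k l = 0 ∨ S.N s (k + 1) l - S.N s k l = 1 := by
      intro s l
      have := hS.stepk s k l
      rw [hk, one_mul] at this
      exact this
    have nk : ∀ (s : Fin (m + 1)) l, S.N s.castSucc (k + 1) l - S.N s.succ (k + 1) l ≤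
        S.N s.castSucc k l - S.N s.succ k l := by
      intro s l
      have := hS.nestk s k l
      rw [hk, one_mul, one_mul] at this
      exact this
    refine ⟨fun s => ?_, fun s => ?_, fun s => ?_, fun s => ?_, fun s => ?_, ?_, ?_, ?_, ?_,
      ?_, ?_, ?_, ?_⟩
    · unfold aa; rw [e1, e2]; exact st1 s l
    · unfold bb; rw [e1]; exact hS.stepl s k l
    · unfold cc aa; rw [e1, e2]
      have := hS.stepl s (k + 1) l
      omega
    · unfold cc bb; rw [e1, e2]
      have := st1 s (l + 1)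
      omega
    · unfold cc; rw [e1, e2]
      have := hS.diagp s k l hk
      omega
    · refine Fin.monotone_iff_le_succ.2 fun s => ?_
      unfold aa; rw [e1, e2]
      have := nk s l
      omega
    · refine Fin.antitone_iff_succ_le.2 fun s => ?_
      unfold bb; rw [e1]
      have := hS.nestl s k l
      omega
    · refine Fin.antitone_iff_succ_le.2 fun s => ?_
      simp only [cc, aa]; rw [e1, e2]
      have := hS.nestl s (k + 1) l
      omega
    · refine Fin.monotone_iff_le_succ.2 fun s => ?_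
      simp only [cc, bb]; rw [e1, e2]
      have := nk s (l + 1)
      omega
    · unfold aa; rw [e1, e2, hS.N0, hS.N0]; ring
    · unfold bb; rw [e1, hS.N0, hS.N0]; ring
    · unfold aa; rw [e1, e2, hS.N1s, hk]; ring
    · unfold bb; rw [e1, hS.N1 k (l + 1) l]; ring
  · have hk' : ¬ S.sg k = 1 := by rw [hk]; norm_num
    have e1 : kb S k = k + 1 := if_neg hk'
    have e2 : ko S k = k := if_neg hk'
    have st1 : ∀ s l, S.N s k l - S.N s (k + 1) l = 0 ∨ S.N s k l - S.N s (k + 1) l = 1 := by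
      intro s l
      have := hS.stepk s k l
      rw [hk] at this
      omega
    have nk : ∀ (s : Fin (m + 1)) l, S.N s.castSucc k l - S.N s.succ k l ≤
        S.N s.castSucc (k + 1) l - S.N s.succ (k + 1) l := by
      intro s l
      have := hS.nestk s k l
      rw [hk] at this
      linarith
    refine ⟨fun s => ?_, fun s => ?_, fun s => ?_, fun s => ?_, fun s => ?_, ?_, ?_, ?_, ?_,
      ?_, ?_, ?_, ?_⟩
    · unfold aa; rw [e1, e2]; exact st1 s l
    · unfold bb; rw [e1]; exact hS.stepl s (k + 1) l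
    · unfold cc aa; rw [e1, e2]
      have := hS.stepl s k l
      omega
    · unfold cc bb; rw [e1, e2]
      have := st1 s (l + 1)
      omega
    · unfold cc; rw [e1, e2]
      have := hS.diagn s k l hk
      omega
    · refine Fin.monotone_iff_le_succ.2 fun s => ?_
      unfold aa; rw [e1, e2]
      have := nk s l
      omega
    · refine Fin.antitone_iff_succ_le.2 fun s => ?_
      unfold bb; rw [e1]
      have := hS.nestl s (k + 1) l
      omega
    · refine Fin.antitone_iff_succ_le.2 fun s => ?_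
      simp only [cc, aa]; rw [e1, e2]
      have := hS.nestl s k l
      omega
    · refine Fin.monotone_iff_le_succ.2 fun s => ?_
      simp only [cc, bb]; rw [e1, e2]
      have := nk s (l + 1)
      omega
    · unfold aa; rw [e1, e2, hS.N0, hS.N0]; ring
    · unfold bb; rw [e1, hS.N0, hS.N0]; ring
    · unfold aa; rw [e1, e2, hS.N1s, hk]; ring
    · unfold bb; rw [e1, hS.N1 (k + 1) (l + 1) l]; ring

theorem flat_iff (k l : ℤ) (s : Fin (m + 2)) : S.flat s k l ↔ cc S k l s = 0 := by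
  have h := cell_ok hS k l
  have h1 := h.ha s
  have h2 := h.hb s
  have h3 := h.hca s
  have h4 := h.hcb s
  unfold NS.flat
  unfold aa at h1 h3
  unfold bb at h2 h4
  unfold cc at h3 h4 ⊢
  rcases hS.sg1 k with hk | hk
  · have e1 : kb S k = k := if_pos hk
    have e2 : ko S k = k + 1 := if_pos hk
    simp only [e1, e2] at *
    omega
  · have hk' : ¬ S.sg k = 1 := by rw [hk]; norm_num
    have e1 : kb S k = k + 1 := if_neg hk'
    have e2 : ko S k = k := if_neg hk'
    simp only [e1, e2] at *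
    omega

end cell

/-! ### the function as one sum -/

section fn

variable {m : ℕ} (S : NS m) (M : Fin m → ℝ) (Mv : ℝ)

/-- multiplier -/
def mul (t : ℝ) (s : Fin (m + 2)) (x y : ℝ) : ℝ :=
  if s = 0 ∨ s = Fin.last (m + 1) then 1 else 1 - t + t * S.fl s x y

/-- weight of a term -/
def wt (t : ℝ) (s : Fin (m + 2)) (z : ℝ × ℝ × ℝ) : ℝ :=
  cf M Mv s * mul S t s z.1 z.2.2 * exp (S.j s * z.2.1)

theorem cf_zero : cf M Mv 0 = 1 := rfl

theorem cf_last : cf M Mv (Fin.last (m + 1)) = Mv := by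
  unfold cf
  rw [← Fin.succ_last, Fin.cons_succ, Fin.snoc_last]

theorem cf_ix (σ : Fin m) : cf M Mv (NS.ix σ) = M σ := by
  unfold cf NS.ix
  rw [Fin.cons_succ, Fin.snoc_castSucc]

theorem ix_ne_zero (σ : Fin m) : NS.ix σ ≠ 0 := Fin.succ_ne_zero _

theorem ix_ne_last (σ : Fin m) : NS.ix σ ≠ Fin.last (m + 1) := by
  unfold NS.ix
  rw [← Fin.succ_last]
  intro h
  exact (Fin.castSucc_lt_last σ).ne (Fin.succ_injective _ h)

theorem exists_ix {s : Fin (m + 2)} (h0 : s ≠ 0) (h1 : s ≠ Fin.last (m + 1)) :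
    ∃ σ : Fin m, s = NS.ix σ := by
  obtain ⟨s', rfl⟩ := Fin.exists_succ_eq.2 h0
  have h2 : s' ≠ Fin.last m := fun h => h1 (by rw [h, Fin.succ_last])
  obtain ⟨σ, rfl⟩ := Fin.exists_castSucc_eq.2 h2
  exact ⟨σ, rfl⟩

theorem ix_inj {σ σ' : Fin m} (h : NS.ix σ = NS.ix σ') : σ = σ' :=
  Fin.castSucc_injective _ (Fin.succ_injective _ h)

theorem sum_fin {V : Type*} [AddCommMonoid V] (f : Fin (m + 2) → V) :
    ∑ s, f s = f 0 + (∑ σ : Fin m, f (NS.ix σ) + f (Fin.last (m + 1))) := by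
  rw [Fin.sum_univ_succ, Fin.sum_univ_castSucc]
  rfl

theorem cf_pos (hM : ∀ s, 0 < M s) (hMv : 0 < Mv) (s : Fin (m + 2)) : 0 < cf M Mv s := by
  by_cases h0 : s = 0
  · rw [h0, cf_zero]; exact one_pos
  · by_cases h1 : s = Fin.last (m + 1)
    · rw [h1, cf_last]; exact hMv
    · obtain ⟨σ, rfl⟩ := exists_ix h0 h1
      rw [cf_ix]; exact hM σ

variable {S} (hS : S.Ok)
include hS

theorem K_eq (t : ℝ) (z : ℝ × ℝ × ℝ) : (S.pathB M Mv).K t z =
    -∑ s, (wt S M Mv t s z : ℂ) * e (S.hat s z.1 z.2.2) := by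
  rw [sum_fin]
  have h0 : (wt S M Mv t 0 z : ℂ) * e (S.hat 0 z.1 z.2.2) =
      ((exp (15 * z.2.1) : ℝ) : ℂ) * e (Sp z.2.2) := by
    unfold wt mul
    rw [hat_zero hS, cf_zero, if_pos (Or.inl rfl), hS.j0]
    norm_num
  have h1 : (wt S M Mv t (Fin.last (m + 1)) z : ℂ) * e (S.hat (Fin.last (m + 1)) z.1 z.2.2) =
      (Mv : ℂ) * e (S.hat (Fin.last (m + 1)) z.1 0) := by
    unfold wt mul
    rw [hat_last hS, cf_last, if_pos (Or.inr rfl), hS.j1]
    norm_num
  rw [h0, h1]
  unfold PD.K PD.mid NS.pathB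
  simp only [e_half]
  have h2 : ∀ σ : Fin m, (wt S M Mv t (NS.ix σ) z : ℂ) * e (S.hat (NS.ix σ) z.1 z.2.2) =
      ((M σ * (1 - t + t * S.fl (NS.ix σ) z.1 z.2.2) * exp (S.j (NS.ix σ) * z.2.1) : ℝ) : ℂ) *
        e (S.hat (NS.ix σ) z.1 z.2.2) := by
    intro σ
    unfold wt mul
    rw [cf_ix, if_neg]
    rintro (h | h)
    · exact ix_ne_zero σ h
    · exact ix_ne_last σ h
  simp only [h2, mul_neg, Finset.sum_neg_distrib]
  ring

/-- the component of the function along a covector. -/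
theorem comp_eq (A B t : ℝ) (z : ℝ × ℝ × ℝ) :
    A * ((S.pathB M Mv).K t z).re + B * ((S.pathB M Mv).K t z).im =
      -∑ s, wt S M Mv t s z * Cc A B (S.hat s z.1 z.2.2) := by
  rw [K_eq M Mv hS, Complex.neg_re, Complex.neg_im, Complex.re_sum, Complex.im_sum,
    mul_neg, mul_neg, ← neg_add, Finset.mul_sum, Finset.mul_sum, ← Finset.sum_add_distrib]
  congr 1
  refine Finset.sum_congr rfl fun s _ => ?_
  rw [Complex.re_ofReal_mul, Complex.im_ofReal_mul, e_re, e_im]
  unfold Cc
  ring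

end fn

/-! ### windows -/

section win

variable {m : ℕ} {S : NS m}

theorem bil_nonneg {N : ℤ → ℤ → ℝ} (hN : ∀ k l, 0 ≤ N k l) (X Y : ℝ) : 0 ≤ bil N X Y := by
  unfold bil
  have h1 := Int.fract_nonneg X
  have h2 := (Int.fract_lt_one X).le
  have h3 := Int.fract_nonneg Y
  have h4 := (Int.fract_lt_one Y).le
  have h5 := mul_nonneg (mul_nonneg (sub_nonneg.2 h2) (sub_nonneg.2 h4)) (hN ⌊X⌋ ⌊Y⌋)
  have h6 := mul_nonneg (mul_nonneg h1 (sub_nonneg.2 h4)) (hN (⌊X⌋ + 1) ⌊Y⌋)
  have h7 := mul_nonneg (mul_nonneg (sub_nonneg.2 h2) h3) (hN ⌊X⌋ (⌊Y⌋ + 1))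
  have h8 := mul_nonneg (mul_nonneg h1 h3) (hN (⌊X⌋ + 1) (⌊Y⌋ + 1))
  linarith

theorem fl_nonneg (s : Fin (m + 2)) (x y : ℝ) : 0 ≤ S.fl s x y :=
  bil_nonneg (fun k l => by split_ifs <;> norm_num) _ _

theorem mul_nonneg' {t : ℝ} (ht : t ∈ Icc (0 : ℝ) 1) (s : Fin (m + 2)) (x y : ℝ) :
    0 ≤ mul S t s x y := by
  unfold mul
  split_ifs
  · exact zero_le_one
  · have := mul_nonneg ht.1 (fl_nonneg (S := S) s x y)
    linarith [ht.2]

theorem wt_nonneg {M : Fin m → ℝ} {Mv : ℝ} (hM : ∀ s, 0 < M s) (hMv : 0 < Mv) {t : ℝ}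
    (ht : t ∈ Icc (0 : ℝ) 1) (s : Fin (m + 2)) (z : ℝ × ℝ × ℝ) : 0 ≤ wt S M Mv t s z :=
  mul_nonneg (mul_nonneg (cf_pos M Mv hM hMv s).le (mul_nonneg' ht s _ _)) (exp_pos _).le

theorem wt_zero {M : Fin m → ℝ} {Mv t : ℝ} (z : ℝ × ℝ × ℝ) : 0 < wt S M Mv t 0 z := by
  unfold wt mul
  rw [cf_zero, if_pos (Or.inl rfl)]
  positivity

theorem wt_last {M : Fin m → ℝ} {Mv t : ℝ} (hMv : 0 < Mv) (z : ℝ × ℝ × ℝ) :
    0 < wt S M Mv t (Fin.last (m + 1)) z := by
  unfold wt mul
  rw [cf_last, if_pos (Or.inr rfl)]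
  positivity

/-- in the open rise the gap profile is locally constant. -/
theorem Gp_loc {k : ℤ} {x : ℝ} (h0 : (k : ℝ) < x) (h1 : x < k + 1 / 2) :
    ∀ᶠ x' in 𝓝 x, Gp x' = Gp x := by
  have h2 : Ioo (k : ℝ) (k + 1 / 2) ∈ 𝓝 x := Ioo_mem_nhds h0 h1
  have h3 : ∀ x' : ℝ, (k : ℝ) < x' → x' < k + 1 / 2 → Gp x' = k := by
    intro x' h h'
    rw [Gp_eq k h.le (by linarith), st_of_le (by linarith), add_zero]
  filter_upwards [h2] with x' hx'
  rw [h3 x' hx'.1 hx'.2, h3 x h0 h1]

end win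

/-! ### the equations of a degenerate zero -/

section eqs

variable {m : ℕ} {S : NS m} (hS : S.Ok) {M : Fin m → ℝ} {Mv : ℝ} (hMv : 0 < Mv) {A B t : ℝ}
include hS hMv

theorem diffK : Differentiable ℝ ((S.pathB M Mv).K t) := by
  have h := NSLift_966.smK (ok_B hS M Mv hMv)
  have h1 : ContDiff ℝ 2 fun z : ℝ × ℝ × ℝ => (S.pathB M Mv).K t z :=
    h.comp (g := fun q : ℝ × ℝ × ℝ × ℝ => (S.pathB M Mv).K q.1 q.2)
      (f := fun z : ℝ × ℝ × ℝ => (t, z)) (contDiff_const.prodMk contDiff_id)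
  exact h1.differentiable (by norm_num)

theorem comp_deriv {z : ℝ × ℝ × ℝ}
    (hcov : ∀ v, A * (fderiv ℝ ((S.pathB M Mv).K t) z v).re +
      B * (fderiv ℝ ((S.pathB M Mv).K t) z v).im = 0) {γ : ℝ → ℝ × ℝ × ℝ} {v : ℝ × ℝ × ℝ} {r : ℝ}
    (hγ : HasDerivAt γ v r) (hz : γ r = z) :
    HasDerivAt (fun r => -∑ s, wt S M Mv t s (γ r) * Cc A B (S.hat s (γ r).1 (γ r).2.2)) 0 r := by
  have h1 : HasFDerivAt ((S.pathB M Mv).K t) (fderiv ℝ ((S.pathB M Mv).K t) z) (γ r) := by
    rw [hz]
    exact (diffK hS hMv z).hasFDerivAt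
  have h2 := h1.comp_hasDerivAt r hγ
  have h3 : HasDerivAt (fun r => A * ((S.pathB M Mv).K t (γ r)).re +
      B * ((S.pathB M Mv).K t (γ r)).im) 0 r := by
    have h4 := (Complex.reCLM.hasFDerivAt.comp_hasDerivAt r h2).const_mul A
    have h5 := (Complex.imCLM.hasFDerivAt.comp_hasDerivAt r h2).const_mul B
    have h6 := h4.add h5
    rw [← hcov v]
    exact h6
  refine h3.congr_of_eventuallyEq (Filter.Eventually.of_forall fun r => ?_)
  exact (comp_eq M Mv hS A B t (γ r)).symm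

theorem eqL {x lam y : ℝ}
    (hcov : ∀ v, A * (fderiv ℝ ((S.pathB M Mv).K t) (x, lam, y) v).re +
      B * (fderiv ℝ ((S.pathB M Mv).K t) (x, lam, y) v).im = 0) :
    ∑ s, (S.j s : ℝ) * wt S M Mv t s (x, lam, y) * Cc A B (S.hat s x y) = 0 := by
  have h1 := comp_deriv hS hMv hcov (γ := fun r => (x, r, y)) (v := (0, 1, 0)) (r := lam)
    ((hasDerivAt_const _ _).prodMk ((hasDerivAt_id _).prodMk (hasDerivAt_const _ _))) rfl
  have h2 : HasDerivAt (fun r => -∑ s, wt S M Mv t s (x, r, y) * Cc A B (S.hat s x y))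
      (-∑ s, ((S.j s : ℝ) * wt S M Mv t s (x, lam, y)) * Cc A B (S.hat s x y)) lam := by
    refine HasDerivAt.neg (HasDerivAt.fun_sum fun s _ => HasDerivAt.mul_const ?_ _)
    unfold wt
    have h3 : HasDerivAt (fun r : ℝ => exp (S.j s * r)) (exp (S.j s * lam) * S.j s) lam := by
      have : HasDerivAt (fun r : ℝ => (S.j s : ℝ) * r) (S.j s) lam := by
        simpa using (hasDerivAt_id lam).const_mul (S.j s : ℝ)
      exact this.exp
    have h4 := h3.const_mul (cf M Mv s * mul S t s x y)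
    have e : (S.j s : ℝ) * (cf M Mv s * mul S t s x y * exp (S.j s * lam)) =
        cf M Mv s * mul S t s x y * (exp (S.j s * lam) * S.j s) := by ring
    rw [e]
    exact h4
  have h5 := h1.unique h2
  linarith

theorem hat_cell {k l : ℤ} {x y : ℝ} (h1 : (k : ℝ) - 1 / 2 ≤ x) (h2 : x ≤ k + 1)
    (h3 : (l : ℝ) - 1 / 2 ≤ y) (h4 : y ≤ l + 1) (s : Fin (m + 2)) :
    S.hat s x y = (S.N s (kb S k) l : ℝ) + Hb (aa S k l s) (bb S k l s) (cc S k l s)
      (mt S k (st (2 * (x - k)))) (st (2 * (y - l))) := by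
  rw [← bf_eq]
  exact bilS_eq _ k l h1 h2 h3 h4

theorem eqX {x lam y : ℝ} {k l : ℤ} (hk : (k : ℝ) < x) (hk' : x < k + 1 / 2) (hl : (l : ℝ) ≤ y)
    (hl' : y ≤ l + 1)
    (hcov : ∀ v, A * (fderiv ℝ ((S.pathB M Mv).K t) (x, lam, y) v).re +
      B * (fderiv ℝ ((S.pathB M Mv).K t) (x, lam, y) v).im = 0) :
    ∑ s, wt S M Mv t s (x, lam, y) * ((aa S k l s + ((cc S k l s : ℝ) - aa S k l s - bb S k l s) *
      st (2 * (y - l))) * Sc A B (S.hat s x y)) = 0 := by
  set ν := st (2 * (y - l)) with hν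
  have h1 := comp_deriv hS hMv hcov (γ := fun r => (r, lam, y)) (v := (1, 0, 0)) (r := x)
    ((hasDerivAt_id _).prodMk ((hasDerivAt_const _ _).prodMk (hasDerivAt_const _ _))) rfl
  -- local form
  have hG := Gp_loc hk hk'
  have hcell : Ioo ((k : ℝ) - 1 / 2) (k + 1) ∈ 𝓝 x := Ioo_mem_nhds (by linarith) (by linarith)
  have h2 : HasDerivAt (fun r => -∑ s, wt S M Mv t s (r, lam, y) * Cc A B (S.hat s r y))
      (-∑ s, wt S M Mv t s (x, lam, y) * (2 * π * Sc A B (S.hat s x y) *
        ((aa S k l s + ((cc S k l s : ℝ) - aa S k l s - bb S k l s) * ν) *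
          (sn S k * (std (2 * (x - k)) * 2))))) x := by
    have h3 : ∀ᶠ r in 𝓝 x, (-∑ s, wt S M Mv t s (r, lam, y) * Cc A B (S.hat s r y)) =
        -∑ s, wt S M Mv t s (x, lam, y) * Cc A B ((S.N s (kb S k) l : ℝ) +
          Hb (aa S k l s) (bb S k l s) (cc S k l s) (mt S k (st (2 * (r - k)))) ν) := by
      filter_upwards [hG, hcell] with r hr hr'
      congr 1
      refine Finset.sum_congr rfl fun s _ => ?_
      rw [hat_cell hS hMv hr'.1.le hr'.2.le (by linarith) hl' s]
      congr 1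
      unfold wt mul NS.fl
      simp only [hr]
    refine HasDerivAt.congr_of_eventuallyEq ?_ h3
    refine HasDerivAt.neg (HasDerivAt.fun_sum fun s _ => HasDerivAt.const_mul _ ?_)
    rw [hat_cell hS hMv (by linarith : (k : ℝ) - 1 / 2 ≤ x) (by linarith) (by linarith) hl' s]
    refine (hasDerivAt_Cc A B _).comp x ?_
    refine HasDerivAt.const_add _ ?_
    have h4 : HasDerivAt (fun r : ℝ => 2 * (r - k)) 2 x := by
      simpa using ((hasDerivAt_id x).sub_const (k : ℝ)).const_mul 2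
    have h5 : HasDerivAt (fun r : ℝ => mt S k (st (2 * (r - k))))
        (sn S k * (std (2 * (x - k)) * 2)) x :=
      (hasDerivAt_mt S k _).comp x ((hasDerivAt_st _).comp x h4)
    have h6 : HasDerivAt (fun μ : ℝ => Hb (aa S k l s) (bb S k l s) (cc S k l s) μ ν)
        (aa S k l s + ((cc S k l s : ℝ) - aa S k l s - bb S k l s) * ν)
        (mt S k (st (2 * (x - k)))) := by
      unfold Hb
      have h7 : HasDerivAt (fun μ : ℝ => (aa S k l s : ℝ) * μ + bb S k l s * ν +
          ((cc S k l s : ℝ) - aa S k l s - bb S k l s) * (μ * ν))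
          ((aa S k l s : ℝ) * 1 + ((cc S k l s : ℝ) - aa S k l s - bb S k l s) * (1 * ν))
          (mt S k (st (2 * (x - k)))) :=
        (((hasDerivAt_id _).const_mul _).add_const _).add
          (((hasDerivAt_id _).mul_const ν).const_mul _)
      simpa using h7
    exact h6.comp x h5
  have h5 := h1.unique h2
  have h6 : 2 * π * (sn S k * (std (2 * (x - k)) * 2)) ≠ 0 := by
    have := (std_pos (x := 2 * (x - k)) (by linarith) (by linarith)).ne'
    have := sn_ne S k
    positivity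
  refine (mul_eq_zero.1 (?_ : (2 * π * (sn S k * (std (2 * (x - k)) * 2))) * _ = 0)).resolve_left h6
  rw [Finset.mul_sum]
  have h7 : ∑ s, wt S M Mv t s (x, lam, y) * (2 * π * Sc A B (S.hat s x y) *
        ((aa S k l s + ((cc S k l s : ℝ) - aa S k l s - bb S k l s) * ν) *
          (sn S k * (std (2 * (x - k)) * 2)))) = 0 := by linarith
  rw [← h7]
  exact Finset.sum_congr rfl fun s _ => by ring

theorem eqY {x lam y : ℝ} {k l : ℤ} (hk : (k : ℝ) ≤ x) (hk' : x ≤ k + 1) (hl : (l : ℝ) < y)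
    (hl' : y < l + 1 / 2)
    (hcov : ∀ v, A * (fderiv ℝ ((S.pathB M Mv).K t) (x, lam, y) v).re +
      B * (fderiv ℝ ((S.pathB M Mv).K t) (x, lam, y) v).im = 0) :
    ∑ s, wt S M Mv t s (x, lam, y) * ((bb S k l s + ((cc S k l s : ℝ) - aa S k l s - bb S k l s) *
      mt S k (st (2 * (x - k)))) * Sc A B (S.hat s x y)) = 0 := by
  set μ := mt S k (st (2 * (x - k))) with hμ
  have h1 := comp_deriv hS hMv hcov (γ := fun r => (x, lam, r)) (v := (0, 0, 1)) (r := y)
    ((hasDerivAt_const _ _).prodMk ((hasDerivAt_const _ _).prodMk (hasDerivAt_id _))) rfl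
  have hG := Gp_loc hl hl'
  have hcell : Ioo ((l : ℝ) - 1 / 2) (l + 1) ∈ 𝓝 y := Ioo_mem_nhds (by linarith) (by linarith)
  have h2 : HasDerivAt (fun r => -∑ s, wt S M Mv t s (x, lam, r) * Cc A B (S.hat s x r))
      (-∑ s, wt S M Mv t s (x, lam, y) * (2 * π * Sc A B (S.hat s x y) *
        ((bb S k l s + ((cc S k l s : ℝ) - aa S k l s - bb S k l s) * μ) *
          (std (2 * (y - l)) * 2)))) y := by
    have h3 : ∀ᶠ r in 𝓝 y, (-∑ s, wt S M Mv t s (x, lam, r) * Cc A B (S.hat s x r)) =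
        -∑ s, wt S M Mv t s (x, lam, y) * Cc A B ((S.N s (kb S k) l : ℝ) +
          Hb (aa S k l s) (bb S k l s) (cc S k l s) μ (st (2 * (r - l)))) := by
      filter_upwards [hG, hcell] with r hr hr'
      congr 1
      refine Finset.sum_congr rfl fun s _ => ?_
      rw [hat_cell hS hMv (by linarith : (k : ℝ) - 1 / 2 ≤ x) hk' hr'.1.le hr'.2.le s]
      congr 1
      unfold wt mul NS.fl
      simp only [hr]
    refine HasDerivAt.congr_of_eventuallyEq ?_ h3
    refine HasDerivAt.neg (HasDerivAt.fun_sum fun s _ => HasDerivAt.const_mul _ ?_)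
    rw [hat_cell hS hMv (by linarith : (k : ℝ) - 1 / 2 ≤ x) hk'
      (by linarith : (l : ℝ) - 1 / 2 ≤ y) (by linarith : y ≤ l + 1) s]
    refine (hasDerivAt_Cc A B _).comp y ?_
    refine HasDerivAt.const_add _ ?_
    have h4 : HasDerivAt (fun r : ℝ => 2 * (r - l)) 2 y := by
      simpa using ((hasDerivAt_id y).sub_const (l : ℝ)).const_mul 2
    have h5 : HasDerivAt (fun r : ℝ => st (2 * (r - l))) (std (2 * (y - l)) * 2) y :=
      (hasDerivAt_st _).comp y h4
    have h6 : HasDerivAt (fun ν : ℝ => Hb (aa S k l s) (bb S k l s) (cc S k l s) μ ν)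
        (bb S k l s + ((cc S k l s : ℝ) - aa S k l s - bb S k l s) * μ)
        (st (2 * (y - l))) := by
      unfold Hb
      have h7 : HasDerivAt (fun ν : ℝ => (aa S k l s : ℝ) * μ + bb S k l s * ν +
          ((cc S k l s : ℝ) - aa S k l s - bb S k l s) * (μ * ν))
          ((bb S k l s : ℝ) * 1 + ((cc S k l s : ℝ) - aa S k l s - bb S k l s) * (μ * 1))
          (st (2 * (y - l))) :=
        (((hasDerivAt_id _).const_mul _).const_add _).add
          (((hasDerivAt_id _).const_mul μ).const_mul _)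
      simpa using h7
    exact h6.comp y h5
  have h5 := h1.unique h2
  have h6 : 2 * π * (std (2 * (y - l)) * 2) ≠ 0 := by
    have := (std_pos (x := 2 * (y - l)) (by linarith) (by linarith)).ne'
    positivity
  refine (mul_eq_zero.1 (?_ : (2 * π * (std (2 * (y - l)) * 2)) * _ = 0)).resolve_left h6
  rw [Finset.mul_sum]
  have h7 : ∑ s, wt S M Mv t s (x, lam, y) * (2 * π * Sc A B (S.hat s x y) *
        ((bb S k l s + ((cc S k l s : ℝ) - aa S k l s - bb S k l s) * μ) *
          (std (2 * (y - l)) * 2))) = 0 := by linarith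
  rw [← h7]
  exact Finset.sum_congr rfl fun s _ => by ring

end eqs

/-! ### the main theorem -/

section main

variable {m : ℕ} {S : NS m} (hS : S.Ok) {M : Fin m → ℝ} {Mv : ℝ} (hM : ∀ s, 0 < M s)
  (hMv : 0 < Mv) {A B t : ℝ} (ht : t ∈ Icc (0 : ℝ) 1)
include hS

theorem K1_eq {x lam y : ℝ} (hK : (S.pathB M Mv).K t (x, lam, y) = 0) :
    ∑ s, wt S M Mv t s (x, lam, y) * cos (2 * π * S.hat s x y) = 0 := by
  have h := comp_eq M Mv hS 1 0 t (x, lam, y)
  rw [hK] at h
  simp only [Complex.zero_re, Complex.zero_im, mul_zero, add_zero] at h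
  have h1 : ∑ s, wt S M Mv t s (x, lam, y) * Cc 1 0 (S.hat s x y) = 0 := by linarith
  rw [← h1]
  refine Finset.sum_congr rfl fun s _ => ?_
  unfold Cc
  ring

theorem K2_eq {x lam y : ℝ} (hK : (S.pathB M Mv).K t (x, lam, y) = 0) :
    ∑ s, wt S M Mv t s (x, lam, y) * sin (2 * π * S.hat s x y) = 0 := by
  have h := comp_eq M Mv hS 0 1 t (x, lam, y)
  rw [hK] at h
  simp only [Complex.zero_re, Complex.zero_im, mul_zero, add_zero] at h
  have h1 : ∑ s, wt S M Mv t s (x, lam, y) * Cc 0 1 (S.hat s x y) = 0 := by linarith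
  rw [← h1]
  refine Finset.sum_congr rfl fun s _ => ?_
  unfold Cc
  ring

include hM hMv ht

/-- one variable active. -/
theorem gap_case {x lam y : ℝ} {α n : Fin (m + 2) → ℤ} {μ : ℝ}
    (hh : ∀ s, S.hat s x y = (n s : ℝ) + α s * μ) (hα : ∀ s, α s = 0 ∨ α s = 1)
    (hE : (Monotone α ∧ α 0 = 0 ∧ α (Fin.last (m + 1)) = 1) ∨
      (Antitone α ∧ α 0 = 1 ∧ α (Fin.last (m + 1)) = 0))
    (hK : (S.pathB M Mv).K t (x, lam, y) = 0)
    (hx : ∑ s, wt S M Mv t s (x, lam, y) * (α s * Sc A B (S.hat s x y)) = 0)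
    (hl : ∑ s, (S.j s : ℝ) * wt S M Mv t s (x, lam, y) * Cc A B (S.hat s x y) = 0) :
    A = 0 ∧ B = 0 := by
  have K1 := K1_eq hS hK
  have K2 := K2_eq hS hK
  simp only [hh, cos_int, sin_int, Sc_int, Cc_int] at K1 K2 hx hl
  have hj : ∀ s s' : Fin (m + 2), s < s' → (S.j s' : ℝ) < S.j s := fun s s' h => by
    exact_mod_cast hS.hj h
  rcases hE with ⟨hm, e0, e1⟩ | ⟨hm, e0, e1⟩
  · refine core_gap (E := fun s => (S.j s : ℝ)) (w := fun s => wt S M Mv t s (x, lam, y)) hα
      (Or.inl fun s s' h h' => hj s s' ?_) (fun s => wt_nonneg hM hMv ht s _)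
      (s₀ := 0) (s₁ := Fin.last (m + 1)) (wt_zero _) e0 (wt_last hMv _) e1 K1 K2 hx hl
    by_contra hcon
    have := hm (not_lt.1 hcon)
    omega
  · refine core_gap (E := fun s => (S.j s : ℝ)) (w := fun s => wt S M Mv t s (x, lam, y)) hα
      (Or.inr fun s s' h h' => hj s' s ?_) (fun s => wt_nonneg hM hMv ht s _)
      (s₀ := Fin.last (m + 1)) (s₁ := 0) (wt_last hMv _) e1 (wt_zero _) e0 K1 K2 hx hl
    by_contra hcon
    have := hm (not_lt.1 hcon)
    omega

/-- a flat coupling cannot be a double zero: domination. -/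
theorem no_flat {k l : ℤ} {x lam y : ℝ} (hN : S.Neg M Mv) (hk : (k : ℝ) < x) (hk' : x < k + 1 / 2)
    (hl : (l : ℝ) < y) (hl' : y < l + 1 / 2) (hc : ∃ s, cc S k l s = 0) :
    ¬ (∑ s ∈ Qg (aa S k l) (bb S k l), wt S M Mv t s (x, lam, y) +
        ∑ s ∈ Pg (aa S k l) (bb S k l), wt S M Mv t s (x, lam, y) =
          ∑ s ∈ Xg (aa S k l) (bb S k l), wt S M Mv t s (x, lam, y) ∧
      ∑ s ∈ Qg (aa S k l) (bb S k l), (S.j s : ℝ) * wt S M Mv t s (x, lam, y) +
        ∑ s ∈ Pg (aa S k l) (bb S k l), (S.j s : ℝ) * wt S M Mv t s (x, lam, y) =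
          ∑ s ∈ Xg (aa S k l) (bb S k l), (S.j s : ℝ) * wt S M Mv t s (x, lam, y)) := by
  rintro ⟨h1, h2⟩
  have hC := cell_ok hS k l
  set a := aa S k l with ha
  set b := bb S k l with hb
  obtain ⟨s0, hs0⟩ := hc
  have hjj : ∀ s s' : Fin (m + 2), s < s' → (S.j s' : ℝ) < S.j s := fun s s' h => by
    exact_mod_cast hS.hj h
  -- the flat term is in the middle group
  have hs0X : s0 ∈ Xg a b := by
    have e1 := hC.ha s0
    have e2 := hC.hb s0
    have e3 := hC.hca s0
    have e4 := hC.hcb s0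
    refine Finset.mem_filter.2 ⟨Finset.mem_univ _, ?_⟩
    show a s0 = b s0
    omega
  have hXflat : ∀ s ∈ Xg a b, S.flat s k l := by
    intro s hs
    rw [flat_iff hS, (hC.x_eq hs hs0X).2.2, hs0]
  have h00 : s0 ≠ 0 := by
    rintro rfl
    exact absurd (hC.qx hC.q0 hs0X) (lt_irrefl _)
  have h01 : s0 ≠ Fin.last (m + 1) := by
    rintro rfl
    exact absurd (hC.xp hs0X hC.p1) (lt_irrefl _)
  obtain ⟨σ, hσ⟩ := exists_ix h00 h01
  -- windows
  have hfl : ∀ s, S.fl s x y = if S.flat s k l then 1 else 0 := by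
    intro s
    unfold NS.fl
    rw [bilG_lobe _ k l hk.le hk'.le hl.le hl'.le]
  have hmX : ∀ s ∈ Xg a b, mul S t s x y = 1 := by
    intro s hs
    unfold mul
    rw [hfl, if_pos (hXflat s hs)]
    split_ifs <;> ring
  have hm1 : ∀ s, mul S t s x y ≤ 1 := by
    intro s
    unfold mul
    rw [hfl]
    have := ht.1
    split_ifs <;> linarith
  obtain ⟨lam0, hlam⟩ := hN σ
  -- thresholds
  obtain ⟨p0, hp0, hp0m⟩ := (Pg a b).exists_min_image (fun s => s) ⟨_, hC.p1⟩
  obtain ⟨q0, hq0, hq0m⟩ := (Qg a b).exists_max_image (fun s => s) ⟨_, hC.q0⟩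
  let ε : Fin (m + 2) → ℝ := fun s => if s ∈ Xg a b then -1 else 1
  have hsum : ∀ f : Fin (m + 2) → ℝ, ∑ s, ε s * f s =
      ∑ s ∈ Qg a b, f s + ∑ s ∈ Pg a b, f s - ∑ s ∈ Xg a b, f s := by
    intro f
    rw [sum3 a b]
    have e1 : ∑ s ∈ Qg a b, ε s * f s = ∑ s ∈ Qg a b, f s := by
      refine Finset.sum_congr rfl fun s hs => ?_
      have : s ∉ Xg a b := fun h => absurd (hC.qx hs h) (lt_irrefl _)
      simp only [ε, if_neg this, one_mul]
    have e2 : ∑ s ∈ Xg a b, ε s * f s = -∑ s ∈ Xg a b, f s := by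
      rw [← Finset.sum_neg_distrib]
      refine Finset.sum_congr rfl fun s hs => ?_
      simp only [ε, if_pos hs, neg_mul, one_mul]
    have e3 : ∑ s ∈ Pg a b, ε s * f s = ∑ s ∈ Pg a b, f s := by
      refine Finset.sum_congr rfl fun s hs => ?_
      have : s ∉ Xg a b := fun h => absurd (hC.xp h hs) (lt_irrefl _)
      simp only [ε, if_neg this, one_mul]
    rw [e1, e2, e3]
    ring
  have key := PlSign_543.two_change (s := (Finset.univ : Finset (Fin (m + 2))))
    (e := fun s => ε s * wt S M Mv t s (x, lam, y)) (l := fun s => (S.j s : ℝ))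
    (a := (S.j p0 : ℝ)) (b := (S.j q0 : ℝ)) (hjj _ _ (hC.qp hq0 hp0))
    (by
      intro s _
      have hw : 0 ≤ wt S M Mv t s (x, lam, y) := wt_nonneg hM hMv ht s (x, lam, y)
      rcases lt_trichotomy (a s) (b s) with h | h | h
      · left
        have hq : s ∈ Qg a b := Finset.mem_filter.2 ⟨Finset.mem_univ _, h⟩
        have : s ∉ Xg a b := fun h' => absurd (hC.qx hq h') (lt_irrefl _)
        refine ⟨by simp only [ε, if_neg this, one_mul]; exact hw, Or.inr ?_⟩
        have := hq0m s hq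
        rcases this.eq_or_lt with e | e
        · rw [e]
        · exact (hjj _ _ e).le
      · right
        have hx : s ∈ Xg a b := Finset.mem_filter.2 ⟨Finset.mem_univ _, h⟩
        refine ⟨by simp only [ε, if_pos hx]; linarith, (hjj _ _ (hC.xp hx hp0)).le,
          (hjj _ _ (hC.qx hq0 hx)).le⟩
      · left
        have hp : s ∈ Pg a b := Finset.mem_filter.2 ⟨Finset.mem_univ _, h⟩
        have : s ∉ Xg a b := fun h' => absurd (hC.xp h' hp) (lt_irrefl _)
        refine ⟨by simp only [ε, if_neg this, one_mul]; exact hw, Or.inl ?_⟩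
        have := hp0m s hp
        rcases this.eq_or_lt with e | e
        · rw [e]
        · exact (hjj _ _ e).le)
    (by rw [hsum]; linarith)
    (by
      have e : ∀ s, (S.j s : ℝ) * (ε s * wt S M Mv t s (x, lam, y)) =
          ε s * ((S.j s : ℝ) * wt S M Mv t s (x, lam, y)) := fun s => by ring
      simp only [e]
      rw [hsum]; linarith) (lam0 - lam)
  -- upper bound of the value at `lam0`
  have hup : ∀ s, ε s * wt S M Mv t s (x, lam, y) * exp ((S.j s : ℝ) * (lam0 - lam)) ≤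
      (if s = s0 then -1 else 1) * (cf M Mv s * exp (S.j s * lam0)) := by
    intro s
    have hc := cf_pos M Mv hM hMv s
    have he := exp_pos ((S.j s : ℝ) * lam0)
    have e1 : wt S M Mv t s (x, lam, y) * exp ((S.j s : ℝ) * (lam0 - lam)) =
        cf M Mv s * mul S t s x y * exp (S.j s * lam0) := by
      unfold wt
      rw [mul_assoc, ← exp_add]
      congr 2
      ring
    rw [mul_assoc, e1]
    by_cases hs : s = s0
    · rw [if_pos hs]
      have hX : s ∈ Xg a b := hs ▸ hs0X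
      rw [hmX s hX]
      simp only [ε, if_pos hX]
      linarith
    · rw [if_neg hs]
      have h3 : ε s * (cf M Mv s * mul S t s x y * exp (S.j s * lam0)) ≤
          1 * (cf M Mv s * mul S t s x y * exp (S.j s * lam0)) := by
        have h4 : 0 ≤ cf M Mv s * mul S t s x y * exp (S.j s * lam0) :=
          mul_nonneg (mul_nonneg hc.le (mul_nonneg' ht s x y)) he.le
        refine mul_le_mul_of_nonneg_right ?_ h4
        simp only [ε]
        split_ifs <;> norm_num
      refine h3.trans ?_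
      rw [one_mul, one_mul]
      have h5 : cf M Mv s * mul S t s x y ≤ cf M Mv s * 1 :=
        mul_le_mul_of_nonneg_left (hm1 s) hc.le
      rw [mul_one] at h5
      exact mul_le_mul_of_nonneg_right h5 he.le
  have h6 := key.trans (Finset.sum_le_sum fun s _ => hup s)
  rw [sum_fin] at h6
  have e0 : (0 : Fin (m + 2)) ≠ s0 := Ne.symm h00
  have e1 : Fin.last (m + 1) ≠ s0 := Ne.symm h01
  rw [if_neg e0, if_neg e1, cf_zero, cf_last, hS.j0, hS.j1] at h6
  have e2 : ∀ σ' : Fin m, ((if NS.ix σ' = s0 then -1 else 1 : ℝ)) *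
      (cf M Mv (NS.ix σ') * exp (S.j (NS.ix σ') * lam0)) =
      (if σ' = σ then -1 else 1) * (M σ' * exp (S.j (NS.ix σ') * lam0)) := by
    intro σ'
    rw [cf_ix]
    by_cases h : σ' = σ
    · rw [if_pos h, if_pos (by rw [h, hσ])]
    · rw [if_neg h, if_neg (fun h' => h (ix_inj (h'.trans hσ)))]
  simp only [e2] at h6
  rw [← Finset.add_sum_erase _ _ (Finset.mem_univ σ), if_pos rfl] at h6
  have e3 : ∑ x ∈ univ.erase σ, (if x = σ then -1 else 1 : ℝ) *
      (M x * exp (S.j (NS.ix x) * lam0)) =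
      ∑ x ∈ univ.erase σ, M x * exp (S.j (NS.ix x) * lam0) := by
    refine Finset.sum_congr rfl fun s hs => ?_
    rw [if_neg (Finset.ne_of_mem_erase hs), one_mul]
  rw [e3] at h6
  simp only [one_mul, neg_mul, Nat.cast_ofNat, Nat.cast_zero, zero_mul, exp_zero, mul_one] at h6
  linarith

end main

/-- **RegBProp.** -/
theorem regB : RegBProp := by
  intro m S hS M Mv hM hMv hN t ht z hK
  obtain ⟨x, lam, y⟩ := z
  refine surj_of _ fun A B hcov => ?_
  have hL := eqL hS hMv hcov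
  have hk1 := Int.floor_le x
  have hk2 := Int.lt_floor_add_one x
  have hl1 := Int.floor_le y
  have hl2 := Int.lt_floor_add_one y
  set k := ⌊x⌋ with hkdef
  set l := ⌊y⌋ with hldef
  have hC := cell_ok hS k l
  have hat := fun s => hat_cell hS hMv (by linarith : (k : ℝ) - 1 / 2 ≤ x) hk2.le
    (by linarith : (l : ℝ) - 1 / 2 ≤ y) hl2.le s
  set μ := mt S k (st (2 * (x - k))) with hμ
  set ν := st (2 * (y - l)) with hν
  have hc0 : cc S k l 0 = 1 := by
    have h1 := hC.hcb 0
    have h2 := hC.b0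
    have h3 := hC.hc 0
    omega
  have hc1 : cc S k l (Fin.last (m + 1)) = 1 := by
    have h1 := hC.hca (Fin.last (m + 1))
    have h2 := hC.a1
    have h3 := hC.hc (Fin.last (m + 1))
    omega
  -- the values of the inactive variables
  have hμi : (k : ℝ) = x ∨ k + 1 / 2 ≤ x → μ = 0 ∨ μ = 1 := by
    intro h
    have : st (2 * (x - k)) = 0 ∨ st (2 * (x - k)) = 1 := by
      rcases h with h | h
      · left; exact st_of_le (by linarith)
      · right; exact st_of_ge (by linarith)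
    rw [hμ]
    unfold mt
    rcases this with h | h <;> rw [h] <;> split_ifs <;> norm_num
  have hνi : (l : ℝ) = y ∨ l + 1 / 2 ≤ y → ν = 0 ∨ ν = 1 := by
    intro h
    rcases h with h | h
    · left; exact st_of_le (by linarith)
    · right; exact st_of_ge (by linarith)
  by_cases hx : (k : ℝ) < x ∧ x < k + 1 / 2
  · have hX := eqX hS hMv hx.1 hx.2 hl1 hl2.le hcov
    by_cases hy : (l : ℝ) < y ∧ y < l + 1 / 2
    · have hY := eqY hS hMv hk1 hk2.le hy.1 hy.2 hcov
      rw [← hν] at hX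
      rw [← hμ] at hY
      have K1 := K1_eq hS hK
      have K2 := K2_eq hS hK
      simp only [hat, cos_int, sin_int, Sc_int, Cc_int] at K1 K2 hX hY hL
      have hm0 : 0 < st (2 * (x - k)) := Calc_957.st_pos (by linarith [hx.1])
      have hm1 : st (2 * (x - k)) < 1 := Calc_957.st_lt_one (by linarith [hx.2])
      have hμ0 : 0 < μ := by
        rw [hμ]; unfold mt; split_ifs <;> linarith
      have hμ1 : μ < 1 := by
        rw [hμ]; unfold mt; split_ifs <;> linarith
      have hν0 : 0 < ν := Calc_957.st_pos (by linarith [hy.1])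
      have hν1 : ν < 1 := Calc_957.st_lt_one (by linarith [hy.2])
      refine core_cell hC (E := fun s => (S.j s : ℝ)) (w := fun s => wt S M Mv t s (x, lam, y))
        (fun s s' h => ?_) (fun s => wt_nonneg hM hMv ht s _) (wt_zero _) (wt_last hMv _)
        hμ0 hμ1 hν0 hν1 K1 K2 hX hY hL ?_
      · show (S.j s' : ℝ) < S.j s
        exact_mod_cast hS.hj h
      · exact no_flat hS hM hMv ht hN hx.1 hx.2 hy.1 hy.2
    · have hy' : (l : ℝ) = y ∨ l + 1 / 2 ≤ y := by
        rcases hl1.eq_or_lt with h | h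
        · exact Or.inl h
        · exact Or.inr (not_lt.1 fun h' => hy ⟨h, h'⟩)
      rw [← hν] at hX
      rcases hνi hy' with h | h
      · refine gap_case hS hM hMv ht (α := aa S k l) (n := fun s => S.N s (kb S k) l) (μ := μ)
          (fun s => ?_) hC.ha (Or.inl ⟨hC.ma, hC.a0, hC.a1⟩) hK ?_ hL
        · rw [hat, h]; unfold Hb; ring
        · rw [← hX]
          refine Finset.sum_congr rfl fun s _ => ?_
          rw [h]; ring
      · refine gap_case hS hM hMv ht (α := fun s => cc S k l s - bb S k l s)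
          (n := fun s => S.N s (kb S k) l + bb S k l s) (μ := μ)
          (fun s => ?_) hC.hcb (Or.inl ⟨hC.mcb, ?_, ?_⟩) hK ?_ hL
        · rw [hat, h]; unfold Hb; push_cast; ring
        · simp only [hc0, hC.b0]; norm_num
        · simp only [hc1, hC.b1]; norm_num
        · rw [← hX]
          refine Finset.sum_congr rfl fun s _ => ?_
          rw [h]; push_cast; ring
  · have hx' : (k : ℝ) = x ∨ k + 1 / 2 ≤ x := by
      rcases hk1.eq_or_lt with h | h
      · exact Or.inl h
      · exact Or.inr (not_lt.1 fun h' => hx ⟨h, h'⟩)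
    by_cases hy : (l : ℝ) < y ∧ y < l + 1 / 2
    · have hY := eqY hS hMv hk1 hk2.le hy.1 hy.2 hcov
      rw [← hμ] at hY
      rcases hμi hx' with h | h
      · refine gap_case hS hM hMv ht (α := bb S k l) (n := fun s => S.N s (kb S k) l) (μ := ν)
          (fun s => ?_) hC.hb (Or.inr ⟨hC.mb, hC.b0, hC.b1⟩) hK ?_ hL
        · rw [hat, h]; unfold Hb; ring
        · rw [← hY]
          refine Finset.sum_congr rfl fun s _ => ?_
          rw [h]; ring
      · refine gap_case hS hM hMv ht (α := fun s => cc S k l s - aa S k l s)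
          (n := fun s => S.N s (kb S k) l + aa S k l s) (μ := ν)
          (fun s => ?_) hC.hca (Or.inr ⟨hC.mca, ?_, ?_⟩) hK ?_ hL
        · rw [hat, h]; unfold Hb; push_cast; ring
        · simp only [hc0, hC.a0]; norm_num
        · simp only [hc1, hC.a1]; norm_num
        · rw [← hY]
          refine Finset.sum_congr rfl fun s _ => ?_
          rw [h]; push_cast; ring
    · exfalso
      have hy' : (l : ℝ) = y ∨ l + 1 / 2 ≤ y := by
        rcases hl1.eq_or_lt with h | h
        · exact Or.inl h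
        · exact Or.inr (not_lt.1 fun h' => hy ⟨h, h'⟩)
      have K1 := K1_eq hS hK
      have hone : ∀ s, cos (2 * π * S.hat s x y) = 1 := by
        intro s
        have : ∃ n : ℤ, S.hat s x y = n := by
          rcases hμi hx' with h | h <;> rcases hνi hy' with h' | h'
          · exact ⟨S.N s (kb S k) l, by rw [hat, h, h']; unfold Hb; ring⟩
          · exact ⟨S.N s (kb S k) l + bb S k l s, by rw [hat, h, h']; unfold Hb; push_cast; ring⟩
          · exact ⟨S.N s (kb S k) l + aa S k l s, by rw [hat, h, h']; unfold Hb; push_cast; ring⟩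
          · exact ⟨S.N s (kb S k) l + cc S k l s, by rw [hat, h, h']; unfold Hb; push_cast; ring⟩
        obtain ⟨n, hn⟩ := this
        have := cos_int 0 n
        rw [add_zero] at this
        rw [hn, this, mul_zero, cos_zero]
      simp only [hone, mul_one] at K1
      have h0 := wt_zero (S := S) (M := M) (Mv := Mv) (t := t) (x, lam, y)
      have h1 := Finset.single_le_sum (f := fun s => wt S M Mv t s (x, lam, y))
        (fun s _ => wt_nonneg hM hMv ht s _) (Finset.mem_univ (0 : Fin (m + 2)))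
      linarith

end Crest.Agent.R267.NSRegB_796

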