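import Crest.Agent.R267.NSDefs_966

/-!
# Row 267, C1 (966's `NSDefs_966`): LEAF SEP (helper667)

`sep_prop : SepProp`: the coefficients `r ^ (a i + j - 15)` of 484's arms are separated (`Sep`) and
every coupling dominates somewhere (`Neg`), for small `r`.
-/

set_option autoImplicit false

noncomputable section

open Set Finset
open Crest.Agent.R267.NSDefs_966

namespace Crest.Agent.R267.SepN_667

/-- strict concavity with a gap, only through `min`. -/
def Conc {m : ℕ} (f : Fin (m + 2) → ℝ) (G : ℝ) : Prop :=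
  ∀ s s' s'' : Fin (m + 2), s < s' → s' < s'' → min (f s) (f s'') + G ≤ f s'

theorem pair_of_conc {m : ℕ} {f : Fin (m + 2) → ℝ} {G : ℝ} (hG : 0 < G) (hf : Conc f G) :
    ∃ s : Fin (m + 1), ∀ s' : Fin (m + 2), s' ≠ s.castSucc → s' ≠ s.succ →
      f s' + G ≤ max (f s.castSucc) (f s.succ) := by
  obtain ⟨s, -, hs⟩ := Finset.exists_max_image (Finset.univ : Finset (Fin (m + 1)))
    (fun s => f s.castSucc + f s.succ) ⟨0, Finset.mem_univ _⟩
  have hs' : ∀ u : Fin (m + 1), f u.castSucc + f u.succ ≤ f s.castSucc + f s.succ :=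
    fun u => hs u (Finset.mem_univ _)
  refine ⟨s, fun s' h1 h2 => ?_⟩
  have v1 : (s' : ℕ) ≠ s := fun h => h1 (Fin.ext (by simpa using h))
  have v2 : (s' : ℕ) ≠ s + 1 := fun h => h2 (Fin.ext (by simpa using h))
  have hsc : (s.castSucc : ℕ) = s := rfl
  have hss : (s.succ : ℕ) = s + 1 := rfl
  rcases lt_or_gt_of_ne v1 with hlt | hgt
  · -- `s' < s`
    have hs0 : 0 < (s : ℕ) := by omega
    obtain ⟨u, hu⟩ : ∃ u : Fin (m + 1), (u : ℕ) = s - 1 := ⟨⟨s - 1, by omega⟩, rfl⟩
    have huc : (u.castSucc : ℕ) = u := rfl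
    have e1 : u.succ = s.castSucc := Fin.ext (by simp only [Fin.val_succ, Fin.val_castSucc]; omega)
    have h3 := hs' u
    rw [e1] at h3
    have h4 : f u.castSucc ≤ f s.succ := by linarith
    have h5 := hf u.castSucc s.castSucc s.succ (Fin.lt_def.2 (by omega)) (Fin.lt_def.2 (by omega))
    rw [min_eq_left h4] at h5
    by_cases h6 : s' = u.castSucc
    · rw [h6]; exact h5.trans (le_max_left _ _)
    · have v3 : (s' : ℕ) ≠ u := fun h => h6 (Fin.ext (by simpa using h))
      have h7 := hf s' u.castSucc s.castSucc (Fin.lt_def.2 (by omega)) (Fin.lt_def.2 (by omega))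
      rcases le_total (f s') (f s.castSucc) with h8 | h8
      · rw [min_eq_left h8] at h7
        refine le_trans ?_ (le_max_left _ _)
        linarith
      · rw [min_eq_right h8] at h7
        exfalso; linarith
  · -- `s' > s + 1`
    have hlt2 : (s : ℕ) + 1 < s' := by omega
    have hb := s'.2
    obtain ⟨u, hu⟩ : ∃ u : Fin (m + 1), (u : ℕ) = s + 1 := ⟨⟨s + 1, by omega⟩, rfl⟩
    have huc : (u.succ : ℕ) = u + 1 := rfl
    have e1 : u.castSucc = s.succ := Fin.ext (by simp only [Fin.val_succ, Fin.val_castSucc]; omega)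
    have h3 := hs' u
    rw [e1] at h3
    have h4 : f u.succ ≤ f s.castSucc := by linarith
    have h5 := hf s.castSucc s.succ u.succ (Fin.lt_def.2 (by omega)) (Fin.lt_def.2 (by omega))
    rw [min_eq_right h4] at h5
    by_cases h6 : s' = u.succ
    · rw [h6]; exact h5.trans (le_max_right _ _)
    · have v3 : (s' : ℕ) ≠ u + 1 := fun h => h6 (Fin.ext (by simpa using h))
      have h7 := hf s.succ u.succ s' (Fin.lt_def.2 (by omega)) (Fin.lt_def.2 (by omega))
      rcases le_total (f s.succ) (f s') with h8 | h8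
      · rw [min_eq_left h8] at h7
        exfalso; linarith
      · rw [min_eq_right h8] at h7
        refine le_trans ?_ (le_max_right _ _)
        linarith

theorem mid_of_conc {m : ℕ} {f : Fin (m + 2) → ℝ} {G : ℝ} (hG : 0 < G) (hf : Conc f G)
    {p c q : Fin (m + 2)} (hp : (p : ℕ) + 1 = c) (hq : (c : ℕ) + 1 = q) (he : f p = f q)
    (s' : Fin (m + 2)) (h : s' ≠ c) : f s' + G ≤ f c := by
  have h1 := hf p c q (by rw [Fin.lt_def]; omega) (by rw [Fin.lt_def]; omega)
  rw [he, min_self] at h1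
  have v1 : (s' : ℕ) ≠ c := fun h' => h (Fin.ext h')
  by_cases h2 : s' = p
  · rw [h2, he]; exact h1
  by_cases h3 : s' = q
  · rw [h3]; exact h1
  have v2 : (s' : ℕ) ≠ p := fun h' => h2 (Fin.ext h')
  have v3 : (s' : ℕ) ≠ q := fun h' => h3 (Fin.ext h')
  rcases lt_or_gt_of_ne v1 with hlt | hgt
  · have h7 := hf s' p c (by rw [Fin.lt_def]; omega) (by rw [Fin.lt_def]; omega)
    rcases le_total (f s') (f c) with h8 | h8
    · rw [min_eq_left h8] at h7; linarith
    · rw [min_eq_right h8] at h7; exfalso; linarith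
  · have h7 := hf c q s' (by rw [Fin.lt_def]; omega) (by rw [Fin.lt_def]; omega)
    rcases le_total (f c) (f s') with h8 | h8
    · rw [min_eq_left h8] at h7; exfalso; linarith
    · rw [min_eq_right h8] at h7; linarith

section

variable {m : ℕ} (S : NS m) (a : ℕ)

/-- the logarithm of the term `s` at the radius `lam`. -/
def LL (r lam : ℝ) (s : Fin (m + 2)) : ℝ :=
  ((a * S.i s + S.j s : ℕ) - 15 : ℝ) * Real.log r + S.j s * lam

theorem conc_LL (hS : S.Ok) (hC : S.Cvx a) {r : ℝ} (h0 : 0 < r) (h1 : r ≤ 1) (lam : ℝ) :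
    Conc (LL S a r lam) (-(Real.log r) / 15) := by
  intro s s' s'' h h'
  have hl : Real.log r ≤ 0 := Real.log_nonpos h0.le h1
  have c := hC.2.2 s s' s'' h h'
  have j1 : S.j s' < S.j s := hS.hj h
  have j2 : S.j s'' < S.j s' := hS.hj h'
  have j3 : S.j s ≤ 15 := by
    rw [← hS.j0]; exact hS.hj.antitone (Fin.zero_le _)
  have j1' : (S.j s' : ℝ) < S.j s := by exact_mod_cast j1
  have j2' : (S.j s'' : ℝ) < S.j s' := by exact_mod_cast j2
  have j3' : (S.j s : ℝ) ≤ 15 := by exact_mod_cast j3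
  have j4' : (0 : ℝ) ≤ S.j s'' := Nat.cast_nonneg _
  have c' : (((a * S.i s' + S.j s' : ℕ) : ℤ) * ((S.j s : ℤ) - S.j s'') + 1 : ℤ) ≤
      ((a * S.i s + S.j s : ℕ) : ℤ) * ((S.j s' : ℤ) - S.j s'') +
        ((a * S.i s'' + S.j s'' : ℕ) : ℤ) * ((S.j s : ℤ) - S.j s') := by omega
  have c'' : (((a * S.i s' + S.j s' : ℕ) : ℝ) * ((S.j s : ℝ) - S.j s'') + 1 : ℝ) ≤
      ((a * S.i s + S.j s : ℕ) : ℝ) * ((S.j s' : ℝ) - S.j s'') +
        ((a * S.i s'' + S.j s'' : ℕ) : ℝ) * ((S.j s : ℝ) - S.j s') := by exact_mod_cast c'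
  set A := ((a * S.i s + S.j s : ℕ) : ℝ) with hA
  set A' := ((a * S.i s' + S.j s' : ℕ) : ℝ) with hA'
  set A'' := ((a * S.i s'' + S.j s'' : ℕ) : ℝ) with hA''
  set l := Real.log r with hlr
  have key : ((S.j s : ℝ) - S.j s'') * LL S a r lam s' ≥
      ((S.j s' : ℝ) - S.j s'') * LL S a r lam s + ((S.j s : ℝ) - S.j s') * LL S a r lam s'' - l := by
    simp only [LL, ← hA, ← hA', ← hA'', ← hlr]
    nlinarith [mul_nonneg_of_nonpos_of_nonpos hl (sub_nonpos.2 c'')]
  have hm1 : min (LL S a r lam s) (LL S a r lam s'') ≤ LL S a r lam s := min_le_left _ _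
  have hm2 : min (LL S a r lam s) (LL S a r lam s'') ≤ LL S a r lam s'' := min_le_right _ _
  have k1 := mul_le_mul_of_nonneg_left hm1 (sub_nonneg.2 j2'.le)
  have k2 := mul_le_mul_of_nonneg_left hm2 (sub_nonneg.2 j1'.le)
  have hpos : 0 < (S.j s : ℝ) - S.j s'' := by linarith
  have hle : ((S.j s : ℝ) - S.j s'') ≤ 15 := by linarith
  have k3 : ((S.j s : ℝ) - S.j s'') * (-l / 15) ≤ -l := by nlinarith
  have k4 : ((S.j s : ℝ) - S.j s'') * (min (LL S a r lam s) (LL S a r lam s'') + -l / 15) ≤
      ((S.j s : ℝ) - S.j s'') * LL S a r lam s' := by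
    rw [mul_add]; nlinarith
  exact le_of_mul_le_mul_left k4 hpos

theorem term_eq (hS : S.Ok) (hC : S.Cvx a) {r : ℝ} (h0 : 0 < r) (lam : ℝ) (s : Fin (m + 2)) :
    cf (S.Mr a r) (NS.Mvr a r) s * Real.exp (S.j s * lam) = Real.exp (LL S a r lam s) := by
  have hcf : cf (S.Mr a r) (NS.Mvr a r) s = r ^ (a * S.i s + S.j s - 15) := by
    induction s using Fin.cases with
    | zero => simp [cf, hS.i0, hS.j0]
    | succ s =>
      induction s using Fin.lastCases with
      | last =>
        have e : (Fin.last m).succ = Fin.last (m + 1) := rfl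
        simp only [cf, Fin.cons_succ, Fin.snoc_last]
        rw [e, hS.i1, hS.j1]
        simp [NS.Mvr, mul_comm]
      | cast s =>
        simp only [cf, Fin.cons_succ, Fin.snoc_castSucc]
        rfl
  have h15 := hC.1 s
  rw [hcf, LL, Real.exp_add, ← Real.exp_log (pow_pos h0 (a * S.i s + S.j s - 15)), Real.log_pow]
  congr 2
  rw [Nat.cast_sub h15]
  norm_num

end

/-- **LEAF SEP.** -/
theorem sep_prop : SepProp := by
  intro m S a hS hC δ hδ
  set ε : ℝ := min (min δ (1 / (m + 2))) (1 / 2) with hε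
  have hm : (0 : ℝ) < m + 2 := by positivity
  have ε0 : 0 < ε := by positivity
  have ε1 : ε < 1 := lt_of_le_of_lt (min_le_right _ _) (by norm_num)
  have εδ : ε ≤ δ := (min_le_left _ _).trans (min_le_left _ _)
  have εm : ε ≤ 1 / (m + 2) := (min_le_left _ _).trans (min_le_right _ _)
  refine ⟨ε ^ 15, pow_pos ε0 _, fun r h0 hr => ?_⟩
  have hr1 : r < 1 := lt_of_le_of_lt hr (pow_lt_one₀ ε0.le ε1 (by norm_num))
  have hG : 0 < -(Real.log r) / 15 := by
    have := Real.log_neg h0 hr1
    linarith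
  have hGe : Real.exp (-(-(Real.log r) / 15)) ≤ ε := by
    rw [← Real.le_log_iff_exp_le ε0]
    have := Real.log_le_log h0 hr
    rw [Real.log_pow] at this
    push_cast at this
    linarith
  have hcv := fun lam => conc_LL S a hS hC h0 hr1.le lam
  constructor
  · intro lam
    obtain ⟨s, hs⟩ := pair_of_conc hG (hcv lam)
    refine ⟨s, fun s' h1 h2 => ?_⟩
    rw [term_eq S a hS hC h0, term_eq S a hS hC h0, term_eq S a hS hC h0,
      ← Real.exp_monotone.map_max]
    have h3 := hs s' h1 h2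
    have h4 : LL S a r lam s' ≤ -(-(Real.log r) / 15) +
        max (LL S a r lam s.castSucc) (LL S a r lam s.succ) := by linarith
    calc Real.exp (LL S a r lam s') ≤ Real.exp (-(-(Real.log r) / 15) +
        max (LL S a r lam s.castSucc) (LL S a r lam s.succ)) := Real.exp_le_exp.2 h4
      _ = Real.exp (-(-(Real.log r) / 15)) *
          Real.exp (max (LL S a r lam s.castSucc) (LL S a r lam s.succ)) := Real.exp_add _ _
      _ ≤ δ * _ := mul_le_mul_of_nonneg_right (hGe.trans εδ) (Real.exp_nonneg _)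
  · intro s
    set p : Fin (m + 2) := s.castSucc.castSucc with hp
    set c : Fin (m + 2) := NS.ix s with hc
    set q : Fin (m + 2) := s.succ.succ with hq
    have hpc : (p : ℕ) + 1 = c := by simp [hp, hc, NS.ix]
    have hcq : (c : ℕ) + 1 = q := by simp [hq, hc, NS.ix]
    have hj : (S.j q : ℝ) < S.j p := by
      have : S.j q < S.j p := hS.hj (by rw [Fin.lt_def]; omega)
      exact_mod_cast this
    set X : Fin (m + 2) → ℝ := fun s => ((a * S.i s + S.j s : ℕ) - 15 : ℝ) with hX
    set lam : ℝ := (X q - X p) * Real.log r / (S.j p - S.j q) with hlam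
    have he : LL S a r lam p = LL S a r lam q := by
      have hne : (S.j p : ℝ) - S.j q ≠ 0 := by linarith
      have h5 : lam * (S.j p - S.j q) = (X q - X p) * Real.log r := by
        rw [hlam]; field_simp
      have h6 : LL S a r lam p = X p * Real.log r + S.j p * lam := rfl
      have h7 : LL S a r lam q = X q * Real.log r + S.j q * lam := rfl
      rw [h6, h7]; linarith
    have hmid := mid_of_conc hG (hcv lam) hpc hcq he
    refine ⟨lam, ?_⟩
    have t0 : Real.exp (15 * lam) = Real.exp (LL S a r lam 0) := by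
      rw [← term_eq S a hS hC h0]
      simp [cf, hS.j0]
    have t1 : NS.Mvr a r = Real.exp (LL S a r lam (Fin.last (m + 1))) := by
      rw [← term_eq S a hS hC h0, hS.j1]
      have e : (Fin.last (m + 1)) = (Fin.last m).succ := rfl
      rw [e]
      simp [cf]
    have t2 : ∀ s' : Fin m, S.Mr a r s' * Real.exp (S.j (NS.ix s') * lam) =
        Real.exp (LL S a r lam (NS.ix s')) := by
      intro s'
      rw [← term_eq S a hS hC h0]
      simp [cf, NS.ix]
    have bd : ∀ s' : Fin (m + 2), s' ≠ c → Real.exp (LL S a r lam s') ≤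
        ε * Real.exp (LL S a r lam c) := by
      intro s' h
      have h8 := hmid s' h
      calc Real.exp (LL S a r lam s') ≤ Real.exp (-(-(Real.log r) / 15) + LL S a r lam c) :=
            Real.exp_le_exp.2 (by linarith)
        _ = Real.exp (-(-(Real.log r) / 15)) * Real.exp (LL S a r lam c) := Real.exp_add _ _
        _ ≤ _ := mul_le_mul_of_nonneg_right hGe (Real.exp_nonneg _)
    have b0 := bd 0 (fun h => by
      have := congrArg Fin.val h
      simp [hc, NS.ix] at this)
    have b1 := bd (Fin.last (m + 1)) (fun h => by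
      have := congrArg Fin.val h
      have hs := s.2
      simp [hc, NS.ix] at this
      omega)
    have b2 : ∑ s' ∈ Finset.univ.erase s, S.Mr a r s' * Real.exp (S.j (NS.ix s') * lam) ≤
        ((m : ℝ) - 1) * (ε * Real.exp (LL S a r lam c)) := by
      have hcard : ((Finset.univ.erase s).card : ℝ) = (m : ℝ) - 1 := by
        rw [Finset.card_erase_of_mem (Finset.mem_univ _), Finset.card_univ, Fintype.card_fin,
          Nat.cast_sub (by have := s.2; omega)]
        simp
      rw [← hcard, ← nsmul_eq_mul]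
      refine Finset.sum_le_card_nsmul _ _ _ fun s' hs' => ?_
      rw [t2]
      refine bd _ fun h => ?_
      have := congrArg Fin.val h
      simp [hc, NS.ix] at this
      exact (Finset.mem_erase.1 hs').1 (Fin.ext this)
    rw [t0, t1, t2]
    have hE : 0 < Real.exp (LL S a r lam c) := Real.exp_pos _
    have b3 : ((m : ℝ) + 1) * ε < 1 := by
      have : (m + 2 : ℝ) * ε ≤ 1 := by
        calc (m + 2 : ℝ) * ε ≤ (m + 2 : ℝ) * (1 / (m + 2)) :=
              mul_le_mul_of_nonneg_left εm hm.le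
          _ = 1 := by field_simp
      nlinarith
    have b4 : ((m : ℝ) + 1) * ε * Real.exp (LL S a r lam c) < 1 * Real.exp (LL S a r lam c) :=
      mul_lt_mul_of_pos_right b3 hE
    nlinarith

end Crest.Agent.R267.SepN_667
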