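import Crest.Agent.R267.NAsm_407
import Crest.Agent.R267.SepN_667
import Crest.Agent.R267.NSRegB_796

/-!
# Row 267, C1 (helper407): the planar arms from the exit alone
-/

set_option autoImplicit false

namespace Crest.Agent.R267.NAsmF_407

/-- **C1** from the exit. -/
theorem armsP (b : Bool) (D : T3aNDefs_88.SD 4) (hE : ∀ v, NAsm_407.ExitP b D v) :
    HubAsm_284.ArmsP b D :=
  NAsm_407.armsP_of SepN_667.sep_prop NSRegB_796.regB b D hE

end Crest.Agent.R267.NAsmF_407
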