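import Crest.Agent.R267.NSLift_966

/-!
# Row 267, T3N, C1: the literal `LiftPD` and the bridge to the cut-offs of `NCut_88` (helper966)

* `gcut α β F P Q` : the cut function with general weights `α` (inner) and `β` (outer);
* `UPath.gstep` : a `UPath` and a path of weights give an `AStep`;
* `gcut_cut` : `NCut_88.cut` is a `gcut`; `h_gcut` : `PD.h` is a `gcut` for `u ≥ 0`;
* `liftPD : LiftPD`; `bridge` : the arm of `D.tri t` is joined to `PA (D.h a b t)`.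
-/

set_option autoImplicit false
set_option linter.unusedSectionVars false

noncomputable section

open Set Filter Topology Finset
open Crest.Agent.R267.NdR_484 Crest.Agent.R267.NdY_484 Crest.Agent.R267.PolArm_484
open Crest.Agent.R267.NCut_88 Crest.Agent.R267.NStep_88 Crest.Agent.R267.NSDefs_966
open Crest.Agent.R267.NSLift_966

namespace Crest.Agent.R267.NSBridge_966

/-- the cut function with general weights. -/
def gcut (α β : ℝ → ℝ) (F : ℝ × ℝ × ℝ → ℂ) (P : ℝ → ℂ) (Q : ℝ → ℝ → ℝ) (q : ℝ × ℝ × ℝ) : ℂ :=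
  ((1 - α q.2.1 : ℝ) : ℂ) * P q.1 +
    ((β q.2.1 : ℝ) : ℂ) * (((α q.2.1 : ℝ) : ℂ) * F q -
      ((q.2.1 ^ 15 : ℝ) : ℂ) * cis (Q q.1 q.2.2)) +
    ((q.2.1 ^ 15 : ℝ) : ℂ) * cis (β q.2.1 * Q q.1 q.2.2 + (1 - β q.2.1) * (15 * q.2.2))

/-- a pair of weights for the window `[a, b]`. -/
structure Wt (a b : ℝ) (α β : ℝ → ℝ) : Prop where
  α0 : ∀ u, u ≤ a / 2 → α u = 0
  α1 : ∀ u, a ≤ u → α u = 1
  αn : ∀ u, 0 ≤ α u
  αl : ∀ u, α u ≤ 1
  β1 : ∀ u, u ≤ b → β u = 1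
  β0 : ∀ u, 2 * b ≤ u → β u = 0
  βn : ∀ u, 0 ≤ β u
  βl : ∀ u, β u ≤ 1

theorem gcut_cut (a b : ℝ) (F : ℝ × ℝ × ℝ → ℂ) (P : ℝ → ℂ) (Q : ℝ → ℝ → ℝ) :
    cut a b F P Q = gcut (lo a) (fun u => 1 - hi b u) F P Q := by
  funext q
  unfold cut gcut Qu
  rw [sub_sub_cancel]

section

variable {a b : ℝ} {α β : ℝ → ℝ} {F : ℝ × ℝ × ℝ → ℂ} {P : ℝ → ℂ} {Q : ℝ → ℝ → ℝ}

theorem gcut_low (h : Wt a b α β) {q : ℝ × ℝ × ℝ} (hq : q.2.1 ≤ b) :
    gcut α β F P Q q = P q.1 + ((α q.2.1 : ℝ) : ℂ) * (F q - P q.1) := by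
  unfold gcut
  rw [h.β1 _ hq]
  simp only [sub_self, one_mul, zero_mul, add_zero, Complex.ofReal_one]
  push_cast
  ring

theorem gcut_high (h : Wt a b α β) {q : ℝ × ℝ × ℝ} (hq : a ≤ q.2.1) :
    gcut α β F P Q q = ((β q.2.1 : ℝ) : ℂ) * (F q - ((q.2.1 ^ 15 : ℝ) : ℂ) * cis (Q q.1 q.2.2)) +
      ((q.2.1 ^ 15 : ℝ) : ℂ) * cis (β q.2.1 * Q q.1 q.2.2 + (1 - β q.2.1) * (15 * q.2.2)) := by
  unfold gcut
  rw [h.α1 _ hq]
  simp

theorem gcut_mid (h : Wt a b α β) {q : ℝ × ℝ × ℝ} (hq : a ≤ q.2.1) (hq' : q.2.1 ≤ b) :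
    gcut α β F P Q q = F q := by
  rw [gcut_low h hq', h.α1 _ hq]
  simp

theorem gcut_inner (h : Wt a b α β) (hab : a / 2 ≤ b) {q : ℝ × ℝ × ℝ} (hq : q.2.1 ≤ a / 2) :
    gcut α β F P Q q = P q.1 := by
  rw [gcut_low h (hq.trans hab), h.α0 _ hq]
  simp

theorem gcut_outer (h : Wt a b α β) (hab : a ≤ 2 * b) {q : ℝ × ℝ × ℝ} (hq : 2 * b ≤ q.2.1) :
    gcut α β F P Q q = ((q.2.1 ^ 15 : ℝ) : ℂ) * cis (15 * q.2.2) := by
  rw [gcut_high h (hab.trans hq), h.β0 _ hq]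
  simp

theorem gcut_ne_low (h : Wt a b α β) (hab : a ≤ b) {q : ℝ × ℝ × ℝ} (hq : q.2.1 ≤ a)
    (hF : ‖F q - P q.1‖ < ‖P q.1‖) : gcut α β F P Q q ≠ 0 := by
  rw [gcut_low h (hq.trans hab)]
  intro h0
  have h1 : P q.1 = -(((α q.2.1 : ℝ) : ℂ) * (F q - P q.1)) := eq_neg_of_add_eq_zero_left h0
  have h2 : ‖P q.1‖ ≤ ‖F q - P q.1‖ := by
    calc ‖P q.1‖ = ‖-(((α q.2.1 : ℝ) : ℂ) * (F q - P q.1))‖ := congrArg _ h1
      _ = α q.2.1 * ‖F q - P q.1‖ := by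
          rw [norm_neg, norm_mul, Complex.norm_real, Real.norm_of_nonneg (h.αn _)]
      _ ≤ 1 * ‖F q - P q.1‖ := mul_le_mul_of_nonneg_right (h.αl _) (norm_nonneg _)
      _ = _ := one_mul _
  linarith

theorem gcut_ne_high (h : Wt a b α β) (ha : 0 < a) (hab : a ≤ b) {q : ℝ × ℝ × ℝ}
    (hq : b ≤ q.2.1) (hF : ‖F q - ((q.2.1 ^ 15 : ℝ) : ℂ) * cis (Q q.1 q.2.2)‖ < q.2.1 ^ 15) :
    gcut α β F P Q q ≠ 0 := by
  rw [gcut_high h (hab.trans hq)]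
  intro h0
  have hb := ha.trans_le hab
  have hq0 : 0 ≤ q.2.1 ^ 15 := pow_nonneg (hb.le.trans hq) _
  set X := F q - ((q.2.1 ^ 15 : ℝ) : ℂ) * cis (Q q.1 q.2.2) with hX
  have h1 : ((q.2.1 ^ 15 : ℝ) : ℂ) *
      cis (β q.2.1 * Q q.1 q.2.2 + (1 - β q.2.1) * (15 * q.2.2)) =
      -(((β q.2.1 : ℝ) : ℂ) * X) := eq_neg_of_add_eq_zero_right h0
  have h2 : q.2.1 ^ 15 ≤ ‖X‖ := by
    calc q.2.1 ^ 15 = ‖((q.2.1 ^ 15 : ℝ) : ℂ) *
          cis (β q.2.1 * Q q.1 q.2.2 + (1 - β q.2.1) * (15 * q.2.2))‖ := by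
          rw [norm_mul, norm_cis, mul_one, Complex.norm_real, Real.norm_of_nonneg hq0]
      _ = ‖-(((β q.2.1 : ℝ) : ℂ) * X)‖ := congrArg _ h1
      _ = β q.2.1 * ‖X‖ := by
          rw [norm_neg, norm_mul, Complex.norm_real, Real.norm_of_nonneg (h.βn _)]
      _ ≤ 1 * ‖X‖ := mul_le_mul_of_nonneg_right (h.βl _) (norm_nonneg _)
      _ = _ := one_mul _
  linarith

theorem gcut_nhds (h : Wt a b α β) {q : ℝ × ℝ × ℝ} (hq : a < q.2.1) (hq' : q.2.1 < b) :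
    gcut α β F P Q =ᶠ[nhds q] F := by
  have h1 : ∀ᶠ r : ℝ × ℝ × ℝ in nhds q, a < r.2.1 :=
    (continuous_snd.fst).continuousAt.eventually (lt_mem_nhds hq)
  have h2 : ∀ᶠ r : ℝ × ℝ × ℝ in nhds q, r.2.1 < b :=
    (continuous_snd.fst).continuousAt.eventually (gt_mem_nhds hq')
  filter_upwards [h1, h2] with r hr hr'
  exact gcut_mid h hr.le hr'.le

theorem gcut_reg (h : Wt a b α β) (ha : 0 < a) (hab : a ≤ b)
    (hlow : ∀ θ u ω : ℝ, 0 < u → u ≤ a → ‖F (θ, u, ω) - P θ‖ < ‖P θ‖)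
    (hhigh : ∀ θ u ω : ℝ, b ≤ u → ‖F (θ, u, ω) - ((u ^ 15 : ℝ) : ℂ) * cis (Q θ ω)‖ < u ^ 15)
    (hreg : ∀ θ u ω : ℝ, 0 < u → F (θ, u, ω) = 0 →
      ∀ c : ℂ, ∃ y : ℝ × ℝ × ℝ, fderiv ℝ F (θ, u, ω) y = c)
    (θ u ω : ℝ) (hu : 0 < u) (h0 : gcut α β F P Q (θ, u, ω) = 0) (c : ℂ) :
    ∃ y : ℝ × ℝ × ℝ, fderiv ℝ (gcut α β F P Q) (θ, u, ω) y = c := by
  rcases le_or_gt u a with h1 | h1
  · exact absurd h0 (gcut_ne_low h hab (q := (θ, u, ω)) h1 (hlow θ u ω hu h1))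
  · rcases le_or_gt b u with h2 | h2
    · exact absurd h0 (gcut_ne_high h ha hab (q := (θ, u, ω)) h2 (hhigh θ u ω h2))
    · have h3 := gcut_nhds (F := F) (P := P) (Q := Q) h (q := (θ, u, ω)) h1 h2
      rw [h3.eq_of_nhds] at h0
      rw [h3.fderiv_eq]
      exact hreg θ u ω hu h0 c

end

/-- joint smoothness. -/
theorem gcut_smooth {I : Set ℝ} {α β : ℝ → ℝ → ℝ} {F : ℝ → ℝ × ℝ × ℝ → ℂ} {P : ℝ → ℝ → ℂ}
    {Q : ℝ → ℝ → ℝ → ℝ}
    (hα : ContDiff ℝ 2 (fun q : ℝ × ℝ => α q.1 q.2)) (hβ : ContDiff ℝ 2 (fun q : ℝ × ℝ => β q.1 q.2))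
    (hF : ContDiffOn ℝ 2 (fun q : ℝ × ℝ × ℝ × ℝ => F q.1 q.2) (I ×ˢ {p | 0 < p.2.1}))
    (hP : ContDiffOn ℝ 2 (fun q : ℝ × ℝ => P q.1 q.2) (I ×ˢ univ))
    (hQ : ContDiffOn ℝ 2 (fun q : ℝ × ℝ × ℝ => Q q.1 q.2.1 q.2.2) (I ×ˢ univ)) :
    ContDiffOn ℝ 2 (fun q : ℝ × ℝ × ℝ × ℝ => gcut (α q.1) (β q.1) (F q.1) (P q.1) (Q q.1) q.2)
      (I ×ˢ {p | 0 < p.2.1}) := by
  have hu : ContDiff ℝ 2 fun q : ℝ × ℝ × ℝ × ℝ => q.2.2.1 :=
    contDiff_fst.comp (contDiff_snd.comp contDiff_snd)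
  have hlo : ContDiff ℝ 2 fun q : ℝ × ℝ × ℝ × ℝ => α q.1 q.2.2.1 :=
    hα.comp (contDiff_fst.prodMk hu)
  have hhi : ContDiff ℝ 2 fun q : ℝ × ℝ × ℝ × ℝ => β q.1 q.2.2.1 :=
    hβ.comp (contDiff_fst.prodMk hu)
  have hP' : ContDiffOn ℝ 2 (fun q : ℝ × ℝ × ℝ × ℝ => P q.1 q.2.1) (I ×ˢ {p | 0 < p.2.1}) :=
    hP.comp (f := fun q : ℝ × ℝ × ℝ × ℝ => (q.1, q.2.1))
      (contDiff_fst.prodMk (contDiff_fst.comp contDiff_snd)).contDiffOn
      fun q hq => ⟨hq.1, mem_univ _⟩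
  have hQ' : ContDiffOn ℝ 2 (fun q : ℝ × ℝ × ℝ × ℝ => Q q.1 q.2.1 q.2.2.2)
      (I ×ˢ {p | 0 < p.2.1}) :=
    hQ.comp (f := fun q : ℝ × ℝ × ℝ × ℝ => (q.1, q.2.1, q.2.2.2))
      (contDiff_fst.prodMk ((contDiff_fst.comp contDiff_snd).prodMk
        (contDiff_snd.comp (contDiff_snd.comp contDiff_snd)))).contDiffOn
      fun q hq => ⟨hq.1, mem_univ _⟩
  have hω : ContDiff ℝ 2 fun q : ℝ × ℝ × ℝ × ℝ => q.2.2.2 :=
    contDiff_snd.comp (contDiff_snd.comp contDiff_snd)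
  have hr : ∀ {f : ℝ × ℝ × ℝ × ℝ → ℝ} {s : Set (ℝ × ℝ × ℝ × ℝ)}, ContDiffOn ℝ 2 f s →
      ContDiffOn ℝ 2 (fun q => ((f q : ℝ) : ℂ)) s := fun {f s} hf =>
    Complex.ofRealCLM.contDiff.comp_contDiffOn hf
  have hQu : ContDiffOn ℝ 2 (fun q : ℝ × ℝ × ℝ × ℝ => β q.1 q.2.2.1 * Q q.1 q.2.1 q.2.2.2 +
      (1 - β q.1 q.2.2.1) * (15 * q.2.2.2)) (I ×ˢ {p | 0 < p.2.1}) :=
    (hhi.contDiffOn.mul hQ').add
      ((contDiffOn_const.sub hhi.contDiffOn).mul (contDiffOn_const.mul hω.contDiffOn))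
  unfold gcut
  exact ((hr (contDiffOn_const.sub hlo.contDiffOn)).mul hP').add
    ((hr hhi.contDiffOn).mul (((hr hlo.contDiffOn).mul hF).sub
      ((hr (hu.pow 15).contDiffOn).mul (contDiff_cis.comp_contDiffOn hQ')))) |>.add
    ((hr (hu.pow 15).contDiffOn).mul (contDiff_cis.comp_contDiffOn hQu))

/-- **a path of uncut functions and a path of weights give a homotopy of arms.** -/
theorem gstep {F : ℝ → ℝ × ℝ × ℝ → ℂ} {P : ℝ → ℝ → ℂ} {Q : ℝ → ℝ → ℝ → ℝ}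
    (h : UPath F P Q) : ∃ a0 : ℝ, 0 < a0 ∧ ∃ b0 : ℝ, ∀ a b : ℝ, 0 < a → a ≤ a0 → b0 ≤ b → a ≤ b →
      ∀ (α β : ℝ → ℝ → ℝ), ContDiff ℝ 2 (fun q : ℝ × ℝ => α q.1 q.2) →
        ContDiff ℝ 2 (fun q : ℝ × ℝ => β q.1 q.2) →
        (∀ t ∈ Icc (0 : ℝ) 1, Wt a b (α t) (β t)) → ∀ (bo : Bool) (v : Fin 3),
      AStep bo v (PA bo v (gcut (α 0) (β 0) (F 0) (P 0) (Q 0)))
        (PA bo v (gcut (α 1) (β 1) (F 1) (P 1) (Q 1))) := by
  obtain ⟨a0, ha0, hlow⟩ := h.low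
  obtain ⟨b0, hhigh⟩ := h.high
  refine ⟨a0, ha0, b0, fun a b ha haa hbb hab α β hα hβ hW bo v => ?_⟩
  have hb := ha.trans_le hab
  refine astep_PA (h := fun t => gcut (α t) (β t) (F t) (P t) (Q t)) ?_ ?_ ?_ ?_ ?_ ?_
  · exact gcut_smooth hα hβ h.smF h.smP h.smQ
  · intro t ht θ u ω hu
    show gcut (α t) (β t) (F t) (P t) (Q t) (θ + 2 * Real.pi, u, ω) =
      gcut (α t) (β t) (F t) (P t) (Q t) (θ, u, ω)
    unfold gcut
    simp only [h.perF1 t ht θ u ω hu, h.perP t ht θ, h.perQ1 t ht θ ω]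
  · intro t ht θ u ω hu
    show gcut (α t) (β t) (F t) (P t) (Q t) (θ, u, ω + 2 * Real.pi) =
      gcut (α t) (β t) (F t) (P t) (Q t) (θ, u, ω)
    unfold gcut
    simp only [h.perF2 t ht θ u ω hu, h.perQ2 t ht θ ω]
    have e1 : cis (Q t θ ω + 15 * (2 * Real.pi)) = cis (Q t θ ω) := by
      have := cis_add_two_pi_mul (Q t θ ω) 15
      push_cast at this
      exact this
    have e2 : cis (β t u * (Q t θ ω + 15 * (2 * Real.pi)) +
        (1 - β t u) * (15 * (ω + 2 * Real.pi))) =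
        cis (β t u * Q t θ ω + (1 - β t u) * (15 * ω)) := by
      have := cis_add_two_pi_mul (β t u * Q t θ ω + (1 - β t u) * (15 * ω)) 15
      push_cast at this
      rw [← this]
      congr 1
      ring
    rw [e1, e2]
  · refine ⟨a / 2, half_pos ha, fun t ht θ u ω _ hu => ?_⟩
    show gcut (α t) (β t) (F t) (P t) (Q t) (θ, u, ω) =
      gcut (α t) (β t) (F t) (P t) (Q t) (θ, a / 2, 0)
    rw [gcut_inner (hW t ht) (by linarith) (q := (θ, u, ω)) hu,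
      gcut_inner (hW t ht) (by linarith) (q := (θ, a / 2, 0)) (le_refl _)]
  · refine ⟨2 * b, fun t ht θ u ω hu => ?_⟩
    show gcut (α t) (β t) (F t) (P t) (Q t) (θ, u, ω) = _
    rw [gcut_outer (hW t ht) (by linarith) (q := (θ, u, ω)) hu, cis_pow]
  · intro t ht θ u ω hu h0 c
    exact gcut_reg (hW t ht) ha hab (fun θ u ω hu hua => hlow t ht θ u ω hu (hua.trans haa))
      (fun θ u ω hbu => hhigh t ht θ u ω (hbb.trans hbu)) (h.reg t ht) θ u ω hu h0 c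

/-! ### the weights -/

theorem wt_lo_hi {a b : ℝ} (ha : 0 < a) (hb : 0 < b) : Wt a b (lo a) (fun u => 1 - hi b u) where
  α0 := fun u h => lo_of_le ha h
  α1 := fun u h => lo_of_ge ha h
  αn := fun u => lo_nonneg a u
  αl := fun u => lo_le_one a u
  β1 := fun u h => by simp only [hi_of_le hb h, sub_zero]
  β0 := fun u h => by simp only [hi_of_ge hb h, sub_self]
  βn := fun u => sub_nonneg.2 (hi_le_one b u)
  βl := fun u => by have := hi_nonneg b u; linarith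

theorem wt_ca_cb {a b : ℝ} (ha : 0 < a) (hb : 0 < b) : Wt a b (ca a) (cb b) where
  α0 := fun u h => Calc_957.st_of_le (by
    have : 2 * u / a ≤ 1 := by rw [div_le_one ha]; linarith
    linarith)
  α1 := fun u h => Calc_957.st_of_ge (by
    have : 2 ≤ 2 * u / a := by rw [le_div_iff₀ ha]; linarith
    linarith)
  αn := fun u => Calc_957.st_nonneg _
  αl := fun u => Calc_957.st_le_one _
  β1 := fun u h => by
    unfold cb
    rw [Calc_957.st_of_le (by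
      have : u / b ≤ 1 := by rw [div_le_one hb]; exact h
      linarith), sub_zero]
  β0 := fun u h => by
    unfold cb
    rw [Calc_957.st_of_ge (by
      have : 2 ≤ u / b := by rw [le_div_iff₀ hb]; exact h
      linarith), sub_self]
  βn := fun u => by
    unfold cb
    have := Calc_957.st_le_one (u / b - 1)
    linarith
  βl := fun u => by
    unfold cb
    have := Calc_957.st_nonneg (u / b - 1)
    linarith

theorem contDiff_ca (a : ℝ) : ContDiff ℝ 2 (ca a) :=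
  Calc_957.contDiff_st.comp (by fun_prop : ContDiff ℝ 2 fun u : ℝ => 2 * u / a - 1)

theorem contDiff_cb (b : ℝ) : ContDiff ℝ 2 (cb b) :=
  contDiff_const.sub (Calc_957.contDiff_st.comp (by fun_prop : ContDiff ℝ 2 fun u : ℝ => u / b - 1))

/-- convex combinations of weights. -/
theorem wt_comb {a b : ℝ} {α β α' β' : ℝ → ℝ} (h : Wt a b α β) (h' : Wt a b α' β') {t : ℝ}
    (ht : t ∈ Icc (0 : ℝ) 1) : Wt a b (fun u => (1 - t) * α u + t * α' u)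
      (fun u => (1 - t) * β u + t * β' u) where
  α0 := fun u hu => by simp only [h.α0 u hu, h'.α0 u hu]; ring
  α1 := fun u hu => by simp only [h.α1 u hu, h'.α1 u hu]; ring
  αn := fun u => by
    have := h.αn u; have := h'.αn u; have := ht.1; have h1 : 0 ≤ 1 - t := by linarith [ht.2]
    positivity
  αl := fun u => by
    have h1 : 0 ≤ 1 - t := by linarith [ht.2]
    have := mul_le_mul_of_nonneg_left (h.αl u) h1
    have := mul_le_mul_of_nonneg_left (h'.αl u) ht.1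
    linarith
  β1 := fun u hu => by simp only [h.β1 u hu, h'.β1 u hu]; ring
  β0 := fun u hu => by simp only [h.β0 u hu, h'.β0 u hu]; ring
  βn := fun u => by
    have := h.βn u; have := h'.βn u; have := ht.1; have h1 : 0 ≤ 1 - t := by linarith [ht.2]
    positivity
  βl := fun u => by
    have h1 : 0 ≤ 1 - t := by linarith [ht.2]
    have := mul_le_mul_of_nonneg_left (h.βl u) h1
    have := mul_le_mul_of_nonneg_left (h'.βl u) ht.1
    linarith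

/-! ### `PD.h` is a `gcut` -/

variable {ι : Type} [Fintype ι] {D : PD ι}

theorem h_gcut {a b : ℝ} (ha : 0 < a) (hab : a ≤ b) (t : ℝ) (z : ℝ × ℝ × ℝ) (hz : 0 ≤ z.2.1) :
    D.h a b t z = gcut (ca a) (cb b) (D.F t) (D.P t) (D.Qr t) z := by
  have hb := ha.trans_le hab
  have hW := wt_ca_cb ha hb
  obtain ⟨θ, u, ω⟩ := z
  simp only at hz
  have hph : ∀ x y : ℝ, cis (x * (2 * Real.pi * D.q (t, 15 * ω / (2 * Real.pi))) +
      y * (15 * ω)) = e (x * D.q (t, 15 * ω / (2 * Real.pi)) + y * (15 * ω / (2 * Real.pi))) := by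
    intro x y
    rw [e_eq]
    congr 1
    field_simp
  rcases eq_or_lt_of_le hz with h0 | h0
  · subst h0
    rw [gcut_inner hW (by linarith) (q := (θ, 0, ω)) (by simp only; linarith)]
    unfold PD.h PD.P
    simp only [hW.α0 0 (by linarith), hW.β1 0 hb.le]
    simp
  · unfold PD.h gcut
    simp only
    rw [F_eq t h0]
    have e1 : D.Qr t θ ω = 2 * Real.pi * D.q (t, 15 * ω / (2 * Real.pi)) := rfl
    rw [e1, hph]
    have e2 : ca a u = 1 ∨ cb b u = 1 := by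
      rcases le_total a u with h | h
      · exact Or.inl (hW.α1 u h)
      · exact Or.inr (hW.β1 u (h.trans hab))
    have e3 : cis (2 * Real.pi * D.q (t, 15 * ω / (2 * Real.pi))) =
        e (D.q (t, 15 * ω / (2 * Real.pi))) := (e_eq _).symm
    rw [e3]
    have eP : ((D.cv t : ℝ) : ℂ) * e (D.p (t, D.n * θ / (2 * Real.pi))) = D.P t θ := rfl
    rw [eP]
    rcases e2 with h | h
    · rw [h]
      push_cast
      ring
    · rw [h]
      simp only [one_mul, sub_self, zero_mul, add_zero]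
      push_cast
      ring

theorem PA_h {a b : ℝ} (ha : 0 < a) (hab : a ≤ b) (t : ℝ) (bo : Bool) (v : Fin 3) :
    PA bo v (D.h a b t) = PA bo v (gcut (ca a) (cb b) (D.F t) (D.P t) (D.Qr t)) := by
  unfold PA
  congr 1
  funext q
  exact h_gcut ha hab t _ (norm_nonneg _)

/-- **the literal LEAF LIFT.** -/
theorem liftPD : LiftPD := by
  intro ι _ D hD hR
  obtain ⟨a0, ha0, b0, H⟩ := gstep (upath hD hR)
  refine ⟨min a0 1, lt_min ha0 one_pos, max b0 1, (min_le_right _ _).trans (le_max_right _ _),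
    fun u0 W h0 h1 h2 bo v => ?_⟩
  have hab : u0 ≤ W := h1.trans ((min_le_right _ _).trans ((le_max_right _ _).trans h2))
  rw [PA_h h0 hab, PA_h h0 hab]
  exact H u0 W h0 (h1.trans (min_le_left _ _)) ((le_max_left _ _).trans h2) hab
    (fun _ => ca u0) (fun _ => cb W) ((contDiff_ca u0).comp contDiff_snd)
    ((contDiff_cb W).comp contDiff_snd) (fun t _ => wt_ca_cb h0 (h0.trans_le hab)) bo v

/-- the family frozen at the time `t0`. -/
def fz (D : PD ι) (t0 : ℝ) : PD ι where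
  n := D.n
  q := fun z => D.q (t0, z.2)
  cv := fun _ => D.cv t0
  p := fun z => D.p (t0, z.2)
  E := D.E
  c := fun σ z => D.c σ (t0, z.2)
  ψ := fun σ z => D.ψ σ (t0, z.2)

theorem fz_ok (hD : D.Ok) {t0 : ℝ} (ht : t0 ∈ Icc (0 : ℝ) 1) : (fz D t0).Ok where
  hn := hD.hn
  cq := hD.cq.comp (by fun_prop)
  ccv := contDiff_const
  cp := hD.cp.comp (by fun_prop)
  cc := fun σ => (hD.cc σ).comp (by fun_prop)
  cψ := fun σ => (hD.cψ σ).comp (by fun_prop)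
  pq := fun _ y => hD.pq t0 y
  pp := fun _ x => hD.pp t0 x
  hcv := fun _ _ => hD.hcv t0 ht
  hE := hD.hE
  pcx := fun σ _ x y => hD.pcx σ t0 x y
  pcy := fun σ _ x y => hD.pcy σ t0 x y
  pψx := fun σ => by obtain ⟨i, hi⟩ := hD.pψx σ; exact ⟨i, fun _ x y => hi t0 x y⟩
  pψy := fun σ => by obtain ⟨i, hi⟩ := hD.pψy σ; exact ⟨i, fun _ x y => hi t0 x y⟩

theorem fz_K (t0 t : ℝ) : (fz D t0).K t = D.K t0 := rfl

theorem fz_reg {t0 : ℝ} (hR : ∀ z : ℝ × ℝ × ℝ, D.K t0 z = 0 →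
    Function.Surjective (fderiv ℝ (D.K t0) z)) : (fz D t0).Reg := by
  intro t _ z hz
  rw [fz_K] at hz ⊢
  exact hR z hz

/-- **BRIDGE**: the two cut-offs of one function give the same arm. -/
theorem bridge (hD : D.Ok) {t0 : ℝ} (ht : t0 ∈ Icc (0 : ℝ) 1)
    (hR : ∀ z : ℝ × ℝ × ℝ, D.K t0 z = 0 → Function.Surjective (fderiv ℝ (D.K t0) z)) :
    ∃ a0 : ℝ, 0 < a0 ∧ ∃ b0 : ℝ, ∀ a b : ℝ, 0 < a → a ≤ a0 → b0 ≤ b → a ≤ b →
      ∀ (bo : Bool) (v : Fin 3),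
        AStep bo v ((D.tri t0).arm bo v a b) (PA bo v (D.h a b t0)) := by
  obtain ⟨a0, ha0, b0, H⟩ := gstep (upath (fz_ok hD ht) (fz_reg hR))
  refine ⟨a0, ha0, b0, fun a b h1 h2 h3 h4 bo v => ?_⟩
  have hb := h1.trans_le h4
  have := H a b h1 h2 h3 h4 (fun t u => (1 - t) * lo a u + t * ca a u)
    (fun t u => (1 - t) * (1 - hi b u) + t * cb b u) ?_ ?_
    (fun t ht => wt_comb (wt_lo_hi h1 hb) (wt_ca_cb h1 hb) ht) bo v
  · rw [PA_h h1 h4]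
    unfold Tri.arm
    rw [gcut_cut]
    simp only [sub_zero, one_mul, zero_mul, add_zero, sub_self, zero_add] at this
    exact this
  · exact ((contDiff_const.sub contDiff_fst).mul ((contDiff_lo a).comp contDiff_snd)).add
      (contDiff_fst.mul ((contDiff_ca a).comp contDiff_snd))
  · exact ((contDiff_const.sub contDiff_fst).mul
      (contDiff_const.sub ((contDiff_hi b).comp contDiff_snd))).add
      (contDiff_fst.mul ((contDiff_cb b).comp contDiff_snd))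

end Crest.Agent.R267.NSBridge_966
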