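import Crest.Agent.R267.ArmExC_649
import Crest.Agent.R267.NSBridge_966
import Crest.Agent.R267.NAsmF_407

/-!
# Row 267, N2 EXIT, part D (helper649): `ExitP` from `Match` and the second half of the exit

`exitP_of` : `DOk D`, `Match (sn b v).S D v` and the second half (helper502) give
`NAsm_407.ExitP b D v`.
-/

set_option autoImplicit false

noncomputable section

open Set Filter Topology Finset
open Crest.Agent.R267.T3aNDefs_88 (SD)
open Crest.Agent.R267.NSDefs_966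
open Crest.Agent.R267.NdY_484 Crest.Agent.R267.PolArm_484
open Crest.Agent.R267.NSArm_780
open Crest.Agent.R267.ArmExB_649 Crest.Agent.R267.ArmExC_649

namespace Crest.Agent.R267.ArmExD_649

variable {m : ℕ} {S : NS m} {D : SD 4} {v : Fin 3}

theorem fin_K : S.fin.K 0 = (famR S).K 0 := by
  funext z
  obtain ⟨x, l, y⟩ := z
  unfold famR
  rw [uni_K]
  unfold PD.K PD.mid NS.fin
  simp only [hat_eq, kl_eq]
  simp

theorem fin_tri : S.fin.tri 0 = (famR S).tri 0 := by
  unfold PD.tri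
  congr 1
  · funext z
    unfold PD.F
    rw [fin_K]
    rfl
  · funext θ
    unfold PD.P famR uni NS.fin
    simp only [hat_eq]
    simp
  · funext θ ω
    unfold PD.Qr famR uni NS.fin
    simp

/-- **EXIT, first half**, from the official end of the chain. -/
theorem exitB (hS : S.Ok) (hD : DOk D) (hM : Match S D v) (b : Bool) :
    ∃ u1 : ℝ, 0 < u1 ∧ ∃ W1 : ℝ, ∀ u0 W : ℝ, 0 < u0 → u0 ≤ u1 → W1 ≤ W → u0 ≤ W →
      AEq b v ((S.fin.tri 0).arm b v u0 W) (PA b v (HE D v u0 W)) := by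
  obtain ⟨u1, h1, W1, -, H1⟩ := exitA NSBridge_966.liftPD hS hD hM b
  obtain ⟨u2, h2, W2, H2⟩ := NSBridge_966.bridge (D := famR S) (t0 := 0) (okR hS hM)
    (left_mem_Icc.2 zero_le_one) (regR hS hD hM 0 (left_mem_Icc.2 zero_le_one))
  refine ⟨min u1 u2, lt_min h1 h2, max W1 W2, fun u0 W hu0 hu hW huW => ?_⟩
  have a2 := H2 u0 W hu0 (hu.trans (min_le_right _ _)) ((le_max_right _ _).trans hW) huW b v
  have a1 := H1 u0 W hu0 (hu.trans (min_le_left _ _)) ((le_max_left _ _).trans hW)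
  rw [← splice0, ← fin_tri] at a2
  exact a2.aeq.trans a1

/-- the second half (helper502) -/
def Exit3 (b : Bool) (D : SD 4) (v : Fin 3) : Prop :=
  ∃ u1 : ℝ, 0 < u1 ∧ ∃ W1 : ℝ, ∀ u0 W : ℝ, 0 < u0 → u0 ≤ u1 → W1 ≤ W →
    ∃ A : ℂ × ℂ → ℂ, AEq b v (PA b v (HE D v u0 W)) A ∧ HubDefs_284.Tgt b D v A

/-- **EXIT.** -/
theorem exitP_of {b : Bool} (hD : DOk D) (hM : Match (sn b v).S D v) (h3 : Exit3 b D v) :
    NAsm_407.ExitP b D v := by
  obtain ⟨u1, h1, W1, H1⟩ := exitB (sn_ok b v) hD hM b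
  obtain ⟨u2, h2, W2, H2⟩ := h3
  refine ⟨min u1 u2, lt_min h1 h2, max W1 W2, fun a c ha ha' hc hac => ?_⟩
  obtain ⟨A, hA, hT⟩ := H2 a c ha (ha'.trans (min_le_right _ _)) ((le_max_right _ _).trans hc)
  exact ⟨A, (H1 a c ha (ha'.trans (min_le_left _ _)) ((le_max_left _ _).trans hc) hac).trans hA,
    hT⟩

/-- **C1** from the matching and the second half of the exit. -/
theorem arms_of (b : Bool) (hD : DOk D) (hM : ∀ v, Match (sn b v).S D v)
    (h3 : ∀ v, Exit3 b D v) : HubAsm_284.ArmsP b D :=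
  NAsmF_407.armsP b D fun v => exitP_of hD (hM v) (h3 v)

end Crest.Agent.R267.ArmExD_649
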