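import Crest.Agent.R267.ArmExD_649
import Crest.Agent.R267.SFLDc_330

/-!
# Row 267, N2 EXIT (helper649): the tables of the planar arms match the data `DfL`, `DgL`
-/

set_option autoImplicit false

noncomputable section

open Finset
open Crest.Agent.R267.T3aNDefs_88 (SD)
open Crest.Agent.R267.NSDefs_966
open Crest.Agent.R267.GlNDefs_9 (se)
open Crest.Agent.R267.SFLDb_330 Crest.Agent.R267.SFLDc_330
open Crest.Agent.R267.NSArm_780
open Crest.Agent.R267.ArmExC_649 Crest.Agent.R267.ArmExD_649

namespace Crest.Agent.R267.ArmExM_649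

set_option maxRecDepth 100000

theorem dok_f : DOk DfL where
  hlo := by decide +kernel
  hM3 := rfl
  hs3 := fun l => rfl

theorem dok_g : DOk DgL where
  hlo := by decide +kernel
  hM3 := rfl
  hs3 := fun l => rfl

/-- sign check -/
theorem match_of {m : ℕ} {A : Dat m} {D : SD 4} {v : Fin 3} (hA : A.chk = true)
    (hn : A.n = D.M v.castSucc + 1)
    (hs0 : A.sg.getD 0 true = true)
    (hs : ∀ i : Fin (D.M v.castSucc), A.sg.getD (i + 1) true = !D.neg v.castSucc i)
    (hk : ∀ (i : Fin (D.M v.castSucc + 1)) (l : Fin 15), A.c.getD i 0 ≤ (l : ℕ) ↔ Kl D v i l) :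
    Match A.S D v where
  n := hn
  sg := by
    intro i hi
    have e1 : ((i : ℤ) % (A.n : ℤ)).toNat = i := by
      rw [Int.emod_eq_of_lt (by omega) (by rw [hn]; push_cast; omega)]
      exact Int.toNat_natCast i
    have e2 : A.S.sg i = if A.sg.getD i true = true then 1 else -1 := by
      change (if A.sg.getD ((i : ℤ) % (A.n : ℤ)).toNat true = true then (1 : ℤ) else -1) = _
      rw [e1]
    rw [e2]
    unfold se
    rcases Nat.eq_zero_or_pos i with h0 | h0
    · subst h0
      rw [if_pos hs0, if_pos rfl]
      norm_num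
    · obtain ⟨k, rfl⟩ : ∃ k, i = k + 1 := ⟨i - 1, by omega⟩
      have h := hs ⟨k, by omega⟩
      change A.sg.getD (k + 1) true = !D.neg v.castSucc k at h
      rw [h, if_neg (Nat.succ_ne_zero k)]
      unfold SD.sn
      simp only [Nat.add_sub_cancel]
      cases D.neg v.castSucc k <;> simp
  kill := by
    intro i l hi hl
    rw [Dat.kill_iff hA]
    have e1 : ((i : ℤ) % (A.n : ℤ)).toNat = i := by
      rw [Int.emod_eq_of_lt (by omega) (by rw [hn]; push_cast; omega)]
      exact Int.toNat_natCast i
    have e2 : ((l : ℤ) % 15).toNat = l := by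
      rw [Int.emod_eq_of_lt (by omega) (by omega)]
      exact Int.toNat_natCast l
    rw [e1, e2]
    exact hk ⟨i, by omega⟩ ⟨l, by omega⟩

/-- decidable form of `Kl` -/
instance (D : SD 4) (v : Fin 3) (i l : ℕ) : Decidable (Kl D v i l) := by
  unfold Kl
  infer_instance

theorem match_f (v : Fin 3) : Match (sn true v).S DfL v := by
  fin_cases v
  · exact match_of (A := sfx) (v := 0) sfx_chk rfl rfl (by decide +kernel) (by decide +kernel)
  · exact match_of (A := sfy) (v := 1) sfy_chk rfl rfl (by decide +kernel) (by decide +kernel)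
  · exact match_of (A := pz) (v := 2) pz_chk rfl rfl (by decide +kernel) (by decide +kernel)

theorem match_g (v : Fin 3) : Match (sn false v).S DgL v := by
  fin_cases v
  · exact match_of (A := sgx) (v := 0) sgx_chk rfl rfl (by decide +kernel) (by decide +kernel)
  · exact match_of (A := sgy) (v := 1) sgy_chk rfl rfl (by decide +kernel) (by decide +kernel)
  · exact match_of (A := pz) (v := 2) pz_chk rfl rfl (by decide +kernel) (by decide +kernel)

/-- **EXIT for `f`** from the second half. -/
theorem exitP_f (v : Fin 3) (h : Exit3 true DfL v) : NAsm_407.ExitP true DfL v :=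
  exitP_of dok_f (match_f v) h

/-- **EXIT for `g`** from the second half. -/
theorem exitP_g (v : Fin 3) (h : Exit3 false DgL v) : NAsm_407.ExitP false DgL v :=
  exitP_of dok_g (match_g v) h

end Crest.Agent.R267.ArmExM_649
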