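import Mathlib
import Crest.Agent.R267.PolArm_484
import Crest.Agent.R267.Ang_739

/-!
# S0406, N2-EXIT (helper502): planar functions "own words minus a real deletion"

`FF Q p B (θ, u, ω) = cin u * u^15 * cis (Q (θ, u, ω)) + cout u * (cis (p θ) - cin u * B (θ, u, ω))`,
`cin = 0` for `u ≤ 1/10`, `1` for `u ≥ 2/10`; `cout = 1` for `u ≤ 10`, `0` for `u ≥ 11`.

* `pw_exit`: pointwise regularity of `u^15 cis Q + cis p - B`;
* `astep_FF`: families `FF (Q t) (p t) (B t)` are homotopies of arms (only the regularity for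
  `3/10 < u < 9` has to be checked).
-/

set_option autoImplicit false
set_option linter.unusedVariables false

noncomputable section

open Set Filter Topology
open scoped Real
open Crest.Agent.R267.NdR_484 Crest.Agent.R267.NdY_484 Crest.Agent.R267.PolArm_484
open Crest.Agent.R267.Ang_739 (cis norm_cis contDiff_cis hasDerivAt_cis)

namespace Crest.Agent.R267.ArmExitA_502

/-! ### pointwise algebra -/

theorem sq_le_one' {C S : ℝ} (h : C ^ 2 + S ^ 2 = 1) : C ≤ 1 := by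
  nlinarith [sq_nonneg S, sq_nonneg (C - 1)]

theorem rad {a b C S : ℝ} (hCS : C ^ 2 + S ^ 2 = 1) (h : b * C - a * S = 0)
    (hab : a ≠ 0 ∨ b ≠ 0) :
    ∃ ρ : ℝ, ρ ≠ 0 ∧ a = ρ * C ∧ b = ρ * S := by
  have ha : a = (a * C + b * S) * C := by linear_combination (-a) * hCS - S * h
  have hb : b = (a * C + b * S) * S := by linear_combination (-b) * hCS + C * h
  refine ⟨a * C + b * S, fun h0 => ?_, ha, hb⟩
  rw [h0, zero_mul] at ha hb
  rcases hab with h | h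
  · exact h ha
  · exact h hb

theorem pw1 {y By B C S c s a b : ℝ} (hCS : C ^ 2 + S ^ 2 = 1)
    (hcs : c ^ 2 + s ^ 2 = 1) (hF1 : y * C + c = B) (hF2 : y * S + s = 0) (hy : 0 < y)
    (hBy : y * By ≤ B) (hC : 0 ≤ C) (hc : 0 ≤ c) (hvw : By = 1 → B - y ≠ 1)
    (hab : a ≠ 0 ∨ b ≠ 0) (h1 : b * C - a * S = 0) (h2 : b * c - a * s = 0)
    (e1 : a * C + b * S - By * a = 0) : False := by
  obtain ⟨ρ, hρ, rfl, rfl⟩ := rad hCS h1 hab
  have h2' : By * C = 1 := by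
    have : ρ * (1 - By * C) = 0 := by linear_combination e1 - ρ * hCS
    rcases mul_eq_zero.1 this with h | h
    · exact absurd h hρ
    · linarith
  have h4 : S * c = C * s := by
    have : ρ * (S * c - C * s) = 0 := by linear_combination h2
    rcases mul_eq_zero.1 this with h | h
    · exact absurd h hρ
    · linarith
  have h5 : S * B = 0 := by
    rw [← hF1]
    linear_combination h4 + C * hF2
  rcases mul_eq_zero.1 h5 with h | h
  · subst h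
    have hs : s = 0 := by linarith
    subst hs
    have hC1 : C = 1 := by
      have : (C - 1) * (C + 1) = 0 := by linear_combination hCS
      rcases mul_eq_zero.1 this with h | h <;> linarith
    have hc1 : c = 1 := by
      have : (c - 1) * (c + 1) = 0 := by linear_combination hcs
      rcases mul_eq_zero.1 this with h | h <;> linarith
    subst hC1
    subst hc1
    exact hvw (by linarith) (by linarith)
  · rw [h] at hBy
    have h6 : By ≤ 0 := by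
      by_contra h7
      have := mul_pos hy (not_le.1 h7)
      linarith
    have h7 : By * C ≤ 0 := mul_nonpos_of_nonpos_of_nonneg h6 hC
    linarith

theorem pw2 {y By B C S c a b : ℝ} (hCS : C ^ 2 + S ^ 2 = 1)
    (hF1 : y * C + c = B) (hy : 0 < y) (hBy : y * By ≤ B) (hC : 0 ≤ C) (hc : c < 0)
    (hab : a ≠ 0 ∨ b ≠ 0) (h1 : b * C - a * S = 0)
    (e1 : a * C + b * S - By * a = 0) : False := by
  obtain ⟨ρ, hρ, rfl, rfl⟩ := rad hCS h1 hab
  have h2 : By * C = 1 := by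
    have : ρ * (1 - By * C) = 0 := by linear_combination e1 - ρ * hCS
    rcases mul_eq_zero.1 this with h | h
    · exact absurd h hρ
    · linarith
  have hC1 : C ≤ 1 := sq_le_one' hCS
  have h7 : By < C := by
    by_contra h8
    have := mul_le_mul_of_nonneg_left (not_lt.1 h8) hy.le
    linarith
  have h9 : C ≠ 0 := by
    intro h
    rw [h] at h2
    linarith
  have h10 : 0 < C := lt_of_le_of_ne hC (Ne.symm h9)
  have h11 : By * C < C * C := mul_lt_mul_of_pos_right h7 h10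
  have h12 : C * C ≤ 1 := by
    have := mul_le_mul_of_nonneg_right hC1 h10.le
    linarith
  linarith

theorem pw3 {y By B C S c s a b : ℝ} (hcs : c ^ 2 + s ^ 2 = 1) (hF1 : y * C + c = B)
    (hF2 : y * S + s = 0) (hy : 0 < y) (hB : 0 ≤ B) (hBy0 : 0 ≤ By) (hC : C < 0)
    (hc : 0 ≤ c) (hab : a ≠ 0 ∨ b ≠ 0) (h1 : b * c - a * s = 0)
    (e1 : a * C + b * S - By * a = 0) : False := by
  obtain ⟨ρ, hρ, rfl, rfl⟩ := rad hcs h1 hab
  have h4 : c * C + s * S = By * c := by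
    have : ρ * (c * C + s * S - By * c) = 0 := by linear_combination e1
    rcases mul_eq_zero.1 this with h | h
    · exact absurd h hρ
    · linarith
  have h5 : (B - y * By) * c = 1 := by
    linear_combination (-c) * hF1 - s * hF2 + y * h4 + hcs
  have hyC : y * C < 0 := mul_neg_of_pos_of_neg hy hC
  have hcB : B < c := by linarith
  have hc1 : c ≤ 1 := sq_le_one' hcs
  have hcpos : 0 < c := lt_of_le_of_lt hB hcB
  have h8 : (B - y * By) * c ≤ B * c := by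
    apply mul_le_mul_of_nonneg_right _ hc
    have : 0 ≤ y * By := mul_nonneg hy.le hBy0
    linarith
  have h9 : B * c < c * c := mul_lt_mul_of_pos_right hcB hcpos
  have h10 : c * c ≤ 1 := by
    have := mul_le_mul_of_nonneg_right hc1 hcpos.le
    linarith
  linarith

/-- pointwise regularity: own words minus a deletion. `(C, S)` = own phase of `w`, `(c, s)` = own
phase of `v`, `(a, b)` = conormal. -/
theorem pw_exit {y p' q' B By Bt Bo C S c s a b : ℝ} (hy : 0 < y) (hCS : C ^ 2 + S ^ 2 = 1)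
    (hcs : c ^ 2 + s ^ 2 = 1) (hF1 : y * C + c = B) (hF2 : y * S + s = 0) (hB : 0 ≤ B)
    (hBy0 : 0 ≤ By) (hBy : y * By ≤ B) (hv : 0 ≤ c → p' ≠ 0 ∧ Bt = 0)
    (hw : 0 ≤ C → q' ≠ 0 ∧ Bo = 0) (hvw : 0 ≤ c → 0 ≤ C → By = 1 → B - y ≠ 1)
    (hab : a ≠ 0 ∨ b ≠ 0) (e1 : a * C + b * S - By * a = 0)
    (e2 : q' * y * (b * C - a * S) - Bo * a = 0) (e3 : p' * (b * c - a * s) - Bt * a = 0) :
    False := by
  have k1 : 0 ≤ C → b * C - a * S = 0 := by
    intro hC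
    obtain ⟨hq, hBo⟩ := hw hC
    rw [hBo, zero_mul, sub_zero] at e2
    rcases mul_eq_zero.1 e2 with h | h
    · rcases mul_eq_zero.1 h with h | h
      · exact absurd h hq
      · exact absurd h hy.ne'
    · exact h
  have k2 : 0 ≤ c → b * c - a * s = 0 := by
    intro hc
    obtain ⟨hp, hBt⟩ := hv hc
    rw [hBt, zero_mul, sub_zero] at e3
    exact (mul_eq_zero.1 e3).resolve_left hp
  rcases le_or_gt 0 C with hC | hC
  · rcases le_or_gt 0 c with hc | hc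
    · exact pw1 hCS hcs hF1 hF2 hy hBy hC hc (hvw hc hC) hab (k1 hC) (k2 hc) e1
    · exact pw2 hCS hF1 hy hBy hC hc hab (k1 hC) e1
  · rcases le_or_gt 0 c with hc | hc
    · exact pw3 hcs hF1 hF2 hy hB hBy0 hC hc hab (k2 hc) e1
    · have : y * C < 0 := mul_neg_of_pos_of_neg hy hC
      linarith

/-- surjectivity by conormals -/
theorem onto_of_conormal {E : Type*} [AddCommGroup E] [Module ℝ E] (L : E →ₗ[ℝ] ℂ)
    (h : ∀ a b : ℝ, (∀ y, a * (L y).re + b * (L y).im = 0) → ¬ (a ≠ 0 ∨ b ≠ 0)) (c : ℂ) :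
    ∃ y, L y = c := by
  by_contra hc
  have hlt : LinearMap.range L < ⊤ := by
    refine lt_top_iff_ne_top.2 fun ht => hc ?_
    have : c ∈ LinearMap.range L := ht ▸ Submodule.mem_top
    exact this
  obtain ⟨f, hf, hle⟩ := Submodule.exists_le_ker_of_lt_top _ hlt
  have hfe : ∀ z : ℂ, f z = f 1 * z.re + f Complex.I * z.im := by
    intro z
    have hz : z = (z.re : ℝ) • (1 : ℂ) + (z.im : ℝ) • Complex.I := by
      apply Complex.ext <;> simp
    conv_lhs => rw [hz]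
    rw [map_add, map_smul, map_smul, smul_eq_mul, smul_eq_mul]
    ring
  refine h (f 1) (f Complex.I) (fun y => ?_) ?_
  · rw [← hfe]
    exact hle ⟨y, rfl⟩
  · by_contra hn
    push Not at hn
    apply hf
    ext z
    rw [hfe, hn.1, hn.2]
    simp

/-! ### the functions -/

/-- `(θ, u, ω)` -/
abbrev P3 : Type := ℝ × ℝ × ℝ

/-- the middle function -/
def MD (Q : P3 → ℝ) (p : ℝ → ℝ) (B : P3 → ℝ) (x : P3) : ℂ :=
  ((x.2.1 ^ 15 : ℝ) : ℂ) * cis (Q x) + (cis (p x.1) - ((B x : ℝ) : ℂ))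

/-- inner cut-off -/
def cin (u : ℝ) : ℝ := Real.smoothTransition (10 * u - 1)

/-- outer cut-off -/
def cout (u : ℝ) : ℝ := Real.smoothTransition (11 - u)

/-- **own words minus a real deletion** -/
def FF (Q : P3 → ℝ) (p : ℝ → ℝ) (B : P3 → ℝ) (x : P3) : ℂ :=
  ((cin x.2.1 * x.2.1 ^ 15 : ℝ) : ℂ) * cis (Q x) +
    (cout x.2.1 : ℂ) * (cis (p x.1) - ((cin x.2.1 * B x : ℝ) : ℂ))

theorem cin_zero {u : ℝ} (h : u ≤ 1 / 10) : cin u = 0 :=
  Real.smoothTransition.zero_of_nonpos (by linarith)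

theorem cin_one {u : ℝ} (h : 2 / 10 ≤ u) : cin u = 1 :=
  Real.smoothTransition.one_of_one_le (by linarith)

theorem cin_nonneg (u : ℝ) : 0 ≤ cin u := Real.smoothTransition.nonneg _

theorem cin_le_one (u : ℝ) : cin u ≤ 1 := Real.smoothTransition.le_one _

theorem cout_zero {u : ℝ} (h : 11 ≤ u) : cout u = 0 :=
  Real.smoothTransition.zero_of_nonpos (by linarith)

theorem cout_one {u : ℝ} (h : u ≤ 10) : cout u = 1 :=
  Real.smoothTransition.one_of_one_le (by linarith)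

theorem cout_nonneg (u : ℝ) : 0 ≤ cout u := Real.smoothTransition.nonneg _

theorem cout_le_one (u : ℝ) : cout u ≤ 1 := Real.smoothTransition.le_one _

theorem contDiff_cin : ContDiff ℝ 2 cin :=
  Real.smoothTransition.contDiff.comp (by fun_prop : ContDiff ℝ 2 fun u : ℝ => 10 * u - 1)

theorem contDiff_cout : ContDiff ℝ 2 cout :=
  Real.smoothTransition.contDiff.comp (by fun_prop : ContDiff ℝ 2 fun u : ℝ => 11 - u)

theorem FF_eq_MD {Q : P3 → ℝ} {p : ℝ → ℝ} {B : P3 → ℝ} {x : P3} (h1 : 2 / 10 ≤ x.2.1)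
    (h2 : x.2.1 ≤ 10) : FF Q p B x = MD Q p B x := by
  unfold FF MD
  rw [cin_one h1, cout_one h2]
  push_cast
  ring

theorem FF_ev {Q : P3 → ℝ} {p : ℝ → ℝ} {B : P3 → ℝ} {x : P3} (h1 : 2 / 10 < x.2.1)
    (h2 : x.2.1 < 10) : FF Q p B =ᶠ[𝓝 x] MD Q p B := by
  have h3 : ∀ᶠ y : P3 in 𝓝 x, 2 / 10 < y.2.1 :=
    (by fun_prop : ContinuousAt (fun y : P3 => y.2.1) x).eventually_const_lt h1
  have h4 : ∀ᶠ y : P3 in 𝓝 x, y.2.1 < 10 :=
    (by fun_prop : ContinuousAt (fun y : P3 => y.2.1) x).eventually_lt_const h2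
  filter_upwards [h3, h4] with y hy1 hy2
  exact FF_eq_MD hy1.le hy2.le

/-- no zeros for `u ≤ 3/10` -/
theorem FF_ne_in {Q : P3 → ℝ} {p : ℝ → ℝ} {B : P3 → ℝ} {x : P3} (h0 : 0 < x.2.1)
    (h1 : x.2.1 ≤ 3 / 10) (hB : 0 ≤ B x) (hB2 : (B x) ^ 2 ≤ 10 ^ 6 * x.2.1 ^ 15) :
    FF Q p B x ≠ 0 := by
  intro h
  have hu : x.2.1 ^ 15 ≤ (3 / 10 : ℝ) ^ 15 := pow_le_pow_left₀ h0.le h1 15
  have hBs : B x ≤ 1 / 5 := by
    by_contra hc
    have hc' := not_le.1 hc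
    have h3 : (1 / 5 : ℝ) ^ 2 < B x ^ 2 := pow_lt_pow_left₀ hc' (by norm_num) (by norm_num)
    norm_num at hu h3
    linarith
  have hFe : FF Q p B x = cis (p x.1) +
      (((cin x.2.1 * x.2.1 ^ 15 : ℝ) : ℂ) * cis (Q x) - ((cin x.2.1 * B x : ℝ) : ℂ)) := by
    unfold FF
    rw [cout_one (by linarith)]
    push_cast
    ring
  have h4 : ‖((cin x.2.1 * x.2.1 ^ 15 : ℝ) : ℂ) * cis (Q x) - ((cin x.2.1 * B x : ℝ) : ℂ)‖ < 1 := by
    refine (norm_sub_le _ _).trans_lt ?_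
    rw [norm_mul, norm_cis, mul_one, Complex.norm_real, Complex.norm_real,
      Real.norm_of_nonneg (mul_nonneg (cin_nonneg _) (by positivity)),
      Real.norm_of_nonneg (mul_nonneg (cin_nonneg _) hB)]
    have h5 : cin x.2.1 * x.2.1 ^ 15 ≤ 1 * (3 / 10 : ℝ) ^ 15 :=
      mul_le_mul (cin_le_one _) hu (by positivity) zero_le_one
    have h6 : cin x.2.1 * B x ≤ 1 * (1 / 5) := mul_le_mul (cin_le_one _) hBs hB zero_le_one
    norm_num at h5 h6 ⊢
    linarith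
  rw [hFe] at h
  have h7 : cis (p x.1) = -(((cin x.2.1 * x.2.1 ^ 15 : ℝ) : ℂ) * cis (Q x) -
      ((cin x.2.1 * B x : ℝ) : ℂ)) := by linear_combination h
  have h8 := norm_cis (p x.1)
  rw [h7, norm_neg] at h8
  linarith

/-- no zeros for `u ≥ 9` -/
theorem FF_ne_out {Q : P3 → ℝ} {p : ℝ → ℝ} {B : P3 → ℝ} {x : P3}
    (h1 : 9 ≤ x.2.1) (hB : 0 ≤ B x) (hB2 : (B x) ^ 2 ≤ 10 ^ 6 * x.2.1 ^ 15) :
    FF Q p B x ≠ 0 := by
  intro h
  have hu : (9 : ℝ) ^ 15 ≤ x.2.1 ^ 15 := pow_le_pow_left₀ (by norm_num) h1 15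
  set y := x.2.1 ^ 15 with hy
  have hy7 : (10 : ℝ) ^ 7 ≤ y := le_trans (by norm_num) hu
  have hBs : 1 + B x < y := by
    by_contra hc
    have hc' := not_lt.1 hc
    have h3 : y - 1 ≤ B x := by linarith
    have h4 : (y - 1) ^ 2 ≤ B x ^ 2 := pow_le_pow_left₀ (by linarith) h3 2
    nlinarith
  have hFe : FF Q p B x = (y : ℂ) * cis (Q x) +
      (cout x.2.1 : ℂ) * (cis (p x.1) - ((B x : ℝ) : ℂ)) := by
    unfold FF
    rw [cin_one (by linarith), one_mul, one_mul, hy]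
  have h4 : ‖(cout x.2.1 : ℂ) * (cis (p x.1) - ((B x : ℝ) : ℂ))‖ < y := by
    rw [norm_mul, Complex.norm_real, Real.norm_of_nonneg (cout_nonneg _)]
    have h5 : ‖cis (p x.1) - ((B x : ℝ) : ℂ)‖ ≤ 1 + B x := by
      refine (norm_sub_le _ _).trans ?_
      rw [norm_cis, Complex.norm_real, Real.norm_of_nonneg hB]
    have h6 : cout x.2.1 * ‖cis (p x.1) - ((B x : ℝ) : ℂ)‖ ≤ 1 * (1 + B x) :=
      mul_le_mul (cout_le_one _) h5 (norm_nonneg _) zero_le_one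
    linarith
  rw [hFe] at h
  have h7 : (y : ℂ) * cis (Q x) = -((cout x.2.1 : ℂ) * (cis (p x.1) - ((B x : ℝ) : ℂ))) := by
    linear_combination h
  have h8 : ‖(y : ℂ) * cis (Q x)‖ = y := by
    rw [norm_mul, norm_cis, mul_one, Complex.norm_real, Real.norm_of_nonneg (by linarith)]
  rw [h7, norm_neg] at h8
  linarith

/-- **families** -/
theorem astep_FF {b : Bool} {v : Fin 3} {Q : ℝ → P3 → ℝ} {p : ℝ → ℝ → ℝ} {B : ℝ → P3 → ℝ}
    (hQ : ContDiffOn ℝ 2 (fun q : ℝ × P3 => Q q.1 q.2) (Icc (0 : ℝ) 1 ×ˢ {x | 0 < x.2.1}))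
    (hp : ContDiffOn ℝ 2 (fun q : ℝ × ℝ => p q.1 q.2) (Icc (0 : ℝ) 1 ×ˢ univ))
    (hB : ContDiffOn ℝ 2 (fun q : ℝ × P3 => B q.1 q.2) (Icc (0 : ℝ) 1 ×ˢ {x | 0 < x.2.1}))
    (hQ1 : ∀ t ∈ Icc (0 : ℝ) 1, ∀ θ u ω, 0 < u → cis (Q t (θ + 2 * π, u, ω)) = cis (Q t (θ, u, ω)))
    (hQ2 : ∀ t ∈ Icc (0 : ℝ) 1, ∀ θ u ω, 0 < u → cis (Q t (θ, u, ω + 2 * π)) = cis (Q t (θ, u, ω)))
    (hp1 : ∀ t ∈ Icc (0 : ℝ) 1, ∀ θ, cis (p t (θ + 2 * π)) = cis (p t θ))
    (hB1 : ∀ t ∈ Icc (0 : ℝ) 1, ∀ θ u ω, 0 < u → B t (θ + 2 * π, u, ω) = B t (θ, u, ω))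
    (hB2 : ∀ t ∈ Icc (0 : ℝ) 1, ∀ θ u ω, 0 < u → B t (θ, u, ω + 2 * π) = B t (θ, u, ω))
    (hB0 : ∀ t ∈ Icc (0 : ℝ) 1, ∀ x : P3, 0 < x.2.1 →
      0 ≤ B t x ∧ (B t x) ^ 2 ≤ 10 ^ 6 * x.2.1 ^ 15)
    (hout : ∀ t ∈ Icc (0 : ℝ) 1, ∀ θ u ω, 11 ≤ u → Q t (θ, u, ω) = 15 * ω)
    (hreg : ∀ t ∈ Icc (0 : ℝ) 1, ∀ x : P3, 3 / 10 < x.2.1 → x.2.1 < 9 →
      MD (Q t) (p t) (B t) x = 0 → ∀ c, ∃ y, fderiv ℝ (MD (Q t) (p t) (B t)) x y = c) :
    AStep b v (PA b v (FF (Q 0) (p 0) (B 0))) (PA b v (FF (Q 1) (p 1) (B 1))) := by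
  refine astep_PA (h := fun t => FF (Q t) (p t) (B t)) ?_ ?_ ?_ ?_ ?_ ?_
  · have hofR : ContDiff ℝ 2 ((↑) : ℝ → ℂ) := Complex.ofRealCLM.contDiff
    have hu : ContDiff ℝ 2 fun q : ℝ × P3 => q.2.2.1 := by fun_prop
    have hci : ContDiff ℝ 2 fun q : ℝ × P3 => cin q.2.2.1 := contDiff_cin.comp hu
    have hco : ContDiff ℝ 2 fun q : ℝ × P3 => cout q.2.2.1 := contDiff_cout.comp hu
    have h1 : ContDiffOn ℝ 2 (fun q : ℝ × P3 => cis (Q q.1 q.2))
        (Icc (0 : ℝ) 1 ×ˢ {x | 0 < x.2.1}) := contDiff_cis.comp_contDiffOn hQ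
    have h2 : ContDiffOn ℝ 2 (fun q : ℝ × P3 => cis (p q.1 q.2.1))
        (Icc (0 : ℝ) 1 ×ˢ {x | 0 < x.2.1}) :=
      contDiff_cis.comp_contDiffOn (hp.comp (f := fun q : ℝ × P3 => ((q.1, q.2.1) : ℝ × ℝ))
        (by fun_prop) fun q hq => ⟨hq.1, mem_univ _⟩)
    have h3 : ContDiffOn ℝ 2 (fun q : ℝ × P3 => ((cin q.2.2.1 * B q.1 q.2 : ℝ) : ℂ))
        (Icc (0 : ℝ) 1 ×ˢ {x | 0 < x.2.1}) :=
      hofR.comp_contDiffOn (hci.contDiffOn.mul hB)
    have h4 : ContDiffOn ℝ 2 (fun q : ℝ × P3 => ((cin q.2.2.1 * q.2.2.1 ^ 15 : ℝ) : ℂ))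
        (Icc (0 : ℝ) 1 ×ˢ {x | 0 < x.2.1}) :=
      (hofR.comp (hci.mul (hu.pow 15))).contDiffOn
    exact (h4.mul h1).add ((hofR.comp hco).contDiffOn.mul (h2.sub h3))
  · intro t ht θ u ω hu
    simp only [FF]
    rw [hQ1 t ht θ u ω hu, hp1 t ht, hB1 t ht θ u ω hu]
  · intro t ht θ u ω hu
    simp only [FF]
    rw [hQ2 t ht θ u ω hu, hB2 t ht θ u ω hu]
  · refine ⟨1 / 10, by norm_num, fun t ht θ u ω h0 h1 => ?_⟩
    simp only [FF]
    rw [cin_zero h1, cin_zero le_rfl, cout_one (by linarith), cout_one (by norm_num)]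
    simp
  · refine ⟨11, fun t ht θ u ω h1 => ?_⟩
    simp only [FF]
    rw [cin_one (by linarith), cout_zero h1, hout t ht θ u ω h1, mul_pow, ← Complex.exp_nat_mul]
    unfold cis
    push_cast
    rw [zero_mul, add_zero, one_mul]
    congr 2
    ring
  · intro t ht θ u ω hu h0 c
    obtain ⟨hb0, hb1⟩ := hB0 t ht (θ, u, ω) hu
    rcases le_or_gt u (3 / 10) with h1 | h1
    · exact absurd h0 (FF_ne_in (x := (θ, u, ω)) hu h1 hb0 hb1)
    rcases le_or_gt 9 u with h2 | h2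
    · exact absurd h0 (FF_ne_out (x := (θ, u, ω)) h2 hb0 hb1)
    have hev : FF (Q t) (p t) (B t) =ᶠ[𝓝 (θ, u, ω)] MD (Q t) (p t) (B t) :=
      FF_ev (x := (θ, u, ω)) (show 2 / 10 < u by linarith) (show u < 10 by linarith)
    have h3 : MD (Q t) (p t) (B t) (θ, u, ω) = 0 := by rw [← hev.self_of_nhds]; exact h0
    obtain ⟨y, hy⟩ := hreg t ht (θ, u, ω) h1 h2 h3 c
    exact ⟨y, by rw [hev.fderiv_eq]; exact hy⟩

end Crest.Agent.R267.ArmExitA_502
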