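import Crest.Agent.R267.ArmExitA_502
import Crest.Agent.R267.HubDefs_284
import Crest.Agent.R267.NSDefs_966

/-!
# S0406, N2-EXIT (3) (helper502): change of the radial profile, removal of the inner cut-off

`XD ι`: own phases `p`, `q`, windows `lam e`, `mu e`. `hE ci co`: own words minus
`5 u^{15/2} ∑ lam mu`, with two radial cut-offs (class `CO`). `kk t`: the path to the
harmonic profile `5 u^15 / (1 + u^15)` without inner cut-off.
-/

set_option autoImplicit false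
set_option linter.unusedVariables false
set_option linter.unusedSectionVars false

noncomputable section

open Set Filter Topology Finset
open scoped Real
open Crest.Agent.R267.NdR_484 Crest.Agent.R267.NdY_484 Crest.Agent.R267.PolArm_484
open Crest.Agent.R267.Ang_739
open Crest.Agent.R267.NSDefs_966 (ca cb)
open Crest.Agent.R267.T3aDefs_957 (st)
open Crest.Agent.R267.Calc_957
open Crest.Agent.R267.ArmExitA_502 (P3 pw_exit onto_of_conormal)

namespace Crest.Agent.R267.ArmExitB_502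

/-! ### the profile -/

/-- the profile as a function of `y = u^15` -/
def bt (t y : ℝ) : ℝ := (1 - t) * (5 * √y) + t * (5 * (y / (1 + y)))

/-- its derivative -/
def btd (t y : ℝ) : ℝ := (1 - t) * (5 * (1 / (2 * √y))) + t * (5 * (1 / (1 + y) ^ 2))

theorem hasDerivAt_bt {t y : ℝ} (hy : 0 < y) : HasDerivAt (bt t) (btd t y) y := by
  unfold bt btd
  have h1 := (Real.hasDerivAt_sqrt hy.ne').const_mul 5 |>.const_mul (1 - t)
  have h2 : HasDerivAt (fun y : ℝ => y / (1 + y)) (1 / (1 + y) ^ 2) y := by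
    have h3 := (hasDerivAt_id y).div ((hasDerivAt_id y).const_add 1)
      (show (1 : ℝ) + id y ≠ 0 by simp only [id]; linarith)
    refine h3.congr_deriv ?_
    simp only [id]
    congr 1
    ring
  exact h1.add ((h2.const_mul 5).const_mul t)

theorem bt_nonneg {t y : ℝ} (h0 : 0 ≤ t) (h1 : t ≤ 1) (hy : 0 ≤ y) : 0 ≤ bt t y := by
  unfold bt
  have := Real.sqrt_nonneg y
  have h3 : 0 ≤ y / (1 + y) := by positivity
  have h4 : 0 ≤ 1 - t := by linarith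
  positivity

theorem btd_nonneg {t y : ℝ} (h0 : 0 ≤ t) (h1 : t ≤ 1) (hy : 0 ≤ y) : 0 ≤ btd t y := by
  unfold btd
  have h4 : 0 ≤ 1 - t := by linarith
  positivity

theorem mul_btd_le {t y : ℝ} (h0 : 0 ≤ t) (h1 : t ≤ 1) (hy : 0 < y) : y * btd t y ≤ bt t y := by
  unfold bt btd
  have hs := Real.sqrt_pos.2 hy
  have hs2 := Real.sq_sqrt hy.le
  have e1 : y * (1 / (2 * √y)) = √y / 2 := by
    field_simp
    nlinarith
  have e2 : y * (1 / (1 + y) ^ 2) ≤ y / (1 + y) := by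
    rw [mul_one_div]
    refine div_le_div_of_nonneg_left hy.le (by linarith) ?_
    nlinarith
  have e3 : y * ((1 - t) * (5 * (1 / (2 * √y))) + t * (5 * (1 / (1 + y) ^ 2))) =
      (1 - t) * (5 * (y * (1 / (2 * √y)))) + t * (5 * (y * (1 / (1 + y) ^ 2))) := by ring
  rw [e3, e1]
  have h4 : 0 ≤ 1 - t := by linarith
  have h5 : (1 - t) * (5 * (√y / 2)) ≤ (1 - t) * (5 * √y) :=
    mul_le_mul_of_nonneg_left (by linarith) h4
  have h6 : t * (5 * (y * (1 / (1 + y) ^ 2))) ≤ t * (5 * (y / (1 + y))) :=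
    mul_le_mul_of_nonneg_left (by linarith) h0
  linarith

/-- the tangent at `y` is larger than `2` at `1` -/
theorem bt_tangent {t y : ℝ} (h0 : 0 ≤ t) (h1 : t ≤ 1) (hy : 0 < y) :
    5 / 2 ≤ bt t y + btd t y * (1 - y) := by
  unfold bt btd
  have hs := Real.sqrt_pos.2 hy
  have hs2 := Real.sq_sqrt hy.le
  have e1 : 1 ≤ √y + 1 / (2 * √y) * (1 - y) := by
    have : √y + 1 / (2 * √y) * (1 - y) = (1 + y) / (2 * √y) := by
      field_simp
      nlinarith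
    rw [this, le_div_iff₀ (by linarith)]
    nlinarith [sq_nonneg (√y - 1)]
  have e2 : 1 / 2 ≤ y / (1 + y) + 1 / (1 + y) ^ 2 * (1 - y) := by
    have : y / (1 + y) + 1 / (1 + y) ^ 2 * (1 - y) = (1 + y ^ 2) / (1 + y) ^ 2 := by
      have : (1 : ℝ) + y ≠ 0 := by linarith
      field_simp
      ring
    rw [this, le_div_iff₀ (by positivity)]
    nlinarith [sq_nonneg (y - 1)]
  have e3 : (1 - t) * (5 * √y) + t * (5 * (y / (1 + y))) +
      ((1 - t) * (5 * (1 / (2 * √y))) + t * (5 * (1 / (1 + y) ^ 2))) * (1 - y) =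
      (1 - t) * (5 * (√y + 1 / (2 * √y) * (1 - y))) +
        t * (5 * (y / (1 + y) + 1 / (1 + y) ^ 2 * (1 - y))) := by ring
  rw [e3]
  have h4 : 0 ≤ 1 - t := by linarith
  have h5 : (1 - t) * (5 * 1) ≤ (1 - t) * (5 * (√y + 1 / (2 * √y) * (1 - y))) :=
    mul_le_mul_of_nonneg_left (by linarith) h4
  have h6 : t * (5 * (1 / 2)) ≤ t * (5 * (y / (1 + y) + 1 / (1 + y) ^ 2 * (1 - y))) :=
    mul_le_mul_of_nonneg_left (by linarith) h0
  linarith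

theorem bt_le {t y : ℝ} (h0 : 0 ≤ t) (h1 : t ≤ 1) (hy : 0 ≤ y) : bt t y ≤ 5 * √y := by
  unfold bt
  have hs := Real.sqrt_nonneg y
  have hs2 := Real.sq_sqrt hy
  have e1 : y / (1 + y) ≤ √y := by
    rw [div_le_iff₀ (by linarith)]
    nlinarith [sq_nonneg (√y - 1), mul_nonneg hs (sq_nonneg (√y - 1))]
  have h6 : t * (5 * (y / (1 + y))) ≤ t * (5 * √y) :=
    mul_le_mul_of_nonneg_left (by linarith) h0
  linarith

/-! ### the pointwise criterion with coordinate derivatives -/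

theorem cis_re (x : ℝ) : (cis x).re = Real.cos x := Complex.exp_ofReal_mul_I_re x

theorem cis_im (x : ℝ) : (cis x).im = Real.sin x := Complex.exp_ofReal_mul_I_im x

theorem fd1 {F : P3 → ℂ} {θ u ω : ℝ} (hF : DifferentiableAt ℝ F (θ, u, ω)) {a : ℂ}
    (h : HasDerivAt (fun s => F (s, u, ω)) a θ) : fderiv ℝ F (θ, u, ω) (1, 0, 0) = a := by
  have h1 : HasDerivAt (fun s : ℝ => ((s, u, ω) : P3)) (1, 0, 0) θ :=
    (hasDerivAt_id θ).prodMk (hasDerivAt_const θ ((u, ω) : ℝ × ℝ))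
  exact (hF.hasFDerivAt.comp_hasDerivAt θ h1).unique h

theorem fd2 {F : P3 → ℂ} {θ u ω : ℝ} (hF : DifferentiableAt ℝ F (θ, u, ω)) {a : ℂ}
    (h : HasDerivAt (fun s => F (θ, s, ω)) a u) : fderiv ℝ F (θ, u, ω) (0, 1, 0) = a := by
  have h1 : HasDerivAt (fun s : ℝ => ((θ, s, ω) : P3)) (0, 1, 0) u :=
    (hasDerivAt_const u θ).prodMk ((hasDerivAt_id u).prodMk (hasDerivAt_const u ω))
  exact (hF.hasFDerivAt.comp_hasDerivAt u h1).unique h

theorem fd3 {F : P3 → ℂ} {θ u ω : ℝ} (hF : DifferentiableAt ℝ F (θ, u, ω)) {a : ℂ}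
    (h : HasDerivAt (fun s => F (θ, u, s)) a ω) : fderiv ℝ F (θ, u, ω) (0, 0, 1) = a := by
  have h1 : HasDerivAt (fun s : ℝ => ((θ, u, s) : P3)) (0, 0, 1) ω :=
    (hasDerivAt_const ω θ).prodMk ((hasDerivAt_const ω u).prodMk (hasDerivAt_id ω))
  exact (hF.hasFDerivAt.comp_hasDerivAt ω h1).unique h

/-- **pointwise regularity in coordinates** -/
theorem md_onto {F : P3 → ℂ} {θ u ω : ℝ} (hF : DifferentiableAt ℝ F (θ, u, ω))
    {Q p p' q' B By Bt Bo : ℝ} (hu : 0 < u)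
    (h0 : ((u ^ 15 : ℝ) : ℂ) * cis Q + (cis p - (B : ℂ)) = 0)
    (h1 : HasDerivAt (fun s => F (s, u, ω)) (Complex.I * cis p * (p' : ℂ) - (Bt : ℂ)) θ)
    (h2 : HasDerivAt (fun s => F (θ, s, ω)) (((15 * u ^ 14 : ℝ) : ℂ) * (cis Q - (By : ℂ))) u)
    (h3 : HasDerivAt (fun s => F (θ, u, s))
      (((u ^ 15 : ℝ) : ℂ) * (Complex.I * cis Q * (q' : ℂ)) - (Bo : ℂ)) ω)
    (hB : 0 ≤ B) (hBy0 : 0 ≤ By) (hBy : u ^ 15 * By ≤ B)
    (hv : 0 ≤ Real.cos p → p' ≠ 0 ∧ Bt = 0) (hw : 0 ≤ Real.cos Q → q' ≠ 0 ∧ Bo = 0)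
    (hvw : 0 ≤ Real.cos p → 0 ≤ Real.cos Q → By = 1 → B - u ^ 15 ≠ 1) (c : ℂ) :
    ∃ y, fderiv ℝ F (θ, u, ω) y = c := by
  refine onto_of_conormal (fderiv ℝ F (θ, u, ω)).toLinearMap (fun a b hab hn => ?_) c
  have k1 := hab (1, 0, 0)
  have k2 := hab (0, 1, 0)
  have k3 := hab (0, 0, 1)
  simp only [ContinuousLinearMap.coe_coe] at k1 k2 k3
  rw [fd1 hF h1] at k1
  rw [fd2 hF h2] at k2
  rw [fd3 hF h3] at k3
  have hre := congrArg Complex.re h0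
  have him := congrArg Complex.im h0
  simp only [Complex.add_re, Complex.sub_re, Complex.mul_re, Complex.add_im, Complex.sub_im,
    Complex.mul_im, Complex.ofReal_re, Complex.ofReal_im, Complex.I_re, Complex.I_im,
    Complex.zero_re, Complex.zero_im, cis_re, cis_im] at k1 k2 k3 hre him
  have hu15 : 0 < u ^ 15 := pow_pos hu 15
  have hu14 : 0 < 15 * u ^ 14 := by positivity
  have e1 : a * Real.cos Q + b * Real.sin Q - By * a = 0 := by
    have : 15 * u ^ 14 * (a * Real.cos Q + b * Real.sin Q - By * a) = 0 := by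
      linear_combination k2
    exact (mul_eq_zero.1 this).resolve_left hu14.ne'
  exact pw_exit (y := u ^ 15) (p' := p') (q' := q') (B := B) (By := By) (Bt := Bt) (Bo := Bo)
    (C := Real.cos Q) (S := Real.sin Q) (c := Real.cos p) (s := Real.sin p) (a := a) (b := b)
    hu15 (by rw [add_comm]; exact Real.sin_sq_add_cos_sq Q)
    (by rw [add_comm]; exact Real.sin_sq_add_cos_sq p) (by linarith) (by linarith) hB hBy0 hBy
    hv hw hvw hn e1 (by linear_combination k3) (by linear_combination k1)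

/-! ### data -/

/-- own phases and windows -/
structure XD (ι : Type) where
  p : ℝ → ℝ
  q : ℝ → ℝ
  lam : ι → ℝ → ℝ
  mu : ι → ℝ → ℝ

variable {ι : Type} [Fintype ι]

/-- admissible data -/
structure XD.Ok (X : XD ι) : Prop where
  cp : ContDiff ℝ 2 X.p
  cq : ContDiff ℝ 2 X.q
  cl : ∀ e, ContDiff ℝ 2 (X.lam e)
  cm : ∀ e, ContDiff ℝ 2 (X.mu e)
  pp : ∀ x, cis (X.p (x + 2 * π)) = cis (X.p x)
  pq : ∀ x, X.q (x + 2 * π) = X.q x + 15 * (2 * π)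
  pl : ∀ e, Per (X.lam e)
  pm : ∀ e, Per (X.mu e)
  near : ∀ x, |X.q x - 15 * x| ≤ π / 2
  l0 : ∀ e x, 0 ≤ X.lam e x
  l1 : ∀ e x, X.lam e x ≤ 1
  m0 : ∀ e x, 0 ≤ X.mu e x
  m1 : ∀ e x, X.mu e x ≤ 1
  V : ∀ θ, 0 ≤ Real.cos (X.p θ) → deriv X.p θ ≠ 0 ∧ ∀ e, deriv (X.lam e) θ = 0
  W : ∀ ω, 0 ≤ Real.cos (X.q ω) → deriv X.q ω ≠ 0 ∧ ∀ e, deriv (X.mu e) ω = 0
  VW : ∀ θ ω, 0 ≤ Real.cos (X.p θ) → 0 ≤ Real.cos (X.q ω) →
    ∑ e, X.lam e θ * X.mu e ω = 0 ∨ 1 ≤ ∑ e, X.lam e θ * X.mu e ω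

/-- the window of the deletion -/
def XD.WW (X : XD ι) (θ ω : ℝ) : ℝ := ∑ e, X.lam e θ * X.mu e ω

/-- radial cut-offs: `ci` inner, `co` outer -/
structure CO (u0 W : ℝ) (ci co : ℝ → ℝ) : Prop where
  hu : 0 < u0
  hW : u0 ≤ W
  si : ContDiff ℝ 2 ci
  so : ContDiff ℝ 2 co
  i0 : ∀ u, u ≤ u0 / 2 → ci u = 0
  i1 : ∀ u, u0 ≤ u → ci u = 1
  in0 : ∀ u, 0 ≤ ci u
  in1 : ∀ u, ci u ≤ 1
  o0 : ∀ u, 2 * W ≤ u → co u = 0
  o1 : ∀ u, u ≤ W → co u = 1
  on0 : ∀ u, 0 ≤ co u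
  on1 : ∀ u, co u ≤ 1

/-- **input of step (3)** -/
def XD.hE (X : XD ι) (ci co : ℝ → ℝ) (x : P3) : ℂ :=
  ((ci x.2.1 * x.2.1 ^ 15 : ℝ) : ℂ) *
      cis (co x.2.1 * X.q x.2.2 + (1 - co x.2.1) * (15 * x.2.2)) +
    (co x.2.1 : ℂ) * (cis (X.p x.1) -
      ((ci x.2.1 * (5 * x.2.1 ^ (15 / 2 : ℝ) * X.WW x.1 x.2.2) : ℝ) : ℂ))

/-- own term of `w` with the phase interpolated to `15 ω` -/
def XD.GG (X : XD ι) (co : ℝ → ℝ) (w : ℂ) : ℂ :=
  ((‖w‖ ^ 15 : ℝ) : ℂ) *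
    cis (co ‖w‖ * X.q (Complex.arg w) + (1 - co ‖w‖) * (15 * Complex.arg w))

/-- the deletion along the path -/
def XD.BB (X : XD ι) (ci : ℝ → ℝ) (t θ : ℝ) (w : ℂ) : ℝ :=
  ∑ e, X.lam e θ * ((1 - t) * (ci ‖w‖ * (5 * pol (15 / 2) (X.mu e) w)) +
    t * (5 * (pol 15 (X.mu e) w * (1 / (1 + ‖w‖ ^ 15)))))

/-- **the path** -/
def XD.kk (X : XD ι) (ci co : ℝ → ℝ) (t : ℝ) (x : ℝ × ℂ) : ℂ :=
  (((1 - t) * ci ‖x.2‖ + t : ℝ) : ℂ) * X.GG co x.2 +
    (co ‖x.2‖ : ℂ) * (cis (X.p x.1) - (X.BB ci t x.1 x.2 : ℂ))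

end Crest.Agent.R267.ArmExitB_502
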