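import Crest.Agent.R267.ArmExitB_502

/-!
# S0406, N2-EXIT (3) (helper502): the path `kk` is a homotopy of arms
-/

set_option autoImplicit false
set_option linter.unusedVariables false
set_option linter.unusedSectionVars false

noncomputable section

open Set Filter Topology Finset
open scoped Real
open Crest.Agent.R267.NdR_484 Crest.Agent.R267.NdY_484 Crest.Agent.R267.PolArm_484
open Crest.Agent.R267.Ang_739
open Crest.Agent.R267.ArmExitA_502 (P3)
open Crest.Agent.R267.ArmExitB_502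

namespace Crest.Agent.R267.ArmExitC_502

/-! ### smoothness -/

/-- radial functions which are constant near `0` -/
theorem contDiff_radial {g : ℝ → ℝ} (hg : ContDiff ℝ 2 g) {r0 c : ℝ} (hr : 0 < r0)
    (hc : ∀ u, u ≤ r0 → g u = c) : ContDiff ℝ 2 fun w : ℂ => g ‖w‖ := by
  rw [contDiff_iff_contDiffAt]
  intro w
  by_cases hw : w = 0
  · subst hw
    have h1 : (fun w : ℂ => g ‖w‖) =ᶠ[𝓝 0] fun _ => c := by
      have h2 : ∀ᶠ w : ℂ in 𝓝 0, ‖w‖ < r0 := by
        have : ContinuousAt (fun w : ℂ => ‖w‖) 0 := by fun_prop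
        exact this.eventually_lt_const (by simpa using hr)
      filter_upwards [h2] with w hw
      exact hc _ hw.le
    exact contDiffAt_const.congr_of_eventuallyEq h1
  · exact hg.contDiffAt.comp w (contDiffAt_norm ℝ hw)

variable {ι : Type} [Fintype ι] {X : XD ι} {u0 W : ℝ} {ci co : ℝ → ℝ}

theorem norm15 (w : ℂ) : ‖w‖ ^ (15 : ℝ) = ‖w‖ ^ 15 := by
  exact_mod_cast Real.rpow_natCast ‖w‖ 15

theorem contDiff_norm15 : ContDiff ℝ 2 fun w : ℂ => ‖w‖ ^ 15 := by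
  have h := LobeKit_407.contDiff_pol (D := 15) (by norm_num) (q := fun _ : ℝ => (1 : ℝ))
    (fun _ => rfl) contDiff_const
  have e : pol 15 (fun _ : ℝ => (1 : ℝ)) = fun w : ℂ => ‖w‖ ^ 15 := by
    funext w
    unfold pol
    rw [norm15, smul_eq_mul, mul_one]
  rwa [e] at h

theorem cis_add_int (x : ℝ) (k : ℤ) : cis (x + k * (2 * π)) = cis x := by
  rw [mul_comm]
  exact cis_per x k

theorem cis_add_15 (x : ℝ) : cis (x + 15 * (2 * π)) = cis x := by
  have := cis_add_int x 15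
  push_cast at this
  exact this

theorem contDiff_GG (h : X.Ok) (hc : CO u0 W ci co) : ContDiff ℝ 2 (X.GG co) := by
  have hW : 0 < W := hc.hu.trans_le hc.hW
  rw [contDiff_iff_contDiffAt]
  intro w
  by_cases hw : w = 0
  · subst hw
    have h1 : X.GG co =ᶠ[𝓝 0] pol 15 fun x => cis (X.q x) := by
      have h2 : ∀ᶠ w : ℂ in 𝓝 0, ‖w‖ < W := by
        have : ContinuousAt (fun w : ℂ => ‖w‖) 0 := by fun_prop
        exact this.eventually_lt_const (by simpa using hW)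
      filter_upwards [h2] with w hw
      unfold XD.GG pol
      rw [hc.o1 _ hw.le, norm15]
      simp
    have h2 : ContDiff ℝ 2 (pol 15 fun x => cis (X.q x)) :=
      LobeKit_407.contDiff_pol (by norm_num) (fun x => by rw [h.pq, cis_add_15])
        (contDiff_cis.comp h.cq)
    exact h2.contDiffAt.congr_of_eventuallyEq h1
  · have hsm : ContDiff ℝ 2 (fun z : ℝ × ℝ => cis (z.1 * X.q z.2 + (1 - z.1) * (15 * z.2))) := by
      have := h.cq
      exact contDiff_cis.comp (by fun_prop)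
    have h1 : ContDiffAt ℝ 2 (fun z : ℝ × ℂ =>
        (fun z : ℝ × ℝ => cis (z.1 * X.q z.2 + (1 - z.1) * (15 * z.2))) (z.1, Complex.arg z.2))
        (co ‖w‖, w) := by
      refine contDiffAt_ang2 (q := fun z : ℝ × ℝ => cis (z.1 * X.q z.2 + (1 - z.1) * (15 * z.2)))
        (fun t x => ?_) hw hsm.contDiffAt
      show cis (t * X.q (x + 2 * π) + (1 - t) * (15 * (x + 2 * π))) =
        cis (t * X.q x + (1 - t) * (15 * x))
      rw [h.pq, ← cis_add_15 (t * X.q x + (1 - t) * (15 * x))]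
      congr 1
      ring
    have h2 : ContDiffAt ℝ 2 (fun w : ℂ => (co ‖w‖, w)) w :=
      (contDiff_radial hc.so hW hc.o1).contDiffAt.prodMk contDiffAt_id
    have h3 := ContDiffAt.comp (f := fun w : ℂ => ((co ‖w‖, w) : ℝ × ℂ)) w h1 h2
    exact (Complex.ofRealCLM.contDiff.comp contDiff_norm15).contDiffAt.mul h3

theorem contDiff_BB (h : X.Ok) (hc : CO u0 W ci co) :
    ContDiff ℝ 2 fun q : ℝ × (ℝ × ℂ) => X.BB ci q.1 q.2.1 q.2.2 := by
  have hi : ContDiff ℝ 2 fun w : ℂ => ci ‖w‖ := contDiff_radial hc.si (half_pos hc.hu) hc.i0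
  have hd : ContDiff ℝ 2 fun w : ℂ => 1 / (1 + ‖w‖ ^ 15) :=
    contDiff_const.div (contDiff_const.add contDiff_norm15) fun w => by positivity
  unfold XD.BB
  refine ContDiff.sum fun e _ => ?_
  have h1 := LobeKit_407.contDiff_pol (D := 15 / 2) (by norm_num) (h.pm e) (h.cm e)
  have h2 := LobeKit_407.contDiff_pol (D := 15) (by norm_num) (h.pm e) (h.cm e)
  have hw : ContDiff ℝ 2 fun q : ℝ × (ℝ × ℂ) => q.2.2 := by fun_prop
  have ht : ContDiff ℝ 2 fun q : ℝ × (ℝ × ℂ) => q.1 := by fun_prop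
  have hθ : ContDiff ℝ 2 fun q : ℝ × (ℝ × ℂ) => X.lam e q.2.1 :=
    (h.cl e).comp (by fun_prop)
  have k1 : ContDiff ℝ 2 fun q : ℝ × (ℝ × ℂ) => ci ‖q.2.2‖ := hi.comp hw
  have k2 : ContDiff ℝ 2 fun q : ℝ × (ℝ × ℂ) => pol (15 / 2) (X.mu e) q.2.2 := h1.comp hw
  have k3 : ContDiff ℝ 2 fun q : ℝ × (ℝ × ℂ) => pol 15 (X.mu e) q.2.2 := h2.comp hw
  have k4 : ContDiff ℝ 2 fun q : ℝ × (ℝ × ℂ) => 1 / (1 + ‖q.2.2‖ ^ 15) := hd.comp hw
  exact hθ.mul (((contDiff_const.sub ht).mul (k1.mul (contDiff_const.mul k2))).add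
    (ht.mul (contDiff_const.mul (k3.mul k4))))

theorem contDiff_kk (h : X.Ok) (hc : CO u0 W ci co) :
    ContDiff ℝ 2 fun q : ℝ × (ℝ × ℂ) => X.kk ci co q.1 q.2 := by
  have hW : 0 < W := hc.hu.trans_le hc.hW
  have hofR : ContDiff ℝ 2 ((↑) : ℝ → ℂ) := Complex.ofRealCLM.contDiff
  have hi : ContDiff ℝ 2 fun w : ℂ => ci ‖w‖ := contDiff_radial hc.si (half_pos hc.hu) hc.i0
  have ho : ContDiff ℝ 2 fun w : ℂ => co ‖w‖ := contDiff_radial hc.so hW hc.o1
  have hw : ContDiff ℝ 2 fun q : ℝ × (ℝ × ℂ) => q.2.2 := by fun_prop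
  have ht : ContDiff ℝ 2 fun q : ℝ × (ℝ × ℂ) => q.1 := by fun_prop
  have hθ : ContDiff ℝ 2 fun q : ℝ × (ℝ × ℂ) => q.2.1 := by fun_prop
  unfold XD.kk
  refine ((hofR.comp (((contDiff_const.sub ht).mul (hi.comp hw)).add ht)).mul
    ((contDiff_GG h hc).comp hw)).add ((hofR.comp (ho.comp hw)).mul
      ((contDiff_cis.comp (h.cp.comp hθ)).sub (hofR.comp (contDiff_BB h hc))))

/-! ### values -/

/-- the deletion in polar coordinates -/
theorem BB_eq (hc : CO u0 W ci co) {t θ : ℝ} {w : ℂ} (hw : u0 ≤ ‖w‖) :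
    X.BB ci t θ w = bt t (‖w‖ ^ 15) * X.WW θ (Complex.arg w) := by
  unfold XD.BB XD.WW bt pol
  rw [Finset.mul_sum]
  refine Finset.sum_congr rfl fun e _ => ?_
  have e1 : ‖w‖ ^ (15 / 2 : ℝ) = √(‖w‖ ^ 15) := by
    rw [Real.sqrt_eq_rpow, ← Real.rpow_natCast ‖w‖ 15, ← Real.rpow_mul (norm_nonneg w)]
    norm_num
  rw [hc.i1 _ hw, e1, norm15, smul_eq_mul, smul_eq_mul]
  ring

theorem WW_nonneg (h : X.Ok) (θ ω : ℝ) : 0 ≤ X.WW θ ω :=
  Finset.sum_nonneg fun e _ => mul_nonneg (h.l0 e θ) (h.m0 e ω)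

theorem WW_le (h : X.Ok) (θ ω : ℝ) : X.WW θ ω ≤ Fintype.card ι := by
  unfold XD.WW
  calc ∑ e, X.lam e θ * X.mu e ω ≤ ∑ _e : ι, (1 : ℝ) :=
        Finset.sum_le_sum fun e _ => by
          have := mul_le_mul (h.l1 e θ) (h.m1 e ω) (h.m0 e ω) zero_le_one
          linarith
    _ = Fintype.card ι := by simp

theorem BB_nonneg (h : X.Ok) (hc : CO u0 W ci co) {t : ℝ} (ht : t ∈ Icc (0 : ℝ) 1) (θ : ℝ)
    (w : ℂ) : 0 ≤ X.BB ci t θ w := by
  unfold XD.BB pol
  refine Finset.sum_nonneg fun e _ => mul_nonneg (h.l0 e θ) ?_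
  have h1 := h.m0 e (Complex.arg w)
  have h2 : 0 ≤ 1 - t := by linarith [ht.2]
  have h3 := ht.1
  have h4 := hc.in0 ‖w‖
  have h5 : 0 ≤ ‖w‖ ^ (15 / 2 : ℝ) := Real.rpow_nonneg (norm_nonneg w) _
  have h6 : 0 ≤ ‖w‖ ^ (15 : ℝ) := Real.rpow_nonneg (norm_nonneg w) _
  simp only [smul_eq_mul]
  positivity

/-- bound of the deletion -/
theorem BB_le (h : X.Ok) (hc : CO u0 W ci co) {t : ℝ} (ht : t ∈ Icc (0 : ℝ) 1) (θ : ℝ)
    (w : ℂ) : X.BB ci t θ w ≤ 5 * Fintype.card ι * √(‖w‖ ^ 15) := by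
  have e1 : ‖w‖ ^ (15 / 2 : ℝ) = √(‖w‖ ^ 15) := by
    rw [Real.sqrt_eq_rpow, ← Real.rpow_natCast ‖w‖ 15, ← Real.rpow_mul (norm_nonneg w)]
    norm_num
  have hy : 0 ≤ ‖w‖ ^ 15 := pow_nonneg (norm_nonneg w) 15
  set y := ‖w‖ ^ 15 with hydef
  have hs := Real.sqrt_nonneg y
  unfold XD.BB pol
  have key : ∀ e : ι, X.lam e θ * ((1 - t) * (ci ‖w‖ * (5 * (‖w‖ ^ (15 / 2 : ℝ) *
      X.mu e (Complex.arg w)))) + t * (5 * (‖w‖ ^ (15 : ℝ) * X.mu e (Complex.arg w) *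
        (1 / (1 + y))))) ≤ 5 * √y := by
    intro e
    rw [e1, norm15, ← hydef]
    have h1 := h.m0 e (Complex.arg w)
    have h1' := h.m1 e (Complex.arg w)
    have h2 : 0 ≤ 1 - t := by linarith [ht.2]
    have h3 := ht.1
    have h4 := hc.in0 ‖w‖
    have h4' := hc.in1 ‖w‖
    have h5 := h.l0 e θ
    have h5' := h.l1 e θ
    have e2 : y / (1 + y) ≤ √y := by
      have hs2 := Real.sq_sqrt hy
      rw [div_le_iff₀ (by linarith)]
      nlinarith [sq_nonneg (√y - 1), mul_nonneg hs (sq_nonneg (√y - 1))]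
    have a1 : ci ‖w‖ * (5 * (√y * X.mu e (Complex.arg w))) ≤ 5 * √y := by
      have a2 : √y * X.mu e (Complex.arg w) ≤ √y * 1 := mul_le_mul_of_nonneg_left h1' hs
      have a3 : 0 ≤ √y * X.mu e (Complex.arg w) := mul_nonneg hs h1
      have a8 : 0 ≤ 5 * (√y * X.mu e (Complex.arg w)) := by positivity
      have a9 := mul_le_mul_of_nonneg_right h4' a8
      linarith
    have a4 : 5 * (y * X.mu e (Complex.arg w) * (1 / (1 + y))) ≤ 5 * √y := by
      have a5 : y * X.mu e (Complex.arg w) * (1 / (1 + y)) ≤ y / (1 + y) := by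
        have a8 : (0 : ℝ) ≤ 1 / (1 + y) := by positivity
        have a9 := mul_le_mul_of_nonneg_left h1' hy
        have a10 := mul_le_mul_of_nonneg_right a9 a8
        calc _ ≤ y * 1 * (1 / (1 + y)) := a10
          _ = y / (1 + y) := by ring
      linarith
    have a6 : (1 - t) * (ci ‖w‖ * (5 * (√y * X.mu e (Complex.arg w)))) +
        t * (5 * (y * X.mu e (Complex.arg w) * (1 / (1 + y)))) ≤ 5 * √y := by
      have b1 := mul_le_mul_of_nonneg_left a1 h2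
      have b2 := mul_le_mul_of_nonneg_left a4 h3
      linarith
    have a7 : 0 ≤ (1 - t) * (ci ‖w‖ * (5 * (√y * X.mu e (Complex.arg w)))) +
        t * (5 * (y * X.mu e (Complex.arg w) * (1 / (1 + y)))) := by positivity
    have a8 := mul_le_mul_of_nonneg_right h5' a7
    linarith
  simp only [smul_eq_mul]
  calc _ ≤ ∑ _e : ι, 5 * √y := Finset.sum_le_sum fun e _ => key e
    _ = 5 * Fintype.card ι * √y := by
      rw [Finset.sum_const, nsmul_eq_mul, Finset.card_univ]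
      ring

end Crest.Agent.R267.ArmExitC_502
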