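import Crest.Agent.R267.ArmExitC_502

/-!
# S0406, N2-EXIT (3) (helper502): regularity of the path `kk`; `astep_kk`
-/

set_option autoImplicit false
set_option linter.unusedVariables false
set_option linter.unusedSectionVars false

noncomputable section

open Set Filter Topology Finset
open scoped Real
open Crest.Agent.R267.NdR_484 Crest.Agent.R267.NdY_484 Crest.Agent.R267.PolArm_484
open Crest.Agent.R267.Ang_739
open Crest.Agent.R267.ArmExitA_502 (P3)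
open Crest.Agent.R267.ArmExitB_502 Crest.Agent.R267.ArmExitC_502

namespace Crest.Agent.R267.ArmExitD_502

variable {ι : Type} [Fintype ι] {X : XD ι} {u0 W : ℝ} {ci co : ℝ → ℝ}

/-- smallness of `u0` and largeness of `W` -/
structure SL (ι : Type) [Fintype ι] (u0 W : ℝ) : Prop where
  s : ∀ u, 0 ≤ u → u ≤ u0 → u ^ 15 + 5 * Fintype.card ι * √(u ^ 15) < 1
  l : ∀ u, W ≤ u → 1 + 5 * Fintype.card ι * √(u ^ 15) < u ^ 15 / 2

/-- bounds for `SL` -/
theorem exists_SL (ι : Type) [Fintype ι] : ∃ u1 : ℝ, 0 < u1 ∧ ∃ W1 : ℝ, 1 ≤ W1 ∧ u1 ≤ W1 ∧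
    ∀ u0 W, u0 ≤ u1 → W1 ≤ W → SL ι u0 W := by
  set K : ℝ := 5 * Fintype.card ι with hK
  have hK0 : 0 ≤ K := by positivity
  refine ⟨1 / (K + 2), by positivity, 2 * K + 4, by linarith, ?_, fun u0 W h0 hW => ⟨?_, ?_⟩⟩
  · have : 1 / (K + 2) ≤ 1 := by
      rw [div_le_one (by linarith)]
      linarith
    linarith
  · intro u hu hu0
    have h1 : u ≤ 1 / (K + 2) := hu0.trans h0
    have h2 : 1 / (K + 2) ≤ 1 / 2 := one_div_le_one_div_of_le (by norm_num) (by linarith)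
    have hu1 : u ≤ 1 := by linarith
    have h3 : u ^ 15 ≤ u ^ 2 := pow_le_pow_of_le_one hu hu1 (by norm_num)
    have h4 : √(u ^ 15) ≤ u := by
      calc √(u ^ 15) ≤ √(u ^ 2) := Real.sqrt_le_sqrt h3
        _ = u := Real.sqrt_sq hu
    have h5 : u ^ 15 ≤ u := pow_le_of_le_one hu hu1 (by norm_num)
    rw [← hK]
    have h6 : K * √(u ^ 15) ≤ K * u := mul_le_mul_of_nonneg_left h4 hK0
    have h7 : (K + 1) * u ≤ (K + 1) * (1 / (K + 2)) := mul_le_mul_of_nonneg_left h1 (by linarith)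
    have h8 : (K + 1) * (1 / (K + 2)) < 1 := by
      rw [mul_one_div, div_lt_one (by linarith)]
      linarith
    linarith
  · intro u hu
    rw [← hK]
    have h1 : 2 * K + 4 ≤ u := hW.trans hu
    have hu1 : 1 ≤ u := by linarith
    set s := √(u ^ 15) with hs
    have hy : 0 ≤ u ^ 15 := by positivity
    have hs2 : s ^ 2 = u ^ 15 := Real.sq_sqrt hy
    have hus : u ≤ s := by
      rw [hs]
      apply Real.le_sqrt_of_sq_le
      exact pow_le_pow_right₀ hu1 (by norm_num)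
    rw [← hs2]
    nlinarith

/-! ### no zeros for small and large `‖w‖` -/

theorem norm_GG (w : ℂ) : ‖X.GG co w‖ = ‖w‖ ^ 15 := by
  unfold XD.GG
  rw [norm_mul, norm_cis, mul_one, Complex.norm_real, Real.norm_of_nonneg (by positivity)]

theorem kk_ne_in (h : X.Ok) (hc : CO u0 W ci co) (hs : SL ι u0 W) {t : ℝ}
    (ht : t ∈ Icc (0 : ℝ) 1) {x : ℝ × ℂ} (hx : ‖x.2‖ ≤ u0) : X.kk ci co t x ≠ 0 := by
  intro h0
  unfold XD.kk at h0
  rw [hc.o1 _ (hx.trans hc.hW)] at h0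
  have h1 := hs.s _ (norm_nonneg x.2) hx
  have hb0 := BB_nonneg h hc ht x.1 x.2
  have hb1 := BB_le h hc ht x.1 x.2
  have hc1 : 0 ≤ (1 - t) * ci ‖x.2‖ + t := by
    have := mul_nonneg (sub_nonneg.2 ht.2) (hc.in0 ‖x.2‖)
    linarith [ht.1]
  have hc2 : (1 - t) * ci ‖x.2‖ + t ≤ 1 := by
    have := mul_le_mul_of_nonneg_left (hc.in1 ‖x.2‖) (sub_nonneg.2 ht.2)
    linarith
  have h3 : cis (X.p x.1) = -((((1 - t) * ci ‖x.2‖ + t : ℝ) : ℂ) * X.GG co x.2 -
      (X.BB ci t x.1 x.2 : ℂ)) := by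
    push_cast at h0 ⊢
    linear_combination h0
  have h4 := norm_cis (X.p x.1)
  rw [h3, norm_neg] at h4
  have h5 := norm_sub_le ((((1 - t) * ci ‖x.2‖ + t : ℝ) : ℂ) * X.GG co x.2)
    (X.BB ci t x.1 x.2 : ℂ)
  rw [norm_mul, norm_GG, Complex.norm_real, Complex.norm_real, Real.norm_of_nonneg hc1,
    Real.norm_of_nonneg hb0] at h5
  have h6 : ((1 - t) * ci ‖x.2‖ + t) * ‖x.2‖ ^ 15 ≤ 1 * ‖x.2‖ ^ 15 :=
    mul_le_mul_of_nonneg_right hc2 (by positivity)
  linarith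

theorem kk_ne_out (h : X.Ok) (hc : CO u0 W ci co) (hs : SL ι u0 W) {t : ℝ}
    (ht : t ∈ Icc (0 : ℝ) 1) {x : ℝ × ℂ} (hx : W ≤ ‖x.2‖) : X.kk ci co t x ≠ 0 := by
  intro h0
  unfold XD.kk at h0
  rw [hc.i1 _ (hc.hW.trans hx)] at h0
  have h1 := hs.l _ hx
  have hb0 := BB_nonneg h hc ht x.1 x.2
  have hb1 := BB_le h hc ht x.1 x.2
  have hy : 0 ≤ ‖x.2‖ ^ 15 := by positivity
  have h3 : X.GG co x.2 = -((co ‖x.2‖ : ℂ) * (cis (X.p x.1) - (X.BB ci t x.1 x.2 : ℂ))) := by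
    push_cast at h0
    linear_combination h0
  have h4 := norm_GG (X := X) (co := co) x.2
  rw [h3, norm_neg, norm_mul, Complex.norm_real, Real.norm_of_nonneg (hc.on0 _)] at h4
  have h5 := norm_sub_le (cis (X.p x.1)) (X.BB ci t x.1 x.2 : ℂ)
  rw [norm_cis, Complex.norm_real, Real.norm_of_nonneg hb0] at h5
  have h6 : co ‖x.2‖ * ‖cis (X.p x.1) - (X.BB ci t x.1 x.2 : ℂ)‖ ≤
      1 * ‖cis (X.p x.1) - (X.BB ci t x.1 x.2 : ℂ)‖ :=
    mul_le_mul_of_nonneg_right (hc.on1 _) (norm_nonneg _)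
  linarith

/-! ### the middle region -/

/-- the function for `u0 ≤ u ≤ W` in polar coordinates -/
def MM (X : XD ι) (t : ℝ) (x : P3) : ℂ :=
  ((x.2.1 ^ 15 : ℝ) : ℂ) * cis (X.q x.2.2) +
    (cis (X.p x.1) - ((bt t (x.2.1 ^ 15) * X.WW x.1 x.2.2 : ℝ) : ℂ))

theorem WW_per (h : X.Ok) (θ : ℝ) : Per fun ω => X.WW θ ω := fun ω => by
  unfold XD.WW
  exact Finset.sum_congr rfl fun e _ => by rw [h.pm e ω]

theorem WW_per1 (h : X.Ok) (θ ω : ℝ) : X.WW (θ + 2 * π) ω = X.WW θ ω := by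
  unfold XD.WW
  exact Finset.sum_congr rfl fun e _ => by rw [h.pl e θ]

theorem kk_polar (h : X.Ok) (hc : CO u0 W ci co) {t : ℝ} {x : P3} (h1 : u0 ≤ x.2.1)
    (h2 : x.2.1 ≤ W) :
    X.kk ci co t (x.1, (x.2.1 : ℂ) * Complex.exp (x.2.2 * Complex.I)) = MM X t x := by
  have hu : 0 < x.2.1 := hc.hu.trans_le h1
  have hn : ‖(x.2.1 : ℂ) * Complex.exp (x.2.2 * Complex.I)‖ = x.2.1 := by
    rw [norm_mul, Complex.norm_exp_ofReal_mul_I, mul_one, Complex.norm_real,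
      Real.norm_of_nonneg hu.le]
  unfold XD.kk MM
  simp only
  rw [BB_eq hc (by rw [hn]; exact h1)]
  have e1 : X.GG co ((x.2.1 : ℂ) * Complex.exp (x.2.2 * Complex.I)) =
      ((x.2.1 ^ 15 : ℝ) : ℂ) * cis (X.q x.2.2) := by
    unfold XD.GG
    rw [hn, hc.o1 _ h2]
    congr 1
    have := ang_polar (q := fun y => cis (X.q y))
      (fun y => by show cis (X.q (y + 2 * π)) = cis (X.q y); rw [h.pq, cis_add_15]) hu x.2.2
    simpa using this
  have e2 : X.WW x.1 (Complex.arg ((x.2.1 : ℂ) * Complex.exp (x.2.2 * Complex.I))) =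
      X.WW x.1 x.2.2 := ang_polar (WW_per h x.1) hu x.2.2
  rw [e1, e2, hn, hc.i1 _ h1, hc.o1 _ h2]
  push_cast
  ring

theorem hasDerivAt_WW1 (h : X.Ok) (θ ω : ℝ) :
    HasDerivAt (fun s => X.WW s ω) (∑ e, deriv (X.lam e) θ * X.mu e ω) θ := by
  unfold XD.WW
  exact HasDerivAt.fun_sum fun e _ =>
    (((h.cl e).differentiable (by norm_num)) θ).hasDerivAt.mul_const _

theorem hasDerivAt_WW2 (h : X.Ok) (θ ω : ℝ) :
    HasDerivAt (fun s => X.WW θ s) (∑ e, X.lam e θ * deriv (X.mu e) ω) ω := by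
  unfold XD.WW
  exact HasDerivAt.fun_sum fun e _ =>
    (((h.cm e).differentiable (by norm_num)) ω).hasDerivAt.const_mul _

theorem differentiableAt_MM (h : X.Ok) {t θ u ω : ℝ} (hu : 0 < u) :
    DifferentiableAt ℝ (MM X t) (θ, u, ω) := by
  unfold MM
  have hp : Differentiable ℝ X.p := h.cp.differentiable (by norm_num)
  have hq : Differentiable ℝ X.q := h.cq.differentiable (by norm_num)
  have hcis : Differentiable ℝ cis := (contDiff_cis (n := 1)).differentiable (by norm_num)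
  have hW : Differentiable ℝ fun x : P3 => X.WW x.1 x.2.2 := by
    unfold XD.WW
    refine Differentiable.fun_sum fun e _ => ?_
    have h1 : Differentiable ℝ (X.lam e) := (h.cl e).differentiable (by norm_num)
    have h2 : Differentiable ℝ (X.mu e) := (h.cm e).differentiable (by norm_num)
    exact (h1.comp (by fun_prop : Differentiable ℝ fun x : P3 => x.1)).mul
      (h2.comp (by fun_prop : Differentiable ℝ fun x : P3 => x.2.2))
  have hofR : Differentiable ℝ ((↑) : ℝ → ℂ) := Complex.ofRealCLM.differentiable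
  have hb : DifferentiableAt ℝ (fun x : P3 => bt t (x.2.1 ^ 15)) (θ, u, ω) := by
    have h1 : DifferentiableAt ℝ (bt t) (u ^ 15) := (hasDerivAt_bt (pow_pos hu 15)).differentiableAt
    exact DifferentiableAt.comp (θ, u, ω) (g := bt t) (f := fun x : P3 => x.2.1 ^ 15) h1
      (by fun_prop)
  have h3 : DifferentiableAt ℝ (fun x : P3 => ((bt t (x.2.1 ^ 15) * X.WW x.1 x.2.2 : ℝ) : ℂ))
      (θ, u, ω) := (hofR _).comp _ (hb.mul (hW _))
  have h4 : Differentiable ℝ fun x : P3 => cis (X.p x.1) := hcis.comp (hp.comp (by fun_prop))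
  have h5 : Differentiable ℝ fun x : P3 => cis (X.q x.2.2) := hcis.comp (hq.comp (by fun_prop))
  have h6 : Differentiable ℝ fun x : P3 => ((x.2.1 ^ 15 : ℝ) : ℂ) := hofR.comp (by fun_prop)
  exact ((h6 _).mul (h5 _)).add ((h4 _).sub h3)

/-- **regularity of the middle function** -/
theorem MM_onto (h : X.Ok) {t : ℝ} (ht : t ∈ Icc (0 : ℝ) 1) {θ u ω : ℝ} (hu : 0 < u)
    (h0 : MM X t (θ, u, ω) = 0) (c : ℂ) : ∃ y, fderiv ℝ (MM X t) (θ, u, ω) y = c := by
  have hy : 0 < u ^ 15 := pow_pos hu 15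
  have hofR : ∀ {f : ℝ → ℝ} {f' x : ℝ}, HasDerivAt f f' x →
      HasDerivAt (fun s => ((f s : ℝ) : ℂ)) (f' : ℂ) x := fun hf => hf.ofReal_comp
  have hp : HasDerivAt X.p (deriv X.p θ) θ := ((h.cp.differentiable (by norm_num)) θ).hasDerivAt
  have hq : HasDerivAt X.q (deriv X.q ω) ω := ((h.cq.differentiable (by norm_num)) ω).hasDerivAt
  have hcp : HasDerivAt (fun s => cis (X.p s)) (Complex.I * cis (X.p θ) * ((deriv X.p θ : ℝ) : ℂ)) θ := by
    have := (hasDerivAt_cis (X.p θ)).scomp θ hp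
    refine this.congr_deriv ?_
    rw [Complex.real_smul]
    ring
  have hcq : HasDerivAt (fun s => cis (X.q s)) (Complex.I * cis (X.q ω) * ((deriv X.q ω : ℝ) : ℂ)) ω := by
    have := (hasDerivAt_cis (X.q ω)).scomp ω hq
    refine this.congr_deriv ?_
    rw [Complex.real_smul]
    ring
  have hWn := WW_nonneg h θ ω
  have hbn := bt_nonneg ht.1 ht.2 hy.le
  have hbdn := btd_nonneg ht.1 ht.2 hy.le
  refine md_onto (Q := X.q ω) (p := X.p θ) (p' := deriv X.p θ) (q' := deriv X.q ω)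
    (B := bt t (u ^ 15) * X.WW θ ω) (By := btd t (u ^ 15) * X.WW θ ω)
    (Bt := bt t (u ^ 15) * ∑ e, deriv (X.lam e) θ * X.mu e ω)
    (Bo := bt t (u ^ 15) * ∑ e, X.lam e θ * deriv (X.mu e) ω)
    (differentiableAt_MM h hu) hu h0 ?_ ?_ ?_ (mul_nonneg hbn hWn) (mul_nonneg hbdn hWn) ?_ ?_ ?_
    ?_ c
  · show HasDerivAt (fun s => ((u ^ 15 : ℝ) : ℂ) * cis (X.q ω) +
      (cis (X.p s) - ((bt t (u ^ 15) * X.WW s ω : ℝ) : ℂ))) _ θ
    exact (hcp.sub (hofR ((hasDerivAt_WW1 h θ ω).const_mul (bt t (u ^ 15))))).const_add _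
  · show HasDerivAt (fun s => ((s ^ 15 : ℝ) : ℂ) * cis (X.q ω) +
      (cis (X.p θ) - ((bt t (s ^ 15) * X.WW θ ω : ℝ) : ℂ))) _ u
    have h1 : HasDerivAt (fun s : ℝ => s ^ 15) (15 * u ^ 14) u := by
      have := hasDerivAt_pow 15 u
      simpa using this
    have h2 : HasDerivAt (fun s : ℝ => bt t (s ^ 15)) (btd t (u ^ 15) * (15 * u ^ 14)) u :=
      HasDerivAt.comp (h₂ := bt t) (h := fun s : ℝ => s ^ 15) u (hasDerivAt_bt hy) h1
    have h3 := ((hofR h1).mul_const (cis (X.q ω))).add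
      ((hofR (h2.mul_const (X.WW θ ω))).const_sub (cis (X.p θ)))
    refine h3.congr_deriv ?_
    push_cast
    ring
  · show HasDerivAt (fun s => ((u ^ 15 : ℝ) : ℂ) * cis (X.q s) +
      (cis (X.p θ) - ((bt t (u ^ 15) * X.WW θ s : ℝ) : ℂ))) _ ω
    have h3 := (hcq.const_mul ((u ^ 15 : ℝ) : ℂ)).add
      ((hofR ((hasDerivAt_WW2 h θ ω).const_mul (bt t (u ^ 15)))).const_sub (cis (X.p θ)))
    refine h3.congr_deriv ?_
    ring
  · rw [← mul_assoc]
    exact mul_le_mul_of_nonneg_right (mul_btd_le ht.1 ht.2 hy) hWn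
  · intro hcos
    obtain ⟨h1, h2⟩ := h.V θ hcos
    refine ⟨h1, ?_⟩
    rw [Finset.sum_eq_zero fun e _ => by rw [h2 e, zero_mul], mul_zero]
  · intro hcos
    obtain ⟨h1, h2⟩ := h.W ω hcos
    refine ⟨h1, ?_⟩
    rw [Finset.sum_eq_zero fun e _ => by rw [h2 e, mul_zero], mul_zero]
  · intro hc1 hc2 h1 h2
    have h3 := bt_tangent ht.1 ht.2 hy
    rcases h.VW θ ω hc1 hc2 with hw | hw
    · have : X.WW θ ω = 0 := hw
      rw [this, mul_zero] at h1
      exact zero_ne_one h1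
    · have hw1 : 1 ≤ X.WW θ ω := hw
      have h4 : 5 / 2 * 1 ≤ (bt t (u ^ 15) + btd t (u ^ 15) * (1 - u ^ 15)) * X.WW θ ω :=
        mul_le_mul h3 hw1 zero_le_one (by linarith)
      have h5 : (bt t (u ^ 15) + btd t (u ^ 15) * (1 - u ^ 15)) * X.WW θ ω =
          bt t (u ^ 15) * X.WW θ ω + btd t (u ^ 15) * X.WW θ ω * (1 - u ^ 15) := by ring
      rw [h5, h1] at h4
      linarith

/-! ### the step -/

theorem kk_reg (h : X.Ok) (hc : CO u0 W ci co) (hs : SL ι u0 W) {t : ℝ}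
    (ht : t ∈ Icc (0 : ℝ) 1) (x : ℝ × ℂ) (h0 : X.kk ci co t x = 0) (c : ℂ) :
    ∃ y, fderiv ℝ (X.kk ci co t) x y = c := by
  obtain ⟨θ, w⟩ := x
  rcases le_or_gt ‖w‖ u0 with h1 | h1
  · exact absurd h0 (kk_ne_in h hc hs ht h1)
  rcases le_or_gt W ‖w‖ with h2 | h2
  · exact absurd h0 (kk_ne_out h hc hs ht h2)
  have hwn : 0 < ‖w‖ := hc.hu.trans h1
  let Φ : P3 → ℝ × ℂ := fun x => (x.1, (x.2.1 : ℂ) * Complex.exp (x.2.2 * Complex.I))
  have hΦ : Differentiable ℝ Φ := by fun_prop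
  set p0 : P3 := (θ, ‖w‖, Complex.arg w) with hp0
  have hΦ0 : Φ p0 = (θ, w) := by
    show (θ, (‖w‖ : ℂ) * Complex.exp (Complex.arg w * Complex.I)) = (θ, w)
    rw [Complex.norm_mul_exp_arg_mul_I]
  have hev : MM X t =ᶠ[𝓝 p0] fun x => X.kk ci co t (Φ x) := by
    have hcu : ContinuousAt (fun x : P3 => x.2.1) p0 := by fun_prop
    filter_upwards [hcu.eventually_const_lt (show u0 < p0.2.1 from h1),
      hcu.eventually_lt_const (show p0.2.1 < W from h2)] with x hx1 hx2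
    exact (kk_polar h hc hx1.le hx2.le).symm
  have hz : MM X t p0 = 0 := by
    rw [hev.self_of_nhds]
    show X.kk ci co t (Φ p0) = 0
    rw [hΦ0]
    exact h0
  obtain ⟨y, hy⟩ := MM_onto h ht hwn hz c
  have hk : DifferentiableAt ℝ (X.kk ci co t) (θ, w) := by
    have h3 := contDiff_kk h hc
    have h4 : ContDiff ℝ 2 fun x : ℝ × ℂ => X.kk ci co t x :=
      h3.comp (f := fun x : ℝ × ℂ => ((t, x) : ℝ × (ℝ × ℂ))) (by fun_prop)
    exact (h4.differentiable (by norm_num)) _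
  have h5 : HasFDerivAt (fun x => X.kk ci co t (Φ x))
      ((fderiv ℝ (X.kk ci co t) (θ, w)).comp (fderiv ℝ Φ p0)) p0 := by
    have h6 : HasFDerivAt (X.kk ci co t) (fderiv ℝ (X.kk ci co t) (θ, w)) (Φ p0) := by
      rw [hΦ0]; exact hk.hasFDerivAt
    exact h6.comp p0 (hΦ p0).hasFDerivAt
  refine ⟨fderiv ℝ Φ p0 y, ?_⟩
  have h7 := (h5.congr_of_eventuallyEq hev).fderiv
  have h8 : fderiv ℝ (X.kk ci co t) (θ, w) (fderiv ℝ Φ p0 y) =
      ((fderiv ℝ (X.kk ci co t) (θ, w)).comp (fderiv ℝ Φ p0)) y := rfl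
  rw [h8, ← h7]
  exact hy

theorem kk_per (h : X.Ok) (t θ : ℝ) (w : ℂ) :
    X.kk ci co t (θ + 2 * π, w) = X.kk ci co t (θ, w) := by
  have h1 : X.BB ci t (θ + 2 * π) w = X.BB ci t θ w := by
    unfold XD.BB
    exact Finset.sum_congr rfl fun e _ => by rw [h.pl e θ]
  unfold XD.kk
  simp only
  rw [h.pp, h1]

theorem kk_out (hc : CO u0 W ci co) {t θ : ℝ} {w : ℂ} (hw : 2 * W ≤ ‖w‖) :
    X.kk ci co t (θ, w) = w ^ 15 := by
  have hW : 0 < W := hc.hu.trans_le hc.hW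
  have h2 : u0 ≤ ‖w‖ := by linarith [hc.hW]
  unfold XD.kk XD.GG
  simp only
  rw [hc.i1 _ h2, hc.o0 _ hw]
  have e : w ^ 15 = ((‖w‖ ^ 15 : ℝ) : ℂ) * cis (15 * Complex.arg w) := by
    conv_lhs => rw [← Complex.norm_mul_exp_arg_mul_I w]
    rw [mul_pow, ← Complex.exp_nat_mul]
    unfold cis
    push_cast
    congr 2
    ring
  rw [e]
  push_cast
  have e2 : cis (0 * X.q (Complex.arg w) + (1 - 0) * (15 * Complex.arg w)) =
      cis (15 * Complex.arg w) := by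
    congr 1
    ring
  rw [e2]
  ring

/-- **the step from the profile `u^{15/2}` with inner cut-off to the harmonic profile** -/
theorem astep_kk (h : X.Ok) (hc : CO u0 W ci co) (hs : SL ι u0 W) (bo : Bool) (v : Fin 3) :
    AStep bo v (LA bo v (X.kk ci co 0)) (LA bo v (X.kk ci co 1)) := by
  refine astep_LA (k := fun t => X.kk ci co t) (contDiff_kk h hc).contDiffOn
    (fun t _ θ w => kk_per h t θ w) ⟨2 * W, fun t _ θ w hw => kk_out hc hw⟩
    fun t ht p h0 c => kk_reg h hc hs ht p h0 c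

theorem kk_zero (h : X.Ok) (hc : CO u0 W ci co) (x : ℝ × ℂ) :
    X.kk ci co 0 x = X.hE ci co (x.1, ‖x.2‖, Complex.arg x.2) := by
  unfold XD.kk XD.hE XD.GG XD.BB XD.WW pol
  simp only [sub_zero, one_mul, zero_mul, add_zero, smul_eq_mul]
  have e1 : ∑ e, X.lam e x.1 * (ci ‖x.2‖ * (5 * (‖x.2‖ ^ (15 / 2 : ℝ) *
      X.mu e (Complex.arg x.2)))) = ci ‖x.2‖ * (5 * ‖x.2‖ ^ (15 / 2 : ℝ) *
        ∑ e, X.lam e x.1 * X.mu e (Complex.arg x.2)) := by
    rw [Finset.mul_sum, Finset.mul_sum]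
    exact Finset.sum_congr rfl fun e _ => by ring
  rw [e1]
  push_cast
  ring

/-- **step (3)** -/
theorem aeq_hE (h : X.Ok) (hc : CO u0 W ci co) (hs : SL ι u0 W) (bo : Bool) (v : Fin 3) :
    AEq bo v (PA bo v (X.hE ci co)) (LA bo v (X.kk ci co 1)) := by
  have e : PA bo v (X.hE ci co) = LA bo v (X.kk ci co 0) := by
    unfold PA
    congr 1
    funext x
    exact (kk_zero h hc x).symm
  rw [e]
  exact (astep_kk h hc hs bo v).aeq

end Crest.Agent.R267.ArmExitD_502
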