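import Crest.Agent.R267.ArmExitD_502

/-!
# S0406, N2-EXIT (3) (helper502): the literal data `XV D v`; `Tgt`
-/

set_option autoImplicit false
set_option linter.unusedVariables false
set_option linter.unusedSectionVars false

noncomputable section

open Set Filter Topology Finset
open scoped Real
open Crest.Agent.R267.NdR_484 Crest.Agent.R267.NdY_484 Crest.Agent.R267.PolArm_484
open Crest.Agent.R267.Ang_739
open Crest.Agent.R267.T3aNDefs_88 (SD Hm)
open Crest.Agent.R267.GlNDefs_9 Crest.Agent.R267.WordPh_9 Crest.Agent.R267.WordPh2_9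
open Crest.Agent.R267.HubDefs_284
open Crest.Agent.R267.HarmBox_920 (HB rr)
open Crest.Agent.R267.ArmExitB_502 Crest.Agent.R267.ArmExitC_502 Crest.Agent.R267.ArmExitD_502

namespace Crest.Agent.R267.ArmExitE_502

/-! ### the literal data -/

/-- the pair boxes of `v` and `w` -/
abbrev Bv (D : SD 4) (v : Fin 3) : Type := {e : Fin D.nb // (D.bx e).S = {v.castSucc, 3}}

/-- the literal data of the arm `v` -/
def XV (D : SD 4) (v : Fin 3) : XD (Bv D v) where
  p := pp D v.castSucc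
  q := pp D 3
  lam := fun e => ww D e v.castSucc
  mu := fun e => ww D e 3

theorem sn_pm (D : SD 4) (j : Fin 4) (l : ℕ) : D.sn j l = 1 ∨ D.sn j l = -1 := by
  unfold SD.sn
  split
  · exact Or.inr rfl
  · exact Or.inl rfl

theorem mem_v {D : SD 4} {v : Fin 3} (e : Bv D v) : v.castSucc ∈ (D.bx e).S := by
  rw [e.2]; exact Finset.mem_insert_self _ _

theorem mem_3 {D : SD 4} {v : Fin 3} (e : Bv D v) : (3 : Fin 4) ∈ (D.bx e).S := by
  rw [e.2]; exact Finset.mem_insert_of_mem (Finset.mem_singleton_self _)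

section

variable {D : SD 4} (hlo : ∀ e, ∀ j ∈ (D.bx e).S, (D.bx e).lo j ≤ (D.bx e).hi j)

include hlo

theorem winA_ww {e : Fin D.nb} {j : Fin 4} (hj : j ∈ (D.bx e).S) :
    WinA (D.M j) (aE (D.M j)) (bE (D.M j)) ((D.bx e).lo j) ((D.bx e).hi j) (ww D e j) :=
  winA (arcsE (D.M j)) (hlo e j hj) (D.hhi e j hj)

/-- in-lobe points -/
theorem in_lobe (j : Fin 4) {x : ℝ} (hx : 0 ≤ Real.cos (pp D j x)) :
    deriv (pp D j) x ≠ 0 ∧ (∀ e, j ∈ (D.bx e).S → deriv (ww D e j) x = 0) ∧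
      ∃ i ≤ D.M j, ∀ e, j ∈ (D.bx e).S →
        ww D e j x = if (D.bx e).lo j < i ∧ i ≤ (D.bx e).hi j then 1 else 0 := by
  have hn : cis (pp D j x) ≠ -1 := by
    intro hc
    have := congrArg Complex.re hc
    rw [cis_re] at this
    rw [this] at hx
    norm_num at hx
  have harc := arcsE (D.M j)
  refine ⟨fun hd => hn (cis_of_deriv_zero harc (sn_pm D j) hd), fun e he => ?_, ?_⟩
  · by_contra hne
    exact hn (flat_of_wn harc (sn_pm D j) (hlo e j he) (D.hhi e j he) hne).2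
  · obtain ⟨k, y, hy1, hy2, hxy⟩ := exists_dom (aE (D.M j) 0) x
    obtain ⟨i, hi, h1, h2⟩ := exists_piece harc hy1 hy2
    refine ⟨i, hi, fun e he => ?_⟩
    rcases le_or_gt y (bE (D.M j) i) with h3 | h3
    · have h4 : ww D e j x = ww D e j y := by
        rw [hxy]
        exact wn_add_int _ _ _ _ y k
      rw [h4]
      exact wn_lobe harc (hlo e j he) (D.hhi e j he) hi h1 h3
    · exfalso
      apply hn
      rw [hxy]
      exact cis_wph_gap harc (sn_pm D j) hi h3.le h2.le k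

theorem XV_ok (hM3 : D.M 3 = 14) (hs3 : ∀ l, D.neg 3 l = false) (v : Fin 3) : (XV D v).Ok where
  cp := contDiff_wph (arcsE _)
  cq := contDiff_wph (arcsE _)
  cl := fun e => (winA_ww hlo (mem_v e)).smooth
  cm := fun e => (winA_ww hlo (mem_3 e)).smooth
  pp := fun x => by
    obtain ⟨n, hn⟩ := exists_tot (sn_pm D v.castSucc) (D.M v.castSucc)
    show cis (wph _ _ _ _ (x + 2 * π)) = cis (wph _ _ _ _ x)
    rw [wph_add, hn]
    exact cis_per _ n
  pq := fun x => by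
    show wph _ _ _ _ (x + 2 * π) = wph _ _ _ _ x + _
    rw [wph_add, hM3, tot_eq]
    have h1 : ∀ k, se (D.sn 3) k = 1 := by
      intro k
      unfold se
      split
      · rfl
      · unfold SD.sn
        rw [hs3]
        rfl
    simp only [h1, Finset.sum_const, Finset.card_range, nsmul_eq_mul, mul_one]
    push_cast
    ring
  pl := fun e => (winA_ww hlo (mem_v e)).per
  pm := fun e => (winA_ww hlo (mem_3 e)).per
  near := fun x => by
    have h1 : D.sn 3 = fun _ => 1 := by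
      funext l
      unfold SD.sn
      rw [hs3]
      rfl
    have h2 := wph_near 14 x
    show |wph (D.sn 3) (D.M 3) (aE (D.M 3)) (bE (D.M 3)) x - 15 * x| ≤ π / 2
    rw [h1, hM3]
    norm_num at h2 ⊢
    exact h2
  l0 := fun e => (winA_ww hlo (mem_v e)).nn
  l1 := fun e => (winA_ww hlo (mem_v e)).le
  m0 := fun e => (winA_ww hlo (mem_3 e)).nn
  m1 := fun e => (winA_ww hlo (mem_3 e)).le
  V := fun θ h => ⟨(in_lobe hlo _ h).1, fun e => (in_lobe hlo _ h).2.1 e (mem_v e)⟩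
  W := fun ω h => ⟨(in_lobe hlo _ h).1, fun e => (in_lobe hlo _ h).2.1 e (mem_3 e)⟩
  VW := fun θ ω h h' => by
    obtain ⟨i, -, hi⟩ := (in_lobe hlo _ h).2.2
    obtain ⟨k, -, hk⟩ := (in_lobe hlo _ h').2.2
    have h1 : ∀ e : Bv D v, (XV D v).lam e θ * (XV D v).mu e ω = 0 ∨
        (XV D v).lam e θ * (XV D v).mu e ω = 1 := by
      intro e
      show ww D e v.castSucc θ * ww D e 3 ω = 0 ∨ ww D e v.castSucc θ * ww D e 3 ω = 1
      rw [hi e (mem_v e), hk e (mem_3 e)]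
      split_ifs <;> simp
    by_cases h2 : ∃ e : Bv D v, (XV D v).lam e θ * (XV D v).mu e ω = 1
    · right
      obtain ⟨e, he⟩ := h2
      calc (1 : ℝ) = (XV D v).lam e θ * (XV D v).mu e ω := he.symm
        _ ≤ _ := Finset.single_le_sum
          (f := fun e : Bv D v => (XV D v).lam e θ * (XV D v).mu e ω)
          (fun e _ => by
            rcases h1 e with h | h
            · rw [h]
            · rw [h]; norm_num) (Finset.mem_univ e)
    · left
      push Not at h2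
      exact Finset.sum_eq_zero fun e _ => (h1 e).resolve_right (h2 e)

end

/-! ### the target in polar form -/

/-- `K` on `|v| = 1` -/
def kr {ι : Type} [Fintype ι] (X : XD ι) (x : ℝ × ℂ) : ℂ :=
  ((‖x.2‖ ^ 15 : ℝ) : ℂ) * cis (X.q (Complex.arg x.2)) +
    (cis (X.p x.1) - ((5 * (‖x.2‖ ^ 15 / (1 + ‖x.2‖ ^ 15)) * X.WW x.1 (Complex.arg x.2) : ℝ) : ℂ))

theorem BB_one {ι : Type} [Fintype ι] (X : XD ι) (ci : ℝ → ℝ) (θ : ℝ) (w : ℂ) :
    X.BB ci 1 θ w = 5 * (‖w‖ ^ 15 / (1 + ‖w‖ ^ 15)) * X.WW θ (Complex.arg w) := by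
  unfold XD.BB XD.WW pol
  rw [Finset.mul_sum]
  refine Finset.sum_congr rfl fun e _ => ?_
  rw [norm15, smul_eq_mul, smul_eq_mul]
  ring

theorem kk_one_eq {ι : Type} [Fintype ι] {X : XD ι} {u0 W : ℝ} {ci co : ℝ → ℝ}
    (hc : CO u0 W ci co) {x : ℝ × ℂ} (hx : ‖x.2‖ ≤ W) : X.kk ci co 1 x = kr X x := by
  unfold XD.kk kr XD.GG
  rw [BB_one, hc.o1 _ hx]
  push_cast
  have e1 : cis (1 * X.q (Complex.arg x.2) + (1 - 1) * (15 * Complex.arg x.2)) =
      cis (X.q (Complex.arg x.2)) := by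
    congr 1
    ring
  rw [e1]
  ring

/-- two directions with an angle `≤ π / 2` -/
theorem norm_seg {α β t : ℝ} (ht : t ∈ Icc (0 : ℝ) 1) (h : |α - β| ≤ π / 2) :
    1 / 2 ≤ ‖((1 - t : ℝ) : ℂ) * cis α + (t : ℂ) * cis β‖ := by
  have h1 : ‖((1 - t : ℝ) : ℂ) * cis α + (t : ℂ) * cis β‖ ^ 2 =
      (1 - t) ^ 2 + t ^ 2 + 2 * (1 - t) * t * Real.cos (α - β) := by
    rw [← Complex.normSq_eq_norm_sq, Complex.normSq_apply]
    simp only [Complex.add_re, Complex.add_im, Complex.mul_re, Complex.mul_im, Complex.ofReal_re,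
      Complex.ofReal_im, cis_re, cis_im, zero_mul, sub_zero, add_zero]
    rw [Real.cos_sub]
    have e1 := Real.sin_sq_add_cos_sq α
    have e2 := Real.sin_sq_add_cos_sq β
    linear_combination (1 - t) ^ 2 * e1 + t ^ 2 * e2
  have h2 : 0 ≤ Real.cos (α - β) := by
    rw [abs_le] at h
    exact Real.cos_nonneg_of_neg_pi_div_two_le_of_le h.1 h.2
  have h3 : 0 ≤ 2 * (1 - t) * t * Real.cos (α - β) :=
    mul_nonneg (mul_nonneg (by linarith [ht.2]) ht.1) h2
  have h4 : (1 / 2 : ℝ) ^ 2 ≤ ‖((1 - t : ℝ) : ℂ) * cis α + (t : ℂ) * cis β‖ ^ 2 := by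
    rw [h1]
    nlinarith [sq_nonneg (1 - 2 * t)]
  exact (pow_le_pow_iff_left₀ (by norm_num) (norm_nonneg _) (by norm_num)).1 h4

/-- the segment from `kk 1` to `kr` for large `‖w‖` -/
theorem seg_ne {ι : Type} [Fintype ι] {X : XD ι} (h : X.Ok) {u0 W : ℝ} {ci co : ℝ → ℝ}
    (hc : CO u0 W ci co) (hs : SL ι u0 W) {x : ℝ × ℂ} (hx : W ≤ ‖x.2‖) {t : ℝ}
    (ht : t ∈ Icc (0 : ℝ) 1) :
    ((1 - t : ℝ) : ℂ) * X.kk ci co 1 x + (t : ℂ) * kr X x ≠ 0 := by
  intro h0
  have hW : 0 < W := hc.hu.trans_le hc.hW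
  set y := ‖x.2‖ ^ 15 with hy
  have hypos : 0 < y := pow_pos (hW.trans_le hx) 15
  set s := co ‖x.2‖ with hsdef
  have hs0 : 0 ≤ s := hc.on0 _
  have hs1 : s ≤ 1 := hc.on1 _
  set al := s * X.q (Complex.arg x.2) + (1 - s) * (15 * Complex.arg x.2) with hal
  set Z : ℂ := cis (X.p x.1) - (X.BB ci 1 x.1 x.2 : ℂ) with hZ
  have e1 : X.kk ci co 1 x = ((y : ℝ) : ℂ) * cis al + (s : ℂ) * Z := by
    unfold XD.kk XD.GG
    rw [← hsdef, ← hal, ← hy, ← hZ]
    push_cast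
    ring
  have e2 : kr X x = ((y : ℝ) : ℂ) * cis (X.q (Complex.arg x.2)) + Z := by
    unfold kr
    rw [hZ, BB_one]
  rw [e1, e2] at h0
  have e3 : ((y : ℝ) : ℂ) * (((1 - t : ℝ) : ℂ) * cis al + (t : ℂ) * cis (X.q (Complex.arg x.2))) =
      -((((1 - t) * s + t : ℝ) : ℂ) * Z) := by
    push_cast at h0 ⊢
    linear_combination h0
  have hang : |al - X.q (Complex.arg x.2)| ≤ π / 2 := by
    have : al - X.q (Complex.arg x.2) =
        -((1 - s) * (X.q (Complex.arg x.2) - 15 * Complex.arg x.2)) := by rw [hal]; ring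
    rw [this, abs_neg, abs_mul, abs_of_nonneg (by linarith : (0 : ℝ) ≤ 1 - s)]
    have h2 := h.near (Complex.arg x.2)
    have h3 : (1 - s) * |X.q (Complex.arg x.2) - 15 * Complex.arg x.2| ≤
        1 * |X.q (Complex.arg x.2) - 15 * Complex.arg x.2| :=
      mul_le_mul_of_nonneg_right (by linarith) (abs_nonneg _)
    linarith
  have h1 := norm_seg ht hang
  have h2 := congrArg norm e3
  rw [norm_mul, norm_neg, norm_mul, Complex.norm_real, Complex.norm_real,
    Real.norm_of_nonneg hypos.le,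
    Real.norm_of_nonneg (by nlinarith [ht.1, ht.2] : (0 : ℝ) ≤ (1 - t) * s + t)] at h2
  have h1t : (1 : ℝ) ∈ Icc (0 : ℝ) 1 := ⟨zero_le_one, le_rfl⟩
  have hb0 := BB_nonneg h hc h1t x.1 x.2
  have hb1 := BB_le h hc h1t x.1 x.2
  rw [← hy] at hb1
  have hZn : ‖Z‖ ≤ 1 + X.BB ci 1 x.1 x.2 := by
    have := norm_sub_le (cis (X.p x.1)) (X.BB ci 1 x.1 x.2 : ℂ)
    rwa [norm_cis, Complex.norm_real, Real.norm_of_nonneg hb0] at this
  have hl := hs.l _ hx
  rw [← hy] at hl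
  have h3 : ((1 - t) * s + t) * ‖Z‖ ≤ 1 * ‖Z‖ := by
    refine mul_le_mul_of_nonneg_right ?_ (norm_nonneg _)
    nlinarith [ht.1, ht.2]
  have h4 : y * (1 / 2) ≤ y * ‖((1 - t : ℝ) : ℂ) * cis al +
      (t : ℂ) * cis (X.q (Complex.arg x.2))‖ := mul_le_mul_of_nonneg_left h1 hypos.le
  linarith

end Crest.Agent.R267.ArmExitE_502
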