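import Crest.Agent.R267.ArmExitE_502

/-!
# S0406, N2-EXIT (3) (helper502): `Tgt` of the end of the path
-/

set_option autoImplicit false
set_option linter.unusedVariables false
set_option linter.unusedSectionVars false

noncomputable section

open Set Filter Topology Finset
open scoped Real
open Crest.Agent.R267.NdR_484 Crest.Agent.R267.NdY_484 Crest.Agent.R267.PolArm_484
open Crest.Agent.R267.Ang_739
open Crest.Agent.R267.T3aNDefs_88 (SD Hm)
open Crest.Agent.R267.GlNDefs_9 Crest.Agent.R267.WordPh_9 Crest.Agent.R267.WordPh2_9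
open Crest.Agent.R267.HubDefs_284
open Crest.Agent.R267.HarmBox_920 (HB rr HB_zero Hm_zero)
open Crest.Agent.R267.ArmExitB_502 Crest.Agent.R267.ArmExitC_502 Crest.Agent.R267.ArmExitD_502
open Crest.Agent.R267.ArmExitE_502

namespace Crest.Agent.R267.ArmExitF_502

variable {D : SD 4} {v : Fin 3}

theorem v_ne (v : Fin 3) : v.castSucc ≠ (3 : Fin 4) := by
  fin_cases v <;> decide

theorem D0_v (b : Bool) (v : Fin 3) : D0 b v.castSucc = 15 / (aw b v : ℝ) := by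
  cases b <;> fin_cases v <;> norm_num [D0, aw]

theorem D0_3 (b : Bool) : D0 b 3 = 15 := by
  cases b <;> rfl

theorem D0_ne (b : Bool) (j : Fin 4) : D0 b j ≠ 0 := by
  cases b <;> fin_cases j <;> norm_num [D0]

theorem pt_v (v : Fin 3) (q : ℂ × ℂ) : pt v q v.castSucc = q.1 := by
  unfold pt
  rw [Function.update_of_ne (v_ne v), Function.update_self]

theorem pt_3 (v : Fin 3) (q : ℂ × ℂ) : pt v q 3 = q.2 := by
  unfold pt
  rw [Function.update_self]

theorem pt_0 {v : Fin 3} (q : ℂ × ℂ) {j : Fin 4} (h1 : j ≠ v.castSucc) (h2 : j ≠ 3) :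
    pt v q j = 0 := by
  unfold pt
  rw [Function.update_of_ne h2, Function.update_of_ne h1]
  rfl

theorem pc_apply (d : ℝ) (φ : ℝ → ℝ) (z : ℂ) :
    pc d 1 φ z = ((‖z‖ ^ d : ℝ) : ℂ) * cis (φ (Complex.arg z)) := by
  unfold pc pol
  rw [Complex.real_smul]
  push_cast
  ring

theorem pc_zero {d : ℝ} (hd : d ≠ 0) (φ : ℝ → ℝ) : pc d 1 φ 0 = 0 := pol_zero hd _

theorem own_pt (b : Bool) (D : SD 4) (v : Fin 3) (q : ℂ × ℂ) :
    own D (D0 b) (pt v q) =
      ((‖q.1‖ ^ (15 / (aw b v : ℝ)) : ℝ) : ℂ) * cis (pp D v.castSucc (Complex.arg q.1)) +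
        ((‖q.2‖ ^ 15 : ℝ) : ℂ) * cis (pp D 3 (Complex.arg q.2)) := by
  unfold own
  rw [Fintype.sum_eq_add v.castSucc 3 (v_ne v)]
  · rw [pt_v, pt_3, D0_v, D0_3, pc_apply, pc_apply, norm15]
  · rintro j ⟨h1, h2⟩
    rw [pt_0 q h1 h2, pc_zero (D0_ne b j)]

/-- the harmonic profile -/
theorem Hm_pair {R : Fin 4 → ℝ} {i j : Fin 4} (hij : i ≠ j) (hi : 0 ≤ R i) (hj : 0 ≤ R j) :
    Hm {i, j} R = R i * R j / (R i + R j) := by
  rcases hi.lt_or_eq with h1 | h1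
  · rcases hj.lt_or_eq with h2 | h2
    · unfold Hm
      rw [if_pos, Finset.sum_pair hij]
      · field_simp
        ring
      · intro k hk
        rcases Finset.mem_insert.1 hk with rfl | hk
        · exact h1
        · rw [Finset.mem_singleton.1 hk]
          exact h2
    · rw [Hm_zero (j := j) (by simp) h2.symm.le, ← h2]
      simp
  · rw [Hm_zero (j := i) (by simp) h1.symm.le, ← h1]
    simp

theorem boxH_pt (b : Bool) (D : SD 4) (v : Fin 3) (q : ℂ × ℂ) :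
    boxH D (D0 b) (pt v q) =
      5 * (‖q.1‖ ^ (15 / (aw b v : ℝ)) * ‖q.2‖ ^ 15 /
        (‖q.1‖ ^ (15 / (aw b v : ℝ)) + ‖q.2‖ ^ 15)) *
        (XV D v).WW (Complex.arg q.1) (Complex.arg q.2) := by
  unfold boxH
  have h1 : ∀ e : Fin D.nb, (D.bx e).S ≠ {v.castSucc, 3} →
      cd D e * cc D e * HB (D.bx e).S (D0 b) (ww D e) (pt v q) = 0 := by
    intro e he
    obtain ⟨j, hj, hj1, hj2⟩ : ∃ j ∈ (D.bx e).S, j ≠ v.castSucc ∧ j ≠ 3 := by
      by_contra hcon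
      push Not at hcon
      apply he
      have hsub : (D.bx e).S ⊆ {v.castSucc, 3} := by
        intro j hj
        by_cases h : j = v.castSucc
        · simp [h]
        · simp [hcon j hj h]
      refine Finset.eq_of_subset_of_card_le hsub ?_
      rw [Finset.card_pair (v_ne v)]
      exact D.h2 e
    rw [HB_zero (ww D e) hj (D0_ne b j) (pt_0 q hj1 hj2), mul_zero]
  have h2 : ∑ e, cd D e * cc D e * HB (D.bx e).S (D0 b) (ww D e) (pt v q) =
      ∑ e ∈ univ.filter (fun e => (D.bx e).S = {v.castSucc, 3}),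
        cd D e * cc D e * HB (D.bx e).S (D0 b) (ww D e) (pt v q) := by
    rw [Finset.sum_filter]
    refine Finset.sum_congr rfl fun e _ => ?_
    split_ifs with h
    · rfl
    · exact h1 e h
  rw [h2]
  have h3 : (XV D v).WW (Complex.arg q.1) (Complex.arg q.2) =
      ∑ e ∈ univ.filter (fun e => (D.bx e).S = {v.castSucc, 3}),
        ww D e v.castSucc (Complex.arg q.1) * ww D e 3 (Complex.arg q.2) := by
    rw [← Finset.sum_subtype_eq_sum_filter]
    unfold XD.WW XV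
    simp
  rw [h3, Finset.mul_sum]
  refine Finset.sum_congr rfl fun e he => ?_
  have he' : (D.bx e).S = {v.castSucc, 3} := (Finset.mem_filter.1 he).2
  have hcard : (D.bx e).S.card = 2 := by rw [he', Finset.card_pair (v_ne v)]
  have hcd : cd D e = 2 := by unfold cd; rw [hcard]; norm_num
  have hcc : cc D e = 5 / 2 := by unfold cc; rw [if_pos hcard]
  unfold HarmBox_920.HB
  rw [he', hcd, hcc, Finset.prod_pair (v_ne v), Hm_pair (v_ne v)
    (HarmBox_920.rr_nonneg _ _ _) (HarmBox_920.rr_nonneg _ _ _)]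
  unfold HarmBox_920.rr
  rw [pt_v, pt_3, D0_v, D0_3, norm15]
  ring

/-- **`kX` in polar form** -/
theorem kX_eq (b : Bool) (D : SD 4) (v : Fin 3) (q : ℂ × ℂ) : kX b D v q =
    ((‖q.1‖ ^ (15 / (aw b v : ℝ)) : ℝ) : ℂ) * cis (pp D v.castSucc (Complex.arg q.1)) +
        ((‖q.2‖ ^ 15 : ℝ) : ℂ) * cis (pp D 3 (Complex.arg q.2)) -
      ((5 * (‖q.1‖ ^ (15 / (aw b v : ℝ)) * ‖q.2‖ ^ 15 /
        (‖q.1‖ ^ (15 / (aw b v : ℝ)) + ‖q.2‖ ^ 15)) *
        (XV D v).WW (Complex.arg q.1) (Complex.arg q.2) : ℝ) : ℂ) := by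
  unfold kX EX
  rw [own_pt, boxH_pt]

/-- **scaling of `kX`** -/
theorem kX_scale (b : Bool) (D : SD 4) (v : Fin 3) {u : ℂ} (w : ℂ) (hu : u ≠ 0) :
    kX b D v (u, w) = ((‖u‖ ^ (15 / (aw b v : ℝ)) : ℝ) : ℂ) *
      kr (XV D v) (Complex.arg u, ((‖u‖ ^ (-(1 / (aw b v : ℝ))) : ℝ) : ℂ) * w) := by
  have ha := aw_pos b v
  have hun : 0 < ‖u‖ := norm_pos_iff.2 hu
  have ep : (XV D v).p = pp D v.castSucc := rfl
  have eq : (XV D v).q = pp D 3 := rfl
  rw [kX_eq]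
  unfold kr
  simp only
  rw [ep, eq]
  set R : ℝ := ‖u‖ ^ (15 / (aw b v : ℝ)) with hR
  set ρ : ℝ := ‖u‖ ^ (-(1 / (aw b v : ℝ))) with hρ
  have hRp : 0 < R := Real.rpow_pos_of_pos hun _
  have hρp : 0 < ρ := Real.rpow_pos_of_pos hun _
  have hRρ : R * ρ ^ 15 = 1 := by
    rw [hR, hρ, ← Real.rpow_natCast (‖u‖ ^ (-(1 / (aw b v : ℝ)))) 15, ← Real.rpow_mul hun.le,
      ← Real.rpow_add hun]
    have : 15 / (aw b v : ℝ) + -(1 / (aw b v : ℝ)) * ((15 : ℕ) : ℝ) = 0 := by push_cast; ring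
    rw [this, Real.rpow_zero]
  have harg : Complex.arg ((ρ : ℂ) * w) = Complex.arg w := Complex.arg_real_mul w hρp
  have hn : ‖(ρ : ℂ) * w‖ = ρ * ‖w‖ := by
    rw [norm_mul, Complex.norm_real, Real.norm_of_nonneg hρp.le]
  rw [harg, hn, mul_pow]
  set y := ‖w‖ ^ 15 with hy
  have hy0 : 0 ≤ y := by positivity
  set r := ρ ^ 15 with hr
  have hrp : 0 < r := pow_pos hρp 15
  have e1 : R * y / (R + y) = R * (r * y / (1 + r * y)) := by
    have hR1 : R = 1 / r := by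
      rw [eq_div_iff hrp.ne']
      exact hRρ
    rw [hR1]
    have h3 : 1 / r + y ≠ 0 := by positivity
    have h4 : 1 + r * y ≠ 0 := by positivity
    field_simp
  have e2 : y = R * (r * y) := by
    rw [← mul_assoc, hRρ, one_mul]
  rw [e1]
  have e3 : ((y : ℝ) : ℂ) = (R : ℂ) * ((r * y : ℝ) : ℂ) := by
    rw [← Complex.ofReal_mul]
    congr 1
  rw [e3]
  push_cast
  ring

theorem LA_scale (b : Bool) (v : Fin 3) (k : ℝ × ℂ → ℂ) {u : ℂ} (w : ℂ) (hu : u ≠ 0) :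
    w ^ 15 + LA b v k (u, w) = ((‖u‖ ^ (15 / (aw b v : ℝ)) : ℝ) : ℂ) *
      k (Complex.arg u, ((‖u‖ ^ (-(1 / (aw b v : ℝ))) : ℝ) : ℂ) * w) := by
  unfold LA
  rw [if_neg hu]
  ring

/-- comparison of `‖w‖ ^ a` with `W ^ a ‖u‖` -/
theorem le_iff (b : Bool) (v : Fin 3) {W : ℝ} (hW : 0 < W) {u : ℂ} (w : ℂ) (hu : u ≠ 0) :
    ‖w‖ ^ aw b v ≤ W ^ aw b v * ‖u‖ ↔
      ‖((‖u‖ ^ (-(1 / (aw b v : ℝ))) : ℝ) : ℂ) * w‖ ≤ W := by
  have ha := aw_pos b v
  have hun : 0 < ‖u‖ := norm_pos_iff.2 hu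
  set ρ : ℝ := ‖u‖ ^ (-(1 / (aw b v : ℝ))) with hρ
  have hρp : 0 < ρ := Real.rpow_pos_of_pos hun _
  have ha' : aw b v ≠ 0 := by
    intro h
    rw [h] at ha
    simp at ha
  have hρa : ρ ^ aw b v * ‖u‖ = 1 := by
    rw [hρ, ← Real.rpow_natCast (‖u‖ ^ (-(1 / (aw b v : ℝ)))) (aw b v), ← Real.rpow_mul hun.le]
    have : -(1 / (aw b v : ℝ)) * (aw b v : ℝ) = -1 := by field_simp
    rw [this, Real.rpow_neg_one, inv_mul_cancel₀ hun.ne']
  have hn : ‖(ρ : ℂ) * w‖ = ρ * ‖w‖ := by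
    rw [norm_mul, Complex.norm_real, Real.norm_of_nonneg hρp.le]
  rw [hn]
  have h1 : ρ * ‖w‖ ≤ W ↔ (ρ * ‖w‖) ^ aw b v ≤ W ^ aw b v :=
    (pow_le_pow_iff_left₀ (by positivity) hW.le ha').symm
  rw [h1, mul_pow]
  have hra : 0 < ρ ^ aw b v := pow_pos hρp _
  constructor
  · intro h
    calc ρ ^ aw b v * ‖w‖ ^ aw b v ≤ ρ ^ aw b v * (W ^ aw b v * ‖u‖) :=
          mul_le_mul_of_nonneg_left h hra.le
      _ = W ^ aw b v * (ρ ^ aw b v * ‖u‖) := by ring
      _ = W ^ aw b v := by rw [hρa, mul_one]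
  · intro h
    have h2 := mul_le_mul_of_nonneg_right h hun.le
    calc ‖w‖ ^ aw b v = ρ ^ aw b v * ‖u‖ * ‖w‖ ^ aw b v := by rw [hρa, one_mul]
      _ = ρ ^ aw b v * ‖w‖ ^ aw b v * ‖u‖ := by ring
      _ ≤ _ := h2

/-- **the target** -/
theorem tgt (hX : (XV D v).Ok) {u0 W : ℝ} {ci co : ℝ → ℝ} (hc : CO u0 W ci co)
    (hs : SL (Bv D v) u0 W) (b : Bool) : Tgt b D v (LA b v ((XV D v).kk ci co 1)) := by
  have hW : 0 < W := hc.hu.trans_le hc.hW
  have ha := aw_pos b v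
  have ha' : aw b v ≠ 0 := by
    intro h
    rw [h] at ha
    simp at ha
  refine ⟨W ^ aw b v, pow_pos hW _, fun u w h => ?_, fun u w h t ht => ?_⟩
  · by_cases hu : u = 0
    · subst hu
      have hw : w = 0 := by
        rw [norm_zero, mul_zero] at h
        have h1 : ‖w‖ ^ aw b v = 0 := le_antisymm h (by positivity)
        exact norm_eq_zero.1 (pow_eq_zero_iff ha' |>.1 h1)
      subst hw
      rw [kX_eq]
      unfold LA
      have h15 : (15 / (aw b v : ℝ)) ≠ 0 := by positivity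
      simp [Real.zero_rpow h15]
    · rw [LA_scale b v _ w hu, kX_scale b D v w hu]
      congr 1
      exact kk_one_eq hc ((le_iff b v hW w hu).1 h)
  · rw [Complex.real_smul, Complex.real_smul]
    by_cases hu : u = 0
    · subst hu
      intro h0
      have hw : 0 < ‖w‖ := by
        rw [norm_zero, mul_zero] at h
        by_contra hcon
        have h1 : ‖w‖ = 0 := le_antisymm (not_lt.1 hcon) (norm_nonneg _)
        rw [h1, zero_pow ha'] at h
        exact lt_irrefl _ h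
      have h15 : (15 / (aw b v : ℝ)) ≠ 0 := by positivity
      rw [kX_eq] at h0
      unfold LA at h0
      simp only [norm_zero, Real.zero_rpow h15, if_pos, add_zero, zero_mul, zero_add, zero_div,
        mul_zero, Complex.ofReal_zero, sub_zero] at h0
      have e : w ^ 15 = ((‖w‖ ^ 15 : ℝ) : ℂ) * cis (15 * Complex.arg w) := by
        conv_lhs => rw [← Complex.norm_mul_exp_arg_mul_I w]
        rw [mul_pow, ← Complex.exp_nat_mul]
        unfold cis
        push_cast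
        congr 2
        ring
      rw [e] at h0
      have h1 : ((‖w‖ ^ 15 : ℝ) : ℂ) * (((1 - t : ℝ) : ℂ) * cis (15 * Complex.arg w) +
          (t : ℂ) * cis (pp D 3 (Complex.arg w))) = 0 := by
        linear_combination h0
      have h2 : |15 * Complex.arg w - pp D 3 (Complex.arg w)| ≤ π / 2 := by
        rw [abs_sub_comm]
        exact hX.near _
      have h3 := norm_seg ht h2
      rcases mul_eq_zero.1 h1 with h4 | h4
      · have : ‖w‖ ^ 15 = 0 := by exact_mod_cast h4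
        exact absurd this (pow_pos hw 15).ne'
      · rw [h4, norm_zero] at h3
        linarith
    · rw [LA_scale b v _ w hu, kX_scale b D v w hu]
      intro h0
      have hun : 0 < ‖u‖ := norm_pos_iff.2 hu
      have hRp : 0 < ‖u‖ ^ (15 / (aw b v : ℝ)) := Real.rpow_pos_of_pos hun _
      have h1 : W ≤ ‖((‖u‖ ^ (-(1 / (aw b v : ℝ))) : ℝ) : ℂ) * w‖ := by
        by_contra hcon
        exact absurd ((le_iff b v hW w hu).2 (not_le.1 hcon).le) (not_le.2 h)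
      refine seg_ne hX hc hs (x := (Complex.arg u,
        ((‖u‖ ^ (-(1 / (aw b v : ℝ))) : ℝ) : ℂ) * w)) h1 ht ?_
      have h2 : ((‖u‖ ^ (15 / (aw b v : ℝ)) : ℝ) : ℂ) ≠ 0 := by exact_mod_cast hRp.ne'
      refine (mul_eq_zero.1 (?_ : ((‖u‖ ^ (15 / (aw b v : ℝ)) : ℝ) : ℂ) * _ = 0)).resolve_left h2
      linear_combination h0

/-- **EXIT, second half.** -/
theorem exit3 (hlo : ∀ e, ∀ j ∈ (D.bx e).S, (D.bx e).lo j ≤ (D.bx e).hi j) (hM3 : D.M 3 = 14)
    (hs3 : ∀ l, D.neg 3 l = false) (v : Fin 3) :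
    ∃ u1 : ℝ, 0 < u1 ∧ ∃ W1 : ℝ, 1 ≤ W1 ∧ ∀ (u0 W : ℝ) (ci co : ℝ → ℝ), u0 ≤ u1 → W1 ≤ W →
      CO u0 W ci co → ∀ b : Bool,
        ∃ A, AEq b v (PA b v ((XV D v).hE ci co)) A ∧ Tgt b D v A := by
  obtain ⟨u1, h1, W1, h2, h3, H⟩ := exists_SL (Bv D v)
  refine ⟨u1, h1, W1, h2, fun u0 W ci co hu hW hc b => ?_⟩
  have hX := XV_ok hlo hM3 hs3 v
  have hs := H u0 W hu hW
  exact ⟨_, aeq_hE hX hc hs b v, tgt hX hc hs b⟩

end Crest.Agent.R267.ArmExitF_502
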