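import Crest.Agent.R267.Ang_739
import Crest.Agent.R267.HmD_951
import Crest.Agent.R267.LemLF_951

/-!
# Row 267 (helper407): T3b of #2295 (helper855), definitions and the Props of the steps

Order of #2295: `z 0` = head of the chain (pure power), couplings `e : Fin n` between
`x = z e.castSucc` and `y = z e.succ`; exponents `a : Fin (n+1) → ℕ` strictly decreasing, `≥ 2`.

* `GF Q g h z = ∑ i, Q i (z i) - ∑ e, g e (z e.castSucc) * h e (z e.succ)`: every function of T3b;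
* `LD n`: lobe data, `X.st a j` = state `j` (variables `0..j` processed), `X.Ok a j` its properties;
* `X.mid a j Y η H`: the functions of the step `j → j + 1`
  (`Q (j+1) = Y`, coupling `η (z j) * H (z (j+1))`);
* Props of the steps `S0P` (= `PathP`), `S1P`, `S2P`, `S3P`, `S4P`, `BaseP`, `AlignP`, result `T3bP`.
-/

set_option autoImplicit false

noncomputable section

open Crest.Agent.R267.Ang_739 Crest.Agent.R267.Hm_951 Crest.Agent.R267.LemL_951
open Crest.Agent.R267.Sys_808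

namespace Crest.Agent.R267.LobeDefs_407

/-- sum of planar pieces minus products of neighbours -/
def GF {n : ℕ} (Q : Fin (n + 1) → ℂ → ℂ) (g h : Fin n → ℂ → ℂ) (z : Fin (n + 1) → ℂ) : ℂ :=
  ∑ i, Q i (z i) - ∑ e : Fin n, g e (z e.castSucc) * h e (z e.succ)

/-- number of lobes of circle `i` (degree of the phase) -/
def dg {n : ℕ} (a : Fin (n + 1) → ℕ) (i : Fin (n + 1)) : ℕ := if i = 0 then a i else a i + 1

/-- phases of degree `d` -/
structure Pha (d : ℕ) (φ : ℝ → ℝ) : Prop where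
  smooth : ContDiff ℝ 2 φ
  deg : Deg d φ
  pos : ∀ x, 0 < deriv φ x

/-- level functions of period `2 π d` with values in `[0,1]`, flat where `cos ≥ 0` -/
structure Lev (d : ℕ) (l : ℝ → ℝ) : Prop where
  smooth : ContDiff ℝ 2 l
  per : ∀ x, l (x + 2 * Real.pi * d) = l x
  nn : ∀ x, 0 ≤ l x
  le : ∀ x, l x ≤ 1
  flat : ∀ x, 0 ≤ Real.cos x → deriv l x = 0

/-- lobe data: degrees, sizes and phases of the circles; constant, degrees and level functions of
the couplings (`lam e` on circle `e.castSucc`, `bet e` on circle `e.succ`). -/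
structure LD (n : ℕ) where
  D : Fin (n + 1) → ℝ
  ep : Fin (n + 1) → ℝ
  ph : Fin (n + 1) → ℝ → ℝ
  c : Fin n → ℝ
  p : Fin n → ℝ
  m : Fin n → ℝ
  lam : Fin n → ℝ → ℝ
  bet : Fin n → ℝ → ℝ

variable {n : ℕ}

/-- the piece `ε |z| ^ D e^{iφ}` -/
def LD.Q (X : LD n) (i : Fin (n + 1)) : ℂ → ℂ := pc (X.D i) (X.ep i) (X.ph i)

/-- the factor of the coupling `e` in `x = z e.castSucc` -/
def LD.g (X : LD n) (e : Fin n) (z : ℂ) : ℝ :=
  X.c e * pol (X.p e) (fun x => X.lam e (X.ph e.castSucc x)) z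

/-- the factor of the coupling `e` in `y = z e.succ` -/
def LD.h (X : LD n) (e : Fin n) (z : ℂ) : ℝ := pol (X.m e) (fun x => X.bet e (X.ph e.succ x)) z

/-- the functions of the step `j → j + 1` -/
def LD.mid (X : LD n) (a : Fin (n + 1) → ℕ) (j : ℕ) (Y η H : ℂ → ℂ) : (Fin (n + 1) → ℂ) → ℂ :=
  GF (fun i => if (i : ℕ) ≤ j then X.Q i else if (i : ℕ) = j + 1 then Y else 0)
    (fun e => if (e : ℕ) < j then (fun z => (X.g e z : ℂ)) else if (e : ℕ) = j then η else id)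
    (fun e => if (e : ℕ) < j then (fun z => (X.h e z : ℂ)) else if (e : ℕ) = j then H else
      fun z => z ^ a e.succ)

/-- state `j`: the variables `0..j` are processed, the others have the polynomial couplings. -/
def LD.st (X : LD n) (a : Fin (n + 1) → ℕ) (j : ℕ) : (Fin (n + 1) → ℂ) → ℂ :=
  GF (fun i => if (i : ℕ) ≤ j then X.Q i else 0)
    (fun e => if (e : ℕ) < j then (fun z => (X.g e z : ℂ)) else id)
    (fun e => if (e : ℕ) < j then (fun z => (X.h e z : ℂ)) else fun z => z ^ a e.succ)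

/-- properties of the lobe data of state `j`. -/
structure LD.Ok (X : LD n) (a : Fin (n + 1) → ℕ) (j : ℕ) : Prop where
  hD : ∀ i : Fin (n + 1), (i : ℕ) ≤ j → 2 < X.D i
  hep : ∀ i : Fin (n + 1), (i : ℕ) ≤ j → 0 < X.ep i
  hph : ∀ i : Fin (n + 1), (i : ℕ) ≤ j → Pha (dg a i) (X.ph i)
  hc : ∀ e : Fin n, (e : ℕ) < j → 0 < X.c e
  hp : ∀ e : Fin n, (e : ℕ) < j → 2 < X.p e
  hm : ∀ e : Fin n, (e : ℕ) < j → 2 < X.m e
  sum : ∀ e : Fin n, (e : ℕ) < j → X.p e / X.D e.castSucc + X.m e / X.D e.succ = 1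
  nc : ∀ e : Fin n, (e : ℕ) < j →
    X.ep e.castSucc ^ (X.p e / X.D e.castSucc) * X.ep e.succ ^ (X.m e / X.D e.succ) <
      (X.p e / X.D e.castSucc) ^ (X.p e / X.D e.castSucc) *
        (X.m e / X.D e.succ) ^ (X.m e / X.D e.succ) * X.c e
  hlam : ∀ e : Fin n, (e : ℕ) < j → Lev (dg a e.castSucc) (X.lam e)
  hbet : ∀ e : Fin n, (e : ℕ) < j → Lev (dg a e.succ) (X.bet e)
  lam1 : ∀ e : Fin n, (e : ℕ) < j → ∀ k < dg a e.castSucc, ∀ x : ℝ,
    |x - 2 * Real.pi * (k + 1)| ≤ Real.pi / 2 → X.lam e x = if dg a e.succ ≤ k then 1 else 0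
  bet1 : ∀ e : Fin n, (e : ℕ) < j → ∀ k < dg a e.succ, ∀ x : ℝ,
    |x - 2 * Real.pi * (k + 1)| ≤ Real.pi / 2 → X.bet e x = if k + 1 = dg a e.succ then 1 else 0

/-! ### the step `j → j + 1`, `x = z j`, `y = z (j+1)`, `b = a (j+1)`, `d = b + 1` -/

/-- aligned data at `j` (`x = z j` of degree `d * P`), `d` = number of lobes of the next circle:
outside `|ξ| ≤ π / 3d` the phase of `x` is `d ξ + π`, and `2 ε < (1/d) ((d-1)/d)^(d-1)`. -/
structure LD.Al (X : LD n) (a : Fin (n + 1) → ℕ) (j d : ℕ) (P : ℝ) : Prop where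
  ok : X.Ok a j
  deg : ∀ i : Fin (n + 1), (i : ℕ) = j → X.D i = d * P
  ph : ∀ i : Fin (n + 1), (i : ℕ) = j → ∀ x : ℝ, Real.pi / (3 * d) ≤ x →
    x ≤ 2 * Real.pi - Real.pi / (3 * d) → X.ph i x = d * x + Real.pi
  ep : ∀ i : Fin (n + 1), (i : ℕ) = j →
    2 * X.ep i < (1 / (d : ℝ)) * (((d : ℝ) - 1) / d) ^ (d - 1)

/-- the angular cut-off in the variable `x`, as a function of `ξ` -/
structure CutX (d : ℕ) (l : ℝ → ℝ) : Prop where
  smooth : ContDiff ℝ 2 l
  per : Per l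
  nn : ∀ x, 0 ≤ l x
  le : ∀ x, l x ≤ 1
  one : ∀ x, |x| ≤ Real.pi / (3 * d) → l x = 1
  zero : ∀ x, Real.pi / (2 * d) ≤ x → x ≤ 2 * Real.pi - Real.pi / (2 * d) → l x = 0

/-- the angular cut-off in the variable `y`, as a function of `ξ` -/
structure CutY (d : ℕ) (l : ℝ → ℝ) : Prop where
  smooth : ContDiff ℝ 2 l
  per : Per l
  nn : ∀ x, 0 ≤ l x
  le : ∀ x, l x ≤ 1
  one : ∀ x, |x| ≤ Real.pi / (2 * d) → l x = 1
  zero : ∀ x, Real.pi / (2 * d) < |x| → |x| ≤ Real.pi → l x = 0 ∨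
    (Real.cos (d * x) < 0 ∧ 1 ≤ (2 * (d : ℝ) - 1) * Real.cos (((d : ℝ) - 1) * x))

/-- change of the power of the variable `j` by the factor `P` -/
def LD.pow (X : LD n) (j : ℕ) (P : ℝ) : LD n :=
  { X with
    D := fun i => if (i : ℕ) = j then P * X.D i else X.D i
    m := fun e => if (e : ℕ) + 1 = j then P * X.m e else X.m e }

/-- the data of state `j + 1` obtained from the data of state `j`: the last coupling has constant
`1`, degrees `P` and `(d-1) P'`, level functions `l`, `b`; the new circle has `ε = 1`, degree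
`d P'`, phase `d ξ`. -/
def LD.next (X : LD n) (j d : ℕ) (P P' : ℝ) (l b : ℝ → ℝ) : LD n where
  D := fun i => if (i : ℕ) = j + 1 then d * P' else X.D i
  ep := fun i => if (i : ℕ) = j + 1 then 1 else X.ep i
  ph := fun i => if (i : ℕ) = j + 1 then fun x => d * x else X.ph i
  c := fun e => if (e : ℕ) = j then 1 else X.c e
  p := fun e => if (e : ℕ) = j then P else X.p e
  m := fun e => if (e : ℕ) = j then ((d : ℝ) - 1) * P' else X.m e
  lam := fun e => if (e : ℕ) = j then l else X.lam e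
  bet := fun e => if (e : ℕ) = j then b else X.bet e

/-- standing assumptions on the exponents -/
structure Exps (a : Fin (n + 1) → ℕ) : Prop where
  anti : StrictAnti a
  two : ∀ i, 2 ≤ a i

/-- the power `z |z|^(P-1)` -/
def pw (P : ℝ) (z : ℂ) : ℂ := ((‖z‖ ^ (P - 1) : ℝ) : ℂ) * z

/-- **S0 / path lemma**: all lobe data of state `j` are equivalent (and tame). -/
def PathP (a : Fin (n + 1) → ℕ) (j : ℕ) : Prop :=
  (∀ X : LD n, X.Ok a j → Tame (X.st a j)) ∧
    ∀ X Y : LD n, X.Ok a j → Y.Ok a j → SEq (X.st a j) (Y.st a j)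

/-- **existence of aligned data**, with the two cut-offs as level functions. -/
def AlignP (a : Fin (n + 1) → ℕ) (e : Fin n) : Prop :=
  ∃ (X : LD n) (l b : ℝ → ℝ), X.Al a e (a e.succ + 1) 1 ∧
    Lev (dg a e.castSucc) l ∧ CutX (a e.succ + 1) (fun x => l (X.ph e.castSucc x)) ∧
    (∀ k < dg a e.castSucc, ∀ x : ℝ, |x - 2 * Real.pi * (k + 1)| ≤ Real.pi / 2 →
      l x = if dg a e.succ ≤ k then 1 else 0) ∧
    Lev (dg a e.succ) b ∧ CutY (a e.succ + 1) (fun x => b (((a e.succ + 1 : ℕ) : ℝ) * x)) ∧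
    ∀ k < dg a e.succ, ∀ x : ℝ, |x - 2 * Real.pi * (k + 1)| ≤ Real.pi / 2 →
      b x = if k + 1 = dg a e.succ then 1 else 0

/-- **S1**: turn on `c y^d`. -/
def S1P (a : Fin (n + 1) → ℕ) (e : Fin n) : Prop :=
  ∀ X : LD n, X.Al a e (a e.succ + 1) 1 →
    SEq (X.st a e) (X.mid a e (fun y => y ^ (a e.succ + 1)) id fun y => y ^ a e.succ)

/-- **S2**: change of the power of `x`. -/
def S2P (a : Fin (n + 1) → ℕ) (e : Fin n) : Prop :=
  ∀ (X : LD n) (P : ℝ), 1 ≤ P → X.Al a e (a e.succ + 1) 1 →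
    SEq (X.mid a e (fun y => y ^ (a e.succ + 1)) id fun y => y ^ a e.succ)
      ((X.pow e P).mid a e (fun y => y ^ (a e.succ + 1)) (pw P) fun y => y ^ a e.succ) ∧
    (X.pow e P).Al a e (a e.succ + 1) P

/-- **S3**: from `η = x |x|^(P-1)` to `η = |x|^P l(ξ)`. -/
def S3P (a : Fin (n + 1) → ℕ) (e : Fin n) : Prop :=
  ∀ (X : LD n) (P : ℝ) (l : ℝ → ℝ), 2 < P → X.Al a e (a e.succ + 1) P → CutX (a e.succ + 1) l →
    SEq (X.mid a e (fun y => y ^ (a e.succ + 1)) (pw P) fun y => y ^ a e.succ)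
      (X.mid a e (fun y => y ^ (a e.succ + 1)) (fun x => ((pol P l x : ℝ) : ℂ)) fun y => y ^ a e.succ)

/-- **S4**: from `y^d - s y^(d-1)` to `y^d - s |y|^(d-1) b(ξ)`. -/
def S4P (a : Fin (n + 1) → ℕ) (e : Fin n) : Prop :=
  ∀ (X : LD n) (P : ℝ) (l b : ℝ → ℝ), 2 < P → X.Al a e (a e.succ + 1) P → CutX (a e.succ + 1) l →
    CutY (a e.succ + 1) b → 3 ≤ a e.succ →
    SEq (X.mid a e (fun y => y ^ (a e.succ + 1)) (fun x => ((pol P l x : ℝ) : ℂ)) fun y => y ^ a e.succ)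
      (X.mid a e (fun y => y ^ (a e.succ + 1)) (fun x => ((pol P l x : ℝ) : ℂ))
        fun y => ((pol (a e.succ : ℝ) b y : ℝ) : ℂ))

/-- **S4'**: the same for the last variable, with any power `P' ≥ 2` of `y` (this is the only case
in which `a = 2` is possible). -/
def S4lastP (a : Fin (n + 1) → ℕ) (e : Fin n) : Prop :=
  (e : ℕ) + 1 = n →
  ∀ (X : LD n) (P P' : ℝ) (l b : ℝ → ℝ), 2 < P → 2 ≤ P' → X.Al a e (a e.succ + 1) P →
    CutX (a e.succ + 1) l → CutY (a e.succ + 1) b →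
    SEq (X.mid a e (fun y => y ^ (a e.succ + 1)) (fun x => ((pol P l x : ℝ) : ℂ)) fun y => y ^ a e.succ)
      (X.mid a e (fun y => (pw P' y) ^ (a e.succ + 1)) (fun x => ((pol P l x : ℝ) : ℂ))
        fun y => ((pol (a e.succ * P') b y : ℝ) : ℂ))

/-- **NEXT**: the end of S4 is a state `j + 1`. -/
def NextP (a : Fin (n + 1) → ℕ) (e : Fin n) : Prop :=
  ∀ (X : LD n) (P P' : ℝ) (l b : ℝ → ℝ), 2 < P → 1 ≤ P' → 2 < (a e.succ : ℝ) * P' →
    X.Al a e (a e.succ + 1) P →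
    Lev (dg a e.castSucc) l → Lev (dg a e.succ) b →
    (∀ k < dg a e.castSucc, ∀ x : ℝ, |x - 2 * Real.pi * (k + 1)| ≤ Real.pi / 2 →
      l x = if dg a e.succ ≤ k then 1 else 0) →
    (∀ k < dg a e.succ, ∀ x : ℝ, |x - 2 * Real.pi * (k + 1)| ≤ Real.pi / 2 →
      b x = if k + 1 = dg a e.succ then 1 else 0) →
    (X.next e (a e.succ + 1) P P' l b).Ok a (e + 1) ∧
    (X.next e (a e.succ + 1) P P' l b).st a (e + 1) =
      X.mid a e (fun y => (pw P' y) ^ (a e.succ + 1))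
        (fun x => ((pol P (fun x => l (X.ph e.castSucc x)) x : ℝ) : ℂ))
        (fun y => ((pol (a e.succ * P') (fun x => b (((a e.succ + 1 : ℕ) : ℝ) * x)) y : ℝ) : ℂ))

/-- **base**: the chain polynomial is a state 0. -/
def BaseP (a : Fin (n + 1) → ℕ) : Prop :=
  ∃ X : LD n, X.Ok a 0 ∧ SEq (chainFun (List.ofFn fun i : Fin (n + 1) => a i.rev)) (X.st a 0)

/-! ### the two common lemmas -/

/-- the processed part `A` of state `j`, with an arbitrary planar function `R` in the variable `j`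
(`R = X.Q j`: the part `A` itself; `R = X.Q j - K η ^ d`: the function `V` of the REDUCTION). -/
def LD.tr (X : LD n) (j : ℕ) (R : ℂ → ℂ) : (Fin (n + 1) → ℂ) → ℂ :=
  GF (fun i => if (i : ℕ) < j then X.Q i else if (i : ℕ) = j then R else 0)
    (fun e => if (e : ℕ) < j then (fun z => (X.g e z : ℂ)) else 0)
    (fun e => if (e : ℕ) < j then (fun z => (X.h e z : ℂ)) else 0)

/-- regularity of `X.tr j R` in the processed variables -/
def LD.TrReg (X : LD n) (j : ℕ) (R : ℂ → ℂ) : Prop :=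
  ∀ z : Fin (n + 1) → ℂ, z ≠ 0 → (∀ i : Fin (n + 1), j < (i : ℕ) → z i = 0) →
    0 ≤ (X.tr j R z).re → Function.Surjective (fderiv ℝ (X.tr j R) z)

/-- **LEMMA L** for `X.tr j R`: (kit, helper407) at every `x ≠ 0`: `R x ≠ 0`, and `Re R x < 0` or
there is a direction `v` along which the coupling factor of the variable `j` is constant and `R`
turns; (NC): if the coupling does not vanish at a positive real value `R x` then
`|R x| ≤ ε |x|^D`. -/
def TrP (a : Fin (n + 1) → ℕ) (j : Fin (n + 1)) : Prop :=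
  ∀ (X : LD n) (R : ℂ → ℂ), X.Ok a j → PH (X.D j) R → (∀ x, DifferentiableAt ℝ R x) →
    (∀ x : ℂ, x ≠ 0 → R x ≠ 0 ∧ ((R x).re < 0 ∨
      ∃ v, (∀ e : Fin n, e.succ = j → fderiv ℝ (X.h e) x v = 0) ∧
        Good2 (fderiv ℝ R x v) (R x))) →
    (∀ e : Fin n, e.succ = j → ∀ x : ℂ, x ≠ 0 → 0 < X.h e x → 0 < (R x).re → (R x).im = 0 →
      X.h e x = ‖x‖ ^ X.m e ∧ ‖R x‖ ≤ X.ep j * ‖x‖ ^ X.D j) →
    X.TrReg j R

/-- **REDUCTION** (`κ > 0`) -/
def RedP (a : Fin (n + 1) → ℕ) (e : Fin n) : Prop :=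
  ∀ (X : LD n) (κ : ℝ) (η : ℂ → ℂ), X.Ok a e → 0 < κ → (∀ x, DifferentiableAt ℝ η x) → η 0 = 0 →
    X.TrReg e (X.Q e.castSucc) →
    X.TrReg e (fun x => X.Q e.castSucc x -
      (((1 / ((a e.succ : ℝ) + 1)) * ((a e.succ : ℝ) / (((a e.succ : ℝ) + 1) * κ)) ^ (a e.succ) : ℝ)
        : ℂ) * η x ^ (a e.succ + 1)) →
    ∀ z : Fin (n + 1) → ℂ, z ≠ 0 →
      0 ≤ (X.mid a e (fun y => (κ : ℂ) * y ^ (a e.succ + 1)) η (fun y => y ^ a e.succ) z).re →
      Function.Surjective (fderiv ℝ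
        (X.mid a e (fun y => (κ : ℂ) * y ^ (a e.succ + 1)) η (fun y => y ^ a e.succ)) z)

/-- **REDUCTION** without `c y^d` -/
def Red0P (a : Fin (n + 1) → ℕ) (j : Fin (n + 1)) : Prop :=
  ∀ X : LD n, X.Ok a j → X.TrReg j (X.Q j) → ∀ z : Fin (n + 1) → ℂ, z ≠ 0 →
    0 ≤ (X.st a j z).re → Function.Surjective (fderiv ℝ (X.st a j) z)

/-- **T3b**: the chain polynomial is equivalent to EVERY lobed function with admissible data. -/
def T3bP : Prop :=
  ∀ (n : ℕ) (a : Fin (n + 1) → ℕ), Exps a → ∀ X : LD n, X.Ok a n →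
    SEq (chainFun (List.ofFn fun i : Fin (n + 1) => a i.rev)) (X.st a n) ∧ Tame (X.st a n)

end Crest.Agent.R267.LobeDefs_407
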