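import Mathlib

/-!
# S0407, package P4: frozen definitions (helper780)

A *chain* is a list `[a₁, …, a_k]` of exponents; it stands for the polynomial
`x₁^{a₁} x₂ + x₂^{a₂} x₃ + … + x_k^{a_k}`.  A *system* is a list of chains (Thom-Sebastiani sum).
`phi`, `mu`, `chainMat`, `sysMat`: integral Seifert matrices.  `INT` is the output of P4.
-/

set_option autoImplicit false

namespace Crest.Agent.R267.P4Defs_780

open Polynomial Matrix

/-- Milnor number of a chain: `mu [] = 1`, `mu (a :: l) = a * l.prod - mu l`. -/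
def mu : List ℕ → ℕ
  | [] => 1
  | a :: l => a * l.prod - mu l

/-- characteristic polynomial of the cyclic generator `ω` on the Milnor lattice of a chain:
`phi [] = X - 1`, `phi (a :: l) * phi l = X ^ (a * l.prod) - 1`. -/
noncomputable def phi : List ℕ → ℤ[X]
  | [] => X - 1
  | a :: l => (X ^ (a * l.prod) - 1) /ₘ phi l

/-- Seifert matrix of a chain: upper triangular Toeplitz matrix with symbol
`(-1) ^ k * phi (tail)` (`k` = length), diagonal `1`. -/
noncomputable def chainMat : (c : List ℕ) → Matrix (Fin (mu c)) (Fin (mu c)) ℤ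
  | [] => 1
  | a :: l => fun i j =>
      if i ≤ j then (-1) ^ (l.length + 1) * (phi l).coeff ((j : ℕ) - (i : ℕ)) else 0

/-- index type of the Seifert matrix of a system. -/
def Idx : List (List ℕ) → Type
  | [] => Unit
  | c :: S => Fin (mu c) × Idx S

instance instFintypeIdx : (S : List (List ℕ)) → Fintype (Idx S)
  | [] => inferInstanceAs (Fintype Unit)
  | _ :: S => @instFintypeProd _ _ _ (instFintypeIdx S)

instance instDecidableEqIdx : (S : List (List ℕ)) → DecidableEq (Idx S)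
  | [] => inferInstanceAs (DecidableEq Unit)
  | _ :: S => @instDecidableEqProd _ _ _ (instDecidableEqIdx S)

/-- Seifert matrix of a system = Kronecker product of the chain matrices. -/
noncomputable def sysMat : (S : List (List ℕ)) → Matrix (Idx S) (Idx S) ℤ
  | [] => 1
  | c :: S => Matrix.kroneckerMap (· * ·) (chainMat c) (sysMat S)

/-- number of variables. -/
def nvar (S : List (List ℕ)) : ℕ := (S.map List.length).sum

/-- all exponents are at least two and no chain is empty. -/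
def Adm (S : List (List ℕ)) : Prop := ∀ c ∈ S, c ≠ [] ∧ ∀ a ∈ c, 2 ≤ a

/-- congruence of square matrices (with possibly different index types) over a ring. -/
def Cong {ι κ : Type} [Fintype ι] [Fintype κ] [DecidableEq ι] [DecidableEq κ]
    (R : Type) [CommRing R] (A : Matrix ι ι R) (B : Matrix κ κ R) : Prop :=
  ∃ (P : Matrix ι κ R) (Q : Matrix κ ι R), P * Q = 1 ∧ Q * P = 1 ∧ Pᵀ * A * P = B

/-- congruence of integral matrices after extension of scalars to `R`. -/
def CongOver {ι κ : Type} [Fintype ι] [Fintype κ] [DecidableEq ι] [DecidableEq κ]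
    (R : Type) [CommRing R] (A : Matrix ι ι ℤ) (B : Matrix κ κ ℤ) : Prop :=
  Cong R (A.map (Int.cast : ℤ → R)) (B.map (Int.cast : ℤ → R))

/-- OUTPUT OF P4. Two admissible systems with the same number `N > 3` of variables, `8 ∣ N`, the
first containing a square, the second of order exactly three, with integrally congruent Seifert
matrices. -/
def INT : Prop :=
  ∃ S S' : List (List ℕ), Adm S ∧ Adm S' ∧ nvar S = nvar S' ∧ 3 < nvar S ∧ 8 ∣ nvar S ∧
    [2] ∈ S ∧ [3] ∈ S' ∧ (∀ c ∈ S', ∀ h : c ≠ [], 3 ≤ c.getLast h) ∧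
    Cong ℤ (sysMat S) (sysMat S')

/-! ### the family `F_j` -/

/-- `chainOf a b` = chain with first weight `a / b` (Euclid): `(b / a) :: chainOf (b % a) b`. -/
def chainOf (a b : ℕ) : List ℕ :=
  if h : a = 0 then [] else (b / a) :: chainOf (b % a) b
termination_by a
decreasing_by exact Nat.mod_lt _ (Nat.pos_of_ne_zero h)

/-- `z` copies of the chain of `a / b` (`z ≥ 0`), `-z` copies of its tail (`z < 0`). -/
def blockP (x : ℕ × ℕ × ℤ) : List (List ℕ) :=
  List.replicate x.2.2.toNat (chainOf x.1 x.2.1) ++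
    List.replicate (-x.2.2).toNat (chainOf (x.2.1 % x.1) x.2.1)

/-- the same with chain and tail exchanged. -/
def blockM (x : ℕ × ℕ × ℤ) : List (List ℕ) :=
  List.replicate x.2.2.toNat (chainOf (x.2.1 % x.1) x.2.1) ++
    List.replicate (-x.2.2).toNat (chainOf x.1 x.2.1)

/-- `n` copies of a system. -/
def rep (n : ℕ) (S : List (List ℕ)) : List (List ℕ) := (List.replicate n S).flatten

/-- `Z_+`. -/
def ZP (L : List (ℕ × ℕ × ℤ)) : List (List ℕ) := (L.flatMap blockP).filter (fun c => c ≠ [])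

/-- `Z_-`. -/
def ZM (L : List (ℕ × ℕ × ℤ)) : List (List ℕ) := (L.flatMap blockM).filter (fun c => c ≠ [])

/-- `F_{s,j} = 8 x³ + 8 x^u + 8 (s - j) Z_+ + 8 j Z_- + z₁^{q₁} + … + z₈^{q₈}`. -/
def F (L : List (ℕ × ℕ × ℤ)) (u : ℕ) (q : List ℕ) (s j : ℕ) : List (List ℕ) :=
  rep 8 [[3]] ++ rep 8 [[u]] ++ rep (8 * (s - j)) (ZP L) ++ rep (8 * j) (ZM L) ++
    q.map (fun x => [x])

/-- the properties of the certificate (`Cert_8.cert`), `u` prime. -/
structure Cert (L : List (ℕ × ℕ × ℤ)) (u : ℕ) : Prop where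
  prime : u.Prime
  big : 3 < u
  range : ∀ x ∈ L, 0 < x.1 ∧ 2 * x.1 < x.2.1 ∧ Nat.Coprime x.1 x.2.1 ∧
    (x.2.1 = u ∨ x.2.1 = 3 * u)
  zeta : ∀ b : ℕ, ((L.filter (fun x => x.2.1 == b)).map
      (fun x => (((x.2.1 : ℚ) - x.1) / x.1) ^ x.2.2)).prod = 1
  sum_pos : 0 < (L.map (fun x => x.2.2)).sum
  tan : ∀ k : ℤ, Odd k → IsCoprime k ((3 * u : ℕ) : ℤ) →
      (L.map (fun x => |Real.tan (Real.pi * k * x.1 / (2 * x.2.1))| ^ x.2.2)).prod = 1

/-- the eight auxiliary primes. -/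
structure Aux (u : ℕ) (q : List ℕ) : Prop where
  length : q.length = 8
  nodup : q.Nodup
  prime : ∀ x ∈ q, x.Prime
  big : ∀ x ∈ q, 3 < x ∧ x ≠ u

/-- P4.4 + P4.5: the `F_{s,j}` fall into a bounded number of rational congruence classes. -/
def RATB : Prop :=
  ∀ (L : List (ℕ × ℕ × ℤ)) (u : ℕ) (q : List ℕ), Cert L u → Aux u q →
    ∃ B : ℕ, ∀ s : ℕ, ∃ col : ℕ → Fin (B + 1), ∀ i ≤ s, ∀ j ≤ s, col i = col j →
      CongOver ℚ (sysMat (F L u q s i)) (sysMat (F L u q s j))

/-- P4.6 + P4.7: all `F_{s,j}` (fixed `s`) are congruent over `ℤ_p`. -/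
def LOCS : Prop :=
  ∀ (L : List (ℕ × ℕ × ℤ)) (u : ℕ) (q : List ℕ), Cert L u → Aux u q →
    ∀ s : ℕ, ∀ i ≤ s, ∀ j ≤ s, ∀ (p : ℕ) [Fact p.Prime],
      CongOver ℤ_[p] (sysMat (F L u q s i)) (sysMat (F L u q s j))

/-- P4.8-P4.11: among `h + 1` rationally and locally congruent `F_{s,j}` two are congruent
over `ℤ`. -/
def GLOBS : Prop :=
  ∀ (L : List (ℕ × ℕ × ℤ)) (u : ℕ) (q : List ℕ), Cert L u → Aux u q →
    ∃ h : ℕ, ∀ s : ℕ, ∀ J : Finset ℕ, (∀ j ∈ J, j ≤ s) → h < J.card →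
      (∀ i ∈ J, ∀ j ∈ J, CongOver ℚ (sysMat (F L u q s i)) (sysMat (F L u q s j))) →
      (∀ i ∈ J, ∀ j ∈ J, ∀ (p : ℕ) [Fact p.Prime],
        CongOver ℤ_[p] (sysMat (F L u q s i)) (sysMat (F L u q s j))) →
      ∃ i ∈ J, ∃ j ∈ J, i < j ∧ Cong ℤ (sysMat (F L u q s i)) (sysMat (F L u q s j))

end Crest.Agent.R267.P4Defs_780
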