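import Mathlib
import Crest.Agent.R267.P4Defs_780

/-!
# S0407, node P4.13 (helper322): definitions of the poset form of the Seifert matrix of a chain

Order of a chain as in `chainMat` (head = last variable).  The letters of the page of a strictly
increasing chain `c = [a₁ < a₂ < ... < a_k]` are the lists `t = [t₁, ..., t_k]` with
`1 ≤ t_i ≤ a_i`, `t_k < a_k` and `t_i = a_i → t_{i+1} ≤ a_i`; the matrix is the zeta matrix of the
coordinatewise order.
-/

set_option autoImplicit false

namespace Crest.Agent.R267.P413Def_322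

open Matrix Crest.Agent.R267.P4Defs_780

/-- the list starts with a number `≤ a` -/
def low (a : ℕ) : List ℕ → Prop
  | [] => False
  | b :: _ => b ≤ a

instance instDecLow (a : ℕ) : DecidablePred (low a)
  | [] => inferInstanceAs (Decidable False)
  | b :: _ => inferInstanceAs (Decidable (b ≤ a))

/-- the finite set of letters of the page of a chain. -/
def PF : List ℕ → Finset (List ℕ)
  | [] => {[]}
  | a :: l => (((Finset.range (a + 1)) ×ˢ PF l).filter
      (fun p => 1 ≤ p.1 ∧ (p.1 < a ∨ (p.1 = a ∧ low a p.2)))).image (fun p => p.1 :: p.2)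

/-- the letters of the page of a chain, as a predicate. -/
def Ok : List ℕ → List ℕ → Prop
  | [], t => t = []
  | _ :: _, [] => False
  | a :: l, x :: t => 1 ≤ x ∧ (x < a ∨ (x = a ∧ low a t)) ∧ Ok l t

theorem mem_PF : ∀ {c t : List ℕ}, t ∈ PF c ↔ Ok c t
  | [], t => by simp [PF, Ok]
  | a :: l, [] => by simp [PF, Ok]
  | a :: l, x :: t => by
      simp only [PF, Ok, Finset.mem_image, Finset.mem_filter, Finset.mem_product, Finset.mem_range,
        Prod.exists, List.cons.injEq]
      constructor
      · rintro ⟨p, q, ⟨⟨_, h2⟩, h3, h4⟩, rfl, rfl⟩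
        exact ⟨h3, h4, mem_PF.1 h2⟩
      · rintro ⟨h1, h2, h3⟩
        refine ⟨x, t, ⟨⟨?_, mem_PF.2 h3⟩, h1, h2⟩, rfl, rfl⟩
        rcases h2 with h2 | ⟨h2, _⟩ <;> omega

/-- index type of the poset matrix of a chain. -/
abbrev PIdx (c : List ℕ) : Type := ↥(PF c)

/-- product of the indicators `s_i ≤ t_i`. -/
def zt : List ℕ → List ℕ → ℤ
  | [], [] => 1
  | x :: s, y :: t => if x ≤ y then zt s t else 0
  | [], _ :: _ => 0
  | _ :: _, [] => 0

theorem zt_eq (s t : List ℕ) :
    zt s t = open Classical in if List.Forall₂ (· ≤ ·) s t then 1 else 0 := by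
  classical
  induction s generalizing t with
  | nil => cases t <;> simp [zt]
  | cons x s ih =>
      cases t with
      | nil => simp [zt]
      | cons y t =>
          simp only [zt, ih, List.forall₂_cons]
          by_cases h : x ≤ y <;> simp [h]

/-- the poset matrix of a chain: `1` iff `s ≤ t` coordinatewise. -/
def posMat (c : List ℕ) : Matrix (PIdx c) (PIdx c) ℤ := fun s t => zt s.1 t.1

/-- index type of the poset matrix of a system. -/
def PSys : List (List ℕ) → Type
  | [] => Unit
  | c :: S => PIdx c × PSys S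

instance instFintypePSys : (S : List (List ℕ)) → Fintype (PSys S)
  | [] => inferInstanceAs (Fintype Unit)
  | _ :: S => @instFintypeProd _ _ _ (instFintypePSys S)

instance instDecidableEqPSys : (S : List (List ℕ)) → DecidableEq (PSys S)
  | [] => inferInstanceAs (DecidableEq Unit)
  | _ :: S => @instDecidableEqProd _ _ _ (instDecidableEqPSys S)

/-- poset matrix of a system = Kronecker product of the poset matrices of the chains. -/
def posSys : (S : List (List ℕ)) → Matrix (PSys S) (PSys S) ℤ
  | [] => 1
  | c :: S => Matrix.kroneckerMap (· * ·) (posMat c) (posSys S)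

/-- the chains of S0407: strictly increasing with exponents at least two. -/
def Pierce (c : List ℕ) : Prop := (∀ a ∈ c, 2 ≤ a) ∧ c.Pairwise (· < ·)

lemma Pierce.tail {a : ℕ} {l : List ℕ} (h : Pierce (a :: l)) : Pierce l :=
  ⟨fun b hb => h.1 b (List.mem_cons_of_mem _ hb), (List.pairwise_cons.1 h.2).2⟩

lemma Pierce.lt {a b : ℕ} {l : List ℕ} (h : Pierce (a :: b :: l)) : a < b :=
  (List.pairwise_cons.1 h.2).1 b List.mem_cons_self

end Crest.Agent.R267.P413Def_322
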