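import Mathlib
import Crest.Agent.R267.P4Defs_780

/-!
# S0407, node P4.1 (helper339): polynomial facts about `phi`, Toeplitz invariance of `chainMat`,
trace form and argument of the multipliers.
-/

set_option autoImplicit false

namespace Crest.Agent.R267.P41_339

open Polynomial Matrix Crest.Agent.R267.P4Defs_780

/-- all exponents are positive -/
def Good (c : List ℕ) : Prop := ∀ a ∈ c, 1 ≤ a

lemma Good.tail {a : ℕ} {l : List ℕ} (h : Good (a :: l)) : Good l :=
  fun b hb => h b (List.mem_cons_of_mem _ hb)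

lemma Good.head {a : ℕ} {l : List ℕ} (h : Good (a :: l)) : 1 ≤ a :=
  h a List.mem_cons_self

lemma Good.of_two {c : List ℕ} (h : ∀ a ∈ c, 2 ≤ a) : Good c :=
  fun a ha => le_trans (by norm_num) (h a ha)

lemma Good.prod_pos : ∀ {c : List ℕ}, Good c → 0 < c.prod
  | [], _ => by simp
  | a :: l, h => by
      rw [List.prod_cons]
      exact Nat.mul_pos h.head (Good.prod_pos h.tail)

lemma mu_le_prod : ∀ c : List ℕ, mu c ≤ c.prod
  | [] => by simp [mu]
  | a :: l => by
      rw [List.prod_cons]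
      exact Nat.sub_le _ _

lemma mu_tail_le {a : ℕ} {l : List ℕ} (h : 1 ≤ a) : mu l ≤ a * l.prod :=
  (mu_le_prod l).trans (Nat.le_mul_of_pos_left _ h)

lemma mu_add_mu {a : ℕ} {l : List ℕ} (h : 1 ≤ a) : mu (a :: l) + mu l = a * l.prod := by
  have := mu_tail_le (l := l) h
  simp only [mu]
  omega

/-- the basic package of facts about `phi` -/
structure Basic (c : List ℕ) : Prop where
  monic : (phi c).Monic
  natDegree : (phi c).natDegree = mu c
  dvd : phi c ∣ X ^ c.prod - 1

lemma phi_mul_of {a : ℕ} {l : List ℕ} (hb : Basic l) :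
    phi (a :: l) * phi l = X ^ (a * l.prod) - 1 := by
  have hd : phi l ∣ X ^ (a * l.prod) - 1 := by
    refine hb.dvd.trans ?_
    rw [mul_comm a, pow_mul]
    exact sub_one_dvd_pow_sub_one _ _
  have h := modByMonic_add_div (X ^ (a * l.prod) - 1 : ℤ[X]) (phi l)
  rw [(modByMonic_eq_zero_iff_dvd hb.monic).2 hd, zero_add] at h
  rw [mul_comm]
  exact h
where
  sub_one_dvd_pow_sub_one (x : ℤ[X]) (n : ℕ) : x - 1 ∣ x ^ n - 1 := by
    simpa using sub_dvd_pow_sub_pow x 1 n

lemma monic_X_pow_sub_one {n : ℕ} (h : 0 < n) : (X ^ n - 1 : ℤ[X]).Monic := by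
  have := monic_X_pow_sub_C (1 : ℤ) h.ne'
  simpa using this

lemma natDegree_X_pow_sub_one (n : ℕ) : (X ^ n - 1 : ℤ[X]).natDegree = n := by
  have := natDegree_X_pow_sub_C (n := n) (r := (1 : ℤ))
  simpa using this

lemma basic : ∀ {c : List ℕ}, Good c → Basic c
  | [], _ => by
      refine ⟨?_, ?_, ?_⟩
      · have := monic_X_sub_C (1 : ℤ); simpa [phi] using this
      · have := natDegree_X_sub_C (1 : ℤ); simpa [phi, mu] using this
      · simp [phi]
  | a :: l, h => by
      have hb := basic h.tail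
      have hm := phi_mul_of (a := a) hb
      have hpos : 0 < a * l.prod := Nat.mul_pos h.head h.tail.prod_pos
      have hmon : (phi (a :: l)).Monic := by
        have h1 : (phi (a :: l) * phi l).Monic := by rw [hm]; exact monic_X_pow_sub_one hpos
        exact Monic.of_mul_monic_right hb.monic h1
      refine ⟨hmon, ?_, ?_⟩
      · have h2 := hmon.natDegree_mul hb.monic
        rw [hm, natDegree_X_pow_sub_one, hb.natDegree] at h2
        have := mu_add_mu (a := a) (l := l) h.head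
        omega
      · rw [List.prod_cons, ← hm]
        exact dvd_mul_right _ _

lemma phi_mul {a : ℕ} {l : List ℕ} (h : Good (a :: l)) :
    phi (a :: l) * phi l = X ^ (a * l.prod) - 1 := phi_mul_of (basic h.tail)

lemma phi_coeff_zero : ∀ {c : List ℕ}, Good c → (phi c).coeff 0 = (-1) ^ (c.length + 1)
  | [], _ => by simp [phi]
  | a :: l, h => by
      have hm := congrArg (fun p : ℤ[X] => p.coeff 0) (phi_mul h)
      have hpos : 0 < a * l.prod := Nat.mul_pos h.head h.tail.prod_pos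
      simp only [mul_coeff_zero, coeff_sub, coeff_one_zero, coeff_X_pow, phi_coeff_zero h.tail,
        if_neg hpos.ne] at hm
      have h2 : ((-1 : ℤ) ^ (l.length + 1)) * (-1) ^ (l.length + 1) = 1 := by
        rw [← mul_pow]; simp
      calc (phi (a :: l)).coeff 0
          = (phi (a :: l)).coeff 0 * ((-1 : ℤ) ^ (l.length + 1) * (-1) ^ (l.length + 1)) := by
            rw [h2, mul_one]
        _ = ((phi (a :: l)).coeff 0 * (-1 : ℤ) ^ (l.length + 1)) * (-1) ^ (l.length + 1) := by ring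
        _ = (0 - 1) * (-1) ^ (l.length + 1) := by rw [hm]
        _ = (-1) ^ ((a :: l).length + 1) := by simp [pow_succ]

lemma reverse_X_pow_sub_one {n : ℕ} (h : 0 < n) :
    (X ^ n - 1 : ℤ[X]).reverse = -(X ^ n - 1) := by
  have h1 : (X ^ n - 1 : ℤ[X]).natDegree = n := natDegree_X_pow_sub_one n
  unfold reverse
  rw [h1]
  ext k
  rw [coeff_reflect]
  simp only [coeff_neg, coeff_sub, coeff_X_pow, coeff_one]
  rcases Nat.lt_or_ge n k with hk | hk
  · rw [revAt_eq_self_of_lt hk]
    ring_nf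
    have : k ≠ n := by omega
    have h0 : k ≠ 0 := by omega
    simp [this, h0]
  · rw [revAt_le hk]
    have e1 : (n - k = n) = (k = 0) := by simp; omega
    have e2 : (n - k = 0) = (k = n) := by simp; omega
    simp only [e1, e2]
    split_ifs <;> simp_all

lemma phi_reverse : ∀ {c : List ℕ}, Good c →
    (phi c).reverse = C ((-1) ^ (c.length + 1)) * phi c
  | [], _ => by
      have := reverse_X_pow_sub_one (n := 1) one_pos
      simpa [phi] using this
  | a :: l, h => by
      have hpos : 0 < a * l.prod := Nat.mul_pos h.head h.tail.prod_pos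
      have hr := congrArg Polynomial.reverse (phi_mul h)
      rw [reverse_mul_of_domain, reverse_X_pow_sub_one hpos, phi_reverse h.tail,
        ← phi_mul h] at hr
      have hne : phi l ≠ 0 := (basic h.tail).monic.ne_zero
      have h2 : (C ((-1 : ℤ) ^ (l.length + 1)) * C ((-1) ^ (l.length + 1)) : ℤ[X]) = 1 := by
        rw [← C_mul, ← mul_pow]; simp
      apply mul_right_cancel₀ hne
      calc (phi (a :: l)).reverse * phi l
          = (phi (a :: l)).reverse * (C ((-1) ^ (l.length + 1)) * phi l) *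
              C ((-1) ^ (l.length + 1)) := by
            rw [show (phi (a :: l)).reverse * (C ((-1) ^ (l.length + 1)) * phi l) *
              C ((-1) ^ (l.length + 1)) = (phi (a :: l)).reverse * phi l *
                (C ((-1) ^ (l.length + 1)) * C ((-1) ^ (l.length + 1))) by ring, h2, mul_one]
        _ = -(phi (a :: l) * phi l) * C ((-1) ^ (l.length + 1)) := by rw [hr]
        _ = C ((-1) ^ ((a :: l).length + 1)) * phi (a :: l) * phi l := by
            simp only [List.length_cons, pow_succ, C_mul, C_neg, map_one]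
            ring


/-! ### discrete Fourier transform -/

section DFT

variable {K : Type*} [Field K]

lemma sum_pow_of_pow_eq_one {r : ℕ} {x : K} (hx : x ^ r = 1) (h1 : x ≠ 1) :
    ∑ k ∈ Finset.range r, x ^ k = 0 := by
  have h := mul_neg_geom_sum x r
  rw [hx, sub_self] at h
  rcases mul_eq_zero.1 h with h | h
  · exact absurd (sub_eq_zero.1 h).symm h1
  · exact h

lemma dft {r : ℕ} {ζ : K} (hζ : IsPrimitiveRoot ζ r) (hr : 0 < r) (f : ℤ[X])
    (hf : f.natDegree < r) {n : ℕ} (hn : n < r) :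
    ∑ k ∈ Finset.range r, (ζ ^ k) ^ n * aeval ((ζ⁻¹) ^ k) f = r * (f.coeff n : K) := by
  have hz : ζ ≠ 0 := hζ.ne_zero hr.ne'
  have e1 : ∀ k ∈ Finset.range r, (ζ ^ k) ^ n * aeval ((ζ⁻¹) ^ k) f
      = ∑ i ∈ Finset.range r, (f.coeff i : K) * (ζ ^ n * (ζ⁻¹) ^ i) ^ k := by
    intro k _
    rw [aeval_eq_sum_range' hf, Finset.mul_sum]
    refine Finset.sum_congr rfl fun i _ => ?_
    rw [zsmul_eq_mul, mul_pow, ← pow_mul, ← pow_mul, ← pow_mul, ← pow_mul, mul_comm k n,
      mul_comm k i]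
    ring
  rw [Finset.sum_congr rfl e1, Finset.sum_comm]
  rw [Finset.sum_eq_single n]
  · rw [← Finset.mul_sum]
    have : ζ ^ n * (ζ⁻¹) ^ n = 1 := by rw [← mul_pow, mul_inv_cancel₀ hz, one_pow]
    rw [this]
    simp only [one_pow, Finset.sum_const, Finset.card_range, nsmul_eq_mul, mul_one]
    ring
  · intro i hi hin
    rw [← Finset.mul_sum, sum_pow_of_pow_eq_one, mul_zero]
    · rw [mul_pow, ← pow_mul, ← pow_mul, mul_comm n, mul_comm i, pow_mul, pow_mul, inv_pow,
        hζ.pow_eq_one]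
      simp
    · intro h
      apply hin
      have h2 : ζ ^ n = ζ ^ i := by
        have h3 : ζ ^ n * (ζ⁻¹) ^ i * ζ ^ i = ζ ^ i := by rw [h, one_mul]
        rwa [mul_assoc, ← mul_pow, inv_mul_cancel₀ hz, one_pow, mul_one] at h3
      exact (hζ.pow_inj hn (Finset.mem_range.1 hi) h2).symm
  · intro h
    exact absurd (Finset.mem_range.2 hn) h

/-- signed symbol of the Toeplitz matrix of the chain `a :: l` (depends on the tail only) -/
noncomputable def symb (l : List ℕ) : ℤ[X] := C ((-1) ^ (l.length + 1)) * phi l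

lemma symb_coeff (l : List ℕ) (n : ℕ) :
    (symb l).coeff n = (-1) ^ (l.length + 1) * (phi l).coeff n := by
  unfold symb
  rw [coeff_C_mul]

lemma symb_natDegree {l : List ℕ} (h : Good l) : (symb l).natDegree = mu l := by
  unfold symb
  rw [natDegree_C_mul_of_mul_ne_zero, (basic h).natDegree]
  rw [(basic h).monic.leadingCoeff]
  simp

lemma chainMat_apply (a : ℕ) (l : List ℕ) (i j : Fin (mu (a :: l))) :
    chainMat (a :: l) i j = if i ≤ j then (symb l).coeff ((j : ℕ) - (i : ℕ)) else 0 := by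
  rw [symb_coeff]
  rfl

lemma mu_pos_of {a : ℕ} {l : List ℕ} (i : Fin (mu (a :: l))) : 0 < mu (a :: l) :=
  lt_of_le_of_lt (Nat.zero_le _) i.2

/-- entries of the chain matrix as Fourier sums over the `r`-th roots of unity. -/
theorem chainMat_dft {a : ℕ} {l : List ℕ} (h : Good (a :: l)) {ζ : K}
    (hζ : IsPrimitiveRoot ζ (a * l.prod)) (i j : Fin (mu (a :: l))) :
    ((a * l.prod : ℕ) : K) * (chainMat (a :: l) i j : K) =
      ∑ k ∈ Finset.range (a * l.prod),
        (((ζ⁻¹) ^ k) ^ (i : ℕ)) * aeval ((ζ⁻¹) ^ k) (symb l) * (ζ ^ k) ^ (j : ℕ) := by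
  have hr : 0 < a * l.prod := Nat.mul_pos h.head h.tail.prod_pos
  have hmu := mu_add_mu (a := a) (l := l) h.head
  have hz : ζ ≠ 0 := hζ.ne_zero hr.ne'
  have hi := i.2
  have hj := j.2
  have hdeg : (symb l).natDegree < a * l.prod := by
    rw [symb_natDegree h.tail]; omega
  rw [chainMat_apply]
  split_ifs with hij
  · have hij' : (i : ℕ) ≤ j := hij
    rw [← dft hζ hr (symb l) hdeg (n := (j : ℕ) - i) (by omega)]
    refine Finset.sum_congr rfl fun k _ => ?_
    have : (ζ ^ k) ^ (j : ℕ) = (ζ ^ k) ^ (i : ℕ) * (ζ ^ k) ^ ((j : ℕ) - i) := by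
      rw [← pow_add]; congr 1; omega
    rw [this]
    have h1 : ((ζ⁻¹) ^ k) ^ (i : ℕ) * (ζ ^ k) ^ (i : ℕ) = 1 := by
      rw [← mul_pow, ← mul_pow, inv_mul_cancel₀ hz, one_pow, one_pow]
    calc (ζ ^ k) ^ ((j : ℕ) - i) * aeval ((ζ⁻¹) ^ k) (symb l)
        = (((ζ⁻¹) ^ k) ^ (i : ℕ) * (ζ ^ k) ^ (i : ℕ)) *
          ((ζ ^ k) ^ ((j : ℕ) - i) * aeval ((ζ⁻¹) ^ k) (symb l)) := by rw [h1, one_mul]
      _ = _ := by ring
  · have hij' : (j : ℕ) < i := not_le.1 hij
    have hc : (symb l).coeff (a * l.prod - ((i : ℕ) - j)) = 0 := by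
      apply coeff_eq_zero_of_natDegree_lt
      rw [symb_natDegree h.tail]; omega
    have hd := dft hζ hr (symb l) hdeg (n := a * l.prod - ((i : ℕ) - j)) (by omega)
    rw [hc] at hd
    simp only [Int.cast_zero, mul_zero] at hd ⊢
    rw [← hd]
    refine Finset.sum_congr rfl fun k _ => ?_
    have h2 : (ζ ^ k) ^ (a * l.prod - ((i : ℕ) - j)) =
        ((ζ⁻¹) ^ k) ^ (i : ℕ) * (ζ ^ k) ^ (j : ℕ) := by
      have h3 : (ζ ^ k) ^ (a * l.prod - ((i : ℕ) - j)) * (ζ ^ k) ^ ((i : ℕ) - j) = 1 := by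
        rw [← pow_add, Nat.sub_add_cancel (by omega), ← pow_mul, mul_comm k, pow_mul,
          hζ.pow_eq_one, one_pow]
      have h4 : (ζ ^ k) ^ (i : ℕ) = (ζ ^ k) ^ ((i : ℕ) - j) * (ζ ^ k) ^ (j : ℕ) := by
        rw [← pow_add]; congr 1; omega
      have h1 : ((ζ⁻¹) ^ k) ^ (i : ℕ) * (ζ ^ k) ^ (i : ℕ) = 1 := by
        rw [← mul_pow, ← mul_pow, inv_mul_cancel₀ hz, one_pow, one_pow]
      have h5 : (ζ ^ k) ^ ((i : ℕ) - j) ≠ 0 := pow_ne_zero _ (pow_ne_zero _ hz)
      apply mul_right_cancel₀ h5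
      rw [h3, ← h1, h4]
      ring
    rw [h2]
    ring

end DFT

/-! ### the companion matrix -/

/-- companion matrix of `phi c`: multiplication by `ω` in the basis `1, ω, …` -/
noncomputable def compMat (c : List ℕ) : Matrix (Fin (mu c)) (Fin (mu c)) ℤ :=
  fun i j => if (j : ℕ) + 1 < mu c then (if (i : ℕ) = j + 1 then 1 else 0) else -(phi c).coeff i

section Comp

variable {K : Type*} [Field K]

lemma eval_phi {c : List ℕ} (h : Good c) (x : K) :
    aeval x (phi c) = x ^ mu c + ∑ i : Fin (mu c), ((phi c).coeff i : K) * x ^ (i : ℕ) := by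
  rw [aeval_eq_sum_range, (basic h).natDegree, Finset.sum_range_succ, add_comm]
  congr 1
  · have := (basic h).monic.coeff_natDegree
    rw [(basic h).natDegree] at this
    rw [this, one_smul]
  · rw [Finset.sum_range (fun i => (phi c).coeff i • x ^ i)]
    refine Finset.sum_congr rfl fun i _ => ?_
    rw [zsmul_eq_mul]

/-- left eigenvectors of the companion matrix -/
lemma comp_eigen {c : List ℕ} (h : Good c) {x : K} (hx : aeval x (phi c) = 0)
    (j : Fin (mu c)) :
    ∑ i : Fin (mu c), x ^ (i : ℕ) * (compMat c i j : K) = x ^ ((j : ℕ) + 1) := by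
  unfold compMat
  split_ifs with hj
  · rw [Finset.sum_eq_single (⟨(j : ℕ) + 1, hj⟩ : Fin (mu c))]
    · simp
    · intro i _ hi
      have : (i : ℕ) ≠ j + 1 := fun e => hi (Fin.ext e)
      simp [this]
    · simp
  · have hj' : (j : ℕ) + 1 = mu c := by have := j.2; omega
    rw [eval_phi h] at hx
    rw [hj', eq_neg_of_add_eq_zero_left hx, ← Finset.sum_neg_distrib]
    refine Finset.sum_congr rfl fun i _ => ?_
    push_cast
    ring

lemma aeval_X_pow_sub_one (x : K) (n : ℕ) : aeval x (X ^ n - 1 : ℤ[X]) = x ^ n - 1 := by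
  simp

/-- for an `r`-th root of unity `x`: `phi c (x) = 0` iff `phi l (x⁻¹) ≠ 0`, first half. -/
lemma phi_zero_of_tail_ne {a : ℕ} {l : List ℕ} (h : Good (a :: l)) {x : K}
    (hx : x ^ (a * l.prod) = 1) (hne : aeval x (phi l) ≠ 0) : aeval x (phi (a :: l)) = 0 := by
  have h1 := congrArg (aeval x) (phi_mul h)
  rw [map_mul, aeval_X_pow_sub_one, hx, sub_self] at h1
  exact (mul_eq_zero.1 h1).resolve_right hne

/-- palindromy of `phi` at a point -/
lemma phi_inv {c : List ℕ} (h : Good c) {x : K} (hx : x ≠ 0) :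
    aeval x (phi c) = (-1) ^ (c.length + 1) * aeval x⁻¹ (phi c) * x ^ mu c := by
  let _ : Invertible x := invertibleOfNonzero hx
  have h1 := eval₂_reverse_mul_pow (Int.castRingHom K) x (phi c)
  rw [phi_reverse h, (basic h).natDegree, invOf_eq_inv, eval₂_mul, eval₂_C] at h1
  rw [aeval_def, aeval_def]
  rw [show algebraMap ℤ K = Int.castRingHom K from rfl, ← h1]
  simp

lemma phi_inv_zero {c : List ℕ} (h : Good c) {x : K} (hx : x ≠ 0)
    (h0 : aeval x⁻¹ (phi c) = 0) : aeval x (phi c) = 0 := by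
  rw [phi_inv h hx, h0]; simp

lemma symb_aeval (l : List ℕ) (x : K) :
    aeval x (symb l) = (-1) ^ (l.length + 1) * aeval x (phi l) := by
  simp [symb]

lemma symb_inv {l : List ℕ} (h : Good l) {x : K} (hx : x ≠ 0) :
    aeval x⁻¹ (symb l) * x ^ mu l = (-1) ^ (l.length + 1) * aeval x (symb l) := by
  have h1 : ((-1 : K) ^ (l.length + 1)) * (-1) ^ (l.length + 1) = 1 := by
    rw [← mul_pow]; simp
  rw [symb_aeval, symb_aeval, phi_inv h hx]
  generalize ((-1 : K) ^ (l.length + 1)) = e at h1 ⊢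
  linear_combination (-(e * aeval x⁻¹ (phi l) * x ^ mu l)) * h1

/-- powers of the companion matrix on the row `(x^i)`. -/
lemma comp_eigen_pow {c : List ℕ} (h : Good c) {x : K} (hx : aeval x (phi c) = 0) (n : ℕ)
    (j : Fin (mu c)) :
    ∑ i : Fin (mu c), x ^ (i : ℕ) * (((compMat c) ^ n) i j : K) = x ^ ((j : ℕ) + n) := by
  induction n generalizing j with
  | zero =>
      rw [Finset.sum_eq_single j]
      · simp
      · intro i _ hi
        simp [hi]
      · simp
  | succ n ih =>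
      have e : ∀ i : Fin (mu c), x ^ (i : ℕ) * (((compMat c) ^ (n + 1)) i j : K) =
          ∑ q : Fin (mu c), (x ^ (i : ℕ) * (((compMat c) ^ n) i q : K)) * (compMat c q j : K) := by
        intro i
        rw [pow_succ, Matrix.mul_apply]
        push_cast
        rw [Finset.mul_sum]
        exact Finset.sum_congr rfl fun q _ => by ring
      rw [Finset.sum_congr rfl fun i _ => e i, Finset.sum_comm]
      have e2 : ∀ q : Fin (mu c),
          ∑ i : Fin (mu c), (x ^ (i : ℕ) * (((compMat c) ^ n) i q : K)) * (compMat c q j : K) =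
            x ^ n * (x ^ (q : ℕ) * (compMat c q j : K)) := by
        intro q
        rw [← Finset.sum_mul, ih q, pow_add]
        ring
      rw [Finset.sum_congr rfl fun q _ => e2 q, ← Finset.mul_sum, comp_eigen h hx, ← pow_add]
      congr 1
      omega

end Comp

/-! ### Toeplitz identities over `ℤ` -/

/-- a sesquilinear expression in the chain matrix as a Fourier sum -/
theorem form_dft {K : Type*} [Field K] {a : ℕ} {l : List ℕ} (h : Good (a :: l)) {ζ : K}
    (hζ : IsPrimitiveRoot ζ (a * l.prod)) (x y : Fin (mu (a :: l)) → K) :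
    ((a * l.prod : ℕ) : K) *
        ∑ i, ∑ j, x i * (chainMat (a :: l) i j : K) * y j =
      ∑ k ∈ Finset.range (a * l.prod),
        (∑ i : Fin (mu (a :: l)), ((ζ⁻¹) ^ k) ^ (i : ℕ) * x i) * aeval ((ζ⁻¹) ^ k) (symb l) *
          (∑ j : Fin (mu (a :: l)), (ζ ^ k) ^ (j : ℕ) * y j) := by
  rw [Finset.mul_sum]
  have e : ∀ i : Fin (mu (a :: l)),
      ((a * l.prod : ℕ) : K) * ∑ j, x i * (chainMat (a :: l) i j : K) * y j =
        ∑ k ∈ Finset.range (a * l.prod), ∑ j : Fin (mu (a :: l)),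
          (((ζ⁻¹) ^ k) ^ (i : ℕ) * x i) * aeval ((ζ⁻¹) ^ k) (symb l) *
            ((ζ ^ k) ^ (j : ℕ) * y j) := by
    intro i
    rw [Finset.mul_sum, Finset.sum_comm]
    refine Finset.sum_congr rfl fun j _ => ?_
    calc ((a * l.prod : ℕ) : K) * (x i * (chainMat (a :: l) i j : K) * y j)
        = x i * (((a * l.prod : ℕ) : K) * (chainMat (a :: l) i j : K)) * y j := by ring
      _ = _ := by
          rw [chainMat_dft h hζ, Finset.mul_sum, Finset.sum_mul]
          exact Finset.sum_congr rfl fun k _ => by ring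
  rw [Finset.sum_congr rfl fun i _ => e i, Finset.sum_comm]
  refine Finset.sum_congr rfl fun k _ => ?_
  rw [Finset.sum_mul, Finset.sum_mul]
  refine Finset.sum_congr rfl fun i _ => ?_
  rw [Finset.mul_sum]

section Integral

variable {a : ℕ} {l : List ℕ}

lemma prim (h : Good (a :: l)) :
    IsPrimitiveRoot (Complex.exp (2 * Real.pi * Complex.I / ((a * l.prod : ℕ) : ℂ)))
      (a * l.prod) :=
  Complex.isPrimitiveRoot_exp _ (Nat.mul_pos h.head h.tail.prod_pos).ne'

/-- `k`-th root kills `phi (a :: l)` unless the symbol vanishes -/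
lemma key_zero (h : Good (a :: l)) {ζ : ℂ} (hζ : IsPrimitiveRoot ζ (a * l.prod)) (k : ℕ) :
    aeval ((ζ⁻¹) ^ k) (symb l) = 0 ∨
      (aeval ((ζ⁻¹) ^ k) (phi (a :: l)) = 0 ∧ aeval (ζ ^ k) (phi (a :: l)) = 0) := by
  have hr : 0 < a * l.prod := Nat.mul_pos h.head h.tail.prod_pos
  have hz : ζ ≠ 0 := hζ.ne_zero hr.ne'
  by_cases h0 : aeval ((ζ⁻¹) ^ k) (symb l) = 0
  · exact Or.inl h0
  · right
    have h1 : aeval ((ζ⁻¹) ^ k) (phi l) ≠ 0 := by
      intro h2; apply h0; rw [symb_aeval, h2, mul_zero]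
    have h3 : ((ζ⁻¹) ^ k) ^ (a * l.prod) = 1 := by
      rw [← pow_mul, mul_comm k, pow_mul, inv_pow, hζ.pow_eq_one, inv_one, one_pow]
    have h4 := phi_zero_of_tail_ne h h3 h1
    refine ⟨h4, phi_inv_zero h (pow_ne_zero k hz) ?_⟩
    rwa [← inv_pow]

/-- `Cᵀ L C = L`. -/
theorem chain_inv (h : Good (a :: l)) :
    (compMat (a :: l))ᵀ * chainMat (a :: l) * compMat (a :: l) = chainMat (a :: l) := by
  have hζ := prim h
  set ζ := Complex.exp (2 * Real.pi * Complex.I / ((a * l.prod : ℕ) : ℂ)) with hζdef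
  have hr : 0 < a * l.prod := Nat.mul_pos h.head h.tail.prod_pos
  have hz : ζ ≠ 0 := hζ.ne_zero hr.ne'
  have hrC : ((a * l.prod : ℕ) : ℂ) ≠ 0 := by exact_mod_cast hr.ne'
  ext p q
  have hL := chainMat_dft h hζ p q
  have hF := form_dft h hζ (fun i => (compMat (a :: l) i p : ℂ))
    (fun j => (compMat (a :: l) j q : ℂ))
  have e1 : (((compMat (a :: l))ᵀ * chainMat (a :: l) * compMat (a :: l)) p q : ℂ) =
      ∑ i, ∑ j, (compMat (a :: l) i p : ℂ) * (chainMat (a :: l) i j : ℂ) *
        (compMat (a :: l) j q : ℂ) := by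
    rw [Matrix.mul_apply]
    push_cast
    rw [Finset.sum_comm]
    refine Finset.sum_congr rfl fun j _ => ?_
    rw [Matrix.mul_apply]
    push_cast
    rw [Finset.sum_mul]
    rfl
  have e2 : ((a * l.prod : ℕ) : ℂ) *
      (((compMat (a :: l))ᵀ * chainMat (a :: l) * compMat (a :: l)) p q : ℂ) =
      ((a * l.prod : ℕ) : ℂ) * (chainMat (a :: l) p q : ℂ) := by
    rw [e1, hF, hL]
    refine Finset.sum_congr rfl fun k _ => ?_
    rcases key_zero h hζ k with h0 | ⟨h1, h2⟩
    · rw [h0]; simp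
    · rw [comp_eigen h h1 p, comp_eigen h h2 q, pow_succ, pow_succ]
      have h3 : (ζ⁻¹) ^ k * ζ ^ k = 1 := by rw [← mul_pow, inv_mul_cancel₀ hz, one_pow]
      calc ((ζ⁻¹) ^ k) ^ (p : ℕ) * (ζ⁻¹) ^ k * aeval ((ζ⁻¹) ^ k) (symb l) *
            ((ζ ^ k) ^ (q : ℕ) * ζ ^ k)
          = ((ζ⁻¹) ^ k) ^ (p : ℕ) * aeval ((ζ⁻¹) ^ k) (symb l) * (ζ ^ k) ^ (q : ℕ) *
            ((ζ⁻¹) ^ k * ζ ^ k) := by ring
        _ = _ := by rw [h3, mul_one]
  exact_mod_cast mul_left_cancel₀ hrC e2

/-- `L C^{mu l} = (-1)^k Lᵀ`, `k = length`. -/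
theorem chain_mono (h : Good (a :: l)) :
    chainMat (a :: l) * (compMat (a :: l)) ^ mu l =
      ((-1 : ℤ) ^ (l.length + 1)) • (chainMat (a :: l))ᵀ := by
  have hζ := prim h
  set ζ := Complex.exp (2 * Real.pi * Complex.I / ((a * l.prod : ℕ) : ℂ)) with hζdef
  have hr : 0 < a * l.prod := Nat.mul_pos h.head h.tail.prod_pos
  have hz : ζ ≠ 0 := hζ.ne_zero hr.ne'
  have hrC : ((a * l.prod : ℕ) : ℂ) ≠ 0 := by exact_mod_cast hr.ne'
  ext p q
  have hL := chainMat_dft h hζ.inv q p
  have hF := form_dft h hζ (fun i => if i = p then (1 : ℂ) else 0)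
    (fun j => ((compMat (a :: l) ^ mu l) j q : ℂ))
  have e1 : ((chainMat (a :: l) * (compMat (a :: l)) ^ mu l) p q : ℂ) =
      ∑ i, ∑ j, (if i = p then (1 : ℂ) else 0) * (chainMat (a :: l) i j : ℂ) *
        ((compMat (a :: l) ^ mu l) j q : ℂ) := by
    rw [Finset.sum_eq_single p]
    · rw [Matrix.mul_apply]
      push_cast
      simp
    · intro i _ hi
      simp [hi]
    · simp
  have e2 : ((a * l.prod : ℕ) : ℂ) *
      ((chainMat (a :: l) * (compMat (a :: l)) ^ mu l) p q : ℂ) =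
      ((a * l.prod : ℕ) : ℂ) * ((((-1 : ℤ) ^ (l.length + 1)) • (chainMat (a :: l))ᵀ) p q : ℂ) := by
    rw [e1, hF, Matrix.smul_apply, Matrix.transpose_apply]
    rw [show ((((-1 : ℤ) ^ (l.length + 1)) • chainMat (a :: l) q p : ℤ) : ℂ) =
      (-1) ^ (l.length + 1) * (chainMat (a :: l) q p : ℂ) by push_cast [smul_eq_mul]; ring]
    rw [mul_left_comm, hL, Finset.mul_sum]
    refine Finset.sum_congr rfl fun k _ => ?_
    have e3 : ∑ i : Fin (mu (a :: l)), ((ζ⁻¹) ^ k) ^ (i : ℕ) * (if i = p then (1 : ℂ) else 0) =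
        ((ζ⁻¹) ^ k) ^ (p : ℕ) := by
      simp
    rw [e3, inv_inv]
    have hs := symb_inv (K := ℂ) h.tail (pow_ne_zero k hz)
    rw [← inv_pow] at hs
    rcases key_zero h hζ k with h0 | ⟨h1, h2⟩
    · rw [h0] at hs ⊢
      have h5 : aeval (ζ ^ k) (symb l) = 0 := by
        have h6 : ((-1 : ℂ) ^ (l.length + 1)) ≠ 0 := pow_ne_zero _ (by norm_num)
        rw [zero_mul] at hs
        exact (mul_eq_zero.1 hs.symm).resolve_left h6
      rw [h5]; simp
    · rw [comp_eigen_pow h h2 (mu l) q, pow_add]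
      calc ((ζ⁻¹) ^ k) ^ (p : ℕ) * aeval ((ζ⁻¹) ^ k) (symb l) *
            ((ζ ^ k) ^ (q : ℕ) * (ζ ^ k) ^ mu l)
          = ((ζ⁻¹) ^ k) ^ (p : ℕ) * (aeval ((ζ⁻¹) ^ k) (symb l) * (ζ ^ k) ^ mu l) *
            (ζ ^ k) ^ (q : ℕ) := by ring
        _ = _ := by rw [hs]; ring
  exact_mod_cast mul_left_cancel₀ hrC e2

/-- `det L = 1`. -/
theorem chain_det (h : Good (a :: l)) : (chainMat (a :: l)).det = 1 := by
  rw [Matrix.det_of_isUpperTriangular]
  · apply Finset.prod_eq_one
    intro i _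
    rw [chainMat_apply, if_pos le_rfl, Nat.sub_self, symb_coeff, phi_coeff_zero h.tail,
      ← mul_pow]
    simp
  · intro i j hij
    rw [chainMat_apply, if_neg]
    exact not_le.2 hij

end Integral

/-! ### powers of the companion matrix -/

lemma comp_mulVec_single {c : List ℕ} {n : ℕ} (hn : n + 1 < mu c) :
    compMat c *ᵥ Pi.single (⟨n, by omega⟩ : Fin (mu c)) 1 =
      Pi.single (⟨n + 1, hn⟩ : Fin (mu c)) 1 := by
  ext i
  rw [Matrix.mulVec_single_one, Matrix.col_apply]
  unfold compMat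
  rw [if_pos hn]
  by_cases hi : (i : ℕ) = n + 1
  · rw [if_pos hi, show i = ⟨n + 1, hn⟩ from Fin.ext hi, Pi.single_eq_same]
  · rw [if_neg hi, Pi.single_eq_of_ne]
    intro e; exact hi (by rw [e])

lemma comp_pow_mulVec_zero {c : List ℕ} (h0 : 0 < mu c) {n : ℕ} (hn : n < mu c) :
    (compMat c ^ n) *ᵥ Pi.single (⟨0, h0⟩ : Fin (mu c)) 1 =
      Pi.single (⟨n, hn⟩ : Fin (mu c)) 1 := by
  induction n with
  | zero => rw [pow_zero, Matrix.one_mulVec]
  | succ n ih =>
      rw [pow_succ', ← Matrix.mulVec_mulVec, ih (by omega), comp_mulVec_single hn]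

/-- `phi c (C) = 0`. -/
theorem comp_phi {c : List ℕ} (h : Good c) : aeval (compMat c) (phi c) = 0 := by
  rcases Nat.eq_zero_or_pos (mu c) with h0 | h0
  · ext i; exact absurd i.2 (by omega)
  have key : aeval (compMat c) (phi c) *ᵥ Pi.single (⟨0, h0⟩ : Fin (mu c)) 1 = 0 := by
    rw [aeval_eq_sum_range, (basic h).natDegree, Finset.sum_range_succ, Matrix.add_mulVec,
      Matrix.sum_mulVec]
    have hmon := (basic h).monic.coeff_natDegree
    rw [(basic h).natDegree] at hmon
    rw [hmon, one_smul]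
    have e1 : ∀ i ∈ Finset.range (mu c),
        ((phi c).coeff i • compMat c ^ i) *ᵥ Pi.single (⟨0, h0⟩ : Fin (mu c)) (1 : ℤ) =
          if hi : i < mu c then (phi c).coeff i • Pi.single (⟨i, hi⟩ : Fin (mu c)) (1 : ℤ)
          else 0 := by
      intro i hi
      have hi' := Finset.mem_range.1 hi
      rw [dif_pos hi', Matrix.smul_mulVec, comp_pow_mulVec_zero h0 hi']
    rw [Finset.sum_congr rfl e1, Finset.sum_range]
    have e2 : (compMat c ^ mu c) *ᵥ Pi.single (⟨0, h0⟩ : Fin (mu c)) 1 =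
        fun i : Fin (mu c) => -(phi c).coeff (i : ℕ) := by
      obtain ⟨m, hm⟩ : ∃ m, mu c = m + 1 := ⟨mu c - 1, by omega⟩
      have h3 : m < mu c := by omega
      have h4 : (compMat c ^ mu c) = compMat c * compMat c ^ m := by
        rw [← pow_succ', ← hm]
      rw [h4, ← Matrix.mulVec_mulVec, comp_pow_mulVec_zero h0 h3]
      ext i
      rw [Matrix.mulVec_single_one, Matrix.col_apply]
      unfold compMat
      rw [if_neg (by simp only; omega)]
    rw [e2]
    ext i
    simp only [Pi.add_apply, Finset.sum_apply, Pi.zero_apply]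
    rw [Finset.sum_eq_single i]
    · simp
    · intro j _ hj
      simp [Pi.single_eq_of_ne hj.symm]
    · simp
  have hcomm : ∀ n : ℕ, aeval (compMat c) (phi c) * compMat c ^ n =
      compMat c ^ n * aeval (compMat c) (phi c) := by
    intro n
    have : compMat c ^ n = aeval (compMat c) (X ^ n : ℤ[X]) := by simp
    rw [this, ← map_mul, ← map_mul, mul_comm]
  apply Matrix.ext_of_mulVec_single
  intro j
  have h1 := comp_pow_mulVec_zero h0 j.2
  rw [Matrix.zero_mulVec, ← show (⟨(j : ℕ), j.2⟩ : Fin (mu c)) = j from rfl, ← h1,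
    Matrix.mulVec_mulVec, hcomm, ← Matrix.mulVec_mulVec, key, Matrix.mulVec_zero]

/-- `C ^ r = 1`. -/
theorem comp_pow_prod {c : List ℕ} (h : Good c) : compMat c ^ c.prod = 1 := by
  obtain ⟨g, hg⟩ := (basic h).dvd
  have h1 := congrArg (aeval (compMat c)) hg
  rw [map_mul, comp_phi h, zero_mul] at h1
  simpa [sub_eq_zero] using h1

/-- `C` is invertible with inverse `C ^ (r - 1)`. -/
theorem comp_pow_eq_one_iff {a : ℕ} {l : List ℕ} (h : Good (a :: l)) (ha : 2 ≤ a) (n : ℕ) :
    compMat (a :: l) ^ n = 1 ↔ a * l.prod ∣ n := by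
  constructor
  · intro hn
    have hζ := prim h
    set ζ := Complex.exp (2 * Real.pi * Complex.I / ((a * l.prod : ℕ) : ℂ)) with hζdef
    have hP : 0 < l.prod := h.tail.prod_pos
    have hne : aeval ζ (phi l) ≠ 0 := by
      intro h0
      obtain ⟨g, hg⟩ := (basic h.tail).dvd
      have h1 := congrArg (aeval ζ) hg
      rw [map_mul, h0, zero_mul, aeval_X_pow_sub_one, sub_eq_zero] at h1
      have := hζ.dvd_of_pow_eq_one _ h1
      have := Nat.le_of_dvd hP this
      nlinarith
    have h0 : aeval ζ (phi (a :: l)) = 0 := phi_zero_of_tail_ne h hζ.pow_eq_one hne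
    have hmu : 0 < mu (a :: l) := by
      have h1 := mu_add_mu (a := a) (l := l) h.head
      have h2 := mu_le_prod l
      nlinarith
    have h3 := comp_eigen_pow h h0 n ⟨0, hmu⟩
    rw [hn] at h3
    rw [Finset.sum_eq_single (⟨0, hmu⟩ : Fin (mu (a :: l)))] at h3
    · simp only [Matrix.one_apply_eq, Int.cast_one, mul_one, pow_zero, zero_add] at h3
      exact hζ.dvd_of_pow_eq_one _ h3.symm
    · intro i _ hi
      simp [hi]
    · simp
  · rintro ⟨m, rfl⟩
    rw [pow_mul]
    have := comp_pow_prod h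
    rw [List.prod_cons] at this
    rw [this, one_pow]

/-- order of `C`. -/
theorem orderOf_comp {a : ℕ} {l : List ℕ} (h : Good (a :: l)) (ha : 2 ≤ a) :
    orderOf (compMat (a :: l)) = a * l.prod := by
  apply Nat.dvd_antisymm
  · apply orderOf_dvd_of_pow_eq_one
    exact (comp_pow_eq_one_iff h ha _).2 dvd_rfl
  · exact (comp_pow_eq_one_iff h ha _).1 (pow_orderOf_eq_one _)

/-- order of the monodromy `T = C ^ mu l`: the denominator of the first weight `mu l / r`. -/
theorem orderOf_mono {a : ℕ} {l : List ℕ} (h : Good (a :: l)) (ha : 2 ≤ a) :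
    orderOf (compMat (a :: l) ^ mu l) = (a * l.prod) / Nat.gcd (a * l.prod) (mu l) := by
  have hr : 0 < a * l.prod := Nat.mul_pos h.head h.tail.prod_pos
  have hf : IsOfFinOrder (compMat (a :: l)) := by
    rw [← orderOf_pos_iff, orderOf_comp h ha]; exact hr
  rw [hf.orderOf_pow, orderOf_comp h ha]

end Crest.Agent.R267.P41_339
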