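import Mathlib
import Crest.Agent.R267.P4Defs_780
import Crest.Agent.R267.P41_339
import Crest.Agent.R267.P413Def_322

/-!
# S0407, node P4.13 (helper322): `chainMat c` is congruent to the poset matrix of the page

For strictly increasing chains.  Idea: the inverse of `chainMat (a :: l)` is the matrix
`W s t = L_l (ω^s, ω^t)` for `s ≤ t`, `0` for `s > t`, of a word of consecutive powers of `ω`; cut
into `a - 1` blocks of length `mu l` and a last shorter block; every block is a triangular basis
and may be replaced by any other triangular basis of the same sublattice.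
-/

set_option autoImplicit false

namespace Crest.Agent.R267.P413_322

open Polynomial Matrix Crest.Agent.R267.P4Defs_780 Crest.Agent.R267.P41_339
  Crest.Agent.R267.P413Def_322

/-! ### the lattice of a chain -/

lemma mu_pos : ∀ {l : List ℕ}, (∀ a ∈ l, 2 ≤ a) → 0 < mu l
  | [], _ => by simp [mu]
  | a :: l, h => by
      have h1 := mu_le_prod l
      have h2 : 2 ≤ a := h a List.mem_cons_self
      have h3 : Good l := Good.of_two (fun b hb => h b (List.mem_cons_of_mem _ hb))
      have h4 := h3.prod_pos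
      have h5 := mu_add_mu (a := a) (l := l) (by omega)
      nlinarith

lemma comp_nil : compMat [] = 1 := by
  ext i j
  have hi : (i : ℕ) = 0 := by have := i.2; simp only [mu] at this; omega
  have hj : (j : ℕ) = 0 := by have := j.2; simp only [mu] at this; omega
  have hij : i = j := Fin.ext (by omega)
  subst hij
  rw [Matrix.one_apply_eq]
  unfold compMat
  rw [if_neg (by rw [hj]; simp [mu]), hi]
  simp [phi]

/-- `Cᵀ L C = L`, also for the empty chain. -/
theorem inv_l {l : List ℕ} (h : Good l) :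
    (compMat l)ᵀ * chainMat l * compMat l = chainMat l := by
  cases l with
  | nil => rw [comp_nil]; simp
  | cons a l => exact chain_inv h

theorem inv_pow {l : List ℕ} (h : Good l) (n : ℕ) :
    (compMat l ^ n)ᵀ * chainMat l * compMat l ^ n = chainMat l := by
  induction n with
  | zero => simp
  | succ n ih =>
      rw [pow_succ, Matrix.transpose_mul]
      calc (compMat l)ᵀ * (compMat l ^ n)ᵀ * chainMat l * (compMat l ^ n * compMat l)
          = (compMat l)ᵀ * ((compMat l ^ n)ᵀ * chainMat l * compMat l ^ n) * compMat l := by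
            simp only [Matrix.mul_assoc]
        _ = _ := by rw [ih, inv_l h]

variable {l : List ℕ}

lemma col_zero (h0 : 0 < mu l) (i k : Fin (mu l)) :
    (compMat l ^ (i : ℕ)) k ⟨0, h0⟩ = if k = i then 1 else 0 := by
  have h := congrFun (comp_pow_mulVec_zero h0 i.2) k
  rw [Matrix.mulVec_single_one, Matrix.col_apply] at h
  rw [h]
  by_cases hk : k = i
  · subst hk; simp
  · rw [if_neg hk, Pi.single_eq_of_ne hk]

lemma col_shift (h0 : 0 < mu l) (s : ℕ) (i k : Fin (mu l)) :
    (compMat l ^ (s + (i : ℕ))) k ⟨0, h0⟩ = (compMat l ^ s) k i := by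
  rw [pow_add, Matrix.mul_apply, Finset.sum_eq_single i]
  · rw [col_zero h0, if_pos rfl, mul_one]
  · intro j _ hj
    rw [col_zero h0, if_neg hj, mul_zero]
  · simp

/-- Gram matrix of the letters `ω^s`. -/
noncomputable def gr (l : List ℕ) (h0 : 0 < mu l) (s t : ℕ) : ℤ :=
  ((compMat l ^ s)ᵀ * chainMat l * compMat l ^ t) ⟨0, h0⟩ ⟨0, h0⟩

lemma gr_shift (hg : Good l) (h0 : 0 < mu l) (s t k : ℕ) :
    gr l h0 (s + k) (t + k) = gr l h0 s t := by
  have key : (compMat l ^ (s + k))ᵀ * chainMat l * compMat l ^ (t + k) =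
      (compMat l ^ s)ᵀ * chainMat l * compMat l ^ t := by
    rw [add_comm s, add_comm t, pow_add, pow_add, Matrix.transpose_mul]
    calc (compMat l ^ s)ᵀ * (compMat l ^ k)ᵀ * chainMat l * (compMat l ^ k * compMat l ^ t)
        = (compMat l ^ s)ᵀ * ((compMat l ^ k)ᵀ * chainMat l * compMat l ^ k) * compMat l ^ t := by
          simp only [Matrix.mul_assoc]
      _ = _ := by rw [inv_pow hg]
  unfold gr
  rw [key]

lemma gr_eq (hg : Good l) (h0 : 0 < mu l) {s t : ℕ} (h : s ≤ t) :
    gr l h0 s t = gr l h0 0 (t - s) := by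
  have := gr_shift hg h0 0 (t - s) s
  rw [zero_add, Nat.sub_add_cancel h] at this
  exact this

lemma gr_basis (h0 : 0 < mu l) (i j : Fin (mu l)) : gr l h0 i j = chainMat l i j := by
  unfold gr
  rw [Matrix.mul_apply, Finset.sum_eq_single j]
  · rw [col_zero h0, if_pos rfl, mul_one, Matrix.mul_apply, Finset.sum_eq_single i]
    · rw [Matrix.transpose_apply, col_zero h0, if_pos rfl, one_mul]
    · intro k _ hk
      rw [Matrix.transpose_apply, col_zero h0, if_neg hk, zero_mul]
    · simp
  · intro k _ hk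
    rw [col_zero h0, if_neg hk, mul_zero]
  · simp

lemma chain_lower (i j : Fin (mu l)) (h : j < i) : chainMat l i j = 0 := by
  cases l with
  | nil =>
      have hi := i.2
      simp only [mu] at hi
      have : (j : ℕ) < i := h
      omega
  | cons a l => rw [chainMat_apply, if_neg (not_le.2 h)]

lemma chain_diag (hg : Good l) (i : Fin (mu l)) : chainMat l i i = 1 := by
  cases l with
  | nil => simp [chainMat]
  | cons a l =>
      rw [chainMat_apply, if_pos le_rfl, Nat.sub_self, symb_coeff, phi_coeff_zero hg.tail,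
        ← mul_pow]
      simp

lemma gr_zero (hg : Good l) (h0 : 0 < mu l) {s t : ℕ} (h1 : t < s) (h2 : s < t + mu l) :
    gr l h0 s t = 0 := by
  have h3 := gr_shift hg h0 (s - t) 0 t
  rw [zero_add, Nat.sub_add_cancel h1.le] at h3
  have h4 := gr_basis h0 (⟨s - t, by omega⟩ : Fin (mu l)) ⟨0, h0⟩
  rw [h3]
  simp only at h4
  rw [h4]
  apply chain_lower
  show (0 : ℕ) < s - t
  omega

lemma gr_self (hg : Good l) (h0 : 0 < mu l) (s : ℕ) : gr l h0 s s = 1 := by
  rw [gr_eq hg h0 le_rfl, Nat.sub_self]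
  have h4 := gr_basis h0 (⟨0, h0⟩ : Fin (mu l)) ⟨0, h0⟩
  simp only at h4
  rw [h4, chain_diag hg]

lemma gr_rec (hg : Good l) (h0 : 0 < mu l) (s t : ℕ) :
    ∑ i ∈ Finset.range (mu l + 1), (symb l).coeff i * gr l h0 (s + i) t = 0 := by
  have h1 : ∑ i ∈ Finset.range (mu l + 1), (phi l).coeff i • compMat l ^ i = 0 := by
    have := comp_phi hg
    rw [aeval_eq_sum_range, (basic hg).natDegree] at this
    exact this
  have h2 : ∑ i ∈ Finset.range (mu l + 1), (phi l).coeff i * gr l h0 (s + i) t =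
      ((∑ i ∈ Finset.range (mu l + 1), (phi l).coeff i • compMat l ^ i) * compMat l ^ s)ᵀ.mulVec
        ((chainMat l * compMat l ^ t).mulVec (Pi.single ⟨0, h0⟩ 1)) ⟨0, h0⟩ := by
    rw [Finset.sum_mul, Matrix.transpose_sum, Matrix.sum_mulVec, Finset.sum_apply]
    refine Finset.sum_congr rfl fun i _ => ?_
    rw [Matrix.mulVec_mulVec, Matrix.mulVec_single_one, Matrix.col_apply]
    unfold gr
    rw [Matrix.smul_mul, Matrix.transpose_smul, Matrix.smul_mul, Matrix.smul_apply, smul_eq_mul,
      add_comm s i, pow_add, Matrix.mul_assoc]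
  have h3 : ∑ i ∈ Finset.range (mu l + 1), (symb l).coeff i * gr l h0 (s + i) t =
      (-1) ^ (l.length + 1) *
        ∑ i ∈ Finset.range (mu l + 1), (phi l).coeff i * gr l h0 (s + i) t := by
    rw [Finset.mul_sum]
    refine Finset.sum_congr rfl fun i _ => ?_
    rw [symb_coeff]; ring
  rw [h3, h2, h1]
  simp

/-- the upper triangular matrix of the word `1, ω, ω², …` (`n` letters). -/
noncomputable def W (l : List ℕ) (h0 : 0 < mu l) (n : ℕ) : Matrix (Fin n) (Fin n) ℤ :=
  fun s t => if s ≤ t then gr l h0 s t else 0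

lemma symb_rec (hg : Good l) (h0 : 0 < mu l) {s t : ℕ} (h : s < t) :
    ∑ i ∈ Finset.range (t - s + 1), (symb l).coeff i * gr l h0 (s + i) t = 0 := by
  rcases Nat.lt_or_ge (mu l) (t - s) with h1 | h1
  · rw [← gr_rec hg h0 s t]
    symm
    apply Finset.sum_subset
    · intro i hi
      simp only [Finset.mem_range] at hi ⊢
      omega
    · intro i _ hi
      simp only [Finset.mem_range, not_lt] at hi
      rw [coeff_eq_zero_of_natDegree_lt, zero_mul]
      rw [symb_natDegree hg]; omega
  · rw [← gr_rec hg h0 s t]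
    apply Finset.sum_subset
    · intro i hi
      simp only [Finset.mem_range] at hi ⊢
      omega
    · intro i hi hi2
      simp only [Finset.mem_range, not_lt] at hi hi2
      rw [gr_zero hg h0 (by omega) (by omega), mul_zero]

/-- `L_{a :: l} W = 1`. -/
theorem chain_mul_W (a : ℕ) (hg : Good l) (h0 : 0 < mu l) :
    chainMat (a :: l) * W l h0 (mu (a :: l)) = 1 := by
  ext s t
  rw [Matrix.mul_apply]
  have e1 : ∀ j : Fin (mu (a :: l)), chainMat (a :: l) s j * W l h0 (mu (a :: l)) j t =
      (fun j : ℕ => if (s : ℕ) ≤ j ∧ j ≤ t then (symb l).coeff (j - s) * gr l h0 j t else 0)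
        (j : ℕ) := by
    intro j
    rw [chainMat_apply]
    unfold W
    simp only [Fin.le_def]
    by_cases h1 : (s : ℕ) ≤ j
    · by_cases h2 : (j : ℕ) ≤ t
      · rw [if_pos h1, if_pos h2, if_pos ⟨h1, h2⟩]
      · have h3 : ¬ ((s : ℕ) ≤ j ∧ (j : ℕ) ≤ t) := fun h => h2 h.2
        rw [if_neg h2, if_neg h3, mul_zero]
    · have h3 : ¬ ((s : ℕ) ≤ j ∧ (j : ℕ) ≤ t) := fun h => h1 h.1
      rw [if_neg h1, if_neg h3, zero_mul]
  rw [Finset.sum_congr rfl fun j _ => e1 j, Fin.sum_univ_eq_sum_range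
    (fun j : ℕ => if (s : ℕ) ≤ j ∧ j ≤ t then (symb l).coeff (j - s) * gr l h0 j t else 0)]
  rcases lt_trichotomy (s : ℕ) t with h | h | h
  · have hst : s ≠ t := fun e => by rw [e] at h; exact lt_irrefl _ h
    rw [Matrix.one_apply_ne hst, ← Finset.sum_filter]
    have e2 : (Finset.range (mu (a :: l))).filter (fun j => (s : ℕ) ≤ j ∧ j ≤ t) =
        Finset.Ico (s : ℕ) (t + 1) := by
      ext j
      have := t.2
      simp only [Finset.mem_filter, Finset.mem_range, Finset.mem_Ico]
      omega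
    rw [e2, Finset.sum_Ico_eq_sum_range]
    have e3 : (t : ℕ) + 1 - s = t - s + 1 := by omega
    rw [e3, ← symb_rec hg h0 h]
    refine Finset.sum_congr rfl fun i _ => ?_
    rw [Nat.add_sub_cancel_left]
  · have hst : s = t := Fin.ext h
    subst hst
    rw [Matrix.one_apply_eq, Finset.sum_eq_single (s : ℕ)]
    · rw [if_pos ⟨le_rfl, le_rfl⟩, Nat.sub_self, gr_self hg, symb_coeff, phi_coeff_zero hg,
        ← mul_pow]
      simp
    · intro j _ hj
      rw [if_neg]
      rintro ⟨h1, h2⟩
      exact hj (le_antisymm h2 h1)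
    · intro h1
      exact absurd (Finset.mem_range.2 s.2) h1
  · have hst : s ≠ t := fun e => by rw [e] at h; exact lt_irrefl _ h
    rw [Matrix.one_apply_ne hst]
    apply Finset.sum_eq_zero
    intro j _
    rw [if_neg]
    rintro ⟨h1, h2⟩
    omega

theorem W_mul_chain (a : ℕ) (hg : Good l) (h0 : 0 < mu l) :
    W l h0 (mu (a :: l)) * chainMat (a :: l) = 1 :=
  mul_eq_one_comm.1 (chain_mul_W a hg h0)

/-! ### the dual basis -/

/-- dual basis: `G i s = W (rev s) i`. -/
noncomputable def G (l : List ℕ) (h0 : 0 < mu l) (n : ℕ) : Matrix (Fin n) (Fin n) ℤ :=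
  fun i s => W l h0 n s.rev i

/-- its inverse. -/
noncomputable def H (a : ℕ) (l : List ℕ) : Matrix (Fin (mu (a :: l))) (Fin (mu (a :: l))) ℤ :=
  fun s i => chainMat (a :: l) i s.rev

lemma G_mul_H (a : ℕ) (hg : Good l) (h0 : 0 < mu l) : G l h0 (mu (a :: l)) * H a l = 1 := by
  ext i j
  have h1 := congrFun (congrFun (chain_mul_W a hg h0) j) i
  rw [Matrix.mul_apply] at h1 ⊢
  have e1 : ∑ s, G l h0 (mu (a :: l)) i s * H a l s j =
      ∑ s, chainMat (a :: l) j s * W l h0 (mu (a :: l)) s i := by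
    rw [← Equiv.sum_comp Fin.revPerm]
    refine Finset.sum_congr rfl fun s _ => ?_
    simp only [G, H, Fin.revPerm_apply, Fin.rev_rev]
    ring
  rw [e1, h1, Matrix.one_apply, Matrix.one_apply]
  simp only [eq_comm]

lemma H_mul_G (a : ℕ) (hg : Good l) (h0 : 0 < mu l) : H a l * G l h0 (mu (a :: l)) = 1 :=
  mul_eq_one_comm.1 (G_mul_H a hg h0)

lemma G_gram (a : ℕ) (hg : Good l) (h0 : 0 < mu l) :
    (G l h0 (mu (a :: l)))ᵀ * chainMat (a :: l) * G l h0 (mu (a :: l)) =
      W l h0 (mu (a :: l)) := by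
  have e1 : G l h0 (mu (a :: l)) = ((W l h0 (mu (a :: l)))ᵀ).submatrix id Fin.rev := rfl
  have e2 : (G l h0 (mu (a :: l)))ᵀ = (W l h0 (mu (a :: l))).submatrix Fin.rev id := rfl
  rw [e2, e1]
  have e3 : (W l h0 (mu (a :: l))).submatrix Fin.rev id * chainMat (a :: l) *
      ((W l h0 (mu (a :: l)))ᵀ).submatrix id Fin.rev =
      (W l h0 (mu (a :: l)) * chainMat (a :: l) * (W l h0 (mu (a :: l)))ᵀ).submatrix
        Fin.rev Fin.rev := by
    ext s t
    simp only [Matrix.mul_apply, Matrix.submatrix_apply, id]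
  rw [e3, W_mul_chain a hg h0, Matrix.one_mul]
  ext s t
  rw [Matrix.submatrix_apply, Matrix.transpose_apply]
  unfold W
  simp only [Fin.rev_le_rev]
  split_ifs with h
  · have h' : (s : ℕ) ≤ t := h
    have hs := s.2
    have ht := t.2
    rw [gr_eq hg h0 h', gr_eq hg h0 (Fin.rev_le_rev.2 h)]
    congr 1
    rw [Fin.val_rev, Fin.val_rev]
    omega
  · rfl

end Crest.Agent.R267.P413_322
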