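import Mathlib
import Crest.Agent.R267.P4Defs_780
import Crest.Agent.R267.P41_339
import Crest.Agent.R267.P413Def_322
import Crest.Agent.R267.P413_322

/-!
# S0407, node P4.13, part 2 (helper322): induction over the chain and the theorem for systems
-/

set_option autoImplicit false

namespace Crest.Agent.R267.P413_322

open Polynomial Matrix Crest.Agent.R267.P4Defs_780 Crest.Agent.R267.P41_339
  Crest.Agent.R267.P413Def_322

/-! ### sums over the letters -/

lemma sum_PF (a : ℕ) (l : List ℕ) (F : List ℕ → ℤ) :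
    ∑ x ∈ PF (a :: l), F x = ∑ x0 ∈ Finset.range (a + 1), ∑ y ∈ PF l,
      if 1 ≤ x0 ∧ (x0 < a ∨ (x0 = a ∧ low a y)) then F (x0 :: y) else 0 := by
  rw [PF, Finset.sum_image, Finset.sum_filter, Finset.sum_product]
  rintro ⟨p, q⟩ _ ⟨p', q'⟩ _ h
  simp only [List.cons.injEq] at h
  exact Prod.ext h.1 h.2

/-- the filtered form of the induction hypothesis. -/
structure Fil (c : List ℕ) (k j : ℕ) (P : Matrix (Fin (mu c)) (List ℕ) ℤ)
    (Q : Matrix (List ℕ) (Fin (mu c)) ℤ) : Prop where
  PQ : ∀ i i', ∑ x ∈ PF c, P i x * Q x i' = if i = i' then 1 else 0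
  QP : ∀ x ∈ PF c, ∀ y ∈ PF c, ∑ i, Q x i * P i y = if x = y then 1 else 0
  gram : ∀ x ∈ PF c, ∀ y ∈ PF c, (Pᵀ * chainMat c * P) x y = zt x y
  fP : ∀ x ∈ PF c, low j x → ∀ i : Fin (mu c), k ≤ (i : ℕ) → P i x = 0
  fQ : ∀ x ∈ PF c, ¬ low j x → ∀ i : Fin (mu c), (i : ℕ) < k → Q x i = 0

lemma fil_nil (j : ℕ) : Fil [] 0 j (Matrix.of fun _ _ => 1) (Matrix.of fun _ _ => 1) where
  PQ := by
    intro i i'
    have : i = i' := by
      apply Fin.ext
      have h1 := i.2
      have h2 := i'.2
      simp only [mu] at h1 h2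
      omega
    simp [PF, this]
  QP := by
    intro x hx y hy
    simp only [PF, Finset.mem_singleton] at hx hy
    subst hx; subst hy
    have h1 : (Finset.univ : Finset (Fin (mu []))).card = 1 := Fintype.card_fin _
    simp [h1]
  gram := by
    intro x hx y hy
    simp only [PF, Finset.mem_singleton] at hx hy
    subst hx; subst hy
    have h1 : (Finset.univ : Finset (Fin (mu []))).card = 1 := Fintype.card_fin _
    have h2 : chainMat [] = 1 := rfl
    rw [h2, Matrix.mul_one, Matrix.mul_apply]
    simp [h1, zt]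
  fP := by
    intro x hx hl
    simp only [PF, Finset.mem_singleton] at hx
    subst hx
    exact absurd hl (by simp [low])
  fQ := by
    intro x _ _ i hi
    exact absurd hi (Nat.not_lt_zero _)

lemma sum_fin_ind (n k : ℕ) (f : ℕ → ℤ) :
    ∑ s : Fin n, (if (s : ℕ) = k then f s else 0) = if k < n then f k else 0 := by
  split_ifs with h
  · rw [Finset.sum_eq_single (⟨k, h⟩ : Fin n)]
    · simp
    · intro s _ hs
      rw [if_neg]
      intro e
      exact hs (Fin.ext e)
    · simp
  · apply Finset.sum_eq_zero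
    intro s _
    rw [if_neg]
    have := s.2
    omega

lemma block_inj {m x y i j : ℕ} (hi : i < m) (hj : j < m) (h : x * m + i = y * m + j) :
    x = y ∧ i = j := by
  have hm : 0 < m := by omega
  have h1 : (x * m + i) / m = x := by
    rw [mul_comm, Nat.mul_add_div hm, Nat.div_eq_of_lt hi, add_zero]
  have h2 : (y * m + j) / m = y := by
    rw [mul_comm, Nat.mul_add_div hm, Nat.div_eq_of_lt hj, add_zero]
  have h3 : x = y := by rw [← h1, ← h2, h]
  subst h3
  exact ⟨rfl, by omega⟩

section Step

variable (a : ℕ) (l : List ℕ) (P' : Matrix (Fin (mu l)) (List ℕ) ℤ)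
  (Q' : Matrix (List ℕ) (Fin (mu l)) ℤ)

/-- inverse of the companion matrix -/
noncomputable def Cinv (c : List ℕ) : Matrix (Fin (mu c)) (Fin (mu c)) ℤ :=
  compMat c ^ (c.prod - 1)

lemma Cinv_mul {c : List ℕ} (h : Good c) : Cinv c * compMat c = 1 := by
  unfold Cinv
  rw [← pow_succ, Nat.sub_add_cancel h.prod_pos, comp_pow_prod h]

lemma Cinv_pow_mul {c : List ℕ} (h : Good c) (n : ℕ) : Cinv c ^ n * compMat c ^ n = 1 := by
  have hc : Commute (Cinv c) (compMat c) := (Commute.refl _).pow_left _
  rw [← hc.mul_pow, Cinv_mul h, one_pow]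

lemma pow_mul_Cinv {c : List ℕ} (h : Good c) (n : ℕ) : compMat c ^ n * Cinv c ^ n = 1 :=
  mul_eq_one_comm.1 (Cinv_pow_mul h n)

/-- coefficients of the block `x0` -/
noncomputable def DD (x0 : ℕ) : Matrix (Fin (mu l)) (List ℕ) ℤ :=
  compMat l ^ ((a - x0) * mu l) * P'

/-- inverse coefficients -/
noncomputable def EE (x0 : ℕ) : Matrix (List ℕ) (Fin (mu l)) ℤ :=
  Q' * Cinv l ^ ((a - x0) * mu l)

/-- block diagonal base change -/
noncomputable def RR (n : ℕ) : Matrix (Fin n) (List ℕ) ℤ := fun s x =>
  match x with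
  | [] => 0
  | x0 :: y => ∑ i : Fin (mu l), if (s : ℕ) = (x0 - 1) * mu l + i then DD a l P' x0 i y else 0

/-- its inverse -/
noncomputable def SS (n : ℕ) : Matrix (List ℕ) (Fin n) ℤ := fun x s =>
  match x with
  | [] => 0
  | x0 :: y => ∑ i : Fin (mu l), if (s : ℕ) = (x0 - 1) * mu l + i then EE a l Q' x0 y i else 0

lemma RR_cons (n : ℕ) (s : Fin n) (x0 : ℕ) (y : List ℕ) : RR a l P' n s (x0 :: y) =
    ∑ i : Fin (mu l), if (s : ℕ) = (x0 - 1) * mu l + i then DD a l P' x0 i y else 0 := rfl

lemma SS_cons (n : ℕ) (s : Fin n) (x0 : ℕ) (y : List ℕ) : SS a l Q' n (x0 :: y) s =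
    ∑ i : Fin (mu l), if (s : ℕ) = (x0 - 1) * mu l + i then EE a l Q' x0 y i else 0 := rfl

lemma sum_RR (n : ℕ) (f : ℕ → ℤ) (x0 : ℕ) (y : List ℕ) :
    ∑ s : Fin n, f s * RR a l P' n s (x0 :: y) =
      ∑ i : Fin (mu l), if (x0 - 1) * mu l + i < n then
        f ((x0 - 1) * mu l + i) * DD a l P' x0 i y else 0 := by
  simp only [RR_cons, Finset.mul_sum]
  rw [Finset.sum_comm]
  refine Finset.sum_congr rfl fun i _ => ?_
  rw [← sum_fin_ind n ((x0 - 1) * mu l + i) (fun s => f s * DD a l P' x0 i y)]
  refine Finset.sum_congr rfl fun s _ => ?_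
  rw [mul_ite, mul_zero]

variable {a l P' Q'} {k : ℕ}

lemma DD_last (y : List ℕ) (i : Fin (mu l)) : DD a l P' a i y = P' i y := by
  unfold DD
  rw [Nat.sub_self, zero_mul, pow_zero, Matrix.one_mul]

lemma EE_last (y : List ℕ) (i : Fin (mu l)) : EE a l Q' a y i = Q' y i := by
  unfold EE
  rw [Nat.sub_self, zero_mul, pow_zero, Matrix.mul_one]

/-- size of a block: all letters of a full block are inside, of the last block the first `k`. -/
lemma block_lt {n x0 i : ℕ} (hn : n = (a - 1) * mu l + k) (hx : 1 ≤ x0) (hxa : x0 < a)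
    (hi : i < mu l) : (x0 - 1) * mu l + i < n := by
  have h1 : (x0 - 1 + 1) * mu l ≤ (a - 1) * mu l := Nat.mul_le_mul_right _ (by omega)
  rw [add_mul, one_mul] at h1
  omega

lemma U_RR (hF : Fil l k a P' Q') (h0 : 0 < mu l) {n : ℕ}
    (hn : n = (a - 1) * mu l + k) {x0 : ℕ} {y : List ℕ} (hx : x0 :: y ∈ PF (a :: l))
    (p : Fin (mu l)) :
    ∑ s : Fin n, (compMat l ^ (s : ℕ)) p ⟨0, h0⟩ * RR a l P' n s (x0 :: y) =
      (compMat l ^ ((a - 1) * mu l) * P') p y := by
  rw [sum_RR a l P' n (fun s => (compMat l ^ s) p ⟨0, h0⟩)]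
  obtain ⟨h1, h2, h3⟩ := mem_PF.1 hx
  have h3' := mem_PF.2 h3
  have e1 : ∀ i : Fin (mu l), (if (x0 - 1) * mu l + (i : ℕ) < n then
      (compMat l ^ ((x0 - 1) * mu l + (i : ℕ))) p ⟨0, h0⟩ * DD a l P' x0 i y else 0) =
      (compMat l ^ ((x0 - 1) * mu l)) p i * DD a l P' x0 i y := by
    intro i
    rw [col_shift h0]
    split_ifs with hlt
    · rfl
    · rcases h2 with h2 | ⟨h2, h4⟩
      · exact absurd (block_lt hn h1 h2 i.2) hlt
      · subst h2
        rw [DD_last, hF.fP y h3' h4 i (by omega), mul_zero]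
  rw [Finset.sum_congr rfl fun i _ => e1 i, ← Matrix.mul_apply]
  unfold DD
  have e2 : x0 - 1 + (a - x0) = a - 1 := by
    rcases h2 with h2 | ⟨h2, _⟩ <;> omega
  rw [← Matrix.mul_assoc, ← pow_add, ← add_mul, e2]

lemma SS_RR (hg : Good l) (hF : Fil l k a P' Q') {n : ℕ}
    (hn : n = (a - 1) * mu l + k) {x y : List ℕ} (hx : x ∈ PF (a :: l)) (hy : y ∈ PF (a :: l)) :
    ∑ s : Fin n, SS a l Q' n x s * RR a l P' n s y = if x = y then 1 else 0 := by
  cases x with
  | nil => exact absurd (mem_PF.1 hx) (by simp [Ok])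
  | cons x0 x =>
    cases y with
    | nil => exact absurd (mem_PF.1 hy) (by simp [Ok])
    | cons y0 y =>
      obtain ⟨h1, h2, h3⟩ := mem_PF.1 hx
      obtain ⟨g1, g2, g3⟩ := mem_PF.1 hy
      have h3' := mem_PF.2 h3
      have g3' := mem_PF.2 g3
      have e1 : ∑ s : Fin n, SS a l Q' n (x0 :: x) s * RR a l P' n s (y0 :: y) =
          ∑ i : Fin (mu l), if (y0 - 1) * mu l + i < n then
            (∑ j : Fin (mu l), if (y0 - 1) * mu l + (i : ℕ) = (x0 - 1) * mu l + j then
              EE a l Q' x0 x j else 0) * DD a l P' y0 i y else 0 := by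
        rw [← sum_RR a l P' n (fun s => ∑ j : Fin (mu l), if s = (x0 - 1) * mu l + (j : ℕ) then
              EE a l Q' x0 x j else 0)]
        rfl
      rw [e1]
      by_cases hxy : x0 = y0
      · subst hxy
        have e2 : ∀ i : Fin (mu l), (∑ j : Fin (mu l),
            if (x0 - 1) * mu l + (i : ℕ) = (x0 - 1) * mu l + j then
              EE a l Q' x0 x j else 0) = EE a l Q' x0 x i := by
          intro i
          rw [Finset.sum_eq_single i]
          · rw [if_pos rfl]
          · intro j _ hj
            rw [if_neg]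
            intro e
            exact hj (Fin.ext (by omega))
          · simp
        have e3 : ∀ i : Fin (mu l), (if (x0 - 1) * mu l + (i : ℕ) < n then
            (∑ j : Fin (mu l), if (x0 - 1) * mu l + (i : ℕ) = (x0 - 1) * mu l + j then
              EE a l Q' x0 x j else 0) * DD a l P' x0 i y else 0) =
            EE a l Q' x0 x i * DD a l P' x0 i y := by
          intro i
          rw [e2]
          split_ifs with hlt
          · rfl
          · rcases g2 with g2 | ⟨g2, g4⟩
            · exact absurd (block_lt hn g1 g2 i.2) hlt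
            · subst g2
              rw [DD_last, hF.fP y g3' g4 i (by omega), mul_zero]
        rw [Finset.sum_congr rfl fun i _ => e3 i, ← Matrix.mul_apply]
        unfold EE DD
        rw [Matrix.mul_assoc, ← Matrix.mul_assoc (Cinv l ^ _), Cinv_pow_mul hg, Matrix.one_mul,
          Matrix.mul_apply, hF.QP x h3' y g3']
        simp
      · rw [if_neg (by simp [hxy])]
        apply Finset.sum_eq_zero
        intro i _
        split_ifs with hlt
        · rw [Finset.sum_eq_zero, zero_mul]
          intro j _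
          rw [if_neg]
          intro e
          have := (block_inj i.2 j.2 e).1
          omega
        · rfl

lemma RR_SS (hg : Good l) (hF : Fil l k a P' Q') {n : ℕ} (h0 : 0 < mu l) (ha : 1 ≤ a)
    (hn : n = (a - 1) * mu l + k) (hk : k ≤ mu l) (s t : Fin n) :
    ∑ x ∈ PF (a :: l), RR a l P' n s x * SS a l Q' n x t = if s = t then 1 else 0 := by
  rw [sum_PF]
  -- decomposition of `s` and `t`
  have hs := s.2
  have ht := t.2
  obtain ⟨b, hb⟩ : ∃ b, b = (s : ℕ) / mu l := ⟨_, rfl⟩
  obtain ⟨b', hb'⟩ : ∃ b, b = (t : ℕ) / mu l := ⟨_, rfl⟩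
  have hsm := Nat.mod_lt (s : ℕ) h0
  have htm := Nat.mod_lt (t : ℕ) h0
  have hse : (s : ℕ) = b * mu l + (s : ℕ) % mu l := by
    rw [hb, mul_comm]; exact (Nat.div_add_mod _ _).symm
  have hte : (t : ℕ) = b' * mu l + (t : ℕ) % mu l := by
    rw [hb', mul_comm]; exact (Nat.div_add_mod _ _).symm
  have hba : b < a := by
    by_contra hcon
    have h1 : a * mu l ≤ b * mu l := Nat.mul_le_mul_right _ (by omega)
    have h2 : a * mu l = (a - 1) * mu l + mu l := by
      rw [← Nat.succ_mul]; congr 1; omega
    omega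
  have e1 : ∀ x0 y, 1 ≤ x0 → RR a l P' n s (x0 :: y) * SS a l Q' n (x0 :: y) t =
      if x0 = b + 1 then (if b = b' then
        DD a l P' (b + 1) ⟨(s : ℕ) % mu l, hsm⟩ y * EE a l Q' (b + 1) y ⟨(t : ℕ) % mu l, htm⟩
        else 0) else 0 := by
    intro x0 y hx0
    rw [RR_cons, SS_cons]
    by_cases hx : x0 = b + 1
    · subst hx
      rw [if_pos rfl, Nat.add_sub_cancel, Finset.sum_eq_single ⟨(s : ℕ) % mu l, hsm⟩,
        if_pos hse]
      · by_cases hbb : b = b'
        · subst hbb
          rw [if_pos rfl, Finset.sum_eq_single ⟨(t : ℕ) % mu l, htm⟩, if_pos hte]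
          · intro j _ hj
            rw [if_neg]
            intro e
            apply hj
            apply Fin.ext
            have := (block_inj (m := mu l) htm j.2 (hte.symm.trans e)).2
            exact this.symm
          · simp
        · rw [if_neg hbb, Finset.sum_eq_zero, mul_zero]
          intro j _
          rw [if_neg]
          intro e
          exact hbb (block_inj (m := mu l) htm j.2 (hte.symm.trans e)).1.symm
      · intro j _ hj
        rw [if_neg]
        intro e
        apply hj
        apply Fin.ext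
        exact (block_inj (m := mu l) hsm j.2 (hse.symm.trans e)).2.symm
      · simp
    · rw [if_neg hx, Finset.sum_eq_zero, zero_mul]
      intro j _
      rw [if_neg]
      intro e
      have := (block_inj (m := mu l) hsm j.2 (hse.symm.trans e)).1
      omega
  have e2 : ∀ x0 ∈ Finset.range (a + 1), (∑ y ∈ PF l,
      if 1 ≤ x0 ∧ (x0 < a ∨ (x0 = a ∧ low a y)) then
        RR a l P' n s (x0 :: y) * SS a l Q' n (x0 :: y) t else 0) =
      if x0 = b + 1 then (∑ y ∈ PF l, if (x0 < a ∨ (x0 = a ∧ low a y)) then (if b = b' then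
        DD a l P' (b + 1) ⟨(s : ℕ) % mu l, hsm⟩ y * EE a l Q' (b + 1) y ⟨(t : ℕ) % mu l, htm⟩
        else 0) else 0) else 0 := by
    intro x0 _
    by_cases hx0 : 1 ≤ x0
    · by_cases hx : x0 = b + 1
      · rw [if_pos hx]
        refine Finset.sum_congr rfl fun y _ => ?_
        rw [e1 x0 y hx0, if_pos hx]
        simp only [hx0, true_and]
      · rw [if_neg hx]
        apply Finset.sum_eq_zero
        intro y _
        rw [e1 x0 y hx0, if_neg hx]
        simp
    · rw [if_neg (by omega)]
      apply Finset.sum_eq_zero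
      intro y _
      rw [if_neg]
      exact fun h => hx0 h.1
  rw [Finset.sum_congr rfl e2, Finset.sum_ite_eq' (Finset.range (a + 1)) (b + 1),
    if_pos (Finset.mem_range.2 (by omega))]
  by_cases hbb : b = b'
  · subst hbb
    simp only [if_true]
    have e3 : ∑ y ∈ PF l, DD a l P' (b + 1) ⟨(s : ℕ) % mu l, hsm⟩ y *
        EE a l Q' (b + 1) y ⟨(t : ℕ) % mu l, htm⟩ = if s = t then 1 else 0 := by
      unfold DD EE
      have e4 : ∀ y, (compMat l ^ ((a - (b + 1)) * mu l) * P') ⟨(s : ℕ) % mu l, hsm⟩ y *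
          (Q' * Cinv l ^ ((a - (b + 1)) * mu l)) y ⟨(t : ℕ) % mu l, htm⟩ =
          ∑ p, ∑ q, (compMat l ^ ((a - (b + 1)) * mu l)) ⟨(s : ℕ) % mu l, hsm⟩ p *
            (P' p y * Q' y q) * (Cinv l ^ ((a - (b + 1)) * mu l)) q ⟨(t : ℕ) % mu l, htm⟩ := by
        intro y
        rw [Matrix.mul_apply, Matrix.mul_apply, Finset.sum_mul]
        refine Finset.sum_congr rfl fun p _ => ?_
        rw [Finset.mul_sum]
        refine Finset.sum_congr rfl fun q _ => ?_
        ring
      rw [Finset.sum_congr rfl fun y _ => e4 y, Finset.sum_comm]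
      have e5 : ∀ p : Fin (mu l), ∑ y ∈ PF l, ∑ q,
          (compMat l ^ ((a - (b + 1)) * mu l)) ⟨(s : ℕ) % mu l, hsm⟩ p *
            (P' p y * Q' y q) * (Cinv l ^ ((a - (b + 1)) * mu l)) q ⟨(t : ℕ) % mu l, htm⟩ =
          (compMat l ^ ((a - (b + 1)) * mu l)) ⟨(s : ℕ) % mu l, hsm⟩ p *
            (Cinv l ^ ((a - (b + 1)) * mu l)) p ⟨(t : ℕ) % mu l, htm⟩ := by
        intro p
        rw [Finset.sum_comm]
        have e6 : ∀ q : Fin (mu l), ∑ y ∈ PF l,
            (compMat l ^ ((a - (b + 1)) * mu l)) ⟨(s : ℕ) % mu l, hsm⟩ p *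
            (P' p y * Q' y q) * (Cinv l ^ ((a - (b + 1)) * mu l)) q ⟨(t : ℕ) % mu l, htm⟩ =
            if p = q then (compMat l ^ ((a - (b + 1)) * mu l)) ⟨(s : ℕ) % mu l, hsm⟩ p *
            (Cinv l ^ ((a - (b + 1)) * mu l)) q ⟨(t : ℕ) % mu l, htm⟩ else 0 := by
          intro q
          rw [← Finset.sum_mul, ← Finset.mul_sum, hF.PQ p q]
          split_ifs <;> ring
        rw [Finset.sum_congr rfl fun q _ => e6 q, Finset.sum_ite_eq, if_pos (Finset.mem_univ _)]
      rw [Finset.sum_congr rfl fun p _ => e5 p, ← Matrix.mul_apply, pow_mul_Cinv hg,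
        Matrix.one_apply]
      have e7 : ((⟨(s : ℕ) % mu l, hsm⟩ : Fin (mu l)) = ⟨(t : ℕ) % mu l, htm⟩) ↔ s = t := by
        rw [Fin.mk.injEq]
        constructor
        · intro h
          apply Fin.ext
          rw [hse, hte, h]
        · rintro rfl; rfl
      simp only [e7]
    rw [← e3]
    refine Finset.sum_congr rfl fun y hy => ?_
    split_ifs with hcond
    · rfl
    · -- last block, `y` not low: the `EE` factor vanishes
      have hb1 : b + 1 = a := by
        by_contra hne
        exact hcond (Or.inl (by omega))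
      have hlow : ¬ low a y := fun h => hcond (Or.inr ⟨hb1, h⟩)
      rw [hb1, EE_last, hF.fQ y hy hlow, mul_zero]
      show (t : ℕ) % mu l < k
      have h1 : a - 1 = b := by omega
      rw [h1] at hn
      omega
  · have hst : s ≠ t := by
      rintro rfl
      exact hbb (hb.trans hb'.symm)
    rw [if_neg hst]
    apply Finset.sum_eq_zero
    intro y _
    rw [if_neg hbb]
    simp

/-- Gram matrix of the new basis. -/
lemma RR_gram (hg : Good l) (hF : Fil l k a P' Q') {n : ℕ} (h0 : 0 < mu l)
    (hn : n = (a - 1) * mu l + k) {x y : List ℕ} (hx : x ∈ PF (a :: l)) (hy : y ∈ PF (a :: l)) :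
    ((RR a l P' n)ᵀ * W l h0 n * RR a l P' n) x y = zt x y := by
  cases x with
  | nil => exact absurd (mem_PF.1 hx) (by simp [Ok])
  | cons x0 x =>
    cases y with
    | nil => exact absurd (mem_PF.1 hy) (by simp [Ok])
    | cons y0 y =>
      obtain ⟨h1, h2, h3⟩ := mem_PF.1 hx
      obtain ⟨g1, g2, g3⟩ := mem_PF.1 hy
      have h3' := mem_PF.2 h3
      have g3' := mem_PF.2 g3
      -- termwise replacement of `W`
      have hterm : ∀ s t : Fin n, RR a l P' n s (x0 :: x) * W l h0 n s t *
          RR a l P' n t (y0 :: y) = RR a l P' n s (x0 :: x) *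
            (if x0 ≤ y0 then gr l h0 s t else 0) * RR a l P' n t (y0 :: y) := by
        intro s t
        rw [RR_cons, RR_cons, Finset.sum_mul, Finset.sum_mul, Finset.sum_mul, Finset.sum_mul]
        refine Finset.sum_congr rfl fun i _ => ?_
        rw [Finset.mul_sum, Finset.mul_sum]
        refine Finset.sum_congr rfl fun j _ => ?_
        by_cases hs : (s : ℕ) = (x0 - 1) * mu l + i
        · by_cases ht : (t : ℕ) = (y0 - 1) * mu l + j
          · rw [if_pos hs, if_pos ht]
            congr 2
            unfold W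
            have hi := i.2
            have hj := j.2
            rcases lt_trichotomy x0 y0 with h | h | h
            · have h4 : (x0 - 1 + 1) * mu l ≤ (y0 - 1) * mu l :=
                Nat.mul_le_mul_right _ (by omega)
              rw [add_mul, one_mul] at h4
              rw [if_pos h.le, if_pos]
              rw [Fin.le_def]; omega
            · subst h
              rw [if_pos le_rfl]
              split_ifs with hle
              · rfl
              · rw [Fin.le_def] at hle
                exact (gr_zero hg h0 (by omega) (by omega)).symm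
            · have h4 : (y0 - 1 + 1) * mu l ≤ (x0 - 1) * mu l :=
                Nat.mul_le_mul_right _ (by omega)
              rw [add_mul, one_mul] at h4
              rw [if_neg (not_le.2 h), if_neg]
              rw [Fin.le_def]; omega
          · rw [if_neg ht, mul_zero, mul_zero]
        · rw [if_neg hs, zero_mul, zero_mul, zero_mul, zero_mul]
      have e1 : ((RR a l P' n)ᵀ * W l h0 n * RR a l P' n) (x0 :: x) (y0 :: y) =
          ∑ t, ∑ s, RR a l P' n s (x0 :: x) * W l h0 n s t * RR a l P' n t (y0 :: y) := by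
        rw [Matrix.mul_apply]
        refine Finset.sum_congr rfl fun t _ => ?_
        rw [Matrix.mul_apply, Finset.sum_mul]
        rfl
      rw [e1, Finset.sum_congr rfl fun t _ => Finset.sum_congr rfl fun s _ => hterm s t]
      rw [zt]
      by_cases hle : x0 ≤ y0
      · simp only [if_pos hle]
        -- `gr` factors through the lattice of `l`
        set U : Matrix (Fin (mu l)) (Fin n) ℤ := fun p s => (compMat l ^ (s : ℕ)) p ⟨0, h0⟩
          with hU
        have hgr : ∀ s t : Fin n, gr l h0 s t = (Uᵀ * chainMat l * U) s t := by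
          intro s t
          unfold gr
          rw [Matrix.mul_apply, Matrix.mul_apply]
          refine Finset.sum_congr rfl fun q _ => ?_
          rw [Matrix.mul_apply, Matrix.mul_apply]
          rfl
        have hUR : ∀ (z0 : ℕ) (z : List ℕ), z0 :: z ∈ PF (a :: l) → ∀ p,
            (U * RR a l P' n) p (z0 :: z) = (compMat l ^ ((a - 1) * mu l) * P') p z := by
          intro z0 z hz p
          rw [Matrix.mul_apply]
          exact U_RR hF h0 hn hz p
        have e2 : ∑ t : Fin n, ∑ s : Fin n,
            RR a l P' n s (x0 :: x) * gr l h0 s t * RR a l P' n t (y0 :: y) =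
            ((U * RR a l P' n)ᵀ * chainMat l * (U * RR a l P' n)) (x0 :: x) (y0 :: y) := by
          rw [Matrix.transpose_mul]
          have e3 : (RR a l P' n)ᵀ * Uᵀ * chainMat l * (U * RR a l P' n) =
              (RR a l P' n)ᵀ * (Uᵀ * chainMat l * U) * RR a l P' n := by
            simp only [Matrix.mul_assoc]
          rw [e3, Matrix.mul_apply]
          refine Finset.sum_congr rfl fun t _ => ?_
          rw [Matrix.mul_apply, Finset.sum_mul]
          refine Finset.sum_congr rfl fun s _ => ?_
          rw [hgr]; rfl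
        rw [e2, Matrix.mul_apply]
        have e4 : ∑ q, ((U * RR a l P' n)ᵀ * chainMat l) (x0 :: x) q *
            (U * RR a l P' n) q (y0 :: y) =
            ((compMat l ^ ((a - 1) * mu l) * P')ᵀ * chainMat l *
              (compMat l ^ ((a - 1) * mu l) * P')) x y := by
          rw [Matrix.mul_apply]
          refine Finset.sum_congr rfl fun q _ => ?_
          rw [hUR y0 y hy, Matrix.mul_apply, Matrix.mul_apply]
          congr 1
          refine Finset.sum_congr rfl fun p _ => ?_
          show (U * RR a l P' n) p (x0 :: x) * chainMat l p q =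
            (compMat l ^ ((a - 1) * mu l) * P') p x * chainMat l p q
          rw [hUR x0 x hx]
        rw [e4, Matrix.transpose_mul]
        have e5 : P'ᵀ * (compMat l ^ ((a - 1) * mu l))ᵀ * chainMat l *
            (compMat l ^ ((a - 1) * mu l) * P') = P'ᵀ * chainMat l * P' := by
          calc P'ᵀ * (compMat l ^ ((a - 1) * mu l))ᵀ * chainMat l *
              (compMat l ^ ((a - 1) * mu l) * P')
              = P'ᵀ * ((compMat l ^ ((a - 1) * mu l))ᵀ * chainMat l *
                compMat l ^ ((a - 1) * mu l)) * P' := by simp only [Matrix.mul_assoc]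
            _ = _ := by rw [inv_pow hg]
        rw [e5, hF.gram x h3' y g3']
      · simp [hle]

end Step

end Crest.Agent.R267.P413_322
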