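import Mathlib
import Crest.Agent.R267.P4Defs_780
import Crest.Agent.R267.P41_339
import Crest.Agent.R267.P413Def_322
import Crest.Agent.R267.P413b_322

/-!
# S0407, node P4.13, part 3 (helper322): the theorem

`p413_chain : Pierce c → Cong ℤ (chainMat c) (posMat c)`,
`p413 : (∀ c ∈ S, Pierce c) → Cong ℤ (sysMat S) (posSys S)`,
`pierce_chainOf : 2 * a < b → Pierce (chainOf a b)`, `pierce_F`.
-/

set_option autoImplicit false

namespace Crest.Agent.R267.P413_322

open Polynomial Matrix Crest.Agent.R267.P4Defs_780 Crest.Agent.R267.P41_339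
  Crest.Agent.R267.P413Def_322

lemma sandwich {n : ℕ} {F : Finset (List ℕ)} {R : Matrix (Fin n) (List ℕ) ℤ}
    {S : Matrix (List ℕ) (Fin n) ℤ}
    (h : ∀ p q, ∑ x ∈ F, R p x * S x q = if p = q then 1 else 0)
    (A B : Matrix (Fin n) (Fin n) ℤ) (i j : Fin n) :
    ∑ x ∈ F, (A * R) i x * (S * B) x j = (A * B) i j := by
  have e4 : ∀ x, (A * R) i x * (S * B) x j = ∑ p, ∑ q, A i p * (R p x * S x q) * B q j := by
    intro x
    rw [Matrix.mul_apply, Matrix.mul_apply, Finset.sum_mul]
    refine Finset.sum_congr rfl fun p _ => ?_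
    rw [Finset.mul_sum]
    refine Finset.sum_congr rfl fun q _ => ?_
    ring
  rw [Finset.sum_congr rfl fun x _ => e4 x, Finset.sum_comm, Matrix.mul_apply]
  refine Finset.sum_congr rfl fun p _ => ?_
  rw [Finset.sum_comm]
  have e6 : ∀ q : Fin n, ∑ x ∈ F, A i p * (R p x * S x q) * B q j =
      if p = q then A i p * B q j else 0 := by
    intro q
    rw [← Finset.sum_mul, ← Finset.mul_sum, h p q]
    split_ifs <;> ring
  rw [Finset.sum_congr rfl fun q _ => e6 q, Finset.sum_ite_eq, if_pos (Finset.mem_univ _)]

theorem step {a : ℕ} {l : List ℕ} {k : ℕ} {P' : Matrix (Fin (mu l)) (List ℕ) ℤ}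
    {Q' : Matrix (List ℕ) (Fin (mu l)) ℤ} (hg : Good (a :: l)) (h0 : 0 < mu l)
    (hF : Fil l k a P' Q') (hn : mu (a :: l) = (a - 1) * mu l + k) (hk : k ≤ mu l) (j : ℕ)
    (hj : j < a) : ∃ P Q, Fil (a :: l) (j * mu l) j P Q := by
  have hgl := hg.tail
  have ha := hg.head
  have hjm : j * mu l ≤ (a - 1) * mu l := Nat.mul_le_mul_right _ (by omega)
  obtain ⟨q, hq⟩ : ∃ q, q = mu (a :: l) - j * mu l := ⟨_, rfl⟩
  have hqp : q ≤ (a :: l).prod := by
    have := mu_le_prod (a :: l)
    omega
  set n := mu (a :: l) with hnn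
  set K : Matrix (Fin n) (Fin n) ℤ := compMat (a :: l) ^ ((a :: l).prod - q) with hK
  set Ki : Matrix (Fin n) (Fin n) ℤ := compMat (a :: l) ^ q with hKi
  have hKKi : K * Ki = 1 := by
    rw [hK, hKi, ← pow_add, Nat.sub_add_cancel hqp, comp_pow_prod hg]
  have hKiK : Ki * K = 1 := mul_eq_one_comm.1 hKKi
  have hGH := G_mul_H a hgl h0
  have hHG := H_mul_G a hgl h0
  have hRS := RR_SS hgl hF h0 ha hn hk
  refine ⟨(K * G l h0 n) * RR a l P' n, SS a l Q' n * (H a l * Ki), ?_, ?_, ?_, ?_, ?_⟩
  · intro i i'
    rw [sandwich hRS]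
    have e1 : K * G l h0 n * (H a l * Ki) = 1 := by
      calc K * G l h0 n * (H a l * Ki) = K * (G l h0 n * H a l) * Ki := by
            simp only [Matrix.mul_assoc]
        _ = 1 := by rw [hGH, Matrix.mul_one, hKKi]
    rw [e1, Matrix.one_apply]
  · intro x hx y hy
    rw [← Matrix.mul_apply]
    have e1 : SS a l Q' n * (H a l * Ki) * (K * G l h0 n * RR a l P' n) =
        SS a l Q' n * RR a l P' n := by
      calc SS a l Q' n * (H a l * Ki) * (K * G l h0 n * RR a l P' n)
          = SS a l Q' n * (H a l * (Ki * K) * G l h0 n) * RR a l P' n := by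
            simp only [Matrix.mul_assoc]
        _ = _ := by rw [hKiK, Matrix.mul_one, hHG, Matrix.mul_one]
    rw [e1, Matrix.mul_apply]
    exact SS_RR hgl hF hn hx hy
  · intro x hx y hy
    have e1 : (K * G l h0 n * RR a l P' n)ᵀ * chainMat (a :: l) * (K * G l h0 n * RR a l P' n) =
        (RR a l P' n)ᵀ * W l h0 n * RR a l P' n := by
      rw [Matrix.transpose_mul, Matrix.transpose_mul]
      calc (RR a l P' n)ᵀ * ((G l h0 n)ᵀ * Kᵀ) * chainMat (a :: l) *
            (K * G l h0 n * RR a l P' n)
          = (RR a l P' n)ᵀ * ((G l h0 n)ᵀ * (Kᵀ * chainMat (a :: l) * K) * G l h0 n) *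
            RR a l P' n := by simp only [Matrix.mul_assoc]
        _ = _ := by rw [hK, inv_pow hg, G_gram a hgl h0]
    rw [e1]
    exact RR_gram hgl hF h0 hn hx hy
  · intro x hx hlow i hi
    cases x with
    | nil => exact absurd hlow (by simp [low])
    | cons x0 x =>
      have hx0 : x0 ≤ j := hlow
      obtain ⟨h1, -, -⟩ := mem_PF.1 hx
      rw [Matrix.mul_assoc, Matrix.mul_apply]
      apply Finset.sum_eq_zero
      intro p _
      have hx0m : (x0 - 1 + 1) * mu l ≤ j * mu l := Nat.mul_le_mul_right _ (by omega)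
      rw [add_mul, one_mul] at hx0m
      rcases Nat.lt_or_ge (p : ℕ) q with hp | hp
      · have e1 : (G l h0 n * RR a l P' n) p (x0 :: x) = 0 := by
          rw [Matrix.mul_apply]
          apply Finset.sum_eq_zero
          intro s _
          rw [RR_cons, Finset.mul_sum]
          apply Finset.sum_eq_zero
          intro i' _
          split_ifs with hs
          · have e2 : G l h0 n p s = 0 := by
              unfold G W
              rw [if_neg]
              rw [Fin.le_def, Fin.val_rev]
              have := i'.2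
              omega
            rw [e2, zero_mul]
          · rw [mul_zero]
        rw [e1, mul_zero]
      · have hn0 : 0 < mu (a :: l) := lt_of_le_of_lt (Nat.zero_le _) p.2
        have e1 : K i p = 0 := by
          have hp2 := p.2
          have e2 : (a :: l).prod - q + (p : ℕ) = (a :: l).prod + (p - q) := by omega
          have e3 : (p : ℕ) - q < mu (a :: l) := by omega
          rw [hK, ← col_shift hn0, e2, pow_add, comp_pow_prod hg, Matrix.one_mul]
          have e4 := col_zero hn0 (⟨p - q, e3⟩ : Fin (mu (a :: l))) i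
          simp only at e4
          rw [e4, if_neg]
          intro e5
          have e6 : (i : ℕ) = p - q := by rw [e5]
          omega
        rw [e1, zero_mul]
  · intro x hx hlow i hi
    cases x with
    | nil => exact absurd (mem_PF.1 hx) (by simp [Ok])
    | cons x0 x =>
      have hx0 : ¬ x0 ≤ j := hlow
      rw [Matrix.mul_apply]
      apply Finset.sum_eq_zero
      intro p _
      have hx0m : j * mu l ≤ (x0 - 1) * mu l := Nat.mul_le_mul_right _ (by omega)
      have hn0 : 0 < mu (a :: l) := lt_of_le_of_lt (Nat.zero_le _) p.2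
      have hin := i.2
      have hqi : q + (i : ℕ) < mu (a :: l) := by omega
      have e1 : (H a l * Ki) p i = H a l p ⟨q + i, hqi⟩ := by
        rw [Matrix.mul_apply, Finset.sum_eq_single (⟨q + i, hqi⟩ : Fin (mu (a :: l)))]
        · have e2 : Ki ⟨q + i, hqi⟩ i = 1 := by
            rw [hKi, ← col_shift hn0]
            have e4 := col_zero hn0 (⟨q + i, hqi⟩ : Fin (mu (a :: l))) ⟨q + i, hqi⟩
            rw [if_pos rfl] at e4
            exact e4
          rw [e2, mul_one]
        · intro t _ ht
          have e2 : Ki t i = 0 := by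
            rw [hKi, ← col_shift hn0]
            have e4 := col_zero hn0 (⟨q + i, hqi⟩ : Fin (mu (a :: l))) t
            simp only at e4
            rw [e4, if_neg ht]
          rw [e2, mul_zero]
        · simp
      rw [e1, SS_cons, Finset.sum_mul]
      apply Finset.sum_eq_zero
      intro i' _
      split_ifs with hs
      · have e2 : H a l p ⟨q + i, hqi⟩ = 0 := by
          unfold H
          apply chain_lower
          rw [Fin.lt_def, Fin.val_rev]
          have := p.2
          show mu (a :: l) - ((p : ℕ) + 1) < q + i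
          omega
        rw [e2, mul_zero]
      · rw [zero_mul]

/-- the filtered isometry for every strictly increasing chain. -/
theorem main : ∀ (l : List ℕ) (a : ℕ), Pierce (a :: l) → ∀ j < a,
    ∃ P Q, Fil (a :: l) (j * mu l) j P Q
  | [], a, h, j, hj => by
      have hg : Good [a] := Good.of_two h.1
      refine step hg (by simp [mu]) (fil_nil a) ?_ (Nat.zero_le _) j hj
      simp [mu]
  | b :: l, a, h, j, hj => by
      have hg : Good (a :: b :: l) := Good.of_two h.1
      have hab : a < b := h.lt
      obtain ⟨P', Q', hF⟩ := main l b h.tail a hab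
      have h1 := mu_add_mu (a := b) (l := l) hg.tail.head
      have h2 := mu_add_mu (a := a) (l := b :: l) hg.head
      have h3 := mu_le_prod l
      rw [List.prod_cons] at h2
      have h0 : 0 < mu (b :: l) := mu_pos h.tail.1
      have ha := hg.head
      refine step hg h0 hF ?_ ?_ j hj
      · have h4 : a * (b * l.prod) = a * mu (b :: l) + a * mu l := by rw [← h1, mul_add]
        have h5 : (a - 1) * mu (b :: l) + mu (b :: l) = a * mu (b :: l) := by
          rw [← Nat.succ_mul]; congr 1; omega
        omega
      · have h4 : (a + 1) * mu l ≤ b * l.prod := Nat.mul_le_mul hab h3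
        rw [add_mul, one_mul] at h4
        omega

/-- **P4.13 for a chain**: the Toeplitz form and the poset form are congruent. -/
theorem p413_chain {c : List ℕ} (h : Pierce c) : Cong ℤ (chainMat c) (posMat c) := by
  obtain ⟨k, j, P, Q, hF⟩ : ∃ k j P Q, Fil c k j P Q := by
    cases c with
    | nil => exact ⟨_, _, _, _, fil_nil 0⟩
    | cons a l =>
        have ha : 0 < a := by have := h.1 a List.mem_cons_self; omega
        obtain ⟨P, Q, hF⟩ := main l a h 0 ha
        exact ⟨_, _, _, _, hF⟩
  refine ⟨P.submatrix id Subtype.val, Q.submatrix Subtype.val id, ?_, ?_, ?_⟩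
  · ext i i'
    rw [Matrix.mul_apply, Matrix.one_apply, ← hF.PQ i i']
    exact Finset.sum_coe_sort (PF c) (fun x => P i x * Q x i')
  · ext x y
    rw [Matrix.mul_apply, Matrix.one_apply]
    simp only [Matrix.submatrix_apply, id]
    rw [hF.QP x.1 x.2 y.1 y.2]
    simp only [Subtype.ext_iff]
  · ext x y
    have := hF.gram x.1 x.2 y.1 y.2
    unfold posMat
    rw [← this]
    simp only [Matrix.mul_apply, Matrix.transpose_apply, Matrix.submatrix_apply, id]

/-- Kronecker products of congruent matrices are congruent. -/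
theorem cong_kron {ι κ ι' κ' : Type} [Fintype ι] [Fintype κ] [Fintype ι'] [Fintype κ']
    [DecidableEq ι] [DecidableEq κ] [DecidableEq ι'] [DecidableEq κ'] {R : Type} [CommRing R]
    {A : Matrix ι ι R} {B : Matrix κ κ R} {A' : Matrix ι' ι' R} {B' : Matrix κ' κ' R}
    (h : Cong R A B) (h' : Cong R A' B') :
    Cong R (Matrix.kroneckerMap (· * ·) A A') (Matrix.kroneckerMap (· * ·) B B') := by
  obtain ⟨P, Q, h1, h2, h3⟩ := h
  obtain ⟨P', Q', h1', h2', h3'⟩ := h'
  refine ⟨Matrix.kroneckerMap (· * ·) P P', Matrix.kroneckerMap (· * ·) Q Q', ?_, ?_, ?_⟩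
  · rw [← Matrix.mul_kronecker_mul, h1, h1']
    exact Matrix.one_kronecker_one
  · rw [← Matrix.mul_kronecker_mul, h2, h2']
    exact Matrix.one_kronecker_one
  · rw [← Matrix.kroneckerMap_transpose, ← Matrix.mul_kronecker_mul, ← Matrix.mul_kronecker_mul,
      h3, h3']

/-- **P4.13**: the Seifert matrix of a system of strictly increasing chains is congruent to the
poset matrix of its page. -/
theorem p413 : ∀ {S : List (List ℕ)}, (∀ c ∈ S, Pierce c) → Cong ℤ (sysMat S) (posSys S)
  | [], _ => by
      have h : Cong ℤ (1 : Matrix Unit Unit ℤ) (1 : Matrix Unit Unit ℤ) :=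
        ⟨1, 1, by simp, by simp, by simp⟩
      exact h
  | c :: S, h => cong_kron (p413_chain (h c List.mem_cons_self))
      (p413 (S := S) fun d hd => h d (List.mem_cons_of_mem _ hd))

/-! ### the chains of the family `F` -/

theorem chainOf_zero' (b : ℕ) : chainOf 0 b = [] := by
  unfold chainOf; simp

theorem chainOf_pos' {a : ℕ} (ha : 0 < a) (b : ℕ) :
    chainOf a b = (b / a) :: chainOf (b % a) b := by
  conv_lhs => unfold chainOf
  simp [ha.ne']

theorem chainOf_gt (a b : ℕ) : ∀ c, c * a < b → ∀ e ∈ chainOf a b, c ≤ e := by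
  induction a using Nat.strong_induction_on with
  | _ a ih =>
    intro c hc e he
    rcases Nat.eq_zero_or_pos a with rfl | ha
    · rw [chainOf_zero'] at he; simp at he
    · rw [chainOf_pos' ha] at he
      rcases List.mem_cons.1 he with rfl | he
      · exact (Nat.le_div_iff_mul_le ha).2 hc.le
      · have h1 := Nat.mod_lt b ha
        exact ih _ h1 c (lt_of_le_of_lt (Nat.mul_le_mul_left _ h1.le) hc) e he

/-- `chainOf a b` is strictly increasing with exponents `≥ 2` if `2 a < b`. -/
theorem pierce_chainOf (a b : ℕ) (h : 2 * a < b) : Pierce (chainOf a b) := by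
  refine ⟨chainOf_gt a b 2 h, ?_⟩
  induction a using Nat.strong_induction_on with
  | _ a ih =>
    rcases Nat.eq_zero_or_pos a with rfl | ha
    · rw [chainOf_zero']; exact List.Pairwise.nil
    · rw [chainOf_pos' ha, List.pairwise_cons]
      have h1 := Nat.mod_lt b ha
      refine ⟨fun e he => ?_, ih _ h1 (by omega)⟩
      rcases Nat.eq_zero_or_pos (b % a) with h0 | h0
      · rw [h0, chainOf_zero'] at he; simp at he
      · have h2 : (b / a + 1) * (b % a) < b := by
          have h3 : a * (b / a) + b % a = b := Nat.div_add_mod b a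
          have h4 : (b / a) * (b % a) < (b / a) * a := by
            apply Nat.mul_lt_mul_of_pos_left h1
            exact Nat.div_pos (by omega) ha
          rw [add_mul, one_mul]
          rw [mul_comm] at h3
          omega
        exact chainOf_gt (b % a) b _ h2 e he

lemma pierce_singleton {a : ℕ} (h : 2 ≤ a) : Pierce [a] :=
  ⟨fun b hb => by rw [List.mem_singleton] at hb; omega, List.pairwise_singleton _ _⟩

lemma mem_rep {n : ℕ} {S : List (List ℕ)} {c : List ℕ} (h : c ∈ rep n S) : c ∈ S := by
  unfold rep at h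
  rw [List.mem_flatten] at h
  obtain ⟨T, hT, hc⟩ := h
  rw [(List.mem_replicate.1 hT).2] at hc
  exact hc

/-- all chains of the family `F` are strictly increasing. -/
theorem pierce_F {L : List (ℕ × ℕ × ℤ)} {u : ℕ} {q : List ℕ} (hC : Cert L u) (hA : Aux u q)
    (s j : ℕ) : ∀ c ∈ F L u q s j, Pierce c := by
  intro c hc
  have hblock : ∀ x ∈ L, Pierce (chainOf x.1 x.2.1) ∧ Pierce (chainOf (x.2.1 % x.1) x.2.1) := by
    intro x hx
    obtain ⟨h1, h2, -, -⟩ := hC.range x hx
    have h3 := Nat.mod_lt x.2.1 h1
    exact ⟨pierce_chainOf _ _ h2, pierce_chainOf _ _ (by omega)⟩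
  unfold F at hc
  simp only [List.mem_append] at hc
  rcases hc with (((hc | hc) | hc) | hc) | hc
  · have := mem_rep hc
    rw [List.mem_singleton] at this
    subst this
    exact pierce_singleton (by norm_num)
  · have := mem_rep hc
    rw [List.mem_singleton] at this
    subst this
    exact pierce_singleton (by have := hC.big; omega)
  · have := mem_rep hc
    unfold ZP at this
    rw [List.mem_filter, List.mem_flatMap] at this
    obtain ⟨⟨x, hx, hx2⟩, -⟩ := this
    unfold blockP at hx2
    rw [List.mem_append, List.mem_replicate, List.mem_replicate] at hx2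
    rcases hx2 with ⟨-, rfl⟩ | ⟨-, rfl⟩
    · exact (hblock x hx).1
    · exact (hblock x hx).2
  · have := mem_rep hc
    unfold ZM at this
    rw [List.mem_filter, List.mem_flatMap] at this
    obtain ⟨⟨x, hx, hx2⟩, -⟩ := this
    unfold blockM at hx2
    rw [List.mem_append, List.mem_replicate, List.mem_replicate] at hx2
    rcases hx2 with ⟨-, rfl⟩ | ⟨-, rfl⟩
    · exact (hblock x hx).2
    · exact (hblock x hx).1
  · rw [List.mem_map] at hc
    obtain ⟨x, hx, rfl⟩ := hc
    exact pierce_singleton (by have := hA.big x hx; omega)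

end Crest.Agent.R267.P413_322
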