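import Crest.Agent.R267.HmC_951
import Crest.Agent.R267.P413c_322

/-!
# Row 267 (helper322): assembly of `T3Prop` (T3) from T3b (one chain at a time) and T3a

* `BlockProp L`: T3b, for every chain of S0407 the polynomial is stably link equivalent to the
  lobed function `L c` and `L c` is tame;
* `EndProp n L`: T3a, for every system in `n + 3` variables the link of the sum of the lobed
  functions is the link of a graph system whose matrix is the transposed poset matrix
  (`1` iff `l ≤ k`) for some enumeration of the letters;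
* `t3prop`: `BlockProp L → EndProp n L → T3Prop n`;
* `stmt_of'`: S0407 from `BlockProp`, `EndProp` and `ClassGProp`.
-/

set_option autoImplicit false

namespace Crest.Agent.R267.T3Asm_322

open Set Matrix
open Crest.Agent.R267.P4Defs_780 Crest.Agent.R267.ChainPoly_145
open Crest.Agent.R267.Cone_808 Crest.Agent.R267.Sys_808
open Crest.Agent.R267.Asm_808 Crest.Agent.R267.GS_808 Crest.Agent.R267.DraftB_808
open Crest.Agent.R267.TopAsm_808 Crest.Agent.R267.Hm_951 Crest.Agent.R267.P413Def_322

/-- **T3b**: one chain at a time. -/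
def BlockProp (L : (c : List ℕ) → (Fin c.length → ℂ) → ℂ) : Prop :=
  ∀ c : List ℕ, c ≠ [] → Pierce c → SEq (chainFun c) (L c) ∧ Tame (L c)

/-- **T3a**: the link of a sum of lobed functions is the link of a graph system with zeta
matrix (`A k l = 1` iff letter `l ≤` letter `k`). -/
def EndProp (n : ℕ) (L : (c : List ℕ) → (Fin c.length → ℂ) → ℂ) : Prop :=
  ∀ C : List (List ℕ), (∀ c ∈ C, c ≠ [] ∧ Pierce c) → nvar C = n + 3 →
    ∃ (m : ℕ) (e : Fin m ≃ PSys C) (G : S n m),
      HasMat G (Matrix.of fun k l => posSys C (e l) (e k)) ∧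
      IsLink {z : Sph (Var C) | sysL L C z = 0} G

/-- reindexing is a congruence. -/
theorem cong_submatrix {ι κ : Type} [Fintype ι] [Fintype κ] [DecidableEq ι] [DecidableEq κ]
    (A : Matrix ι ι ℤ) (e : κ ≃ ι) : Cong ℤ A (A.submatrix e e) := by
  refine ⟨(1 : Matrix ι ι ℤ).submatrix id e, (1 : Matrix ι ι ℤ).submatrix e id, ?_, ?_, ?_⟩
  · rw [Matrix.submatrix_mul_equiv, Matrix.mul_one, Matrix.submatrix_id_id]
  · rw [← Matrix.submatrix_mul _ _ _ _ _ Function.bijective_id, Matrix.mul_one,
      Matrix.submatrix_one_equiv]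
  · rw [Matrix.transpose_submatrix, Matrix.transpose_one]
    ext i j
    simp [Matrix.mul_apply, Matrix.one_apply]

theorem t3prop {n : ℕ} {L : (c : List ℕ) → (Fin c.length → ℂ) → ℂ} (hL : BlockProp L)
    (hE : EndProp n L) : T3Prop n := by
  refine ⟨1, true, fun C hA hI hn => ?_⟩
  have hP : ∀ c ∈ C, Pierce c := fun c hc => ⟨(hA c hc).2, hI c hc⟩
  obtain ⟨m, e, G, hG, hlink⟩ := hE C (fun c hc => ⟨(hA c hc).1, hP c hc⟩) hn
  refine ⟨m, G, _, hG, ?_, ?_⟩
  · have hs : SEq (sysFun C) (sysL L C) :=
      seq_sysFun (fun c hc => (hA c hc).2) (fun c hc => (hL c (hA c hc).1 (hP c hc)).1)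
        fun c hc => (hL c (hA c hc).1 (hP c hc)).2
    exact hs.set_link hlink
  · have h1 : Cong ℤ (sysMat C) (posSys C) := P413_322.p413 hP
    have h2 := Cong.tr h1 1 true
    have h3 : Cong ℤ ((posSys C).transpose) ((posSys C).transpose.submatrix e e) :=
      cong_submatrix _ e
    have h4 : (1 : ℤ) • tr true (posSys C) = (posSys C).transpose := by
      rw [one_smul]; rfl
    rw [h4] at h2
    exact Cong.trans h2 h3

/-- **S0407 from T3b, T3a and the class theorem.** -/
theorem stmt_of' {L : (c : List ℕ) → (Fin c.length → ℂ) → ℂ} (hL : BlockProp L)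
    (hE : ∀ n, 1 ≤ n → EndProp n L) (hG : ∀ n, 1 ≤ n → ClassGProp n) : S0407Stmt :=
  stmt_of (fun n hn => t3prop hL (hE n hn)) hG

end Crest.Agent.R267.T3Asm_322
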