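import Crest.Agent.R267.T3aDefs_957
import Crest.Agent.R267.LobeDefs_407
import Crest.Agent.R267.T3Asm_322

/-!
# Row 267 (helper322): GLUE between T3b (407's lobe states) and T3a (957's function `G`)

* `F8 K cB ga M C`: the lobed function of degree `8` without total gauge:
  `∑ pg⁷ pl - cB ga ∑ H8`, `H8` = harmonic coupling `ρρ'/(ρ+ρ')·win·win`, `ρ = pg⁷ s⁺`.
* GL1 (one chain at a time, `SEq`): 407's state ~ `FS` (`pg⁸ pl/|pl|`, couplings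
  `c pg⁴ λ · pg⁴ β`) ~ `F8`.
* GL2 (whole system, `ZEq`): `F8 = NN⁷ Gx (x⁷)` ~ `Gx 1` ~ `Gx (χ_d + η x⁷)` ~ `Gx χ_d = G`.
* `SysLD`: the `LD` of a system of chains; final assembly.
-/

set_option autoImplicit false

noncomputable section

open Finset Set
open Crest.Agent.R267.T3aDefs_957 Crest.Agent.R267.Hm_951 Crest.Agent.R267.Ang_739
open Crest.Agent.R267.Sys_808 Crest.Agent.R267.P413Def_322 Crest.Agent.R267.GS_808
open Crest.Agent.R267.Cone_808 Crest.Agent.R267.DraftB_808 Crest.Agent.R267.TopAsm_808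

namespace Crest.Agent.R267.GlueDefs_322

/-! ### the function of degree 8 -/

/-- `pg⁷ s⁺` -/
def rho (K : ℝ) (z : ℂ) : ℝ := pg K z ^ 7 * max 0 z.re

/-- planar term of degree `8` -/
def P8 (K ga : ℝ) (M : ℕ) (z : ℂ) : ℂ := ((pg K z ^ 7 : ℝ) : ℂ) * pl ga M z

/-- harmonic coupling of degree `8`: deletes the last lobe of `y` (`M'` strand lobes) over the
lobes `l ≥ m` of `x` (`M` strand lobes) -/
def H8 (K : ℝ) (m M M' : ℕ) (x y : ℂ) : ℝ :=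
  rho K x * rho K y / (rho K x + rho K y) *
    (win m M (x.im / x.re) * win (M' - 1) M' (y.im / y.re))

/-- **the lobed function of degree 8** -/
def F8 {ι : Type} [Fintype ι] (K cB ga : ℝ) (M : ι → ℕ) (C : Finset (ι × ι × ℕ)) (z : ι → ℂ) : ℂ :=
  ∑ j, P8 K ga (M j) (z j) -
    ((cB * ga * ∑ e ∈ C, H8 K e.2.2 (M e.1) (M e.2.1) (z e.1) (z e.2.1) : ℝ) : ℂ)

/-! ### GL2: the whole system -/

section GL2

variable {N : ℕ} (D : LD N)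

/-- `X(x_j) s_j⁺` -/
def Rx (X : ℝ → ℝ) (z : Fin N → ℂ) (j : Fin N) : ℝ := X (D.xr z j) * max 0 (z j).re

/-- coupling with profile `X` -/
def Bx (X : ℝ → ℝ) (e : Fin N × Fin N × ℕ) (z : Fin N → ℂ) : ℝ :=
  Rx D X z e.1 * Rx D X z e.2.1 / (Rx D X z e.1 + Rx D X z e.2.1) *
    (win e.2.2 (D.M e.1) ((z e.1).im / (z e.1).re) *
      win (D.M e.2.1 - 1) (D.M e.2.1) ((z e.2.1).im / (z e.2.1).re))

/-- **`G` with the profile `X` instead of `chi d`** -/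
def Gx (X : ℝ → ℝ) (cB ga : ℝ) (z : Fin N → ℂ) : ℂ :=
  ∑ j, (X (D.xr z j) : ℂ) * pl ga (D.M j) (z j) -
    ((cB * ga * ∑ e ∈ D.C, Bx D X e z : ℝ) : ℂ)

theorem G_eq (cB ga d : ℝ) : D.G cB ga d = Gx D (chi d) cB ga := rfl

/-- profiles without dead zone -/
structure Prf (X : ℝ → ℝ) : Prop where
  cont : Continuous X
  pos : ∀ x, 0 < x → 0 < X x
  mono : MonotoneOn X (Set.Ici 0)

/-- the profiles `chi d + η x⁷` -/
def Xe (d η x : ℝ) : ℝ := chi d x + η * x ^ 7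

/-- **GLUE-HOMEO**: `Gx X = Gx 1 ∘ Ψ`, `Ψ z j = X (x_j) z_j`. -/
def HomeoP : Prop := ∀ X : ℝ → ℝ, Prf X → ∀ cB ga : ℝ, ZEq (Gx D X cB ga) (Gx D (fun _ => 1) cB ga)

/-- **GLUE-C2** -/
def C2P : Prop := ∀ cB ga d η : ℝ, 0 < d → 0 < η → ContDiffOn ℝ 2 (Gx D (Xe d η) cB ga) {0}ᶜ

/-- **GLUE-CONT** -/
def ContP : Prop := ∀ cB ga d : ℝ, 0 < d → ContDiffOn ℝ 2 (D.G cB ga d) {0}ᶜ →
  ContinuousOn (fun p : ℝ × (Fin N → ℂ) => Gx D (Xe d p.1) cB ga p.2) (Set.Ici 0 ×ˢ {0}ᶜ) ∧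
  ContinuousOn (fun p : ℝ × (Fin N → ℂ) => fderiv ℝ (Gx D (Xe d p.1) cB ga) p.2)
    (Set.Ici 0 ×ˢ {0}ᶜ)

/-- **GL2** -/
def GL2P : Prop := LD.Ev fun cB ga d => ZEq (F8 D.K cB ga D.M D.C) (D.G cB ga d)

end GL2

/-- **GLUE-OPEN**: stability of the link under `C¹`-small perturbations. -/
def OpenP : Prop := ∀ (N : ℕ) (F : ℝ → (Fin N → ℂ) → ℂ),
  (∀ η, 0 ≤ η → ∀ r : ℝ, 0 < r → ∀ z, F η (r • z) = r • F η z) →
  (∀ η, 0 ≤ η → ContDiffOn ℝ 2 (F η) {0}ᶜ) →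
  ContinuousOn (fun p : ℝ × (Fin N → ℂ) => F p.1 p.2) (Set.Ici 0 ×ˢ {0}ᶜ) →
  ContinuousOn (fun p : ℝ × (Fin N → ℂ) => fderiv ℝ (F p.1) p.2) (Set.Ici 0 ×ˢ {0}ᶜ) →
  (∀ z, z ≠ 0 → F 0 z = 0 → Function.Surjective (fderiv ℝ (F 0) z)) →
  ∃ η, 0 < η ∧ ZEq (F 0) (F η)

/-! ### GL1: one chain, head first (order of `LobeDefs_407`) -/

section GL1

variable {n : ℕ}

/-- number of strand lobes -/
def Mh (a : Fin (n + 1) → ℕ) (i : Fin (n + 1)) : ℕ := if i = 0 then a i - 1 else a i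

/-- couplings -/
def Ch (a : Fin (n + 1) → ℕ) : Finset (Fin (n + 1) × Fin (n + 1) × ℕ) :=
  univ.image fun e : Fin n => (e.castSucc, e.succ, a e.succ)

/-- a cut-off on the circle of `pl ga M` (`1` on the lobes `m ≤ l < M`), free where `Re pl < 0` -/
structure CutL (ga : ℝ) (m M : ℕ) (l : ℂ → ℝ) : Prop where
  smooth : ContDiffOn ℝ 2 l {0}ᶜ
  hom : ∀ r : ℝ, 0 < r → ∀ z, l ((r : ℂ) * z) = l z
  nn : ∀ z, 0 ≤ l z
  le : ∀ z, l z ≤ 1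
  flat : ∀ z, z ≠ 0 → 0 ≤ (pl ga M z).re → fderiv ℝ l z = 0
  val : ∀ z, z ≠ 0 → 0 ≤ (pl ga M z).re → l z = if 0 < z.re then win m M (z.im / z.re) else 0

/-- the planar term `pg⁸ pl / |pl|` -/
def PS (K ga : ℝ) (M : ℕ) (z : ℂ) : ℂ := ((pg K z ^ 8 / ‖pl ga M z‖ : ℝ) : ℂ) * pl ga M z

/-- the function between 407's state and `F8` -/
def FS (K ga c : ℝ) (a : Fin (n + 1) → ℕ) (lam bet : Fin n → ℂ → ℝ) (z : Fin (n + 1) → ℂ) : ℂ :=
  ∑ i, PS K ga (Mh a i) (z i) -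
    ((c * ∑ e : Fin n, (pg K (z e.castSucc) ^ 4 * lam e (z e.castSucc)) *
      (pg K (z e.succ) ^ 4 * bet e (z e.succ)) : ℝ) : ℂ)

/-- **LIFT**: the phase of `pl`: plate at `2π` (and `2π(M+2)`), strand lobe `l` at `2π(l+2)`. -/
def LiftP (ga : ℝ) (M : ℕ) : Prop := ∃ φ : ℝ → ℝ, LobeDefs_407.Pha (M + 1) φ ∧
  (∀ x, pl ga M (cis x) = (‖pl ga M (cis x)‖ : ℂ) * cis (φ x)) ∧
  (∀ x, Real.pi / 2 ≤ x → x ≤ 3 * Real.pi / 2 → |φ x - 2 * Real.pi * (M + 2)| ≤ Real.pi / 2) ∧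
  ∀ x, -(Real.pi / 2) < x → x < Real.pi / 2 → 0 ≤ (pl ga M (cis x)).re →
    ∃ l < M, |Real.tan x - sg l| ≤ 3 / 2 ∧ |φ x - 2 * Real.pi * (l + 2)| ≤ Real.pi / 2

/-- **STAR**: T3b gives `FS` with suitable cut-offs. -/
def StarP : Prop := ∀ (n : ℕ) (a : Fin (n + 1) → ℕ), LobeDefs_407.Exps a → ∀ K ga : ℝ, 1 ≤ K →
  0 < ga → ga ≤ 1 / 8 →
  ∃ (c : ℝ) (lam bet : Fin n → ℂ → ℝ), 2 < c ∧
    (∀ e : Fin n, CutL ga (a e.succ) (Mh a e.castSucc) (lam e)) ∧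
    (∀ e : Fin n, CutL ga (Mh a e.succ - 1) (Mh a e.succ) (bet e)) ∧
    SEq (chainFun (List.ofFn fun i : Fin (n + 1) => a i.rev)) (FS K ga c a lam bet)

/-- **LINE**: the straight line from `FS` to `F8`. -/
def LineP : Prop := ∀ (n : ℕ) (a : Fin (n + 1) → ℕ), LobeDefs_407.Exps a → ∀ K ga cB c : ℝ,
  0 < ga → ga ≤ 1 / 8 → 4 < cB → 2 < c → (∀ i, 8 * (Mh a i : ℝ) + 2 ≤ K) →
  ∀ lam bet : Fin n → ℂ → ℝ,
    (∀ e : Fin n, CutL ga (a e.succ) (Mh a e.castSucc) (lam e)) →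
    (∀ e : Fin n, CutL ga (Mh a e.succ - 1) (Mh a e.succ) (bet e)) →
    HPath (fun p : ℝ × (Fin (n + 1) → ℂ) =>
      (1 - p.1) • FS K ga c a lam bet p.2 + p.1 • F8 K cB ga (Mh a) (Ch a) p.2)

/-- **GL1, head first** -/
def GL1h : Prop := ∀ (n : ℕ) (a : Fin (n + 1) → ℕ), LobeDefs_407.Exps a → ∀ K ga cB : ℝ,
  0 < ga → ga ≤ 1 / 8 → 4 < cB → (∀ i, 8 * (Mh a i : ℝ) + 2 ≤ K) →
    SEq (chainFun (List.ofFn fun i : Fin (n + 1) => a i.rev)) (F8 K cB ga (Mh a) (Ch a)) ∧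
      Tame (F8 K cB ga (Mh a) (Ch a))

theorem gl1h (hS : StarP) (hL : LineP) : GL1h := by
  intro n a ha K ga cB h1 h2 h3 h4
  have hK : (1 : ℝ) ≤ K := by
    have h5 := h4 0
    have h6 : (0 : ℝ) ≤ (Mh a 0 : ℝ) := Nat.cast_nonneg _
    linarith
  obtain ⟨c, lam, bet, h5, h6, h7, h8⟩ := hS n a ha K ga hK h1 h2
  have hp := hL n a ha K ga cB c h1 h2 h3 h5 h4 lam bet h6 h7
  have e1 : (fun x : Fin (n + 1) → ℂ => (1 - (0 : ℝ)) • FS K ga c a lam bet x +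
      (0 : ℝ) • F8 K cB ga (Mh a) (Ch a) x) = FS K ga c a lam bet := by
    funext x; simp
  have e2 : (fun x : Fin (n + 1) → ℂ => (1 - (1 : ℝ)) • FS K ga c a lam bet x +
      (1 : ℝ) • F8 K cB ga (Mh a) (Ch a) x) = F8 K cB ga (Mh a) (Ch a) := by
    funext x; simp
  have s := hp.seq
  have t := hp.tame (t := 1) (by simp)
  simp only at s t
  rw [e1, e2] at s
  rw [e2] at t
  exact ⟨h8.trans s, t⟩

end GL1

/-! ### lists and systems -/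

/-- number of strand lobes, order of a list (head = last variable) -/
def Mc (c : List ℕ) (i : Fin c.length) : ℕ := if (i : ℕ) + 1 < c.length then c.get i else c.get i - 1

/-- couplings of a chain -/
def Cc (c : List ℕ) : Finset (Fin c.length × Fin c.length × ℕ) :=
  (univ.filter fun e : Fin c.length × Fin c.length => (e.1 : ℕ) = e.2 + 1).image
    fun e => (e.1, e.2, c.get e.2)

/-- **the lobed function of a chain** -/
def L8 (K cB ga : ℝ) (c : List ℕ) : (Fin c.length → ℂ) → ℂ := F8 K cB ga (Mc c) (Cc c)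

/-- **GL1** for lists -/
def GL1 : Prop := ∀ c : List ℕ, c ≠ [] → Pierce c → ∀ K ga cB : ℝ, 0 < ga → ga ≤ 1 / 8 → 4 < cB →
  (∀ i, 8 * (Mc c i : ℝ) + 2 ≤ K) → SEq (chainFun c) (L8 K cB ga c) ∧ Tame (L8 K cB ga c)

/-- number of strand lobes of the variables of a system -/
def Ms : (S : List (List ℕ)) → Var S → ℕ
  | [] => fun i => i.elim
  | c :: S => Sum.elim (Mc c) (Ms S)

/-- couplings of a system -/
def Cs : (S : List (List ℕ)) → Finset (Var S × Var S × ℕ)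
  | [] => ∅
  | c :: S => (Cc c).image (fun e => (Sum.inl e.1, Sum.inl e.2.1, e.2.2)) ∪
      (Cs S).image (fun e => (Sum.inr e.1, Sum.inr e.2.1, e.2.2))

/-- **T3a**: for `cB` large, `ga` small, `d` small the link of `G` is the link of a graph system
with matrix "`1` iff letter `b ≤` letter `a`". -/
def T3aP {n : ℕ} (D : LD (n + 3)) : Prop := LD.Ev fun cB ga d =>
  ∃ (m : ℕ) (e : Fin m ≃ {k : Fin (n + 3) → ℕ // D.Let k}) (G : S n m),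
    HasMat G (Matrix.of fun a b => open Classical in if ∀ j, (e b).1 j ≤ (e a).1 j then 1 else 0) ∧
      IsLink {z : Sph (Fin (n + 3)) | D.G cB ga d z = 0} G

/-- **SYS** (lists and systems): `S0407` from GL1, GL2 and T3a. -/
def SysP : Prop := GL1 → (∀ (N : ℕ) (D : LD N), GL2P D) → (∀ (n : ℕ), 1 ≤ n → ∀ D : LD (n + 3), T3aP D) →
  ∀ n, 1 ≤ n → T3Prop n

end Crest.Agent.R267.GlueDefs_322
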