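import Crest.Agent.R267.T3aNDefs_88
import Crest.Agent.R267.GlueDefs_322

/-!
# Row 267 (helper9): GLUE-N, from polar lobed functions with boxes to the function `G` of T3aN

`D : SD N` (T3aNDefs_88) is the combinatorial data: signed lobes and deletion boxes.

* `PD D`: polar data: `∑ |z_j|^{dg j} e^{i φ_j} - ∑_e c_e ∏_{j ∈ S_e} |z_j|^{dg j / |S_e|} λ_{e,j}`,
  `Wrd` = class of the phases (a signed word), `WinA` = class of the angular cut-offs.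
* `FSN`: `∑ pg⁸ pl / |pl| - c ∑_e ∏ pg^{8/|S_e|} wz`, `pl = plN`.
* `F8N`: `∑ pg⁷ pl - cB ga ∑_e Hm S_e (pg⁷ s⁺) ∏ win`.
* `Gx X`: `G` with the profile `X` instead of `chi d`.

Chain: `X.fn` ~ (PATHN = ALIGN + SEG) ~ special `X.fn` ~ (STAR) ~ `FSN` ~ (LINE) ~ `F8N`
`= NN⁷ Gx (x⁷)` ~ (HOMEO) ~ `Gx (χ_d + η x⁷)` ~ (OPEN) ~ `Gx χ_d = G`.
-/

set_option autoImplicit false

noncomputable section

open Finset Set
open Crest.Agent.R267.T3aDefs_957 (st Af Bf pg NN chi)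
open Crest.Agent.R267.T3aDefs_957.LD (Ev)
open Crest.Agent.R267.T3aNDefs_88 Crest.Agent.R267.Hm_951 Crest.Agent.R267.Ang_739
open Crest.Agent.R267.GlueDefs_322 (rho Prf Xe OpenP)

namespace Crest.Agent.R267.GlNDefs_9

/-! ### words -/

/-- signs of the arcs: arc `0` = plate, arc `l + 1` = lobe `l`. -/
def se (e : ℕ → ℝ) (i : ℕ) : ℝ := if i = 0 then 1 else e (i - 1)

/-- value of the phase in the centre of the arc `i`. -/
def cen (e : ℕ → ℝ) : ℕ → ℝ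
  | 0 => 0
  | i + 1 => cen e i + Real.pi * (se e i + se e (i + 1))

/-- total increase of the phase. -/
def tot (e : ℕ → ℝ) (M : ℕ) : ℝ := cen e M + Real.pi * (se e M + 1)

/-- the arcs `[a i, b i]`, `i ≤ M`, of the circle `ℝ / 2 π`. -/
structure Arcs (M : ℕ) (a b : ℕ → ℝ) : Prop where
  ab : ∀ i ≤ M, a i < b i
  ba : ∀ i ≤ M, b i < a (i + 1)
  last : a (M + 1) = a 0 + 2 * Real.pi

/-- **phases**: on the arc `i` the phase `φ` crosses `cen e i` (a multiple of `2 π`) with the sign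
`se e i`; off the arcs `cos φ < 0`. -/
structure Wrd (e : ℕ → ℝ) (M : ℕ) (a b : ℕ → ℝ) (φ : ℝ → ℝ) : Prop where
  smooth : ContDiff ℝ 2 φ
  per : ∀ x, φ (x + 2 * Real.pi) = φ x + tot e M
  arc : ∀ i ≤ M, ∀ x, a i ≤ x → x ≤ b i →
    |φ x - cen e i| ≤ Real.pi / 2 ∧ 0 < se e i * deriv φ x
  gap : ∀ i ≤ M, ∀ x, b i < x → x < a (i + 1) →
    |φ x - (cen e i + Real.pi * se e i)| < Real.pi / 2

/-- **angular cut-offs**: on the arcs `1` for the lobes `lo ≤ l < hi` and `0` for the other lobes and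
the plate. -/
structure WinA (M : ℕ) (a b : ℕ → ℝ) (lo hi : ℕ) (l : ℝ → ℝ) : Prop where
  smooth : ContDiff ℝ 2 l
  per : ∀ x, l (x + 2 * Real.pi) = l x
  nn : ∀ x, 0 ≤ l x
  le : ∀ x, l x ≤ 1
  val : ∀ i ≤ M, ∀ x, a i ≤ x → x ≤ b i → l x = if lo < i ∧ i ≤ hi then 1 else 0

/-! ### polar data -/

/-- polar data: degrees, phases, arcs; constants and cut-offs of the boxes. -/
structure PD {N : ℕ} (D : SD N) where
  dg : Fin N → ℝ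
  ph : Fin N → ℝ → ℝ
  a : Fin N → ℕ → ℝ
  b : Fin N → ℕ → ℝ
  c : Fin D.nb → ℝ
  lam : Fin D.nb → Fin N → ℝ → ℝ

section

variable {N : ℕ} {D : SD N}

/-- number of variables of a box -/
def cd (D : SD N) (e : Fin D.nb) : ℝ := (D.bx e).S.card

/-- **the polar function** -/
def PD.fn (X : PD D) (z : Fin N → ℂ) : ℂ :=
  ∑ j, pc (X.dg j) 1 (X.ph j) (z j) -
    ((∑ e, X.c e * ∏ j ∈ (D.bx e).S, pol (X.dg j / cd D e) (X.lam e j) (z j) : ℝ) : ℂ)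

/-- admissible polar data -/
structure PD.Ok (X : PD D) : Prop where
  hdg : ∀ j, 2 < X.dg j
  hdg2 : ∀ e, ∀ j ∈ (D.bx e).S, 2 * cd D e < X.dg j
  arcs : ∀ j, Arcs (D.M j) (X.a j) (X.b j)
  ph : ∀ j, Wrd (D.sn j) (D.M j) (X.a j) (X.b j) (X.ph j)
  hc : ∀ e, cd D e < X.c e
  lam : ∀ e, ∀ j ∈ (D.bx e).S,
    WinA (D.M j) (X.a j) (X.b j) ((D.bx e).lo j) ((D.bx e).hi j) (X.lam e j)

/-- **GLN-DIFF**: a circle diffeomorphism moving arcs to arcs. -/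
def DiffP : Prop := ∀ (M : ℕ) (a b a' b' : ℕ → ℝ), Arcs M a b → Arcs M a' b' →
  ∃ h : ℝ → ℝ, ContDiff ℝ 2 h ∧ (∀ x, h (x + 2 * Real.pi) = h x + 2 * Real.pi) ∧
    (∀ x, 0 < deriv h x) ∧ ∀ i ≤ M + 1, h (a' i) = a i ∧ (i ≤ M → h (b' i) = b i)

/-- **GLN-ALIGN**: change of degrees and arcs by a star homeomorphism. -/
def AlignP (D : SD N) : Prop := ∀ X : PD D, X.Ok → ∀ (dg' : Fin N → ℝ) (a' b' : Fin N → ℕ → ℝ),
  (∀ j, 2 < dg' j) → (∀ e, ∀ j ∈ (D.bx e).S, 2 * cd D e < dg' j) →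
  (∀ j, Arcs (D.M j) (a' j) (b' j)) →
  ∃ X' : PD D, X'.Ok ∧ X'.dg = dg' ∧ X'.a = a' ∧ X'.b = b' ∧ ZEq X.fn X'.fn

/-- **GLN-SEG**: the straight line between two data with the same degrees and arcs. -/
def SegP (D : SD N) : Prop := ∀ X Y : PD D, X.Ok → Y.Ok → X.dg = Y.dg → X.a = Y.a → X.b = Y.b →
  ZEq X.fn Y.fn

/-! ### the planar function of T3aN in polar form -/

/-- the window `winN m m'` as a function on the plane -/
def wz (m m' : ℕ) (z : ℂ) : ℝ := if 0 < z.re then winN m m' (z.im / z.re) else 0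

/-- **GLN-LIFT**: phase and arcs of `plN`. -/
def LiftP (ga : ℝ) (e : ℕ → ℝ) (M : ℕ) : Prop := ∃ (φ : ℝ → ℝ) (a b : ℕ → ℝ),
  Arcs M a b ∧ Wrd e M a b φ ∧
  (∀ x, plN ga e M (cis x) = (‖plN ga e M (cis x)‖ : ℂ) * cis (φ x)) ∧
  ∀ m m' : ℕ, m' ≤ M → WinA M a b m m' fun x => wz m m' (cis x)

/-- the planar term `pg⁸ pl / |pl|` -/
def PSN (K ga : ℝ) (e : ℕ → ℝ) (M : ℕ) (z : ℂ) : ℂ :=
  ((pg K z ^ 8 / ‖plN ga e M z‖ : ℝ) : ℂ) * plN ga e M z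

/-- planar term of degree `8` -/
def P8N (K ga : ℝ) (e : ℕ → ℝ) (M : ℕ) (z : ℂ) : ℂ := ((pg K z ^ 7 : ℝ) : ℂ) * plN ga e M z

/-- the function between the polar function and `F8N` -/
def FSN (D : SD N) (K ga c : ℝ) (z : Fin N → ℂ) : ℂ :=
  ∑ j, PSN K ga (D.sn j) (D.M j) (z j) -
    ((c * ∑ e, ∏ j ∈ (D.bx e).S,
      (pg K (z j) ^ (8 / cd D e) * wz ((D.bx e).lo j) ((D.bx e).hi j) (z j)) : ℝ) : ℂ)

/-- **the lobed function of degree 8** -/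
def F8N (D : SD N) (K cB ga : ℝ) (z : Fin N → ℂ) : ℂ :=
  ∑ j, P8N K ga (D.sn j) (D.M j) (z j) -
    ((cB * ga * ∑ e, Hm (D.bx e).S (fun j => rho K (z j)) *
      ∏ j ∈ (D.bx e).S, winN ((D.bx e).lo j) ((D.bx e).hi j) ((z j).im / (z j).re) : ℝ) : ℂ)

/-- standing bound for the boxes and the slopes -/
structure Std (D : SD N) (K : ℝ) : Prop where
  cd3 : ∀ e, cd D e ≤ 3
  K16 : ∀ j, 16 * (D.M j : ℝ) + 2 ≤ K

/-- **GLN-STAR**: every polar function is equivalent to `FSN` (uses LIFT, ALIGN, SEG). -/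
def StarP (D : SD N) : Prop := ∀ K ga : ℝ, Std D K → 0 < ga → ga ≤ 1 / 8 →
  ∀ X : PD D, X.Ok → ZEq X.fn (FSN D K ga 4)

/-- **GLN-LINE**: the straight line from `FSN` to `F8N`. -/
def LineP (D : SD N) : Prop := ∀ K ga cB : ℝ, Std D K → 0 < ga → ga ≤ 1 / 8 → 9 < cB →
  HPath0 (fun p : ℝ × (Fin N → ℂ) =>
    (1 - p.1) • FSN D K ga 4 p.2 + p.1 • F8N D K cB ga p.2)

/-! ### profiles -/

/-- `X(x_j) s_j⁺` -/
def Rx (D : SD N) (X : ℝ → ℝ) (z : Fin N → ℂ) (j : Fin N) : ℝ := X (D.xr z j) * max 0 (z j).re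

/-- deletion of a box with profile `X` -/
def Bx (D : SD N) (X : ℝ → ℝ) (e : Fin D.nb) (z : Fin N → ℂ) : ℝ :=
  Hm (D.bx e).S (Rx D X z) *
    ∏ j ∈ (D.bx e).S, winN ((D.bx e).lo j) ((D.bx e).hi j) ((z j).im / (z j).re)

/-- **`G` with the profile `X` instead of `chi d`** -/
def Gx (D : SD N) (X : ℝ → ℝ) (cB ga : ℝ) (z : Fin N → ℂ) : ℂ :=
  ∑ j, (X (D.xr z j) : ℂ) * plN ga (D.sn j) (D.M j) (z j) -
    ((cB * ga * ∑ e, Bx D X e z : ℝ) : ℂ)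

theorem G_eq (D : SD N) (cB ga d : ℝ) : D.G cB ga d = Gx D (chi d) cB ga := rfl

/-- **GLN-HOMEO**: `Gx X = Gx 1 ∘ Ψ`, `Ψ z j = X (x_j) z_j`. -/
def HomeoP (D : SD N) : Prop := ∀ X : ℝ → ℝ, Prf X → ∀ cB ga : ℝ,
  ZEq (Gx D X cB ga) (Gx D (fun _ => 1) cB ga)

/-- **GLN-C2** -/
def C2P (D : SD N) : Prop := ∀ cB ga d η : ℝ, 0 < d → 0 < η →
  ContDiffOn ℝ 2 (Gx D (Xe d η) cB ga) {0}ᶜ

/-- **GLN-CONT** -/
def ContP (D : SD N) : Prop := ∀ cB ga d : ℝ, 0 < d → ContDiffOn ℝ 2 (D.G cB ga d) {0}ᶜ →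
  ContinuousOn (fun p : ℝ × (Fin N → ℂ) => Gx D (Xe d p.1) cB ga p.2) (Set.Ici 0 ×ˢ {0}ᶜ) ∧
  ContinuousOn (fun p : ℝ × (Fin N → ℂ) => fderiv ℝ (Gx D (Xe d p.1) cB ga) p.2)
    (Set.Ici 0 ×ˢ {0}ᶜ)

/-- **GL2N** -/
def GL2P (D : SD N) : Prop := Ev fun cB ga d => ZEq (F8N D D.K cB ga) (D.G cB ga d)

/-- **GLUE-N**: every admissible polar function has the link of `G`. -/
def GluP (D : SD N) : Prop := (∀ e, cd D e ≤ 3) → ∀ X : PD D, X.Ok →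
  Ev fun cB ga d => ZEq X.fn (D.G cB ga d)

end

end Crest.Agent.R267.GlNDefs_9
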