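import Mathlib

/-!
# Row 267 (helper808): weighted cones

`x ↦ (e^{t w_i} x_i)` is a flow on `ℂ^ι \ 0` all of whose orbits meet the unit sphere exactly once.
Hence a homeomorphism of `S × ℝ` which respects the `-∞` end and maps `K_f × ℝ` to `K_g × ℝ`
gives a homeomorphism of `ℂ^ι` which fixes `0` and maps the zero set of `f` to the zero set of
`g`; here `f`, `g` are invariant functions (for possibly different weights).
-/

set_option autoImplicit false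
set_option linter.unusedSectionVars false

noncomputable section

namespace Crest.Agent.R267.Cone_808

open Set Filter Topology

variable {ι : Type*} [Fintype ι]

/-- squared euclidean norm -/
def nsq (x : ι → ℂ) : ℝ := ∑ i, ‖x i‖ ^ 2

theorem continuous_nsq : Continuous (nsq (ι := ι)) := by
  unfold nsq; fun_prop

theorem nsq_nonneg (x : ι → ℂ) : 0 ≤ nsq x := Finset.sum_nonneg fun _ _ => by positivity

theorem nsq_eq_zero {x : ι → ℂ} : nsq x = 0 ↔ x = 0 := by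
  unfold nsq
  rw [Finset.sum_eq_zero_iff_of_nonneg (fun _ _ => by positivity)]
  constructor
  · intro h; funext i; simpa using h i (Finset.mem_univ i)
  · rintro rfl i _; simp

theorem nsq_pos {x : ι → ℂ} (hx : x ≠ 0) : 0 < nsq x :=
  lt_of_le_of_ne (nsq_nonneg x) fun h => hx (nsq_eq_zero.1 h.symm)

/-- the (euclidean) unit sphere of `ℂ^ι` -/
abbrev Sph (ι : Type*) [Fintype ι] : Type _ := {x : ι → ℂ // nsq x = 1}

theorem Sph.ne_zero (s : Sph ι) : (s : ι → ℂ) ≠ 0 := by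
  intro h
  have := s.2
  rw [h] at this
  simp [nsq] at this

/-- weighted dilation -/
def act (w : ι → ℝ) (t : ℝ) (x : ι → ℂ) : ι → ℂ := fun i => (Real.exp (t * w i) : ℂ) * x i

@[simp] theorem act_zero_time (w : ι → ℝ) (x : ι → ℂ) : act w 0 x = x := by
  funext i; simp [act]

@[simp] theorem act_zero (w : ι → ℝ) (t : ℝ) : act w t (0 : ι → ℂ) = 0 := by
  funext i; simp [act]

theorem act_add (w : ι → ℝ) (s t : ℝ) (x : ι → ℂ) : act w (s + t) x = act w s (act w t x) := by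
  funext i
  simp only [act]
  rw [add_mul, Real.exp_add]
  push_cast
  ring

theorem act_neg_act (w : ι → ℝ) (t : ℝ) (x : ι → ℂ) : act w (-t) (act w t x) = x := by
  rw [← act_add]; simp

theorem act_act_neg (w : ι → ℝ) (t : ℝ) (x : ι → ℂ) : act w t (act w (-t) x) = x := by
  rw [← act_add]; simp

theorem act_ne_zero {w : ι → ℝ} {t : ℝ} {x : ι → ℂ} (hx : x ≠ 0) : act w t x ≠ 0 := by
  intro h
  apply hx
  rw [← act_neg_act w t x, h, act_zero]

theorem continuous_act (w : ι → ℝ) : Continuous fun p : ℝ × (ι → ℂ) => act w p.1 p.2 := by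
  unfold act; fun_prop

theorem nsq_act (w : ι → ℝ) (t : ℝ) (x : ι → ℂ) :
    nsq (act w t x) = ∑ i, Real.exp (t * w i) ^ 2 * ‖x i‖ ^ 2 := by
  unfold nsq act
  refine Finset.sum_congr rfl fun i _ => ?_
  rw [norm_mul, mul_pow, Complex.norm_real, Real.norm_eq_abs, abs_of_pos (Real.exp_pos _)]

theorem nsq_act_strictMono {w : ι → ℝ} (hw : ∀ i, 0 < w i) {x : ι → ℂ} (hx : x ≠ 0) :
    StrictMono fun t => nsq (act w t x) := by
  intro s t hst
  simp only [nsq_act]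
  obtain ⟨j, hj⟩ : ∃ j, x j ≠ 0 := by
    by_contra h
    push Not at h
    exact hx (funext h)
  have hlt : ∀ i, Real.exp (s * w i) ^ 2 < Real.exp (t * w i) ^ 2 := fun i => by
    have : Real.exp (s * w i) < Real.exp (t * w i) :=
      Real.exp_lt_exp.2 (mul_lt_mul_of_pos_right hst (hw i))
    have h0 := Real.exp_pos (s * w i)
    nlinarith
  refine Finset.sum_lt_sum (fun i _ => mul_le_mul_of_nonneg_right (hlt i).le (by positivity))
    ⟨j, Finset.mem_univ j, ?_⟩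
  exact mul_lt_mul_of_pos_right (hlt j) (by positivity)

theorem exists_min_weight {w : ι → ℝ} (hw : ∀ i, 0 < w i) : ∃ c > 0, ∀ i, c ≤ w i := by
  classical
  rcases isEmpty_or_nonempty ι with h | h
  · exact ⟨1, one_pos, fun i => h.elim i⟩
  · obtain ⟨j, hj⟩ := Finite.exists_min w
    exact ⟨w j, hw j, hj⟩

theorem nsq_act_le {w : ι → ℝ} {c : ℝ} (hc : ∀ i, c ≤ w i) {t : ℝ} (ht : t ≤ 0) (x : ι → ℂ) :
    nsq (act w t x) ≤ Real.exp (2 * t * c) * nsq x := by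
  rw [nsq_act, nsq, Finset.mul_sum]
  refine Finset.sum_le_sum fun i _ => mul_le_mul_of_nonneg_right ?_ (by positivity)
  rw [← Real.exp_nat_mul]
  apply Real.exp_le_exp.2
  push_cast
  nlinarith [hc i]

theorem le_nsq_act {w : ι → ℝ} {c : ℝ} (hc : ∀ i, c ≤ w i) {t : ℝ} (ht : 0 ≤ t) (x : ι → ℂ) :
    Real.exp (2 * t * c) * nsq x ≤ nsq (act w t x) := by
  rw [nsq_act, nsq, Finset.mul_sum]
  refine Finset.sum_le_sum fun i _ => mul_le_mul_of_nonneg_right ?_ (by positivity)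
  rw [← Real.exp_nat_mul]
  apply Real.exp_le_exp.2
  push_cast
  nlinarith [hc i]

theorem exists_unique_time {w : ι → ℝ} (hw : ∀ i, 0 < w i) {x : ι → ℂ} (hx : x ≠ 0) :
    ∃! t, nsq (act w (-t) x) = 1 := by
  obtain ⟨c, hc0, hc⟩ := exists_min_weight hw
  have hcont : Continuous fun t : ℝ => nsq (act w t x) :=
    continuous_nsq.comp ((continuous_act w).comp (by fun_prop : Continuous fun t : ℝ => (t, x)))
  have hN := nsq_pos hx
  have h1 : Tendsto (fun t : ℝ => Real.exp (2 * t * c) * nsq x) atBot (𝓝 0) := by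
    rw [← zero_mul (nsq x)]
    refine Tendsto.mul_const _ (Real.tendsto_exp_atBot.comp ?_)
    exact (Tendsto.const_mul_atBot (by norm_num) tendsto_id).atBot_mul_const hc0
  have h2 : Tendsto (fun t : ℝ => Real.exp (2 * t * c) * nsq x) atTop atTop := by
    refine Tendsto.atTop_mul_const hN (Real.tendsto_exp_atTop.comp ?_)
    exact (Tendsto.const_mul_atTop (by norm_num) tendsto_id).atTop_mul_const hc0
  obtain ⟨a, ha1, ha2⟩ := ((h1.eventually (gt_mem_nhds one_pos)).and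
    (eventually_le_atBot (0 : ℝ))).exists
  obtain ⟨b, hb1, hb2⟩ := ((h2.eventually_ge_atTop 1).and (eventually_ge_atTop (0 : ℝ))).exists
  have hA : nsq (act w a x) ≤ 1 := (nsq_act_le hc ha2 x).trans ha1.le
  have hB : 1 ≤ nsq (act w b x) := hb1.trans (le_nsq_act hc hb2 x)
  obtain ⟨t, -, ht⟩ := intermediate_value_Icc (ha2.trans hb2) hcont.continuousOn ⟨hA, hB⟩
  refine ⟨-t, by simpa using ht, fun s hs => ?_⟩
  have := (nsq_act_strictMono hw hx).injective (hs.trans ht.symm)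
  linarith

/-- the time of `x`: `nsq (act w (-τ x) x) = 1` -/
def tau {w : ι → ℝ} (hw : ∀ i, 0 < w i) (x : {x : ι → ℂ // x ≠ 0}) : ℝ :=
  (exists_unique_time hw x.2).choose

theorem nsq_tau {w : ι → ℝ} (hw : ∀ i, 0 < w i) (x : {x : ι → ℂ // x ≠ 0}) :
    nsq (act w (-tau hw x) x) = 1 := (exists_unique_time hw x.2).choose_spec.1

theorem tau_eq {w : ι → ℝ} (hw : ∀ i, 0 < w i) (x : {x : ι → ℂ // x ≠ 0}) {t : ℝ}
    (h : nsq (act w (-t) x) = 1) : tau hw x = t :=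
  ((exists_unique_time hw x.2).choose_spec.2 t h).symm

theorem tau_lt_iff {w : ι → ℝ} (hw : ∀ i, 0 < w i) (x : {x : ι → ℂ // x ≠ 0}) (c : ℝ) :
    tau hw x < c ↔ nsq (act w (-c) x) < 1 := by
  rw [← nsq_tau hw x]
  have := (nsq_act_strictMono hw x.2).lt_iff_lt (a := -c) (b := -tau hw x)
  rw [this]
  exact neg_lt_neg_iff.symm

theorem lt_tau_iff {w : ι → ℝ} (hw : ∀ i, 0 < w i) (x : {x : ι → ℂ // x ≠ 0}) (c : ℝ) :
    c < tau hw x ↔ 1 < nsq (act w (-c) x) := by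
  rw [← nsq_tau hw x]
  have := (nsq_act_strictMono hw x.2).lt_iff_lt (a := -tau hw x) (b := -c)
  rw [this]
  exact neg_lt_neg_iff.symm

theorem continuous_tau {w : ι → ℝ} (hw : ∀ i, 0 < w i) : Continuous (tau hw) := by
  have hc : ∀ c : ℝ, Continuous fun x : {x : ι → ℂ // x ≠ 0} => nsq (act w (-c) x) := fun c =>
    continuous_nsq.comp ((continuous_act w).comp (by fun_prop :
      Continuous fun x : {x : ι → ℂ // x ≠ 0} => (-c, (x : ι → ℂ))))
  rw [continuous_iff_continuousAt]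
  intro x
  refine tendsto_order.2 ⟨fun a ha => ?_, fun b hb => ?_⟩
  · have h1 := (lt_tau_iff hw x a).1 ha
    filter_upwards [(hc a).continuousAt.eventually (lt_mem_nhds h1)] with y hy
    exact (lt_tau_iff hw y a).2 hy
  · have h1 := (tau_lt_iff hw x b).1 hb
    filter_upwards [(hc b).continuousAt.eventually (gt_mem_nhds h1)] with y hy
    exact (tau_lt_iff hw y b).2 hy

/-- weighted polar coordinates -/
def polar {w : ι → ℝ} (hw : ∀ i, 0 < w i) : {x : ι → ℂ // x ≠ 0} ≃ₜ Sph ι × ℝ where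
  toFun x := (⟨act w (-tau hw x) x, nsq_tau hw x⟩, tau hw x)
  invFun p := ⟨act w p.2 p.1, act_ne_zero (Sph.ne_zero p.1)⟩
  left_inv x := by
    apply Subtype.ext
    exact act_act_neg w _ _
  right_inv p := by
    have h : tau hw ⟨act w p.2 p.1, act_ne_zero (Sph.ne_zero p.1)⟩ = p.2 := by
      apply tau_eq
      simp only [act_neg_act]
      exact p.1.2
    refine Prod.ext (Subtype.ext ?_) h
    simp only [h, act_neg_act]
  continuous_toFun := by
    refine Continuous.prodMk (Continuous.subtype_mk ?_ _) (continuous_tau hw)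
    exact (continuous_act w).comp ((continuous_tau hw).neg.prodMk continuous_subtype_val)
  continuous_invFun := by
    refine Continuous.subtype_mk ?_ _
    exact (continuous_act w).comp (continuous_snd.prodMk
      (continuous_subtype_val.comp continuous_fst))

theorem polar_apply_fst {w : ι → ℝ} (hw : ∀ i, 0 < w i) (x : {x : ι → ℂ // x ≠ 0}) :
    ((polar hw x).1 : ι → ℂ) = act w (-tau hw x) x := rfl

theorem polar_apply_snd {w : ι → ℝ} (hw : ∀ i, 0 < w i) (x : {x : ι → ℂ // x ≠ 0}) :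
    (polar hw x).2 = tau hw x := rfl

theorem polar_symm_apply {w : ι → ℝ} (hw : ∀ i, 0 < w i) (p : Sph ι × ℝ) :
    ((polar hw).symm p : ι → ℂ) = act w p.2 p.1 := rfl

/-- `tau → -∞` at the origin -/
theorem tau_tendsto {w : ι → ℝ} (hw : ∀ i, 0 < w i) (M : ℝ) :
    ∀ᶠ x in 𝓝 (0 : ι → ℂ), ∀ hx : x ≠ 0, tau hw ⟨x, hx⟩ < M := by
  have hc : ContinuousAt (fun x : ι → ℂ => nsq (act w (-M) x)) 0 :=
    (continuous_nsq.comp ((continuous_act w).comp (by fun_prop :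
      Continuous fun x : ι → ℂ => (-M, x)))).continuousAt
  have h0 : nsq (act w (-M) (0 : ι → ℂ)) < 1 := by simp [nsq]
  filter_upwards [hc.eventually (gt_mem_nhds h0)] with x hx hx0
  exact (tau_lt_iff hw ⟨x, hx0⟩ M).2 hx

theorem norm_le_of_nsq {x : ι → ℂ} {r : ℝ} (hr : 0 ≤ r) (h : nsq x ≤ r ^ 2) : ‖x‖ ≤ r := by
  rw [pi_norm_le_iff_of_nonneg hr]
  intro i
  have h1 : ‖x i‖ ^ 2 ≤ r ^ 2 := (Finset.single_le_sum (f := fun i => ‖x i‖ ^ 2)
    (fun _ _ => by positivity) (Finset.mem_univ i)).trans h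
  exact (sq_le_sq₀ (norm_nonneg _) hr).1 h1

/-- points with very negative time are close to the origin -/
theorem exists_time_small {w : ι → ℝ} (hw : ∀ i, 0 < w i) {U : Set (ι → ℂ)}
    (hU : U ∈ 𝓝 (0 : ι → ℂ)) :
    ∃ M : ℝ, ∀ (s : Sph ι) (t : ℝ), t < M → act w t s ∈ U := by
  obtain ⟨c, hc0, hc⟩ := exists_min_weight hw
  obtain ⟨ε, hε, hball⟩ := Metric.mem_nhds_iff.1 hU
  have h1 : Tendsto (fun t : ℝ => Real.exp (2 * t * c)) atBot (𝓝 0) :=
    Real.tendsto_exp_atBot.comp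
      ((Tendsto.const_mul_atBot (by norm_num) tendsto_id).atBot_mul_const hc0)
  obtain ⟨M, hM⟩ := (h1.eventually (gt_mem_nhds (show (0 : ℝ) < (ε / 2) ^ 2 by positivity))).exists_forall_of_atBot
  refine ⟨min M 0, fun s t ht => hball ?_⟩
  have ht1 : t ≤ M := (ht.trans_le (min_le_left _ _)).le
  have ht2 : t ≤ 0 := (ht.trans_le (min_le_right _ _)).le
  have h2 : nsq (act w t (s : ι → ℂ)) ≤ (ε / 2) ^ 2 := by
    refine (nsq_act_le hc ht2 _).trans ?_
    rw [s.2, mul_one]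
    exact (hM t ht1).le
  have h3 := norm_le_of_nsq (by positivity : (0 : ℝ) ≤ ε / 2) h2
  rw [mem_ball_zero_iff]
  linarith

/-- extension of a homeomorphism of `ℂ^ι \ 0` which is continuous at the origin -/
theorem extend_homeo (h : {x : ι → ℂ // x ≠ 0} ≃ₜ {x : ι → ℂ // x ≠ 0})
    (h1 : ∀ U ∈ 𝓝 (0 : ι → ℂ), ∀ᶠ x in 𝓝 (0 : ι → ℂ), ∀ hx : x ≠ 0, (h ⟨x, hx⟩ : ι → ℂ) ∈ U)
    (h2 : ∀ U ∈ 𝓝 (0 : ι → ℂ), ∀ᶠ x in 𝓝 (0 : ι → ℂ), ∀ hx : x ≠ 0,
      (h.symm ⟨x, hx⟩ : ι → ℂ) ∈ U) :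
    ∃ Φ : (ι → ℂ) ≃ₜ (ι → ℂ), Φ 0 = 0 ∧ ∀ (x : ι → ℂ) (hx : x ≠ 0), Φ x = h ⟨x, hx⟩ := by
  classical
  let F : ({x : ι → ℂ // x ≠ 0} ≃ₜ {x : ι → ℂ // x ≠ 0}) → (ι → ℂ) → (ι → ℂ) :=
    fun k x => if hx : x ≠ 0 then (k ⟨x, hx⟩ : ι → ℂ) else 0
  have hF0 : ∀ k, F k 0 = 0 := fun k => by simp [F]
  have hF : ∀ k (x : ι → ℂ) (hx : x ≠ 0), F k x = k ⟨x, hx⟩ := fun k x hx => dif_pos hx
  have hcont : ∀ k : {x : ι → ℂ // x ≠ 0} ≃ₜ {x : ι → ℂ // x ≠ 0},
      (∀ U ∈ 𝓝 (0 : ι → ℂ), ∀ᶠ x in 𝓝 (0 : ι → ℂ), ∀ hx : x ≠ 0, (k ⟨x, hx⟩ : ι → ℂ) ∈ U) →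
      Continuous (F k) := by
    intro k hk
    rw [continuous_iff_continuousAt]
    intro x
    by_cases hx : x = 0
    · subst hx
      rw [ContinuousAt, hF0]
      intro U hU
      rw [mem_map]
      filter_upwards [hk U hU] with y hy
      show F k y ∈ U
      by_cases hy0 : y = 0
      · rw [hy0, hF0]; exact mem_of_mem_nhds hU
      · rw [hF k y hy0]; exact hy hy0
    · have hopen : IsOpen {x : ι → ℂ | x ≠ 0} := isOpen_ne
      have : ContinuousOn (F k) {x : ι → ℂ | x ≠ 0} := by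
        rw [continuousOn_iff_continuous_domRestrict]
        have : Set.domRestrict {x : ι → ℂ | x ≠ 0} (F k) = fun y => (k ⟨y.1, y.2⟩ : ι → ℂ) := by
          funext y
          exact hF k y.1 y.2
        rw [this]
        exact continuous_subtype_val.comp k.continuous
      exact this.continuousAt (hopen.mem_nhds hx)
  have hinv : ∀ (k l : {x : ι → ℂ // x ≠ 0} ≃ₜ {x : ι → ℂ // x ≠ 0}), (∀ y, l (k y) = y) →
      ∀ x, F l (F k x) = x := by
    intro k l hkl x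
    by_cases hx : x = 0
    · rw [hx, hF0, hF0]
    · rw [hF k x hx, hF l _ (k ⟨x, hx⟩).2]
      exact congrArg Subtype.val (hkl ⟨x, hx⟩)
  exact ⟨{ toFun := F h
           invFun := F h.symm
           left_inv := hinv h h.symm h.symm_apply_apply
           right_inv := hinv h.symm h h.apply_symm_apply
           continuous_toFun := hcont h h1
           continuous_invFun := hcont h.symm h2 }, hF0 h, hF h⟩

/-- **weighted cones**: a homeomorphism of `S × ℝ` respecting the `-∞` ends and the invariant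
sets gives a homeomorphism of `ℂ^ι`. -/
theorem homeo_of_cyl {w w' : ι → ℝ} (hw : ∀ i, 0 < w i) (hw' : ∀ i, 0 < w' i)
    {A B : Set (ι → ℂ)} (hA : ∀ t x, act w t x ∈ A ↔ x ∈ A) (hB : ∀ t x, act w' t x ∈ B ↔ x ∈ B)
    (h0 : (0 : ι → ℂ) ∈ A ↔ (0 : ι → ℂ) ∈ B)
    (h : Sph ι × ℝ ≃ₜ Sph ι × ℝ)
    (hAB : ∀ p : Sph ι × ℝ, (p.1 : ι → ℂ) ∈ A ↔ ((h p).1 : ι → ℂ) ∈ B)
    (hend : ∀ M, ∃ M', ∀ p : Sph ι × ℝ, p.2 < M' → (h p).2 < M)
    (hend' : ∀ M, ∃ M', ∀ p : Sph ι × ℝ, p.2 < M' → (h.symm p).2 < M) :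
    ∃ Φ : (ι → ℂ) ≃ₜ (ι → ℂ), Φ 0 = 0 ∧ ∀ x, (x ∈ A ↔ Φ x ∈ B) := by
  let k : {x : ι → ℂ // x ≠ 0} ≃ₜ {x : ι → ℂ // x ≠ 0} :=
    ((polar hw).trans h).trans (polar hw').symm
  have key : ∀ {v v' : ι → ℝ} (hv : ∀ i, 0 < v i) (hv' : ∀ i, 0 < v' i)
      (g : Sph ι × ℝ ≃ₜ Sph ι × ℝ), (∀ M, ∃ M', ∀ p : Sph ι × ℝ, p.2 < M' → (g p).2 < M) →
      ∀ U ∈ 𝓝 (0 : ι → ℂ), ∀ᶠ x in 𝓝 (0 : ι → ℂ), ∀ hx : x ≠ 0,
        ((polar hv').symm (g (polar hv ⟨x, hx⟩)) : ι → ℂ) ∈ U := by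
    intro v v' hv hv' g hg U hU
    obtain ⟨M, hM⟩ := exists_time_small hv' hU
    obtain ⟨M', hM'⟩ := hg M
    filter_upwards [tau_tendsto hv M'] with x hx hx0
    rw [polar_symm_apply]
    exact hM _ _ (hM' _ (by rw [polar_apply_snd]; exact hx hx0))
  obtain ⟨Φ, hΦ0, hΦ⟩ := extend_homeo k (key hw hw' h hend) (key hw' hw h.symm hend')
  refine ⟨Φ, hΦ0, fun x => ?_⟩
  by_cases hx : x = 0
  · rw [hx, hΦ0]; exact h0
  · rw [hΦ x hx]
    have h1 : ((k ⟨x, hx⟩ : {x : ι → ℂ // x ≠ 0}) : ι → ℂ) =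
        act w' (h (polar hw ⟨x, hx⟩)).2 (h (polar hw ⟨x, hx⟩)).1 := rfl
    rw [h1, hB, ← hAB, polar_apply_fst, hA]

/-- version for a homeomorphism of the sphere -/
theorem homeo_of_sphere {w w' : ι → ℝ} (hw : ∀ i, 0 < w i) (hw' : ∀ i, 0 < w' i)
    {A B : Set (ι → ℂ)} (hA : ∀ t x, act w t x ∈ A ↔ x ∈ A) (hB : ∀ t x, act w' t x ∈ B ↔ x ∈ B)
    (h0 : (0 : ι → ℂ) ∈ A ↔ (0 : ι → ℂ) ∈ B)
    (h : Sph ι ≃ₜ Sph ι) (hAB : ∀ s : Sph ι, (s : ι → ℂ) ∈ A ↔ (h s : ι → ℂ) ∈ B) :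
    ∃ Φ : (ι → ℂ) ≃ₜ (ι → ℂ), Φ 0 = 0 ∧ ∀ x, (x ∈ A ↔ Φ x ∈ B) :=
  homeo_of_cyl hw hw' hA hB h0 (h.prodCongr (Homeomorph.refl ℝ)) (fun p => hAB p.1)
    (fun M => ⟨M, fun _ hp => hp⟩) (fun M => ⟨M, fun _ hp => hp⟩)

/-- the zero set of a weighted homogeneous polynomial is invariant -/
theorem zero_iff_of_wh {σ : Type*} [Fintype σ] {w : σ → ℕ} {d : ℕ} {f : MvPolynomial σ ℝ}
    (hf : MvPolynomial.IsWeightedHomogeneous w f d) (t : ℝ) (z : σ → ℂ) :
    MvPolynomial.aeval (act (fun i => (w i : ℝ)) t z) f =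
      (Real.exp (t * d) : ℂ) * MvPolynomial.aeval z f := by
  rw [MvPolynomial.aeval_def, MvPolynomial.aeval_def, MvPolynomial.eval₂_eq, MvPolynomial.eval₂_eq,
    Finset.mul_sum]
  refine Finset.sum_congr rfl fun m hm => ?_
  have h1 := hf (MvPolynomial.mem_support_iff.1 hm)
  have h2 : ∏ i ∈ m.support, act (fun i => (w i : ℝ)) t z i ^ m i =
      (∏ i ∈ m.support, (Real.exp (t * w i) : ℂ) ^ m i) * ∏ i ∈ m.support, z i ^ m i := by
    rw [← Finset.prod_mul_distrib]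
    exact Finset.prod_congr rfl fun i _ => by simp only [act]; rw [mul_pow]
  have h3 : (∏ i ∈ m.support, (Real.exp (t * w i) : ℂ) ^ m i) = (Real.exp (t * d) : ℂ) := by
    rw [← h1, Finsupp.weight_apply, Finsupp.sum]
    push_cast
    rw [Finset.mul_sum, Complex.exp_sum]
    refine Finset.prod_congr rfl fun i _ => ?_
    rw [← Complex.exp_nat_mul]
    congr 1
    simp only [smul_eq_mul]
    push_cast
    ring
  rw [h2, h3]
  ring

/-- **The form used for S0407.** -/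
theorem exists_germ_homeo {N : ℕ} {f g : MvPolynomial (Fin N) ℝ} {w w' : Fin N → ℕ}
    {d d' : ℕ} (hw : ∀ i, 0 < w i) (hw' : ∀ i, 0 < w' i)
    (hf : MvPolynomial.IsWeightedHomogeneous w f d)
    (hg : MvPolynomial.IsWeightedHomogeneous w' g d')
    (h0 : MvPolynomial.aeval (0 : Fin N → ℂ) f = 0 ↔ MvPolynomial.aeval (0 : Fin N → ℂ) g = 0)
    (h : Sph (Fin N) ≃ₜ Sph (Fin N))
    (hfg : ∀ s : Sph (Fin N), MvPolynomial.aeval (s : Fin N → ℂ) f = 0 ↔
      MvPolynomial.aeval (h s : Fin N → ℂ) g = 0) :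
    ∃ φ : OpenPartialHomeomorph (Fin N → ℂ) (Fin N → ℂ),
      (0 : Fin N → ℂ) ∈ φ.source ∧ φ 0 = 0 ∧
      ∀ z ∈ φ.source, (MvPolynomial.aeval z f = 0 ↔ MvPolynomial.aeval (φ z) g = 0) := by
  have hinv : ∀ {v : Fin N → ℕ} {e : ℕ} {q : MvPolynomial (Fin N) ℝ},
      MvPolynomial.IsWeightedHomogeneous v q e → ∀ (t : ℝ) (x : Fin N → ℂ),
      act (fun i => (v i : ℝ)) t x ∈ {z : Fin N → ℂ | MvPolynomial.aeval z q = 0} ↔
        x ∈ {z : Fin N → ℂ | MvPolynomial.aeval z q = 0} := by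
    intro v e q hq t x
    simp only [mem_ofPred_eq]
    rw [zero_iff_of_wh hq, mul_eq_zero]
    have : (Real.exp (t * e) : ℂ) ≠ 0 := by exact_mod_cast (Real.exp_pos _).ne'
    simp only [this, false_or]
  obtain ⟨Φ, hΦ0, hΦ⟩ := homeo_of_sphere (w := fun i => (w i : ℝ)) (w' := fun i => (w' i : ℝ))
    (fun i => by exact_mod_cast hw i) (fun i => by exact_mod_cast hw' i)
    (hinv hf) (hinv hg) h0 h hfg
  exact ⟨Φ.toOpenPartialHomeomorph, by simp, by simpa using hΦ0, fun z _ => by simpa using hΦ z⟩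

end Crest.Agent.R267.Cone_808
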