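import Crest.Agent.R267.Sys_808
import Crest.Agent.R267.Cone_808

/-!
# Assembly of S0407 (row 267) from the arithmetic output `INTb` and the topological output `TOPb`

`INTb` : for every colouring of systems by a finite set which does not see squares there are two
systems as in `P4Defs_780.INT`, all chains strictly increasing, with the same colour.
`TOPb` : there is a colouring (one Arf bit) such that two systems with the same number of
variables, congruent Seifert matrices and equal colour have homeomorphic links.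
-/

set_option autoImplicit false

namespace Crest.Agent.R267.Asm_808

open Topology Filter MvPolynomial
open Crest.Agent.R267.P4Defs_780 Crest.Agent.R267.ChainPoly_145
open Crest.Agent.R267.Cone_808 Crest.Agent.R267.Sys_808

/-- the exponents of every chain are strictly increasing (so the pure power has the largest
exponent). -/
def Inc (S : List (List ℕ)) : Prop := ∀ c ∈ S, c.Pairwise (· < ·)

/-- a colouring of the systems which does not see squares. -/
def Blind (bit : List (List ℕ) → Bool) : Prop := ∀ S, bit ([2] :: S) = bit S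

/-- **ARITHMETIC OUTPUT** (P4 with one bit). -/
def INTb : Prop :=
  ∀ bit : List (List ℕ) → Bool, Blind bit →
    ∃ S S' : List (List ℕ), Adm S ∧ Adm S' ∧ Inc S ∧ Inc S' ∧ nvar S = nvar S' ∧ 3 < nvar S ∧
      8 ∣ nvar S ∧ [2] ∈ S ∧ [3] ∈ S' ∧ (∀ c ∈ S', ∀ h : c ≠ [], 3 ≤ c.getLast h) ∧
      bit S = bit S' ∧ Cong ℤ (sysMat S) (sysMat S')

/-- The links of two systems correspond under a homeomorphism of the unit spheres. -/
def LinkEq (S S' : List (List ℕ)) : Prop :=
  ∃ h : Sph (Var S) ≃ₜ Sph (Var S'),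
    ∀ s : Sph (Var S), sysFun S s = 0 ↔ sysFun S' (h s) = 0

/-- **TOPOLOGICAL OUTPUT** (T1 + T2 + T3 + P6 with one bit). -/
def TOPb : Prop :=
  ∃ bit : List (List ℕ) → Bool, Blind bit ∧
    ∀ S S' : List (List ℕ), Adm S → Adm S' → Inc S → Inc S' → nvar S = nvar S' → 3 < nvar S →
      bit S = bit S' → Cong ℤ (sysMat S) (sysMat S') → LinkEq S S'

/-! ### reindexing of spheres -/

lemma nsq_comp {ι κ : Type*} [Fintype ι] [Fintype κ] (e : ι ≃ κ) (x : κ → ℂ) :
    nsq (x ∘ e) = nsq x := by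
  unfold nsq
  exact e.sum_comp (fun k => ‖x k‖ ^ 2)

/-- reindexing of the sphere. -/
def sphCongr {ι κ : Type*} [Fintype ι] [Fintype κ] (e : ι ≃ κ) : Sph κ ≃ₜ Sph ι where
  toFun x := ⟨(x : κ → ℂ) ∘ e, by rw [nsq_comp]; exact x.2⟩
  invFun x := ⟨(x : ι → ℂ) ∘ e.symm, by rw [nsq_comp]; exact x.2⟩
  left_inv x := by
    apply Subtype.ext
    funext i
    simp
  right_inv x := by
    apply Subtype.ext
    funext i
    simp
  continuous_toFun := by
    refine Continuous.subtype_mk ?_ _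
    exact continuous_pi fun i => (continuous_apply (e i)).comp continuous_subtype_val
  continuous_invFun := by
    refine Continuous.subtype_mk ?_ _
    exact continuous_pi fun i => (continuous_apply (e.symm i)).comp continuous_subtype_val

/-- The literal conclusion of S0407. -/
def S0407Stmt : Prop :=
    ∃ N : ℕ, 3 < N ∧ 8 ∣ N ∧ ∃ f g : MvPolynomial (Fin N) ℝ,
      Squarefree f ∧ Squarefree g ∧
      (∃ w : Fin N → ℕ, (∀ i, 0 < w i) ∧ ∃ d : ℕ, MvPolynomial.IsWeightedHomogeneous w f d) ∧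
      (∃ w : Fin N → ℕ, (∀ i, 0 < w i) ∧ ∃ d : ℕ, MvPolynomial.IsWeightedHomogeneous w g d) ∧
      fderiv ℂ (fun z : Fin N → ℂ => MvPolynomial.aeval z f) 0 = 0 ∧
      (∀ᶠ z in 𝓝[≠] (0 : Fin N → ℂ), fderiv ℂ (fun z : Fin N → ℂ => MvPolynomial.aeval z f) z ≠ 0) ∧
      fderiv ℂ (fun z : Fin N → ℂ => MvPolynomial.aeval z g) 0 = 0 ∧
      (∀ᶠ z in 𝓝[≠] (0 : Fin N → ℂ), fderiv ℂ (fun z : Fin N → ℂ => MvPolynomial.aeval z g) z ≠ 0) ∧
      (∀ j < 2, MvPolynomial.homogeneousComponent j f = 0) ∧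
      MvPolynomial.homogeneousComponent 2 f ≠ 0 ∧
      (∀ j < 3, MvPolynomial.homogeneousComponent j g = 0) ∧
      MvPolynomial.homogeneousComponent 3 g ≠ 0 ∧
      ∃ φ : OpenPartialHomeomorph (Fin N → ℂ) (Fin N → ℂ),
        (0 : Fin N → ℂ) ∈ φ.source ∧ φ 0 = 0 ∧
        ∀ z ∈ φ.source, (MvPolynomial.aeval z f = 0 ↔ MvPolynomial.aeval (φ z) g = 0)

/-- One pair of systems with homeomorphic links gives S0407. -/
theorem stmt_of_linkEq {S S' : List (List ℕ)} (hS : Adm S) (hS' : Adm S')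
    (hn : nvar S = nvar S') (h3 : 3 < nvar S) (h8 : 8 ∣ nvar S) (h2 : [2] ∈ S) (h3' : [3] ∈ S')
    (hl : ∀ c ∈ S', ∀ h : c ≠ [], 3 ≤ c.getLast h) (hL : LinkEq S S') : S0407Stmt := by
  have tS : ∀ c ∈ S, ∀ a ∈ c, 2 ≤ a := fun c hc => (hS c hc).2
  have tS' : ∀ c ∈ S', ∀ a ∈ c, 2 ≤ a := fun c hc => (hS' c hc).2
  obtain ⟨N, hN⟩ : ∃ N, N = nvar S := ⟨_, rfl⟩
  have e : Var S ≃ Fin N := Fintype.equivFinOfCardEq (by rw [card_Var, hN])
  have e' : Var S' ≃ Fin N := Fintype.equivFinOfCardEq (by rw [card_Var, hN, hn])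
  have A := side_conditions (N := N) (by omega) ((sysC S tS).map e) 2
    (fun i => two_le_deg _ _)
    (by
      obtain ⟨i, hi⟩ := exists_deg_eq S tS 2 h2
      exact ⟨e i, by rw [deg_map, e.symm_apply_apply, hi]⟩)
  have B := side_conditions (N := N) (by omega) ((sysC S' tS').map e') 3
    (fun i => by rw [deg_map]; exact deg_sysC_ge_three S' tS' hl _)
    (by
      obtain ⟨i, hi⟩ := exists_deg_eq S' tS' 3 h3'
      exact ⟨e' i, by rw [deg_map, e'.symm_apply_apply, hi]⟩)
  obtain ⟨A1, A2, A3, A4, A5, A6⟩ := A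
  obtain ⟨B1, B2, B3, B4, B5, B6⟩ := B
  refine ⟨N, by omega, by rw [hN]; exact h8, _, _, A1, B1, A2, B2, A3, A4, B3, B4, A5, A6, B5, B6, ?_⟩
  obtain ⟨w, hw, d, hd⟩ := A2
  obtain ⟨w', hw', d', hd'⟩ := B2
  obtain ⟨h, hh⟩ := hL
  refine exists_germ_homeo hw hw' hd hd' ?_
    ((sphCongr e).trans (h.trans (sphCongr e').symm)) fun s => ?_
  · have key : ∀ (C : Chains (Fin N)), aeval (0 : Fin N → ℂ) (poly ℝ C) = (0 : ℂ) := by
      intro C
      rw [aeval_poly]
      refine Finset.sum_eq_zero fun i _ => ?_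
      have := C.two_le i
      rw [Pi.zero_apply, zero_pow (by omega), mul_zero]
    rw [key, key]
  · rw [aeval_poly_map, aeval_poly_map, aeval_sysC, aeval_sysC]
    refine (hh (sphCongr e s)).trans ?_
    have : ((((sphCongr e).trans (h.trans (sphCongr e').symm)) s : Sph (Fin N)) : Fin N → ℂ) ∘ e'
        = (h (sphCongr e s) : Var S' → ℂ) := by
      funext i
      simp [sphCongr]
    rw [this]

/-- **ASSEMBLY of S0407.** -/
theorem stmt_of_INTb_TOPb (hI : INTb) (hT : TOPb) : S0407Stmt := by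
  obtain ⟨bit, hb, hT⟩ := hT
  obtain ⟨S, S', h1, h2, h3, h4, h5, h6, h7, h8, h9, h10, h11, h12⟩ := hI bit hb
  exact stmt_of_linkEq h1 h2 h5 h6 h7 h8 h9 h10 (hT S S' h1 h2 h3 h4 h5 h6 h11 h12)

end Crest.Agent.R267.Asm_808
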