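import Mathlib

/-!
Basic extension calculus on the closed unit ball of a normed space `V`, with every map defined
on all of `V` (compose with the radial retraction `retr`).
-/

set_option autoImplicit false
set_option linter.unusedSectionVars false
open Topology Filter Set Module

namespace Crest.Agent.R267.BallExt_88

noncomputable section

variable {V E : Type*} [NormedAddCommGroup V] [NormedSpace ℝ V]
  [NormedAddCommGroup E] [NormedSpace ℝ E]

/-- radial retraction onto the closed unit ball -/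
def retr (x : V) : V := (max 1 ‖x‖)⁻¹ • x

theorem continuous_retr : Continuous (retr : V → V) := by
  unfold retr
  refine Continuous.smul (Continuous.inv₀ (by fun_prop) ?_) continuous_id
  intro x
  have : (0:ℝ) < max 1 ‖x‖ := lt_of_lt_of_le one_pos (le_max_left _ _)
  exact this.ne'

theorem norm_retr_le (x : V) : ‖retr x‖ ≤ 1 := by
  unfold retr
  have h0 : (0:ℝ) < max 1 ‖x‖ := lt_of_lt_of_le one_pos (le_max_left _ _)
  rw [norm_smul, norm_inv, Real.norm_of_nonneg h0.le, inv_mul_le_iff₀ h0, mul_one]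
  exact le_max_right _ _

theorem retr_eq {x : V} (hx : ‖x‖ ≤ 1) : retr x = x := by
  unfold retr
  rw [max_eq_left hx]; simp

theorem norm_retr_eq {x : V} (hx : 1 ≤ ‖x‖) : ‖retr x‖ = 1 := by
  unfold retr
  have h0 : (0:ℝ) < ‖x‖ := lt_of_lt_of_le one_pos hx
  rw [max_eq_right hx, norm_smul, norm_inv, norm_norm, inv_mul_cancel₀ h0.ne']

theorem retr_two_smul_of_norm_eq {x : V} (hx : ‖x‖ = 1) : retr ((2:ℝ) • x) = x := by
  unfold retr
  have h2 : ‖(2:ℝ) • x‖ = 2 := by rw [norm_smul, hx]; norm_num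
  rw [h2, max_eq_right (by norm_num), smul_smul]; norm_num

theorem norm_retr_two_smul {x : V} (hx : 1/2 ≤ ‖x‖) : ‖retr ((2:ℝ) • x)‖ = 1 := by
  apply norm_retr_eq
  rw [norm_smul]; norm_num; linarith

/-- clamp to `[0,1]` -/
def clamp (t : ℝ) : ℝ := max 0 (min 1 t)

theorem continuous_clamp : Continuous clamp := by unfold clamp; fun_prop
theorem clamp_nonneg (t : ℝ) : 0 ≤ clamp t := le_max_left _ _
theorem clamp_le_one (t : ℝ) : clamp t ≤ 1 := max_le zero_le_one (min_le_left _ _)
theorem clamp_mem (t : ℝ) : clamp t ∈ Icc (0:ℝ) 1 := ⟨clamp_nonneg t, clamp_le_one t⟩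
theorem clamp_of_nonpos {t : ℝ} (h : t ≤ 0) : clamp t = 0 := by
  unfold clamp; rw [max_eq_left]; exact (min_le_right _ _).trans h
theorem clamp_of_one_le {t : ℝ} (h : 1 ≤ t) : clamp t = 1 := by
  unfold clamp; rw [min_eq_left h]; exact max_eq_right zero_le_one
theorem clamp_of_mem {t : ℝ} (h0 : 0 ≤ t) (h1 : t ≤ 1) : clamp t = t := by
  unfold clamp; rw [min_eq_right h1]; exact max_eq_right h0

/-- `h`, restricted to the unit sphere of `V`, extends to a continuous map on the ball (on `V`)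
missing `S`. -/
def BallExt (h : V → E) (S : Set E) : Prop :=
  ∃ A : V → E, Continuous A ∧ (∀ x, A x ∉ S) ∧ ∀ x, ‖x‖ = 1 → A x = h x

theorem ballExt_of_closedBall {h : V → E} {S : Set E} {A : V → E}
    (hA : ContinuousOn A (Metric.closedBall 0 1)) (hS : ∀ x, ‖x‖ ≤ 1 → A x ∉ S)
    (hAh : ∀ x, ‖x‖ = 1 → A x = h x) : BallExt h S := by
  refine ⟨fun x => A (retr x), ?_, fun x => hS _ (norm_retr_le x), fun x hx => ?_⟩
  · exact hA.comp_continuous continuous_retr (fun x => by simpa using norm_retr_le x)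
  · show A (retr x) = h x
    rw [retr_eq hx.le, hAh x hx]

theorem BallExt.congr {h h' : V → E} {S : Set E} (H : BallExt h S)
    (hh : ∀ x, ‖x‖ = 1 → h x = h' x) : BallExt h' S := by
  obtain ⟨A, hA, hS, hAh⟩ := H
  exact ⟨A, hA, hS, fun x hx => (hAh x hx).trans (hh x hx)⟩

theorem BallExt.mono {h : V → E} {S T : Set E} (H : BallExt h S) (hTS : T ⊆ S) : BallExt h T := by
  obtain ⟨A, hA, hS, hAh⟩ := H
  exact ⟨A, hA, fun x hx => hS x (hTS hx), hAh⟩

/-- collar lemma: if `C` is a map on the ball missing `S` and on the sphere the straight segments from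
`C x` to `h x` miss `S`, then `h` extends. -/
theorem ballExt_of_segment {h C : V → E} {S : Set E} (hh : Continuous h) (hC : Continuous C)
    (hCS : ∀ x, ‖x‖ ≤ 1 → C x ∉ S)
    (hseg : ∀ x, ‖x‖ = 1 → ∀ t ∈ Icc (0:ℝ) 1, AffineMap.lineMap (C x) (h x) t ∉ S) :
    BallExt h S := by
  refine ⟨fun x => AffineMap.lineMap (C (retr ((2:ℝ) • x))) (h (retr ((2:ℝ) • x)))
      (clamp (2 * ‖x‖ - 1)), ?_, ?_, ?_⟩
  · have h2 : Continuous (fun x : V => retr ((2:ℝ) • x)) :=
      continuous_retr.comp (continuous_const_smul _)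
    simp only [AffineMap.lineMap_apply_module']
    exact (((continuous_clamp.comp (by fun_prop)).smul
      ((hh.comp h2).sub (hC.comp h2)))).add (hC.comp h2)
  · intro x
    beta_reduce
    by_cases hx : ‖x‖ ≤ 1/2
    · rw [clamp_of_nonpos (t := 2 * ‖x‖ - 1) (by linarith), AffineMap.lineMap_apply_zero]
      exact hCS _ (norm_retr_le _)
    · push Not at hx
      exact hseg _ (norm_retr_two_smul hx.le) _ (clamp_mem _)
  · intro x hx
    show AffineMap.lineMap _ _ _ = _
    rw [hx, clamp_of_one_le (by norm_num), AffineMap.lineMap_apply_one,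
      retr_two_smul_of_norm_eq hx]

/-- collar lemma with a general homotopy -/
theorem ballExt_of_homotopy {h C : V → E} {S : Set E} (hC : Continuous C)
    (hCS : ∀ x, ‖x‖ ≤ 1 → C x ∉ S) (H : V × ℝ → E) (hH : Continuous H)
    (H0 : ∀ x, ‖x‖ = 1 → H (x, 0) = C x) (H1 : ∀ x, ‖x‖ = 1 → H (x, 1) = h x)
    (HS : ∀ x, ‖x‖ = 1 → ∀ t ∈ Icc (0:ℝ) 1, H (x, t) ∉ S) :
    BallExt h S := by
  refine ⟨fun x => if ‖x‖ ≤ 1/2 then C (retr ((2:ℝ) • x)) else
      H (retr ((2:ℝ) • x), clamp (2 * ‖x‖ - 1)), ?_, ?_, ?_⟩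
  · have h2 : Continuous (fun x : V => retr ((2:ℝ) • x)) :=
      continuous_retr.comp (continuous_const_smul _)
    refine Continuous.if_le (hC.comp h2) (hH.comp (h2.prodMk (continuous_clamp.comp (by fun_prop))))
      continuous_norm continuous_const ?_
    intro x hx
    rw [hx, clamp_of_nonpos (by norm_num), H0 _ (norm_retr_two_smul hx.ge)]
  · intro x
    by_cases hx : ‖x‖ ≤ 1/2
    · simp only [hx, if_true]
      exact hCS _ (norm_retr_le _)
    · simp only [hx, if_false]
      push Not at hx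
      exact HS _ (norm_retr_two_smul hx.le) _ (clamp_mem _)
  · intro x hx
    have : ¬ ‖x‖ ≤ 1/2 := by rw [hx]; norm_num
    simp only [this, if_false]
    rw [hx, clamp_of_one_le (by norm_num), retr_two_smul_of_norm_eq hx, H1 x hx]

end

end Crest.Agent.R267.BallExt_88
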