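import Crest.Agent.R267.Inv_118

/-!
# The ball `√(1-ε²) cosh (log ‖v‖ - l) ‖v‖ < ⟪v, w⟫` of `LM_808.inD` in the usual form

`c = exp l / √(1 - ε²)`: `ball_iff`, `sph_iff` (ball and sphere of radius `ε c` about `c w`) and
`sec_iff` (the hyperplane of `LM_808.onD` = the one of `Inv_118.sigma_iff`).
-/

set_option autoImplicit false

namespace Crest.Agent.R267.Ball_493

open scoped RealInnerProductSpace

variable {V : Type*} [NormedAddCommGroup V] [InnerProductSpace ℝ V]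

lemma a_sq {eps : ℝ} (h1 : eps < 1) (h0 : 0 < eps) :
    0 < Real.sqrt (1 - eps ^ 2) ∧ Real.sqrt (1 - eps ^ 2) ^ 2 = 1 - eps ^ 2 := by
  have : 0 < 1 - eps ^ 2 := by nlinarith
  exact ⟨Real.sqrt_pos.2 this, Real.sq_sqrt this.le⟩

lemma key {eps l : ℝ} (h0 : 0 < eps) (h1 : eps < 1) {v w : V} (hv : v ≠ 0) (hw : ‖w‖ = 1) :
    ‖v - (Real.exp l / Real.sqrt (1 - eps ^ 2)) • w‖ ^ 2 -
        (eps * (Real.exp l / Real.sqrt (1 - eps ^ 2))) ^ 2 =
      2 * (Real.exp l / Real.sqrt (1 - eps ^ 2)) *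
        (Real.sqrt (1 - eps ^ 2) * Real.cosh (Real.log ‖v‖ - l) * ‖v‖ - ⟪v, w⟫) := by
  obtain ⟨ha, ha2⟩ := a_sq h1 h0
  set a := Real.sqrt (1 - eps ^ 2) with hadef
  have hn : 0 < ‖v‖ := norm_pos_iff.2 hv
  have hE : 0 < Real.exp l := Real.exp_pos l
  rw [norm_sub_sq_real, norm_smul, hw, inner_smul_right, Real.norm_eq_abs, mul_one, sq_abs,
    Real.cosh_eq, Real.exp_neg, Real.exp_sub, Real.exp_log hn]
  have e1 : eps ^ 2 = 1 - a ^ 2 := by rw [ha2]; ring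
  rw [mul_pow, e1]
  field_simp
  ring

/-- **the ball of radius `eps c` about `c w`**, `c = exp l / a`. -/
theorem ball_iff {eps l : ℝ} (h0 : 0 < eps) (h1 : eps < 1) {v w : V} (hv : v ≠ 0)
    (hw : ‖w‖ = 1) :
    Real.sqrt (1 - eps ^ 2) * Real.cosh (Real.log ‖v‖ - l) * ‖v‖ < ⟪v, w⟫ ↔
      ‖v - (Real.exp l / Real.sqrt (1 - eps ^ 2)) • w‖ <
        eps * (Real.exp l / Real.sqrt (1 - eps ^ 2)) := by
  obtain ⟨ha, ha2⟩ := a_sq h1 h0
  have hE : 0 < Real.exp l := Real.exp_pos l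
  have hc : 0 < 2 * (Real.exp l / Real.sqrt (1 - eps ^ 2)) := by positivity
  rw [← Inv_118.sq_lt_iff (norm_nonneg _) (by positivity), key h0 h1 hv hw,
    ← mul_zero (2 * (Real.exp l / Real.sqrt (1 - eps ^ 2))), mul_lt_mul_iff_right₀ hc, sub_neg]

/-- **the sphere**. -/
theorem sph_iff {eps l : ℝ} (h0 : 0 < eps) (h1 : eps < 1) {v w : V} (hv : v ≠ 0)
    (hw : ‖w‖ = 1) :
    Real.sqrt (1 - eps ^ 2) * Real.cosh (Real.log ‖v‖ - l) * ‖v‖ = ⟪v, w⟫ ↔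
      ‖v - (Real.exp l / Real.sqrt (1 - eps ^ 2)) • w‖ =
        eps * (Real.exp l / Real.sqrt (1 - eps ^ 2)) := by
  obtain ⟨ha, ha2⟩ := a_sq h1 h0
  have hE : 0 < Real.exp l := Real.exp_pos l
  have hc : 0 < 2 * (Real.exp l / Real.sqrt (1 - eps ^ 2)) := by positivity
  rw [← Inv_118.sq_eq_iff' (norm_nonneg _) (by positivity), key h0 h1 hv hw, mul_eq_zero,
    or_iff_right hc.ne', sub_eq_zero]

/-- the second condition of `onD` in the form of `Inv_118.sigma_iff`, `c = exp l / a`. -/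
theorem sec_iff {eps l : ℝ} (h0 : 0 < eps) (h1 : eps < 1) {v w M : V} :
    ⟪M, v⟫ = Real.sqrt (1 - eps ^ 2) * Real.exp l * ⟪M, w⟫ ↔
      ⟪M, v - (Real.exp l / Real.sqrt (1 - eps ^ 2)) • w⟫ =
        -(eps ^ 2 * (Real.exp l / Real.sqrt (1 - eps ^ 2)) * ⟪M, w⟫) := by
  obtain ⟨ha, ha2⟩ := a_sq h1 h0
  set a := Real.sqrt (1 - eps ^ 2) with hadef
  have e1 : eps ^ 2 = 1 - a ^ 2 := by rw [ha2]; ring
  rw [inner_sub_right, inner_smul_right, e1]
  have e2 : (Real.exp l / a) * a ^ 2 = a * Real.exp l := by field_simp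
  constructor
  · intro h
    rw [h, ← e2]; ring
  · intro h
    have e3 : ⟪M, v⟫ = (Real.exp l / a) * a ^ 2 * ⟪M, w⟫ := by linear_combination h
    rw [e3, e2]

end Crest.Agent.R267.Ball_493
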