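import Crest.Agent.R267.LemLF_951

/-!
# Row 267 (helper951): LEMMA L for deletion boxes

`boxB S c h z = ∑ e, c e * ∏ j ∈ S e, h e j (z j)`.
-/

set_option autoImplicit false
set_option linter.unusedSectionVars false

noncomputable section

open Finset
open Crest.Agent.R267.LemL_951

namespace Crest.Agent.R267.BoxL_951

variable {ι ε : Type*} [Fintype ι] [DecidableEq ι] [Fintype ε]

/-- deletions: products over boxes -/
def boxB (S : ε → Finset ι) (c : ε → ℝ) (h : ε → ι → ℂ → ℝ) (z : ι → ℂ) : ℝ :=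
  ∑ e, c e * ∏ j ∈ S e, h e j (z j)

variable {S : ε → Finset ι} {c : ε → ℝ} {h : ε → ι → ℂ → ℝ} {z : ι → ℂ}

theorem hasFDerivAt_boxB (hh : ∀ e, ∀ j ∈ S e, DifferentiableAt ℝ (h e j) (z j)) :
    HasFDerivAt (boxB S c h)
      (∑ e, c e • ∑ j ∈ S e, (∏ k ∈ (S e).erase j, h e k (z k)) •
        (fderiv ℝ (h e j) (z j)).comp (ContinuousLinearMap.proj (R := ℝ) (φ := fun _ => ℂ) j)) z := by
  have hpr : ∀ i : ι, HasFDerivAt (fun z : ι → ℂ => z i)
      (ContinuousLinearMap.proj (R := ℝ) (φ := fun _ => ℂ) i) z := fun i => hasFDerivAt_apply i z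
  refine HasFDerivAt.fun_sum fun e _ => ?_
  exact (HasFDerivAt.finsetProd fun j hj => (hh e j hj).hasFDerivAt.comp z (hpr j)).const_mul (c e)

theorem fderiv_boxB_single (hh : ∀ e, ∀ j ∈ S e, DifferentiableAt ℝ (h e j) (z j)) (i : ι)
    (v : ℂ) : fderiv ℝ (boxB S c h) z (Pi.single i v) =
      ∑ e, c e * (if i ∈ S e then (∏ k ∈ (S e).erase i, h e k (z k)) * fderiv ℝ (h e i) (z i) v
        else 0) := by
  rw [(hasFDerivAt_boxB hh).fderiv]
  simp only [_root_.sum_apply, ContinuousLinearMap.comp_apply,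
    _root_.smul_apply, ContinuousLinearMap.proj_apply, smul_eq_mul]
  refine sum_congr rfl fun e _ => ?_
  congr 1
  have h1 : ∀ (j : ι) (T : ℂ →L[ℝ] ℝ), T (Pi.single (M := fun _ => ℂ) i v j) =
      if j = i then T v else 0 := by
    intro j T
    by_cases hj : j = i
    · subst hj; rw [if_pos rfl, Pi.single_eq_same]
    · rw [if_neg hj, Pi.single_eq_of_ne hj, map_zero]
  simp only [h1, mul_ite, mul_zero]
  rw [Finset.sum_ite_eq' (S e) i]

/-- radial derivatives -/
theorem fderiv_boxB_rad {m : ε → ι → ℝ} (hhH : ∀ e, ∀ j ∈ S e, PH (m e j) (h e j))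
    (hh : ∀ e, ∀ j ∈ S e, DifferentiableAt ℝ (h e j) (z j)) (i : ι) :
    fderiv ℝ (boxB S c h) z (Pi.single i (z i)) =
      ∑ e, (if i ∈ S e then m e i else 0) * (c e * ∏ j ∈ S e, h e j (z j)) := by
  rw [fderiv_boxB_single hh]
  refine sum_congr rfl fun e _ => ?_
  by_cases hi : i ∈ S e
  · rw [if_pos hi, if_pos hi, (hhH e i hi).euler (hh e i hi), smul_eq_mul,
      ← Finset.mul_prod_erase (S e) (fun j => h e j (z j)) hi]
    ring
  · rw [if_neg hi, if_neg hi, mul_zero, zero_mul]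

/-- **LEMMA L for boxes.** -/
theorem box_reg {P : ι → ℂ → ℂ} {D : ι → ℝ} {m : ε → ι → ℝ}
    (hD : ∀ i, 0 < D i) (hm : ∀ e, ∀ j ∈ S e, 0 ≤ m e j)
    (hsum : ∀ e, ∑ j ∈ S e, m e j / D j = 1) (hc : ∀ e, 0 ≤ c e)
    (hPH : ∀ i, PH (D i) (P i)) (hhH : ∀ e, ∀ j ∈ S e, PH (m e j) (h e j))
    (hPd : ∀ i, DifferentiableAt ℝ (P i) (z i))
    (hh : ∀ e, ∀ j ∈ S e, DifferentiableAt ℝ (h e j) (z j))
    (hh0 : ∀ e, ∀ j ∈ S e, ∀ x, 0 ≤ h e j x)
    (hcase : ∀ i, z i ≠ 0 →
      (Function.Surjective (fderiv ℝ (P i) (z i)) ∧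
        ∀ e, i ∈ S e → ∀ v, fderiv ℝ (h e i) (z i) v = 0) ∨
      (P i (z i) ≠ 0 ∧ ((P i (z i)).re < 0 ∨
        ∃ v, (∀ e, i ∈ S e → fderiv ℝ (h e i) (z i) v = 0) ∧
          Good2 (fderiv ℝ (P i) (z i) v) (P i (z i)))))
    (hz : z ≠ 0)
    (hNC : (∀ i, D i * (P i (z i)).re =
        ∑ e, (if i ∈ S e then m e i else 0) * (c e * ∏ j ∈ S e, h e j (z j))) →
      (∀ i, z i ≠ 0 → 0 < (P i (z i)).re ∧ (P i (z i)).im = 0) → False)
    (hre : 0 ≤ (lobB P (boxB S c h) z).re) :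
    Function.Surjective (fderiv ℝ (lobB P (boxB S c h)) z) := by
  have hrad := fderiv_boxB_rad (c := c) hhH hh
  have hT : ∀ e, 0 ≤ c e * ∏ j ∈ S e, h e j (z j) := fun e =>
    mul_nonneg (hc e) (prod_nonneg fun j hj => hh0 e j hj _)
  have hmi : ∀ e i, 0 ≤ (if i ∈ S e then m e i else 0) := by
    intro e i
    split_ifs with hi
    · exact hm e i hi
    · exact le_rfl
  refine lobB_reg hD hPH hPd (hasFDerivAt_boxB hh).differentiableAt (fun i => ?_) ?_
    (fun i hi => ?_) hz (fun h1 h2 => ?_) hre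
  · rw [hrad]
    exact sum_nonneg fun e _ => mul_nonneg (hmi e i) (hT e)
  · calc ∑ i, fderiv ℝ (boxB S c h) z (Pi.single i (z i)) / D i
        = ∑ i, ∑ e, (if i ∈ S e then m e i else 0) / D i * (c e * ∏ j ∈ S e, h e j (z j)) := by
          refine sum_congr rfl fun i _ => ?_
          rw [hrad, sum_div]
          exact sum_congr rfl fun e _ => by ring
      _ = ∑ e, (∑ i, (if i ∈ S e then m e i else 0) / D i) * (c e * ∏ j ∈ S e, h e j (z j)) := by
          rw [sum_comm]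
          exact sum_congr rfl fun e _ => by rw [sum_mul]
      _ = boxB S c h z := by
          refine sum_congr rfl fun e _ => ?_
          have h3 : ∑ i, (if i ∈ S e then m e i else 0) / D i = ∑ j ∈ S e, m e j / D j := by
            rw [← Finset.sum_filter_add_sum_filter_not univ (fun i => i ∈ S e)]
            have h4 : ∑ i ∈ univ.filter (fun i => ¬ i ∈ S e),
                (if i ∈ S e then m e i else 0) / D i = 0 :=
              sum_eq_zero fun i hi => by
                rw [if_neg (mem_filter.1 hi).2, zero_div]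
            rw [h4, add_zero, Finset.filter_mem_eq_inter, univ_inter]
            exact sum_congr rfl fun i hi => by rw [if_pos hi]
          rw [h3, hsum, one_mul]
  · rcases hcase i hi with ⟨h1, h2⟩ | ⟨h1, h2 | ⟨v, h2, h4⟩⟩
    · refine Or.inl ⟨h1, fun v => ?_⟩
      rw [fderiv_boxB_single hh]
      refine sum_eq_zero fun e _ => ?_
      by_cases h5 : i ∈ S e
      · rw [if_pos h5, h2 e h5 v, mul_zero, mul_zero]
      · rw [if_neg h5, mul_zero]
    · exact Or.inr ⟨h1, Or.inl h2⟩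
    · refine Or.inr ⟨h1, Or.inr ⟨v, ?_, h4⟩⟩
      rw [fderiv_boxB_single hh]
      refine sum_eq_zero fun e _ => ?_
      by_cases h5 : i ∈ S e
      · rw [if_pos h5, h2 e h5, mul_zero, mul_zero]
      · rw [if_neg h5, mul_zero]
  · exact hNC (fun i => by rw [h1, hrad]) h2

/-- **(NC) for boxes with equal exponents** : `r i = ∑_{e ∋ i} T e / |S e|` is impossible if
`|S e| r i < T e` for the smallest `r i`, `i ∈ S e`, whenever `0 < T e`. -/
theorem nc_box {r : ι → ℝ} {T : ε → ℝ} (hT : ∀ e, 0 ≤ T e) (hS : ∀ e, (S e).Nonempty)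
    (hr : ∀ i, r i = ∑ e, (if i ∈ S e then T e / ((S e).card : ℝ) else 0)) (hne : ∃ i, r i ≠ 0)
    (hc : ∀ e, 0 < T e → ∀ i ∈ S e, (∀ j ∈ S e, r i ≤ r j) → ((S e).card : ℝ) * r i < T e) :
    False := by
  obtain ⟨e, he⟩ : ∃ e, T e ≠ 0 := by
    by_contra h0
    push Not at h0
    obtain ⟨i, hi⟩ := hne
    apply hi
    rw [hr i]
    refine sum_eq_zero fun e _ => ?_
    rw [h0 e, zero_div, ite_self]
  have hTe : 0 < T e := lt_of_le_of_ne (hT e) he.symm
  obtain ⟨i, hi, hmin⟩ := (S e).exists_min_image r (hS e)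
  have h1 := hc e hTe i hi hmin
  have hcard : 0 < ((S e).card : ℝ) := by exact_mod_cast card_pos.2 (hS e)
  have h2 : T e / ((S e).card : ℝ) ≤ r i := by
    rw [hr i]
    calc T e / ((S e).card : ℝ) = (if i ∈ S e then T e / ((S e).card : ℝ) else 0) := by
          rw [if_pos hi]
      _ ≤ _ := single_le_sum (f := fun e => if i ∈ S e then T e / ((S e).card : ℝ) else 0)
          (fun e _ => by
            show 0 ≤ if i ∈ S e then T e / ((S e).card : ℝ) else 0
            split_ifs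
            · exact div_nonneg (hT e) (Nat.cast_nonneg _)
            · exact le_rfl) (mem_univ e)
  rw [div_le_iff₀ hcard] at h2
  linarith

/-- geometric mean ≥ minimum -/
theorem gm_ge {s : Finset ι} (hs : s.Nonempty) {r : ι → ℝ} {a : ℝ} (ha : 0 ≤ a)
    (h : ∀ j ∈ s, a ≤ r j) : a ≤ ∏ j ∈ s, r j ^ (1 / (s.card : ℝ)) := by
  have hcard : 0 < (s.card : ℝ) := by exact_mod_cast card_pos.2 hs
  have h1 : ∏ j ∈ s, a ^ (1 / (s.card : ℝ)) ≤ ∏ j ∈ s, r j ^ (1 / (s.card : ℝ)) :=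
    prod_le_prod (fun j _ => Real.rpow_nonneg ha _)
      fun j hj => Real.rpow_le_rpow ha (h j hj) (by positivity)
  rw [prod_const, ← Real.rpow_mul_natCast ha, one_div_mul_cancel hcard.ne', Real.rpow_one] at h1
  exact h1

end Crest.Agent.R267.BoxL_951
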