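import Crest.Agent.R267.HarmProd_896
import Crest.Agent.R267.SFLDc_330

/-!
# S0406, arrow C3b for 330's literal data (helper896)
-/

set_option autoImplicit false

noncomputable section

open Finset
open Crest.Agent.R267.T3aNDefs_88 Crest.Agent.R267.SFLDa_330 Crest.Agent.R267.SFLDb_330
open Crest.Agent.R267.SFLD_330 Crest.Agent.R267.SFLDc_330 Crest.Agent.R267.HubDefs_284

namespace Crest.Agent.R267.BoxLit_896

theorem lo_mk {neg : Fin 4 → ℕ → Bool} {L : List B4} {h2 : ∀ b ∈ L, 2 ≤ (mkB b).S.card}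
    {hhi : ∀ b ∈ L, ∀ j ∈ (mkB b).S, (mkB b).hi j ≤ MM j}
    (h : ∀ b ∈ L, ∀ j ∈ (mkB b).S, (mkB b).lo j ≤ (mkB b).hi j)
    (e : Fin (mkD neg L h2 hhi).nb) : ∀ j ∈ ((mkD neg L h2 hhi).bx e).S,
    ((mkD neg L h2 hhi).bx e).lo j ≤ ((mkD neg L h2 hhi).bx e).hi j :=
  h _ (List.get_mem L e)

theorem lo_fL (e : Fin DfL.nb) : ∀ j ∈ (DfL.bx e).S, (DfL.bx e).lo j ≤ (DfL.bx e).hi j :=
  lo_mk (by decide +kernel) e

theorem lo_gL (e : Fin DgL.nb) : ∀ j ∈ (DgL.bx e).S, (DgL.bx e).lo j ≤ (DgL.bx e).hi j :=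
  lo_mk (by decide +kernel) e

/-- **arrow C3b for `f`** -/
theorem boxP_f : BoxP true DfL := HarmProd_896.boxP true DfL lo_fL card_fL

/-- **arrow C3b for `g`** -/
theorem boxP_g : BoxP false DgL := HarmProd_896.boxP false DgL lo_gL card_gL

end Crest.Agent.R267.BoxLit_896
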