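import Crest.Agent.R267.SFLDc_330
import Crest.Agent.R267.StTabG_222

/-!
# Row 267 (helper769): the literal boxes of `DgL` (SFLDc_330) against the table boxes
`StTabG_222.boxG`
-/

set_option autoImplicit false

namespace Crest.Agent.R267.BoxMapG_769

open Finset
open Crest.Agent.R267.T3aNDefs_88 Crest.Agent.R267.SFLDb_330 Crest.Agent.R267.SFLDc_330
open Crest.Agent.R267.StTabG_222
open Crest.Agent.R267.StTab_568 (Win)

theorem nb_eq : DgL.nb = 36 := rfl

/-- the box of `DgL` with number `c` -/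
def bx (c : Fin 11) : Fin DgL.nb := ⟨c, lt_of_lt_of_le c.2 (by decide)⟩

theorem bx_inj : Function.Injective bx := fun c c' h => by
  have := congrArg Fin.val h
  exact Fin.ext this

/-- the window `W` of the variable `j` is the one of the box `B` -/
def okW (W : Win) (j : Fin 4) (B : Box 4) (M : ℕ) : Bool :=
  match W with
  | .no => decide (j ∉ B.S)
  | .arm => decide (j ∈ B.S ∧ B.lo j = 4 ∧ B.hi j = M)
  | .hub lo hi => decide (j ∈ B.S ∧ B.lo j + 1 = lo ∧ B.hi j + 1 = hi ∧ hi ≤ 5)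

theorem ok_all : ∀ c : Fin 11, ∀ i : Fin 3,
    okW (boxG c i) i.castSucc (DgL.bx (bx c)) (DgL.M i.castSucc) = true := by
  decide +kernel

theorem w_notMem : ∀ c : Fin 11, (3 : Fin 4) ∉ (DgL.bx (bx c)).S := by
  decide +kernel

/-- the variable is not in the box -/
theorem of_no {c : Fin 11} {i : Fin 3} (h : boxG c i = .no) :
    i.castSucc ∉ (DgL.bx (bx c)).S := by
  have h1 := ok_all c i
  rw [h] at h1
  exact of_decide_eq_true h1

theorem of_arm {c : Fin 11} {i : Fin 3} (h : boxG c i = .arm) :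
    i.castSucc ∈ (DgL.bx (bx c)).S ∧ (DgL.bx (bx c)).lo i.castSucc = 4 ∧
      (DgL.bx (bx c)).hi i.castSucc = DgL.M i.castSucc := by
  have h1 := ok_all c i
  rw [h] at h1
  exact of_decide_eq_true h1

theorem of_hub {c : Fin 11} {i : Fin 3} {lo hi : ℕ} (h : boxG c i = .hub lo hi) :
    i.castSucc ∈ (DgL.bx (bx c)).S ∧ (DgL.bx (bx c)).lo i.castSucc + 1 = lo ∧
      (DgL.bx (bx c)).hi i.castSucc + 1 = hi ∧ hi ≤ 5 := by
  have h1 := ok_all c i
  rw [h] at h1
  exact of_decide_eq_true h1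

theorem mem_iff (c : Fin 11) (i : Fin 3) :
    i.castSucc ∈ (DgL.bx (bx c)).S ↔ boxG c i ≠ .no := by
  constructor
  · intro h h'
    exact of_no h' h
  · intro h
    cases h' : boxG c i with
    | no => exact absurd h' h
    | arm => exact (of_arm h').1
    | hub lo hi => exact (of_hub h').1

/-- window of `W` over the variable `i`, in the letters of `SD`: `arm = [4, M)`,
`hub lo hi = [lo - 1, hi - 1)` -/
theorem window (c : Fin 11) (i : Fin 3) (h : i.castSucc ∈ (DgL.bx (bx c)).S) :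
    (boxG c i = .arm ∧ (DgL.bx (bx c)).lo i.castSucc = 4 ∧
      (DgL.bx (bx c)).hi i.castSucc = DgL.M i.castSucc) ∨
    (boxG c i = .hub ((DgL.bx (bx c)).lo i.castSucc + 1) ((DgL.bx (bx c)).hi i.castSucc + 1) ∧
      (DgL.bx (bx c)).hi i.castSucc ≤ 4) := by
  cases h' : boxG c i with
  | no => exact absurd h (of_no h')
  | arm => exact Or.inl ⟨rfl, (of_arm h').2⟩
  | hub lo hi =>
    obtain ⟨_, h2, h3, h4⟩ := of_hub h'
    right
    refine ⟨?_, by omega⟩
    rw [h2, h3]

/-- **the other boxes**: `{v, w}` with the `v`-window in `J_v`. -/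
theorem other (e : Fin DgL.nb) (he : ∀ c, bx c ≠ e) : ∃ v : Fin 3,
    (DgL.bx e).S = {v.castSucc, 3} ∧ 4 ≤ (DgL.bx e).lo v.castSucc ∧
      (DgL.bx e).lo v.castSucc < (DgL.bx e).hi v.castSucc ∧
      (DgL.bx e).hi v.castSucc ≤ DgL.M v.castSucc := by
  have key : ∀ e : Fin 36, 11 ≤ (e : ℕ) → ∃ v : Fin 3,
      (DgL.bx e).S = {v.castSucc, 3} ∧ 4 ≤ (DgL.bx e).lo v.castSucc ∧
      (DgL.bx e).lo v.castSucc < (DgL.bx e).hi v.castSucc ∧
      (DgL.bx e).hi v.castSucc ≤ DgL.M v.castSucc := by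
    decide +kernel
  refine key e ?_
  by_contra hlt
  push Not at hlt
  exact he ⟨e, hlt⟩ (Fin.ext rfl)

/-- windows of all boxes are non empty -/
theorem lohi : ∀ e : Fin 36, ∀ j ∈ (DgL.bx e).S, (DgL.bx e).lo j < (DgL.bx e).hi j := by
  decide +kernel

end Crest.Agent.R267.BoxMapG_769
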