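import Mathlib

/-!
# Planar arms (N2), part L3 (A): the identities in the braid group (helper293)

`s : ℕ → G` satisfies the braid relations for the indices `1, …, n - 1` (`Br s n`); products are in
time order.  `dl s c = s_{c-1} ⋯ s_1` (the first `c` points turn by `1/c`),
`T s b a = dl s (a + b) * s_1 ⋯ s_a` (the outer `b` points turn by `1/b` round the first `a`).

* `gx : T 12 3 ^ 4 * T 2 1 ^ 5 = δ15 ^ 4 * δ7 ^ 3 * δ3 ^ 4 * δ2`
* `fx : IsConj (T 6 9 * T 5 4 ^ 2 * δ4 ^ 12) (δ15 * δ12 * δ11 * δ7 ^ 4 * δ4 ^ 8)`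
* `fy : IsConj (T 8 7 ^ 4 * T 5 2 ^ 4 * T 1 1 ^ 2) (δ15 ^ 5 * δ11 ^ 3 * δ10 ^ 2 * δ2 ^ 2)`
* `gy : IsConj (T 5 10 * T 2 8 * T 4 4 ^ 5 * δ4 ^ 8) (δ15 * δ12 * δ10 ^ 8 * δ8 * δ5 ^ 4)`
-/

set_option autoImplicit false

namespace Crest.Agent.R267.BrAlg_293

variable {G : Type*} [Group G]

/-- braid relations between `s 1, …, s (n - 1)`. -/
structure Br (s : ℕ → G) (n : ℕ) : Prop where
  br : ∀ i, 1 ≤ i → i + 1 < n → s i * s (i + 1) * s i = s (i + 1) * s i * s (i + 1)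
  cm : ∀ i j, 1 ≤ i → i + 2 ≤ j → j < n → s i * s j = s j * s i

/-- `dl s c = s_{c-1} ⋯ s_1`. -/
def dl (s : ℕ → G) : ℕ → G
  | 0 => 1
  | 1 => 1
  | (c + 2) => s (c + 1) * dl s (c + 1)

/-- `up s i k = s_i s_{i+1} ⋯ s_{i+k-1}`. -/
def up (s : ℕ → G) (i : ℕ) : ℕ → G
  | 0 => 1
  | (k + 1) => up s i k * s (i + k)

/-- `dn s i k = s_{i+k-1} ⋯ s_i`. -/
def dn (s : ℕ → G) (i : ℕ) : ℕ → G
  | 0 => 1
  | (k + 1) => s (i + k) * dn s i k

/-- `blk s a i k = dn i a * dn (i+1) a * ⋯ * dn (i+k-1) a`. -/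
def blk (s : ℕ → G) (a i : ℕ) : ℕ → G
  | 0 => 1
  | (k + 1) => blk s a i k * dn s (i + k) a

/-- the outer `b` points turn by `1/b` round the first `a`. -/
def T (s : ℕ → G) (b a : ℕ) : G := dl s (a + b) * up s 1 a

variable {s : ℕ → G} {n : ℕ}

theorem dl_zero : dl s 0 = 1 := rfl
theorem dl_one : dl s 1 = 1 := rfl

theorem dl_succ {c : ℕ} (hc : 1 ≤ c) : dl s (c + 1) = s c * dl s c := by
  obtain ⟨c, rfl⟩ : ∃ k, c = k + 1 := ⟨c - 1, by omega⟩
  rfl

theorem dl_two : dl s 2 = s 1 := by rw [dl_succ le_rfl, dl_one, mul_one]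

/-- far letters commute with `dl c`. -/
theorem Br.far (h : Br s n) {c j : ℕ} (hj : c + 1 ≤ j) (hn : j < n) :
    Commute (s j) (dl s c) := by
  induction c with
  | zero => exact Commute.one_right _
  | succ c ih =>
    rcases Nat.eq_zero_or_pos c with rfl | hc
    · exact Commute.one_right _
    · rw [dl_succ hc]
      exact Commute.mul_right (h.cm c j hc (by omega) hn).symm (ih (by omega))

/-- a letter passes `dl c` and is shifted. -/
theorem Br.pass (h : Br s n) {c i : ℕ} (hi : 1 ≤ i) (hc : i + 2 ≤ c) (hn : c ≤ n) :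
    s i * dl s c = dl s c * s (i + 1) := by
  induction c, hc using Nat.le_induction with
  | base =>
    rw [dl_succ (c := i + 1) (by omega), dl_succ hi]
    have h1 := h.br i hi (by omega)
    have h2 : Commute (s (i + 1)) (dl s i) := h.far (by omega) (by omega)
    calc s i * (s (i + 1) * (s i * dl s i)) = (s i * s (i + 1) * s i) * dl s i := by group
      _ = s (i + 1) * s i * (s (i + 1) * dl s i) := by rw [h1]; group
      _ = s (i + 1) * s i * (dl s i * s (i + 1)) := by rw [h2.eq]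
      _ = _ := by group
  | succ c hc ih =>
    rw [dl_succ (c := c) (by omega), ← mul_assoc, h.cm i c hi hc (by omega), mul_assoc,
      ih (by omega), mul_assoc]

theorem Br.far_dn (h : Br s n) {c i k : ℕ} (hi : c + 1 ≤ i) (hn : i + k ≤ n) :
    Commute (dn s i k) (dl s c) := by
  induction k with
  | zero => exact Commute.one_left _
  | succ k ih => exact Commute.mul_left (h.far (by omega) (by omega)) (ih (by omega))

theorem Br.far_blk (h : Br s n) {a c i k : ℕ} (hi : c + 1 ≤ i) (hn : i + k + a ≤ n + 1) :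
    Commute (blk s a i k) (dl s c) := by
  induction k with
  | zero => exact Commute.one_left _
  | succ k ih => exact Commute.mul_left (ih (by omega)) (h.far_dn (by omega) (by omega))

theorem Br.far_blk_pow (h : Br s n) {a c i k : ℕ} (e : ℕ) (hi : c + 1 ≤ i)
    (hn : i + k + a ≤ n + 1) : blk s a i k * dl s c ^ e = dl s c ^ e * blk s a i k :=
  ((h.far_blk hi hn).pow_right e).eq

theorem Br.pass_dn (h : Br s n) {c i k : ℕ} (hi : 1 ≤ i) (hc : i + k + 1 ≤ c) (hn : c ≤ n) :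
    dn s i k * dl s c = dl s c * dn s (i + 1) k := by
  induction k with
  | zero => simp [dn]
  | succ k ih =>
    rw [dn, dn, mul_assoc, ih (by omega), ← mul_assoc, h.pass (by omega) (by omega) hn, mul_assoc,
      show i + 1 + k = i + k + 1 by ring]

theorem Br.pass_blk (h : Br s n) {a c i k : ℕ} (hi : 1 ≤ i) (hc : i + k + a ≤ c) (hn : c ≤ n) :
    blk s a i k * dl s c = dl s c * blk s a (i + 1) k := by
  induction k with
  | zero => simp [blk]
  | succ k ih =>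
    rw [blk, blk, mul_assoc, h.pass_dn (by omega) (by omega) hn, ← mul_assoc, ih (by omega),
      mul_assoc, show i + 1 + k = i + k + 1 by ring]

theorem Br.pass_blk_pow (h : Br s n) {a c i k : ℕ} (e : ℕ) (hi : 1 ≤ i)
    (hc : i + k + a + e ≤ c + 1) (hn : c ≤ n) (he : 1 ≤ e) :
    blk s a i k * dl s c ^ e = dl s c ^ e * blk s a (i + e) k := by
  induction e, he using Nat.le_induction with
  | base => rw [pow_one]; exact h.pass_blk hi (by omega) hn
  | succ e he ih =>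
    rw [pow_succ, ← mul_assoc, ih (by omega), mul_assoc, h.pass_blk (by omega) (by omega) hn,
      ← mul_assoc, add_assoc]

theorem dn_dl {m a : ℕ} (hm : 1 ≤ m) : dn s m a * dl s m = dl s (m + a) := by
  induction a with
  | zero => simp [dn]
  | succ a ih => rw [dn, mul_assoc, ih, ← add_assoc, dl_succ (by omega)]

theorem blk_add {a i k l : ℕ} : blk s a i (k + l) = blk s a i k * blk s a (i + k) l := by
  induction l with
  | zero => simp [blk]
  | succ l ih => rw [← add_assoc, blk, blk, ih, mul_assoc, add_assoc i k l]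

/-- `C_i ⋯ C_m δ_m ^ k = δ_{m+a} ^ k`, `k` columns. -/
theorem Br.fill (h : Br s n) {a i k m : ℕ} (hi : 1 ≤ i) (hk : i + k = m + 1) (hn : m + a ≤ n) :
    blk s a i k * dl s m ^ k = dl s (m + a) ^ k := by
  induction k generalizing i with
  | zero => simp [blk]
  | succ k ih =>
    have hm : i + k = m := by omega
    calc blk s a i (k + 1) * dl s m ^ (k + 1)
        = blk s a i k * (dn s (i + k) a * dl s m) * dl s m ^ k := by
          rw [blk, pow_succ']; group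
      _ = blk s a i k * dl s (m + a) * dl s m ^ k := by rw [hm, dn_dl (by omega)]
      _ = dl s (m + a) * (blk s a (i + 1) k * dl s m ^ k) := by
          rw [h.pass_blk hi (by omega) hn, mul_assoc]
      _ = dl s (m + a) ^ (k + 1) := by rw [ih (by omega) (by omega), pow_succ']

theorem Br.far_dn_up (h : Br s n) {i k m : ℕ} (hi : m + 2 ≤ i) (hn : i + k ≤ n) :
    Commute (dn s i k) (up s 1 m) := by
  induction m with
  | zero => exact Commute.one_right _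
  | succ m ih =>
    refine Commute.mul_right (ih (by omega)) ?_
    clear ih
    induction k with
    | zero => exact Commute.one_left _
    | succ k ih =>
      exact Commute.mul_left (h.cm (1 + m) (i + k) (by omega) (by omega) (by omega)).symm
        (ih (by omega))

theorem dn_succ' {i k : ℕ} : dn s i (k + 1) = dn s (i + 1) k * s i := by
  induction k with
  | zero => simp [dn]
  | succ k ih => rw [dn, ih, dn, mul_assoc, show i + 1 + k = i + (k + 1) by ring]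

theorem Br.blk_up (h : Br s n) {a m : ℕ} (hn : m + a + 1 ≤ n) :
    blk s a 2 m * up s 1 m = blk s (a + 1) 1 m := by
  induction m with
  | zero => simp [blk, up]
  | succ m ih =>
    calc blk s a 2 (m + 1) * up s 1 (m + 1)
        = blk s a 2 m * (dn s (2 + m) a * up s 1 m) * s (1 + m) := by rw [blk, up]; group
      _ = blk s a 2 m * up s 1 m * (dn s (1 + m + 1) a * s (1 + m)) := by
          rw [(h.far_dn_up (by omega) (by omega)).eq, show 2 + m = 1 + m + 1 by ring]; group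
      _ = blk s (a + 1) 1 (m + 1) := by rw [ih (by omega), ← dn_succ', blk]

/-- `T_{N,m} ^ a = δ_{m+N} ^ a C_1 ⋯ C_m` for `a ≤ N`. -/
theorem Br.T_pow (h : Br s n) {N m a : ℕ} (ha : a ≤ N) (hn : m + N ≤ n) :
    T s N m ^ a = dl s (m + N) ^ a * blk s a 1 m := by
  induction a with
  | zero =>
    have : blk s 0 1 m = 1 := by
      clear ha hn
      induction m with
      | zero => rfl
      | succ m ih => rw [blk, ih, dn, mul_one]
    simp [this]
  | succ a ih =>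
    rw [pow_succ, ih (by omega), T, pow_succ]
    calc dl s (m + N) ^ a * blk s a 1 m * (dl s (m + N) * up s 1 m)
        = dl s (m + N) ^ a * (blk s a 1 m * dl s (m + N)) * up s 1 m := by group
      _ = dl s (m + N) ^ a * dl s (m + N) * (blk s a 2 m * up s 1 m) := by
          rw [h.pass_blk le_rfl (by omega) hn]; group
      _ = _ := by rw [h.blk_up (by omega)]

/-- the outer points make a full turn and the inner ones too. -/
theorem Br.T_full (h : Br s n) {N m : ℕ} (hn : m + N ≤ n) :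
    T s N m ^ N * dl s m ^ m = dl s (m + N) ^ (m + N) := by
  rcases Nat.eq_zero_or_pos m with rfl | hm
  · rw [h.T_pow le_rfl hn]; simp [blk]
  · rw [h.T_pow le_rfl hn, mul_assoc, h.fill le_rfl (by omega) hn, ← pow_add, add_comm]

theorem T_eq {b a : ℕ} : T s b a = dl s (a + b) * blk s 1 1 a := by
  have : ∀ a, up s 1 a = blk s 1 1 a := by
    intro a
    induction a with
    | zero => rfl
    | succ a ih => rw [up, blk, ih]; simp [dn]
  rw [T, this]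

/-- `g`, arm `x`. -/
theorem gx (h : Br s 15) :
    T s 12 3 ^ 4 * T s 2 1 ^ 5 = dl s 15 ^ 4 * dl s 7 ^ 3 * dl s 3 ^ 4 * dl s 2 := by
  have h1 : T s 12 3 ^ 4 = dl s 15 ^ 4 * blk s 4 1 3 := h.T_pow (by norm_num) (by norm_num)
  have h2 : T s 2 1 ^ 2 = dl s 3 ^ 3 := by
    have := h.T_full (N := 2) (m := 1) (by norm_num)
    simpa [dl_one] using this
  have h3 : T s 2 1 = dl s 3 * dl s 2 := by
    rw [T, dl_two]; simp [up]
  have h4 : blk s 4 1 3 * dl s 3 ^ 3 = dl s 7 ^ 3 := h.fill le_rfl rfl (by norm_num)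
  have h5 : T s 2 1 ^ 5 = dl s 3 ^ 3 * dl s 3 ^ 4 * dl s 2 := by
    calc T s 2 1 ^ 5 = T s 2 1 ^ 2 * T s 2 1 ^ 2 * T s 2 1 := by group
      _ = _ := by rw [h2, h3]; group
  rw [h1, h5]
  calc dl s 15 ^ 4 * blk s 4 1 3 * (dl s 3 ^ 3 * dl s 3 ^ 4 * dl s 2)
      = dl s 15 ^ 4 * (blk s 4 1 3 * dl s 3 ^ 3) * dl s 3 ^ 4 * dl s 2 := by group
    _ = _ := by rw [h4]

/-- cyclic rotation. -/
theorem conj_rot (x y : G) : IsConj (x * y) (y * x) :=
  isConj_iff.2 ⟨y, by group⟩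

/-- `f`, arm `x`. -/
theorem fx (h : Br s 15) :
    IsConj (T s 6 9 * T s 5 4 ^ 2 * dl s 4 ^ 12)
      (dl s 15 * dl s 12 * dl s 11 * dl s 7 ^ 4 * dl s 4 ^ 8) := by
  have h1 : T s 6 9 = dl s 15 * blk s 1 1 9 := T_eq
  have h2 : T s 5 4 ^ 2 = dl s 9 ^ 2 * blk s 2 1 4 := h.T_pow (by norm_num) (by norm_num)
  have h3 : blk s 2 1 4 * dl s 4 ^ 4 = dl s 6 ^ 4 := h.fill le_rfl rfl (by norm_num)
  have h4 : blk s 1 1 9 = blk s 1 1 7 * blk s 1 8 2 := blk_add (k := 7) (l := 2)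
  have h5 : blk s 1 8 2 * dl s 9 ^ 2 = dl s 10 ^ 2 := h.fill (by norm_num) rfl (by norm_num)
  have h6 : blk s 1 1 7 * dl s 10 ^ 2 = dl s 10 ^ 2 * blk s 1 3 7 :=
    h.pass_blk_pow 2 le_rfl (by norm_num) (by norm_num) (by norm_num)
  have h7 : blk s 1 3 7 = blk s 1 3 4 * blk s 1 7 3 := blk_add (k := 4) (l := 3)
  have h8 : blk s 1 7 3 * dl s 6 ^ 4 = dl s 6 ^ 4 * blk s 1 7 3 :=
    h.far_blk_pow 4 (by norm_num) (by norm_num)
  have h9 : blk s 1 3 4 * dl s 6 ^ 4 = dl s 7 ^ 4 := h.fill (by norm_num) rfl (by norm_num)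
  have h10 : blk s 1 7 3 * dl s 4 ^ 8 = dl s 4 ^ 8 * blk s 1 7 3 :=
    h.far_blk_pow 8 (by norm_num) (by norm_num)
  have e1 : T s 6 9 * T s 5 4 ^ 2 * dl s 4 ^ 12
      = (dl s 15 * dl s 10 ^ 2 * dl s 7 ^ 4 * dl s 4 ^ 8) * blk s 1 7 3 := by
    calc T s 6 9 * T s 5 4 ^ 2 * dl s 4 ^ 12
        = dl s 15 * blk s 1 1 7 * (blk s 1 8 2 * dl s 9 ^ 2) * (blk s 2 1 4 * dl s 4 ^ 4)
            * dl s 4 ^ 8 := by rw [h1, h2, h4]; group
      _ = dl s 15 * (blk s 1 1 7 * dl s 10 ^ 2) * dl s 6 ^ 4 * dl s 4 ^ 8 := by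
          rw [h5, h3]; group
      _ = dl s 15 * dl s 10 ^ 2 * blk s 1 3 4 * (blk s 1 7 3 * dl s 6 ^ 4) * dl s 4 ^ 8 := by
          rw [h6, h7]; group
      _ = dl s 15 * dl s 10 ^ 2 * (blk s 1 3 4 * dl s 6 ^ 4) * (blk s 1 7 3 * dl s 4 ^ 8) := by
          rw [h8]; group
      _ = _ := by rw [h9, h10]; group
  have h11 : blk s 1 7 3 * dl s 15 = dl s 15 * blk s 1 8 3 :=
    h.pass_blk (by norm_num) (by norm_num) le_rfl
  have h12 : blk s 1 8 3 = blk s 1 8 1 * blk s 1 9 2 := blk_add (k := 1) (l := 2)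
  have h13 : blk s 1 9 2 * dl s 10 ^ 2 = dl s 11 ^ 2 := h.fill (by norm_num) rfl (by norm_num)
  have h14 : blk s 1 8 1 * dl s 11 ^ 2 = dl s 11 ^ 2 * blk s 1 10 1 :=
    h.pass_blk_pow 2 (by norm_num) (by norm_num) (by norm_num) (by norm_num)
  have h15 : blk s 1 10 1 * dl s 7 ^ 4 = dl s 7 ^ 4 * blk s 1 10 1 :=
    h.far_blk_pow 4 (by norm_num) (by norm_num)
  have h16 : blk s 1 10 1 * dl s 4 ^ 8 = dl s 4 ^ 8 * blk s 1 10 1 :=
    h.far_blk_pow 8 (by norm_num) (by norm_num)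
  have e2 : blk s 1 7 3 * (dl s 15 * dl s 10 ^ 2 * dl s 7 ^ 4 * dl s 4 ^ 8)
      = (dl s 15 * dl s 11 ^ 2 * dl s 7 ^ 4 * dl s 4 ^ 8) * blk s 1 10 1 := by
    calc blk s 1 7 3 * (dl s 15 * dl s 10 ^ 2 * dl s 7 ^ 4 * dl s 4 ^ 8)
        = (blk s 1 7 3 * dl s 15) * dl s 10 ^ 2 * dl s 7 ^ 4 * dl s 4 ^ 8 := by group
      _ = dl s 15 * blk s 1 8 1 * (blk s 1 9 2 * dl s 10 ^ 2) * dl s 7 ^ 4 * dl s 4 ^ 8 := by
          rw [h11, h12]; group
      _ = dl s 15 * (blk s 1 8 1 * dl s 11 ^ 2) * dl s 7 ^ 4 * dl s 4 ^ 8 := by rw [h13]; group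
      _ = dl s 15 * dl s 11 ^ 2 * (blk s 1 10 1 * dl s 7 ^ 4) * dl s 4 ^ 8 := by rw [h14]; group
      _ = dl s 15 * dl s 11 ^ 2 * dl s 7 ^ 4 * (blk s 1 10 1 * dl s 4 ^ 8) := by rw [h15]; group
      _ = _ := by rw [h16]; group
  have h17 : blk s 1 10 1 * dl s 15 = dl s 15 * s 11 := by
    rw [h.pass_blk (by norm_num) (by norm_num) le_rfl]; simp [blk, dn]
  have e3 : blk s 1 10 1 * (dl s 15 * dl s 11 ^ 2 * dl s 7 ^ 4 * dl s 4 ^ 8)
      = dl s 15 * dl s 12 * dl s 11 * dl s 7 ^ 4 * dl s 4 ^ 8 := by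
    calc blk s 1 10 1 * (dl s 15 * dl s 11 ^ 2 * dl s 7 ^ 4 * dl s 4 ^ 8)
        = (blk s 1 10 1 * dl s 15) * dl s 11 ^ 2 * dl s 7 ^ 4 * dl s 4 ^ 8 := by group
      _ = dl s 15 * (s 11 * dl s 11) * dl s 11 * dl s 7 ^ 4 * dl s 4 ^ 8 := by
          rw [h17, pow_two (dl s 11)]; simp only [mul_assoc]
      _ = _ := by rw [← dl_succ (c := 11) (by norm_num)]
  rw [e1]
  refine (conj_rot _ _).trans ?_
  rw [e2]
  refine (conj_rot _ _).trans ?_
  rw [e3]

/-- `f`, arm `y`. -/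
theorem fy (h : Br s 15) :
    IsConj (T s 8 7 ^ 4 * T s 5 2 ^ 4 * T s 1 1 ^ 2)
      (dl s 15 ^ 5 * dl s 11 ^ 3 * dl s 10 ^ 2 * dl s 2 ^ 2) := by
  have h1 : T s 8 7 ^ 4 = dl s 15 ^ 4 * blk s 4 1 7 := h.T_pow (by norm_num) (by norm_num)
  have h2 : T s 5 2 ^ 4 = dl s 7 ^ 4 * blk s 4 1 2 := h.T_pow (by norm_num) (by norm_num)
  have h3 : T s 1 1 = dl s 2 ^ 2 := by
    rw [T, dl_two]; simp [up, pow_two]
  have h4 : blk s 4 1 2 * dl s 2 ^ 2 = dl s 6 ^ 2 := h.fill le_rfl rfl (by norm_num)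
  have h5 : blk s 4 1 7 = blk s 4 1 3 * blk s 4 4 4 := blk_add (k := 3) (l := 4)
  have h6 : blk s 4 4 4 * dl s 7 ^ 4 = dl s 11 ^ 4 := h.fill (by norm_num) rfl (by norm_num)
  have h7 : blk s 4 1 3 * dl s 11 ^ 4 = dl s 11 ^ 4 * blk s 4 5 3 :=
    h.pass_blk_pow 4 le_rfl (by norm_num) (by norm_num) (by norm_num)
  have h8 : blk s 4 5 3 = blk s 4 5 2 * blk s 4 7 1 := blk_add (k := 2) (l := 1)
  have h9 : blk s 4 7 1 * dl s 6 ^ 2 = dl s 6 ^ 2 * blk s 4 7 1 :=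
    h.far_blk_pow 2 (by norm_num) (by norm_num)
  have h10 : blk s 4 5 2 * dl s 6 ^ 2 = dl s 10 ^ 2 := h.fill (by norm_num) rfl (by norm_num)
  have h11 : blk s 4 7 1 * dl s 2 ^ 2 = dl s 2 ^ 2 * blk s 4 7 1 :=
    h.far_blk_pow 2 (by norm_num) (by norm_num)
  have e1 : T s 8 7 ^ 4 * T s 5 2 ^ 4 * T s 1 1 ^ 2
      = (dl s 15 ^ 4 * dl s 11 ^ 4 * dl s 10 ^ 2 * dl s 2 ^ 2) * blk s 4 7 1 := by
    calc T s 8 7 ^ 4 * T s 5 2 ^ 4 * T s 1 1 ^ 2
        = dl s 15 ^ 4 * blk s 4 1 3 * (blk s 4 4 4 * dl s 7 ^ 4) * (blk s 4 1 2 * dl s 2 ^ 2)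
            * dl s 2 ^ 2 := by rw [h1, h2, h3, h5]; group
      _ = dl s 15 ^ 4 * (blk s 4 1 3 * dl s 11 ^ 4) * dl s 6 ^ 2 * dl s 2 ^ 2 := by
          rw [h6, h4]; group
      _ = dl s 15 ^ 4 * dl s 11 ^ 4 * blk s 4 5 2 * (blk s 4 7 1 * dl s 6 ^ 2) * dl s 2 ^ 2 := by
          rw [h7, h8]; group
      _ = dl s 15 ^ 4 * dl s 11 ^ 4 * (blk s 4 5 2 * dl s 6 ^ 2) * (blk s 4 7 1 * dl s 2 ^ 2) := by
          rw [h9]; group
      _ = _ := by rw [h10, h11]; group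
  have h12 : blk s 4 7 1 * dl s 15 ^ 4 = dl s 15 ^ 4 * dn s 11 4 := by
    rw [h.pass_blk_pow 4 (by norm_num) (by norm_num) le_rfl (by norm_num)]; simp [blk]
  have h13 : dn s 11 4 * dl s 11 = dl s 15 := dn_dl (by norm_num)
  have e2 : blk s 4 7 1 * (dl s 15 ^ 4 * dl s 11 ^ 4 * dl s 10 ^ 2 * dl s 2 ^ 2)
      = dl s 15 ^ 5 * dl s 11 ^ 3 * dl s 10 ^ 2 * dl s 2 ^ 2 := by
    calc blk s 4 7 1 * (dl s 15 ^ 4 * dl s 11 ^ 4 * dl s 10 ^ 2 * dl s 2 ^ 2)
        = (blk s 4 7 1 * dl s 15 ^ 4) * dl s 11 ^ 4 * dl s 10 ^ 2 * dl s 2 ^ 2 := by group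
      _ = dl s 15 ^ 4 * (dn s 11 4 * dl s 11) * dl s 11 ^ 3 * dl s 10 ^ 2 * dl s 2 ^ 2 := by
          rw [h12]; group
      _ = _ := by rw [h13]; group
  rw [e1]
  refine (conj_rot _ _).trans ?_
  rw [e2]

/-- `g`, arm `y`. -/
theorem gy (h : Br s 15) :
    IsConj (T s 5 10 * T s 2 8 * T s 4 4 ^ 5 * dl s 4 ^ 8)
      (dl s 15 * dl s 12 * dl s 10 ^ 8 * dl s 8 * dl s 5 ^ 4) := by
  have h1 : T s 5 10 = dl s 15 * blk s 1 1 10 := T_eq
  have h2 : T s 2 8 = dl s 10 * blk s 1 1 8 := T_eq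
  have h3 : T s 4 4 = dl s 8 * blk s 1 1 4 := T_eq
  have h4 : T s 4 4 ^ 4 * dl s 4 ^ 4 = dl s 8 ^ 8 := h.T_full (by norm_num)
  have h5 : blk s 1 1 4 * dl s 4 ^ 4 = dl s 5 ^ 4 := h.fill le_rfl rfl (by norm_num)
  -- `δ8 ^ 8` commutes with `blk 1 1 4`
  have h6 : blk s 1 1 4 * dl s 8 ^ 8 = dl s 8 ^ 8 * blk s 1 1 4 := by
    have hc : T s 4 4 * (T s 4 4 ^ 4 * dl s 4 ^ 4) = (T s 4 4 ^ 4 * dl s 4 ^ 4) * T s 4 4 := by
      have hT : Commute (T s 4 4) (dl s 4) := by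
        have a1 : blk s 1 1 4 * dl s 4 = dl s 5 * blk s 1 2 3 := by
          have b1 : blk s 1 1 4 = blk s 1 1 3 * blk s 1 4 1 := blk_add (k := 3) (l := 1)
          have b2 : blk s 1 4 1 * dl s 4 ^ 1 = dl s 5 ^ 1 := h.fill (by norm_num) rfl (by norm_num)
          have b3 : blk s 1 1 3 * dl s 5 = dl s 5 * blk s 1 2 3 :=
            h.pass_blk le_rfl (by norm_num) (by norm_num)
          rw [pow_one, pow_one] at b2
          rw [b1, mul_assoc, b2, b3]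
        have a2 : dl s 4 * dl s 8 = dl s 8 * dn s 2 3 := by
          have : dl s 4 = dn s 1 3 := by
            have := dn_dl (s := s) (m := 1) (a := 3) le_rfl
            simpa [dl_one] using this.symm
          rw [this]
          exact h.pass_dn le_rfl (by norm_num) (by norm_num)
        have a3 : dn s 2 3 * blk s 1 1 4 = dl s 5 * blk s 1 2 3 := by
          have c1 : dl s 5 = dn s 1 4 := by
            have := dn_dl (s := s) (m := 1) (a := 4) le_rfl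
            simpa [dl_one] using this.symm
          have c2 : blk s 1 1 4 = s 1 * blk s 1 2 3 := by
            have := blk_add (s := s) (a := 1) (i := 1) (k := 1) (l := 3)
            simpa [blk, dn] using this
          have c3 : dn s 1 4 = dn s 2 3 * s 1 := dn_succ'
          rw [c1, c2, c3, mul_assoc]
        show T s 4 4 * dl s 4 = dl s 4 * T s 4 4
        rw [h3, mul_assoc, a1, ← a3, ← mul_assoc, ← mul_assoc, ← a2]
      exact ((Commute.refl _).pow_right 4).mul_right (hT.pow_right 4)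
    rw [h4, h3] at hc
    have h7 : dl s 8 * dl s 8 ^ 8 = dl s 8 ^ 8 * dl s 8 := ((Commute.refl _).pow_right 8).eq
    have h8 : dl s 8 * (blk s 1 1 4 * dl s 8 ^ 8) = dl s 8 * (dl s 8 ^ 8 * blk s 1 1 4) := by
      rw [← mul_assoc, hc, ← mul_assoc, ← mul_assoc, h7]
    exact mul_left_cancel h8
  have h9 : T s 4 4 ^ 5 * dl s 4 ^ 8 = dl s 8 ^ 8 * dl s 8 * dl s 5 ^ 4 := by
    calc T s 4 4 ^ 5 * dl s 4 ^ 8 = T s 4 4 * (T s 4 4 ^ 4 * dl s 4 ^ 4) * dl s 4 ^ 4 := by group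
      _ = dl s 8 * (blk s 1 1 4 * dl s 8 ^ 8) * dl s 4 ^ 4 := by rw [h4, h3]; group
      _ = dl s 8 * dl s 8 ^ 8 * (blk s 1 1 4 * dl s 4 ^ 4) := by rw [h6]; group
      _ = _ := by rw [h5]; group
  have h10 : blk s 1 1 8 * dl s 8 ^ 8 = dl s 9 ^ 8 := h.fill le_rfl rfl (by norm_num)
  have h11 : blk s 1 1 10 = blk s 1 1 9 * blk s 1 10 1 := blk_add (k := 9) (l := 1)
  have h12 : blk s 1 10 1 * dl s 10 ^ 1 = dl s 11 ^ 1 := h.fill (by norm_num) rfl (by norm_num)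
  have h13 : blk s 1 1 9 * dl s 11 = dl s 11 * blk s 1 2 9 :=
    h.pass_blk le_rfl (by norm_num) (by norm_num)
  have h14 : blk s 1 2 9 = blk s 1 2 8 * blk s 1 10 1 := blk_add (k := 8) (l := 1)
  have h15 : blk s 1 10 1 * dl s 9 ^ 8 = dl s 9 ^ 8 * blk s 1 10 1 :=
    h.far_blk_pow 8 (by norm_num) (by norm_num)
  have h16 : blk s 1 2 8 * dl s 9 ^ 8 = dl s 10 ^ 8 := h.fill (by norm_num) rfl (by norm_num)
  have h17 : blk s 1 10 1 * dl s 8 = dl s 8 * blk s 1 10 1 :=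
    (h.far_blk (by norm_num) (by norm_num)).eq
  have h18 : blk s 1 10 1 * dl s 5 ^ 4 = dl s 5 ^ 4 * blk s 1 10 1 :=
    h.far_blk_pow 4 (by norm_num) (by norm_num)
  rw [pow_one, pow_one] at h12
  have e1 : T s 5 10 * T s 2 8 * T s 4 4 ^ 5 * dl s 4 ^ 8
      = (dl s 15 * dl s 11 * dl s 10 ^ 8 * dl s 8 * dl s 5 ^ 4) * blk s 1 10 1 := by
    calc T s 5 10 * T s 2 8 * T s 4 4 ^ 5 * dl s 4 ^ 8
        = T s 5 10 * T s 2 8 * (T s 4 4 ^ 5 * dl s 4 ^ 8) := by group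
      _ = dl s 15 * blk s 1 1 9 * (blk s 1 10 1 * dl s 10) * (blk s 1 1 8 * dl s 8 ^ 8) * dl s 8
            * dl s 5 ^ 4 := by rw [h9, h1, h2, h11]; group
      _ = dl s 15 * (blk s 1 1 9 * dl s 11) * dl s 9 ^ 8 * dl s 8 * dl s 5 ^ 4 := by
          rw [h12, h10]; group
      _ = dl s 15 * dl s 11 * blk s 1 2 8 * (blk s 1 10 1 * dl s 9 ^ 8) * dl s 8 * dl s 5 ^ 4 := by
          rw [h13, h14]; group
      _ = dl s 15 * dl s 11 * (blk s 1 2 8 * dl s 9 ^ 8) * (blk s 1 10 1 * dl s 8)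
            * dl s 5 ^ 4 := by rw [h15]; group
      _ = dl s 15 * dl s 11 * dl s 10 ^ 8 * dl s 8 * (blk s 1 10 1 * dl s 5 ^ 4) := by
          rw [h16, h17]; group
      _ = _ := by rw [h18]; group
  have h19 : blk s 1 10 1 * dl s 15 = dl s 15 * s 11 := by
    rw [h.pass_blk (by norm_num) (by norm_num) le_rfl]; simp [blk, dn]
  have e2 : blk s 1 10 1 * (dl s 15 * dl s 11 * dl s 10 ^ 8 * dl s 8 * dl s 5 ^ 4)
      = dl s 15 * dl s 12 * dl s 10 ^ 8 * dl s 8 * dl s 5 ^ 4 := by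
    calc blk s 1 10 1 * (dl s 15 * dl s 11 * dl s 10 ^ 8 * dl s 8 * dl s 5 ^ 4)
        = (blk s 1 10 1 * dl s 15) * dl s 11 * dl s 10 ^ 8 * dl s 8 * dl s 5 ^ 4 := by group
      _ = dl s 15 * (s 11 * dl s 11) * dl s 10 ^ 8 * dl s 8 * dl s 5 ^ 4 := by rw [h19]; group
      _ = _ := by rw [← dl_succ (c := 11) (by norm_num)]
  rw [e1]
  refine (conj_rot _ _).trans ?_
  rw [e2]

end Crest.Agent.R267.BrAlg_293
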