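import Crest.Agent.R267.Calc2_957
import Crest.Agent.R267.Curve_867
import Crest.Agent.R267.K1_996

/-!
# Row 267, T3a: derivative of `G` along an arbitrary vector `y` (form for K2)
-/

set_option autoImplicit false

noncomputable section

namespace Crest.Agent.R267.CLine_996

open Set Filter Topology Finset
open Crest.Agent.R267.T3aDefs_957 Crest.Agent.R267.Calc_957

open Crest.Agent.R267.TLine_996 (SA SB SA_nonneg SB_nonneg SAB_pos NN_eq NN_pos NN_sq chid
  hasDerivAt_chi chid_of_le chid_of_ge chid_nonneg chid_le chi_of_le chi_of_ge ch_nonneg ch_le_one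
  xr_zero sq_pos_of_ne G_im G_re)
open Crest.Agent.R267.Calc2_957 (pa pb ps pt gA gB)
open Crest.Agent.R267.K1_996 (re_sq_le im_sq_le M_le_Mx)

section space

variable {N : ℕ} (D : LD N)

/-- the line through `z` with velocity `y`. -/
def lc (z y : Fin N → ℂ) (h : ℝ) : Fin N → ℂ := z + h • y

@[simp] lemma lc_zero (z y : Fin N → ℂ) : lc z y 0 = z := by simp [lc]

lemma lc_apply (z y : Fin N → ℂ) (h : ℝ) (i : Fin N) : lc z y h i = z i + (h : ℂ) * y i := by
  simp [lc]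

@[simp] lemma lc_re (z y : Fin N → ℂ) (h : ℝ) (i : Fin N) :
    (lc z y h i).re = (z i).re + h * (y i).re := by
  rw [lc_apply]; simp

@[simp] lemma lc_im (z y : Fin N → ℂ) (h : ℝ) (i : Fin N) :
    (lc z y h i).im = (z i).im + h * (y i).im := by
  rw [lc_apply]; simp

lemma hasDerivAt_lc (z y : Fin N → ℂ) : HasDerivAt (fun h : ℝ => lc z y h) y 0 := by
  unfold lc
  simpa using ((hasDerivAt_id (0 : ℝ)).smul_const y).const_add z

lemma hasDerivAt_lc_apply (z y : Fin N → ℂ) (i : Fin N) :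
    HasDerivAt (fun h : ℝ => lc z y h i) (y i) 0 :=
  (hasDerivAt_pi.1 (hasDerivAt_lc z y)) i

lemma comp_lc {E : Type*} [NormedAddCommGroup E] [NormedSpace ℝ E] {F : (Fin N → ℂ) → E}
    {F' : (Fin N → ℂ) →L[ℝ] E} {z : Fin N → ℂ} (hF : HasFDerivAt F F' z) (y : Fin N → ℂ) :
    HasDerivAt (fun h => F (lc z y h)) (F' y) 0 := by
  have h2 : HasFDerivAt F F' (lc z y 0) := by rw [lc_zero]; exact hF
  exact h2.comp_hasDerivAt (0 : ℝ) (hasDerivAt_lc z y)

lemma comp_lc_apply {E : Type*} [NormedAddCommGroup E] [NormedSpace ℝ E] {F : ℂ → E}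
    {F' : ℂ →L[ℝ] E} {z : Fin N → ℂ} {i : Fin N} (hF : HasFDerivAt F F' (z i))
    (y : Fin N → ℂ) : HasDerivAt (fun h => F (lc z y h i)) (F' (y i)) 0 := by
  have h2 : HasFDerivAt F F' (lc z y 0 i) := by rw [lc_zero]; exact hF
  exact h2.comp_hasDerivAt (0 : ℝ) (hasDerivAt_lc_apply z y i)

lemma continuous_lc (z y : Fin N → ℂ) : Continuous (lc z y) := by
  unfold lc
  fun_prop

/-! ### the pieces -/

/-- derivative of `pl`. -/
def plD (ga : ℝ) (M : ℕ) (w y : ℂ) : ℂ := (y.re : ℂ) * pa ga M w + (y.im : ℂ) * pb M w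

lemma hasDerivAt_pl (ga : ℝ) (M : ℕ) {z : Fin N → ℂ} (y : Fin N → ℂ) {i : Fin N} (hi : z i ≠ 0) :
    HasDerivAt (fun h => pl ga M (lc z y h i)) (plD ga M (z i) (y i)) 0 := by
  refine (comp_lc_apply (Calc2_957.hasFDerivAt_pl ga M hi) y).congr_deriv ?_
  simp [plD]

/-- derivative of the planar gauge. -/
def pgD (K : ℝ) (w y : ℂ) : ℝ := ps K w * y.re + pt K w * y.im

lemma hasDerivAt_pg (K : ℝ) {z : Fin N → ℂ} (y : Fin N → ℂ) {i : Fin N} (hi : z i ≠ 0) :
    HasDerivAt (fun h => pg K (lc z y h i)) (pgD K (z i) (y i)) 0 := by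
  refine (comp_lc_apply (Calc2_957.hasFDerivAt_pg K hi) y).congr_deriv ?_
  simp [pgD]

/-- derivative of the total gauge. -/
def NND (K : ℝ) (z y : Fin N → ℂ) : ℝ :=
  (gA K (SA z) (SB z) * (∑ j, (z j).re * (y j).re) +
    gB K (SA z) (SB z) * (∑ j, (z j).im * (y j).im)) / NN K z

lemma hasFDerivAt_SA (z : Fin N → ℂ) : HasFDerivAt (SA (N := N))
    (∑ j, (2 * (z j).re) • (Complex.reCLM.comp (ContinuousLinearMap.proj (R := ℝ) j))) z := by
  have h1 : (SA (N := N)) = fun w : Fin N → ℂ => ∑ j, (w j).re ^ 2 := rfl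
  rw [h1]
  refine HasFDerivAt.fun_sum fun j _ => ?_
  have h2 : HasFDerivAt (fun w : Fin N → ℂ => (w j).re)
      (Complex.reCLM.comp (ContinuousLinearMap.proj (R := ℝ) (φ := fun _ : Fin N => ℂ) j)) z :=
    (Complex.reCLM.comp (ContinuousLinearMap.proj (R := ℝ) (φ := fun _ : Fin N => ℂ) j)).hasFDerivAt
  refine (h2.pow 2).congr_fderiv ?_
  ext w
  simp

lemma hasFDerivAt_SB (z : Fin N → ℂ) : HasFDerivAt (SB (N := N))
    (∑ j, (2 * (z j).im) • (Complex.imCLM.comp (ContinuousLinearMap.proj (R := ℝ) j))) z := by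
  have h1 : (SB (N := N)) = fun w : Fin N → ℂ => ∑ j, (w j).im ^ 2 := rfl
  rw [h1]
  refine HasFDerivAt.fun_sum fun j _ => ?_
  have h2 : HasFDerivAt (fun w : Fin N → ℂ => (w j).im)
      (Complex.imCLM.comp (ContinuousLinearMap.proj (R := ℝ) (φ := fun _ : Fin N => ℂ) j)) z :=
    (Complex.imCLM.comp (ContinuousLinearMap.proj (R := ℝ) (φ := fun _ : Fin N => ℂ) j)).hasFDerivAt
  refine (h2.pow 2).congr_fderiv ?_
  ext w
  simp

lemma hasDerivAt_NN (K : ℝ) {z : Fin N → ℂ} (hz : z ≠ 0) (y : Fin N → ℂ) :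
    HasDerivAt (fun h => NN K (lc z y h)) (NND K z y) 0 := by
  have h0 := SAB_pos hz
  have hpos := TLine_996.gq_pos (K := K) (SA_nonneg z) (SB_nonneg z) h0
  have h1 := comp_lc ((Calc2_957.hasFDerivAt_gq K (hasFDerivAt_SA z) (hasFDerivAt_SB z) h0.ne').sqrt
    hpos.ne') y
  refine h1.congr_deriv ?_
  have hn := (NN_pos K hz).ne'
  have e1 : (∑ j, (2 * (z j).re) • (Complex.reCLM.comp (ContinuousLinearMap.proj (R := ℝ) j)) :
      (Fin N → ℂ) →L[ℝ] ℝ) y = 2 * ∑ j, (z j).re * (y j).re := by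
    rw [_root_.sum_apply, mul_sum]
    refine sum_congr rfl fun j _ => ?_
    simp [mul_assoc]
  have e2 : (∑ j, (2 * (z j).im) • (Complex.imCLM.comp (ContinuousLinearMap.proj (R := ℝ) j)) :
      (Fin N → ℂ) →L[ℝ] ℝ) y = 2 * ∑ j, (z j).im * (y j).im := by
    rw [_root_.sum_apply, mul_sum]
    refine sum_congr rfl fun j _ => ?_
    simp [mul_assoc]
  rw [_root_.smul_apply, _root_.add_apply, _root_.smul_apply, _root_.smul_apply, e1, e2, ← NN_eq,
    NND]
  simp only [smul_eq_mul]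
  field_simp

/-- derivative of the relative size. -/
def xrD (z y : Fin N → ℂ) (i : Fin N) : ℝ :=
  (pgD D.K (z i) (y i) - D.xr z i * NND D.K1 z y) / NN D.K1 z

lemma hasDerivAt_xr {z : Fin N → ℂ} (hz : z ≠ 0) (y : Fin N → ℂ) {i : Fin N} (hi : z i ≠ 0) :
    HasDerivAt (fun h => D.xr (lc z y h) i) (xrD D z y i) 0 := by
  unfold LD.xr
  have h1 := (hasDerivAt_pg D.K y hi).div (hasDerivAt_NN D.K1 hz y) (by
    rw [lc_zero]; exact (NN_pos _ hz).ne')
  refine h1.congr_deriv ?_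
  rw [lc_zero, xrD, LD.xr]
  have := (NN_pos D.K1 hz).ne'
  field_simp

/-- at a vanishing variable the cut-off vanishes nearby. -/
lemma ch_zero_near {d : ℝ} (hd : 0 < d) {z : Fin N → ℂ} (hz : z ≠ 0) (y : Fin N → ℂ) {i : Fin N}
    (hi : z i = 0) : ∀ᶠ h in 𝓝 (0 : ℝ), D.ch d (lc z y h) i = 0 := by
  have h1 : ∀ h, pg D.K (lc z y h i) ≤ √((h * (y i).re) ^ 2 + (h * (y i).im) ^ 2) := by
    intro h
    unfold pg
    rw [lc_re, lc_im, hi]
    simp only [Complex.zero_re, Complex.zero_im, zero_add]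
    exact Real.sqrt_le_sqrt (TLine_996.gq_le (sq_nonneg _) (sq_nonneg _))
  have h2 : Tendsto (fun h : ℝ => √((h * (y i).re) ^ 2 + (h * (y i).im) ^ 2)) (𝓝 0) (𝓝 0) := by
    have : Continuous fun h : ℝ => √((h * (y i).re) ^ 2 + (h * (y i).im) ^ 2) := by fun_prop
    simpa using this.tendsto 0
  have h3 := squeeze_zero (fun h => TLine_996.pg_nonneg D.K (lc z y h i)) h1 h2
  have h4 := (hasDerivAt_NN D.K1 hz y).continuousAt.tendsto
  rw [lc_zero] at h4
  have h5 := h3.div h4 (NN_pos _ hz).ne'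
  rw [zero_div] at h5
  filter_upwards [h5 (Iio_mem_nhds hd)] with h hh
  exact chi_of_le hd (le_of_lt hh)

/-- derivative of the cut-off. -/
lemma hasDerivAt_ch {d : ℝ} (hd : 0 < d) {z : Fin N → ℂ} (hz : z ≠ 0) (y : Fin N → ℂ)
    (i : Fin N) :
    HasDerivAt (fun h => D.ch d (lc z y h) i) (chid d (D.xr z i) * xrD D z y i) 0 := by
  rcases eq_or_ne (z i) 0 with hi | hi
  · rw [xr_zero D hi, chid_of_le hd hd.le, zero_mul]
    exact (hasDerivAt_const (0 : ℝ) (0 : ℝ)).congr_of_eventuallyEq (ch_zero_near D hd hz y hi)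
  · have h1 : HasDerivAt (chi d) (chid d (D.xr z i)) (D.xr (lc z y 0) i) := by
      rw [lc_zero]; exact hasDerivAt_chi d _
    exact h1.comp (0 : ℝ) (hasDerivAt_xr D hz y hi)

/-- derivative of one summand of `G`. -/
def tmD (ga d : ℝ) (z y : Fin N → ℂ) (i : Fin N) : ℂ :=
  ((chid d (D.xr z i) * xrD D z y i : ℝ) : ℂ) * pl ga (D.M i) (z i) +
    (D.ch d z i : ℂ) * plD ga (D.M i) (z i) (y i)

lemma hasDerivAt_tm {ga d : ℝ} (hd : 0 < d) {z : Fin N → ℂ} (hz : z ≠ 0) (y : Fin N → ℂ)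
    (i : Fin N) :
    HasDerivAt (fun h => (D.ch d (lc z y h) i : ℂ) * pl ga (D.M i) (lc z y h i))
      (tmD D ga d z y i) 0 := by
  rcases eq_or_ne (z i) 0 with hi | hi
  · have h0 : tmD D ga d z y i = 0 := by
      unfold tmD
      rw [xr_zero D hi, chid_of_le hd hd.le, LD.ch, xr_zero D hi, chi_of_le hd hd.le]
      simp
    rw [h0]
    refine (hasDerivAt_const (0 : ℝ) (0 : ℂ)).congr_of_eventuallyEq ?_
    filter_upwards [ch_zero_near D hd hz y hi] with h hh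
    rw [hh]
    simp
  · have h1 := (hasDerivAt_ch D hd hz y i).ofReal_comp.mul (hasDerivAt_pl ga (D.M i) y hi)
    refine h1.congr_deriv ?_
    rw [lc_zero]
    unfold tmD
    ring

/-- **derivative of `G` along `y`**, if the derivatives of the couplings are known. -/
lemma fderiv_G {cB ga d : ℝ} (hd : 0 < d) {z : Fin N → ℂ} (hz : z ≠ 0)
    (hG : DifferentiableAt ℝ (D.G cB ga d) z) (y : Fin N → ℂ) {b : Fin N × Fin N × ℕ → ℝ}
    (hb : ∀ e ∈ D.C, HasDerivAt (fun h => D.Be d e (lc z y h)) (b e) 0) :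
    fderiv ℝ (D.G cB ga d) z y = ∑ i, tmD D ga d z y i - ((cB * ga * ∑ e ∈ D.C, b e : ℝ) : ℂ) := by
  have h1 := comp_lc hG.hasFDerivAt y
  have h2 : HasDerivAt (fun h => ∑ i, (D.ch d (lc z y h) i : ℂ) * pl ga (D.M i) (lc z y h i))
      (∑ i, tmD D ga d z y i) 0 := HasDerivAt.fun_sum fun i _ => hasDerivAt_tm D hd hz y i
  have h3 : HasDerivAt (fun h => cB * ga * ∑ e ∈ D.C, D.Be d e (lc z y h))
      (cB * ga * ∑ e ∈ D.C, b e) 0 := (HasDerivAt.fun_sum hb).const_mul _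
  have h4 := h2.sub h3.ofReal_comp
  exact h1.unique h4

/-! ### the harmonic coupling -/

/-- derivative of `u v / (u + v)` for nonnegative functions (also at `u = v = 0`). -/
lemma hasDerivAt_H {u v : ℝ → ℝ} {u' v' : ℝ} (hu : HasDerivAt u u' 0) (hv : HasDerivAt v v' 0)
    (hu0 : ∀ᶠ h in 𝓝 (0 : ℝ), 0 ≤ u h) (hv0 : ∀ᶠ h in 𝓝 (0 : ℝ), 0 ≤ v h) :
    HasDerivAt (fun h => u h * v h / (u h + v h))
      ((v 0 ^ 2 * u' + u 0 ^ 2 * v') / (u 0 + v 0) ^ 2) 0 := by
  have hu1 : 0 ≤ u 0 := hu0.self_of_nhds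
  have hv1 : 0 ≤ v 0 := hv0.self_of_nhds
  rcases eq_or_ne (u 0 + v 0) 0 with h | h
  · have ha : u 0 = 0 := by linarith
    have hb : v 0 = 0 := by linarith
    have hu' : u' = 0 := by
      have : IsLocalMin u 0 := by
        filter_upwards [hu0] with h hh
        rw [ha]; exact hh
      exact this.hasDerivAt_eq_zero hu
    rw [ha, hb]
    simp only [ne_eq, OfNat.ofNat_ne_zero, not_false_eq_true, zero_pow, zero_mul, add_zero,
      div_zero]
    rw [hasDerivAt_iff_isLittleO] at hu ⊢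
    rw [hu', ha] at hu
    simp only [sub_zero, smul_eq_mul, mul_zero, ha, hb, zero_div] at hu ⊢
    refine Asymptotics.IsBigO.trans_isLittleO ?_ hu
    refine Asymptotics.IsBigO.of_bound 1 ?_
    filter_upwards [hu0, hv0] with h h1 h2
    rw [one_mul, Real.norm_of_nonneg h1, Real.norm_of_nonneg (by positivity)]
    rcases (add_nonneg h1 h2).eq_or_lt' with h3 | h3
    · rw [h3, div_zero]; exact h1
    · rw [div_le_iff₀ h3]
      nlinarith [mul_nonneg h1 h1]
  · refine ((hu.mul hv).div (hu.add hv) h).congr_deriv ?_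
    simp only [Pi.mul_apply, Pi.add_apply]
    congr 1
    ring

end space

end Crest.Agent.R267.CLine_996
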