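import Crest.Agent.R267.T3aDefs_957

/-!
# Row 267, T3a: one variable calculus for `T3aDefs_957`
-/

set_option autoImplicit false

noncomputable section

namespace Crest.Agent.R267.Calc1_996

open Set Filter Topology Finset
open Crest.Agent.R267.T3aDefs_957

/-! ### gluing of derivatives -/

lemma hasDerivAt_glue {E : Type*} [NormedAddCommGroup E] [NormedSpace ℝ E] {f g h : ℝ → E} {e : E}
    {x : ℝ} (hg : HasDerivAt g e x) (hh : HasDerivAt h e x) (h1 : ∀ᶠ y in 𝓝[≤] x, f y = g y)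
    (h2 : ∀ᶠ y in 𝓝[≥] x, f y = h y) : HasDerivAt f e x := by
  have a : HasDerivWithinAt f e (Iic x) x :=
    hg.hasDerivWithinAt.congr_of_eventuallyEq h1 (h1.self_of_nhdsWithin (by simp))
  have b : HasDerivWithinAt f e (Ici x) x :=
    hh.hasDerivWithinAt.congr_of_eventuallyEq h2 (h2.self_of_nhdsWithin (by simp))
  have := a.union b
  rwa [Iic_union_Ici, hasDerivWithinAt_univ] at this

lemma hasDerivAt_glue' {E : Type*} [NormedAddCommGroup E] [NormedSpace ℝ E] {f g h : ℝ → E} {e : E}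
    {x : ℝ} (hg : HasDerivAt g e x) (hh : HasDerivAt h e x) {δ : ℝ} (hδ : 0 < δ)
    (h1 : ∀ y, x - δ < y → y ≤ x → f y = g y) (h2 : ∀ y, x ≤ y → y < x + δ → f y = h y) :
    HasDerivAt f e x := by
  refine hasDerivAt_glue hg hh ?_ ?_
  · filter_upwards [inter_mem_nhdsWithin (Iic x) (Ioi_mem_nhds (show x - δ < x by linarith))]
      with y hy using h1 y hy.2 hy.1
  · filter_upwards [inter_mem_nhdsWithin (Ici x) (Iio_mem_nhds (show x < x + δ by linarith))]
      with y hy using h2 y hy.1 hy.2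

/-! ### the step function -/

lemma c01_nonneg (x : ℝ) : 0 ≤ c01 x := le_max_left _ _

lemma c01_le_one (x : ℝ) : c01 x ≤ 1 := max_le zero_le_one (min_le_left _ _)

lemma c01_of_nonpos {x : ℝ} (h : x ≤ 0) : c01 x = 0 := by
  unfold c01; rw [min_eq_right (by linarith), max_eq_left h]

lemma c01_of_one_le {x : ℝ} (h : 1 ≤ x) : c01 x = 1 := by
  unfold c01; rw [min_eq_left h, max_eq_right zero_le_one]

lemma c01_of_mem {x : ℝ} (h : 0 ≤ x) (h' : x ≤ 1) : c01 x = x := by
  unfold c01; rw [min_eq_right h', max_eq_right h]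

lemma st_of_nonpos {x : ℝ} (h : x ≤ 0) : st x = 0 := by simp [st, c01_of_nonpos h]

lemma st_of_one_le {x : ℝ} (h : 1 ≤ x) : st x = 1 := by
  simp only [st, c01_of_one_le h]; norm_num

lemma st_of_mem {x : ℝ} (h : 0 ≤ x) (h' : x ≤ 1) : st x = x ^ 3 * (10 - 15 * x + 6 * x ^ 2) := by
  simp [st, c01_of_mem h h']

lemma st_nonneg (x : ℝ) : 0 ≤ st x := by
  unfold st
  have h := c01_nonneg x
  have h' := c01_le_one x
  have : 0 ≤ 10 - 15 * c01 x + 6 * c01 x ^ 2 := by nlinarith [sq_nonneg (1 - c01 x)]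
  positivity

lemma st_le_one (x : ℝ) : st x ≤ 1 := by
  unfold st
  have h := c01_nonneg x
  have h' := c01_le_one x
  set c := c01 x
  have : 1 - c ^ 3 * (10 - 15 * c + 6 * c ^ 2) = (1 - c) ^ 3 * (1 + 3 * c + 6 * c ^ 2) := by ring
  have h2 : 0 ≤ (1 - c) ^ 3 * (1 + 3 * c + 6 * c ^ 2) := by
    have : 0 ≤ 1 - c := by linarith
    positivity
  linarith

/-- derivative of `st`. -/
def ds (x : ℝ) : ℝ := 30 * c01 x ^ 2 * (1 - c01 x) ^ 2

lemma ds_nonneg (x : ℝ) : 0 ≤ ds x := by unfold ds; positivity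

lemma ds_le (x : ℝ) : ds x ≤ 2 := by
  unfold ds
  have h := c01_nonneg x
  have h' := c01_le_one x
  set c := c01 x
  have h1 : c * (1 - c) ≤ 1 / 4 := by nlinarith [sq_nonneg (c - 1 / 2)]
  have h2 : 0 ≤ c * (1 - c) := mul_nonneg h (by linarith)
  have : c ^ 2 * (1 - c) ^ 2 ≤ 1 / 16 := by
    have := mul_le_mul h1 h1 h2 (by norm_num)
    nlinarith
  nlinarith

lemma ds_of_nonpos {x : ℝ} (h : x ≤ 0) : ds x = 0 := by simp [ds, c01_of_nonpos h]

lemma ds_of_one_le {x : ℝ} (h : 1 ≤ x) : ds x = 0 := by simp [ds, c01_of_one_le h]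

lemma ds_pos {x : ℝ} (h : 0 < x) (h' : x < 1) : 0 < ds x := by
  rw [ds, c01_of_mem h.le h'.le]
  have : 0 < 1 - x := by linarith
  positivity

lemma hasDerivAt_poly (x : ℝ) :
    HasDerivAt (fun y : ℝ => y ^ 3 * (10 - 15 * y + 6 * y ^ 2)) (30 * x ^ 2 * (1 - x) ^ 2) x := by
  have h1 : HasDerivAt (fun y : ℝ => y ^ 3) (3 * x ^ 2) x := by
    simpa using hasDerivAt_pow 3 x
  have h2 : HasDerivAt (fun y : ℝ => 10 - 15 * y + 6 * y ^ 2) (-15 + 12 * x) x := by
    have a : HasDerivAt (fun y : ℝ => 10 - 15 * y) (-15) x := by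
      simpa using ((hasDerivAt_id x).const_mul 15).const_sub 10
    have b : HasDerivAt (fun y : ℝ => 6 * y ^ 2) (12 * x) x :=
      ((hasDerivAt_pow 2 x).const_mul 6).congr_deriv (by norm_num; ring)
    exact a.add b
  exact (h1.mul h2).congr_deriv (by ring)

lemma hasDerivAt_st (x : ℝ) : HasDerivAt st (ds x) x := by
  rcases lt_trichotomy x 0 with h | h | h
  · rw [ds_of_nonpos h.le]
    refine hasDerivAt_glue' (hasDerivAt_const x (0 : ℝ)) (hasDerivAt_const x (0 : ℝ))
      (δ := -x) (by linarith) (fun y _ hy => st_of_nonpos (by linarith))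
      (fun y _ hy => st_of_nonpos (by linarith))
  · subst h
    have h0 : HasDerivAt (fun y : ℝ => y ^ 3 * (10 - 15 * y + 6 * y ^ 2)) (ds 0) 0 := by
      have := hasDerivAt_poly 0
      rwa [show ds 0 = 30 * (0 : ℝ) ^ 2 * (1 - 0) ^ 2 by rw [ds_of_nonpos le_rfl]; ring]
    refine hasDerivAt_glue' (g := fun _ => (0 : ℝ)) ?_ h0 (δ := 1) (by norm_num)
      (fun y _ hy => st_of_nonpos hy) (fun y hy hy' => st_of_mem hy (by linarith))
    rw [ds_of_nonpos le_rfl]
    exact hasDerivAt_const _ _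
  · rcases lt_trichotomy x 1 with h' | h' | h'
    · have h0 : HasDerivAt (fun y : ℝ => y ^ 3 * (10 - 15 * y + 6 * y ^ 2)) (ds x) x := by
        rw [ds, c01_of_mem h.le h'.le]
        exact hasDerivAt_poly x
      refine hasDerivAt_glue' h0 h0 (δ := min x (1 - x)) (lt_min h (by linarith))
        (fun y hy hy' => st_of_mem ?_ (by linarith)) (fun y hy hy' => st_of_mem (by linarith) ?_)
      · have := min_le_left x (1 - x); linarith
      · have := min_le_right x (1 - x); linarith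
    · subst h'
      have h0 : HasDerivAt (fun y : ℝ => y ^ 3 * (10 - 15 * y + 6 * y ^ 2)) (ds 1) 1 := by
        have := hasDerivAt_poly 1
        rwa [show ds 1 = 30 * (1 : ℝ) ^ 2 * (1 - 1) ^ 2 by rw [ds_of_one_le le_rfl]; ring]
      refine hasDerivAt_glue' (h := fun _ => (1 : ℝ)) h0 ?_ (δ := 1) (by norm_num)
        (fun y hy hy' => st_of_mem (by linarith) hy') (fun y hy _ => st_of_one_le hy)
      rw [ds_of_one_le le_rfl]
      exact hasDerivAt_const _ _
    · rw [ds_of_one_le h'.le]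
      refine hasDerivAt_glue' (hasDerivAt_const x (1 : ℝ)) (hasDerivAt_const x (1 : ℝ))
        (δ := x - 1) (by linarith) (fun y hy _ => st_of_one_le (by linarith))
        (fun y hy _ => st_of_one_le (by linarith))

/-! ### the primitive `Q1` -/

/-- clamp to `[-1,1]`. -/
def c11 (x : ℝ) : ℝ := max (-1) (min 1 x)

lemma c11_of_mem {x : ℝ} (h : -1 ≤ x) (h' : x ≤ 1) : c11 x = x := by
  unfold c11; rw [min_eq_right h', max_eq_right h]

lemma c11_of_le {x : ℝ} (h : x ≤ -1) : c11 x = -1 := by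
  unfold c11; rw [min_eq_right (by linarith), max_eq_left h]

lemma c11_of_ge {x : ℝ} (h : 1 ≤ x) : c11 x = 1 := by
  unfold c11; rw [min_eq_left h, max_eq_right (by norm_num)]

lemma c11_le (x : ℝ) : c11 x ≤ 1 := max_le (by norm_num) (min_le_left _ _)

lemma c11_ge (x : ℝ) : -1 ≤ c11 x := le_max_left _ _

/-- derivative of `Q1`. -/
def qq (x : ℝ) : ℝ := (3 * c11 x - c11 x ^ 3) / 2

lemma qq_of_ge {x : ℝ} (h : 1 ≤ x) : qq x = 1 := by
  rw [qq, c11_of_ge h]; norm_num

lemma qq_of_le {x : ℝ} (h : x ≤ -1) : qq x = -1 := by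
  rw [qq, c11_of_le h]; norm_num

lemma qq_of_mem {x : ℝ} (h : -1 ≤ x) (h' : x ≤ 1) : qq x = (3 * x - x ^ 3) / 2 := by
  rw [qq, c11_of_mem h h']

lemma qq_le_one (x : ℝ) : qq x ≤ 1 := by
  unfold qq
  have h := c11_ge x
  have h' := c11_le x
  set c := c11 x
  have : 1 - (3 * c - c ^ 3) / 2 = (1 - c) ^ 2 * (2 + c) / 2 := by ring
  have h2 : 0 ≤ (1 - c) ^ 2 * (2 + c) / 2 := by
    have : 0 ≤ 2 + c := by linarith
    positivity
  linarith

lemma neg_one_le_qq (x : ℝ) : -1 ≤ qq x := by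
  unfold qq
  have h := c11_ge x
  have h' := c11_le x
  set c := c11 x
  have : (3 * c - c ^ 3) / 2 + 1 = (1 + c) ^ 2 * (2 - c) / 2 := by ring
  have h2 : 0 ≤ (1 + c) ^ 2 * (2 - c) / 2 := by
    have : 0 ≤ 2 - c := by linarith
    positivity
  linarith

lemma qq_pos {x : ℝ} (h : 0 < x) : 0 < qq x := by
  unfold qq
  have h1 : 0 < c11 x := by
    unfold c11
    exact lt_max_of_lt_right (lt_min one_pos h)
  have h' := c11_le x
  set c := c11 x
  have : (3 * c - c ^ 3) / 2 = c * (3 - c ^ 2) / 2 := by ring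
  rw [this]
  have : 0 < 3 - c ^ 2 := by nlinarith
  positivity

lemma qq_neg {x : ℝ} (h : x < 0) : qq x < 0 := by
  unfold qq
  have h1 : c11 x < 0 := by
    unfold c11
    exact max_lt (by norm_num) (min_lt_of_right_lt h)
  have h' := c11_ge x
  set c := c11 x
  have : (3 * c - c ^ 3) / 2 = -((-c) * (3 - c ^ 2) / 2) := by ring
  rw [this]
  have : 0 < 3 - c ^ 2 := by nlinarith
  have h3 : 0 < -c := by linarith
  have : 0 < (-c) * (3 - c ^ 2) / 2 := by positivity
  linarith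

lemma Q1_of_mem {x : ℝ} (h : -1 ≤ x) (h' : x ≤ 1) : Q1 x = 3 * x ^ 2 / 4 - x ^ 4 / 8 := by
  rw [Q1, if_pos (abs_le.2 ⟨h, h'⟩)]

lemma Q1_of_ge {x : ℝ} (h : 1 ≤ x) : Q1 x = x - 3 / 8 := by
  unfold Q1
  split_ifs with h1
  · have : x = 1 := le_antisymm (abs_le.1 h1).2 h
    subst this; norm_num
  · rw [abs_of_nonneg (by linarith)]

lemma Q1_of_le {x : ℝ} (h : x ≤ -1) : Q1 x = -x - 3 / 8 := by
  unfold Q1
  split_ifs with h1
  · have : x = -1 := le_antisymm h (abs_le.1 h1).1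
    subst this; norm_num
  · rw [abs_of_nonpos (by linarith)]

lemma hasDerivAt_polyQ (x : ℝ) :
    HasDerivAt (fun y : ℝ => 3 * y ^ 2 / 4 - y ^ 4 / 8) ((3 * x - x ^ 3) / 2) x := by
  have h1 := (((hasDerivAt_pow 2 x).const_mul 3).div_const 4).sub
    ((hasDerivAt_pow 4 x).div_const 8)
  exact h1.congr_deriv (by norm_num; ring)

lemma hasDerivAt_Q1 (x : ℝ) : HasDerivAt Q1 (qq x) x := by
  rcases lt_trichotomy x (-1) with h | h | h
  · rw [qq_of_le h.le]
    have h0 : HasDerivAt (fun y : ℝ => -y - 3 / 8) (-1) x := by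
      simpa using (hasDerivAt_id x).neg.sub_const (3 / 8)
    exact hasDerivAt_glue' h0 h0 (δ := -1 - x) (by linarith)
      (fun y _ hy => Q1_of_le (by linarith)) (fun y _ hy => Q1_of_le (by linarith))
  · subst h
    have h0 : HasDerivAt (fun y : ℝ => -y - 3 / 8) (qq (-1)) (-1) := by
      rw [qq_of_le le_rfl]
      simpa using (hasDerivAt_id (-1 : ℝ)).neg.sub_const (3 / 8)
    have h1 : HasDerivAt (fun y : ℝ => 3 * y ^ 2 / 4 - y ^ 4 / 8) (qq (-1)) (-1) := by
      rw [qq_of_mem le_rfl (by norm_num)]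
      exact hasDerivAt_polyQ (-1)
    exact hasDerivAt_glue' h0 h1 (δ := 1) (by norm_num)
      (fun y _ hy => Q1_of_le hy) (fun y hy hy' => Q1_of_mem hy (by linarith))
  · rcases lt_trichotomy x 1 with h' | h' | h'
    · have h0 : HasDerivAt (fun y : ℝ => 3 * y ^ 2 / 4 - y ^ 4 / 8) (qq x) x := by
        rw [qq_of_mem h.le h'.le]
        exact hasDerivAt_polyQ x
      refine hasDerivAt_glue' h0 h0 (δ := min (x + 1) (1 - x)) (lt_min (by linarith) (by linarith))
        (fun y hy hy' => Q1_of_mem ?_ (by linarith)) (fun y hy hy' => Q1_of_mem (by linarith) ?_)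
      · have := min_le_left (x + 1) (1 - x); linarith
      · have := min_le_right (x + 1) (1 - x); linarith
    · subst h'
      have h0 : HasDerivAt (fun y : ℝ => y - 3 / 8) (qq 1) 1 := by
        rw [qq_of_ge le_rfl]
        simpa using (hasDerivAt_id (1 : ℝ)).sub_const (3 / 8)
      have h1 : HasDerivAt (fun y : ℝ => 3 * y ^ 2 / 4 - y ^ 4 / 8) (qq 1) 1 := by
        rw [qq_of_mem (by norm_num) le_rfl]
        exact hasDerivAt_polyQ 1
      exact hasDerivAt_glue' h1 h0 (δ := 1) (by norm_num)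
        (fun y hy hy' => Q1_of_mem (by linarith) hy') (fun y hy _ => Q1_of_ge hy)
    · rw [qq_of_ge h'.le]
      have h0 : HasDerivAt (fun y : ℝ => y - 3 / 8) 1 x := by
        simpa using (hasDerivAt_id x).sub_const (3 / 8)
      exact hasDerivAt_glue' h0 h0 (δ := x - 1) (by linarith)
        (fun y hy _ => Q1_of_ge (by linarith)) (fun y hy _ => Q1_of_ge (by linarith))

/-! ### the loop -/

lemma Af_of_small {v : ℝ} (h : |v| ≤ 1) : Af v = 1 := by
  rw [Af, st_of_nonpos (by linarith)]; norm_num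

lemma Af_of_large {v : ℝ} (h : 3 ≤ |v|) : Af v = -1 := by
  rw [Af, st_of_one_le (by linarith)]; norm_num

lemma Af_two {v : ℝ} (h : |v| = 2) : Af v = 0 := by
  rw [Af, h, st_of_mem (by norm_num) (by norm_num)]; norm_num

lemma Af_le_one (v : ℝ) : Af v ≤ 1 := by
  unfold Af; have := st_nonneg ((|v| - 1) / 2); linarith

lemma neg_one_le_Af (v : ℝ) : -1 ≤ Af v := by
  unfold Af; have := st_le_one ((|v| - 1) / 2); linarith

/-- derivative of `Af`. -/
def dA (v : ℝ) : ℝ := -(Real.sign v * ds ((|v| - 1) / 2))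

lemma dA_of_large {v : ℝ} (h : 3 ≤ |v|) : dA v = 0 := by
  rw [dA, ds_of_one_le (by linarith)]; ring

lemma dA_of_small {v : ℝ} (h : |v| ≤ 1) : dA v = 0 := by
  rw [dA, ds_of_nonpos (by linarith)]; ring

lemma hasDerivAt_Af (v : ℝ) : HasDerivAt Af (dA v) v := by
  rcases lt_trichotomy v 0 with h | h | h
  · have h1 : HasDerivAt (fun y : ℝ => 1 - 2 * st ((-y - 1) / 2)) (dA v) v := by
      have h2 : HasDerivAt (fun y : ℝ => (-y - 1) / 2) (-1 / 2) v := by
        simpa using ((hasDerivAt_id v).neg.sub_const 1).div_const 2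
      have h3 := ((hasDerivAt_st ((-v - 1) / 2)).comp v h2).const_mul 2 |>.const_sub 1
      refine h3.congr_deriv ?_
      rw [dA, Real.sign_of_neg h, abs_of_neg h]
      ring
    refine h1.congr_of_eventuallyEq ?_
    filter_upwards [Iio_mem_nhds h] with y hy
    rw [Af, abs_of_neg hy]
  · subst h
    have h1 : dA 0 = 0 := dA_of_small (by simp)
    rw [h1]
    refine (hasDerivAt_const (0 : ℝ) (1 : ℝ)).congr_of_eventuallyEq ?_
    filter_upwards [Metric.ball_mem_nhds (0 : ℝ) one_pos] with y hy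
    rw [mem_ball_zero_iff, Real.norm_eq_abs] at hy
    exact Af_of_small hy.le
  · have h1 : HasDerivAt (fun y : ℝ => 1 - 2 * st ((y - 1) / 2)) (dA v) v := by
      have h2 : HasDerivAt (fun y : ℝ => (y - 1) / 2) (1 / 2) v := by
        simpa using ((hasDerivAt_id v).sub_const 1).div_const 2
      have h3 := ((hasDerivAt_st ((v - 1) / 2)).comp v h2).const_mul 2 |>.const_sub 1
      refine h3.congr_deriv ?_
      rw [dA, Real.sign_of_pos h, abs_of_pos h]
      ring
    refine h1.congr_of_eventuallyEq ?_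
    filter_upwards [Ioi_mem_nhds h] with y hy
    rw [Af, abs_of_pos hy]

lemma Bf_of_small {v : ℝ} (h : |v| ≤ 1) : Bf v = v := by
  rw [Bf, Q1_of_ge (by linarith)]
  have : Real.sign v * |v| = v := by
    rcases lt_trichotomy v 0 with h | h | h
    · rw [Real.sign_of_neg h, abs_of_neg h]; ring
    · subst h; simp
    · rw [Real.sign_of_pos h, abs_of_pos h]; ring
  linear_combination this

lemma Bf_of_ge {v : ℝ} (h : 3 ≤ v) : Bf v = 4 - v := by
  rw [Bf, abs_of_nonneg (by linarith), Q1_of_le (by linarith), Real.sign_of_pos (by linarith)]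
  ring

lemma Bf_of_le {v : ℝ} (h : v ≤ -3) : Bf v = -4 - v := by
  rw [Bf, abs_of_nonpos (by linarith), Q1_of_le (by linarith), Real.sign_of_neg (by linarith)]
  ring

/-- derivative of `Bf`. -/
def dB (v : ℝ) : ℝ := qq (2 - |v|)

lemma dB_of_large {v : ℝ} (h : 3 ≤ |v|) : dB v = -1 := qq_of_le (by linarith)

lemma neg_one_le_dB (v : ℝ) : -1 ≤ dB v := neg_one_le_qq _

lemma dB_le_one (v : ℝ) : dB v ≤ 1 := qq_le_one _

lemma dB_pos {v : ℝ} (h : |v| < 2) : 0 < dB v := qq_pos (by linarith)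

lemma dB_neg {v : ℝ} (h : 2 < |v|) : dB v < 0 := qq_neg (by linarith)

lemma abs_eq_two_of_dB {v : ℝ} (h : dB v = 0) : |v| = 2 := by
  rcases lt_trichotomy |v| 2 with h1 | h1 | h1
  · exact absurd h (dB_pos h1).ne'
  · exact h1
  · exact absurd h (dB_neg h1).ne

lemma hasDerivAt_Bf (v : ℝ) : HasDerivAt Bf (dB v) v := by
  rcases lt_trichotomy v 0 with h | h | h
  · have h1 : HasDerivAt (fun y : ℝ => -(13 / 8 - Q1 (2 + y))) (dB v) v := by
      have h2 : HasDerivAt (fun y : ℝ => 2 + y) 1 v := by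
        simpa using (hasDerivAt_id v).const_add 2
      have h3 := (((hasDerivAt_Q1 (2 + v)).comp v h2).const_sub (13 / 8)).neg
      refine h3.congr_deriv ?_
      rw [dB, abs_of_neg h, sub_neg_eq_add]
      ring
    refine h1.congr_of_eventuallyEq ?_
    filter_upwards [Iio_mem_nhds h] with y hy
    rw [Bf, abs_of_neg hy, Real.sign_of_neg hy, sub_neg_eq_add]
    ring
  · subst h
    have h1 : dB 0 = 1 := by rw [dB, abs_zero, qq_of_ge (by norm_num)]
    rw [h1]
    refine (hasDerivAt_id (0 : ℝ)).congr_of_eventuallyEq ?_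
    filter_upwards [Metric.ball_mem_nhds (0 : ℝ) one_pos] with y hy
    rw [mem_ball_zero_iff, Real.norm_eq_abs] at hy
    exact Bf_of_small hy.le
  · have h1 : HasDerivAt (fun y : ℝ => 13 / 8 - Q1 (2 - y)) (dB v) v := by
      have h2 : HasDerivAt (fun y : ℝ => 2 - y) (-1) v := by
        simpa using (hasDerivAt_id v).const_sub 2
      have h3 := ((hasDerivAt_Q1 (2 - v)).comp v h2).const_sub (13 / 8)
      refine h3.congr_deriv ?_
      rw [dB, abs_of_pos h]
      ring
    refine h1.congr_of_eventuallyEq ?_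
    filter_upwards [Ioi_mem_nhds h] with y hy
    rw [Bf, abs_of_pos hy, Real.sign_of_pos hy]
    ring

lemma Bf_nonneg_of {v : ℝ} (h : 0 ≤ v) (h' : v ≤ 3) : v ≤ 1 ∧ Bf v = v ∨
    1 ≤ v ∧ Bf v = 13 / 8 - (3 * (2 - v) ^ 2 / 4 - (2 - v) ^ 4 / 8) := by
  rcases le_total v 1 with h1 | h1
  · exact Or.inl ⟨h1, Bf_of_small (by rwa [abs_of_nonneg h])⟩
  · refine Or.inr ⟨h1, ?_⟩
    rw [Bf, abs_of_nonneg h, Q1_of_mem (by linarith) (by linarith), Real.sign_of_pos (by linarith)]
    ring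

lemma Bf_neg (v : ℝ) : Bf (-v) = -Bf v := by
  unfold Bf
  rw [abs_neg, Real.sign_neg]
  ring

/-- `|v + Bf v| ≤ 4`. -/
lemma add_Bf_mem (v : ℝ) : -4 ≤ v + Bf v ∧ v + Bf v ≤ 4 := by
  have key : ∀ w : ℝ, 0 ≤ w → 0 ≤ w + Bf w ∧ w + Bf w ≤ 4 := by
    intro w hw
    rcases le_total 3 w with h | h
    · rw [Bf_of_ge h]; constructor <;> linarith
    · rcases Bf_nonneg_of hw h with ⟨h1, h2⟩ | ⟨h1, h2⟩
      · rw [h2]; constructor <;> linarith
      · rw [h2]
        set x := 2 - w with hx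
        have hx1 : -1 ≤ x := by linarith
        have hx2 : x ≤ 1 := by linarith
        have e : 4 - (w + (13 / 8 - (3 * x ^ 2 / 4 - x ^ 4 / 8))) = (x + 1) ^ 3 * (3 - x) / 8 := by
          have : w = 2 - x := by linarith
          rw [this]; ring
        have e2 : 0 ≤ (x + 1) ^ 3 * (3 - x) / 8 := by
          have a1 : 0 ≤ x + 1 := by linarith
          have a2 : 0 ≤ 3 - x := by linarith
          positivity
        constructor
        · have : x ^ 2 ≤ 1 := by nlinarith
          have : 0 ≤ x ^ 4 := by positivity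
          nlinarith
        · linarith
  rcases le_total 0 v with h | h
  · exact ⟨by linarith [(key v h).1], (key v h).2⟩
  · have := key (-v) (by linarith)
    rw [Bf_neg] at this
    exact ⟨by linarith [this.2], by linarith [this.1]⟩

end Crest.Agent.R267.Calc1_996
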