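import Crest.Agent.R267.Calc5_957
import Crest.Agent.R267.CalcN_88

/-!
# Row 267, T3aN: derivatives of the cut-offs and of the terms of `G` (signed lobes)
-/

set_option autoImplicit false

noncomputable section

namespace Crest.Agent.R267.Calc3N_88

open Finset
open Crest.Agent.R267.T3aDefs_957 (st Af Bf pg NN chi)
open Crest.Agent.R267.T3aNDefs_88 Crest.Agent.R267.CalcN_88
open Crest.Agent.R267.Calc2_957 Crest.Agent.R267.Calc_957
open Crest.Agent.R267.Calc3_957 (rej imj rej_apply imj_apply AA BB sr si sr_apply si_apply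
  AA_nonneg BB_nonneg re_sq_le_AA im_sq_le_BB AA_add_BB_ne dNN NN_pos NN_nonneg NN_sq
  sqrt_AA_le_NN NN_of_le hasFDerivAt_NN dNN_of_le chid hasDerivAt_chi chi_of_le chid_of_le
  chi_of_ge chid_of_ge chi_nonneg chi_le_one chi_pos lt_of_chi_ne chi_lt_one chid_nonneg chid_le
  mul_chid_le chid_mul_nonneg one_le_N pg_le_norm re_pos_nhds)

variable {N : ℕ}

section D

variable (D : SD N)

theorem K1_nonneg : 0 ≤ D.K1 := by unfold SD.K1; positivity

theorem K_nonneg : 0 ≤ D.K := by unfold SD.K; exact mul_nonneg (K1_nonneg D) (Nat.cast_nonneg _)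

theorem M_le_Mx (j : Fin N) : D.M j ≤ D.Mx :=
  single_le_sum (f := D.M) (fun _ _ => Nat.zero_le _) (mem_univ j)

theorem le_K1 (j : Fin N) : 16 * (D.M j : ℝ) + 2 ≤ D.K1 := by
  have h1 : (D.M j : ℝ) ≤ D.Mx := by exact_mod_cast M_le_Mx D j
  have h2 := one_le_N j
  unfold SD.K1
  have h3 : (0 : ℝ) ≤ D.Mx := Nat.cast_nonneg _
  nlinarith

theorem K1_le_K (j : Fin N) : D.K1 ≤ D.K := by
  unfold SD.K
  have h2 := one_le_N j
  have := K1_nonneg D
  nlinarith

theorem le_K (j : Fin N) : 16 * (D.M j : ℝ) + 2 ≤ D.K := (le_K1 D j).trans (K1_le_K D j)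

theorem xr_nonneg (z : Fin N → ℂ) (j : Fin N) : 0 ≤ D.xr z j :=
  div_nonneg (pg_nonneg _ _) (NN_nonneg _ _)

theorem ch_nonneg (d : ℝ) (z : Fin N → ℂ) (j : Fin N) : 0 ≤ D.ch d z j := chi_nonneg _ _

theorem ch_le_one (d : ℝ) (z : Fin N → ℂ) (j : Fin N) : D.ch d z j ≤ 1 := chi_le_one _ _

theorem R_nonneg (d : ℝ) (z : Fin N → ℂ) (j : Fin N) : 0 ≤ D.R d z j :=
  mul_nonneg (ch_nonneg D d z j) (le_max_left _ _)

/-- derivative of the relative size. -/
def dxr (z : Fin N → ℂ) (j : Fin N) : (Fin N → ℂ) →L[ℝ] ℝ :=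
  (1 / NN D.K1 z) • (ps D.K (z j) • rej j + pt D.K (z j) • imj j) -
    (D.xr z j / NN D.K1 z) • dNN D.K1 z

theorem hasFDerivAt_xr {z : Fin N → ℂ} (hz : z ≠ 0) {j : Fin N} (hj : z j ≠ 0) :
    HasFDerivAt (fun w => D.xr w j) (dxr D z j) z := by
  have h1 : HasFDerivAt (fun w : Fin N → ℂ => pg D.K (w j))
      (ps D.K (z j) • rej j + pt D.K (z j) • imj j) z := by
    have h2 : HasFDerivAt (fun w : Fin N → ℂ => w j)
        (ContinuousLinearMap.proj (R := ℝ) (φ := fun _ : Fin N => ℂ) j) z :=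
      (ContinuousLinearMap.proj (R := ℝ) (φ := fun _ : Fin N => ℂ) j).hasFDerivAt
    have h3 := HasFDerivAt.comp (g := pg D.K) (f := fun w : Fin N → ℂ => w j) z
      (hasFDerivAt_pg D.K hj) h2
    refine HasFDerivAt.congr_fderiv h3 ?_
    ext w
    simp
  have h4 := fdiv h1 (hasFDerivAt_NN D.K1 hz) (NN_pos hz).ne'
  refine HasFDerivAt.congr_fderiv h4 ?_
  have hp0 := (NN_pos (K := D.K1) hz).ne'
  ext w
  simp only [dxr, SD.xr, ContinuousLinearMap.sub_apply, ContinuousLinearMap.smul_apply,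
    smul_eq_mul]
  field_simp

/-- derivative of the cut-off. -/
def dch (d : ℝ) (z : Fin N → ℂ) (j : Fin N) : (Fin N → ℂ) →L[ℝ] ℝ :=
  chid d (D.xr z j) • dxr D z j

theorem xr_of_zero {z : Fin N → ℂ} {j : Fin N} (hj : z j = 0) : D.xr z j = 0 := by
  unfold SD.xr
  rw [hj, pg_zero, zero_div]

/-- near a point with `z j = 0` the relative size of `z j` is small. -/
theorem xr_nhds {z : Fin N → ℂ} (hz : z ≠ 0) {j : Fin N} (hj : z j = 0) {d : ℝ} (hd : 0 < d) :
    ∀ᶠ w in nhds z, D.xr w j < d := by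
  have h1 : ContinuousAt (fun w : Fin N → ℂ => ‖w j‖ - d * NN D.K1 w) z := by
    refine ContinuousAt.sub ?_ (ContinuousAt.mul continuousAt_const
      (hasFDerivAt_NN D.K1 hz).continuousAt)
    exact (continuous_apply j).norm.continuousAt
  have h2 : ‖z j‖ - d * NN D.K1 z < 0 := by
    rw [hj, norm_zero, zero_sub, neg_lt_zero]
    exact mul_pos hd (NN_pos hz)
  have h3 : ∀ᶠ w : Fin N → ℂ in nhds z, 0 < NN D.K1 w :=
    (hasFDerivAt_NN D.K1 hz).continuousAt.eventually (lt_mem_nhds (NN_pos hz))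
  filter_upwards [h1.eventually (gt_mem_nhds h2), h3] with w hw hw3
  unfold SD.xr
  rw [div_lt_iff₀ hw3]
  have := pg_le_norm D.K (w j)
  linarith

theorem dch_of_le {d : ℝ} (hd : 0 < d) {z : Fin N → ℂ} {j : Fin N} (h : D.xr z j ≤ d) :
    dch D d z j = 0 := by
  unfold dch
  rw [chid_of_le hd h, zero_smul]

theorem ch_of_le {d : ℝ} (hd : 0 < d) {z : Fin N → ℂ} {j : Fin N} (h : D.xr z j ≤ d) :
    D.ch d z j = 0 := chi_of_le hd h

theorem hasFDerivAt_ch {d : ℝ} (hd : 0 < d) {z : Fin N → ℂ} (hz : z ≠ 0) (j : Fin N) :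
    HasFDerivAt (fun w => D.ch d w j) (dch D d z j) z := by
  by_cases hj : z j = 0
  · rw [dch_of_le D hd (by rw [xr_of_zero D hj]; exact hd.le)]
    refine (hasFDerivAt_const (0 : ℝ) z).congr_of_eventuallyEq ?_
    filter_upwards [xr_nhds D hz hj hd] with w hw
    exact ch_of_le D hd hw.le
  · have h1 := HasDerivAt.comp_hasFDerivAt (h₂ := chi d) (f := fun w => D.xr w j) z
      (hasDerivAt_chi d (D.xr z j)) (hasFDerivAt_xr D hz hj)
    exact h1

theorem ch_zero_nhds {d : ℝ} (hd : 0 < d) {z : Fin N → ℂ} (hz : z ≠ 0) {j : Fin N}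
    (hj : z j = 0) : ∀ᶠ w in nhds z, D.ch d w j = 0 := by
  filter_upwards [xr_nhds D hz hj hd] with w hw
  exact ch_of_le D hd hw.le

/-! ### the terms of `G` -/

/-- derivative of `χ_j P_j`. -/
def dT (ga d : ℝ) (z : Fin N → ℂ) (j : Fin N) : (Fin N → ℂ) →L[ℝ] ℂ :=
  (dch D d z j).smulRight (plN ga (D.sn j) (D.M j) (z j)) +
    D.ch d z j • ((rej j).smulRight (paN ga (D.sn j) (D.M j) (z j)) + (imj j).smulRight (pbN (D.sn j) (D.M j) (z j)))

theorem dT_apply (ga d : ℝ) (z : Fin N → ℂ) (j : Fin N) (y : Fin N → ℂ) :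
    dT D ga d z j y = (dch D d z j y : ℂ) * plN ga (D.sn j) (D.M j) (z j) +
      (D.ch d z j : ℂ) * (((y j).re : ℂ) * paN ga (D.sn j) (D.M j) (z j) +
        ((y j).im : ℂ) * pbN (D.sn j) (D.M j) (z j)) := by
  simp [dT]
  ring

theorem hasFDerivAt_T (ga : ℝ) {d : ℝ} (hd : 0 < d) {z : Fin N → ℂ} (hz : z ≠ 0) (j : Fin N) :
    HasFDerivAt (fun w => (D.ch d w j : ℂ) * plN ga (D.sn j) (D.M j) (w j)) (dT D ga d z j) z := by
  by_cases hj : z j = 0
  · have h0 : dT D ga d z j = 0 := by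
      have hx : D.xr z j ≤ d := by rw [xr_of_zero D hj]; exact hd.le
      ext w
      simp [dT, dch_of_le D hd hx, ch_of_le D hd hx]
    rw [h0]
    refine (hasFDerivAt_const (0 : ℂ) z).congr_of_eventuallyEq ?_
    filter_upwards [ch_zero_nhds D hd hz hj] with w hw
    rw [hw]
    simp
  · have h2 : HasFDerivAt (fun w : Fin N → ℂ => w j)
        (ContinuousLinearMap.proj (R := ℝ) (φ := fun _ : Fin N => ℂ) j) z :=
      (ContinuousLinearMap.proj (R := ℝ) (φ := fun _ : Fin N => ℂ) j).hasFDerivAt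
    have h3 := HasFDerivAt.comp (g := plN ga (D.sn j) (D.M j)) (f := fun w : Fin N → ℂ => w j) z
      (hasFDerivAt_plN ga (D.sn j) (D.M j) hj) h2
    have h4 := (hasFDerivAt_ch D hd hz j).smul h3
    have h5 : (fun w : Fin N → ℂ => (D.ch d w j : ℂ) * plN ga (D.sn j) (D.M j) (w j)) =
        (fun w : Fin N → ℂ => D.ch d w j) • (plN ga (D.sn j) (D.M j) ∘ fun w : Fin N → ℂ => w j) := by
      funext w
      simp
    rw [h5]
    refine HasFDerivAt.congr_fderiv h4 ?_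
    ext w
    simp [dT]
    ring

/-- derivative of `R_j` (for `0 < s_j`). -/
def dR (d : ℝ) (z : Fin N → ℂ) (j : Fin N) : (Fin N → ℂ) →L[ℝ] ℝ :=
  (z j).re • dch D d z j + D.ch d z j • rej j

theorem dR_apply (d : ℝ) (z : Fin N → ℂ) (j : Fin N) (y : Fin N → ℂ) :
    dR D d z j y = (z j).re * dch D d z j y + D.ch d z j * (y j).re := by
  simp [dR]

theorem R_of_pos {d : ℝ} {z : Fin N → ℂ} {j : Fin N} (hj : 0 < (z j).re) :
    D.R d z j = D.ch d z j * (z j).re := by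
  unfold SD.R
  rw [max_eq_right hj.le]

theorem R_of_nonpos {d : ℝ} {z : Fin N → ℂ} {j : Fin N} (hj : (z j).re ≤ 0) :
    D.R d z j = 0 := by
  unfold SD.R
  rw [max_eq_left hj, mul_zero]

theorem hasFDerivAt_R {d : ℝ} (hd : 0 < d) {z : Fin N → ℂ} (hz : z ≠ 0) {j : Fin N}
    (hj : 0 < (z j).re) : HasFDerivAt (fun w => D.R d w j) (dR D d z j) z := by
  have h1 : (fun w => D.R d w j) =ᶠ[nhds z] fun w => D.ch d w j * rej j w := by
    filter_upwards [re_pos_nhds hj] with w hw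
    exact R_of_pos D hw
  have h2 := (hasFDerivAt_ch D hd hz j).mul ((rej j).hasFDerivAt (x := z))
  refine (HasFDerivAt.congr_fderiv h2 ?_).congr_of_eventuallyEq h1
  ext w
  simp [dR]
  ring

theorem dR_of_R_eq_zero {d : ℝ} (hd : 0 < d) {z : Fin N → ℂ} {j : Fin N}
    (hj : 0 < (z j).re) (h : D.R d z j = 0) : dR D d z j = 0 := by
  have h1 : D.ch d z j = 0 := by
    rw [R_of_pos D hj] at h
    rcases mul_eq_zero.1 h with h2 | h2
    · exact h2
    · exact absurd h2 hj.ne'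
  have h2 : D.xr z j ≤ d := by
    by_contra h3
    exact (chi_pos hd (not_le.1 h3)).ne' h1
  unfold dR
  rw [dch_of_le D hd h2, h1, smul_zero, zero_smul, add_zero]

end D

end Crest.Agent.R267.Calc3N_88
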