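import Crest.Agent.R267.CalcN_88
import Crest.Agent.R267.Calc4_957

/-!
# Row 267, T3aN: the derivative of the signed `G` and its values in the region II

The unsigned datum `tw D` (`2 M j` lobes, no couplings) has the same gauges as `D`, so that the
calculus of `xr`, `ch`, `R` is the one of `Calc3_957`, `Calc4_957`.
-/

set_option autoImplicit false

noncomputable section

namespace Crest.Agent.R267.Calc4N_867

open Finset
open Crest.Agent.R267.T3aDefs_957 (st Af Bf pg NN chi LD)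
open Crest.Agent.R267.T3aNDefs_88 Crest.Agent.R267.CalcN_88
open Crest.Agent.R267.Calc2_957 (fdiv ps pt pt_of_le ps_of_le pg_of_le)
open Crest.Agent.R267.Calc3_957 (rej imj rej_apply imj_apply AA BB chid dch dR dR_apply dxr
  hasFDerivAt_ch hasFDerivAt_R dR_of_R_eq_zero ch_zero_nhds R_nonneg K_nonneg)
open Crest.Agent.R267.Calc4_957 (tau dtau dtau_apply hasFDerivAt_tauj hasFDerivAt_zero_of_le
  vt_re vt_im vs_re vs_im vt_eq_sum vs_eq II S Wd rho)

variable {N : ℕ} (D : SD N)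

/-! ### the unsigned datum with the same gauges -/

/-- unsigned datum with the same gauges. -/
def tw : LD N where
  M := fun j => 2 * D.M j
  hM := fun j => by have := D.hM j; omega
  C := ∅
  hC := by simp

theorem tw_Mx : (tw D).Mx = 2 * D.Mx := by
  show ∑ j, 2 * D.M j = 2 * ∑ j, D.M j
  rw [mul_sum]

theorem tw_K1 : (tw D).K1 = D.K1 := by
  unfold LD.K1 SD.K1
  rw [tw_Mx]
  push_cast
  ring

theorem tw_K : (tw D).K = D.K := by
  unfold LD.K SD.K
  rw [tw_K1]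

theorem tw_xr (z : Fin N → ℂ) (j : Fin N) : (tw D).xr z j = D.xr z j := by
  unfold LD.xr SD.xr
  rw [tw_K, tw_K1]

theorem tw_ch (d : ℝ) (z : Fin N → ℂ) (j : Fin N) : (tw D).ch d z j = D.ch d z j := by
  unfold LD.ch SD.ch
  rw [tw_xr]

theorem tw_R (d : ℝ) (z : Fin N → ℂ) (j : Fin N) : (tw D).R d z j = D.R d z j := by
  unfold LD.R SD.R
  rw [tw_ch]

theorem RN_nonneg (d : ℝ) (z : Fin N → ℂ) (j : Fin N) : 0 ≤ D.R d z j := by
  rw [← tw_R]
  exact R_nonneg _ d z j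

theorem M_le_Mx (j : Fin N) : D.M j ≤ D.Mx :=
  single_le_sum (f := D.M) (fun _ _ => Nat.zero_le _) (mem_univ j)

theorem le_K (j : Fin N) : 16 * (D.M j : ℝ) + 2 ≤ D.K := by
  have h := Calc3_957.le_K (tw D) j
  rw [tw_K] at h
  have e : ((tw D).M j : ℝ) = 2 * D.M j := by
    show ((2 * D.M j : ℕ) : ℝ) = _
    push_cast
    ring
  rw [e] at h
  linarith

/-! ### the planar terms -/

/-- derivative of `χ_j P_j`. -/
def dTN (ga d : ℝ) (z : Fin N → ℂ) (j : Fin N) : (Fin N → ℂ) →L[ℝ] ℂ :=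
  (dch (tw D) d z j).smulRight (plN ga (D.sn j) (D.M j) (z j)) +
    D.ch d z j • ((rej j).smulRight (paN ga (D.sn j) (D.M j) (z j)) +
      (imj j).smulRight (pbN (D.sn j) (D.M j) (z j)))

theorem dTN_apply (ga d : ℝ) (z : Fin N → ℂ) (j : Fin N) (y : Fin N → ℂ) :
    dTN D ga d z j y = (dch (tw D) d z j y : ℂ) * plN ga (D.sn j) (D.M j) (z j) +
      (D.ch d z j : ℂ) * (((y j).re : ℂ) * paN ga (D.sn j) (D.M j) (z j) +
        ((y j).im : ℂ) * pbN (D.sn j) (D.M j) (z j)) := by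
  simp [dTN]
  ring

theorem hasFDerivAt_chN {d : ℝ} (hd : 0 < d) {z : Fin N → ℂ} (hz : z ≠ 0) (j : Fin N) :
    HasFDerivAt (fun w => D.ch d w j) (dch (tw D) d z j) z := by
  have h := hasFDerivAt_ch (tw D) hd hz j
  have e : (fun w => (tw D).ch d w j) = fun w => D.ch d w j := funext fun w => tw_ch D d w j
  rwa [e] at h

theorem chN_zero_nhds {d : ℝ} (hd : 0 < d) {z : Fin N → ℂ} (hz : z ≠ 0) {j : Fin N}
    (hj : z j = 0) : ∀ᶠ w in nhds z, D.ch d w j = 0 := by
  filter_upwards [ch_zero_nhds (tw D) hd hz hj] with w hw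
  rwa [tw_ch] at hw

theorem hasFDerivAt_TN (ga : ℝ) {d : ℝ} (hd : 0 < d) {z : Fin N → ℂ} (hz : z ≠ 0) (j : Fin N) :
    HasFDerivAt (fun w => (D.ch d w j : ℂ) * plN ga (D.sn j) (D.M j) (w j))
      (dTN D ga d z j) z := by
  by_cases hj : z j = 0
  · have h0 : dTN D ga d z j = 0 := by
      have hx : (tw D).xr z j ≤ d := by rw [Calc3_957.xr_of_zero (tw D) hj]; exact hd.le
      have hc : D.ch d z j = 0 := by rw [← tw_ch]; exact Calc3_957.ch_of_le (tw D) hd hx
      ext w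
      simp [dTN, Calc3_957.dch_of_le (tw D) hd hx, hc]
    rw [h0]
    refine (hasFDerivAt_const (0 : ℂ) z).congr_of_eventuallyEq ?_
    filter_upwards [chN_zero_nhds D hd hz hj] with w hw
    rw [hw]
    simp
  · have h2 : HasFDerivAt (fun w : Fin N → ℂ => w j)
        (ContinuousLinearMap.proj (R := ℝ) (φ := fun _ : Fin N => ℂ) j) z :=
      (ContinuousLinearMap.proj (R := ℝ) (φ := fun _ : Fin N => ℂ) j).hasFDerivAt
    have h3 := HasFDerivAt.comp (g := plN ga (D.sn j) (D.M j)) (f := fun w : Fin N → ℂ => w j) z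
      (hasFDerivAt_plN ga (D.sn j) (D.M j) hj) h2
    have h4 := (hasFDerivAt_chN D hd hz j).smul h3
    have h5 : (fun w : Fin N → ℂ => (D.ch d w j : ℂ) * plN ga (D.sn j) (D.M j) (w j)) =
        (fun w : Fin N → ℂ => D.ch d w j) •
          (plN ga (D.sn j) (D.M j) ∘ fun w : Fin N → ℂ => w j) := by
      funext w
      simp
    rw [h5]
    refine HasFDerivAt.congr_fderiv h4 ?_
    ext w
    simp [dTN]
    ring

theorem hasFDerivAt_RN {d : ℝ} (hd : 0 < d) {z : Fin N → ℂ} (hz : z ≠ 0) {j : Fin N}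
    (hj : 0 < (z j).re) : HasFDerivAt (fun w => D.R d w j) (dR (tw D) d z j) z := by
  have h := hasFDerivAt_R (tw D) hd hz hj
  have e : (fun w => (tw D).R d w j) = fun w => D.R d w j := funext fun w => tw_R D d w j
  rwa [e] at h

/-! ### the harmonic mean -/

theorem Hm_nonneg {ι : Type} (S : Finset ι) (R : ι → ℝ) : 0 ≤ Hm S R := by
  unfold Hm
  split_ifs with h
  · exact div_nonneg zero_le_one (sum_nonneg fun j hj => div_nonneg zero_le_one (h j hj).le)
  · exact le_rfl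

theorem Hm_le {ι : Type} {S : Finset ι} {R : ι → ℝ} (hR : ∀ j, 0 ≤ R j) {j : ι} (hj : j ∈ S) :
    Hm S R ≤ R j := by
  unfold Hm
  split_ifs with h
  · have h0 := h j hj
    have h1 : 1 / R j ≤ ∑ j ∈ S, 1 / R j :=
      single_le_sum (f := fun j => 1 / R j) (fun i hi => div_nonneg zero_le_one (h i hi).le) hj
    have h2 : 0 < 1 / R j := by positivity
    calc 1 / ∑ j ∈ S, 1 / R j ≤ 1 / (1 / R j) := one_div_le_one_div_of_le h2 h1
      _ = R j := one_div_one_div _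
  · exact hR j

theorem Hm_eq_zero {ι : Type} {S : Finset ι} {R : ι → ℝ} {j : ι} (hj : j ∈ S) (h : R j ≤ 0) :
    Hm S R = 0 := by
  unfold Hm
  rw [if_neg fun h0 => absurd (h0 j hj) (not_lt.2 h)]

theorem Hm_eq {ι : Type} {S : Finset ι} {R : ι → ℝ} (h : ∀ j ∈ S, 0 < R j) :
    Hm S R = 1 / ∑ j ∈ S, 1 / R j := by
  unfold Hm
  rw [if_pos h]

theorem hasFDerivAt_Hm {E : Type*} [NormedAddCommGroup E] [NormedSpace ℝ E] {ι : Type}
    {S : Finset ι} (hS : S.Nonempty) {R : E → ι → ℝ} {R' : ι → E →L[ℝ] ℝ} {z : E}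
    (h : ∀ j ∈ S, HasFDerivAt (fun w => R w j) (R' j) z) (hp : ∀ j ∈ S, 0 < R z j) :
    HasFDerivAt (fun w => Hm S (R w)) (∑ j ∈ S, (Hm S (R z) / R z j) ^ 2 • R' j) z := by
  have h1 : (fun w => Hm S (R w)) =ᶠ[nhds z] fun w => 1 / ∑ j ∈ S, 1 / R w j := by
    have h2 : ∀ᶠ w in nhds z, ∀ j ∈ S, 0 < R w j := by
      rw [Filter.eventually_all_finset]
      intro j hj
      exact (h j hj).continuousAt.eventually (lt_mem_nhds (hp j hj))
    filter_upwards [h2] with w hw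
    exact Hm_eq hw
  have hpos : 0 < ∑ j ∈ S, 1 / R z j :=
    sum_pos (fun j hj => one_div_pos.2 (hp j hj)) hS
  have h3 : HasFDerivAt (fun w => ∑ j ∈ S, 1 / R w j)
      (∑ j ∈ S, ((1 / R z j) • (0 : E →L[ℝ] ℝ) - (1 / R z j ^ 2) • R' j)) z :=
    HasFDerivAt.fun_sum fun j hj =>
      fdiv (u := fun _ => (1 : ℝ)) (hasFDerivAt_const (1 : ℝ) z) (h j hj) (hp j hj).ne'
  have h4 := fdiv (u := fun _ => (1 : ℝ)) (hasFDerivAt_const (1 : ℝ) z) h3 hpos.ne'
  refine (HasFDerivAt.congr_fderiv h4 ?_).congr_of_eventuallyEq h1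
  have e5 : ∑ j ∈ S, ((1 / R z j) • (0 : E →L[ℝ] ℝ) - (1 / R z j ^ 2) • R' j) =
      -∑ j ∈ S, (1 / R z j ^ 2) • R' j := by
    simp only [smul_zero, zero_sub, Finset.sum_neg_distrib]
  rw [e5, smul_zero, zero_sub, smul_neg, neg_neg, Finset.smul_sum]
  refine Finset.sum_congr rfl fun j hj => ?_
  rw [smul_smul, Hm_eq hp]
  have h5 := (hp j hj).ne'
  have h6 := hpos.ne'
  congr 1
  field_simp

/-! ### the boxes -/

/-- harmonic mean of the box. -/
def hh (d : ℝ) (z : Fin N → ℂ) (e : Fin D.nb) : ℝ := Hm (D.bx e).S (D.R d z)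

/-- derivative with respect to `R j`. -/
def hdd (d : ℝ) (z : Fin N → ℂ) (e : Fin D.nb) (j : Fin N) : ℝ := (hh D d z e / D.R d z j) ^ 2

/-- window. -/
def la (z : Fin N → ℂ) (e : Fin D.nb) (j : Fin N) : ℝ :=
  winN ((D.bx e).lo j) ((D.bx e).hi j) (tau z j)

/-- derivative of the window. -/
def lad (z : Fin N → ℂ) (e : Fin D.nb) (j : Fin N) : ℝ :=
  wdN ((D.bx e).lo j) ((D.bx e).hi j) (tau z j)

theorem Be_eq (d : ℝ) (z : Fin N → ℂ) (e : Fin D.nb) :
    D.Be d e z = hh D d z e * ∏ j ∈ (D.bx e).S, la D z e j := rfl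

theorem hh_nonneg (d : ℝ) (z : Fin N → ℂ) (e : Fin D.nb) : 0 ≤ hh D d z e := Hm_nonneg _ _

theorem hh_le (d : ℝ) (z : Fin N → ℂ) (e : Fin D.nb) {j : Fin N} (hj : j ∈ (D.bx e).S) :
    hh D d z e ≤ D.R d z j := Hm_le (RN_nonneg D d z) hj

/-- derivative of `hh`. -/
def dhh (d : ℝ) (z : Fin N → ℂ) (e : Fin D.nb) : (Fin N → ℂ) →L[ℝ] ℝ :=
  ∑ j ∈ (D.bx e).S, hdd D d z e j • dR (tw D) d z j

theorem S_nonempty (e : Fin D.nb) : (D.bx e).S.Nonempty := by
  rw [← card_pos]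
  have := D.h2 e
  omega

theorem hasFDerivAt_hh {d : ℝ} (hd : 0 < d) {z : Fin N → ℂ} (hz : z ≠ 0)
    {e : Fin D.nb} (ha : ∀ j ∈ (D.bx e).S, 0 < (z j).re) :
    HasFDerivAt (fun w => hh D d w e) (dhh D d z e) z := by
  by_cases h : ∀ j ∈ (D.bx e).S, 0 < D.R d z j
  · exact hasFDerivAt_Hm (S_nonempty D e) (fun j hj => hasFDerivAt_RN D hd hz (ha j hj)) h
  · push Not at h
    obtain ⟨j, hj, h1⟩ := h
    have h2 : D.R d z j = 0 := le_antisymm h1 (RN_nonneg D d z j)
    have h3 : hh D d z e = 0 := Hm_eq_zero hj h1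
    have h4 : dhh D d z e = 0 := by
      unfold dhh hdd
      rw [h3]
      simp
    have h5 : dR (tw D) d z j = 0 :=
      dR_of_R_eq_zero (tw D) hd (ha j hj) (by rw [tw_R]; exact h2)
    have h6 := hasFDerivAt_RN D hd hz (ha j hj)
    rw [h5] at h6
    rw [h4]
    exact hasFDerivAt_zero_of_le h6 h2 fun w => by
      rw [abs_of_nonneg (hh_nonneg D d w e)]
      exact hh_le D d w e hj

/-- derivative of the deletion of a box. -/
def dBe (d : ℝ) (z : Fin N → ℂ) (e : Fin D.nb) : (Fin N → ℂ) →L[ℝ] ℝ :=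
  open Classical in
  if ∀ j ∈ (D.bx e).S, 0 < (z j).re then
    (∏ j ∈ (D.bx e).S, la D z e j) • dhh D d z e +
      hh D d z e • ∑ j ∈ (D.bx e).S,
        ((∏ i ∈ (D.bx e).S.erase j, la D z e i) * lad D z e j) • dtau z j
  else 0

theorem winN_steep {m m' M : ℕ} (hm : m' ≤ M) {z : Fin N → ℂ} {j : Fin N} (h0 : 0 < (z j).re)
    (h : (16 * (M : ℝ) + 1) * (z j).re ≤ |(z j).im|) :
    winN m m' (tau z j) = 0 := by
  refine winN_far ?_
  unfold tau
  rw [abs_div, abs_of_pos h0, le_div_iff₀ h0]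
  have h1 : (m' : ℝ) ≤ M := by exact_mod_cast hm
  nlinarith

theorem Be_nhds {d : ℝ} (hd : 0 < d) {z : Fin N → ℂ} (hz : z ≠ 0)
    {e : Fin D.nb} {j : Fin N} (hj : j ∈ (D.bx e).S) (ha : (z j).re ≤ 0) :
    ∀ᶠ w in nhds z, D.Be d e w = 0 := by
  by_cases h : z j = 0
  · filter_upwards [chN_zero_nhds D hd hz h] with w hw
    rw [Be_eq]
    have : hh D d w e = 0 := by
      refine Hm_eq_zero hj ?_
      unfold SD.R
      rw [hw, zero_mul]
    rw [this, zero_mul]
  · have h1 : ∀ᶠ w : Fin N → ℂ in nhds z, (16 * (D.M j : ℝ) + 1) * (w j).re ≤ |(w j).im| :=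
      (continuous_apply j).continuousAt.eventually (farN_nhds ha h)
    filter_upwards [h1] with w hw
    rw [Be_eq]
    rcases le_or_gt (w j).re 0 with h2 | h2
    · have : hh D d w e = 0 := by
        refine Hm_eq_zero hj ?_
        unfold SD.R
        rw [max_eq_left h2, mul_zero]
      rw [this, zero_mul]
    · have : la D w e j = 0 := winN_steep (D.hhi e j hj) h2 hw
      rw [prod_eq_zero hj this, mul_zero]

theorem hasFDerivAt_Be {d : ℝ} (hd : 0 < d) {z : Fin N → ℂ} (hz : z ≠ 0)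
    (e : Fin D.nb) : HasFDerivAt (D.Be d e) (dBe D d z e) z := by
  classical
  by_cases h : ∀ j ∈ (D.bx e).S, 0 < (z j).re
  · have e0 : dBe D d z e = (∏ j ∈ (D.bx e).S, la D z e j) • dhh D d z e +
      hh D d z e • ∑ j ∈ (D.bx e).S,
        ((∏ i ∈ (D.bx e).S.erase j, la D z e i) * lad D z e j) • dtau z j := if_pos h
    rw [e0]
    have a1 : ∀ j ∈ (D.bx e).S, HasFDerivAt (fun w => la D w e j) (lad D z e j • dtau z j) z :=
      fun j hj => HasDerivAt.comp_hasFDerivAt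
        (h₂ := winN ((D.bx e).lo j) ((D.bx e).hi j)) (f := fun w => tau w j) z
        (hasDerivAt_winN _ _ (tau z j)) (hasFDerivAt_tauj (h j hj).ne')
    have a2 := HasFDerivAt.finsetProd a1
    have a3 := (hasFDerivAt_hh D hd hz h).mul a2
    refine HasFDerivAt.congr_fderiv a3 ?_
    ext w
    simp only [ContinuousLinearMap.add_apply, ContinuousLinearMap.smul_apply, smul_eq_mul,
      ContinuousLinearMap.sum_apply, mul_assoc]
    ring
  · have e0 : dBe D d z e = 0 := if_neg h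
    rw [e0]
    refine (hasFDerivAt_const (0 : ℝ) z).congr_of_eventuallyEq ?_
    push Not at h
    obtain ⟨j, hj, h1⟩ := h
    exact Be_nhds D hd hz hj h1

/-- the derivative of `G`. -/
def dG (cB ga d : ℝ) (z : Fin N → ℂ) : (Fin N → ℂ) →L[ℝ] ℂ :=
  ∑ j, dTN D ga d z j - ((cB * ga) • ∑ e, dBe D d z e).smulRight (1 : ℂ)

theorem hasFDerivAt_G (cB ga : ℝ) {d : ℝ} (hd : 0 < d) {z : Fin N → ℂ} (hz : z ≠ 0) :
    HasFDerivAt (D.G cB ga d) (dG D cB ga d z) z := by
  have a1 : HasFDerivAt (fun w : Fin N → ℂ => ∑ j, (D.ch d w j : ℂ) *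
      plN ga (D.sn j) (D.M j) (w j))
      (∑ j, dTN D ga d z j) z := HasFDerivAt.fun_sum fun j _ => hasFDerivAt_TN D ga hd hz j
  have a2 : HasFDerivAt (fun w : Fin N → ℂ => ∑ e, D.Be d e w)
      (∑ e, dBe D d z e) z := HasFDerivAt.fun_sum fun e _ => hasFDerivAt_Be D hd hz e
  have a3 := (a2.const_mul (cB * ga))
  have a4 := HasFDerivAt.comp z (Complex.ofRealCLM.hasFDerivAt (x := cB * ga *
    ∑ e, D.Be d e z)) a3
  refine HasFDerivAt.congr_fderiv (a1.sub a4) ?_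
  ext w
  simp [dG]

theorem fderiv_G (cB ga : ℝ) {d : ℝ} (hd : 0 < d) {z : Fin N → ℂ} (hz : z ≠ 0) :
    fderiv ℝ (D.G cB ga d) z = dG D cB ga d z := (hasFDerivAt_G D cB ga hd hz).fderiv

theorem dG_apply (cB ga d : ℝ) (z y : Fin N → ℂ) : dG D cB ga d z y =
    ∑ j, dTN D ga d z j y - ((cB * ga * ∑ e, dBe D d z e y : ℝ) : ℂ) := by
  simp [dG]

/-! ### region II -/

/-- `∂ (cB ga ∑ Be) / ∂ t_j`. -/
def tB (cB ga d : ℝ) (z : Fin N → ℂ) (j : Fin N) : ℝ :=
  cB * ga * ∑ e, (if j ∈ (D.bx e).S then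
    hh D d z e * (lad D z e j / (z j).re) * ∏ i ∈ (D.bx e).S.erase j, la D z e i else 0)

/-- `∂ (cB ga ∑ Be) / ∂ R_j`. -/
def HB (cB ga d : ℝ) (z : Fin N → ℂ) (j : Fin N) : ℝ :=
  cB * ga * ∑ e, (if j ∈ (D.bx e).S then (∏ i ∈ (D.bx e).S, la D z e i) * hdd D d z e j else 0)

variable {D}

/-- a steep variable has vanishing windows. -/
theorem la_steep {z : Fin N → ℂ} {e : Fin D.nb} {j : Fin N} (hj : j ∈ (D.bx e).S)
    (h0 : 0 < (z j).re) (hW : ¬ Wd (tw D) z j) : la D z e j = 0 ∧ lad D z e j = 0 := by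
  have h1 := le_K D j
  have h2 : (16 * (D.M j : ℝ) + 2) * (z j).re ≤ |(z j).im| := by
    unfold Wd at hW
    rw [not_le, abs_of_pos h0, tw_K] at hW
    nlinarith
  refine ⟨winN_steep (D.hhi e j hj) h0 (by nlinarith), ?_⟩
  by_contra h3
  have h4 : |tau z j| = |(z j).im| / (z j).re := by
    unfold tau
    rw [abs_div, abs_of_pos h0]
  have h5 : 16 * (D.M j : ℝ) + 2 ≤ |tau z j| := by
    rw [h4, le_div_iff₀ h0]
    exact h2
  have hhi : ((D.bx e).hi j : ℝ) ≤ D.M j := by exact_mod_cast D.hhi e j hj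
  have hM0 : (0 : ℝ) ≤ ((D.bx e).lo j : ℝ) := Nat.cast_nonneg _
  have hM1 : (0 : ℝ) ≤ ((D.bx e).hi j : ℝ) := Nat.cast_nonneg _
  rcases CalcN_88.wdN_ne h3 with ⟨h6, h7⟩ | h7
  · have h8 : ((D.bx e).lo j : ℝ) ≤ (D.bx e).hi j := by exact_mod_cast h6.le
    rw [abs_lt] at h7
    rcases le_abs.1 h5 with h9 | h9 <;> linarith
  · rw [abs_lt] at h7
    rcases le_abs.1 h5 with h9 | h9 <;> linarith

theorem hh_of_nonpos {d : ℝ} {z : Fin N → ℂ} {e : Fin D.nb} {j : Fin N} (hj : j ∈ (D.bx e).S)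
    (h0 : (z j).re ≤ 0) : hh D d z e = 0 := by
  refine Hm_eq_zero hj ?_
  unfold SD.R
  rw [max_eq_left h0, mul_zero]

/-- `∂ Be / ∂ t`. -/
theorem dBe_vt {z : Fin N → ℂ} (h : II (tw D) z) (d : ℝ) (e : Fin D.nb)
    (Y : Fin N → ℝ) : dBe D d z e (LD.vt Y) =
      ∑ j ∈ (D.bx e).S, hh D d z e * (lad D z e j / (z j).re) *
        (∏ i ∈ (D.bx e).S.erase j, la D z e i) * Y j := by
  classical
  by_cases hp : ∀ j ∈ (D.bx e).S, 0 < (z j).re
  · have e0 : dBe D d z e = (∏ j ∈ (D.bx e).S, la D z e j) • dhh D d z e +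
      hh D d z e • ∑ j ∈ (D.bx e).S,
        ((∏ i ∈ (D.bx e).S.erase j, la D z e i) * lad D z e j) • dtau z j := if_pos hp
    rw [e0]
    simp only [ContinuousLinearMap.add_apply, ContinuousLinearMap.smul_apply, smul_eq_mul,
      ContinuousLinearMap.sum_apply, dtau_apply, vt_im, vt_re]
    have e1 : (∏ j ∈ (D.bx e).S, la D z e j) * (dhh D d z e (LD.vt Y)) = 0 := by
      by_cases w1 : ∀ j ∈ (D.bx e).S, Wd (tw D) z j
      · have : dhh D d z e (LD.vt Y) = 0 := by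
          unfold dhh
          rw [ContinuousLinearMap.sum_apply]
          refine sum_eq_zero fun j hj => ?_
          rw [ContinuousLinearMap.smul_apply, h.dR_vt d (w1 j hj), smul_zero]
        rw [this, mul_zero]
      · push Not at w1
        obtain ⟨j, hj, hW⟩ := w1
        rw [prod_eq_zero hj (la_steep hj (hp j hj) hW).1, zero_mul]
    rw [e1, zero_add, mul_sum]
    refine sum_congr rfl fun j _ => ?_
    ring
  · have e0 : dBe D d z e = 0 := if_neg hp
    rw [e0]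
    push Not at hp
    obtain ⟨j, hj, h1⟩ := hp
    rw [hh_of_nonpos hj h1]
    simp

/-- the boxes along a vertical vector. -/
theorem sum_dBe_vt {z : Fin N → ℂ} (h : II (tw D) z) (cB ga d : ℝ) (j : Fin N) :
    cB * ga * ∑ e, dBe D d z e (LD.vt (Pi.single j (1 : ℝ))) = tB D cB ga d z j := by
  unfold tB
  congr 1
  refine sum_congr rfl fun e _ => ?_
  rw [dBe_vt h]
  have e1 : ∀ i ∈ (D.bx e).S, hh D d z e * (lad D z e i / (z i).re) *
        (∏ i ∈ (D.bx e).S.erase i, la D z e i) * (Pi.single j (1 : ℝ) : Fin N → ℝ) i =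
      if i = j then hh D d z e * (lad D z e j / (z j).re) *
        (∏ i ∈ (D.bx e).S.erase j, la D z e i) else 0 := by
    intro i _
    rw [Pi.single_apply]
    by_cases hi : i = j
    · subst hi
      rw [if_pos rfl, if_pos rfl, mul_one]
    · rw [if_neg hi, if_neg hi, mul_zero]
  rw [sum_congr rfl e1, sum_ite_eq']

/-- `∂ Be` along `(-1, …, -1)`. -/
theorem dBe_vs {z : Fin N → ℂ} (h : II (tw D) z) (hz : z ≠ 0) (d : ℝ)
    (e : Fin D.nb) : dBe D d z e (LD.vs 1 0) =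
      open Classical in
      ∑ j ∈ (D.bx e).S, (if 0 < (z j).re ∧ Wd (tw D) z j then
        -rho (tw D) d z j * ((∏ i ∈ (D.bx e).S, la D z e i) * hdd D d z e j) +
        tau z j * (hh D d z e * (lad D z e j / (z j).re) *
          ∏ i ∈ (D.bx e).S.erase j, la D z e i) else 0) := by
  classical
  by_cases hp : ∀ j ∈ (D.bx e).S, 0 < (z j).re
  · have e0 : dBe D d z e = (∏ j ∈ (D.bx e).S, la D z e j) • dhh D d z e +
      hh D d z e • ∑ j ∈ (D.bx e).S,
        ((∏ i ∈ (D.bx e).S.erase j, la D z e i) * lad D z e j) • dtau z j := if_pos hp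
    rw [e0]
    simp only [ContinuousLinearMap.add_apply, ContinuousLinearMap.smul_apply, smul_eq_mul,
      ContinuousLinearMap.sum_apply, dtau_apply, vs_im, vs_re, Pi.zero_apply, dhh]
    by_cases w1 : ∀ j ∈ (D.bx e).S, Wd (tw D) z j
    · rw [mul_sum, mul_sum, ← sum_add_distrib]
      refine sum_congr rfl fun j hj => ?_
      rw [h.dR_vs hz d (w1 j hj) (hp j hj), if_pos ⟨hp j hj, w1 j hj⟩]
      ring
    · push Not at w1
      obtain ⟨j0, hj0, hW⟩ := w1
      have h1 := la_steep hj0 (hp j0 hj0) hW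
      have h2 : ∏ j ∈ (D.bx e).S, la D z e j = 0 := prod_eq_zero hj0 h1.1
      rw [h2, zero_mul, zero_add, mul_sum]
      refine sum_congr rfl fun j hj => ?_
      by_cases hj2 : j = j0
      · subst hj2
        rw [h1.2, if_neg (fun hh => hW hh.2)]
        ring
      · have h3 : ∏ i ∈ (D.bx e).S.erase j, la D z e i = 0 :=
          prod_eq_zero (mem_erase.2 ⟨Ne.symm hj2, hj0⟩) h1.1
        rw [h3]
        split_ifs <;> ring
  · have e0 : dBe D d z e = 0 := if_neg hp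
    rw [e0]
    push Not at hp
    obtain ⟨j, hj, h1⟩ := hp
    symm
    refine sum_eq_zero fun i hi => ?_
    have h2 : hh D d z e = 0 := hh_of_nonpos hj h1
    have h3 : hdd D d z e i = 0 := by
      unfold hdd
      rw [h2]
      simp
    rw [h2, h3]
    split_ifs <;> ring

/-- the boxes along `(-1, …, -1)`. -/
theorem sum_dBe_vs {z : Fin N → ℂ} (h : II (tw D) z) (hz : z ≠ 0) (cB ga d : ℝ) :
    cB * ga * ∑ e, dBe D d z e (LD.vs 1 0) =
      open Classical in
      ∑ j, if 0 < (z j).re ∧ Wd (tw D) z j then -rho (tw D) d z j * HB D cB ga d z j +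
        tau z j * tB D cB ga d z j else 0 := by
  classical
  have e1 : ∀ j : Fin N, (if 0 < (z j).re ∧ Wd (tw D) z j then
        -rho (tw D) d z j * HB D cB ga d z j + tau z j * tB D cB ga d z j else 0) =
      cB * ga * ∑ e, (if j ∈ (D.bx e).S then (if 0 < (z j).re ∧ Wd (tw D) z j then
        -rho (tw D) d z j * ((∏ i ∈ (D.bx e).S, la D z e i) * hdd D d z e j) +
        tau z j * (hh D d z e * (lad D z e j / (z j).re) *
          ∏ i ∈ (D.bx e).S.erase j, la D z e i) else 0) else 0) := by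
    intro j
    by_cases hj : 0 < (z j).re ∧ Wd (tw D) z j
    · simp only [if_pos hj]
      unfold HB tB
      have : ∀ a b A B : ℝ, a * (cB * ga * A) + b * (cB * ga * B) = cB * ga * (a * A + b * B) := by
        intro a b A B; ring
      rw [this, mul_sum, mul_sum, ← sum_add_distrib]
      congr 1
      refine sum_congr rfl fun e _ => ?_
      by_cases a1 : j ∈ (D.bx e).S
      · rw [if_pos a1, if_pos a1, if_pos a1]
      · rw [if_neg a1, if_neg a1, if_neg a1]
        ring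
    · simp only [if_neg hj]
      simp
  rw [sum_congr rfl fun j _ => e1 j, ← mul_sum, sum_comm]
  congr 1
  refine sum_congr rfl fun e _ => ?_
  rw [dBe_vs h hz]
  simp only [sum_ite_mem, univ_inter]

end Crest.Agent.R267.Calc4N_867
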