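import Crest.Agent.R267.Calc3N_88

/-!
# Row 267, T3aN: derivative of the signed `G` and its values in the region II
-/

set_option autoImplicit false

noncomputable section

namespace Crest.Agent.R267.Calc4N_88

open Finset
open Crest.Agent.R267.T3aDefs_957 (st Af Bf pg NN chi)
open Crest.Agent.R267.T3aDefs_957.LD (vt vs)
open Crest.Agent.R267.T3aNDefs_88 Crest.Agent.R267.CalcN_88 Crest.Agent.R267.Calc3N_88
open Crest.Agent.R267.Calc2_957 Crest.Agent.R267.Calc_957
open Crest.Agent.R267.Calc3_957 (rej imj rej_apply imj_apply AA BB sr si sr_apply si_apply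
  AA_nonneg BB_nonneg re_sq_le_AA im_sq_le_BB AA_add_BB_ne dNN NN_pos NN_nonneg NN_sq
  sqrt_AA_le_NN NN_of_le hasFDerivAt_NN dNN_of_le chid hasDerivAt_chi chi_of_le chid_of_le
  chi_of_ge chid_of_ge chi_nonneg chi_le_one chi_pos lt_of_chi_ne chi_lt_one chid_nonneg chid_le
  mul_chid_le chid_mul_nonneg one_le_N pg_le_norm re_pos_nhds)
open Crest.Agent.R267.Calc4_957 (tau dtau dtau_apply hasFDerivAt_tauj hasFDerivAt_zero_of_le
  vt_re vt_im vs_re vs_im vt_eq_sum vs_eq S)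

variable {N : ℕ}

/-! ### the harmonic combination -/

section Hm

variable {ι : Type} {T : Finset ι} {R : ι → ℝ}

theorem Hm_of_pos (h : ∀ j ∈ T, 0 < R j) : Hm T R = 1 / ∑ j ∈ T, 1 / R j := by
  unfold Hm
  rw [if_pos h]

theorem Hm_of_nonpos {j : ι} (hj : j ∈ T) (h : R j ≤ 0) : Hm T R = 0 := by
  unfold Hm
  rw [if_neg fun h1 => absurd (h1 j hj) (not_lt.2 h)]

theorem Hm_nonneg : 0 ≤ Hm T R := by
  unfold Hm
  split_ifs with h
  · exact div_nonneg zero_le_one (sum_nonneg fun j hj => (div_pos one_pos (h j hj)).le)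
  · exact le_refl _

theorem Hm_le {j : ι} (hj : j ∈ T) (h : 0 ≤ R j) : Hm T R ≤ R j := by
  unfold Hm
  split_ifs with h1
  · have h2 : 1 / R j ≤ ∑ i ∈ T, 1 / R i :=
      single_le_sum (f := fun i => 1 / R i) (fun i hi => (div_pos one_pos (h1 i hi)).le) hj
    have h3 : 0 < 1 / R j := div_pos one_pos (h1 j hj)
    calc 1 / ∑ i ∈ T, 1 / R i ≤ 1 / (1 / R j) := one_div_le_one_div_of_le h3 h2
      _ = R j := one_div_one_div _
  · exact h

theorem pos_of_Hm (h : 0 < Hm T R) : ∀ j ∈ T, 0 < R j := by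
  intro j hj
  by_contra h1
  rw [Hm_of_nonpos hj (not_lt.1 h1)] at h
  exact lt_irrefl _ h

theorem Hm_pos (hT : T.Nonempty) (h : ∀ j ∈ T, 0 < R j) : 0 < Hm T R := by
  rw [Hm_of_pos h]
  exact div_pos one_pos (sum_pos (fun j hj => div_pos one_pos (h j hj)) hT)

/-- the product form of the harmonic combination. -/
theorem Hm_eq [DecidableEq ι] (h : ∀ j ∈ T, 0 ≤ R j) :
    Hm T R = (∏ j ∈ T, R j) / ∑ i ∈ T, ∏ j ∈ T.erase i, R j := by
  by_cases h1 : ∀ j ∈ T, 0 < R j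
  · rw [Hm_of_pos h1]
    have hP : (∏ j ∈ T, R j) ≠ 0 := prod_ne_zero_iff.2 fun j hj => (h1 j hj).ne'
    have h2 : ∑ i ∈ T, ∏ j ∈ T.erase i, R j = (∏ j ∈ T, R j) * ∑ i ∈ T, 1 / R i := by
      rw [mul_sum]
      refine sum_congr rfl fun i hi => ?_
      have h3 := mul_prod_erase T R hi
      have h4 := (h1 i hi).ne'
      rw [← h3]
      field_simp
    rw [h2]
    field_simp
  · push Not at h1
    obtain ⟨j, hj, h2⟩ := h1
    rw [Hm_of_nonpos hj h2, prod_eq_zero hj (le_antisymm h2 (h j hj)), zero_div]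

/-- Cauchy–Schwarz for the weights `H / R j`, which have sum `1`. -/
theorem Hm_sum_sq {n : ℝ} (hn : (T.card : ℝ) ≤ n) (h : 0 < Hm T R) :
    1 / n ≤ ∑ j ∈ T, (Hm T R / R j) ^ 2 := by
  have h1 := pos_of_Hm h
  have h2 : ∑ j ∈ T, Hm T R / R j = 1 := by
    have h3 : ∑ j ∈ T, Hm T R / R j = Hm T R * ∑ j ∈ T, 1 / R j := by
      rw [mul_sum]
      exact sum_congr rfl fun j _ => by ring
    rw [h3]
    have h4 : Hm T R = 1 / ∑ j ∈ T, 1 / R j := Hm_of_pos h1
    have h5 : ∑ j ∈ T, 1 / R j ≠ 0 := by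
      intro h6
      rw [h6, div_zero] at h4
      exact h.ne' h4
    rw [h4]
    field_simp
  have h3 := sq_sum_le_card_mul_sum_sq (s := T) (f := fun j => Hm T R / R j)
  rw [h2] at h3
  have h4 : 0 ≤ ∑ j ∈ T, (Hm T R / R j) ^ 2 := sum_nonneg fun _ _ => sq_nonneg _
  have h5 : (1 : ℝ) ≤ n * ∑ j ∈ T, (Hm T R / R j) ^ 2 := by
    have := mul_le_mul_of_nonneg_right hn h4
    linarith
  have h6 : 0 < n := by
    by_contra h7
    have := mul_nonpos_of_nonpos_of_nonneg (not_lt.1 h7) h4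
    linarith
  rw [div_le_iff₀ h6]
  linarith

end Hm

section D

variable (D : SD N)

/-- harmonic combination of the box `e`. -/
def hh (d : ℝ) (z : Fin N → ℂ) (e : Fin D.nb) : ℝ := Hm (D.bx e).S (D.R d z)

/-- `∂ hh / ∂ R j`. -/
def hd (d : ℝ) (z : Fin N → ℂ) (e : Fin D.nb) (j : Fin N) : ℝ := (hh D d z e / D.R d z j) ^ 2

/-- window of the variable `j` in the box `e`. -/
def la (z : Fin N → ℂ) (e : Fin D.nb) (j : Fin N) : ℝ :=
  winN ((D.bx e).lo j) ((D.bx e).hi j) (tau z j)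

/-- its derivative. -/
def lad (z : Fin N → ℂ) (e : Fin D.nb) (j : Fin N) : ℝ :=
  wdN ((D.bx e).lo j) ((D.bx e).hi j) (tau z j)

/-- product of the windows of a box. -/
def Pw (z : Fin N → ℂ) (e : Fin D.nb) : ℝ := ∏ j ∈ (D.bx e).S, la D z e j

/-- product of the windows of a box without the variable `j`. -/
def Pe (z : Fin N → ℂ) (e : Fin D.nb) (j : Fin N) : ℝ := ∏ i ∈ (D.bx e).S.erase j, la D z e i

theorem Be_eq (d : ℝ) (z : Fin N → ℂ) (e : Fin D.nb) :
    D.Be d e z = hh D d z e * Pw D z e := rfl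

theorem hh_nonneg (d : ℝ) (z : Fin N → ℂ) (e : Fin D.nb) : 0 ≤ hh D d z e := Hm_nonneg

theorem hd_nonneg (d : ℝ) (z : Fin N → ℂ) (e : Fin D.nb) (j : Fin N) : 0 ≤ hd D d z e j :=
  sq_nonneg _

theorem hh_le {e : Fin D.nb} {j : Fin N} (hj : j ∈ (D.bx e).S) (d : ℝ) (z : Fin N → ℂ) :
    hh D d z e ≤ D.R d z j := Hm_le hj (R_nonneg D d z j)

theorem hd_le_one {e : Fin D.nb} {j : Fin N} (hj : j ∈ (D.bx e).S) (d : ℝ) (z : Fin N → ℂ) :
    hd D d z e j ≤ 1 := by
  unfold hd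
  have h1 := hh_nonneg D d z e
  have h2 := hh_le D hj d z
  have h3 := R_nonneg D d z j
  have h4 : 0 ≤ hh D d z e / D.R d z j := div_nonneg h1 h3
  have h5 : hh D d z e / D.R d z j ≤ 1 := div_le_one_of_le₀ h2 h3
  nlinarith

/-- **Cauchy–Schwarz**: the derivatives of the harmonic combination have sum at least `1/N`. -/
theorem h12 {d : ℝ} {z : Fin N → ℂ} {e : Fin D.nb} (h : 0 < hh D d z e) :
    1 / (N : ℝ) ≤ ∑ j ∈ (D.bx e).S, hd D d z e j := by
  refine Hm_sum_sq ?_ h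
  have := card_le_univ (D.bx e).S
  rw [Fintype.card_fin] at this
  exact_mod_cast this

theorem la_nonneg (z : Fin N → ℂ) (e : Fin D.nb) (j : Fin N) : 0 ≤ la D z e j := winN_nonneg _ _ _

theorem la_le_one (z : Fin N → ℂ) (e : Fin D.nb) (j : Fin N) : la D z e j ≤ 1 := winN_le_one _ _ _

theorem abs_lad_le (z : Fin N → ℂ) (e : Fin D.nb) (j : Fin N) : |lad D z e j| ≤ 1 :=
  abs_wdN_le _ _ _

theorem Pw_nonneg (z : Fin N → ℂ) (e : Fin D.nb) : 0 ≤ Pw D z e :=
  prod_nonneg fun j _ => la_nonneg D z e j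

theorem Pw_le_one (z : Fin N → ℂ) (e : Fin D.nb) : Pw D z e ≤ 1 :=
  prod_le_one (fun j _ => la_nonneg D z e j) fun j _ => la_le_one D z e j

theorem Pe_nonneg (z : Fin N → ℂ) (e : Fin D.nb) (j : Fin N) : 0 ≤ Pe D z e j :=
  prod_nonneg fun j _ => la_nonneg D z e j

theorem Pe_le_one (z : Fin N → ℂ) (e : Fin D.nb) (j : Fin N) : Pe D z e j ≤ 1 :=
  prod_le_one (fun j _ => la_nonneg D z e j) fun j _ => la_le_one D z e j

theorem Pw_eq {z : Fin N → ℂ} {e : Fin D.nb} {j : Fin N} (hj : j ∈ (D.bx e).S) :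
    Pw D z e = la D z e j * Pe D z e j := (mul_prod_erase _ _ hj).symm

theorem Pw_of_la {z : Fin N → ℂ} {e : Fin D.nb} {j : Fin N} (hj : j ∈ (D.bx e).S)
    (h : la D z e j = 0) : Pw D z e = 0 := prod_eq_zero hj h

theorem Pe_of_la {z : Fin N → ℂ} {e : Fin D.nb} {i j : Fin N} (hi : i ∈ (D.bx e).S) (hij : i ≠ j)
    (h : la D z e i = 0) : Pe D z e j = 0 := prod_eq_zero (mem_erase.2 ⟨hij, hi⟩) h

theorem wdN_far {m m' : ℕ} {τ : ℝ} (h : 16 * (m' : ℝ) + 1 ≤ |τ|) : wdN m m' τ = 0 := by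
  by_contra h1
  have hm : (0 : ℝ) ≤ m := m.cast_nonneg
  have hm' : (0 : ℝ) ≤ m' := m'.cast_nonneg
  have key : ∀ x : ℝ, 0 ≤ x → |τ| - x ≤ |τ - x| := by
    intro x hx
    have := abs_sub_abs_le_abs_sub τ x
    rwa [abs_of_nonneg hx] at this
  rcases wdN_ne h1 with ⟨h2, h3⟩ | h3
  · have h4 : (m : ℝ) + 1 ≤ m' := by exact_mod_cast h2
    have := key (16 * m) (by positivity)
    linarith
  · have := key (16 * m') (by positivity)
    linarith

/-- steep variables are outside of all windows. -/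
theorem win_far {m m' M : ℕ} (hm : m' ≤ M) {z : Fin N → ℂ} {j : Fin N} (h0 : 0 < (z j).re)
    (h : (16 * (M : ℝ) + 1) * (z j).re ≤ |(z j).im|) :
    winN m m' (tau z j) = 0 ∧ wdN m m' (tau z j) = 0 := by
  have h1 : (m' : ℝ) ≤ M := by exact_mod_cast hm
  have h2 : 16 * (m' : ℝ) + 1 ≤ |tau z j| := by
    unfold tau
    rw [abs_div, abs_of_pos h0, le_div_iff₀ h0]
    nlinarith
  exact ⟨winN_far h2, wdN_far h2⟩

/-- derivative of `hh`. -/
def dhh (d : ℝ) (z : Fin N → ℂ) (e : Fin D.nb) : (Fin N → ℂ) →L[ℝ] ℝ :=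
  ∑ j ∈ (D.bx e).S, hd D d z e j • dR D d z j

theorem hasFDerivAt_hh {d : ℝ} (hd0 : 0 < d) {z : Fin N → ℂ} (hz : z ≠ 0) {e : Fin D.nb}
    (ha : ∀ j ∈ (D.bx e).S, 0 < (z j).re) :
    HasFDerivAt (fun w => hh D d w e) (dhh D d z e) z := by
  by_cases h : ∀ j ∈ (D.bx e).S, 0 < D.R d z j
  · have h1 : ∀ᶠ w in nhds z, ∀ j ∈ (D.bx e).S, 0 < D.R d w j := by
      rw [Filter.eventually_all_finset]
      intro j hj
      exact (hasFDerivAt_R D hd0 hz (ha j hj)).continuousAt.eventually (lt_mem_nhds (h j hj))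
    have h2 : (fun w => hh D d w e) =ᶠ[nhds z] fun w => (∑ j ∈ (D.bx e).S, (D.R d w j)⁻¹)⁻¹ := by
      filter_upwards [h1] with w hw
      unfold hh
      rw [Hm_of_pos hw, one_div]
      congr 1
      exact sum_congr rfl fun j _ => one_div _
    have h3 : HasFDerivAt (fun w => ∑ j ∈ (D.bx e).S, (D.R d w j)⁻¹)
        (∑ j ∈ (D.bx e).S, (-((D.R d z j) ^ 2)⁻¹) • dR D d z j) z := by
      refine HasFDerivAt.fun_sum fun j hj => ?_
      exact (hasDerivAt_inv (h j hj).ne').comp_hasFDerivAt z (hasFDerivAt_R D hd0 hz (ha j hj))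
    have h4 : 0 < ∑ j ∈ (D.bx e).S, (D.R d z j)⁻¹ := by
      refine sum_pos (fun j hj => inv_pos.2 (h j hj)) ?_
      have := D.h2 e
      exact card_pos.1 (by omega)
    have h5 := (hasDerivAt_inv h4.ne').comp_hasFDerivAt z h3
    refine HasFDerivAt.congr_of_eventuallyEq ?_ h2
    refine HasFDerivAt.congr_fderiv h5 ?_
    unfold dhh
    rw [smul_sum]
    refine sum_congr rfl fun j hj => ?_
    rw [smul_smul]
    congr 1
    have h6 : hh D d z e = (∑ j ∈ (D.bx e).S, (D.R d z j)⁻¹)⁻¹ := by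
      unfold hh
      rw [Hm_of_pos h, one_div]
      congr 1
      exact sum_congr rfl fun j _ => one_div _
    unfold hd
    rw [h6, div_pow, inv_pow]
    rw [neg_mul_neg]
    rfl
  · push Not at h
    obtain ⟨j, hj, h1⟩ := h
    have h2 : D.R d z j = 0 := le_antisymm h1 (R_nonneg D d z j)
    have h3 := dR_of_R_eq_zero D hd0 (ha j hj) h2
    have h4 : hh D d z e = 0 := Hm_of_nonpos hj h1
    have e0 : dhh D d z e = 0 := by
      unfold dhh
      refine sum_eq_zero fun i _ => ?_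
      unfold hd
      rw [h4, zero_div, zero_pow two_ne_zero, zero_smul]
    rw [e0]
    have hR := hasFDerivAt_R D hd0 hz (ha j hj)
    rw [h3] at hR
    exact hasFDerivAt_zero_of_le hR h2 fun w => by
      rw [abs_of_nonneg (hh_nonneg D d w e)]
      exact hh_le D hj d w

/-- derivative of the product of the windows. -/
def dPw (z : Fin N → ℂ) (e : Fin D.nb) : (Fin N → ℂ) →L[ℝ] ℝ :=
  ∑ j ∈ (D.bx e).S, (Pe D z e j * lad D z e j) • dtau z j

theorem hasFDerivAt_Pw {z : Fin N → ℂ} {e : Fin D.nb} (ha : ∀ j ∈ (D.bx e).S, 0 < (z j).re) :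
    HasFDerivAt (fun w => Pw D w e) (dPw D z e) z := by
  have h1 : ∀ j ∈ (D.bx e).S, HasFDerivAt (fun w => la D w e j) (lad D z e j • dtau z j) z :=
    fun j hj => (hasDerivAt_winN _ _ (tau z j)).comp_hasFDerivAt z
      (hasFDerivAt_tauj (ha j hj).ne')
  have h2 := HasFDerivAt.finset_prod h1
  refine HasFDerivAt.congr_fderiv h2 ?_
  unfold dPw
  refine sum_congr rfl fun j _ => ?_
  rw [smul_smul]
  rfl

/-- derivative of a deletion term. -/
def dBe (d : ℝ) (z : Fin N → ℂ) (e : Fin D.nb) : (Fin N → ℂ) →L[ℝ] ℝ :=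
  open Classical in
  if ∀ j ∈ (D.bx e).S, 0 < (z j).re then Pw D z e • dhh D d z e + hh D d z e • dPw D z e else 0

theorem Be_nhds {d : ℝ} (hd0 : 0 < d) {z : Fin N → ℂ} (hz : z ≠ 0) {e : Fin D.nb} {j : Fin N}
    (hj : j ∈ (D.bx e).S) (ha : (z j).re ≤ 0) : ∀ᶠ w in nhds z, D.Be d e w = 0 := by
  by_cases h : z j = 0
  · filter_upwards [ch_zero_nhds D hd0 hz h] with w hw
    have h1 : hh D d w e = 0 := by
      refine Hm_of_nonpos hj ?_
      unfold SD.R
      rw [hw, zero_mul]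
    rw [Be_eq, h1, zero_mul]
  · have h1 : ∀ᶠ w : Fin N → ℂ in nhds z, (16 * (D.M j : ℝ) + 1) * (w j).re ≤ |(w j).im| :=
      (continuous_apply j).continuousAt.eventually (farN_nhds ha h)
    filter_upwards [h1] with w hw
    rcases le_or_gt (w j).re 0 with h2 | h2
    · have h3 : hh D d w e = 0 := by
        refine Hm_of_nonpos hj ?_
        rw [R_of_nonpos D h2]
      rw [Be_eq, h3, zero_mul]
    · rw [Be_eq, Pw_of_la D hj (win_far (D.hhi e j hj) h2 hw).1, mul_zero]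

theorem hasFDerivAt_Be {d : ℝ} (hd0 : 0 < d) {z : Fin N → ℂ} (hz : z ≠ 0) (e : Fin D.nb) :
    HasFDerivAt (D.Be d e) (dBe D d z e) z := by
  classical
  by_cases h : ∀ j ∈ (D.bx e).S, 0 < (z j).re
  · have e0 : dBe D d z e = Pw D z e • dhh D d z e + hh D d z e • dPw D z e := if_pos h
    rw [e0]
    have a3 := (hasFDerivAt_hh D hd0 hz h).mul (hasFDerivAt_Pw D h)
    refine HasFDerivAt.congr_fderiv a3 ?_
    ext w
    simp
    ring
  · have e0 : dBe D d z e = 0 := if_neg h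
    rw [e0]
    refine (hasFDerivAt_const (0 : ℝ) z).congr_of_eventuallyEq ?_
    push Not at h
    obtain ⟨j, hj, h1⟩ := h
    exact Be_nhds D hd0 hz hj h1

/-- the derivative of `G`. -/
def dG (cB ga d : ℝ) (z : Fin N → ℂ) : (Fin N → ℂ) →L[ℝ] ℂ :=
  ∑ j, dT D ga d z j - ((cB * ga) • ∑ e, dBe D d z e).smulRight (1 : ℂ)

theorem hasFDerivAt_G (cB ga : ℝ) {d : ℝ} (hd0 : 0 < d) {z : Fin N → ℂ} (hz : z ≠ 0) :
    HasFDerivAt (D.G cB ga d) (dG D cB ga d z) z := by
  have a1 : HasFDerivAt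
      (fun w : Fin N → ℂ => ∑ j, (D.ch d w j : ℂ) * plN ga (D.sn j) (D.M j) (w j))
      (∑ j, dT D ga d z j) z := HasFDerivAt.fun_sum fun j _ => hasFDerivAt_T D ga hd0 hz j
  have a2 : HasFDerivAt (fun w : Fin N → ℂ => ∑ e, D.Be d e w)
      (∑ e, dBe D d z e) z := HasFDerivAt.fun_sum fun e _ => hasFDerivAt_Be D hd0 hz e
  have a3 := (a2.const_mul (cB * ga))
  have a4 := HasFDerivAt.comp z (Complex.ofRealCLM.hasFDerivAt (x := cB * ga *
    ∑ e, D.Be d e z)) a3
  refine HasFDerivAt.congr_fderiv (a1.sub a4) ?_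
  ext w
  simp [dG]

theorem fderiv_G (cB ga : ℝ) {d : ℝ} (hd0 : 0 < d) {z : Fin N → ℂ} (hz : z ≠ 0) :
    fderiv ℝ (D.G cB ga d) z = dG D cB ga d z := (hasFDerivAt_G D cB ga hd0 hz).fderiv

theorem dG_apply (cB ga d : ℝ) (z y : Fin N → ℂ) : dG D cB ga d z y =
    ∑ j, dT D ga d z j y - ((cB * ga * ∑ e, dBe D d z e y : ℝ) : ℂ) := by
  simp [dG]

/-! ### region II -/

/-- the region II. -/
def II (z : Fin N → ℂ) : Prop := BB z ≤ D.K1 ^ 2 * AA z

variable {D}

theorem II.NN {z : Fin N → ℂ} (h : II D z) : NN D.K1 z = √(AA z) := NN_of_le h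

theorem II.dxr_vt {z : Fin N → ℂ} (h : II D z) (j : Fin N) (Y : Fin N → ℝ) :
    dxr D z j (vt Y) = pt D.K (z j) * Y j / √(AA z) := by
  unfold dxr
  simp only [ContinuousLinearMap.sub_apply, ContinuousLinearMap.smul_apply, smul_eq_mul,
    ContinuousLinearMap.add_apply, rej_apply, imj_apply, vt_re, vt_im]
  rw [dNN_of_le h, h.NN, sr_apply]
  simp only [vt_re, mul_zero, sum_const_zero]
  ring

theorem II.dxr_vs {z : Fin N → ℂ} (h : II D z) (j : Fin N) (a : ℝ) (Y : Fin N → ℝ) :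
    dxr D z j (vs a Y) = (-(a * ps D.K (z j)) + pt D.K (z j) * Y j + a * (D.xr z j * S z)) /
      √(AA z) := by
  unfold dxr
  simp only [ContinuousLinearMap.sub_apply, ContinuousLinearMap.smul_apply, smul_eq_mul,
    ContinuousLinearMap.add_apply, rej_apply, imj_apply, vs_re, vs_im]
  rw [dNN_of_le h, h.NN, sr_apply]
  simp only [vs_re, ← sum_mul]
  unfold S
  ring

/-- a coordinate is a window coordinate if it is not steep. -/
def Wd (D : SD N) (z : Fin N → ℂ) (j : Fin N) : Prop := |(z j).im| ≤ D.K * |(z j).re|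

variable (D)

/-- `∂ (cB ga ∑ Be) / ∂ t_j`. -/
def tB (cB ga d : ℝ) (z : Fin N → ℂ) (j : Fin N) : ℝ :=
  open Classical in
  cB * ga * ∑ e, if j ∈ (D.bx e).S then
    hh D d z e * (lad D z e j / (z j).re * Pe D z e j) else 0

/-- `∂ (cB ga ∑ Be) / ∂ R_j`. -/
def HB (cB ga d : ℝ) (z : Fin N → ℂ) (j : Fin N) : ℝ :=
  open Classical in
  cB * ga * ∑ e, if j ∈ (D.bx e).S then Pw D z e * hd D d z e j else 0

/-- `- ∂ R_j` along `(-1, …, -1)`. -/
def rho (d : ℝ) (z : Fin N → ℂ) (j : Fin N) : ℝ :=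
  D.ch d z j + D.xr z j * chid d (D.xr z j) - D.xr z j ^ 2 * chid d (D.xr z j) * S z

variable {D}

/-- a steep variable has vanishing windows. -/
theorem win_steep {m m' : ℕ} {z : Fin N → ℂ} {j : Fin N} (hm : m' ≤ D.M j) (h0 : 0 < (z j).re)
    (hW : ¬ Wd D z j) : winN m m' (tau z j) = 0 ∧ wdN m m' (tau z j) = 0 := by
  refine win_far hm h0 ?_
  have h1 := le_K D j
  unfold Wd at hW
  rw [not_le, abs_of_pos h0] at hW
  nlinarith

theorem steep {z : Fin N → ℂ} {e : Fin D.nb} {j : Fin N} (hj : j ∈ (D.bx e).S)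
    (h0 : 0 < (z j).re) (hW : ¬ Wd D z j) : la D z e j = 0 ∧ lad D z e j = 0 :=
  win_steep (D.hhi e j hj) h0 hW

theorem II.dch_vt_W {z : Fin N → ℂ} (h : II D z) (d : ℝ) {j : Fin N} (hW : Wd D z j)
    (Y : Fin N → ℝ) : dch D d z j (vt Y) = 0 := by
  have h1 : dch D d z j (vt Y) = chid d (D.xr z j) * dxr D z j (vt Y) := rfl
  rw [h1, h.dxr_vt, pt_of_le (K_nonneg D) hW]
  simp

theorem II.dch_vt {z : Fin N → ℂ} (h : II D z) (d : ℝ) (j : Fin N)
    (Y : Fin N → ℝ) : dch D d z j (vt Y) =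
      chid d (D.xr z j) * (pt D.K (z j) / √(AA z)) * Y j := by
  have h1 : dch D d z j (vt Y) = chid d (D.xr z j) * dxr D z j (vt Y) := rfl
  rw [h1, h.dxr_vt]
  ring

theorem II.dch_vs {z : Fin N → ℂ} (h : II D z) (d : ℝ) (j : Fin N) :
    dch D d z j (vs 1 0) =
      chid d (D.xr z j) * (-ps D.K (z j) + D.xr z j * S z) / √(AA z) := by
  have h1 : dch D d z j (vs 1 0) = chid d (D.xr z j) * dxr D z j (vs 1 0) := rfl
  rw [h1, h.dxr_vs]
  simp only [Pi.zero_apply]
  ring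

/-- in the region II `s ≠ 0`. -/
theorem II.AA_pos {z : Fin N → ℂ} (h : II D z) (hz : z ≠ 0) : 0 < AA z := by
  refine lt_of_le_of_ne (AA_nonneg z) fun h0 => AA_add_BB_ne hz ?_
  unfold II at h
  rw [← h0, mul_zero] at h
  rw [← h0, le_antisymm h (BB_nonneg z), add_zero]

theorem II.sqrt_pos {z : Fin N → ℂ} (h : II D z) (hz : z ≠ 0) : 0 < √(AA z) :=
  Real.sqrt_pos.2 (h.AA_pos hz)

theorem II.xr_W {z : Fin N → ℂ} (h : II D z) {j : Fin N} (hW : Wd D z j) :
    D.xr z j = |(z j).re| / √(AA z) := by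
  unfold SD.xr
  rw [h.NN, pg_of_le (K_nonneg D) hW]

theorem II.dR_vs {z : Fin N → ℂ} (h : II D z) (hz : z ≠ 0) (d : ℝ) {j : Fin N} (hW : Wd D z j)
    (hj : 0 < (z j).re) : dR D d z j (vs 1 0) = -rho D d z j := by
  have h0 := (h.sqrt_pos hz).ne'
  rw [dR_apply, h.dch_vs, ps_of_le (K_nonneg D) hW, vs_re, abs_of_pos hj, div_self hj.ne']
  unfold rho
  have h1 : D.xr z j = (z j).re / √(AA z) := by rw [h.xr_W hW, abs_of_pos hj]
  have h2 : (z j).re = D.xr z j * √(AA z) := by rw [h1]; field_simp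
  rw [h2]
  field_simp
  ring

theorem II.dR_vt {z : Fin N → ℂ} (h : II D z) (d : ℝ) {j : Fin N} (hW : Wd D z j)
    (Y : Fin N → ℝ) : dR D d z j (vt Y) = 0 := by
  rw [dR_apply, h.dch_vt_W d hW, vt_re]
  ring

theorem hh_of_nonpos {d : ℝ} {z : Fin N → ℂ} {e : Fin D.nb} {j : Fin N} (hj : j ∈ (D.bx e).S)
    (h0 : (z j).re ≤ 0) : hh D d z e = 0 := by
  refine Hm_of_nonpos hj ?_
  rw [R_of_nonpos D h0]

/-- `∂ Be / ∂ t`. -/
theorem II.dBe_vt {z : Fin N → ℂ} (h : II D z) (d : ℝ) (e : Fin D.nb)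
    (Y : Fin N → ℝ) : dBe D d z e (vt Y) =
      ∑ j ∈ (D.bx e).S, hh D d z e * (lad D z e j / (z j).re * Pe D z e j) * Y j := by
  classical
  by_cases hp : ∀ j ∈ (D.bx e).S, 0 < (z j).re
  · have e0 : dBe D d z e = Pw D z e • dhh D d z e + hh D d z e • dPw D z e := if_pos hp
    rw [e0]
    have e1 : Pw D z e * dhh D d z e (vt Y) = 0 := by
      by_cases w1 : ∀ j ∈ (D.bx e).S, Wd D z j
      · have : dhh D d z e (vt Y) = 0 := by
          unfold dhh
          rw [ContinuousLinearMap.sum_apply]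
          refine sum_eq_zero fun j hj => ?_
          rw [ContinuousLinearMap.smul_apply, h.dR_vt d (w1 j hj), smul_zero]
        rw [this, mul_zero]
      · push Not at w1
        obtain ⟨j, hj, hW⟩ := w1
        rw [Pw_of_la D hj (steep hj (hp j hj) hW).1, zero_mul]
    rw [ContinuousLinearMap.add_apply, ContinuousLinearMap.smul_apply,
      ContinuousLinearMap.smul_apply, smul_eq_mul, smul_eq_mul, e1, zero_add]
    unfold dPw
    rw [ContinuousLinearMap.sum_apply, mul_sum]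
    refine sum_congr rfl fun j _ => ?_
    rw [ContinuousLinearMap.smul_apply, smul_eq_mul, dtau_apply, vt_im, vt_re]
    ring
  · have e0 : dBe D d z e = 0 := if_neg hp
    rw [e0]
    push Not at hp
    obtain ⟨j, hj, h1⟩ := hp
    rw [hh_of_nonpos hj h1]
    simp

/-- the deletions along a vertical vector. -/
theorem II.sum_dBe_vt {z : Fin N → ℂ} (h : II D z) (cB ga d : ℝ) (j : Fin N) :
    cB * ga * ∑ e, dBe D d z e (vt (Pi.single j (1 : ℝ))) = tB D cB ga d z j := by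
  classical
  unfold tB
  congr 1
  refine sum_congr rfl fun e _ => ?_
  rw [h.dBe_vt]
  simp only [Pi.single_apply, mul_ite, mul_one, mul_zero]
  rw [sum_ite_eq' (D.bx e).S j]

/-- `∂ Be` along `(-1, …, -1)`. -/
theorem II.dBe_vs {z : Fin N → ℂ} (h : II D z) (hz : z ≠ 0) (d : ℝ)
    (e : Fin D.nb) : dBe D d z e (vs 1 0) =
      open Classical in
      ∑ j ∈ (D.bx e).S, if 0 < (z j).re ∧ Wd D z j then
        -rho D d z j * (Pw D z e * hd D d z e j) +
          tau z j * (hh D d z e * (lad D z e j / (z j).re * Pe D z e j)) else 0 := by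
  classical
  by_cases hp : ∀ j ∈ (D.bx e).S, 0 < (z j).re
  · have e0 : dBe D d z e = Pw D z e • dhh D d z e + hh D d z e • dPw D z e := if_pos hp
    rw [e0, ContinuousLinearMap.add_apply, ContinuousLinearMap.smul_apply,
      ContinuousLinearMap.smul_apply, smul_eq_mul, smul_eq_mul]
    unfold dPw dhh
    rw [ContinuousLinearMap.sum_apply, ContinuousLinearMap.sum_apply, mul_sum, mul_sum,
      ← sum_add_distrib]
    refine sum_congr rfl fun j hj => ?_
    rw [ContinuousLinearMap.smul_apply, ContinuousLinearMap.smul_apply, smul_eq_mul, smul_eq_mul,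
      dtau_apply, vs_im, vs_re]
    simp only [Pi.zero_apply]
    by_cases w1 : ∀ j ∈ (D.bx e).S, Wd D z j
    · rw [h.dR_vs hz d (w1 j hj) (hp j hj), if_pos ⟨hp j hj, w1 j hj⟩]
      ring
    · push Not at w1
      obtain ⟨i, hi, hW⟩ := w1
      obtain ⟨s1, s2⟩ := steep hi (hp i hi) hW
      have p0 : Pw D z e = 0 := Pw_of_la D hi s1
      have p1 : Pe D z e j * lad D z e j = 0 := by
        by_cases hij : i = j
        · rw [← hij, s2, mul_zero]
        · rw [Pe_of_la D hi hij s1, zero_mul]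
      rw [p0, p1]
      split_ifs
      · have : tau z j * (hh D d z e * (lad D z e j / (z j).re * Pe D z e j)) =
            tau z j * (hh D d z e * ((Pe D z e j * lad D z e j) / (z j).re)) := by ring
        rw [this, p1]
        ring
      · ring
  · have e0 : dBe D d z e = 0 := if_neg hp
    rw [e0]
    push Not at hp
    obtain ⟨j, hj, h1⟩ := hp
    have h2 : hh D d z e = 0 := hh_of_nonpos hj h1
    rw [ContinuousLinearMap.zero_apply]
    symm
    refine sum_eq_zero fun i _ => ?_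
    have h3 : hd D d z e i = 0 := by
      unfold hd
      rw [h2, zero_div, zero_pow two_ne_zero]
    rw [h2, h3]
    simp

/-- the deletions along `(-1, …, -1)`. -/
theorem II.sum_dBe_vs {z : Fin N → ℂ} (h : II D z) (hz : z ≠ 0) (cB ga d : ℝ) :
    cB * ga * ∑ e, dBe D d z e (vs 1 0) =
      open Classical in
      ∑ j, if 0 < (z j).re ∧ Wd D z j then -rho D d z j * HB D cB ga d z j +
        tau z j * tB D cB ga d z j else 0 := by
  classical
  have e1 : ∀ j : Fin N, (if 0 < (z j).re ∧ Wd D z j then -rho D d z j * HB D cB ga d z j +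
        tau z j * tB D cB ga d z j else 0) =
      cB * ga * ∑ e, (if j ∈ (D.bx e).S then (if 0 < (z j).re ∧ Wd D z j then
        -rho D d z j * (Pw D z e * hd D d z e j) +
          tau z j * (hh D d z e * (lad D z e j / (z j).re * Pe D z e j)) else 0) else 0) := by
    intro j
    by_cases hj : 0 < (z j).re ∧ Wd D z j
    · rw [if_pos hj]
      unfold HB tB
      have : ∀ a b A B : ℝ, a * (cB * ga * A) + b * (cB * ga * B) = cB * ga * (a * A + b * B) := by
        intro a b A B; ring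
      rw [this, mul_sum, mul_sum, ← sum_add_distrib]
      congr 1
      refine sum_congr rfl fun e _ => ?_
      by_cases a1 : j ∈ (D.bx e).S <;> simp [a1, hj]
    · rw [if_neg hj]
      symm
      rw [mul_eq_zero]
      right
      refine sum_eq_zero fun e _ => ?_
      simp [hj]
  rw [sum_congr rfl fun j _ => e1 j, ← mul_sum, sum_comm]
  congr 1
  refine sum_congr rfl fun e _ => ?_
  rw [h.dBe_vs hz, sum_ite_mem, univ_inter]

end D

end Crest.Agent.R267.Calc4N_88
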