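import Crest.Agent.R267.Calc4N_88

/-!
# Row 267, T3aN: the derivatives of the signed `G` in the region II (form used for K1, K2, R4)
-/

set_option autoImplicit false

noncomputable section

namespace Crest.Agent.R267.Calc5N_88

open Finset
open Crest.Agent.R267.T3aDefs_957 (st Af Bf pg NN chi)
open Crest.Agent.R267.T3aDefs_957.LD (vt vs)
open Crest.Agent.R267.T3aNDefs_88 Crest.Agent.R267.CalcN_88 Crest.Agent.R267.Calc3N_88
  Crest.Agent.R267.Calc4N_88
open Crest.Agent.R267.Calc2_957 Crest.Agent.R267.Calc_957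
open Crest.Agent.R267.Calc3_957 (rej imj rej_apply imj_apply AA BB sr si sr_apply si_apply
  AA_nonneg BB_nonneg re_sq_le_AA im_sq_le_BB AA_add_BB_ne dNN NN_pos NN_nonneg NN_sq
  sqrt_AA_le_NN NN_of_le hasFDerivAt_NN dNN_of_le chid hasDerivAt_chi chi_of_le chid_of_le
  chi_of_ge chid_of_ge chi_nonneg chi_le_one chi_pos lt_of_chi_ne chi_lt_one chid_nonneg chid_le
  mul_chid_le chid_mul_nonneg one_le_N pg_le_norm re_pos_nhds)
open Crest.Agent.R267.Calc4_957 (tau dtau dtau_apply hasFDerivAt_tauj hasFDerivAt_zero_of_le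
  vt_re vt_im vs_re vs_im vt_eq_sum vs_eq S)

variable {N : ℕ} {D : SD N}

/-- value of the planar functions of a variable which is not in a window, or with `s ≤ 0`. -/
theorem pl_out {ga : ℝ} {z : Fin N → ℂ} {j : Fin N} (h : (z j).re ≤ 0 ∨ ¬ Wd D z j) :
    plN ga (D.sn j) (D.M j) (z j) = -((2 - ga : ℝ) : ℂ) * (z j).re - Complex.I * (z j).im := by
  rcases h with h | h
  · exact plN_of_nonpos h
  · rcases le_or_gt (z j).re 0 with h0 | h0
    · exact plN_of_nonpos h0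
    · refine plN_of_far (Or.inl ?_)
      have h1 := le_K D j
      unfold Wd at h
      rw [not_le, abs_of_pos h0] at h
      nlinarith

theorem tau_out {z : Fin N → ℂ} {j : Fin N} (h0 : 0 < (z j).re) (h : ¬ Wd D z j) :
    16 * (D.M j : ℝ) + 1 ≤ tau z j ∨ tau z j ≤ 1 := by
  have h1 := le_K D j
  unfold Wd at h
  rw [not_le, abs_of_pos h0] at h
  unfold tau
  rcases le_total 0 (z j).im with h2 | h2
  · rw [abs_of_nonneg h2] at h
    left
    rw [le_div_iff₀ h0]
    nlinarith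
  · right
    rw [div_le_iff₀ h0]
    linarith

theorem pvd_high' {e : ℕ → ℝ} {M : ℕ} {τ : ℝ} (h : 16 * (M : ℝ) + 1 ≤ τ) :
    pvdN e M τ = -Complex.I := by
  rw [pvdN_high (by linarith), std_of_ge (by linarith)]
  simp

theorem pv_high' {ga : ℝ} {e : ℕ → ℝ} {M : ℕ} {τ : ℝ} (h : 16 * (M : ℝ) + 1 ≤ τ) :
    pvN ga e M τ = -((2 - ga : ℝ) : ℂ) - Complex.I * (τ : ℂ) := by
  rw [pvN_high (by linarith), st_of_ge (by linarith)]
  push_cast
  ring

theorem pb_out {z : Fin N → ℂ} {j : Fin N} (h : (z j).re ≤ 0 ∨ ¬ Wd D z j) :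
    pbN (D.sn j) (D.M j) (z j) = -Complex.I := by
  unfold pbN
  rcases le_or_gt (z j).re 0 with h0 | h0
  · rw [if_neg (not_lt.2 h0)]
  · rw [if_pos h0]
    rcases h with h | h
    · exact absurd h0 (not_lt.2 h)
    · rcases tau_out h0 h with h1 | h1
      · exact pvd_high' h1
      · exact pvdN_low h1

theorem pa_out {ga : ℝ} {z : Fin N → ℂ} {j : Fin N} (h : (z j).re ≤ 0 ∨ ¬ Wd D z j) :
    paN ga (D.sn j) (D.M j) (z j) = -((2 - ga : ℝ) : ℂ) := by
  unfold paN
  rcases le_or_gt (z j).re 0 with h0 | h0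
  · rw [if_neg (not_lt.2 h0)]
  · rw [if_pos h0]
    rcases h with h | h
    · exact absurd h0 (not_lt.2 h)
    · have e : ((z j).im / (z j).re) = tau z j := rfl
      rw [e]
      rcases tau_out h0 h with h1 | h1
      · rw [pvd_high' h1, pv_high' h1]
        ring
      · rw [pvdN_low h1, pvN_low h1]
        ring

theorem pa_in {ga : ℝ} {z : Fin N → ℂ} {j : Fin N} (h0 : 0 < (z j).re) :
    paN ga (D.sn j) (D.M j) (z j) = pvN ga (D.sn j) (D.M j) (tau z j) -
      (tau z j : ℂ) * pvdN (D.sn j) (D.M j) (tau z j) :=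
  if_pos h0

theorem pb_in {z : Fin N → ℂ} {j : Fin N} (h0 : 0 < (z j).re) :
    pbN (D.sn j) (D.M j) (z j) = pvdN (D.sn j) (D.M j) (tau z j) := if_pos h0

theorem pl_in {ga : ℝ} {z : Fin N → ℂ} {j : Fin N} (h0 : 0 < (z j).re) :
    plN ga (D.sn j) (D.M j) (z j) = ((z j).re : ℂ) * pvN ga (D.sn j) (D.M j) (tau z j) :=
  plN_of_pos h0

/-- the value of `G`. -/
theorem G_eq (cB ga d : ℝ) (z : Fin N → ℂ) : D.G cB ga d z =
    ∑ j, (D.ch d z j : ℂ) * plN ga (D.sn j) (D.M j) (z j) -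
      ((cB * ga * ∑ e, hh D d z e * Pw D z e : ℝ) : ℂ) := rfl

/-! ### the numbers `tB`, `HB` -/

theorem tB_out {cB ga d : ℝ} {z : Fin N → ℂ} {j : Fin N} (h : (z j).re ≤ 0 ∨ ¬ Wd D z j) :
    tB D cB ga d z j = 0 := by
  classical
  unfold tB
  rw [mul_eq_zero]
  right
  refine sum_eq_zero fun e _ => ?_
  split_ifs with hj
  · rcases le_or_gt (z j).re 0 with h0 | h0
    · rw [hh_of_nonpos hj h0, zero_mul]
    · rcases h with h | h
      · exact absurd h0 (not_lt.2 h)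
      · rw [(steep hj h0 h).2]
        simp
  · rfl

theorem HB_nonneg {cB ga d : ℝ} (h : 0 ≤ cB * ga) (z : Fin N → ℂ) (j : Fin N) :
    0 ≤ HB D cB ga d z j := by
  classical
  unfold HB
  refine mul_nonneg h (sum_nonneg fun e _ => ?_)
  split_ifs
  · exact mul_nonneg (Pw_nonneg D z e) (hd_nonneg D d z e j)
  · exact le_refl _

theorem HB_le {cB ga d : ℝ} (h : 0 ≤ cB * ga) (z : Fin N → ℂ) (j : Fin N) :
    HB D cB ga d z j ≤ cB * ga * D.nb := by
  classical
  unfold HB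
  refine mul_le_mul_of_nonneg_left ?_ h
  refine (sum_le_card_nsmul univ _ (1 : ℝ) fun e _ => ?_).trans ?_
  · split_ifs with hj
    · exact mul_le_one₀ (Pw_le_one D z e) (hd_nonneg D d z e j) (hd_le_one D hj d z)
    · exact zero_le_one
  · rw [card_univ, Fintype.card_fin, nsmul_eq_mul, mul_one]

theorem abs_tB_le {cB ga d : ℝ} (h : 0 ≤ cB * ga) (z : Fin N → ℂ) (j : Fin N) :
    |tB D cB ga d z j| ≤ cB * ga * D.nb * D.ch d z j := by
  classical
  unfold tB
  rw [abs_mul, abs_of_nonneg h, mul_assoc (cB * ga)]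
  refine mul_le_mul_of_nonneg_left ?_ h
  refine (abs_sum_le_sum_abs _ _).trans ?_
  refine (sum_le_card_nsmul univ _ (D.ch d z j) fun e _ => ?_).trans ?_
  · have hc := ch_nonneg D d z j
    split_ifs with hj
    · rcases le_or_gt (z j).re 0 with h0 | h0
      · rw [hh_of_nonpos hj h0, zero_mul, abs_zero]
        exact hc
      · have a1 := abs_lad_le D z e j
        have a2 := Pe_nonneg D z e j
        have a3 := Pe_le_one D z e j
        have a4 := hh_nonneg D d z e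
        have a5 := hh_le D hj d z
        rw [R_of_pos D h0] at a5
        rw [abs_mul, abs_mul, abs_div, abs_of_nonneg a4, abs_of_pos h0, abs_of_nonneg a2]
        have a6 : |lad D z e j| / (z j).re * Pe D z e j ≤ 1 / (z j).re := by
          calc |lad D z e j| / (z j).re * Pe D z e j ≤ |lad D z e j| / (z j).re * 1 :=
                mul_le_mul_of_nonneg_left a3 (by positivity)
            _ ≤ 1 / (z j).re := by
                rw [mul_one]
                exact div_le_div_of_nonneg_right a1 h0.le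
        calc hh D d z e * (|lad D z e j| / (z j).re * Pe D z e j) ≤
            (D.ch d z j * (z j).re) * (1 / (z j).re) :=
              mul_le_mul a5 a6 (by positivity) (by positivity)
          _ = D.ch d z j := by field_simp
    · rw [abs_zero]
      exact hc
  · rw [card_univ, Fintype.card_fin, nsmul_eq_mul]

/-- if `tB ≠ 0` then some window moves with the slope of the variable `j`, and the
other windows of that box do not vanish. -/
theorem tB_ne {cB ga d : ℝ} {z : Fin N → ℂ} {j : Fin N} (h : tB D cB ga d z j ≠ 0) :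
    ∃ e, j ∈ (D.bx e).S ∧ lad D z e j ≠ 0 ∧ hh D d z e ≠ 0 ∧ Pe D z e j ≠ 0 := by
  classical
  by_contra h1
  push Not at h1
  apply h
  unfold tB
  rw [mul_eq_zero]
  right
  refine sum_eq_zero fun e he => ?_
  split_ifs with hj
  · by_cases a1 : lad D z e j = 0
    · rw [a1]
      ring
    · by_cases a2 : hh D d z e = 0
      · rw [a2]
        ring
      · rw [h1 e hj a1 a2]
        ring
  · rfl

/-! ### `dT` in the region II -/

theorem dT_vt (ga d : ℝ) {z : Fin N → ℂ} (hII : II D z) (j : Fin N)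
    (Y : Fin N → ℝ) : dT D ga d z j (vt Y) =
      (Y j : ℂ) * (((chid d (D.xr z j) * (pt D.K (z j) / √(AA z)) : ℝ) : ℂ) *
        plN ga (D.sn j) (D.M j) (z j) + (D.ch d z j : ℂ) * pbN (D.sn j) (D.M j) (z j)) := by
  rw [dT_apply, hII.dch_vt, vt_re, vt_im]
  push_cast
  ring

theorem dT_vt_single (ga d : ℝ) {z : Fin N → ℂ} (hII : II D z) (j : Fin N) :
    ∑ i, dT D ga d z i (vt (Pi.single j (1 : ℝ))) =
      ((chid d (D.xr z j) * (pt D.K (z j) / √(AA z)) : ℝ) : ℂ) *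
        plN ga (D.sn j) (D.M j) (z j) + (D.ch d z j : ℂ) * pbN (D.sn j) (D.M j) (z j) := by
  rw [sum_eq_single j]
  · rw [dT_vt ga d hII, Pi.single_eq_same]
    simp
  · intro i _ hi
    rw [dT_vt ga d hII, Pi.single_eq_of_ne hi]
    simp
  · intro h
    exact absurd (mem_univ j) h

/-- **the fibre derivatives of `G` in the region II.** -/
theorem w_gen (cB ga : ℝ) {d : ℝ} (hd : 0 < d) {z : Fin N → ℂ} (hz : z ≠ 0) (hII : II D z)
    (j : Fin N) : fderiv ℝ (D.G cB ga d) z (vt (Pi.single j (1 : ℝ))) =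
      ((chid d (D.xr z j) * (pt D.K (z j) / √(AA z)) : ℝ) : ℂ) *
        plN ga (D.sn j) (D.M j) (z j) + (D.ch d z j : ℂ) * pbN (D.sn j) (D.M j) (z j) -
      (tB D cB ga d z j : ℂ) := by
  rw [fderiv_G D cB ga hd hz, dG_apply, hII.sum_dBe_vt, dT_vt_single ga d hII]

/-- window variable, `s > 0`. -/
theorem w_pos (cB ga : ℝ) {d : ℝ} (hd : 0 < d) {z : Fin N → ℂ} (hz : z ≠ 0) (hII : II D z)
    {j : Fin N} (hj : 0 < (z j).re) (hW : Wd D z j) :
    fderiv ℝ (D.G cB ga d) z (vt (Pi.single j (1 : ℝ))) =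
      (D.ch d z j : ℂ) * pvdN (D.sn j) (D.M j) (tau z j) - (tB D cB ga d z j : ℂ) := by
  rw [w_gen cB ga hd hz hII, pt_of_le (K_nonneg D) hW, pb_in hj]
  simp

/-- window variable, `s ≤ 0`. -/
theorem w_neg (cB ga : ℝ) {d : ℝ} (hd : 0 < d) {z : Fin N → ℂ} (hz : z ≠ 0) (hII : II D z)
    {j : Fin N} (hj : (z j).re ≤ 0) (hW : Wd D z j) :
    fderiv ℝ (D.G cB ga d) z (vt (Pi.single j (1 : ℝ))) =
      -(Complex.I * (D.ch d z j : ℂ)) := by
  rw [w_gen cB ga hd hz hII, pt_of_le (K_nonneg D) hW, pb_out (Or.inl hj), tB_out (Or.inl hj)]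
  simp
  ring

/-- derivative of the cut-off in the direction `t_j`, steep variable. -/
def aO (D : SD N) (d : ℝ) (z : Fin N → ℂ) (j : Fin N) : ℝ :=
  chid d (D.xr z j) * (pt D.K (z j) / √(AA z))

/-- steep variable. -/
theorem w_out (cB ga : ℝ) {d : ℝ} (hd : 0 < d) {z : Fin N → ℂ} (hz : z ≠ 0) (hII : II D z)
    {j : Fin N} (hW : ¬ Wd D z j) :
    fderiv ℝ (D.G cB ga d) z (vt (Pi.single j (1 : ℝ))) =
      -(Complex.I * (D.ch d z j : ℂ)) + (aO D d z j : ℂ) * plN ga (D.sn j) (D.M j) (z j) := by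
  rw [w_gen cB ga hd hz hII, pb_out (Or.inr hW), tB_out (Or.inr hW)]
  unfold aO
  simp
  ring

/-- linearity in the fibre direction. -/
theorem w_vt (cB ga d : ℝ) (z : Fin N → ℂ) (Y : Fin N → ℝ) :
    fderiv ℝ (D.G cB ga d) z (vt Y) =
      ∑ j, (Y j : ℂ) * fderiv ℝ (D.G cB ga d) z (vt (Pi.single j (1 : ℝ))) := by
  rw [vt_eq_sum Y, map_sum]
  refine sum_congr rfl fun j _ => ?_
  rw [map_smul, Complex.real_smul]

theorem w_vs (cB ga d : ℝ) (z : Fin N → ℂ) (a : ℝ) (Y : Fin N → ℝ) :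
    fderiv ℝ (D.G cB ga d) z (vs a Y) = (a : ℂ) * fderiv ℝ (D.G cB ga d) z (vs 1 0) +
      ∑ j, (Y j : ℂ) * fderiv ℝ (D.G cB ga d) z (vt (Pi.single j (1 : ℝ))) := by
  rw [vs_eq, map_add, map_smul, Complex.real_smul, w_vt]

/-! ### the direction `(-1, …, -1)` -/

/-- the term of the variable `j` in the derivative along `(-1, …, -1)`. -/
def tm (D : SD N) (cB ga d : ℝ) (z : Fin N → ℂ) (j : Fin N) : ℂ :=
  open Classical in
  if Wd D z j then
    if 0 < (z j).re then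
      -(rho D d z j : ℂ) * (pvN ga (D.sn j) (D.M j) (tau z j) - (HB D cB ga d z j : ℂ)) +
        (tau z j : ℂ) * ((D.ch d z j : ℂ) * pvdN (D.sn j) (D.M j) (tau z j) -
          (tB D cB ga d z j : ℂ))
    else ((2 - ga : ℝ) : ℂ) * (D.ch d z j : ℂ) +
      ((chid d (D.xr z j) * D.xr z j * (1 + D.xr z j * S z) / |(z j).re| : ℝ) : ℂ) *
        plN ga (D.sn j) (D.M j) (z j)
  else ((2 - ga : ℝ) : ℂ) * (D.ch d z j : ℂ) +
    ((chid d (D.xr z j) * (-ps D.K (z j) + D.xr z j * S z) / √(AA z) : ℝ) : ℂ) *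
      plN ga (D.sn j) (D.M j) (z j)

theorem dT_vs (ga d : ℝ) {z : Fin N → ℂ} (hII : II D z) (j : Fin N) :
    dT D ga d z j (vs 1 0) =
      ((chid d (D.xr z j) * (-ps D.K (z j) + D.xr z j * S z) / √(AA z) : ℝ) : ℂ) *
        plN ga (D.sn j) (D.M j) (z j) - (D.ch d z j : ℂ) * paN ga (D.sn j) (D.M j) (z j) := by
  rw [dT_apply, hII.dch_vs, vs_re, vs_im, Pi.zero_apply]
  push_cast
  ring

theorem dT_vs_pos (ga d : ℝ) {z : Fin N → ℂ} (hz : z ≠ 0) (hII : II D z) {j : Fin N}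
    (hj : 0 < (z j).re) (hW : Wd D z j) :
    dT D ga d z j (vs 1 0) = -(rho D d z j : ℂ) * pvN ga (D.sn j) (D.M j) (tau z j) +
      (tau z j : ℂ) * ((D.ch d z j : ℂ) * pvdN (D.sn j) (D.M j) (tau z j)) := by
  rw [dT_vs ga d hII, pl_in hj, pa_in hj, ps_of_le (K_nonneg D) hW, abs_of_pos hj,
    div_self hj.ne']
  have h0 := (hII.sqrt_pos hz).ne'
  have h1 : D.xr z j = (z j).re / √(AA z) := by rw [hII.xr_W hW, abs_of_pos hj]
  have h2 : ((chid d (D.xr z j) * (-1 + D.xr z j * S z) / √(AA z) : ℝ) : ℂ) *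
      ((z j).re : ℂ) = ((chid d (D.xr z j) * (-1 + D.xr z j * S z) * D.xr z j : ℝ) : ℂ) := by
    rw [← Complex.ofReal_mul]
    congr 1
    have h3 : (z j).re = D.xr z j * √(AA z) := by rw [h1]; field_simp
    rw [h3]
    field_simp
  rw [← mul_assoc, h2]
  unfold rho
  push_cast
  ring

theorem dT_vs_neg (ga : ℝ) {d : ℝ} (hd : 0 < d) {z : Fin N → ℂ} (hz : z ≠ 0) (hII : II D z)
    {j : Fin N} (hj : (z j).re ≤ 0) (hW : Wd D z j) :
    dT D ga d z j (vs 1 0) = ((2 - ga : ℝ) : ℂ) * (D.ch d z j : ℂ) +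
      ((chid d (D.xr z j) * D.xr z j * (1 + D.xr z j * S z) / |(z j).re| : ℝ) : ℂ) *
        plN ga (D.sn j) (D.M j) (z j) := by
  rw [dT_vs ga d hII, pa_out (Or.inl hj), ps_of_le (K_nonneg D) hW]
  rcases eq_or_lt_of_le hj with h0 | h0
  · have h1 : D.xr z j = 0 := by rw [hII.xr_W hW, h0]; simp
    rw [h1, chid_of_le hd hd.le]
    simp
    ring
  · have hs := (hII.sqrt_pos hz).ne'
    have h1 : D.xr z j = |(z j).re| / √(AA z) := hII.xr_W hW
    have h2 : 0 < |(z j).re| := abs_pos.2 h0.ne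
    have h3 : (z j).re / |(z j).re| = -1 := by
      rw [abs_of_neg h0, div_neg, div_self h0.ne]
    have h4 : chid d (D.xr z j) * D.xr z j * (1 + D.xr z j * S z) / |(z j).re| =
        chid d (D.xr z j) * (- -1 + D.xr z j * S z) / √(AA z) := by
      rw [neg_neg]
      have h5 : D.xr z j / |(z j).re| = 1 / √(AA z) := by rw [h1]; field_simp
      calc chid d (D.xr z j) * D.xr z j * (1 + D.xr z j * S z) / |(z j).re| =
          chid d (D.xr z j) * (1 + D.xr z j * S z) * (D.xr z j / |(z j).re|) := by ring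
        _ = _ := by rw [h5]; ring
    rw [h3, h4]
    ring

theorem dT_vs_out (ga d : ℝ) {z : Fin N → ℂ} (hII : II D z) {j : Fin N} (hW : ¬ Wd D z j) :
    dT D ga d z j (vs 1 0) = ((2 - ga : ℝ) : ℂ) * (D.ch d z j : ℂ) +
      ((chid d (D.xr z j) * (-ps D.K (z j) + D.xr z j * S z) / √(AA z) : ℝ) : ℂ) *
        plN ga (D.sn j) (D.M j) (z j) := by
  rw [dT_vs ga d hII, pa_out (Or.inr hW)]
  ring

/-- **the derivative of `G` along `(-1, …, -1)` in the region II.** -/
theorem w_zero (cB ga : ℝ) {d : ℝ} (hd : 0 < d) {z : Fin N → ℂ} (hz : z ≠ 0) (hII : II D z) :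
    fderiv ℝ (D.G cB ga d) z (vs 1 0) = ∑ j, tm D cB ga d z j := by
  classical
  rw [fderiv_G D cB ga hd hz, dG_apply, hII.sum_dBe_vs hz, Complex.ofReal_sum,
    ← sum_sub_distrib]
  refine sum_congr rfl fun j _ => ?_
  unfold tm
  by_cases hW : Wd D z j
  · rw [if_pos hW]
    by_cases hj : 0 < (z j).re
    · rw [if_pos hj, if_pos ⟨hj, hW⟩, dT_vs_pos ga d hz hII hj hW]
      push_cast
      ring
    · rw [if_neg hj, if_neg (fun h => hj h.1), dT_vs_neg ga hd hz hII (not_lt.1 hj) hW]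
      simp
  · rw [if_neg hW, if_neg (fun h => hW h.2), dT_vs_out ga d hII hW]
    simp

end Crest.Agent.R267.Calc5N_88
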