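import Crest.Agent.R267.Calc4_957

/-!
# Row 267, T3a: the derivatives of `G` in the region II in the form used for K1, K2 and R4
-/

set_option autoImplicit false

noncomputable section

namespace Crest.Agent.R267.Calc5_957

open Finset T3aDefs_957 Calc_957 Calc2_957 Calc3_957 Calc4_957

variable {N : ℕ} {D : LD N}

/-- value of the planar functions of a variable which is not in a window, or with `s ≤ 0`. -/
theorem pl_out {ga : ℝ} {z : Fin N → ℂ} {j : Fin N} (h : (z j).re ≤ 0 ∨ ¬ Wd D z j) :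
    pl ga (D.M j) (z j) = -((2 - ga : ℝ) : ℂ) * (z j).re - Complex.I * (z j).im := by
  rcases h with h | h
  · exact pl_of_nonpos h
  · rcases le_or_gt (z j).re 0 with h0 | h0
    · exact pl_of_nonpos h0
    · refine pl_of_far (Or.inl ?_)
      have h1 := le_K D j
      unfold Wd at h
      rw [not_le, abs_of_pos h0] at h
      nlinarith

theorem tau_out {z : Fin N → ℂ} {j : Fin N} (h0 : 0 < (z j).re) (h : ¬ Wd D z j) :
    8 * (D.M j : ℝ) + 1 ≤ tau z j ∨ tau z j ≤ 1 := by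
  have h1 := le_K D j
  unfold Wd at h
  rw [not_le, abs_of_pos h0] at h
  unfold tau
  rcases le_total 0 (z j).im with h2 | h2
  · rw [abs_of_nonneg h2] at h
    left
    rw [le_div_iff₀ h0]
    nlinarith
  · right
    rw [div_le_iff₀ h0]
    linarith

theorem pvd_high' {M : ℕ} {τ : ℝ} (h : 8 * (M : ℝ) + 1 ≤ τ) : pvd M τ = -Complex.I := by
  rw [pvd_high (by linarith), std_of_ge (by linarith)]
  simp

theorem pv_high' {ga : ℝ} {M : ℕ} {τ : ℝ} (h : 8 * (M : ℝ) + 1 ≤ τ) :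
    pv ga M τ = -((2 - ga : ℝ) : ℂ) - Complex.I * (τ : ℂ) := by
  rw [pv_high (by linarith), st_of_ge (by linarith)]
  push_cast
  ring

theorem pb_out {z : Fin N → ℂ} {j : Fin N} (h : (z j).re ≤ 0 ∨ ¬ Wd D z j) :
    pb (D.M j) (z j) = -Complex.I := by
  unfold pb
  rcases le_or_gt (z j).re 0 with h0 | h0
  · rw [if_neg (not_lt.2 h0)]
  · rw [if_pos h0]
    rcases h with h | h
    · exact absurd h0 (not_lt.2 h)
    · rcases tau_out h0 h with h1 | h1
      · exact pvd_high' h1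
      · exact pvd_low h1

theorem pa_out {ga : ℝ} {z : Fin N → ℂ} {j : Fin N} (h : (z j).re ≤ 0 ∨ ¬ Wd D z j) :
    pa ga (D.M j) (z j) = -((2 - ga : ℝ) : ℂ) := by
  unfold pa
  rcases le_or_gt (z j).re 0 with h0 | h0
  · rw [if_neg (not_lt.2 h0)]
  · rw [if_pos h0]
    rcases h with h | h
    · exact absurd h0 (not_lt.2 h)
    · have e : ((z j).im / (z j).re) = tau z j := rfl
      rw [e]
      rcases tau_out h0 h with h1 | h1
      · rw [pvd_high' h1, pv_high' h1]
        ring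
      · rw [pvd_low h1, pv_low h1]
        ring

theorem pa_in {ga : ℝ} {z : Fin N → ℂ} {j : Fin N} (h0 : 0 < (z j).re) :
    pa ga (D.M j) (z j) = pv ga (D.M j) (tau z j) - (tau z j : ℂ) * pvd (D.M j) (tau z j) :=
  if_pos h0

theorem pb_in {z : Fin N → ℂ} {j : Fin N} (h0 : 0 < (z j).re) :
    pb (D.M j) (z j) = pvd (D.M j) (tau z j) := if_pos h0

theorem pl_in {ga : ℝ} {z : Fin N → ℂ} {j : Fin N} (h0 : 0 < (z j).re) :
    pl ga (D.M j) (z j) = ((z j).re : ℂ) * pv ga (D.M j) (tau z j) := pl_of_pos h0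

/-- the value of `G`. -/
theorem G_eq (cB ga d : ℝ) (z : Fin N → ℂ) : D.G cB ga d z =
    ∑ j, (D.ch d z j : ℂ) * pl ga (D.M j) (z j) -
      ((cB * ga * ∑ e ∈ D.C, hh D d z e * (la D z e * be D z e) : ℝ) : ℂ) := rfl

/-! ### the numbers `tB`, `HB` -/

theorem tB_out {cB ga d : ℝ} {z : Fin N → ℂ} {j : Fin N} (h : (z j).re ≤ 0 ∨ ¬ Wd D z j) :
    tB D cB ga d z j = 0 := by
  classical
  unfold tB
  rw [mul_eq_zero]
  right
  refine sum_eq_zero fun e _ => ?_
  have key : ∀ i, i = j → (z i).re ≤ 0 ∨ (0 < (z i).re ∧ ¬ Wd D z i) := by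
    intro i hi
    subst hi
    rcases le_or_gt (z i).re 0 with h0 | h0
    · exact Or.inl h0
    · rcases h with h | h
      · exact Or.inl h
      · exact Or.inr ⟨h0, h⟩
  by_cases a1 : e.1 = j
  · rcases key _ a1 with h1 | ⟨h1, h2⟩
    · rw [hh_of_left h1, zero_mul]
    · rw [(steep_left h1 h2).1, (steep_left h1 h2).2]
      simp
  · by_cases a2 : e.2.1 = j
    · rcases key _ a2 with h1 | ⟨h1, h2⟩
      · rw [hh_of_right h1, zero_mul]
      · rw [(steep_right h1 h2).1, (steep_right h1 h2).2]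
        simp
    · simp [a1, a2]

theorem HB_nonneg {cB ga d : ℝ} (h : 0 ≤ cB * ga) (z : Fin N → ℂ) (j : Fin N) :
    0 ≤ HB D cB ga d z j := by
  classical
  unfold HB
  refine mul_nonneg h (sum_nonneg fun e _ => ?_)
  have a1 := la_nonneg D z e
  have a2 := be_nonneg D z e
  have a3 := h1_nonneg D d z e
  have a4 := h2_nonneg D d z e
  split_ifs <;> positivity

theorem abs_tB_le {cB ga d : ℝ} (h : 0 ≤ cB * ga) (z : Fin N → ℂ) (j : Fin N) :
    |tB D cB ga d z j| ≤ cB * ga * D.C.card * (15 / 8 * D.ch d z j) := by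
  classical
  unfold tB
  rw [abs_mul, abs_of_nonneg h, mul_assoc (cB * ga)]
  refine mul_le_mul_of_nonneg_left ?_ h
  refine (abs_sum_le_sum_abs _ _).trans ?_
  rw [← nsmul_eq_mul]
  refine sum_le_card_nsmul _ _ _ fun e _ => ?_
  have hc := ch_nonneg D d z j
  have a1 : |lad D z e| ≤ 15 / 16 := abs_wind_le _ _ _
  have a2 : |bed D z e| ≤ 15 / 16 := abs_wind_le _ _ _
  have b1 := la_nonneg D z e
  have b2 := la_le_one D z e
  have b3 := be_nonneg D z e
  have b4 := be_le_one D z e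
  have hh0 := hh_nonneg D d z e
  have key : ∀ (i : Fin N) (w : ℝ), hh D d z e ≤ D.R d z i → |w| ≤ 15 / 16 → i = j →
      |hh D d z e * (w / (z i).re)| ≤ 15 / 16 * D.ch d z j := by
    intro i w hi hw hij
    subst hij
    rcases le_or_gt (z i).re 0 with h0 | h0
    · rw [R_of_nonpos D h0] at hi
      rw [le_antisymm hi hh0, zero_mul, abs_zero]
      positivity
    · rw [R_of_pos D h0] at hi
      rw [abs_mul, abs_div, abs_of_nonneg hh0, abs_of_pos h0]
      calc hh D d z e * (|w| / (z i).re) ≤ (D.ch d z i * (z i).re) * ((15 / 16) / (z i).re) := by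
            refine mul_le_mul hi ?_ (by positivity) (by positivity)
            exact div_le_div_of_nonneg_right hw h0.le
        _ = 15 / 16 * D.ch d z i := by field_simp
  have w1 : |lad D z e * be D z e| ≤ 15 / 16 := by
    rw [abs_mul, abs_of_nonneg b3]
    nlinarith [abs_nonneg (lad D z e)]
  have w2 : |la D z e * bed D z e| ≤ 15 / 16 := by
    rw [abs_mul, abs_of_nonneg b1]
    nlinarith [abs_nonneg (bed D z e)]
  rw [mul_add]
  refine (abs_add_le _ _).trans ?_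
  have t1 : |hh D d z e * (if e.1 = j then lad D z e * be D z e / (z j).re else 0)| ≤
      15 / 16 * D.ch d z j := by
    split_ifs with hj
    · have := key e.1 _ (hh_le_left D d z e) w1 hj
      rwa [hj] at this
    · rw [mul_zero, abs_zero]; positivity
  have t2 : |hh D d z e * (if e.2.1 = j then la D z e * bed D z e / (z j).re else 0)| ≤
      15 / 16 * D.ch d z j := by
    split_ifs with hj
    · have := key e.2.1 _ (hh_le_right D d z e) w2 hj
      rwa [hj] at this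
    · rw [mul_zero, abs_zero]; positivity
  linarith

/-- if `tB ≠ 0` then some window moves with the slope of the variable `j`. -/
theorem tB_ne {cB ga d : ℝ} {z : Fin N → ℂ} {j : Fin N} (h : tB D cB ga d z j ≠ 0) :
    ∃ e ∈ D.C, (e.1 = j ∧ wind e.2.2 (D.M j) (tau z j) ≠ 0) ∨
      (e.2.1 = j ∧ wind (D.M j - 1) (D.M j) (tau z j) ≠ 0) := by
  classical
  by_contra h1
  push Not at h1
  apply h
  unfold tB
  rw [mul_eq_zero]
  right
  refine sum_eq_zero fun e he => ?_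
  have h2 := h1 e he
  by_cases a1 : e.1 = j <;> by_cases a2 : e.2.1 = j
  · have e1 : lad D z e = 0 := by unfold lad; rw [a1]; exact h2.1 a1
    have e2 : bed D z e = 0 := by unfold bed; rw [a2]; exact h2.2 a2
    simp [e1, e2]
  · have e1 : lad D z e = 0 := by unfold lad; rw [a1]; exact h2.1 a1
    simp [e1, a2]
  · have e2 : bed D z e = 0 := by unfold bed; rw [a2]; exact h2.2 a2
    simp [e2, a1]
  · simp [a1, a2]

/-! ### `dT` in the region II -/

theorem dT_vt (ga d : ℝ) {z : Fin N → ℂ} (hII : II D z) (j : Fin N)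
    (Y : Fin N → ℝ) : dT D ga d z j (LD.vt Y) =
      (Y j : ℂ) * (((chid d (D.xr z j) * (pt D.K (z j) / √(AA z)) : ℝ) : ℂ) *
        pl ga (D.M j) (z j) + (D.ch d z j : ℂ) * pb (D.M j) (z j)) := by
  rw [dT_apply, hII.dch_vt, vt_re, vt_im]
  push_cast
  ring

theorem dT_vt_single (ga d : ℝ) {z : Fin N → ℂ} (hII : II D z) (j : Fin N) :
    ∑ i, dT D ga d z i (LD.vt (Pi.single j (1 : ℝ))) =
      ((chid d (D.xr z j) * (pt D.K (z j) / √(AA z)) : ℝ) : ℂ) *
        pl ga (D.M j) (z j) + (D.ch d z j : ℂ) * pb (D.M j) (z j) := by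
  rw [sum_eq_single j]
  · rw [dT_vt ga d hII, Pi.single_eq_same]
    simp
  · intro i _ hi
    rw [dT_vt ga d hII, Pi.single_eq_of_ne hi]
    simp
  · intro h
    exact absurd (mem_univ j) h

/-- **the fibre derivatives of `G` in the region II.** -/
theorem w_gen (cB ga : ℝ) {d : ℝ} (hd : 0 < d) {z : Fin N → ℂ} (hz : z ≠ 0) (hII : II D z)
    (j : Fin N) : fderiv ℝ (D.G cB ga d) z (LD.vt (Pi.single j (1 : ℝ))) =
      ((chid d (D.xr z j) * (pt D.K (z j) / √(AA z)) : ℝ) : ℂ) *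
        pl ga (D.M j) (z j) + (D.ch d z j : ℂ) * pb (D.M j) (z j) -
      (tB D cB ga d z j : ℂ) := by
  rw [fderiv_G D cB ga hd hz, dG_apply, hII.sum_dBe_vt, dT_vt_single ga d hII]

/-- window variable, `s > 0`. -/
theorem w_pos (cB ga : ℝ) {d : ℝ} (hd : 0 < d) {z : Fin N → ℂ} (hz : z ≠ 0) (hII : II D z)
    {j : Fin N} (hj : 0 < (z j).re) (hW : Wd D z j) :
    fderiv ℝ (D.G cB ga d) z (LD.vt (Pi.single j (1 : ℝ))) =
      (D.ch d z j : ℂ) * pvd (D.M j) (tau z j) - (tB D cB ga d z j : ℂ) := by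
  rw [w_gen cB ga hd hz hII, pt_of_le (K_nonneg D) hW, pb_in hj]
  simp

/-- window variable, `s ≤ 0`. -/
theorem w_neg (cB ga : ℝ) {d : ℝ} (hd : 0 < d) {z : Fin N → ℂ} (hz : z ≠ 0) (hII : II D z)
    {j : Fin N} (hj : (z j).re ≤ 0) (hW : Wd D z j) :
    fderiv ℝ (D.G cB ga d) z (LD.vt (Pi.single j (1 : ℝ))) =
      -(Complex.I * (D.ch d z j : ℂ)) := by
  rw [w_gen cB ga hd hz hII, pt_of_le (K_nonneg D) hW, pb_out (Or.inl hj), tB_out (Or.inl hj)]
  simp
  ring

/-- derivative of the cut-off in the direction `t_j`, steep variable. -/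
def aO (D : LD N) (d : ℝ) (z : Fin N → ℂ) (j : Fin N) : ℝ :=
  chid d (D.xr z j) * (pt D.K (z j) / √(AA z))

/-- steep variable. -/
theorem w_out (cB ga : ℝ) {d : ℝ} (hd : 0 < d) {z : Fin N → ℂ} (hz : z ≠ 0) (hII : II D z)
    {j : Fin N} (hW : ¬ Wd D z j) :
    fderiv ℝ (D.G cB ga d) z (LD.vt (Pi.single j (1 : ℝ))) =
      -(Complex.I * (D.ch d z j : ℂ)) + (aO D d z j : ℂ) * pl ga (D.M j) (z j) := by
  rw [w_gen cB ga hd hz hII, pb_out (Or.inr hW), tB_out (Or.inr hW)]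
  unfold aO
  simp
  ring

/-- linearity in the fibre direction. -/
theorem w_vt (cB ga d : ℝ) (z : Fin N → ℂ) (Y : Fin N → ℝ) :
    fderiv ℝ (D.G cB ga d) z (LD.vt Y) =
      ∑ j, (Y j : ℂ) * fderiv ℝ (D.G cB ga d) z (LD.vt (Pi.single j (1 : ℝ))) := by
  rw [vt_eq_sum Y, map_sum]
  refine sum_congr rfl fun j _ => ?_
  rw [map_smul, Complex.real_smul]

theorem w_vs (cB ga d : ℝ) (z : Fin N → ℂ) (a : ℝ) (Y : Fin N → ℝ) :
    fderiv ℝ (D.G cB ga d) z (LD.vs a Y) = (a : ℂ) * fderiv ℝ (D.G cB ga d) z (LD.vs 1 0) +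
      ∑ j, (Y j : ℂ) * fderiv ℝ (D.G cB ga d) z (LD.vt (Pi.single j (1 : ℝ))) := by
  rw [vs_eq, map_add, map_smul, Complex.real_smul, w_vt]

/-! ### the direction `(-1, …, -1)` -/

/-- the term of the variable `j` in the derivative along `(-1, …, -1)`. -/
def tm (D : LD N) (cB ga d : ℝ) (z : Fin N → ℂ) (j : Fin N) : ℂ :=
  open Classical in
  if Wd D z j then
    if 0 < (z j).re then
      -(rho D d z j : ℂ) * (pv ga (D.M j) (tau z j) - (HB D cB ga d z j : ℂ)) +
        (tau z j : ℂ) * ((D.ch d z j : ℂ) * pvd (D.M j) (tau z j) - (tB D cB ga d z j : ℂ))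
    else ((2 - ga : ℝ) : ℂ) * (D.ch d z j : ℂ) +
      ((chid d (D.xr z j) * D.xr z j * (1 + D.xr z j * S z) / |(z j).re| : ℝ) : ℂ) *
        pl ga (D.M j) (z j)
  else ((2 - ga : ℝ) : ℂ) * (D.ch d z j : ℂ) +
    ((chid d (D.xr z j) * (-ps D.K (z j) + D.xr z j * S z) / √(AA z) : ℝ) : ℂ) *
      pl ga (D.M j) (z j)

theorem dT_vs (ga d : ℝ) {z : Fin N → ℂ} (hII : II D z) (j : Fin N) :
    dT D ga d z j (LD.vs 1 0) =
      ((chid d (D.xr z j) * (-ps D.K (z j) + D.xr z j * S z) / √(AA z) : ℝ) : ℂ) *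
        pl ga (D.M j) (z j) - (D.ch d z j : ℂ) * pa ga (D.M j) (z j) := by
  rw [dT_apply, hII.dch_vs, vs_re, vs_im, Pi.zero_apply]
  push_cast
  ring

theorem dT_vs_pos (ga d : ℝ) {z : Fin N → ℂ} (hz : z ≠ 0) (hII : II D z) {j : Fin N}
    (hj : 0 < (z j).re) (hW : Wd D z j) :
    dT D ga d z j (LD.vs 1 0) = -(rho D d z j : ℂ) * pv ga (D.M j) (tau z j) +
      (tau z j : ℂ) * ((D.ch d z j : ℂ) * pvd (D.M j) (tau z j)) := by
  rw [dT_vs ga d hII, pl_in hj, pa_in hj, ps_of_le (K_nonneg D) hW, abs_of_pos hj,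
    div_self hj.ne']
  have h0 := (hII.sqrt_pos hz).ne'
  have h1 : D.xr z j = (z j).re / √(AA z) := by rw [hII.xr_W hW, abs_of_pos hj]
  have h2 : ((chid d (D.xr z j) * (-1 + D.xr z j * S z) / √(AA z) : ℝ) : ℂ) *
      ((z j).re : ℂ) = ((chid d (D.xr z j) * (-1 + D.xr z j * S z) * D.xr z j : ℝ) : ℂ) := by
    rw [← Complex.ofReal_mul]
    congr 1
    have h3 : (z j).re = D.xr z j * √(AA z) := by rw [h1]; field_simp
    rw [h3]
    field_simp
  rw [← mul_assoc, h2]
  unfold rho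
  push_cast
  ring

theorem dT_vs_neg (ga : ℝ) {d : ℝ} (hd : 0 < d) {z : Fin N → ℂ} (hz : z ≠ 0) (hII : II D z)
    {j : Fin N} (hj : (z j).re ≤ 0) (hW : Wd D z j) :
    dT D ga d z j (LD.vs 1 0) = ((2 - ga : ℝ) : ℂ) * (D.ch d z j : ℂ) +
      ((chid d (D.xr z j) * D.xr z j * (1 + D.xr z j * S z) / |(z j).re| : ℝ) : ℂ) *
        pl ga (D.M j) (z j) := by
  rw [dT_vs ga d hII, pa_out (Or.inl hj), ps_of_le (K_nonneg D) hW]
  rcases eq_or_lt_of_le hj with h0 | h0
  · have h1 : D.xr z j = 0 := by rw [hII.xr_W hW, h0]; simp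
    rw [h1, chid_of_le hd hd.le]
    simp
    ring
  · have hs := (hII.sqrt_pos hz).ne'
    have h1 : D.xr z j = |(z j).re| / √(AA z) := hII.xr_W hW
    have h2 : 0 < |(z j).re| := abs_pos.2 h0.ne
    have h3 : (z j).re / |(z j).re| = -1 := by
      rw [abs_of_neg h0, div_neg, div_self h0.ne]
    have h4 : chid d (D.xr z j) * D.xr z j * (1 + D.xr z j * S z) / |(z j).re| =
        chid d (D.xr z j) * (- -1 + D.xr z j * S z) / √(AA z) := by
      rw [neg_neg]
      have h5 : D.xr z j / |(z j).re| = 1 / √(AA z) := by rw [h1]; field_simp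
      calc chid d (D.xr z j) * D.xr z j * (1 + D.xr z j * S z) / |(z j).re| =
          chid d (D.xr z j) * (1 + D.xr z j * S z) * (D.xr z j / |(z j).re|) := by ring
        _ = _ := by rw [h5]; ring
    rw [h3, h4]
    ring

theorem dT_vs_out (ga d : ℝ) {z : Fin N → ℂ} (hII : II D z) {j : Fin N} (hW : ¬ Wd D z j) :
    dT D ga d z j (LD.vs 1 0) = ((2 - ga : ℝ) : ℂ) * (D.ch d z j : ℂ) +
      ((chid d (D.xr z j) * (-ps D.K (z j) + D.xr z j * S z) / √(AA z) : ℝ) : ℂ) *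
        pl ga (D.M j) (z j) := by
  rw [dT_vs ga d hII, pa_out (Or.inr hW)]
  ring

/-- **the derivative of `G` along `(-1, …, -1)` in the region II.** -/
theorem w_zero (cB ga : ℝ) {d : ℝ} (hd : 0 < d) {z : Fin N → ℂ} (hz : z ≠ 0) (hII : II D z) :
    fderiv ℝ (D.G cB ga d) z (LD.vs 1 0) = ∑ j, tm D cB ga d z j := by
  classical
  rw [fderiv_G D cB ga hd hz, dG_apply, hII.sum_dBe_vs hz, Complex.ofReal_sum,
    ← sum_sub_distrib]
  refine sum_congr rfl fun j _ => ?_
  unfold tm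
  by_cases hW : Wd D z j
  · rw [if_pos hW]
    by_cases hj : 0 < (z j).re
    · rw [if_pos hj, if_pos ⟨hj, hW⟩, dT_vs_pos ga d hz hII hj hW]
      push_cast
      ring
    · rw [if_neg hj, if_neg (fun h => hj h.1), dT_vs_neg ga hd hz hII (not_lt.1 hj) hW]
      simp
  · rw [if_neg hW, if_neg (fun h => hW h.2), dT_vs_out ga d hII hW]
    simp

/-! ### elementary bounds in the region II -/

theorem abs_S_le {z : Fin N → ℂ} : |S z| ≤ √N := by
  unfold S
  rw [abs_div, abs_of_nonneg (Real.sqrt_nonneg _)]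
  rcases eq_or_lt_of_le (Real.sqrt_nonneg (AA z)) with h | h
  · rw [← h, div_zero]; exact Real.sqrt_nonneg _
  · rw [div_le_iff₀ h, ← Real.sqrt_mul (Nat.cast_nonneg _)]
    apply Real.abs_le_sqrt
    have := sq_sum_le_card_mul_sum_sq (s := (univ : Finset (Fin N))) (f := fun j => (z j).re)
    simpa [AA] using this

end Crest.Agent.R267.Calc5_957
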