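import Crest.Agent.R267.T3aDefs_957

/-!
# Row 267, T3a: one variable calculus (truncated powers, `st`, `Af`, `Bf`, `Fl`, `win`)
-/

set_option autoImplicit false

noncomputable section

namespace Crest.Agent.R267.Calc_957

open Finset T3aDefs_957

/-! ### truncated powers -/

/-- truncated power. -/
def tp (k : ℕ) (x : ℝ) : ℝ := (max 0 x) ^ k

theorem tp_of_nonpos {k : ℕ} (hk : k ≠ 0) {x : ℝ} (hx : x ≤ 0) : tp k x = 0 := by
  unfold tp
  rw [max_eq_left hx, zero_pow hk]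

theorem tp_of_nonneg {k : ℕ} {x : ℝ} (hx : 0 ≤ x) : tp k x = x ^ k := by
  unfold tp
  rw [max_eq_right hx]

theorem tp_nonneg (k : ℕ) (x : ℝ) : 0 ≤ tp k x := pow_nonneg (le_max_left _ _) k

theorem hasDerivAt_tp (k : ℕ) (x : ℝ) :
    HasDerivAt (tp (k + 2)) ((k + 2) * tp (k + 1) x) x := by
  rcases lt_trichotomy x 0 with h | h | h
  · have h1 : tp (k + 2) =ᶠ[nhds x] fun _ => 0 := by
      filter_upwards [Iio_mem_nhds h] with y hy
      exact tp_of_nonpos (by omega) (le_of_lt hy)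
    rw [tp_of_nonpos (by omega) h.le, mul_zero]
    exact (hasDerivAt_const x (0 : ℝ)).congr_of_eventuallyEq h1
  · subst h
    rw [tp_of_nonpos (by omega) le_rfl, mul_zero]
    rw [hasDerivAt_iff_isLittleO_nhds_zero]
    have h1 : (fun h : ℝ => tp (k + 2) (0 + h) - tp (k + 2) 0 - h • (0 : ℝ)) =O[nhds 0]
        fun h : ℝ => h ^ (k + 2) := by
      refine Asymptotics.IsBigO.of_bound 1 (Filter.Eventually.of_forall fun h => ?_)
      rw [tp_of_nonpos (k := k + 2) (by omega) (le_refl (0 : ℝ)), zero_add, smul_zero, sub_zero,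
        sub_zero, one_mul, Real.norm_of_nonneg (tp_nonneg _ _), norm_pow, Real.norm_eq_abs]
      unfold tp
      exact pow_le_pow_left₀ (le_max_left _ _) (max_le (abs_nonneg _) (le_abs_self _)) _
    refine h1.trans_isLittleO ?_
    have := Asymptotics.isLittleO_pow_id (𝕜 := ℝ) (n := k + 2) (by omega)
    exact this
  · have h1 : tp (k + 2) =ᶠ[nhds x] fun y => y ^ (k + 2) := by
      filter_upwards [Ioi_mem_nhds h] with y hy
      exact tp_of_nonneg (le_of_lt hy)
    have h2 := (hasDerivAt_pow (k + 2) x).congr_of_eventuallyEq h1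
    rw [tp_of_nonneg h.le]
    refine h2.congr_deriv ?_
    push_cast
    rfl

theorem continuous_tp (k : ℕ) : Continuous (tp k) := by
  unfold tp
  exact (continuous_const.max continuous_id).pow k

theorem contDiff_tp (n k : ℕ) (h : n < k) : ContDiff ℝ n (tp k) := by
  induction n generalizing k with
  | zero => exact contDiff_zero.2 (continuous_tp k)
  | succ n ih =>
    obtain ⟨m, rfl⟩ : ∃ m, k = m + 2 := ⟨k - 2, by omega⟩
    have h1 : (((n + 1 : ℕ) : ℕ∞) : WithTop ℕ∞) = ((n : ℕ∞) : WithTop ℕ∞) + 1 := by norm_cast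
    rw [show ((n + 1 : ℕ) : WithTop ℕ∞) = (n : WithTop ℕ∞) + 1 by norm_cast,
      contDiff_succ_iff_deriv]
    refine ⟨fun x => (hasDerivAt_tp m x).differentiableAt, by simp, ?_⟩
    have h2 : deriv (tp (m + 2)) = fun x => ((m : ℝ) + 2) * tp (m + 1) x :=
      funext fun x => (hasDerivAt_tp m x).deriv
    rw [h2]
    exact contDiff_const.mul (ih (m + 1) (by omega))

/-! ### the step -/

theorem c01_of_le {x : ℝ} (h : x ≤ 0) : c01 x = 0 :=
  max_eq_left ((min_le_right _ _).trans h)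

theorem c01_of_ge {x : ℝ} (h : 1 ≤ x) : c01 x = 1 := by
  unfold c01
  rw [min_eq_left h]
  exact max_eq_right zero_le_one

theorem c01_of_mem {x : ℝ} (h : 0 ≤ x) (h1 : x ≤ 1) : c01 x = x := by
  unfold c01
  rw [min_eq_right h1, max_eq_right h]

theorem c01_nonneg (x : ℝ) : 0 ≤ c01 x := le_max_left _ _

theorem c01_le_one (x : ℝ) : c01 x ≤ 1 := max_le zero_le_one (min_le_left _ _)

theorem st_of_le {x : ℝ} (h : x ≤ 0) : st x = 0 := by
  unfold st
  rw [c01_of_le h]
  ring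

theorem st_of_ge {x : ℝ} (h : 1 ≤ x) : st x = 1 := by
  unfold st
  rw [c01_of_ge h]
  ring

theorem st_eq (x : ℝ) : st x = 10 * tp 3 x - 15 * tp 4 x + 6 * tp 5 x -
    (10 * tp 3 (x - 1) + 15 * tp 4 (x - 1) + 6 * tp 5 (x - 1)) := by
  rcases le_total x 0 with h | h
  · rw [st_of_le h, tp_of_nonpos (by norm_num) h, tp_of_nonpos (by norm_num) h,
      tp_of_nonpos (by norm_num) h, tp_of_nonpos (by norm_num) (by linarith : x - 1 ≤ 0),
      tp_of_nonpos (by norm_num) (by linarith : x - 1 ≤ 0),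
      tp_of_nonpos (by norm_num) (by linarith : x - 1 ≤ 0)]
    ring
  · rcases le_total x 1 with h1 | h1
    · rw [tp_of_nonneg h, tp_of_nonneg h, tp_of_nonneg h,
        tp_of_nonpos (by norm_num) (by linarith : x - 1 ≤ 0),
        tp_of_nonpos (by norm_num) (by linarith : x - 1 ≤ 0),
        tp_of_nonpos (by norm_num) (by linarith : x - 1 ≤ 0)]
      unfold st
      rw [c01_of_mem h h1]
      ring
    · rw [st_of_ge h1, tp_of_nonneg h, tp_of_nonneg h, tp_of_nonneg h,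
        tp_of_nonneg (by linarith : 0 ≤ x - 1), tp_of_nonneg (by linarith : 0 ≤ x - 1),
        tp_of_nonneg (by linarith : 0 ≤ x - 1)]
      ring

/-- derivative of the step. -/
def std (x : ℝ) : ℝ := 30 * c01 x ^ 2 * (1 - c01 x) ^ 2

theorem std_nonneg (x : ℝ) : 0 ≤ std x := by unfold std; positivity

theorem std_le (x : ℝ) : std x ≤ 15 / 8 := by
  unfold std
  have h0 := c01_nonneg x
  have h1 := c01_le_one x
  have h2 : c01 x * (1 - c01 x) ≤ 1 / 4 := by nlinarith [sq_nonneg (c01 x - 1 / 2)]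
  have h3 : 0 ≤ c01 x * (1 - c01 x) := mul_nonneg h0 (by linarith)
  have h4 : 30 * c01 x ^ 2 * (1 - c01 x) ^ 2 = 30 * (c01 x * (1 - c01 x)) ^ 2 := by ring
  rw [h4]
  nlinarith

theorem std_of_le {x : ℝ} (h : x ≤ 0) : std x = 0 := by
  unfold std
  rw [c01_of_le h]
  ring

theorem std_of_ge {x : ℝ} (h : 1 ≤ x) : std x = 0 := by
  unfold std
  rw [c01_of_ge h]
  ring

theorem std_pos {x : ℝ} (h : 0 < x) (h1 : x < 1) : 0 < std x := by
  unfold std
  rw [c01_of_mem h.le h1.le]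
  have : 0 < 1 - x := by linarith
  positivity

theorem std_eq (x : ℝ) : std x = 10 * (((1 : ℕ) + 2) * tp 2 x) - 15 * (((2 : ℕ) + 2) * tp 3 x) +
    6 * (((3 : ℕ) + 2) * tp 4 x) - (10 * (((1 : ℕ) + 2) * tp 2 (x - 1)) +
      15 * (((2 : ℕ) + 2) * tp 3 (x - 1)) + 6 * (((3 : ℕ) + 2) * tp 4 (x - 1))) := by
  rcases le_total x 0 with h | h
  · rw [std_of_le h, tp_of_nonpos (by norm_num) h, tp_of_nonpos (by norm_num) h,
      tp_of_nonpos (by norm_num) h, tp_of_nonpos (by norm_num) (by linarith : x - 1 ≤ 0),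
      tp_of_nonpos (by norm_num) (by linarith : x - 1 ≤ 0),
      tp_of_nonpos (by norm_num) (by linarith : x - 1 ≤ 0)]
    ring
  · rcases le_total x 1 with h1 | h1
    · rw [tp_of_nonneg h, tp_of_nonneg h, tp_of_nonneg h,
        tp_of_nonpos (by norm_num) (by linarith : x - 1 ≤ 0),
        tp_of_nonpos (by norm_num) (by linarith : x - 1 ≤ 0),
        tp_of_nonpos (by norm_num) (by linarith : x - 1 ≤ 0)]
      unfold std
      rw [c01_of_mem h h1]
      push_cast
      ring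
    · rw [std_of_ge h1, tp_of_nonneg h, tp_of_nonneg h, tp_of_nonneg h,
        tp_of_nonneg (by linarith : 0 ≤ x - 1), tp_of_nonneg (by linarith : 0 ≤ x - 1),
        tp_of_nonneg (by linarith : 0 ≤ x - 1)]
      push_cast
      ring

theorem hasDerivAt_st (x : ℝ) : HasDerivAt st (std x) x := by
  have h0 : st = fun x => 10 * tp 3 x - 15 * tp 4 x + 6 * tp 5 x -
    (10 * tp 3 (x - 1) + 15 * tp 4 (x - 1) + 6 * tp 5 (x - 1)) := funext st_eq
  rw [h0, std_eq]
  have e : ∀ k : ℕ, HasDerivAt (fun x => tp (k + 2) (x - 1)) ((k + 2) * tp (k + 1) (x - 1)) x :=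
    fun k => HasDerivAt.comp_sub_const x 1 (hasDerivAt_tp k (x - 1))
  exact (((((hasDerivAt_tp 1 x).const_mul 10).sub ((hasDerivAt_tp 2 x).const_mul 15)).add
    ((hasDerivAt_tp 3 x).const_mul 6))).sub
    ((((e 1).const_mul 10).add ((e 2).const_mul 15)).add ((e 3).const_mul 6))

theorem contDiff_st : ContDiff ℝ 2 st := by
  have h0 : st = fun x => 10 * tp 3 x - 15 * tp 4 x + 6 * tp 5 x -
    (10 * tp 3 (x - 1) + 15 * tp 4 (x - 1) + 6 * tp 5 (x - 1)) := funext st_eq
  rw [h0]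
  have e : ∀ k : ℕ, 2 < k → ContDiff ℝ 2 (tp k) := fun k hk => contDiff_tp 2 k hk
  have e' : ∀ k : ℕ, 2 < k → ContDiff ℝ 2 (fun x => tp k (x - 1)) := fun k hk =>
    (e k hk).comp (contDiff_id.sub contDiff_const)
  exact (((contDiff_const.mul (e 3 (by norm_num))).sub (contDiff_const.mul (e 4 (by norm_num)))).add
    (contDiff_const.mul (e 5 (by norm_num)))).sub
    (((contDiff_const.mul (e' 3 (by norm_num))).add (contDiff_const.mul (e' 4 (by norm_num)))).add
      (contDiff_const.mul (e' 5 (by norm_num))))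

theorem st_mono : Monotone st := monotone_of_deriv_nonneg
  (fun x => (hasDerivAt_st x).differentiableAt) fun x => by
    rw [(hasDerivAt_st x).deriv]
    exact std_nonneg x

theorem st_nonneg (x : ℝ) : 0 ≤ st x := by
  have h := st_mono (min_le_left x 0)
  rwa [st_of_le (min_le_right x 0)] at h

theorem st_le_one (x : ℝ) : st x ≤ 1 := by
  have h := st_mono (le_max_left x 1)
  rwa [st_of_ge (le_max_right x 1)] at h

theorem st_pos {x : ℝ} (h : 0 < x) : 0 < st x := by
  unfold st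
  rcases le_total x 1 with h1 | h1
  · rw [c01_of_mem h.le h1]
    have : 0 < 10 - 15 * x + 6 * x ^ 2 := by nlinarith [sq_nonneg (x - 5 / 4)]
    positivity
  · rw [c01_of_ge h1]
    norm_num

theorem st_lt_one {x : ℝ} (h : x < 1) : st x < 1 := by
  unfold st
  rcases le_total x 0 with h1 | h1
  · rw [c01_of_le h1]
    norm_num
  · rw [c01_of_mem h1 h.le]
    have h2 : 1 - x ^ 3 * (10 - 15 * x + 6 * x ^ 2) = (1 - x) ^ 3 * (1 + 3 * x + 6 * x ^ 2) := by
      ring
    have h3 : 0 < 1 - x := by linarith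
    have h4 : 0 < (1 - x) ^ 3 * (1 + 3 * x + 6 * x ^ 2) := by positivity
    linarith

/-! ### the loop -/

theorem Af_eq (v : ℝ) : Af v = 1 - 2 * st ((v - 1) / 2) - 2 * st ((-v - 1) / 2) := by
  unfold Af
  rcases le_total 0 v with h | h
  · rw [abs_of_nonneg h, st_of_le (by linarith : (-v - 1) / 2 ≤ 0)]
    ring
  · rw [abs_of_nonpos h, st_of_le (by linarith : (v - 1) / 2 ≤ 0)]
    ring

/-- derivative of `Af`. -/
def Afd (v : ℝ) : ℝ := -std ((v - 1) / 2) + std ((-v - 1) / 2)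

theorem hasDerivAt_Af (v : ℝ) : HasDerivAt Af (Afd v) v := by
  have h0 : Af = fun v => 1 - 2 * st ((v - 1) / 2) - 2 * st ((-v - 1) / 2) := funext Af_eq
  rw [h0]
  have h1 : HasDerivAt (fun v : ℝ => (v - 1) / 2) (1 / 2) v :=
    ((hasDerivAt_id v).sub_const 1).div_const 2
  have h2 : HasDerivAt (fun v : ℝ => (-v - 1) / 2) (-1 / 2) v :=
    ((hasDerivAt_id v).neg.sub_const 1).div_const 2
  have h3 := (hasDerivAt_st ((v - 1) / 2)).comp v h1
  have h4 := (hasDerivAt_st ((-v - 1) / 2)).comp v h2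
  have h5 := (((h3.const_mul 2).const_sub 1).sub (h4.const_mul 2))
  refine h5.congr_deriv ?_
  unfold Afd
  ring

theorem contDiff_Af : ContDiff ℝ 2 Af := by
  have h0 : Af = fun v => 1 - 2 * st ((v - 1) / 2) - 2 * st ((-v - 1) / 2) := funext Af_eq
  rw [h0]
  exact (contDiff_const.sub (contDiff_const.mul (contDiff_st.comp
    ((contDiff_id.sub contDiff_const).div_const 2)))).sub (contDiff_const.mul (contDiff_st.comp
    ((contDiff_id.neg.sub contDiff_const).div_const 2)))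

/-- the deviation of `Bf` from the identity. -/
def gf (v : ℝ) : ℝ := tp 3 (v - 1) / 2 - tp 4 (v - 1) / 8 + tp 3 (v - 3) / 2 + tp 4 (v - 3) / 8

theorem gf_of_le {v : ℝ} (h : v ≤ 1) : gf v = 0 := by
  unfold gf
  rw [tp_of_nonpos (by norm_num) (by linarith : v - 1 ≤ 0),
    tp_of_nonpos (by norm_num) (by linarith : v - 1 ≤ 0),
    tp_of_nonpos (by norm_num) (by linarith : v - 3 ≤ 0),
    tp_of_nonpos (by norm_num) (by linarith : v - 3 ≤ 0)]
  ring

theorem gf_of_mem {v : ℝ} (h : 1 ≤ v) (h1 : v ≤ 3) :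
    gf v = (v - 1) ^ 3 / 2 - (v - 1) ^ 4 / 8 := by
  unfold gf
  rw [tp_of_nonneg (by linarith : 0 ≤ v - 1), tp_of_nonneg (by linarith : 0 ≤ v - 1),
    tp_of_nonpos (by norm_num) (by linarith : v - 3 ≤ 0),
    tp_of_nonpos (by norm_num) (by linarith : v - 3 ≤ 0)]
  ring

theorem gf_of_ge {v : ℝ} (h : 3 ≤ v) : gf v = 2 * v - 4 := by
  unfold gf
  rw [tp_of_nonneg (by linarith : 0 ≤ v - 1), tp_of_nonneg (by linarith : 0 ≤ v - 1),
    tp_of_nonneg (by linarith : 0 ≤ v - 3), tp_of_nonneg (by linarith : 0 ≤ v - 3)]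
  ring

theorem Bf_of_nonneg {v : ℝ} (h : 0 ≤ v) : Bf v = v - gf v := by
  unfold Bf
  rcases eq_or_lt_of_le h with h0 | h0
  · rw [← h0]
    simp [gf_of_le]
  · rw [Real.sign_of_pos h0, abs_of_pos h0, one_mul]
    unfold Q1
    rcases le_total v 1 with h1 | h1
    · rw [gf_of_le h1]
      split_ifs with h2
      · rw [abs_le] at h2
        have : v = 1 := by linarith [h2.2]
        rw [this]; norm_num
      · rw [abs_of_nonneg (by linarith)]
        ring
    · rcases le_total v 3 with h3 | h3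
      · rw [gf_of_mem h1 h3, if_pos (abs_le.2 ⟨by linarith, by linarith⟩)]
        ring
      · rw [gf_of_ge h3]
        split_ifs with h2
        · rw [abs_le] at h2
          have : v = 3 := by linarith [h2.1]
          rw [this]; norm_num
        · rw [abs_of_nonpos (by linarith)]
          ring

theorem Bf_neg (v : ℝ) : Bf (-v) = -Bf v := by
  unfold Bf
  rw [abs_neg, Real.sign_neg]
  ring

theorem Bf_eq (v : ℝ) : Bf v = v - gf v + gf (-v) := by
  rcases le_total 0 v with h | h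
  · rw [Bf_of_nonneg h, gf_of_le (by linarith : -v ≤ 1)]
    ring
  · have h1 := Bf_neg v
    rw [Bf_of_nonneg (by linarith : 0 ≤ -v)] at h1
    rw [gf_of_le (by linarith : v ≤ 1)]
    linarith

/-- derivative of `gf`. -/
def gfd (v : ℝ) : ℝ := 3 * tp 2 (v - 1) / 2 - tp 3 (v - 1) / 2 + 3 * tp 2 (v - 3) / 2 +
  tp 3 (v - 3) / 2

theorem hasDerivAt_gf (v : ℝ) : HasDerivAt gf (gfd v) v := by
  have e : ∀ (k : ℕ) (a : ℝ), HasDerivAt (fun x => tp (k + 2) (x - a))
      ((k + 2) * tp (k + 1) (v - a)) v :=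
    fun k a => HasDerivAt.comp_sub_const v a (hasDerivAt_tp k (v - a))
  have h := ((((e 1 1).div_const 2).sub ((e 2 1).div_const 8)).add ((e 1 3).div_const 2)).add
    ((e 2 3).div_const 8)
  refine h.congr_deriv ?_
  unfold gfd
  push_cast
  ring

/-- derivative of `Bf`. -/
def Bfd (v : ℝ) : ℝ := 1 - gfd v - gfd (-v)

theorem hasDerivAt_Bf (v : ℝ) : HasDerivAt Bf (Bfd v) v := by
  have h0 : Bf = fun v => v - gf v + gf (-v) := funext Bf_eq
  rw [h0]
  have h1 : HasDerivAt (fun v : ℝ => gf (-v)) (-gfd (-v)) v := by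
    have := (hasDerivAt_gf (-v)).comp v (hasDerivAt_neg v)
    exact this.congr_deriv (by ring)
  have h := ((hasDerivAt_id v).sub (hasDerivAt_gf v)).add h1
  refine h.congr_deriv ?_
  unfold Bfd
  ring

theorem contDiff_gf : ContDiff ℝ 2 gf := by
  have e : ∀ (k : ℕ) (a : ℝ), 2 < k → ContDiff ℝ 2 (fun x => tp k (x - a)) := fun k a hk =>
    (contDiff_tp 2 k hk).comp (contDiff_id.sub contDiff_const)
  exact (((e 3 1 (by norm_num)).div_const 2).sub ((e 4 1 (by norm_num)).div_const 8)).add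
    ((e 3 3 (by norm_num)).div_const 2) |>.add ((e 4 3 (by norm_num)).div_const 8)

theorem contDiff_Bf : ContDiff ℝ 2 Bf := by
  have h0 : Bf = fun v => v - gf v + gf (-v) := funext Bf_eq
  rw [h0]
  exact (contDiff_id.sub contDiff_gf).add (contDiff_gf.comp contDiff_neg)

theorem gfd_of_le {v : ℝ} (h : v ≤ 1) : gfd v = 0 := by
  unfold gfd
  rw [tp_of_nonpos (by norm_num) (by linarith : v - 1 ≤ 0),
    tp_of_nonpos (by norm_num) (by linarith : v - 1 ≤ 0),
    tp_of_nonpos (by norm_num) (by linarith : v - 3 ≤ 0),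
    tp_of_nonpos (by norm_num) (by linarith : v - 3 ≤ 0)]
  ring

theorem gfd_of_mem {v : ℝ} (h : 1 ≤ v) (h1 : v ≤ 3) :
    gfd v = 3 * (v - 1) ^ 2 / 2 - (v - 1) ^ 3 / 2 := by
  unfold gfd
  rw [tp_of_nonneg (by linarith : 0 ≤ v - 1), tp_of_nonneg (by linarith : 0 ≤ v - 1),
    tp_of_nonpos (by norm_num) (by linarith : v - 3 ≤ 0),
    tp_of_nonpos (by norm_num) (by linarith : v - 3 ≤ 0)]
  ring

theorem gfd_of_ge {v : ℝ} (h : 3 ≤ v) : gfd v = 2 := by
  unfold gfd
  rw [tp_of_nonneg (by linarith : 0 ≤ v - 1), tp_of_nonneg (by linarith : 0 ≤ v - 1),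
    tp_of_nonneg (by linarith : 0 ≤ v - 3), tp_of_nonneg (by linarith : 0 ≤ v - 3)]
  ring

/-- derivative of `Fl`. -/
def Fld (M : ℕ) (τ : ℝ) : ℂ :=
  (∑ l ∈ range M, ((Afd (τ - sg l) : ℝ) : ℂ)) +
    Complex.I * (((∑ l ∈ range M, (1 + Bfd (τ - sg l)) : ℝ) -
      8 * M * std (τ - 8 * M) : ℝ) : ℂ)

theorem hasDerivAt_Fl (M : ℕ) (τ : ℝ) : HasDerivAt (Fl M) (Fld M τ) τ := by
  unfold Fl Fld
  refine HasDerivAt.add ?_ (HasDerivAt.const_mul _ (HasDerivAt.ofReal_comp ?_))
  · refine HasDerivAt.fun_sum fun l _ => HasDerivAt.ofReal_comp ?_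
    exact (HasDerivAt.comp_sub_const τ (sg l) (hasDerivAt_Af (τ - sg l))).const_add 1
  · refine HasDerivAt.sub ?_ (HasDerivAt.const_mul _ ?_)
    · refine HasDerivAt.fun_sum fun l _ => ?_
      exact (((hasDerivAt_id τ).sub_const (sg l)).const_add 4).add
        (HasDerivAt.comp_sub_const τ (sg l) (hasDerivAt_Bf (τ - sg l)))
    · exact HasDerivAt.comp_sub_const τ (8 * M : ℝ) (hasDerivAt_st (τ - 8 * M))

theorem contDiff_Fl (M : ℕ) : ContDiff ℝ 2 (Fl M) := by
  unfold Fl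
  refine ContDiff.add (ContDiff.sum fun l _ => ?_) (contDiff_const.mul ?_)
  · exact Complex.ofRealCLM.contDiff.comp
      (contDiff_const.add (contDiff_Af.comp (contDiff_id.sub contDiff_const)))
  · refine Complex.ofRealCLM.contDiff.comp ?_
    refine ContDiff.sub (ContDiff.sum fun l _ => ?_) (contDiff_const.mul ?_)
    · exact (contDiff_const.add (contDiff_id.sub contDiff_const)).add
        (contDiff_Bf.comp (contDiff_id.sub contDiff_const))
    · exact contDiff_st.comp (contDiff_id.sub contDiff_const)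

/-! ### values on the cells -/

theorem Af_of_ge {v : ℝ} (h : 3 ≤ |v|) : Af v = -1 := by
  unfold Af
  rw [st_of_ge (by linarith)]
  ring

theorem Af_of_le {v : ℝ} (h : |v| ≤ 1) : Af v = 1 := by
  unfold Af
  rw [st_of_le (by linarith)]
  ring

theorem Afd_of_ge {v : ℝ} (h : 3 ≤ v) : Afd v = 0 := by
  unfold Afd
  rw [std_of_ge (by linarith), std_of_le (by linarith)]
  ring

theorem Afd_of_le {v : ℝ} (h : v ≤ -3) : Afd v = 0 := by
  unfold Afd
  rw [std_of_le (by linarith), std_of_ge (by linarith)]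
  ring

theorem Afd_of_abs_le {v : ℝ} (h : |v| ≤ 1) : Afd v = 0 := by
  rw [abs_le] at h
  unfold Afd
  rw [std_of_le (by linarith), std_of_le (by linarith)]
  ring

theorem Bf_of_ge {v : ℝ} (h : 3 ≤ v) : Bf v = 4 - v := by
  rw [Bf_of_nonneg (by linarith), gf_of_ge h]
  ring

theorem Bf_of_le {v : ℝ} (h : v ≤ -3) : Bf v = -4 - v := by
  have h1 := Bf_neg v
  rw [Bf_of_ge (by linarith : 3 ≤ -v)] at h1
  linarith

theorem Bf_of_abs_le {v : ℝ} (h : |v| ≤ 1) : Bf v = v := by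
  rw [abs_le] at h
  rw [Bf_eq, gf_of_le h.2, gf_of_le (by linarith)]
  ring

theorem Bfd_of_ge {v : ℝ} (h : 3 ≤ v) : Bfd v = -1 := by
  unfold Bfd
  rw [gfd_of_ge h, gfd_of_le (by linarith)]
  ring

theorem Bfd_of_le {v : ℝ} (h : v ≤ -3) : Bfd v = -1 := by
  unfold Bfd
  rw [gfd_of_le (by linarith), gfd_of_ge (by linarith)]
  ring

theorem Bfd_of_abs_le {v : ℝ} (h : |v| ≤ 1) : Bfd v = 1 := by
  rw [abs_le] at h
  unfold Bfd
  rw [gfd_of_le h.2, gfd_of_le (by linarith)]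
  ring

/-- one summand of `Fl`, away from its cell. -/
theorem cell_low {v : ℝ} (h : v ≤ -3) : 1 + Af v = 0 ∧ 4 + v + Bf v = 0 ∧ Afd v = 0 ∧
    1 + Bfd v = 0 := by
  refine ⟨?_, ?_, Afd_of_le h, ?_⟩
  · rw [Af_of_ge (by rw [abs_of_nonpos (by linarith)]; linarith)]; ring
  · rw [Bf_of_le h]; ring
  · rw [Bfd_of_le h]; ring

theorem cell_high {v : ℝ} (h : 3 ≤ v) : 1 + Af v = 0 ∧ 4 + v + Bf v = 8 ∧ Afd v = 0 ∧
    1 + Bfd v = 0 := by
  refine ⟨?_, ?_, Afd_of_ge h, ?_⟩
  · rw [Af_of_ge (by rw [abs_of_nonneg (by linarith)]; linarith)]; ring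
  · rw [Bf_of_ge h]; ring
  · rw [Bfd_of_ge h]; ring

theorem sg_add {l l' : ℕ} (h : l < l') : sg l + 8 ≤ sg l' := by
  unfold sg
  have : ((l : ℝ) + 1) ≤ l' := by exact_mod_cast h
  linarith

/-- in the cell `l`, `p = -(1-ga) + Af v + i Bf v`. -/
theorem pv_cell {ga : ℝ} {M l : ℕ} (hl : l < M) {τ : ℝ} (h : |τ - sg l| ≤ 4) :
    pv ga M τ = ((-(1 - ga) + Af (τ - sg l) : ℝ) : ℂ) + Complex.I * ((Bf (τ - sg l) : ℝ) : ℂ) := by
  rw [abs_le] at h
  have hA : ∑ i ∈ range M, (1 + Af (τ - sg i)) = 1 + Af (τ - sg l) := by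
    refine sum_eq_single l (fun i _ hi => ?_) (fun h' => absurd (mem_range.2 hl) h')
    rcases lt_or_gt_of_ne hi with h1 | h1
    · exact (cell_high (by have := sg_add h1; linarith)).1
    · exact (cell_low (by have := sg_add h1; linarith)).1
  have hB : ∑ i ∈ range M, (4 + (τ - sg i) + Bf (τ - sg i)) = 8 * l + (4 + (τ - sg l) + Bf (τ - sg l)) := by
    have h1 : ∀ i ∈ range M, 4 + (τ - sg i) + Bf (τ - sg i) =
        (if i < l then 8 else 0) + (if i = l then (4 + (τ - sg l) + Bf (τ - sg l)) else 0) := by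
      intro i _
      rcases lt_trichotomy i l with h1 | h1 | h1
      · rw [(cell_high (by have := sg_add h1; linarith)).2.1, if_pos h1, if_neg h1.ne, add_zero]
      · subst h1
        simp
      · rw [(cell_low (by have := sg_add h1; linarith)).2.1, if_neg (by omega), if_neg h1.ne',
          add_zero]
    rw [sum_congr rfl h1, sum_add_distrib, sum_ite_eq' (range M) l, if_pos (mem_range.2 hl)]
    congr 1
    rw [← sum_filter, sum_const, nsmul_eq_mul]
    have : (range M).filter (fun i => i < l) = range l := by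
      ext i
      simp only [mem_filter, mem_range]
      omega
    rw [this, card_range]
    ring
  have hS : st (τ - 8 * M) = 0 := by
    refine st_of_le ?_
    have : (l : ℝ) + 1 ≤ M := by exact_mod_cast hl
    unfold sg at h
    linarith
  unfold pv Fl
  rw [hB, hS, ← Complex.ofReal_sum, hA]
  apply Complex.ext
  · simp
    ring
  · simp [sg]
    ring

/-- derivative of `pv`. -/
def pvd (M : ℕ) (τ : ℝ) : ℂ := -Complex.I + Fld M τ

theorem hasDerivAt_pv (ga : ℝ) (M : ℕ) (τ : ℝ) : HasDerivAt (pv ga M) (pvd M τ) τ := by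
  unfold pv pvd
  have h1 : HasDerivAt (fun τ : ℝ => -((2 - ga : ℝ) : ℂ) - Complex.I * (τ : ℂ))
      (-Complex.I) τ := by
    have h2 : HasDerivAt (fun τ : ℝ => (τ : ℂ)) 1 τ := by
      simpa using (hasDerivAt_id τ).ofReal_comp
    have := (h2.const_mul Complex.I).const_sub (-((2 - ga : ℝ) : ℂ))
    simpa using this
  exact h1.add (hasDerivAt_Fl M τ)

theorem contDiff_pv (ga : ℝ) (M : ℕ) : ContDiff ℝ 2 (pv ga M) := by
  unfold pv
  exact (contDiff_const.sub (contDiff_const.mul Complex.ofRealCLM.contDiff)).add (contDiff_Fl M)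

theorem pvd_cell {M l : ℕ} (hl : l < M) {τ : ℝ} (h : |τ - sg l| ≤ 4) :
    pvd M τ = ((Afd (τ - sg l) : ℝ) : ℂ) + Complex.I * ((Bfd (τ - sg l) : ℝ) : ℂ) := by
  rw [abs_le] at h
  have hA : ∑ i ∈ range M, Afd (τ - sg i) = Afd (τ - sg l) := by
    refine sum_eq_single l (fun i _ hi => ?_) (fun h' => absurd (mem_range.2 hl) h')
    rcases lt_or_gt_of_ne hi with h1 | h1
    · exact (cell_high (by have := sg_add h1; linarith)).2.2.1
    · exact (cell_low (by have := sg_add h1; linarith)).2.2.1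
  have hB : ∑ i ∈ range M, (1 + Bfd (τ - sg i)) = 1 + Bfd (τ - sg l) := by
    refine sum_eq_single l (fun i _ hi => ?_) (fun h' => absurd (mem_range.2 hl) h')
    rcases lt_or_gt_of_ne hi with h1 | h1
    · exact (cell_high (by have := sg_add h1; linarith)).2.2.2
    · exact (cell_low (by have := sg_add h1; linarith)).2.2.2
  have hS : std (τ - 8 * M) = 0 := by
    refine std_of_le ?_
    have : (l : ℝ) + 1 ≤ M := by exact_mod_cast hl
    unfold sg at h
    linarith
  unfold pvd Fld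
  rw [hB, hS, ← Complex.ofReal_sum, hA]
  apply Complex.ext
  · simp
  · simp

theorem Fl_low {M : ℕ} {τ : ℝ} (h : τ ≤ 1) : Fl M τ = 0 := by
  have h1 : ∀ i : ℕ, τ - sg i ≤ -3 := fun i => by
    unfold sg
    have : (0 : ℝ) ≤ i := i.cast_nonneg
    linarith
  have h2 : 8 * (M : ℝ) * st (τ - 8 * M) = 0 := by
    rcases Nat.eq_zero_or_pos M with h0 | h0
    · rw [h0]; simp
    · have : (1 : ℝ) ≤ M := by exact_mod_cast h0
      rw [st_of_le (by linarith), mul_zero]
  unfold Fl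
  rw [h2, sum_eq_zero fun i _ => by rw [(cell_low (h1 i)).1, Complex.ofReal_zero],
    sum_eq_zero fun i _ => (cell_low (h1 i)).2.1]
  simp

theorem Fld_low {M : ℕ} {τ : ℝ} (h : τ ≤ 1) : Fld M τ = 0 := by
  have h1 : ∀ i : ℕ, τ - sg i ≤ -3 := fun i => by
    unfold sg
    have : (0 : ℝ) ≤ i := i.cast_nonneg
    linarith
  have h2 : 8 * (M : ℝ) * std (τ - 8 * M) = 0 := by
    rcases Nat.eq_zero_or_pos M with h0 | h0
    · rw [h0]; simp
    · have : (1 : ℝ) ≤ M := by exact_mod_cast h0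
      rw [std_of_le (by linarith), mul_zero]
  unfold Fld
  rw [h2, sum_eq_zero fun i _ => by rw [(cell_low (h1 i)).2.2.1, Complex.ofReal_zero],
    sum_eq_zero fun i _ => (cell_low (h1 i)).2.2.2]
  simp

/-- on the last line `p = -(2-ga) - i (τ - 8M + 8M st (τ - 8M))`. -/
theorem pv_high {ga : ℝ} {M : ℕ} {τ : ℝ} (h : 8 * M - 1 ≤ τ) :
    pv ga M τ = ((-(2 - ga) : ℝ) : ℂ) -
      Complex.I * ((τ - 8 * M + 8 * M * st (τ - 8 * M) : ℝ) : ℂ) := by
  have h1 : ∀ i ∈ range M, 3 ≤ τ - sg i := fun i hi => by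
    have : (i : ℝ) + 1 ≤ M := by exact_mod_cast mem_range.1 hi
    unfold sg
    linarith
  unfold pv Fl
  rw [sum_eq_zero fun i hi => by rw [(cell_high (h1 i hi)).1, Complex.ofReal_zero],
    sum_congr rfl fun i hi => (cell_high (h1 i hi)).2.1, sum_const, card_range, nsmul_eq_mul]
  apply Complex.ext
  · simp
  · simp
    ring

theorem pvd_high {M : ℕ} {τ : ℝ} (h : 8 * M - 1 ≤ τ) :
    pvd M τ = -Complex.I * ((1 + 8 * M * std (τ - 8 * M) : ℝ) : ℂ) := by
  have h1 : ∀ i ∈ range M, 3 ≤ τ - sg i := fun i hi => by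
    have : (i : ℝ) + 1 ≤ M := by exact_mod_cast mem_range.1 hi
    unfold sg
    linarith
  unfold pvd Fld
  rw [sum_eq_zero fun i hi => by rw [(cell_high (h1 i hi)).2.2.1, Complex.ofReal_zero],
    sum_eq_zero fun i hi => (cell_high (h1 i hi)).2.2.2]
  apply Complex.ext
  · simp
  · simp
    ring

theorem pv_low {ga : ℝ} {M : ℕ} {τ : ℝ} (h : τ ≤ 1) :
    pv ga M τ = -((2 - ga : ℝ) : ℂ) - Complex.I * (τ : ℂ) := by
  unfold pv
  rw [Fl_low h, add_zero]

theorem pvd_low {M : ℕ} {τ : ℝ} (h : τ ≤ 1) : pvd M τ = -Complex.I := by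
  unfold pvd
  rw [Fld_low h, add_zero]

theorem Fl_high {M : ℕ} {τ : ℝ} (h : 8 * M + 1 ≤ τ) : Fl M τ = 0 := by
  have h1 : ∀ i ∈ range M, 3 ≤ τ - sg i := fun i hi => by
    have : (i : ℝ) + 1 ≤ M := by exact_mod_cast mem_range.1 hi
    unfold sg
    linarith
  unfold Fl
  rw [sum_eq_zero fun i hi => by rw [(cell_high (h1 i hi)).1, Complex.ofReal_zero],
    sum_congr rfl fun i hi => (cell_high (h1 i hi)).2.1, sum_const, card_range, nsmul_eq_mul,
    st_of_ge (by linarith)]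
  apply Complex.ext
  · simp
  · simp
    ring

/-- trichotomy: first line, a cell, last line. -/
theorem cases_tau (M : ℕ) (τ : ℝ) : τ ≤ 0 ∨ (∃ l < M, |τ - sg l| ≤ 4) ∨ 8 * (M : ℝ) ≤ τ := by
  rcases le_total τ 0 with h | h
  · exact Or.inl h
  · rcases le_or_gt (8 * (M : ℝ)) τ with h1 | h1
    · exact Or.inr (Or.inr h1)
    · refine Or.inr (Or.inl ⟨⌊τ / 8⌋₊, ?_, ?_⟩)
      · rw [Nat.floor_lt (by positivity)]
        linarith
      · have h2 := Nat.floor_le (by positivity : 0 ≤ τ / 8)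
        have h3 := Nat.lt_floor_add_one (τ / 8)
        unfold sg
        rw [abs_le]
        constructor <;> linarith

theorem pl_of_pos {ga : ℝ} {M : ℕ} {z : ℂ} (h : 0 < z.re) :
    pl ga M z = (z.re : ℂ) * pv ga M (z.im / z.re) := by
  unfold pl pv
  rw [if_pos h]
  have h1 : (z.im : ℂ) = (z.re : ℂ) * ((z.im / z.re : ℝ) : ℂ) := by
    rw [← Complex.ofReal_mul, mul_div_cancel₀ _ h.ne']
  rw [h1]
  ring

theorem pl_of_nonpos {ga : ℝ} {M : ℕ} {z : ℂ} (h : z.re ≤ 0) :
    pl ga M z = -((2 - ga : ℝ) : ℂ) * z.re - Complex.I * z.im := by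
  unfold pl
  rw [if_neg (not_lt.2 h), add_zero]

/-- outside the cone of the loops the planar function is linear. -/
theorem pl_of_far {ga : ℝ} {M : ℕ} {z : ℂ} (h : (8 * M + 1) * z.re ≤ |z.im| ∨ z.im ≤ z.re) :
    pl ga M z = -((2 - ga : ℝ) : ℂ) * z.re - Complex.I * z.im := by
  rcases le_or_gt z.re 0 with h0 | h0
  · exact pl_of_nonpos h0
  · unfold pl
    rw [if_pos h0]
    have h1 : Fl M (z.im / z.re) = 0 := by
      rcases h with h | h
      · rcases le_total 0 z.im with h2 | h2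
        · refine Fl_high ?_
          rwa [le_div_iff₀ h0, ← abs_of_nonneg h2]
        · exact Fl_low ((div_nonpos_of_nonpos_of_nonneg h2 h0.le).trans zero_le_one)
      · exact Fl_low (by rwa [div_le_one h0])
    rw [h1, mul_zero, add_zero]

end Crest.Agent.R267.Calc_957
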