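import Crest.Agent.R267.Carve_363

/-!
# Row 267 (helper363): the carve with plate and tubes, abstract data
-/

set_option autoImplicit false
set_option linter.unusedSectionVars false
set_option linter.unusedVariables false

noncomputable section

open Set Filter Topology Metric
open scoped NNReal ContDiff InnerProductSpace
open Crest.Agent.R267.Cone_808 Crest.Agent.R267.SphReg_808 Crest.Agent.R267.Hm_951
open Crest.Agent.R267.FlowLine_363 Crest.Agent.R267.Carve_363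
open Crest.Agent.R267.GS_808 Crest.Agent.R267.EndDef_864
open Crest.Agent.R267.T3aDefs_957.LD (vt vs)

namespace Crest.Agent.R267.Carve2_363

variable {n m : ℕ}

/-- real parts as a vector of `W n` -/
def sv : (Fin (n + 3) → ℂ) →L[ℝ] W n :=
  ((PiLp.continuousLinearEquiv 2 ℝ fun _ : Fin (n + 3) => ℝ).symm :
    (Fin (n + 3) → ℝ) →L[ℝ] W n).comp
    (ContinuousLinearMap.pi fun j => Complex.reCLM.comp (ContinuousLinearMap.proj j))

/-- imaginary parts as a vector of `W n` -/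
def tv : (Fin (n + 3) → ℂ) →L[ℝ] W n :=
  ((PiLp.continuousLinearEquiv 2 ℝ fun _ : Fin (n + 3) => ℝ).symm :
    (Fin (n + 3) → ℝ) →L[ℝ] W n).comp
    (ContinuousLinearMap.pi fun j => Complex.imCLM.comp (ContinuousLinearMap.proj j))

@[simp] theorem sv_apply (x : Fin (n + 3) → ℂ) (j : Fin (n + 3)) : sv x j = (x j).re := rfl

@[simp] theorem tv_apply (x : Fin (n + 3) → ℂ) (j : Fin (n + 3)) : tv x j = (x j).im := rfl

/-- `(1, …, 1)` -/
def one (n : ℕ) : W n := vec fun _ => 1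

@[simp] theorem one_apply (j : Fin (n + 3)) : one n j = 1 := rfl

theorem norm_sv (x : Fin (n + 3) → ℂ) : ‖sv x‖ ^ 2 = S2 x := by
  rw [norm_sq_def]; rfl

theorem norm_tv (x : Fin (n + 3) → ℂ) : nsq x = ‖sv x‖ ^ 2 + ‖tv x‖ ^ 2 := by
  rw [norm_sq_def, norm_sq_def, nsq, ← Finset.sum_add_distrib]
  refine Finset.sum_congr rfl fun j _ => ?_
  rw [← Complex.normSq_eq_norm_sq, Complex.normSq_apply, sv_apply, tv_apply]
  ring

theorem eq_zero_iff {x : Fin (n + 3) → ℂ} : x = 0 ↔ sv x = 0 ∧ tv x = 0 := by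
  constructor
  · rintro rfl
    exact ⟨map_zero _, map_zero _⟩
  · rintro ⟨h1, h2⟩
    funext j
    apply Complex.ext
    · exact congrArg (fun v : W n => v j) h1
    · exact congrArg (fun v : W n => v j) h2

@[simp] theorem sv_vs (b : ℝ) (Y : Fin (n + 3) → ℝ) : sv (vs b Y) = -b • one n := by
  ext j
  simp [vs]

@[simp] theorem tv_vs (b : ℝ) (Y : Fin (n + 3) → ℝ) : tv (vs b Y) = vec Y := by
  ext j
  simp [vs]

@[simp] theorem sv_vt (Y : Fin (n + 3) → ℝ) : sv (vt Y) = 0 := by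
  ext j
  simp [vt]

@[simp] theorem tv_vt (Y : Fin (n + 3) → ℝ) : tv (vt Y) = vec Y := by
  ext j
  simp [vt]

theorem vs_add (b : ℝ) (Y Z : Fin (n + 3) → ℝ) : vs b (Y + Z) = vs b Y + vt Z := by
  funext j
  simp only [vs, vt, Pi.add_apply]
  push_cast
  ring

theorem vt_smul (c : ℝ) (Z : Fin (n + 3) → ℝ) : vt (c • Z) = c • vt Z := by
  funext j
  simp only [vt, Pi.smul_apply, smul_eq_mul, Complex.real_smul]
  push_cast
  ring

theorem vs_smul (c b : ℝ) (Y : Fin (n + 3) → ℝ) : vs (c * b) (c • Y) = c • vs b Y := by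
  funext j
  simp only [vs, Pi.smul_apply, smul_eq_mul, Complex.real_smul]
  push_cast
  ring

theorem norm_vs_le (Y : Fin (n + 3) → ℝ) : ‖vs 1 Y‖ ≤ 1 + ‖Y‖ := by
  rw [pi_norm_le_iff_of_nonneg (by positivity)]
  intro j
  unfold vs
  refine (norm_add_le _ _).trans ?_
  rw [norm_neg, norm_mul, Complex.norm_I, one_mul, Complex.norm_real, Complex.norm_real,
    norm_one]
  exact add_le_add le_rfl (norm_le_pi_norm Y j)

theorem hor_add' (v w : W n) : hor (v + w) = hor v + hor w := by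
  unfold hor
  rw [inner_add_right, add_smul]
  abel

theorem hor_smul' (c : ℝ) (v : W n) : hor (c • v) = c • hor v := by
  unfold hor
  rw [inner_smul_right, smul_sub, smul_smul]

theorem continuous_hor' : Continuous (hor : W n → W n) := by
  unfold hor
  fun_prop

/-! ### cones -/

theorem cone_lower {f g : W n → ℝ} (cf : ContinuousOn f {0}ᶜ)
    (hf : ∀ (c : ℝ) s, 0 < c → f (c • s) = c * f s) (cg : ContinuousOn g {0}ᶜ)
    (hg : ∀ (c : ℝ) s, 0 < c → g (c • s) = c * g s) (pos : ∀ s, s ≠ 0 → g s ≤ 0 → 0 < f s) :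
    ∃ c > 0, ∀ s, s ≠ 0 → g s ≤ 0 → c * ‖s‖ ≤ f s := by
  have hsub : sphere (0 : W n) 1 ⊆ {0}ᶜ := by
    intro s hs h
    rw [mem_singleton_iff] at h
    rw [h, mem_sphere_iff_norm, sub_zero, norm_zero] at hs
    exact zero_ne_one hs
  have hne : (sphere (0 : W n) 1).Nonempty := ⟨u1 n, by
    rw [mem_sphere_iff_norm, sub_zero, norm_u1]⟩
  obtain ⟨s₀, hs₀, hmin⟩ := (isCompact_sphere (0 : W n) 1).exists_isMinOn hne
    ((cf.sup cg).mono hsub)
  have hp : 0 < max (f s₀) (g s₀) := by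
    by_contra h
    push Not at h
    have h1 := (le_max_left _ _).trans h
    exact absurd (pos s₀ (hsub hs₀) ((le_max_right _ _).trans h)) (not_lt.2 h1)
  refine ⟨_, hp, fun s hs h => ?_⟩
  have h2 : 0 < ‖s‖ := norm_pos_iff.2 hs
  have h3 : ‖s‖⁻¹ • s ∈ sphere (0 : W n) 1 := by
    rw [mem_sphere_iff_norm, sub_zero, norm_smul, norm_inv, norm_norm, inv_mul_cancel₀ h2.ne']
  have h4 : max (f s₀) (g s₀) ≤ max (f (‖s‖⁻¹ • s)) (g (‖s‖⁻¹ • s)) := hmin h3
  rw [hf _ _ (inv_pos.2 h2), hg _ _ (inv_pos.2 h2)] at h4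
  have h5 : ‖s‖⁻¹ * g s ≤ 0 := mul_nonpos_of_nonneg_of_nonpos (inv_pos.2 h2).le h
  rcases le_max_iff.1 h4 with h6 | h6
  · rw [mul_comm, ← le_div_iff₀' h2, div_eq_inv_mul]
    exact h6
  · exact absurd (hp.trans_le (h6.trans h5)) (lt_irrefl _)

theorem cone_upper {f : W n → ℝ} (cf : ContinuousOn f {0}ᶜ)
    (hf : ∀ (c : ℝ) s, 0 < c → f (c • s) = c * f s) :
    ∃ c > 0, ∀ s, s ≠ 0 → f s ≤ c * ‖s‖ := by
  obtain ⟨M, hM⟩ := (isCompact_sphere (0 : W n) 1).exists_bound_of_continuousOn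
    (f := f) (cf.mono fun y hy h => by
      rw [mem_singleton_iff] at h
      rw [h, mem_sphere_iff_norm, sub_zero, norm_zero] at hy
      exact zero_ne_one hy)
  refine ⟨|M| + 1, by positivity, fun s hs => ?_⟩
  have h2 : 0 < ‖s‖ := norm_pos_iff.2 hs
  have h3 := hM (‖s‖⁻¹ • s) (by
    rw [mem_sphere_iff_norm, sub_zero, norm_smul, norm_inv, norm_norm, inv_mul_cancel₀ h2.ne'])
  rw [hf _ _ (inv_pos.2 h2), norm_mul, norm_inv, norm_norm, inv_mul_le_iff₀ h2] at h3
  have h4 := le_abs_self (f s)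
  have h5 := le_abs_self M
  rw [Real.norm_eq_abs] at h3
  nlinarith

/-! ### derivatives along lines -/

theorem line_fderiv {f : (Fin (n + 3) → ℂ) → ℝ} {x y : Fin (n + 3) → ℂ} {d : ℝ}
    (hf : DifferentiableAt ℝ f x) (h : HasDerivAt (fun h : ℝ => f (x + h • y)) d 0) :
    fderiv ℝ f x y = d := by
  have h6 : HasFDerivAt f (fderiv ℝ f x) (x + (0 : ℝ) • y) := by
    rw [zero_smul, add_zero]
    exact hf.hasFDerivAt
  have h7 : HasDerivAt (fun τ : ℝ => x + τ • y) y 0 := by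
    simpa using ((hasDerivAt_id (0 : ℝ)).smul_const y).const_add x
  exact (h6.comp_hasDerivAt 0 h7).unique h

theorem hasDerivAt_norm_line {u v : W n} (hu : u ≠ 0) :
    HasDerivAt (fun h : ℝ => ‖u + h • v‖) (⟪u, v⟫_ℝ / ‖u‖) 0 := by
  have hu' : 0 < ‖u‖ := norm_pos_iff.2 hu
  have h1 : (fun h : ℝ => ‖u + h • v‖) =
      fun h => √(‖u‖ ^ 2 + h * (2 * ⟪u, v⟫_ℝ) + h ^ 2 * ‖v‖ ^ 2) := by
    funext h
    rw [← Real.sqrt_sq (norm_nonneg (u + h • v)), norm_add_sq_real, inner_smul_right, norm_smul,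
      mul_pow, Real.norm_eq_abs, sq_abs]
    congr 1
    ring
  rw [h1]
  have h2 : HasDerivAt (fun h : ℝ => ‖u‖ ^ 2 + h * (2 * ⟪u, v⟫_ℝ) + h ^ 2 * ‖v‖ ^ 2)
      (2 * ⟪u, v⟫_ℝ) 0 := by
    have h3 := ((hasDerivAt_id (0 : ℝ)).mul_const (2 * ⟪u, v⟫_ℝ)).const_add (‖u‖ ^ 2)
    have h4 := ((hasDerivAt_id (0 : ℝ)).fun_pow 2).mul_const (‖v‖ ^ 2)
    have h5 := h3.fun_add h4
    simpa using h5
  have h3 := h2.sqrt (by simp [hu'.ne'])
  have e : 2 * ⟪u, v⟫_ℝ / (2 * √(‖u‖ ^ 2 + 0 * (2 * ⟪u, v⟫_ℝ) + 0 ^ 2 * ‖v‖ ^ 2)) =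
      ⟪u, v⟫_ℝ / ‖u‖ := by
    have : ‖u‖ ^ 2 + 0 * (2 * ⟪u, v⟫_ℝ) + 0 ^ 2 * ‖v‖ ^ 2 = ‖u‖ ^ 2 := by ring
    rw [this, Real.sqrt_sq hu'.le]
    field_simp
  rw [e] at h3
  exact h3

/-! ### the data -/

/-- carve data: the function `G`, the gauge `ψ`, the tubes and the plate -/
structure CD (n m : ℕ) where
  G : (Fin (n + 3) → ℂ) → ℂ
  ψ : (Fin (n + 3) → ℂ) → ℝ
  eta : Fin m → W n → W n
  A : W n → W n → W n
  nrm : Fin m → W n → W n
  a00 : W n → ℝ
  ww : W n → W n → ℝ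
  κ2 : ℝ
  r2 : ℝ
  r3 : ℝ
  lA : ℝ
  c1 : ℝ
  sm : ContDiffOn ℝ 2 G {0}ᶜ
  hom : ∀ (r : ℝ) x, 0 < r → G (r • x) = r • G x
  S0 : ∀ x : Fin (n + 3) → ℂ, (∀ j, (x j).re = 0) → (G x).re = 0
  K1 : ∀ x, x ≠ 0 → (G x).im = 0 → 0 ≤ (G x).re →
    ∃ V : Fin (n + 3) → ℝ, (fderiv ℝ G x (vt V)).im ≠ 0
  K2 : ∀ x, x ≠ 0 → G x = 0 → ∃ (b : ℝ) (Y : Fin (n + 3) → ℝ), 0 ≤ b ∧
    (fderiv ℝ G x (vs b Y)).im = 0 ∧ 0 < (fderiv ℝ G x (vs b Y)).re
  c00 : ∀ h : ℝ, (G (vt fun _ => h)).im = 0 → h = 0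
  sψ : ContDiffOn ℝ 1 ψ {0}ᶜ
  ψ0 : ∀ x, x ≠ 0 → 0 < ψ x
  hψ : ∀ (r : ℝ) x, 0 < r → ψ (r • x) = r * ψ x
  low : ∀ x, sv x ≠ 0 → 0 ≤ a00 (sv x) → 0 < (G x).re
  hr2 : 0 < r2
  tube : ∀ k x, sv x ≠ 0 → ‖tv x - eta k (sv x)‖ ≤ r2 * ‖sv x‖ →
    (G x).im = ⟪nrm k (sv x), tv x - eta k (sv x)⟫_ℝ ∧ 0 < (G x).re
  hr3 : 0 < r3
  R4 : ∀ (l : ℝ) x, 0 < l → sv x = l • one n → (G x).im = 0 → 0 ≤ (G x).re →
    ∃ (k : Fin m) (Y : Fin (n + 3) → ℝ), (fderiv ℝ G x (vt Y)).im = 0 ∧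
      (fderiv ℝ G x (vt Y)).re ≤ 0 ∧ ((G x).re = 0 → (fderiv ℝ G x (vt Y)).re < 0) ∧
      (tv x ≠ eta k (sv x) → 0 < fderiv ℝ ψ x (vt Y) ∧ 0 < ⟪tv x - eta k (sv x), vec Y⟫_ℝ) ∧
      ∀ k', k' ≠ k → r3 * ‖sv x‖ ≤ ‖tv x - eta k' (sv x)‖
  ceta : ∀ k, ContDiffOn ℝ 1 (eta k) {0}ᶜ
  heta : ∀ k (c : ℝ) s, 0 < c → eta k (c • s) = c • eta k s
  cA : ∀ s v, s ≠ 0 → ContDiffAt ℝ 1 (fun p : W n × W n => A p.1 p.2) (s, v)
  hA : ∀ (c : ℝ) s v, 0 < c → A (c • s) v = A s v
  Aadd : ∀ s v w, A s (v + w) = A s v + A s w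
  Asmul : ∀ s (c : ℝ) v, A s (c • v) = c • A s v
  hlA : 0 < lA
  Alow : ∀ s v, lA * ‖v‖ ≤ ‖A s v‖
  A1 : ∀ (l : ℝ) v, 0 < l → A (l • one n) v = v
  ca00 : ContDiffOn ℝ 1 a00 {0}ᶜ
  h00 : ∀ (c : ℝ) s, 0 < c → a00 (c • s) = c * a00 s
  hc1 : 0 < c1
  m00 : ∀ s, s ≠ 0 → 0 ≤ a00 s → c1 ≤ fderiv ℝ a00 s (-one n)
  neg1 : 0 < a00 (-one n)
  pos1 : a00 (one n) < 0
  ww_nonneg : ∀ s t, 0 ≤ ww s t
  hww : ∀ (c : ℝ) s t, 0 < c → ww (c • s) (c • t) = c * ww s t
  cww : ∀ s t, s ≠ 0 → ContDiffAt ℝ 1 (fun p : W n × W n => ww p.1 p.2) (s, t)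
  lww : ∃ C : ℝ, ∀ p p' : W n × W n, |ww p.1 p.2 - ww p'.1 p'.2| ≤ C * ‖p - p'‖
  ww_c : Continuous fun p : W n × W n => ww p.1 p.2
  ww_zero : ∀ s t, ‖hor t‖ ≤ κ2 * ‖s‖ → ww s t = 0
  ww_pos : ∀ t, hor t ≠ 0 → 0 < ww 0 t
  T1 : ∀ k s, s ≠ 0 → ‖hor (eta k s)‖ < κ2 * ‖s‖
  dis : ∀ s, s ≠ 0 → a00 s ≤ 0 → ∀ k l, k ≠ l → eta k s ≠ eta l s

namespace CD

variable (P : CD n m)

/-- plate function -/
def a0 (ε : ℝ) (x : Fin (n + 3) → ℂ) : ℝ := P.a00 (sv x) - ε * P.ww (sv x) (tv x)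

/-- tube function -/
def ak (r : ℝ) (k : Fin m) (x : Fin (n + 3) → ℂ) : ℝ :=
  r * ‖sv x‖ - ‖P.A (sv x) (tv x - P.eta k (sv x))‖

/-- continuous tube function -/
def bk (r : ℝ) (k : Fin m) (x : Fin (n + 3) → ℂ) : ℝ := max (P.ak r k x) (-(P.lA / 4 * √(nsq x)))

/-- all functions -/
def af (r ε : ℝ) (i : Option (Fin m)) : (Fin (n + 3) → ℂ) → ℝ :=
  match i with
  | none => P.a0 ε
  | some k => P.bk r k

theorem A_zero (s : W n) : P.A s 0 = 0 := by
  have := P.Asmul s 0 0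
  rwa [zero_smul, zero_smul] at this

theorem a00_zero : P.a00 0 = 0 := by
  have := P.h00 2 0 two_pos
  rw [smul_zero] at this
  linarith

theorem eta_zero (k : Fin m) : P.eta k 0 = 0 := by
  have h := P.heta k 2 0 two_pos
  rw [smul_zero, two_smul] at h
  exact left_eq_add.1 h

theorem exists_Ceta : ∃ C > 0, ∀ k s, ‖P.eta k s‖ ≤ C * ‖s‖ := by
  have h : ∀ k, ∃ C > 0, ∀ s, s ≠ 0 → ‖P.eta k s‖ ≤ C * ‖s‖ := fun k =>
    cone_upper (f := fun s => ‖P.eta k s‖) (P.ceta k).continuousOn.norm fun c s hc => by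
      rw [P.heta k c s hc, norm_smul, Real.norm_of_nonneg hc.le]
  choose C hC hC' using h
  refine ⟨1 + ∑ k, C k, by
    have : 0 ≤ ∑ k, C k := Finset.sum_nonneg fun k _ => (hC k).le
    linarith, fun k s => ?_⟩
  by_cases hs : s = 0
  · rw [hs, P.eta_zero, norm_zero, mul_zero]
  · refine (hC' k s hs).trans ?_
    have h1 : C k ≤ ∑ k, C k := Finset.single_le_sum (fun k _ => (hC k).le) (Finset.mem_univ k)
    exact mul_le_mul_of_nonneg_right (by linarith) (norm_nonneg _)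

/-! ### regularity of the functions -/

theorem contDiffAt_ak {r : ℝ} {k : Fin m} {x : Fin (n + 3) → ℂ} (hs : sv x ≠ 0)
    (h : P.A (sv x) (tv x - P.eta k (sv x)) ≠ 0) : ContDiffAt ℝ 1 (P.ak r k) x := by
  have hn : ({0}ᶜ : Set (W n)) ∈ 𝓝 (sv x) := isOpen_compl_singleton.mem_nhds hs
  have h1 : ContDiffAt ℝ 1 (fun x : Fin (n + 3) → ℂ => P.eta k (sv x)) x :=
    ((P.ceta k).contDiffAt hn).comp x sv.contDiff.contDiffAt
  have h2 : ContDiffAt ℝ 1 (fun x : Fin (n + 3) → ℂ => P.A (sv x) (tv x - P.eta k (sv x))) x :=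
    ContDiffAt.comp (g := fun p : W n × W n => P.A p.1 p.2)
      (f := fun x : Fin (n + 3) → ℂ => (sv x, tv x - P.eta k (sv x))) x
      (P.cA _ _ hs) (sv.contDiff.contDiffAt.prodMk (tv.contDiff.contDiffAt.sub h1))
  unfold ak
  exact (contDiffAt_const.mul (sv.contDiff.contDiffAt.norm ℝ hs)).sub (h2.norm ℝ h)

theorem continuousAt_ak {r : ℝ} {k : Fin m} {x : Fin (n + 3) → ℂ} (hs : sv x ≠ 0) :
    ContinuousAt (P.ak r k) x := by
  have hn : ({0}ᶜ : Set (W n)) ∈ 𝓝 (sv x) := isOpen_compl_singleton.mem_nhds hs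
  have h1 : ContinuousAt (fun x : Fin (n + 3) → ℂ => P.eta k (sv x)) x :=
    ContinuousAt.comp (g := P.eta k) ((P.ceta k).contDiffAt hn).continuousAt
      sv.continuous.continuousAt
  have h2 : ContinuousAt (fun x : Fin (n + 3) → ℂ => P.A (sv x) (tv x - P.eta k (sv x))) x :=
    ContinuousAt.comp (g := fun p : W n × W n => P.A p.1 p.2)
      (f := fun x : Fin (n + 3) → ℂ => (sv x, tv x - P.eta k (sv x)))
      (P.cA _ _ hs).continuousAt
      (sv.continuous.continuousAt.prodMk (tv.continuous.continuousAt.sub h1))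
  unfold ak
  exact (continuousAt_const.mul sv.continuous.continuousAt.norm).sub h2.norm

theorem contDiffAt_a0 {ε : ℝ} {x : Fin (n + 3) → ℂ} (hs : sv x ≠ 0) :
    ContDiffAt ℝ 1 (P.a0 ε) x := by
  have hn : ({0}ᶜ : Set (W n)) ∈ 𝓝 (sv x) := isOpen_compl_singleton.mem_nhds hs
  have h1 : ContDiffAt ℝ 1 (fun x : Fin (n + 3) → ℂ => P.a00 (sv x)) x :=
    (P.ca00.contDiffAt hn).comp x sv.contDiff.contDiffAt
  have h2 : ContDiffAt ℝ 1 (fun x : Fin (n + 3) → ℂ => P.ww (sv x) (tv x)) x :=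
    ContDiffAt.comp (g := fun p : W n × W n => P.ww p.1 p.2)
      (f := fun x : Fin (n + 3) → ℂ => (sv x, tv x)) x
      (P.cww _ _ hs) (sv.contDiff.contDiffAt.prodMk tv.contDiff.contDiffAt)
  exact h1.sub (contDiffAt_const.mul h2)

theorem continuous_a00 : Continuous P.a00 := by
  rw [continuous_iff_continuousAt]
  intro s
  by_cases hs : s = 0
  · obtain ⟨C, hC, h1⟩ := cone_upper P.ca00.continuousOn P.h00
    obtain ⟨C', hC', h2⟩ := cone_upper (f := fun s => -P.a00 s) P.ca00.continuousOn.neg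
      fun c s hc => by rw [P.h00 c s hc]; ring
    have h3 : ∀ s, ‖P.a00 s‖ ≤ max C C' * ‖s‖ := by
      intro s
      by_cases hs : s = 0
      · rw [hs, P.a00_zero, norm_zero, norm_zero, mul_zero]
      · rw [Real.norm_eq_abs, abs_le]
        have k1 := h1 s hs
        have k2 := h2 s hs
        have k3 := mul_le_mul_of_nonneg_right (le_max_left C C') (norm_nonneg s)
        have k4 := mul_le_mul_of_nonneg_right (le_max_right C C') (norm_nonneg s)
        constructor <;> linarith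
    rw [hs, ContinuousAt, P.a00_zero]
    refine squeeze_zero_norm h3 ?_
    have : Tendsto (fun y : W n => max C C' * ‖y‖) (𝓝 0) (𝓝 (max C C' * ‖(0 : W n)‖)) :=
      (continuous_const.mul continuous_norm).continuousAt
    rwa [norm_zero, mul_zero] at this
  · exact (P.ca00.contDiffAt (isOpen_compl_singleton.mem_nhds hs)).continuousAt

theorem continuous_a0 (ε : ℝ) : Continuous (P.a0 ε) := by
  unfold a0
  exact (P.continuous_a00.comp sv.continuous).sub (continuous_const.mul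
    (P.ww_c.comp (sv.continuous.prodMk tv.continuous)))

theorem ak_le (r : ℝ) : ∃ C > 0, ∀ k x, P.ak r k x ≤ C * ‖sv x‖ - P.lA * ‖tv x‖ := by
  obtain ⟨C, hC, h⟩ := P.exists_Ceta
  refine ⟨|r| + P.lA * C, by have := P.hlA; positivity, fun k x => ?_⟩
  unfold ak
  have h1 := P.Alow (sv x) (tv x - P.eta k (sv x))
  have h2 : ‖tv x‖ - ‖P.eta k (sv x)‖ ≤ ‖tv x - P.eta k (sv x)‖ := norm_sub_norm_le _ _
  have h3 := h k (sv x)
  have h4 := le_abs_self r
  have h5 := norm_nonneg (sv x)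
  have h6 := P.hlA
  nlinarith [mul_le_mul_of_nonneg_left h2 h6.le, mul_le_mul_of_nonneg_left h3 h6.le,
    mul_le_mul_of_nonneg_right h4 h5]

theorem continuousOn_bk (r : ℝ) (k : Fin m) : ContinuousOn (P.bk r k) {0}ᶜ := by
  intro x hx
  refine ContinuousAt.continuousWithinAt ?_
  have hnc : Continuous fun x : Fin (n + 3) → ℂ => -(P.lA / 4 * √(nsq x)) :=
    (continuous_const.mul continuous_nsq.sqrt).neg
  by_cases hs : sv x = 0
  · have ht : 0 < ‖tv x‖ := norm_pos_iff.2 fun h => hx (eq_zero_iff.2 ⟨hs, h⟩)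
    obtain ⟨C, hC, hk⟩ := P.ak_le r
    have h1 : ∀ᶠ y in 𝓝 x, P.ak r k y ≤ -(P.lA / 4 * √(nsq y)) := by
      have h2 : ∀ᶠ y in 𝓝 x, C * ‖sv y‖ - P.lA * ‖tv y‖ < -(P.lA / 4 * √(nsq y)) := by
        refine ContinuousAt.eventually_lt (f := fun y : Fin (n + 3) → ℂ =>
          C * ‖sv y‖ - P.lA * ‖tv y‖) ?_ hnc.continuousAt ?_
        · exact ((continuous_const.mul sv.continuous.norm).sub
            (continuous_const.mul tv.continuous.norm)).continuousAt
        · rw [norm_tv, hs, norm_zero, mul_zero]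
          have : √((0 : ℝ) ^ 2 + ‖tv x‖ ^ 2) = ‖tv x‖ := by
            rw [zero_pow two_ne_zero, zero_add, Real.sqrt_sq ht.le]
          rw [this]
          nlinarith [P.hlA]
      filter_upwards [h2] with y hy
      exact (hk k y).trans hy.le
    have h2 : P.bk r k =ᶠ[𝓝 x] fun y => -(P.lA / 4 * √(nsq y)) := by
      filter_upwards [h1] with y hy
      exact max_eq_right hy
    exact hnc.continuousAt.congr h2.symm
  · exact (P.continuousAt_ak hs).sup hnc.continuousAt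

theorem continuousOn_af (r ε : ℝ) (i : Option (Fin m)) : ContinuousOn (P.af r ε i) {0}ᶜ := by
  rcases i with _ | k
  · exact (P.continuous_a0 ε).continuousOn
  · exact P.continuousOn_bk r k

theorem nsq_smul_sqrt {c : ℝ} (hc : 0 < c) (x : Fin (n + 3) → ℂ) :
    √(nsq (c • x)) = c * √(nsq x) := by
  rw [nsq_smul, Real.sqrt_mul (sq_nonneg c), Real.sqrt_sq hc.le]

theorem hom_af (r ε : ℝ) (i : Option (Fin m)) (c : ℝ) (x : Fin (n + 3) → ℂ) (hc : 0 < c) :
    P.af r ε i (c • x) = c * P.af r ε i x := by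
  rcases i with _ | k
  · show P.a0 ε (c • x) = c * P.a0 ε x
    unfold a0
    rw [map_smul, map_smul, P.h00 c _ hc, P.hww c _ _ hc]
    ring
  · show P.bk r k (c • x) = c * P.bk r k x
    unfold bk ak
    rw [map_smul, map_smul, P.heta k c _ hc, ← smul_sub, P.hA c _ _ hc, P.Asmul, norm_smul,
      norm_smul, Real.norm_of_nonneg hc.le, nsq_smul_sqrt hc, mul_max_of_nonneg _ _ hc.le]
    congr 1 <;> ring

/-- near a point where a tube is active, its function is the smooth one -/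
theorem bk_eventually {r : ℝ} {k : Fin m} {x : Fin (n + 3) → ℂ} (hs : sv x ≠ 0)
    (h : P.bk r k x = 0) : P.ak r k x = 0 ∧ P.bk r k =ᶠ[𝓝 x] P.ak r k := by
  have hx : x ≠ 0 := fun h => hs (by rw [h, map_zero])
  have hn : 0 < P.lA / 4 * √(nsq x) := mul_pos (by have := P.hlA; positivity)
    (Real.sqrt_pos.2 (nsq_pos hx))
  have h1 : P.ak r k x = 0 := by
    unfold bk at h
    rcases max_choice (P.ak r k x) (-(P.lA / 4 * √(nsq x))) with h2 | h2
    · rw [← h2, h]
    · rw [h2] at h; linarith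
  refine ⟨h1, ?_⟩
  have h2 : ∀ᶠ y in 𝓝 x, -(P.lA / 4 * √(nsq y)) < P.ak r k y := by
    refine ContinuousAt.eventually_lt (continuous_const.mul continuous_nsq.sqrt).neg.continuousAt
      (P.continuousAt_ak hs) ?_
    rw [h1]; linarith
  filter_upwards [h2] with y hy
  exact max_eq_left hy.le

/-- vertical derivative of the tube function -/
theorem fderiv_ak {r : ℝ} {k : Fin m} {x : Fin (n + 3) → ℂ} (hs : sv x ≠ 0)
    (h : P.A (sv x) (tv x - P.eta k (sv x)) ≠ 0) (Z : Fin (n + 3) → ℝ) :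
    fderiv ℝ (P.ak r k) x (vt Z) =
      -(⟪P.A (sv x) (tv x - P.eta k (sv x)), P.A (sv x) (vec Z)⟫_ℝ /
        ‖P.A (sv x) (tv x - P.eta k (sv x))‖) := by
  refine line_fderiv ((P.contDiffAt_ak hs h).differentiableAt one_ne_zero) ?_
  have h1 : (fun τ : ℝ => P.ak r k (x + τ • vt Z)) = fun τ => r * ‖sv x‖ -
      ‖P.A (sv x) (tv x - P.eta k (sv x)) + τ • P.A (sv x) (vec Z)‖ := by
    funext τ
    unfold ak
    rw [map_add, map_add, map_smul, map_smul, sv_vt, tv_vt, smul_zero, add_zero, ← P.Asmul,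
      ← P.Aadd]
    congr 3
    abel
  rw [h1]
  exact (hasDerivAt_norm_line h).const_sub _

/-! ### bounded vectors -/

theorem local_bd {x₀ : Fin (n + 3) → ℂ} (hx₀ : x₀ ≠ 0) {V Y : Fin (n + 3) → ℝ}
    (hV : (fderiv ℝ P.G x₀ (vt V)).im ≠ 0) :
    ∃ B > 0, ∀ᶠ x in 𝓝 x₀, ∃ Y' : Fin (n + 3) → ℝ, ‖Y'‖ ≤ B ∧
      cor P.G 1 Y V x = vs 1 Y' ∧ (fderiv ℝ P.G x (vs 1 Y')).im = 0 := by
  have hn : ({0}ᶜ : Set (Fin (n + 3) → ℂ)) ∈ 𝓝 x₀ := isOpen_compl_singleton.mem_nhds hx₀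
  have hG : ContDiffAt ℝ 1 P.G x₀ := (P.sm.contDiffAt hn).of_le one_le_two
  have h1 : ∀ y : Fin (n + 3) → ℂ, ContinuousAt (fun x => (fderiv ℝ P.G x y).im) x₀ := fun y =>
    Complex.continuous_im.continuousAt.comp ((continuousAt_fd hG).clm_apply continuousAt_const)
  have h2 : ContinuousAt (fun x => (fderiv ℝ P.G x (vs 1 Y)).im / (fderiv ℝ P.G x (vt V)).im) x₀ :=
    (h1 _).div (h1 _) hV
  set l₀ := (fderiv ℝ P.G x₀ (vs 1 Y)).im / (fderiv ℝ P.G x₀ (vt V)).im with hl₀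
  have h3 : ∀ᶠ x in 𝓝 x₀, |(fderiv ℝ P.G x (vs 1 Y)).im / (fderiv ℝ P.G x (vt V)).im| <
      |l₀| + 1 := h2.abs.eventually_lt continuousAt_const (by rw [← hl₀]; linarith)
  refine ⟨‖Y‖ + (|l₀| + 1) * ‖V‖ + 1, by positivity, ?_⟩
  filter_upwards [h3, (h1 (vt V)).eventually_ne hV] with x h4 h5
  refine ⟨Y - ((fderiv ℝ P.G x (vs 1 Y)).im / (fderiv ℝ P.G x (vt V)).im) • V, ?_, ?_, ?_⟩
  · refine (norm_sub_le _ _).trans ?_
    rw [norm_smul, Real.norm_eq_abs]
    have := mul_le_mul_of_nonneg_right h4.le (norm_nonneg V)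
    linarith
  · unfold cor
    rw [sub_eq_add_neg, sub_eq_add_neg, vs_add, ← neg_smul, ← neg_smul, vt_smul]
  · have e : vs 1 (Y - ((fderiv ℝ P.G x (vs 1 Y)).im / (fderiv ℝ P.G x (vt V)).im) • V) =
        cor P.G 1 Y V x := by
      unfold cor
      rw [sub_eq_add_neg, sub_eq_add_neg, vs_add, ← neg_smul, ← neg_smul, vt_smul]
    rw [e]
    exact im_cor h5

theorem exists_bd : ∃ ρ > 0, ∃ B > 0, ∀ x : Fin (n + 3) → ℂ, nsq x = 1 → (P.G x).im = 0 →
    0 ≤ (P.G x).re →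
    (∃ Y : Fin (n + 3) → ℝ, ‖Y‖ ≤ B ∧ (fderiv ℝ P.G x (vs 1 Y)).im = 0) ∧
    (S2 x ≤ ρ → ∃ Y : Fin (n + 3) → ℝ, ‖Y‖ ≤ B ∧ (fderiv ℝ P.G x (vs 1 Y)).im = 0 ∧
      0 < Dx P.G P.ψ x (vs 1 Y)) := by
  let pr : Set (Fin (n + 3) → ℂ) → Prop := fun s =>
    ∃ ρ > 0, ∃ B > 0, ∀ x ∈ s, nsq x = 1 → (P.G x).im = 0 → 0 ≤ (P.G x).re →
    (∃ Y : Fin (n + 3) → ℝ, ‖Y‖ ≤ B ∧ (fderiv ℝ P.G x (vs 1 Y)).im = 0) ∧
    (S2 x ≤ ρ → ∃ Y : Fin (n + 3) → ℝ, ‖Y‖ ≤ B ∧ (fderiv ℝ P.G x (vs 1 Y)).im = 0 ∧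
      0 < Dx P.G P.ψ x (vs 1 Y))
  have key : pr (nsq (ι := Fin (n + 3)) ⁻¹' {1}) := by
    refine IsCompact.induction_on (p := pr) isCompact_sph ?_ ?_ ?_ ?_
    · exact ⟨1, one_pos, 1, one_pos, fun x hx => absurd hx (by simp)⟩
    · rintro s t hst ⟨ρ, hρ, B, hB, h⟩
      exact ⟨ρ, hρ, B, hB, fun x hx => h x (hst hx)⟩
    · rintro s t ⟨ρ, hρ, B, hB, h⟩ ⟨ρ', hρ', B', hB', h'⟩
      refine ⟨min ρ ρ', lt_min hρ hρ', max B B', lt_max_of_lt_left hB, fun x hx h1 h2 h3 => ?_⟩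
      rcases hx with hx | hx
      · obtain ⟨⟨Y, k1, k2⟩, k3⟩ := h x hx h1 h2 h3
        refine ⟨⟨Y, k1.trans (le_max_left _ _), k2⟩, fun h4 => ?_⟩
        obtain ⟨Y', k4, k5⟩ := k3 (h4.trans (min_le_left _ _))
        exact ⟨Y', k4.trans (le_max_left _ _), k5⟩
      · obtain ⟨⟨Y, k1, k2⟩, k3⟩ := h' x hx h1 h2 h3
        refine ⟨⟨Y, k1.trans (le_max_right _ _), k2⟩, fun h4 => ?_⟩
        obtain ⟨Y', k4, k5⟩ := k3 (h4.trans (min_le_right _ _))
        exact ⟨Y', k4.trans (le_max_right _ _), k5⟩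
    · intro x₀ hx₀
      have hx₀' : nsq x₀ = 1 := hx₀
      have hx0 : x₀ ≠ 0 := fun h => by rw [h] at hx₀'; simp [nsq] at hx₀'
      have hn : ({0}ᶜ : Set (Fin (n + 3) → ℂ)) ∈ 𝓝 x₀ := isOpen_compl_singleton.mem_nhds hx0
      have hG : ContDiffAt ℝ 1 P.G x₀ := (P.sm.contDiffAt hn).of_le one_le_two
      have hψ : ContDiffAt ℝ 1 P.ψ x₀ := P.sψ.contDiffAt hn
      by_cases hK : C0 P.G (fun (_ : Unit) (_ : Fin (n + 3) → ℂ) => (0 : ℝ)) x₀
      · obtain ⟨V, hV⟩ := P.K1 x₀ hx0 hK.2.1 hK.2.2.1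
        rcases (S2_nonneg x₀).eq_or_lt with hS | hS
        · -- `s = 0`
          have hre : ∀ j, (x₀ j).re = 0 := by
            intro j
            have h1 := (Finset.sum_eq_zero_iff_of_nonneg
              (fun j _ => sq_nonneg ((x₀ j).re))).1 hS.symm j (Finset.mem_univ j)
            exact pow_eq_zero_iff (two_ne_zero) |>.1 h1
          have hG0 : P.G x₀ = 0 := Complex.ext (P.S0 x₀ hre) hK.2.1
          obtain ⟨b, Y, hb, h1, h2⟩ := P.K2 x₀ hx0 hG0
          have hvt : ∀ Z : Fin (n + 3) → ℝ, (fderiv ℝ P.G x₀ (vt Z)).re = 0 := by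
            intro Z
            rw [← fderiv_re (hG.differentiableAt one_ne_zero)]
            refine line_fderiv (f := fun x => (P.G x).re) ?_ ?_
            · exact Complex.reCLM.differentiableAt.comp x₀ (hG.differentiableAt one_ne_zero)
            · have : (fun h : ℝ => (P.G (x₀ + h • vt Z)).re) = fun _ => 0 := by
                funext h
                refine P.S0 _ fun j => ?_
                simp [vt, hre j]
              rw [this]
              exact hasDerivAt_const _ _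
          have hb0 : 0 < b := by
            rcases hb.eq_or_lt with h | h
            · exfalso
              have e : vs b Y = vt Y := by
                rw [← h]
                funext j
                simp [vs, vt]
              rw [e, hvt Y] at h2
              exact lt_irrefl _ h2
            · exact h
          have e : vs b Y = b • vs 1 (b⁻¹ • Y) := by
            rw [← vs_smul, mul_one, smul_smul, mul_inv_cancel₀ hb0.ne', one_smul]
          have h1' : (fderiv ℝ P.G x₀ (vs 1 (b⁻¹ • Y))).im = 0 := by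
            rw [e, map_smul, Complex.smul_im, smul_eq_mul] at h1
            exact (mul_eq_zero.1 h1).resolve_left hb0.ne'
          have h2' : 0 < (fderiv ℝ P.G x₀ (vs 1 (b⁻¹ • Y))).re := by
            rw [e, map_smul, Complex.smul_re, smul_eq_mul] at h2
            exact (pos_iff_pos_of_mul_pos h2).1 hb0
          obtain ⟨B, hB, h3⟩ := P.local_bd hx0 (Y := b⁻¹ • Y) hV
          have h4 : ∀ᶠ x in 𝓝 x₀, 0 < Dx P.G P.ψ x (cor P.G 1 (b⁻¹ • Y) V x) := by
            refine continuousAt_const.eventually_lt (continuousAt_Dx hG hψ hV) ?_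
            rw [cor_self h1']
            unfold Dx
            rw [hG0, Complex.zero_re, zero_mul, sub_zero]
            exact mul_pos (P.ψ0 x₀ hx0) h2'
          refine ⟨{x | (∃ Y' : Fin (n + 3) → ℝ, ‖Y'‖ ≤ B ∧
            cor P.G 1 (b⁻¹ • Y) V x = vs 1 Y' ∧ (fderiv ℝ P.G x (vs 1 Y')).im = 0) ∧
            0 < Dx P.G P.ψ x (cor P.G 1 (b⁻¹ • Y) V x)},
            mem_nhdsWithin_of_mem_nhds (h3.and h4), 1, one_pos, B, hB, ?_⟩
          rintro x ⟨⟨Y', k1, k2, k3⟩, k4⟩ _ _ _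
          rw [k2] at k4
          exact ⟨⟨Y', k1, k3⟩, fun _ => ⟨Y', k1, k3, k4⟩⟩
        · obtain ⟨B, hB, h3⟩ := P.local_bd hx0 (Y := 0) hV
          have h4 : ∀ᶠ x in 𝓝 x₀, S2 x₀ / 2 < S2 x :=
            continuousAt_const.eventually_lt (contDiff_S2 (n := 0)).continuous.continuousAt
              (by linarith)
          refine ⟨{x | (∃ Y' : Fin (n + 3) → ℝ, ‖Y'‖ ≤ B ∧
            cor P.G 1 0 V x = vs 1 Y' ∧ (fderiv ℝ P.G x (vs 1 Y')).im = 0) ∧ S2 x₀ / 2 < S2 x},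
            mem_nhdsWithin_of_mem_nhds (h3.and h4), S2 x₀ / 2, by positivity, B, hB, ?_⟩
          rintro x ⟨⟨Y', k1, k2, k3⟩, k4⟩ _ _ _
          exact ⟨⟨Y', k1, k3⟩, fun h => absurd h (not_le.2 k4)⟩
      · have h1 := isClosed_C0 P.sm
          (a := fun (_ : Unit) (_ : Fin (n + 3) → ℂ) => (0 : ℝ))
          (fun _ => continuousOn_const) hx₀' hK
        refine ⟨{x | ¬ C0 P.G (fun (_ : Unit) (_ : Fin (n + 3) → ℂ) => (0 : ℝ)) x},
          mem_nhdsWithin_of_mem_nhds h1, 1, one_pos, 1, one_pos, ?_⟩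
        intro x hx h2 h3 h4
        exact absurd ⟨h2, h3, h4, fun _ => le_rfl⟩ hx
  obtain ⟨ρ, hρ, B, hB, h⟩ := key
  exact ⟨ρ, hρ, B, hB, fun x hx => h x hx hx⟩

/-! ### the compact set `{nsq = 1, Im G = 0, Re G ≥ 0}` -/

theorem isCompact_K0 : IsCompact {x : Fin (n + 3) → ℂ | nsq x = 1 ∧ (P.G x).im = 0} := by
  have hc : ContinuousOn (fun x => (P.G x).im) (nsq (ι := Fin (n + 3)) ⁻¹' {1}) := by
    intro x hx
    have hx' : nsq x = 1 := hx
    have hx0 : x ≠ 0 := fun h => by rw [h] at hx'; simp [nsq] at hx'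
    exact (Complex.continuous_im.continuousAt.comp
      (P.sm.contDiffAt (isOpen_compl_singleton.mem_nhds hx0)).continuousAt).continuousWithinAt
  obtain ⟨t, ht1, ht2⟩ := (continuousOn_iff_isClosed.1 hc) {0} isClosed_singleton
  have h2 : {x : Fin (n + 3) → ℂ | nsq x = 1 ∧ (P.G x).im = 0} =
      (nsq (ι := Fin (n + 3)) ⁻¹' {1}) ∩ t := by
    ext x
    constructor
    · rintro ⟨hx, hc⟩
      refine ⟨hx, ?_⟩
      have h3 : x ∈ (fun x => (P.G x).im) ⁻¹' {0} ∩ (nsq (ι := Fin (n + 3)) ⁻¹' {1}) := ⟨hc, hx⟩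
      rw [ht2] at h3
      exact h3.1
    · rintro ⟨hx, hxt⟩
      have h3 : x ∈ t ∩ (nsq (ι := Fin (n + 3)) ⁻¹' {1}) := ⟨hxt, hx⟩
      rw [← ht2] at h3
      exact ⟨hx, h3.1⟩
  rw [h2]
  exact isCompact_sph.inter_right ht1

theorem hor_ne {x : Fin (n + 3) → ℂ} (hx : x ≠ 0) (hc : (P.G x).im = 0) (hs : sv x = 0) :
    hor (tv x) ≠ 0 := by
  intro h
  have h1 : tv x = (⟪u1 n, tv x⟫_ℝ * (1 / √(n + 3 : ℝ))) • one n := by
    have h2 : tv x = ⟪u1 n, tv x⟫_ℝ • u1 n := by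
      rw [hor, sub_eq_zero] at h
      exact h
    conv_lhs => rw [h2]
    ext j
    simp [u1]
  have h2 : x = vt fun _ => ⟪u1 n, tv x⟫_ℝ * (1 / √(n + 3 : ℝ)) := by
    funext j
    apply Complex.ext
    · have : (sv x) j = 0 := by rw [hs]; rfl
      simpa [vt] using this
    · have h3 := congrArg (fun v : W n => v j) h1
      simp only [tv_apply, PiLp.smul_apply, one_apply, smul_eq_mul, mul_one] at h3
      rw [h3]
      simp [vt]
  rw [h2] at hc
  have h3 := P.c00 _ hc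
  rw [h3] at h2
  apply hx
  rw [h2]
  funext j
  simp [vt]

/-- bounds for the plate correction -/
theorem exists_Cw : ∃ C > 0, ∀ x : Fin (n + 3) → ℂ, nsq x = 1 → P.ww (sv x) (tv x) ≤ C ∧
    (sv x ≠ 0 → ContDiffAt ℝ 1 (fun x => P.ww (sv x) (tv x)) x ∧
    ‖fderiv ℝ (fun x : Fin (n + 3) → ℂ => P.ww (sv x) (tv x)) x‖ ≤ C) := by
  obtain ⟨C1, h1⟩ := (isCompact_sph (ι := Fin (n + 3))).exists_bound_of_continuousOn
    (f := fun x => P.ww (sv x) (tv x)) (P.ww_c.comp (f := fun x : Fin (n + 3) → ℂ => (sv x, tv x))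
      (sv.continuous.prodMk tv.continuous)).continuousOn
  obtain ⟨L, hL⟩ := P.lww
  have hL0 : 0 ≤ |L| * (‖(sv (n := n)).prod tv‖) := by positivity
  have h2 : ∀ x y : Fin (n + 3) → ℂ, ‖P.ww (sv y) (tv y) - P.ww (sv x) (tv x)‖ ≤
      |L| * (‖(sv (n := n)).prod tv‖) * ‖y - x‖ := by
    intro x y
    rw [Real.norm_eq_abs]
    refine (hL (sv y, tv y) (sv x, tv x)).trans ?_
    have e : ((sv y, tv y) : W n × W n) - (sv x, tv x) = ((sv (n := n)).prod tv) (y - x) := by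
      rw [map_sub]; rfl
    rw [e]
    have h3 := ((sv (n := n)).prod tv).le_opNorm (y - x)
    have h4 := le_abs_self L
    have h5 := norm_nonneg (((sv (n := n)).prod tv) (y - x))
    calc L * ‖((sv (n := n)).prod tv) (y - x)‖ ≤ |L| * ‖((sv (n := n)).prod tv) (y - x)‖ :=
          mul_le_mul_of_nonneg_right h4 h5
      _ ≤ |L| * (‖(sv (n := n)).prod tv‖ * ‖y - x‖) := mul_le_mul_of_nonneg_left h3 (abs_nonneg L)
      _ = _ := by ring
  refine ⟨|C1| + |L| * (‖(sv (n := n)).prod tv‖) + 1, by positivity, fun x hx => ⟨?_, fun hs => ⟨?_, ?_⟩⟩⟩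
  · have := h1 x hx
    have h3 := le_abs_self (P.ww (sv x) (tv x))
    have h4 := le_abs_self C1
    rw [Real.norm_eq_abs] at this
    linarith
  · exact ContDiffAt.comp (g := fun p : W n × W n => P.ww p.1 p.2)
      (f := fun x : Fin (n + 3) → ℂ => (sv x, tv x)) x
      (P.cww _ _ hs) (sv.contDiff.contDiffAt.prodMk tv.contDiff.contDiffAt)
  · have h5 := abs_nonneg C1
    refine (norm_fderiv_le_of_lip' ℝ hL0 (Eventually.of_forall fun y => h2 x y)).trans ?_
    linarith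

/-! ### the main theorem -/

theorem norm_hor_le (v : W n) : ‖hor v‖ ≤ ‖v‖ := by
  have h1 : ‖v‖ ^ 2 = ‖hor v‖ ^ 2 + ⟪u1 n, v⟫_ℝ ^ 2 := by
    have h2 : ‖hor v‖ ^ 2 = ‖v‖ ^ 2 - ⟪u1 n, v⟫_ℝ ^ 2 := by
      unfold hor
      rw [norm_sub_sq_real, inner_smul_right, norm_smul, norm_u1, mul_one, real_inner_comm v,
        Real.norm_eq_abs, sq_abs]
      ring
    linarith
  refine abs_le_of_sq_le_sq' ?_ (norm_nonneg v) |>.2
  nlinarith [sq_nonneg ⟪u1 n, v⟫_ℝ]

theorem parallel {x : Fin (n + 3) → ℂ} (h : ¬ re1 x ^ 2 < (n + 3 : ℕ) * S2 x) :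
    sv x = (re1 x / (n + 3 : ℕ)) • one n := by
  have hN : (0 : ℝ) < (n + 3 : ℕ) := by positivity
  have h1 : ∑ j, ((x j).re - re1 x / (n + 3 : ℕ)) ^ 2 ≤ 0 := by
    have h2 : ∑ j, ((x j).re - re1 x / (n + 3 : ℕ)) ^ 2 = S2 x - re1 x ^ 2 / (n + 3 : ℕ) := by
      have h3 : ∀ j, ((x j).re - re1 x / (n + 3 : ℕ)) ^ 2 = (x j).re ^ 2 -
          2 * (re1 x / (n + 3 : ℕ)) * (x j).re + (re1 x / (n + 3 : ℕ)) ^ 2 := fun j => by ring
      simp_rw [h3]
      rw [Finset.sum_add_distrib, Finset.sum_sub_distrib, ← Finset.mul_sum, Finset.sum_const,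
        Finset.card_univ, Fintype.card_fin, nsmul_eq_mul]
      have h4 : ∑ j, (x j).re = re1 x := rfl
      have h5 : ∑ j, (x j).re ^ 2 = S2 x := rfl
      rw [h4, h5]
      field_simp
      ring
    rw [h2]
    push Not at h
    rw [sub_nonpos, le_div_iff₀ hN]
    linarith
  have h2 := (Finset.sum_eq_zero_iff_of_nonneg (fun j _ => sq_nonneg _)).1
    (le_antisymm h1 (Finset.sum_nonneg fun j _ => sq_nonneg _))
  ext j
  have h3 := pow_eq_zero_iff (two_ne_zero) |>.1 (h2 j (Finset.mem_univ j))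
  simp only [sv_apply, PiLp.smul_apply, one_apply, smul_eq_mul, mul_one]
  linarith

/-- constants for the tubes -/
theorem exists_r : ∃ r0 > 0, r0 ≤ P.lA * P.r2 ∧ r0 ≤ P.r3 ∧
    (∀ k s t, s ≠ 0 → ∀ r, r < r0 → ‖P.A s (t - P.eta k s)‖ ≤ r * ‖s‖ → ‖hor t‖ < P.κ2 * ‖s‖) ∧
    (∀ k l s t, s ≠ 0 → k ≠ l → P.a00 s ≤ 0 → ∀ r, r < r0 → ‖P.A s (t - P.eta k s)‖ ≤ r * ‖s‖ →
      ‖P.A s (t - P.eta l s)‖ ≤ r * ‖s‖ → False) := by
  have hlA := P.hlA
  have cn : ContinuousOn (fun s : W n => ‖s‖) {0}ᶜ := continuous_norm.continuousOn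
  have h1 : ∀ k, ∃ c > 0, ∀ s, s ≠ 0 → (0 : ℝ) ≤ 0 → c * ‖s‖ ≤ P.κ2 * ‖s‖ - ‖hor (P.eta k s)‖ := by
    intro k
    have hh : Continuous (hor : W n → W n) := continuous_hor'
    refine cone_lower (f := fun s => P.κ2 * ‖s‖ - ‖hor (P.eta k s)‖) (g := fun _ => 0)
      ((continuousOn_const.mul cn).sub ((hh.comp_continuousOn (P.ceta k).continuousOn).norm)) ?_
      continuousOn_const (fun c s _ => (mul_zero c).symm) ?_
    · intro c s hc
      rw [P.heta k c s hc, hor_smul', norm_smul, norm_smul, Real.norm_of_nonneg hc.le]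
      ring
    · intro s hs _
      have := P.T1 k s hs
      linarith
  choose c hc hc' using h1
  have h2 : ∀ k l, ∃ c > 0, k ≠ l → ∀ s, s ≠ 0 → P.a00 s ≤ 0 →
      c * ‖s‖ ≤ ‖P.eta k s - P.eta l s‖ := by
    intro k l
    by_cases hkl : k = l
    · exact ⟨1, one_pos, fun h => absurd hkl h⟩
    · obtain ⟨c, hc, h⟩ := cone_lower (f := fun s => ‖P.eta k s - P.eta l s‖) (g := P.a00)
        ((P.ceta k).continuousOn.sub (P.ceta l).continuousOn).norm (fun c s hc => by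
          rw [P.heta k c s hc, P.heta l c s hc, ← smul_sub, norm_smul,
            Real.norm_of_nonneg hc.le]) P.ca00.continuousOn P.h00
        (fun s hs h => norm_pos_iff.2 (sub_ne_zero.2 (P.dis s hs h k l hkl)))
      exact ⟨c, hc, fun _ => h⟩
  choose d hd hd' using h2
  obtain ⟨δ1, hδ1, h1⟩ := exists_min_weight hc
  obtain ⟨δ2, hδ2, h2⟩ := exists_min_weight (w := fun p : Fin m × Fin m => d p.1 p.2)
    fun p => hd p.1 p.2
  have key : ∀ k s t r, ‖P.A s (t - P.eta k s)‖ ≤ r * ‖s‖ →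
      P.lA * ‖t - P.eta k s‖ ≤ r * ‖s‖ := fun k s t r h => (P.Alow _ _).trans h
  refine ⟨min (min (P.lA * P.r2) P.r3) (min (P.lA * δ1) (P.lA * δ2 / 2)), ?_, ?_, ?_, ?_, ?_⟩
  · have := P.hr2
    have := P.hr3
    refine lt_min (lt_min (by positivity) this) (lt_min (by positivity) (by positivity))
  · exact (min_le_left _ _).trans (min_le_left _ _)
  · exact (min_le_left _ _).trans (min_le_right _ _)
  · intro k s t hs r hr h
    have hr' : r < P.lA * δ1 := hr.trans_le ((min_le_right _ _).trans (min_le_left _ _))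
    have hns : 0 < ‖s‖ := norm_pos_iff.2 hs
    have k1 := key k s t r h
    have k2 : ‖t - P.eta k s‖ < δ1 * ‖s‖ := by
      have : P.lA * ‖t - P.eta k s‖ < P.lA * (δ1 * ‖s‖) := by
        refine k1.trans_lt ?_
        rw [← mul_assoc]
        exact mul_lt_mul_of_pos_right hr' hns
      exact lt_of_mul_lt_mul_left this hlA.le
    have k3 := hc' k s hs le_rfl
    have k4 : hor t = hor (t - P.eta k s) + hor (P.eta k s) := by
      rw [← hor_add', sub_add_cancel]
    have k5 := norm_add_le (hor (t - P.eta k s)) (hor (P.eta k s))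
    rw [← k4] at k5
    have k6 := norm_hor_le (t - P.eta k s)
    have k7 := mul_le_mul_of_nonneg_right (h1 k) hns.le
    linarith
  · intro k l s t hs hkl h0 r hr h h'
    have hr' : r < P.lA * δ2 / 2 := hr.trans_le ((min_le_right _ _).trans (min_le_right _ _))
    have hns : 0 < ‖s‖ := norm_pos_iff.2 hs
    have k1 := key k s t r h
    have k2 := key l s t r h'
    have k3 := hd' k l hkl s hs h0
    have k4 := mul_le_mul_of_nonneg_right (h2 (k, l)) hns.le
    have k5 : ‖P.eta k s - P.eta l s‖ ≤ ‖t - P.eta l s‖ + ‖t - P.eta k s‖ := by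
      have : P.eta k s - P.eta l s = (t - P.eta l s) - (t - P.eta k s) := by abel
      rw [this]
      exact norm_sub_le _ _
    have k6 : P.lA * (δ2 * ‖s‖) ≤ 2 * (r * ‖s‖) := by
      calc P.lA * (δ2 * ‖s‖) ≤ P.lA * (‖t - P.eta l s‖ + ‖t - P.eta k s‖) :=
            mul_le_mul_of_nonneg_left (by simp only at k4; linarith) hlA.le
        _ ≤ 2 * (r * ‖s‖) := by rw [mul_add]; linarith
    have k7 : P.lA * δ2 ≤ 2 * r := by
      by_contra h9
      push Not at h9
      have := mul_lt_mul_of_pos_right h9 hns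
      linarith
    linarith

theorem fderiv_a0 {ε : ℝ} {x : Fin (n + 3) → ℂ} (hs : sv x ≠ 0)
    (hw : ContDiffAt ℝ 1 (fun x => P.ww (sv x) (tv x)) x) (v : Fin (n + 3) → ℂ) :
    fderiv ℝ (P.a0 ε) x v = fderiv ℝ P.a00 (sv x) (sv v) -
      ε * fderiv ℝ (fun x => P.ww (sv x) (tv x)) x v := by
  have hn : ({0}ᶜ : Set (W n)) ∈ 𝓝 (sv x) := isOpen_compl_singleton.mem_nhds hs
  have h1 : HasFDerivAt (fun x : Fin (n + 3) → ℂ => P.a00 (sv x))
      ((fderiv ℝ P.a00 (sv x)).comp sv) x :=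
    ((P.ca00.contDiffAt hn).differentiableAt one_ne_zero).hasFDerivAt.comp x sv.hasFDerivAt
  have h2 := (hw.differentiableAt one_ne_zero).hasFDerivAt.const_mul ε
  have h3 := (h1.fun_sub h2).fderiv
  have h4 : fderiv ℝ (P.a0 ε) x = _ := h3
  rw [h4]
  rfl

/-- constants for the plate correction -/
theorem exists_eps : ∃ ε0 > 0, ∀ ε, 0 < ε → ε ≤ ε0 →
    (∀ x : Fin (n + 3) → ℂ, nsq x = 1 → (P.G x).im = 0 → 0 ≤ (P.G x).re → sv x ≠ 0 →
      (∃ Y : Fin (n + 3) → ℝ, (fderiv ℝ P.G x (vs 1 Y)).im = 0 ∧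
        (P.a0 ε x = 0 → 0 < fderiv ℝ (P.a0 ε) x (vs 1 Y)))) ∧
    (∀ (x : Fin (n + 3) → ℂ) (l : ℝ), nsq x = 1 → (P.G x).im = 0 → 0 ≤ (P.G x).re → 0 < l →
      sv x = l • (-one n) → P.a0 ε x ≤ 0 →
      (∃ Y : Fin (n + 3) → ℝ, (fderiv ℝ P.G x (vs 1 Y)).im = 0 ∧
        0 < Dx P.G P.ψ x (vs 1 Y) ∧
        (P.a0 ε x = 0 → 0 < fderiv ℝ (P.a0 ε) x (vs 1 Y)))) := by
  obtain ⟨ρ, hρ, B, hB, hbd⟩ := P.exists_bd
  obtain ⟨C, hC, hw⟩ := P.exists_Cw
  have hc1 := P.hc1
  have hneg := P.neg1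
  have hN : (0 : ℝ) < (n + 3 : ℕ) := by positivity
  refine ⟨min (c1 P / (2 * C * (1 + B))) (P.a00 (-one n) * √(ρ / (n + 3 : ℕ)) / C),
    lt_min (by positivity) (by positivity), ?_⟩
  intro ε hε hle
  have e1 : ε * C * (1 + B) < P.c1 := by
    have h1 := hle.trans (min_le_left _ _)
    rw [le_div_iff₀ (by positivity)] at h1
    nlinarith
  have e2 : ε * C ≤ P.a00 (-one n) * √(ρ / (n + 3 : ℕ)) := by
    have h1 := hle.trans (min_le_right _ _)
    rwa [le_div_iff₀ hC] at h1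
  -- derivative of the plate function
  have key : ∀ (x : Fin (n + 3) → ℂ) (Y : Fin (n + 3) → ℝ), nsq x = 1 → (P.G x).im = 0 →
      sv x ≠ 0 → ‖Y‖ ≤ B → P.a0 ε x = 0 → 0 < fderiv ℝ (P.a0 ε) x (vs 1 Y) := by
    intro x Y hx hc hs hY h0
    obtain ⟨w1, w2'⟩ := hw x hx
    have w2 := (w2' hs).1
    have w3 := (w2' hs).2
    rw [P.fderiv_a0 hs w2, sv_vs, neg_smul, one_smul]
    have h1 : 0 ≤ P.a00 (sv x) := by
      unfold a0 at h0
      have := mul_nonneg hε.le (P.ww_nonneg (sv x) (tv x))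
      linarith
    have h2 := P.m00 (sv x) hs h1
    have h3 : fderiv ℝ (fun x : Fin (n + 3) → ℂ => P.ww (sv x) (tv x)) x (vs 1 Y) ≤
        C * (1 + B) := by
      refine (le_abs_self _).trans ?_
      rw [← Real.norm_eq_abs]
      refine ((fderiv ℝ _ x).le_opNorm _).trans ?_
      refine mul_le_mul w3 ((norm_vs_le Y).trans (by linarith)) (norm_nonneg _) hC.le
    have h4 := mul_le_mul_of_nonneg_left h3 hε.le
    nlinarith
  constructor
  · intro x hx hc hg hs
    obtain ⟨⟨Y, k1, k2⟩, -⟩ := hbd x hx hc hg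
    exact ⟨Y, k2, fun h0 => key x Y hx hc hs k1 h0⟩
  · intro x l hx hc hg hl hsl h0
    have hs : sv x ≠ 0 := by
      rw [hsl]
      refine smul_ne_zero hl.ne' ?_
      rw [neg_ne_zero]
      intro h
      have := congrArg (fun v : W n => v 0) h
      simp at this
    have h1 : l * P.a00 (-one n) ≤ ε * C := by
      unfold a0 at h0
      rw [hsl, P.h00 l _ hl, ← hsl] at h0
      have := mul_le_mul_of_nonneg_left (hw x hx).1 hε.le
      linarith
    have h2 : l ≤ √(ρ / (n + 3 : ℕ)) := by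
      have h3 : P.a00 (-one n) * l ≤ P.a00 (-one n) * √(ρ / (n + 3 : ℕ)) := by
        rw [mul_comm]; exact h1.trans e2
      exact le_of_mul_le_mul_left h3 hneg
    have h3 : S2 x ≤ ρ := by
      have h4 : S2 x = l ^ 2 * (n + 3 : ℕ) := by
        rw [← norm_sv, hsl, norm_sq_def]
        simp
        ring
      have h5 : l ^ 2 ≤ ρ / (n + 3 : ℕ) := by
        have := pow_le_pow_left₀ hl.le h2 2
        rwa [Real.sq_sqrt (by positivity)] at this
      rw [h4]
      rwa [le_div_iff₀ hN] at h5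
    obtain ⟨-, h4⟩ := hbd x hx hc hg
    obtain ⟨Y, k1, k2, k3⟩ := h4 h3
    exact ⟨Y, k2, k3, fun h0 => key x Y hx hc hs k1 h0⟩

/-- **THE CARVE.** -/
theorem flout : ∃ r0 > 0, ∀ r, 0 < r → r < r0 → ∃ ε0 > 0, ∀ ε, 0 < ε → ε ≤ ε0 →
    ∃ F : Sph (Fin (n + 3)) ≃ₜ Sph (Fin (n + 3)),
      (∀ x : Sph (Fin (n + 3)), (P.G (F x)).im = (P.G x).im) ∧
      ∀ x : Sph (Fin (n + 3)), P.G x = 0 ↔
        ((P.G (F x)).im = 0 ∧ P.a0 ε (F x) ≤ 0 ∧ (∀ k, P.ak r k (F x) ≤ 0) ∧
          (P.a0 ε (F x) = 0 ∨ ∃ k, P.ak r k (F x) = 0)) := by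
  classical
  obtain ⟨r0, hr0, ra, rb, rc, rd⟩ := P.exists_r
  obtain ⟨ε0, hε0, heps⟩ := P.exists_eps
  refine ⟨r0, hr0, fun r hr hrr => ⟨ε0, hε0, fun ε hε hεε => ?_⟩⟩
  obtain ⟨he1, he2⟩ := heps ε hε hεε
  have hlA := P.hlA
  have hne : ∀ x : Fin (n + 3) → ℂ, nsq x = 1 → x ≠ 0 := fun x hx h => by
    rw [h] at hx; simp [nsq] at hx
  have hneg : ∀ x : Fin (n + 3) → ℂ, nsq x = 1 → -(P.lA / 4 * √(nsq x)) < 0 := by
    intro x hx
    rw [hx, Real.sqrt_one]
    linarith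
  -- a tube point
  have hball : ∀ k (x : Fin (n + 3) → ℂ), sv x ≠ 0 → 0 ≤ P.ak r k x →
      ‖P.A (sv x) (tv x - P.eta k (sv x))‖ ≤ r * ‖sv x‖ ∧
      ‖tv x - P.eta k (sv x)‖ < P.r2 * ‖sv x‖ := by
    intro k x hs h
    have h1 : ‖P.A (sv x) (tv x - P.eta k (sv x))‖ ≤ r * ‖sv x‖ := by
      unfold ak at h; linarith
    refine ⟨h1, ?_⟩
    have h2 := (P.Alow _ _).trans h1
    have h3 : 0 < ‖sv x‖ := norm_pos_iff.2 hs
    have h4 : P.lA * ‖tv x - P.eta k (sv x)‖ < P.lA * (P.r2 * ‖sv x‖) := by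
      refine h2.trans_lt ?_
      rw [← mul_assoc]
      exact mul_lt_mul_of_pos_right (hrr.trans_le ra) h3
    exact lt_of_mul_lt_mul_left h4 hlA.le
  have hs0 : ∀ k (x : Fin (n + 3) → ℂ), nsq x = 1 → 0 ≤ P.ak r k x → sv x ≠ 0 := by
    intro k x hx h hs
    unfold ak at h
    rw [hs, norm_zero, mul_zero, P.eta_zero, sub_zero] at h
    have h1 := P.Alow 0 (tv x)
    have h2 : 0 < ‖tv x‖ := norm_pos_iff.2 fun h => hne x hx (eq_zero_iff.2 ⟨hs, h⟩)
    have := mul_pos hlA h2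
    linarith
  have hbk : ∀ k (x : Fin (n + 3) → ℂ), nsq x = 1 → 0 ≤ P.bk r k x → 0 ≤ P.ak r k x := by
    intro k x hx h
    unfold bk at h
    rcases le_max_iff.1 h with h1 | h1
    · exact h1
    · exact absurd h1 (not_le.2 (hneg x hx))
  have H1 : ∀ i (x : Fin (n + 3) → ℂ), nsq x = 1 → (P.G x).im = 0 → 0 ≤ P.af r ε i x →
      0 < (P.G x).re := by
    intro i x hx hc h
    rcases i with _ | k
    · have h' : 0 ≤ P.a0 ε x := h
      unfold a0 at h'
      by_cases hs : sv x = 0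
      · exfalso
        have h1 := P.ww_pos (tv x) (P.hor_ne (hne x hx) hc hs)
        rw [hs, P.a00_zero] at h'
        have := mul_pos hε h1
        linarith
      · refine P.low x hs ?_
        have := mul_nonneg hε.le (P.ww_nonneg (sv x) (tv x))
        linarith
    · have h1 := hbk k x hx h
      have hs := hs0 k x hx h1
      exact (P.tube k x hs (hball k x hs h1).2.le).2
  have hww : ∀ k (x : Fin (n + 3) → ℂ), sv x ≠ 0 → 0 ≤ P.ak r k x →
      ‖hor (tv x)‖ < P.κ2 * ‖sv x‖ := fun k x hs h => rc k _ _ hs r hrr (hball k x hs h).1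
  -- the pointwise condition
  have hp : ∀ x : Fin (n + 3) → ℂ, nsq x = 1 → (P.G x).im = 0 → 0 ≤ (P.G x).re →
      (∀ i, P.af r ε i x ≤ 0) →
      (∃ (b : ℝ) (Y : Fin (n + 3) → ℝ), 0 ≤ b ∧ (fderiv ℝ P.G x (vs b Y)).im = 0 ∧
        0 < P.ψ x * (fderiv ℝ P.G x (vs b Y)).re - (P.G x).re * fderiv ℝ P.ψ x (vs b Y) ∧
        ∀ i, P.af r ε i x = 0 → ContDiffAt ℝ 1 (P.af r ε i) x ∧
          0 < fderiv ℝ (P.af r ε i) x (vs b Y)) ∨
      (0 < (P.G x).re ∧ re1 x ^ 2 < (n + 3 : ℕ) * S2 x ∧ ∃ Y : Fin (n + 3) → ℝ,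
        (fderiv ℝ P.G x (vs 1 Y)).im = 0 ∧
        ∀ i, P.af r ε i x = 0 → ContDiffAt ℝ 1 (P.af r ε i) x ∧
          0 < fderiv ℝ (P.af r ε i) x (vs 1 Y)) := by
    intro x hx hc hg hai
    have hx0 := hne x hx
    rcases hg.eq_or_lt with hg0 | hg0
    · -- zeros of `G`
      left
      obtain ⟨b, Y, k1, k2, k3⟩ := P.K2 x hx0 (Complex.ext hg0.symm hc)
      refine ⟨b, Y, k1, k2, ?_, fun i hi => ?_⟩
      · rw [← hg0, zero_mul, sub_zero]
        exact mul_pos (P.ψ0 x hx0) k3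
      · exact absurd (H1 i x hx hc hi.ge) (by rw [← hg0]; exact lt_irrefl _)
    · have hs : sv x ≠ 0 := by
        intro h
        have : (P.G x).re = 0 := P.S0 x fun j => by
          have := congrArg (fun v : W n => v j) h
          exact this
        linarith
      have hns : 0 < ‖sv x‖ := norm_pos_iff.2 hs
      have hGd : DifferentiableAt ℝ P.G x :=
        (P.sm.contDiffAt (isOpen_compl_singleton.mem_nhds hx0)).differentiableAt two_ne_zero
      -- smoothness of the active functions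
      have hsm : ∀ i, P.af r ε i x = 0 → ContDiffAt ℝ 1 (P.af r ε i) x := by
        intro i hi
        rcases i with _ | k
        · exact P.contDiffAt_a0 hs
        · obtain ⟨h1, h2⟩ := P.bk_eventually (r := r) (k := k) hs hi
          refine ContDiffAt.congr_of_eventuallyEq (P.contDiffAt_ak hs ?_) h2
          intro h3
          unfold ak at h1
          rw [h3, norm_zero, sub_zero] at h1
          have := mul_pos hr hns
          linarith
      by_cases hpar : re1 x ^ 2 < (n + 3 : ℕ) * S2 x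
      · right
        refine ⟨hg0, hpar, ?_⟩
        obtain ⟨Y0, y1, y2⟩ := he1 x hx hc hg hs
        by_cases htube : ∃ k, P.bk r k x = 0
        · obtain ⟨k, hk⟩ := htube
          obtain ⟨t1, t2⟩ := P.bk_eventually hs hk
          obtain ⟨b1, b2⟩ := hball k x hs t1.ge
          have hnA : ‖P.A (sv x) (tv x - P.eta k (sv x))‖ = r * ‖sv x‖ := by
            unfold ak at t1; linarith
          have hA0 : P.A (sv x) (tv x - P.eta k (sv x)) ≠ 0 := by
            intro h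
            rw [h, norm_zero] at hnA
            have := mul_pos hr hns
            linarith
          have hwz := hww k x hs t1.ge
          have hw0 : P.ww (sv x) (tv x) = 0 := P.ww_zero _ _ hwz.le
          have ha00 : P.a00 (sv x) ≤ 0 := by
            have h1 : P.a0 ε x ≤ 0 := hai none
            unfold a0 at h1
            rw [hw0, mul_zero, sub_zero] at h1
            exact h1
          set Z : Fin (n + 3) → ℝ := fun j => -((tv x - P.eta k (sv x)) j) with hZ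
          have hvZ : vec Z = -(tv x - P.eta k (sv x)) := by
            ext j
            rfl
          -- `vt Z` kills the derivative of `Im G`
          have hcZ : (fderiv ℝ P.G x (vt Z)).im = 0 := by
            rw [← fderiv_im hGd]
            refine line_fderiv (f := fun x => (P.G x).im) (Complex.imCLM.differentiableAt.comp x hGd)
              ?_
            have h1 : ∀ᶠ h : ℝ in 𝓝 0, ‖(1 - h) • (tv x - P.eta k (sv x))‖ < P.r2 * ‖sv x‖ := by
              have : ContinuousAt (fun h : ℝ => ‖(1 - h) • (tv x - P.eta k (sv x))‖) 0 := by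
                fun_prop
              refine this.eventually_lt continuousAt_const ?_
              rw [sub_zero, one_smul]
              exact b2
            have h2 : (fun h : ℝ => (P.G (x + h • vt Z)).im) =ᶠ[𝓝 0] fun _ => 0 := by
              filter_upwards [h1] with h hh
              have e1 : sv (x + h • vt Z) = sv x := by
                rw [map_add, map_smul, sv_vt, smul_zero, add_zero]
              have e2 : tv (x + h • vt Z) - P.eta k (sv x) = (1 - h) • (tv x - P.eta k (sv x)) := by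
                rw [map_add, map_smul, tv_vt, hvZ, sub_smul, one_smul, smul_neg]
                abel
              have h3 := (P.tube k (x + h • vt Z) (by rw [e1]; exact hs) (by
                rw [e1, e2]; exact hh.le)).1
              rw [h3, e1, e2, inner_smul_right, ← (P.tube k x hs b2.le).1, hc, mul_zero]
            exact (hasDerivAt_const (0 : ℝ) (0 : ℝ)).congr_of_eventuallyEq h2
          have hkZ : fderiv ℝ (P.ak r k) x (vt Z) = r * ‖sv x‖ := by
            have hAn : P.A (sv x) (-(tv x - P.eta k (sv x))) =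
                -P.A (sv x) (tv x - P.eta k (sv x)) := by
              have := P.Asmul (sv x) (-1) (tv x - P.eta k (sv x))
              rwa [neg_one_smul, neg_one_smul] at this
            rw [P.fderiv_ak hs hA0, hvZ, hAn, inner_neg_right, neg_div, neg_neg,
              real_inner_self_eq_norm_sq, hnA]
            have := (mul_pos hr hns).ne'
            field_simp
          set μ : ℝ := (|fderiv ℝ (P.ak r k) x (vs 1 Y0)| + 1) / (r * ‖sv x‖) with hμ
          refine ⟨Y0 + μ • Z, ?_, fun i hi => ⟨hsm i hi, ?_⟩⟩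
          · rw [vs_add, vt_smul, map_add, map_smul, Complex.add_im, Complex.smul_im, y1, hcZ,
              smul_zero, add_zero]
          · rcases i with _ | l
            · have hi' : P.a0 ε x = 0 := hi
              show 0 < fderiv ℝ (P.a0 ε) x (vs 1 (Y0 + μ • Z))
              have h1 : P.a0 ε =ᶠ[𝓝 x] fun x => P.a00 (sv x) := by
                have h2 : ∀ᶠ y in 𝓝 x, ‖hor (tv y)‖ < P.κ2 * ‖sv y‖ :=
                  ContinuousAt.eventually_lt
                    ((continuous_hor'.comp tv.continuous).norm.continuousAt)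
                    (continuous_const.mul sv.continuous.norm).continuousAt hwz
                filter_upwards [h2] with y hy
                unfold a0
                rw [P.ww_zero _ _ hy.le, mul_zero, sub_zero]
              rw [h1.fderiv_eq]
              have hn : ({0}ᶜ : Set (W n)) ∈ 𝓝 (sv x) := isOpen_compl_singleton.mem_nhds hs
              have h3 : HasFDerivAt (fun x : Fin (n + 3) → ℂ => P.a00 (sv x))
                  ((fderiv ℝ P.a00 (sv x)).comp sv) x :=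
                ((P.ca00.contDiffAt hn).differentiableAt one_ne_zero).hasFDerivAt.comp x
                  sv.hasFDerivAt
              rw [h3.fderiv, ContinuousLinearMap.comp_apply, sv_vs, neg_smul, one_smul]
              refine P.hc1.trans_le (P.m00 _ hs ?_)
              unfold a0 at hi'
              rw [hw0, mul_zero, sub_zero] at hi'
              exact hi'.ge
            · have hi' : P.bk r l x = 0 := hi
              obtain ⟨l1, l2⟩ := P.bk_eventually hs hi'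
              by_cases hlk : k = l
              · subst hlk
                show 0 < fderiv ℝ (P.bk r k) x (vs 1 (Y0 + μ • Z))
                rw [l2.fderiv_eq, vs_add, vt_smul, map_add, map_smul, hkZ, smul_eq_mul, hμ,
                  div_mul_cancel₀ _ (mul_pos hr hns).ne']
                have := neg_abs_le (fderiv ℝ (P.ak r k) x (vs 1 Y0))
                linarith
              · exact absurd (hball l x hs l1.ge).1 fun h =>
                  rd k l _ _ hs hlk ha00 r hrr b1 h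
        · refine ⟨Y0, y1, fun i hi => ⟨hsm i hi, ?_⟩⟩
          rcases i with _ | k
          · exact y2 hi
          · exact absurd ⟨k, hi⟩ htube
      · left
        have hsp := parallel hpar
        set lam := re1 x / (n + 3 : ℕ) with hlam
        rcases lt_trichotomy lam 0 with hl | hl | hl
        · -- `s = -l (1,…,1)`
          have hsl : sv x = (-lam) • (-one n) := by rw [hsp, smul_neg, neg_smul, neg_neg]
          have ha0 : P.a0 ε x ≤ 0 := hai none
          obtain ⟨Y, y1, y2, y3⟩ := he2 x (-lam) hx hc hg (by linarith) hsl ha0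
          refine ⟨1, Y, zero_le_one, y1, y2, fun i hi => ⟨hsm i hi, ?_⟩⟩
          rcases i with _ | k
          · exact y3 hi
          · exfalso
            obtain ⟨t1, t2⟩ := P.bk_eventually (r := r) (k := k) hs hi
            have hw0 : P.ww (sv x) (tv x) = 0 := P.ww_zero _ _ (hww k x hs t1.ge).le
            unfold a0 at ha0
            rw [hw0, mul_zero, sub_zero, hsl, P.h00 _ _ (by linarith)] at ha0
            have := mul_pos (show 0 < -lam by linarith) P.neg1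
            linarith
        · exact absurd (by rw [hsp, hl, zero_smul]) hs
        · -- `s = l (1,…,1)`
          obtain ⟨k, Y, y1, y2, y3, y4, y5⟩ := P.R4 lam x hl hsp hc hg
          have hk0 : P.bk r k x ≤ 0 := hai (some k)
          have hk1 : P.ak r k x ≤ 0 := (le_max_left _ _).trans hk0
          have hAid : ∀ v, P.A (sv x) v = v := fun v => by rw [hsp]; exact P.A1 lam v hl
          have hd0 : tv x - P.eta k (sv x) ≠ 0 := by
            intro h
            unfold ak at hk1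
            rw [hAid, h, norm_zero, sub_zero] at hk1
            have := mul_pos hr hns
            linarith
          obtain ⟨y6, y7⟩ := y4 (sub_ne_zero.1 hd0)
          have e : vs 0 (-Y) = -vt Y := by
            funext j
            simp [vs, vt]
          refine ⟨0, -Y, le_rfl, ?_, ?_, fun i hi => ⟨hsm i hi, ?_⟩⟩
          · rw [e, map_neg, Complex.neg_im, y1, neg_zero]
          · rw [e, map_neg, map_neg, Complex.neg_re]
            have h1 := mul_pos hg0 y6
            have h2 := mul_nonneg (P.ψ0 x hx0).le (neg_nonneg.2 y2)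
            linarith
          · rcases i with _ | l
            · exfalso
              have hi' : P.a0 ε x = 0 := hi
              unfold a0 at hi'
              rw [hsp, P.h00 _ _ hl] at hi'
              have h1 := mul_pos_of_neg_of_neg (neg_lt_zero.2 hl) P.pos1
              have h2 := mul_nonneg hε.le (P.ww_nonneg (lam • one n) (tv x))
              linarith
            · have hi' : P.bk r l x = 0 := hi
              obtain ⟨l1, l2⟩ := P.bk_eventually hs hi'
              have h1 : ‖tv x - P.eta l (sv x)‖ = r * ‖sv x‖ := by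
                unfold ak at l1
                rw [hAid] at l1
                linarith
              by_cases hlk : l = k
              · subst hlk
                show 0 < fderiv ℝ (P.bk r l) x (vs 0 (-Y))
                rw [l2.fderiv_eq, e, map_neg, P.fderiv_ak hs (by rw [hAid]; exact hd0), neg_neg,
                  hAid, hAid]
                exact div_pos y7 (norm_pos_iff.2 hd0)
              · exfalso
                have h2 := y5 l hlk
                rw [h1] at h2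
                have h3 := mul_lt_mul_of_pos_right (hrr.trans_le rb) hns
                linarith
  obtain ⟨F, hF1, hF2⟩ := carve (κ := Option (Fin m)) (a := P.af r ε) P.sm P.hom P.S0
    (fun x hx hc hg => P.K1 x (hne x hx) hc hg) P.sψ P.ψ0 P.hψ (P.continuousOn_af r ε)
    (fun i c x hc => P.hom_af r ε i c x hc) H1 hp
  refine ⟨F, hF1, fun x => ⟨fun h => ?_, fun h => ?_⟩⟩
  · have hc : (P.G x).im = 0 := by rw [h]; rfl
    have hg : (P.G x).re = 0 := by rw [h]; rfl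
    have h1 := ((hF2 x hc).2).2 hg
    have h2 : ∀ i, P.af r ε i (F x) ≤ 0 := mx_le_iff.1 h1.le
    obtain ⟨i, hi⟩ := exists_mx (P.af r ε) (F x : Fin (n + 3) → ℂ)
    rw [h1] at hi
    refine ⟨by rw [hF1, hc], h2 none, fun k => (le_max_left _ _).trans (h2 (some k)), ?_⟩
    rcases i with _ | k
    · exact Or.inl hi.symm
    · right
      refine ⟨k, ?_⟩
      have h3 := hbk k (F x) (F x).2 (show 0 ≤ P.bk r k (F x) from hi.le)
      exact le_antisymm ((le_max_left _ _).trans (h2 (some k))) h3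
  · obtain ⟨hc, h0, hk, hor'⟩ := h
    have hc' : (P.G x).im = 0 := by rw [← hF1]; exact hc
    have h2 : ∀ i, P.af r ε i (F x) ≤ 0 := by
      intro i
      rcases i with _ | k
      · exact h0
      · exact max_le (hk k) (hneg _ (F x).2).le
    have h3 : mx (P.af r ε) (F x : Fin (n + 3) → ℂ) = 0 := by
      refine le_antisymm (mx_le_iff.2 h2) ?_
      rcases hor' with h4 | ⟨k, h4⟩
      · rw [← h4]; exact le_mx (P.af r ε) _ none
      · have h5 : P.bk r k (F x) = 0 := by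
          unfold bk
          rw [h4]
          exact max_eq_left (hneg _ (F x).2).le
        rw [← h5]; exact le_mx (P.af r ε) _ (some k)
    exact Complex.ext (((hF2 x hc').2).1 h3) hc'

end CD

end Crest.Agent.R267.Carve2_363
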