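import Crest.Agent.R267.Smooth_957

/-!
# Row 267 (helper363): the radial gauge `ψ` of the carve

`ψ = NN K + (∑ j |s j|³ (1 + cos (π t j / (p s j)))) / NN K ²`.
-/

set_option autoImplicit false
set_option linter.unusedSectionVars false
set_option linter.unusedVariables false

noncomputable section

open Set Filter Topology Metric
open scoped ContDiff
open Crest.Agent.R267.T3aDefs_957 Crest.Agent.R267.Calc3_957
open Crest.Agent.R267.T3aDefs_957.LD (vt vs)

namespace Crest.Agent.R267.CarvePsi_363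

/-- the angle -/
def thz (p : ℝ) (z : ℂ) : ℝ := Real.pi / p * (z.im * (z.re)⁻¹)

/-- `|s|³ (1 + cos (π t / (p s)))` -/
def rad (p : ℝ) (z : ℂ) : ℝ := |z.re| ^ 3 * (1 + Real.cos (thz p z))

/-- its partial derivatives -/
def rads (p : ℝ) (z : ℂ) : ℝ :=
  3 * z.re * |z.re| * (1 + Real.cos (thz p z)) +
    Real.pi / p * |z.re| * z.im * Real.sin (thz p z)

def radt (p : ℝ) (z : ℂ) : ℝ := -(Real.pi / p * z.re * |z.re| * Real.sin (thz p z))

def radL (p : ℝ) (z : ℂ) : ℂ →L[ℝ] ℝ := rads p z • Complex.reCLM + radt p z • Complex.imCLM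

theorem rad_nonneg (p : ℝ) (z : ℂ) : 0 ≤ rad p z := by
  have := Real.neg_one_le_cos (thz p z)
  exact mul_nonneg (by positivity) (by linarith)

theorem thz_smul (p : ℝ) {r : ℝ} (hr : 0 < r) (z : ℂ) : thz p (r • z) = thz p z := by
  unfold thz
  rw [Complex.smul_re, Complex.smul_im, smul_eq_mul, smul_eq_mul, mul_inv]
  field_simp

theorem rad_smul (p : ℝ) {r : ℝ} (hr : 0 < r) (z : ℂ) : rad p (r • z) = r ^ 3 * rad p z := by
  unfold rad
  rw [thz_smul p hr, Complex.smul_re, smul_eq_mul, abs_mul, abs_of_pos hr]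
  ring

theorem hasFDerivAt_re (z : ℂ) : HasFDerivAt (fun z : ℂ => z.re) Complex.reCLM z :=
  Complex.reCLM.hasFDerivAt

theorem hasFDerivAt_im (z : ℂ) : HasFDerivAt (fun z : ℂ => z.im) Complex.imCLM z :=
  Complex.imCLM.hasFDerivAt

theorem hasFDerivAt_rad_ne {p : ℝ} {z : ℂ} (hz : z.re ≠ 0) :
    HasFDerivAt (rad p) (radL p z) z := by
  have hinv : HasFDerivAt (fun z : ℂ => (z.re)⁻¹) ((-(z.re ^ 2)⁻¹) • Complex.reCLM) z :=
    (hasDerivAt_inv hz).comp_hasFDerivAt z (hasFDerivAt_re z)
  have h1 : HasFDerivAt (thz p) _ z := ((hasFDerivAt_im z).mul hinv).const_mul (Real.pi / p)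
  have h3 := h1.cos.const_add 1
  have key : ∀ σ : ℝ, (σ = 1 ∨ σ = -1) → |z.re| = σ * z.re →
      (fun z : ℂ => |z.re|) =ᶠ[𝓝 z] (fun z => σ * z.re) → HasFDerivAt (rad p) (radL p z) z := by
    intro σ hσ h4 h5
    have h6 : rad p =ᶠ[𝓝 z] fun z => (σ * z.re) ^ 3 * (1 + Real.cos (thz p z)) := by
      filter_upwards [h5] with w hw
      unfold rad
      rw [hw]
    refine HasFDerivAt.congr_of_eventuallyEq ?_ h6
    have h8 : HasFDerivAt (fun z : ℂ => (σ * z.re) ^ 3)
        ((3 * (σ * z.re) ^ 2 * σ) • Complex.reCLM) z := by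
      have h9 : HasDerivAt (fun x : ℝ => (σ * x) ^ 3) (3 * (σ * z.re) ^ 2 * σ) z.re := by
        have h10 := ((hasDerivAt_id z.re).const_mul σ).fun_pow 3
        simpa using h10
      exact h9.comp_hasFDerivAt z (hasFDerivAt_re z)
    have h7 := h8.mul h3
    refine h7.congr_fderiv ?_
    ext w
    simp only [radL, rads, radt, _root_.add_apply, _root_.smul_apply,
      Complex.reCLM_apply, Complex.imCLM_apply, smul_eq_mul, h4]
    rcases hσ with rfl | rfl <;> field_simp <;> ring
  rcases lt_or_gt_of_ne hz with h | h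
  · refine key (-1) (Or.inr rfl) (by rw [abs_of_neg h]; ring) ?_
    have : ∀ᶠ w : ℂ in 𝓝 z, w.re < 0 :=
      Complex.continuous_re.continuousAt.eventually_lt continuousAt_const h
    filter_upwards [this] with w hw
    rw [abs_of_neg hw]; ring
  · refine key 1 (Or.inl rfl) (by rw [abs_of_pos h]; ring) ?_
    have : ∀ᶠ w : ℂ in 𝓝 z, 0 < w.re :=
      continuousAt_const.eventually_lt Complex.continuous_re.continuousAt h
    filter_upwards [this] with w hw
    rw [abs_of_pos hw]; ring

theorem hasFDerivAt_rad (p : ℝ) (z : ℂ) : HasFDerivAt (rad p) (radL p z) z := by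
  by_cases hz : z.re = 0
  · have h1 : radL p z = 0 := by
      unfold radL rads radt
      rw [hz]
      simp
    rw [h1]
    refine Asymptotics.IsBigO.hasFDerivAt (n := 3) ?_ (by norm_num)
    refine Asymptotics.IsBigO.of_bound 2 (Eventually.of_forall fun w => ?_)
    have h2 : |w.re| ≤ ‖w - z‖ := by
      have := Complex.abs_re_le_norm (w - z)
      rwa [Complex.sub_re, hz, sub_zero] at this
    have h3 := Real.cos_le_one (thz p w)
    have h4 := Real.neg_one_le_cos (thz p w)
    rw [Real.norm_of_nonneg (rad_nonneg p w), norm_pow, norm_norm]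
    unfold rad
    have h5 : |w.re| ^ 3 ≤ ‖w - z‖ ^ 3 := pow_le_pow_left₀ (abs_nonneg _) h2 3
    have h6 : 0 ≤ |w.re| ^ 3 := by positivity
    nlinarith
  · exact hasFDerivAt_rad_ne hz

theorem continuous_rads (p : ℝ) : Continuous (rads p) := by
  rw [continuous_iff_continuousAt]
  intro z
  by_cases hz : z.re = 0
  · have h0 : rads p z = 0 := by unfold rads; rw [hz]; simp
    rw [ContinuousAt, h0]
    refine squeeze_zero_norm (a := fun w : ℂ => 6 * |w.re| ^ 2 + |Real.pi / p| * |w.re| * |w.im|)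
      (fun w => ?_) ?_
    · unfold rads
      refine (norm_add_le _ _).trans (add_le_add ?_ ?_)
      · rw [Real.norm_eq_abs, abs_mul, abs_mul, abs_mul, abs_abs]
        have h3 := Real.cos_le_one (thz p w)
        have h4 := Real.neg_one_le_cos (thz p w)
        have h5 : |1 + Real.cos (thz p w)| ≤ 2 := by rw [abs_le]; constructor <;> linarith
        have h6 := mul_le_mul_of_nonneg_left h5 (sq_nonneg |w.re|)
        rw [abs_of_pos (by norm_num : (0 : ℝ) < 3)]
        nlinarith
      · rw [Real.norm_eq_abs, abs_mul, abs_mul, abs_mul, abs_abs]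
        exact mul_le_of_le_one_right (by positivity) (Real.abs_sin_le_one _)
    · have h1 : Continuous fun w : ℂ => 6 * |w.re| ^ 2 + |Real.pi / p| * |w.re| * |w.im| :=
        (continuous_const.mul (Complex.continuous_re.abs.pow 2)).add
          ((continuous_const.mul Complex.continuous_re.abs).mul Complex.continuous_im.abs)
      have h2 := h1.tendsto z
      rw [hz] at h2
      simpa using h2
  · have h1 : ContinuousAt (thz p) z :=
      continuousAt_const.mul (Complex.continuous_im.continuousAt.mul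
        (Complex.continuous_re.continuousAt.inv₀ hz))
    unfold rads
    exact (((continuousAt_const.mul Complex.continuous_re.continuousAt).mul
      Complex.continuous_re.continuousAt.abs).mul (continuousAt_const.add
        (Real.continuous_cos.continuousAt.comp h1))).add
      (((continuousAt_const.mul Complex.continuous_re.continuousAt.abs).mul
      Complex.continuous_im.continuousAt).mul (Real.continuous_sin.continuousAt.comp h1))

theorem continuous_radt (p : ℝ) : Continuous (radt p) := by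
  rw [continuous_iff_continuousAt]
  intro z
  by_cases hz : z.re = 0
  · have h0 : radt p z = 0 := by unfold radt; rw [hz]; simp
    rw [ContinuousAt, h0]
    refine squeeze_zero_norm (a := fun w : ℂ => |Real.pi / p| * |w.re| * |w.re|) (fun w => ?_) ?_
    · unfold radt
      rw [norm_neg, Real.norm_eq_abs, abs_mul, abs_mul, abs_mul, abs_abs]
      exact mul_le_of_le_one_right (by positivity) (Real.abs_sin_le_one _)
    · have h1 : Continuous fun w : ℂ => |Real.pi / p| * |w.re| * |w.re| :=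
        (continuous_const.mul Complex.continuous_re.abs).mul Complex.continuous_re.abs
      have h2 := h1.tendsto z
      rw [hz] at h2
      simpa using h2
  · have h1 : ContinuousAt (thz p) z :=
      continuousAt_const.mul (Complex.continuous_im.continuousAt.mul
        (Complex.continuous_re.continuousAt.inv₀ hz))
    unfold radt
    exact (((continuousAt_const.mul Complex.continuous_re.continuousAt).mul
      Complex.continuous_re.continuousAt.abs).mul
      (Real.continuous_sin.continuousAt.comp h1)).neg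

theorem contDiff_rad (p : ℝ) : ContDiff ℝ 1 (rad p) := by
  rw [contDiff_one_iff_hasFDerivAt]
  refine ⟨radL p, ?_, hasFDerivAt_rad p⟩
  exact ((continuous_rads p).smul continuous_const).add ((continuous_radt p).smul continuous_const)

/-! ### the gauge -/

variable {N : ℕ}

/-- the gauge -/
def psi (p K : ℝ) (x : Fin N → ℂ) : ℝ := NN K x + (∑ j, rad p (x j)) / NN K x ^ 2

theorem psi_pos (p K : ℝ) {x : Fin N → ℂ} (hx : x ≠ 0) : 0 < psi p K x := by
  have h1 : 0 < NN K x := NN_pos hx
  have h2 : 0 ≤ ∑ j, rad p (x j) := Finset.sum_nonneg fun j _ => rad_nonneg p _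
  unfold psi
  have := div_nonneg h2 (sq_nonneg (NN K x))
  linarith

theorem gq_smul (K : ℝ) {r : ℝ} (hr : 0 < r) (A B : ℝ) :
    gq K (r ^ 2 * A) (r ^ 2 * B) = r ^ 2 * gq K A B := by
  unfold gq
  have h1 : max 0 (r ^ 2 * B - K ^ 2 * (r ^ 2 * A)) = r ^ 2 * max 0 (B - K ^ 2 * A) := by
    rw [mul_max_of_nonneg _ _ (sq_nonneg r), mul_zero]
    congr 1
    ring
  rw [h1]
  have h2 : (r ^ 2 * max 0 (B - K ^ 2 * A)) ^ 3 / ((3 * K ^ 2 + 3) * (r ^ 2 * A + r ^ 2 * B) ^ 2) =
      r ^ 2 * (max 0 (B - K ^ 2 * A) ^ 3 / ((3 * K ^ 2 + 3) * (A + B) ^ 2)) := by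
    rw [show (r ^ 2 * max 0 (B - K ^ 2 * A)) ^ 3 =
      r ^ 4 * (r ^ 2 * max 0 (B - K ^ 2 * A) ^ 3) by ring,
      show (3 * K ^ 2 + 3) * (r ^ 2 * A + r ^ 2 * B) ^ 2 =
      r ^ 4 * ((3 * K ^ 2 + 3) * (A + B) ^ 2) by ring,
      mul_div_mul_left _ _ (pow_pos hr 4).ne', mul_div_assoc]
  rw [h2]
  ring

theorem NN_smul (K : ℝ) {r : ℝ} (hr : 0 < r) (x : Fin N → ℂ) : NN K (r • x) = r * NN K x := by
  have e1 : ∑ j, ((r • x) j).re ^ 2 = r ^ 2 * ∑ j, (x j).re ^ 2 := by
    rw [Finset.mul_sum]
    exact Finset.sum_congr rfl fun j _ => by simp [mul_pow]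
  have e2 : ∑ j, ((r • x) j).im ^ 2 = r ^ 2 * ∑ j, (x j).im ^ 2 := by
    rw [Finset.mul_sum]
    exact Finset.sum_congr rfl fun j _ => by simp [mul_pow]
  unfold NN
  rw [e1, e2, gq_smul K hr, Real.sqrt_mul (sq_nonneg r), Real.sqrt_sq hr.le]

theorem psi_smul (p K : ℝ) {r : ℝ} (hr : 0 < r) (x : Fin N → ℂ) :
    psi p K (r • x) = r * psi p K x := by
  have e1 : ∑ j, rad p ((r • x) j) = r ^ 3 * ∑ j, rad p (x j) := by
    rw [Finset.mul_sum]
    exact Finset.sum_congr rfl fun j _ => by rw [Pi.smul_apply, rad_smul p hr]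
  unfold psi
  rw [NN_smul K hr, e1, show r ^ 3 * (∑ j, rad p (x j)) = r ^ 2 * (r * ∑ j, rad p (x j)) by ring,
    mul_pow, mul_div_mul_left _ _ (pow_pos hr 2).ne', mul_div_assoc]
  ring

theorem contDiffOn_psi (p K : ℝ) : ContDiffOn ℝ 1 (psi (N := N) p K) {0}ᶜ := by
  intro x hx
  refine ContDiffAt.contDiffWithinAt ?_
  have h1 : ContDiffAt ℝ 1 (NN (N := N) K) x :=
    (Smooth_957.contDiffAt_NN K hx).of_le one_le_two
  have h2 : ContDiffAt ℝ 1 (fun x : Fin N → ℂ => ∑ j, rad p (x j)) x :=
    ContDiffAt.sum fun j _ => ((contDiff_rad p).comp (contDiff_apply ℝ ℂ j)).contDiffAt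
  unfold psi
  exact h1.add (h2.div (h1.pow 2) (pow_ne_zero 2 (NN_pos hx).ne'))

/-- vertical derivative of `ψ` over the ray `s = l (1, …, 1)` -/
theorem fderiv_psi {p K l : ℝ} {x : Fin N → ℂ} (hx : x ≠ 0) (hl : 0 < l)
    (hs : ∀ j, (x j).re = l) (hK : BB x < K ^ 2 * AA x) (Y : Fin N → ℝ) :
    fderiv ℝ (psi p K) x (vt Y) = (∑ j, radt p (x j) * Y j) / AA x := by
  have h1 : HasFDerivAt (psi p K) (fderiv ℝ (psi p K) x) x :=
    (((contDiffOn_psi p K).contDiffAt (isOpen_compl_singleton.mem_nhds hx)).differentiableAt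
      one_ne_zero).hasFDerivAt
  have h2 : HasFDerivAt (NN K) (dNN K x) x := hasFDerivAt_NN K hx
  have h3 : HasFDerivAt (fun x : Fin N → ℂ => ∑ j, rad p (x j))
      (∑ j, (radL p (x j)).comp (ContinuousLinearMap.proj (R := ℝ) (φ := fun _ : Fin N => ℂ) j))
      x := by
    refine HasFDerivAt.fun_sum fun j _ => ?_
    exact (hasFDerivAt_rad p (x j)).comp x (hasFDerivAt_apply (𝕜 := ℝ) j x)
  have hNN : NN K x = √(AA x) := NN_of_le hK.le
  have hd : dNN K x (vt Y) = 0 := by
    rw [dNN_of_le hK.le, sr_apply]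
    have : ∑ j, (x j).re * (vt Y j).re = 0 := Finset.sum_eq_zero fun j _ => by simp [vt]
    rw [this, zero_div]
  have hpos : 0 < NN K x := NN_pos hx
  -- along the line
  have hline : HasDerivAt (fun h : ℝ => x + h • vt Y) (vt Y) 0 := by
    simpa using ((hasDerivAt_id (0 : ℝ)).smul_const (vt Y)).const_add x
  have hat : ∀ {f : (Fin N → ℂ) → ℝ} {f' : (Fin N → ℂ) →L[ℝ] ℝ}, HasFDerivAt f f' x →
      HasDerivAt (fun h : ℝ => f (x + h • vt Y)) (f' (vt Y)) 0 := by
    intro f f' hf
    have h6 : HasFDerivAt f f' (x + (0 : ℝ) • vt Y) := by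
      rw [zero_smul, add_zero]
      exact hf
    exact h6.comp_hasDerivAt 0 hline
  have k1 := hat h1
  have k2 := hat h2
  have k3 := hat h3
  rw [hd] at k2
  have e3 : (∑ j, (radL p (x j)).comp
      (ContinuousLinearMap.proj (R := ℝ) (φ := fun _ : Fin N => ℂ) j)) (vt Y) =
      ∑ j, radt p (x j) * Y j := by
    simp only [_root_.sum_apply, ContinuousLinearMap.comp_apply,
      ContinuousLinearMap.proj_apply, radL, _root_.add_apply,
      _root_.smul_apply, Complex.reCLM_apply, Complex.imCLM_apply, smul_eq_mul]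
    refine Finset.sum_congr rfl fun j _ => ?_
    simp [vt]
  rw [e3] at k3
  have k4 := k2.fun_add (k3.fun_div (k2.fun_pow 2) (by
    simp only [zero_smul, add_zero]
    exact pow_ne_zero 2 hpos.ne'))
  have k5 := k1.unique k4
  rw [k5]
  simp only [zero_smul, add_zero, mul_zero, sub_zero, zero_add]
  rw [hNN, Real.sq_sqrt (by unfold AA; exact Finset.sum_nonneg fun _ _ => sq_nonneg _)]
  have hAA : AA x ≠ 0 := by
    intro h
    rw [hNN, h, Real.sqrt_zero] at hpos
    exact lt_irrefl _ hpos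
  field_simp

/-- sign of the vertical derivative of `rad` near the ray `t = σ s`, `σ ∈ p (2ℤ + 1)` -/
theorem radt_mul {p l σ : ℝ} (hp : 2 < p) (hl : 0 < l) {a : ℕ} (hσ : σ = p * (2 * a + 1)) {z : ℂ}
    (hz : z.re = l) (hv : |z.im - σ * l| < 2 * l) {y : ℝ}
    (hy : (z.im - σ * l) ^ 2 ≤ (z.im - σ * l) * y) :
    0 ≤ radt p z * y ∧ (z.im - σ * l ≠ 0 → 0 < radt p z * y) := by
  set v := z.im - σ * l with hvdef
  have hp0 : 0 < p := by linarith
  have e1 : thz p z = Real.pi / p * (v / l) + Real.pi + a * (2 * Real.pi) := by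
    unfold thz
    have : z.im = v + σ * l := by rw [hvdef]; ring
    rw [hz, this, hσ]
    field_simp
    ring
  have e2 : Real.sin (thz p z) = -Real.sin (Real.pi / p * (v / l)) := by
    rw [e1, Real.sin_add_nat_mul_two_pi, Real.sin_add_pi]
  have e3 : radt p z * y = Real.pi / p * l * l * (Real.sin (Real.pi / p * (v / l)) * y) := by
    unfold radt
    rw [e2, hz, abs_of_pos hl]
    ring
  rw [e3]
  have hc : 0 < Real.pi / p * l * l := by have := Real.pi_pos; positivity
  have hlt : |Real.pi / p * (v / l)| < Real.pi := by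
    rw [abs_mul, abs_div v l, abs_of_pos hl, abs_of_pos (div_pos Real.pi_pos hp0)]
    have h1 : |v| / l < p := by
      rw [div_lt_iff₀ hl]
      nlinarith
    calc Real.pi / p * (|v| / l) < Real.pi / p * p :=
          mul_lt_mul_of_pos_left h1 (div_pos Real.pi_pos hp0)
      _ = Real.pi := by field_simp
  rw [abs_lt] at hlt
  have key : v ≠ 0 → 0 < Real.sin (Real.pi / p * (v / l)) * y := by
    intro hv0
    rcases lt_or_gt_of_ne hv0 with h | h
    · have hy' : y < 0 := by
        by_contra hy'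
        push Not at hy'
        have h1 : v * y ≤ 0 := mul_nonpos_of_nonpos_of_nonneg h.le hy'
        have h2 : 0 < v ^ 2 := by positivity
        linarith
      refine mul_pos_of_neg_of_neg (Real.sin_neg_of_neg_of_neg_pi_lt ?_ hlt.1) hy'
      exact mul_neg_of_pos_of_neg (div_pos Real.pi_pos hp0) (div_neg_of_neg_of_pos h hl)
    · have hy' : 0 < y := by
        by_contra hy'
        push Not at hy'
        have h1 : v * y ≤ 0 := mul_nonpos_of_nonneg_of_nonpos h.le hy'
        have h2 : 0 < v ^ 2 := by positivity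
        linarith
      refine mul_pos (Real.sin_pos_of_pos_of_lt_pi ?_ hlt.2) hy'
      exact mul_pos (div_pos Real.pi_pos hp0) (div_pos h hl)
  refine ⟨?_, fun h => mul_pos hc (key h)⟩
  by_cases hv0 : v = 0
  · rw [hv0, zero_div, mul_zero, Real.sin_zero, zero_mul, mul_zero]
  · exact (mul_pos hc (key hv0)).le

end Crest.Agent.R267.CarvePsi_363
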