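import Crest.Agent.R267.End2b_864

/-!
# Row 267, T3-end: from the zero set with flat plate zone and tubes to `Khom` (part c)

The homogeneous homeomorphism carries the zero set to `Khom`.
-/

set_option autoImplicit false

namespace Crest.Agent.R267.End2c_864

open Set Metric Filter Topology
open scoped RealInnerProductSpace
open Crest.Agent.R267.GS_808 Crest.Agent.R267.EndDef_864 Crest.Agent.R267.EndBas_864
  Crest.Agent.R267.EndSys_864 Crest.Agent.R267.End2a_864 Crest.Agent.R267.End2b_864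
  Crest.Agent.R267.End1_532

variable {n m : ℕ} {D : HD n m} (P : E2 D)

/-! ### linear algebra -/

lemma norm_le_of_nonpos {v : W n} (h : ∀ j, v j ≤ 0) : ‖v‖ ≤ √(n + 3 : ℝ) * |⟪u1 n, v⟫| := by
  have h0 := sqrt_pos n
  have h1 : √(n + 3 : ℝ) * |⟪u1 n, v⟫| = ∑ j, |v j| := by
    rw [inner_u1, abs_div, abs_of_pos h0, mul_div_cancel₀ _ h0.ne', abs_of_nonpos
      (Finset.sum_nonpos fun j _ => h j), ← Finset.sum_neg_distrib]
    exact Finset.sum_congr rfl fun j _ => (abs_of_nonpos (h j)).symm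
  rw [h1]
  have hT : 0 ≤ ∑ j, |v j| := Finset.sum_nonneg fun j _ => abs_nonneg _
  have h2 : ‖v‖ ^ 2 ≤ (∑ j, |v j|) ^ 2 := by
    rw [norm_sq_def, sq (∑ j, |v j|), Finset.sum_mul]
    refine Finset.sum_le_sum fun j _ => ?_
    rw [← sq_abs, sq]
    exact mul_le_mul_of_nonneg_left
      (Finset.single_le_sum (f := fun i => |v i|) (fun i _ => abs_nonneg _) (Finset.mem_univ j))
      (abs_nonneg _)
  exact abs_le_of_sq_le_sq' h2 hT |>.2

lemma inner_nA (k : Fin m) {s : W n} (hs : s ≠ 0) (v : W n) :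
    ⟪D.nA k s, D.A s v⟫ = ⟪D.nrm k s, v⟫ := by
  have e1 : ⟪D.nA k s, D.A s v⟫ = (1 - D.ka s) * ⟪D.nrm k s, hor v⟫ +
      ⟪u1 n, D.nrm k s⟫ * ⟪u1 n, D.A s v⟫ := by
    rw [HD.nA, inner_add_left, inner_smul_left, inner_smul_left]
    have h1 : ⟪hor (D.nrm k s), D.A s v⟫ = ⟪D.nrm k s, hor v⟫ := by
      rw [← inner_hor_hor, ← hor_A D s v]
      conv_lhs => rw [← hor_add_u1 (D.A s v), inner_add_right, inner_smul_right, inner_hor_u1,
        mul_zero, add_zero]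
    rw [h1]
    simp
  have e2 : ⟪D.nrm k s, v⟫ = ⟪D.nrm k s, hor v⟫ + ⟪u1 n, D.nrm k s⟫ * ⟪u1 n, v⟫ := by
    rw [inner_hor, real_inner_comm (u1 n)]
    ring
  rw [e1, e2, inner_u1_A]
  by_cases h : D.ka s = 0
  · rw [q, h]
    ring
  · have h1 := fun j => (D.kap s hs h j).le
    have h2 : ⟪D.nz s, u1 n⟫ ≠ 0 := (inner_nz_u1_neg D hs h1).ne
    rw [nrm_eq_nz D hs h1, q, real_inner_comm (D.nz s) (u1 n)]
    field_simp
    ring

/-- over base points `s` the shear is the linear map `A s` on the ball of radius `κ3 ‖s‖`. -/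
lemma shear_eq {s t : W n} (hs : s ≠ 0) (ht' : D.ka s ≠ 0 → ‖hor t‖ ≤ P.κ3 * ‖s‖) :
    t - P.sig (s, t) • u1 n = D.A s t := by
  have hs0 : 0 < ‖s‖ := norm_pos_iff.2 hs
  by_cases hk : D.ka s = 0
  · rw [P.sig_eq_zero_of_ka (p := (s, t)) hk, A_eq, q, hk]
    simp
  have ht := ht' hk
  have hl : ∀ j, s j ≤ D.d * ‖s‖ := fun j => (D.kap s hs hk j).le
  have hp : (s, t) ∈ E2.Low n := ⟨hs, fun j => (P.kap0 s hs hk j).le⟩
  have hze : P.ze (s, t) = 1 := by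
    have h1 : 0 < P.Cp * ‖s‖ := mul_pos P.Cp_pos hs0
    have h2 : ‖hor t‖ / (P.Cp * ‖s‖) ≤ 1 := by
      rw [div_le_one h1]
      exact ht.trans (mul_le_mul_of_nonneg_right (P.hκ23.trans P.hCp) hs0.le)
    rw [E2.ze]
    simp only
    rw [min_eq_left (by linarith), max_eq_right zero_le_one]
  have hz := inner_nz_u1_neg D hs hl
  set y := -(⟪D.nz s, hor t⟫ / ⟪D.nz s, u1 n⟫) with hy
  have hy1 : |y| ≤ √(n + 3 : ℝ) * ‖hor t‖ := by
    rw [hy, abs_neg, abs_div, div_le_iff₀ (abs_pos.2 hz.ne)]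
    have h1 := norm_le_of_nonpos (v := D.nz s) fun j => nz_nonpos D hs (hl j)
    rw [real_inner_comm] at h1
    calc |⟪D.nz s, hor t⟫| ≤ ‖D.nz s‖ * ‖hor t‖ := abs_real_inner_le_norm _ _
      _ ≤ (√(n + 3 : ℝ) * |⟪D.nz s, u1 n⟫|) * ‖hor t‖ :=
        mul_le_mul_of_nonneg_right h1 (norm_nonneg _)
      _ = _ := by ring
  have htau : y = P.tau ⟨(s, t), hp⟩ := by
    rw [← P.tau_spec ⟨(s, t), hp⟩ y]
    show P.c s (hor t + y • u1 n) = 0
    rw [P.clin s hs hk, inner_add_right, inner_smul_right, hy, neg_mul,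
      div_mul_cancel₀ _ hz.ne, add_neg_cancel]
    · have h2 := P.hκ1
      have h3 := sqrt_pos n
      calc ‖hor t + y • u1 n‖ ≤ ‖hor t‖ + |y| := by
            refine (norm_add_le _ _).trans ?_
            rw [norm_smul, norm_u1, mul_one, Real.norm_eq_abs]
        _ ≤ ‖hor t‖ + √(n + 3 : ℝ) * ‖hor t‖ := by linarith
        _ = (1 + √(n + 3 : ℝ)) * ‖hor t‖ := by ring
        _ ≤ (1 + √(n + 3 : ℝ)) * (P.κ3 * ‖s‖) := by gcongr
        _ = ((1 + √(n + 3 : ℝ)) * P.κ3) * ‖s‖ := by ring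
        _ ≤ P.κ1 * ‖s‖ := by gcongr
  have hsig : P.sig (s, t) = D.ka s * y := by
    rw [E2.sig, dif_pos hp, hze, mul_one, ← htau]
  rw [hsig, A_eq, sub_eq_add_neg, ← neg_smul, hy, q]
  congr 2
  ring

/-! ### base points -/

include P in
lemma sb_hom {b : Bc (n + 2)} {l : ℝ} (hl : 0 < l) (hb : ‖b‖ ≤ l) :
    l • D.sb (l⁻¹ • b) = bp b (l - ‖b‖ - D.m0 b) := by
  have h1 : ‖l⁻¹ • b‖ ≤ 1 := by
    rw [norm_smul, norm_inv, Real.norm_of_nonneg hl.le, inv_mul_le_iff₀ hl, mul_one]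
    exact hb
  rw [sb_of_le D h1, ← bp_smul, smul_smul, mul_inv_cancel₀ hl.ne', one_smul,
    m0_smul P (inv_pos.2 hl), norm_smul, norm_inv, Real.norm_of_nonneg hl.le]
  congr 1
  field_simp

lemma core_hom (k : Fin m) {b : Bc (n + 2)} {l : ℝ} (hl : 0 < l) :
    D.core k b = (1 / ‖l • D.sb b‖) • L n (D.A (l • D.sb b) (D.eta k (l • D.sb b))) := by
  have h0 : ‖D.sb b‖ ≠ 0 := norm_ne_zero_iff.2 (sb_ne D b)
  rw [core_eq, A_homog D hl, eta_smul D hl, A_smul, map_smul, smul_smul, norm_smul,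
    Real.norm_of_nonneg hl.le]
  congr 1
  field_simp

lemma nA_smul (k : Fin m) {l : ℝ} (hl : 0 < l) (s : W n) : D.nA k (l • s) = D.nA k s := by
  rw [HD.nA, HD.nA, D.kah l s hl, nrm_smul D hl]

lemma nuc_hom (k : Fin m) {b : Bc (n + 2)} {l : ℝ} (hl : 0 < l) :
    D.nuc k b = -((1 / ‖D.nA k (l • D.sb b)‖) • L n (D.nA k (l • D.sb b))) := by
  rw [HD.nuc, nA_smul k hl]

/-! ### the tubes -/

/-- the point `x` of `ℝ × Bc × W` lies on the tube of the strand `k`. -/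
def TB (k : Fin m) (x : ℝ × Bc (n + 2) × W n) : Prop :=
  x.1 < 0 ∧ ‖x.2.1‖ ≤ -x.1 ∧
    ‖(-x.1)⁻¹ • x.2.2 - D.core k ((-x.1)⁻¹ • x.2.1)‖ = P.r ∧
    ⟪D.nuc k ((-x.1)⁻¹ • x.2.1), (-x.1)⁻¹ • x.2.2 - D.core k ((-x.1)⁻¹ • x.2.1)⟫ = 0

lemma Ft_lt {q o : ℝ} (h : q < o) : Ft q o < o := by
  rw [Ft]
  refine max_lt h (lt_of_le_of_lt (min_le_left _ _) (by linarith))

lemma le_Ft (q o : ℝ) : q ≤ Ft q o := le_max_left _ _

/-- coordinates of the image. -/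
lemma Ph_eq (c0 κ : ℝ) (b : Bc (n + 2)) (q : ℝ) (t : W n) {y : ℝ} (hy : Ft q (oo P b t) = y) :
    Ph P c0 κ (bp b (q - D.m0 b), t) = (-(‖b‖ + y), b,
      L n (fs κ (SS D (-(‖b‖ + y), b)) (xx D c0 (-(‖b‖ + y), b))
        (t - P.sig (bp b (q - D.m0 b), t) • u1 n))) := by
  have h1 : Wl P (bp b (q - D.m0 b), t) =
      (-(‖b‖ + y), b, t - P.sig (bp b (q - D.m0 b), t) • u1 n) := by
    rw [Wl]
    simp only
    rw [bco_bp, inner_u1_bp, sub_add_cancel, hy]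
  rw [Ph, h1]
  rfl

/-- over the strand side, near the strands, everything is explicit. -/
lemma tube_aux {c0 κ : ℝ} (hκ : 0 < κ) (hc : ∀ b : Bc (n + 2), ‖b‖ ≤ 1 → c0 * SS D (-1, b) ≤ 1)
    {b : Bc (n + 2)} {q : ℝ} {t s : W n} (hsb : s = bp b (q - D.m0 b)) (hs : s ≠ 0) (hq : 0 ≤ q)
    (ht : ‖hor t‖ ≤ P.κ2 * ‖s‖) (ht3 : D.ka s ≠ 0 → ‖hor t‖ ≤ P.κ3 * ‖s‖)
    (hA : ‖D.A s t‖ ≤ κ * ‖s‖) (k : Fin m) :
    TB P k (Ph P c0 κ (s, t)) ↔
      ‖D.A s (t - D.eta k s)‖ = P.r * ‖s‖ ∧ ⟪D.nrm k s, t - D.eta k s⟫ = 0 := by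
  have hs0 : 0 < ‖s‖ := norm_pos_iff.2 hs
  have ho : oo P b t ≤ q := oo_le P hq (by rwa [← hsb])
  have hF : Ft q (oo P b t) = q := Ft_of_le ho (oo_nonneg P b t)
  have hl : 0 < ‖b‖ + q := by
    by_contra h
    push Not at h
    have hb := norm_nonneg b
    have h1 : ‖b‖ = 0 := by linarith
    have h2 : q = 0 := by linarith
    apply hs
    rw [hsb, norm_eq_zero.1 h1, h2, D.m00, sub_zero]
    exact bp_eq_zero.2 ⟨rfl, rfl⟩
  have hbl : ‖b‖ ≤ ‖b‖ + q := by linarith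
  have hS : SS D (-(‖b‖ + q), b) = ‖s‖ := by
    rw [SS, hsb]
    simp only [neg_neg, add_sub_cancel_left]
  have hx : xx D c0 (-(‖b‖ + q), b) = ‖b‖ + q := by
    rw [xx_eq P hc (x := (-(‖b‖ + q), b)) (by show -(‖b‖ + q) < 0; linarith)
      (by show ‖b‖ ≤ - -(‖b‖ + q); linarith)]
    exact neg_neg _
  have hsb' : (‖b‖ + q) • D.sb ((‖b‖ + q)⁻¹ • b) = s := by
    rw [sb_hom P hl hbl, add_sub_cancel_left, hsb]
  have hPh : Ph P c0 κ (s, t) = (-(‖b‖ + q), b, ((‖b‖ + q) / ‖s‖) • L n (D.A s t)) := by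
    rw [hsb, Ph_eq P c0 κ b q t hF, hS, hx, ← hsb, shear_eq P hs ht3, fs_small hκ hs0 hA, map_smul]
  have hcore : D.core k ((‖b‖ + q)⁻¹ • b) = (1 / ‖s‖) • L n (D.A s (D.eta k s)) := by
    rw [core_hom k hl, hsb']
  have hnuc : D.nuc k ((‖b‖ + q)⁻¹ • b) = -((1 / ‖D.nA k s‖) • L n (D.nA k s)) := by
    rw [nuc_hom k hl, hsb']
  have hv : (‖b‖ + q)⁻¹ • ((‖b‖ + q) / ‖s‖) • L n (D.A s t) = (1 / ‖s‖) • L n (D.A s t) := by
    rw [smul_smul]
    congr 1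
    field_simp
  have hd : (1 / ‖s‖) • L n (D.A s t) - (1 / ‖s‖) • L n (D.A s (D.eta k s)) =
      (1 / ‖s‖) • L n (D.A s (t - D.eta k s)) := by
    rw [A_sub, map_sub, smul_sub]
  rw [TB, hPh]
  simp only [neg_neg]
  rw [hcore, hnuc, hv, hd, norm_smul, LinearIsometryEquiv.norm_map,
    Real.norm_of_nonneg (by positivity)]
  have e1 : 1 / ‖s‖ * ‖D.A s (t - D.eta k s)‖ = P.r ↔ ‖D.A s (t - D.eta k s)‖ = P.r * ‖s‖ := by
    rw [one_div, inv_mul_eq_div, div_eq_iff hs0.ne']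
  have hn : 0 < ‖D.nA k s‖ := norm_pos_iff.2 (nA_ne D k hs)
  have e2 : ⟪-((1 / ‖D.nA k s‖) • L n (D.nA k s)), (1 / ‖s‖) • L n (D.A s (t - D.eta k s))⟫ = 0 ↔
      ⟪D.nrm k s, t - D.eta k s⟫ = 0 := by
    rw [inner_neg_left, inner_smul_left, inner_smul_right, inner_L, inner_nA k hs]
    simp [hn.ne', hs0.ne']
  rw [e1, e2]
  constructor
  · rintro ⟨-, -, h1, h2⟩
    exact ⟨h1, h2⟩
  · rintro ⟨h1, h2⟩
    exact ⟨by linarith, hbl, h1, h2⟩

lemma norm_hor_le (v : W n) : ‖hor v‖ ≤ ‖v‖ := by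
  have h1 : ‖v‖ ^ 2 = ‖hor v‖ ^ 2 + ⟪u1 n, v⟫ ^ 2 := by
    conv_lhs => rw [← hor_add_u1 v]
    rw [norm_add_sq_real, inner_smul_right, inner_hor_u1, norm_smul, norm_u1, mul_one,
      Real.norm_eq_abs, sq_abs]
    ring
  have h2 : ‖hor v‖ ^ 2 ≤ ‖v‖ ^ 2 := by rw [h1]; have := sq_nonneg ⟪u1 n, v⟫; linarith
  exact abs_le_of_sq_le_sq' h2 (norm_nonneg _) |>.2

/-- points with horizontal part near that of a strand have small horizontal part. -/
lemma hor_le {s t : W n} (hs : s ≠ 0) (k : Fin m) (h2 : ‖hor (t - D.eta k s)‖ ≤ P.r * ‖s‖) :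
    ‖hor t‖ ≤ P.κ2 * ‖s‖ ∧ (D.ka s ≠ 0 → ‖hor t‖ ≤ P.κ3 * ‖s‖) := by
  have h3 : hor t = hor (t - D.eta k s) + hor (D.eta k s) := by rw [hor_sub, sub_add_cancel]
  have h4 : ‖hor t‖ ≤ ‖hor (t - D.eta k s)‖ + ‖hor (D.eta k s)‖ := by
    conv_lhs => rw [h3]
    exact norm_add_le _ _
  exact ⟨by linarith [P.T1 s k hs], fun hk => by linarith [P.T1k s k hs hk]⟩

/-- points of the tube have small horizontal part. -/
lemma hor_le_of_tube {s t : W n} (hs : s ≠ 0) (k : Fin m)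
    (h : ‖D.A s (t - D.eta k s)‖ ≤ P.r * ‖s‖) :
    ‖hor t‖ ≤ P.κ2 * ‖s‖ ∧ (D.ka s ≠ 0 → ‖hor t‖ ≤ P.κ3 * ‖s‖) := by
  refine hor_le P hs k ?_
  rw [← hor_A D s]
  exact (norm_hor_le _).trans h

/-- the constants. -/
structure Cst (D : HD n m) (P : E2 D) (R c0 κ : ℝ) : Prop where
  hsep : ∀ k l b, k ≠ l → 2 * P.r < ‖D.core k b - D.core l b‖
  hbd : ∀ k b, ‖D.core k b‖ + P.r < R
  hc0 : 0 < c0
  hc : ∀ b : Bc (n + 2), ‖b‖ ≤ 1 → c0 * SS D (-1, b) ≤ 1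
  hκ : 0 < κ
  hκ2 : P.κ2 ≤ κ
  hR : R ≤ κ

include P in
/-- base points over the strand side come from the cube. -/
lemma exists_sb {b : Bc (n + 2)} {q : ℝ} {s : W n} (hsb : s = bp b (q - D.m0 b)) (hs : s ≠ 0)
    (hq : 0 ≤ q) : 0 < ‖b‖ + q ∧ s = (‖b‖ + q) • D.sb ((‖b‖ + q)⁻¹ • b) := by
  have hl : 0 < ‖b‖ + q := by
    by_contra h
    push Not at h
    have hb := norm_nonneg b
    have h1 : ‖b‖ = 0 := by linarith
    have h2 : q = 0 := by linarith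
    apply hs
    rw [hsb, norm_eq_zero.1 h1, h2, D.m00, sub_zero]
    exact bp_eq_zero.2 ⟨rfl, rfl⟩
  refine ⟨hl, ?_⟩
  rw [sb_hom P hl (by linarith), add_sub_cancel_left, hsb]

section Main

variable {P} {R c0 κ : ℝ} (H : Cst D P R c0 κ)

include H in
lemma norm_A_eta_le {s : W n} {b : Bc (n + 2)} {l : ℝ} (hl : 0 < l) (hs : s = l • D.sb b)
    (k : Fin m) : ‖D.A s (D.eta k s)‖ + P.r * ‖s‖ ≤ κ * ‖s‖ := by
  have h0 : 0 < ‖s‖ := by
    rw [hs, norm_pos_iff]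
    exact smul_ne_zero hl.ne' (sb_ne D b)
  have h1 := H.hbd k b
  rw [core_hom k hl, ← hs, norm_smul, LinearIsometryEquiv.norm_map,
    Real.norm_of_nonneg (by positivity), one_div, inv_mul_eq_div] at h1
  have h2 : ‖D.A s (D.eta k s)‖ / ‖s‖ + P.r ≤ κ := h1.le.trans H.hR
  calc ‖D.A s (D.eta k s)‖ + P.r * ‖s‖ = (‖D.A s (D.eta k s)‖ / ‖s‖ + P.r) * ‖s‖ := by
        field_simp
    _ ≤ κ * ‖s‖ := mul_le_mul_of_nonneg_right h2 h0.le

include H in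
/-- **tubes correspond to tubes.** -/
lemma tube_iff (k : Fin m) (s t : W n) :
    TB P k (Ph P c0 κ (s, t)) ↔
      s ≠ 0 ∧ P.a0 s 0 ≤ 0 ∧ ‖D.A s (t - D.eta k s)‖ = P.r * ‖s‖ ∧ P.c s t = 0 := by
  obtain ⟨b, a, hsa⟩ := exists_bp s
  obtain ⟨q, hq⟩ : ∃ q, a = q - D.m0 b := ⟨a + D.m0 b, by ring⟩
  rw [hq] at hsa
  have hq0 : P.a0 s 0 ≤ 0 ↔ 0 ≤ q := by
    rw [← not_lt, hsa, mm_pos, mm_b0, not_lt]
    constructor <;> intro h <;> linarith
  constructor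
  · intro hT
    obtain ⟨h1, h2, h3, h4⟩ := hT
    -- names
    set y := Ft q (oo P b t) with hy
    have hPh := Ph_eq P c0 κ b q t hy.symm
    rw [← hsa] at hPh
    set t' := t - P.sig (s, t) • u1 n with ht'
    have e1 : (Ph P c0 κ (s, t)).1 = -(‖b‖ + y) := by rw [hPh]
    have e2 : (Ph P c0 κ (s, t)).2.1 = b := by rw [hPh]
    rw [e1] at h1 h2
    rw [e2] at h2
    rw [e1, e2] at h3
    rw [neg_neg] at h2 h3
    have hl : 0 < ‖b‖ + y := by linarith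
    have hy0 : 0 ≤ y := by linarith
    have hx : xx D c0 (-(‖b‖ + y), b) = ‖b‖ + y := by
      rw [xx_eq P H.hc (x := (-(‖b‖ + y), b)) (by show -(‖b‖ + y) < 0; linarith)
        (by show ‖b‖ ≤ - -(‖b‖ + y); linarith)]
      exact neg_neg _
    -- the base point seen in the target
    set s2 : W n := bp b (y - D.m0 b) with hs2
    have hS : SS D (-(‖b‖ + y), b) = ‖s2‖ := by
      rw [SS, hs2]
      simp only [neg_neg, add_sub_cancel_left]
    have hs2' : s2 = (‖b‖ + y) • D.sb ((‖b‖ + y)⁻¹ • b) := by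
      rw [sb_hom P hl (by linarith), add_sub_cancel_left, hs2]
    have hs2ne : s2 ≠ 0 := by
      rw [hs2']
      exact smul_ne_zero hl.ne' (sb_ne D _)
    have hs20 : 0 < ‖s2‖ := norm_pos_iff.2 hs2ne
    have e3 : (Ph P c0 κ (s, t)).2.2 = L n (fs κ ‖s2‖ (‖b‖ + y) t') := by
      rw [hPh, hS, hx]
    rw [e3] at h3
    -- the fibre coordinate is in the linear zone
    have h5 : ‖fs κ ‖s2‖ (‖b‖ + y) t'‖ ≤ κ * (‖b‖ + y) := by
      have h6 := H.hbd k ((‖b‖ + y)⁻¹ • b)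
      have h7 : ‖(‖b‖ + y)⁻¹ • L n (fs κ ‖s2‖ (‖b‖ + y) t')‖ ≤ κ := by
        have h8 := norm_add_le ((‖b‖ + y)⁻¹ • L n (fs κ ‖s2‖ (‖b‖ + y) t') -
          D.core k ((‖b‖ + y)⁻¹ • b)) (D.core k ((‖b‖ + y)⁻¹ • b))
        rw [sub_add_cancel, h3] at h8
        have := H.hR
        linarith
      rw [norm_smul, norm_inv, Real.norm_of_nonneg hl.le, LinearIsometryEquiv.norm_map,
        inv_mul_le_iff₀ hl] at h7
      linarith
    have h6 := small_of_norm_fs H.hκ hl.le hs20.le h5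
    rw [fs_small H.hκ hs20 h6, map_smul, smul_smul, core_hom k hl, ← hs2',
      show (‖b‖ + y)⁻¹ * ((‖b‖ + y) / ‖s2‖) = 1 / ‖s2‖ by field_simp, ← smul_sub, ← map_sub,
      norm_smul, LinearIsometryEquiv.norm_map, Real.norm_of_nonneg (by positivity), one_div,
      inv_mul_eq_div, div_eq_iff hs20.ne'] at h3
    -- horizontal part is small
    obtain ⟨h7, h7'⟩ : ‖hor t‖ ≤ P.κ2 * ‖s2‖ ∧ (D.ka s2 ≠ 0 → ‖hor t‖ ≤ P.κ3 * ‖s2‖) := by
      refine hor_le P hs2ne k ?_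
      have h8 := norm_hor_le (t' - D.A s2 (D.eta k s2))
      rw [h3, hor_sub, hor_A] at h8
      have h9 : hor t' = hor t := hor_sub_smul_u1 t _
      rw [hor_sub, ← h9]
      exact h8
    have h8 : oo P b t ≤ y := oo_le P hy0 (by rwa [← hs2])
    have h9 : oo P b t ≤ q := by
      by_contra h10
      push Not at h10
      exact absurd (Ft_lt h10) (not_lt.2 h8)
    have h10 : y = q := Ft_of_le h9 (oo_nonneg P b t)
    have h11 : s2 = s := by rw [hs2, h10, hsa]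
    rw [h11] at h3 h6 h7 h7' hs2ne hs20
    have hA : ‖D.A s t‖ ≤ κ * ‖s‖ := by
      rw [← shear_eq P hs2ne h7']
      exact h6
    have h12 := (tube_aux P H.hκ H.hc hsa hs2ne (by rw [← h10]; exact hy0) h7 h7' hA k).1
      ⟨by rw [e1]; exact h1, by rw [e1, e2, neg_neg]; exact h2, by
        rw [e1, e2, e3, neg_neg, h11, fs_small H.hκ hs20 h6, map_smul, smul_smul, core_hom k hl,
          ← hs2', h11, show (‖b‖ + y)⁻¹ * ((‖b‖ + y) / ‖s‖) = 1 / ‖s‖ by field_simp, ← smul_sub,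
          ← map_sub, norm_smul, LinearIsometryEquiv.norm_map, Real.norm_of_nonneg (by positivity),
          one_div, inv_mul_eq_div, div_eq_iff hs20.ne']
        exact h3, h4⟩
    have h13 : P.a0 s 0 ≤ 0 := hq0.2 (by rw [← h10]; exact hy0)
    exact ⟨hs2ne, h13, h12.1, (P.cball s k t hs2ne h13 h12.1.le).2 h12.2⟩
  · rintro ⟨hs, h1, h2, h3⟩
    have hq1 := hq0.1 h1
    obtain ⟨h4, h4'⟩ := hor_le_of_tube P hs k h2.le
    obtain ⟨hl, hs'⟩ := exists_sb P hsa hs hq1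
    have h5 := norm_A_eta_le H hl hs' k
    have hA : ‖D.A s t‖ ≤ κ * ‖s‖ := by
      have h6 : D.A s t = D.A s (t - D.eta k s) + D.A s (D.eta k s) := by
        rw [← A_add, sub_add_cancel]
      rw [h6]
      exact (norm_add_le _ _).trans (by linarith)
    exact (tube_aux P H.hκ H.hc hsa hs hq1 h4 h4' hA k).2 ⟨h2, (P.cball s k t hs h1 h2.le).1 h3⟩

/-! ### the wall -/

/-- over the plate zone: the sheet is at height zero after the shear. -/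
lemma c_iff_wall (P : E2 D) {s t : W n} (hs : s ≠ 0) (h : 0 ≤ P.a0 s t) :
    P.c s t = 0 ↔ ⟪u1 n, t - P.sig (s, t) • u1 n⟫ = 0 := by
  have hs0 : 0 < ‖s‖ := norm_pos_iff.2 hs
  have hk := P.aka s t hs h
  have hp : (s, t) ∈ E2.Low n :=
    ⟨hs, fun j => (P.kap0 s hs (by rw [hk]; exact one_ne_zero) j).le⟩
  have hze : P.ze (s, t) = 1 := by
    have h1 : 0 < P.Cp * ‖s‖ := mul_pos P.Cp_pos hs0
    have h2 : ‖hor t‖ / (P.Cp * ‖s‖) ≤ 1 := by
      rw [div_le_one h1]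
      exact P.abd s t h
    rw [E2.ze]
    simp only
    rw [min_eq_left (by linarith), max_eq_right zero_le_one]
  have hsig : P.sig (s, t) = P.tau ⟨(s, t), hp⟩ := by
    rw [E2.sig, dif_pos hp, hze, hk, mul_one, one_mul]
  have h1 := P.tau_spec ⟨(s, t), hp⟩ ⟪u1 n, t⟫
  simp only [hor_add_u1] at h1
  rw [h1, inner_sub_right, inner_smul_right, inner_u1_u1, mul_one, hsig, sub_eq_zero]

/-- the point `x` lies on the wall part of `Khom`. -/
def WA (P : E2 D) (x : ℝ × Bc (n + 2) × W n) : Prop :=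
  (x.1 < 0 ∧ ⟪ec (n + 2), x.2.2⟫ = 0 ∧ ‖x.2.1‖ = -x.1 ∧
    ∀ k, P.r ≤ ‖(-x.1)⁻¹ • x.2.2 - D.core k ((-x.1)⁻¹ • x.2.1)‖) ∨
  (x.1 = 0 ∧ x.2.1 = 0 ∧ ⟪ec (n + 2), x.2.2⟫ = 0)

/-- cores over the sphere are small. -/
lemma norm_core_wall (P : E2 D) (k : Fin m) {b : Bc (n + 2)} (hb : 1 ≤ ‖b‖) :
    ‖D.core k b‖ + P.r ≤ P.κ3 := by
  have h0 : 0 < ‖D.sb b‖ := norm_pos_iff.2 (sb_ne D b)
  have h1 := core_wall D k hb
  rw [core_eq, inner_smul_right, inner_ec_L] at h1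
  have h2 : ⟪u1 n, D.A (D.sb b) (D.eta k (D.sb b))⟫ = 0 := by
    rcases mul_eq_zero.1 h1 with h | h
    · exact absurd h (by positivity)
    · exact h
  have h3 : D.A (D.sb b) (D.eta k (D.sb b)) = hor (D.eta k (D.sb b)) := by
    rw [← hor_A D (D.sb b)]
    conv_lhs => rw [← hor_add_u1 (D.A (D.sb b) (D.eta k (D.sb b))), h2, zero_smul, add_zero]
  have h4 := P.T1k (D.sb b) k (sb_ne D b) (by rw [(sb_wall D hb).1]; exact one_ne_zero)
  rw [core_eq, h3, norm_smul, LinearIsometryEquiv.norm_map, Real.norm_of_nonneg (by positivity),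
    one_div, inv_mul_eq_div]
  have h5 : (‖hor (D.eta k (D.sb b))‖ + P.r * ‖D.sb b‖) / ‖D.sb b‖ ≤ P.κ3 := by
    rw [div_le_iff₀ h0]
    exact h4
  calc ‖hor (D.eta k (D.sb b))‖ / ‖D.sb b‖ + P.r
      = (‖hor (D.eta k (D.sb b))‖ + P.r * ‖D.sb b‖) / ‖D.sb b‖ := by field_simp
    _ ≤ P.κ3 := h5

include H in
/-- **wall corresponds to wall.** -/
lemma wall_iff (s t : W n) (hp : (s, t) ≠ (0 : W n × W n)) :
    WA P (Ph P c0 κ (s, t)) ↔
      P.a0 s t = 0 ∧ P.c s t = 0 ∧ ∀ k, P.r * ‖s‖ ≤ ‖D.A s (t - D.eta k s)‖ := by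
  obtain ⟨b, a, hsa⟩ := exists_bp s
  obtain ⟨q, hq⟩ : ∃ q, a = q - D.m0 b := ⟨a + D.m0 b, by ring⟩
  rw [hq] at hsa
  have ho := oo_nonneg P b t
  have hm := m0_nonneg P b
  have ha0 : P.a0 s t = 0 ↔ q = -oo P b t := by
    rw [hsa, mm_zero, oo]
    constructor <;> intro h <;> linarith
  set y := Ft q (oo P b t) with hy
  have hy0 : y = 0 ↔ P.a0 s t = 0 := by rw [hy, Ft_eq_zero ho, ha0]
  have hPh := Ph_eq P c0 κ b q t hy.symm
  rw [← hsa] at hPh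
  -- both sides force `y = 0`
  by_cases hy1 : y = 0
  swap
  · constructor
    · rintro (⟨-, -, h1, -⟩ | ⟨h1, h2, -⟩)
      · rw [hPh] at h1
        simp only [neg_neg] at h1
        exact absurd (by linarith) hy1
      · rw [hPh] at h1 h2
        simp only at h1 h2
        rw [h2, norm_zero] at h1
        exact absurd (by linarith) hy1
    · rintro ⟨h1, -⟩
      exact absurd (hy0.2 h1) hy1
  have hat := hy0.1 hy1
  have hqo := ha0.1 hat
  rw [hy1, add_zero] at hPh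
  set S := SS D (-‖b‖, b) with hS
  set x := xx D c0 (-‖b‖, b) with hx
  have hS1 : S = ‖bp (n := n) b (-(D.m0 b))‖ := by
    rw [hS, SS]
    simp only [neg_neg, sub_self, zero_sub]
  have hinner : ⟪ec (n + 2), (Ph P c0 κ (s, t)).2.2⟫ = 0 ↔ ⟪u1 n, t - P.sig (s, t) • u1 n⟫ = 0 := by
    rw [hPh]
    simp only
    rw [inner_ec_L, fs_inner_zero H.hκ (SS_nonneg _) (xx_nonneg H.hc0 _) (xx_iff H.hc0 _)]
  by_cases hs : s = 0
  · -- no points with `s = 0`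
    have h1 := P.abd s t hat.ge
    rw [hs, norm_zero, mul_zero] at h1
    have h2 : hor t = 0 := norm_le_zero_iff.1 h1
    have h3 : t = ⟪u1 n, t⟫ • u1 n := by
      conv_lhs => rw [← hor_add_u1 t, h2, zero_add]
    have hsig : P.sig (s, t) = 0 := by
      rw [E2.sig, dif_neg]
      intro h
      exact h.1 hs
    have ht0 : ⟪u1 n, t⟫ ≠ 0 := by
      intro h
      rw [h, zero_smul] at h3
      exact hp (by rw [hs, h3]; rfl)
    constructor
    · intro h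
      exfalso
      have h4 : ⟪ec (n + 2), (Ph P c0 κ (s, t)).2.2⟫ = 0 := by
        rcases h with ⟨-, h5, -⟩ | ⟨-, -, h5⟩
        · exact h5
        · exact h5
      rw [hinner, hsig, zero_smul, sub_zero] at h4
      exact ht0 h4
    · rintro ⟨-, h4, -⟩
      exfalso
      rw [hs, h3] at h4
      exact ht0 (P.c00 _ h4)
  have hs0 : 0 < ‖s‖ := norm_pos_iff.2 hs
  have hcw := c_iff_wall P hs hat.ge
  -- reduce to the tubes
  have key : ⟪u1 n, t - P.sig (s, t) • u1 n⟫ = 0 →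
      ((b = 0 ∨ ∀ k, P.r ≤ ‖‖b‖⁻¹ • (Ph P c0 κ (s, t)).2.2 - D.core k (‖b‖⁻¹ • b)‖) ↔
        ∀ k, P.r * ‖s‖ ≤ ‖D.A s (t - D.eta k s)‖) := by
    intro hu
    have ht' : t - P.sig (s, t) • u1 n = hor t := by
      have h1 := hor_add_u1 (t - P.sig (s, t) • u1 n)
      rw [hu, zero_smul, add_zero, hor_sub_smul_u1] at h1
      exact h1.symm
    have hx1 : b ≠ 0 → x = ‖b‖ := by
      intro hb
      have hb0 : 0 < ‖b‖ := norm_pos_iff.2 hb
      rw [hx, xx_eq P H.hc (x := (-‖b‖, b)) (by show -‖b‖ < 0; linarith)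
        (by show ‖b‖ ≤ - -‖b‖; linarith)]
      exact neg_neg _
    by_cases ht : ‖hor t‖ ≤ P.κ3 * ‖s‖
    · have h1 : q = 0 := by
        have h2 := P.asm s t (ht.trans (mul_le_mul_of_nonneg_right P.hκ23 hs0.le))
        rw [hat] at h2
        have h3 := h2.symm
        rw [hsa, mm_zero, mm_b0] at h3
        linarith
      have h2 : s = bp b (-(D.m0 b)) := by rw [hsa, h1, zero_sub]
      have hb : b ≠ 0 := by
        intro h
        apply hs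
        rw [h2, h, D.m00, neg_zero]
        exact bp_eq_zero.2 ⟨rfl, rfl⟩
      have hb0 : 0 < ‖b‖ := norm_pos_iff.2 hb
      have h3 : S = ‖s‖ := by rw [hS1, h2]
      have h4 : ‖b‖ • D.sb (‖b‖⁻¹ • b) = s := by
        rw [sb_hom P hb0 le_rfl, sub_self, zero_sub, h2]
      have hA := shear_eq P hs fun _ => ht
      have h5 : ‖D.A s t‖ ≤ κ * ‖s‖ := by
        rw [← hA, ht']
        exact ht.trans (mul_le_mul_of_nonneg_right (P.hκ23.trans H.hκ2) hs0.le)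
      have h6 : ∀ k, P.r ≤ ‖‖b‖⁻¹ • (Ph P c0 κ (s, t)).2.2 - D.core k (‖b‖⁻¹ • b)‖ ↔
          P.r * ‖s‖ ≤ ‖D.A s (t - D.eta k s)‖ := by
        intro k
        rw [hPh]
        simp only
        rw [hA, h3, hx1 hb, fs_small H.hκ hs0 h5, map_smul, smul_smul, core_hom k hb0, h4,
          show ‖b‖⁻¹ * (‖b‖ / ‖s‖) = 1 / ‖s‖ by field_simp, ← smul_sub, ← map_sub, ← A_sub,
          norm_smul, LinearIsometryEquiv.norm_map, Real.norm_of_nonneg (by positivity), one_div,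
          inv_mul_eq_div, le_div_iff₀ hs0]
      constructor
      · rintro (h | h)
        · exact absurd h hb
        · exact fun k => (h6 k).1 (h k)
      · exact fun h => Or.inr fun k => (h6 k).2 (h k)
    · push Not at ht
      constructor
      · intro _ k
        by_contra h
        push Not at h
        have hk : D.ka s ≠ 0 := by rw [P.aka s t hs hat.ge]; exact one_ne_zero
        exact absurd ((hor_le_of_tube P hs k h.le).2 hk) (not_le.2 ht)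
      · intro _
        by_cases hb : b = 0
        · exact Or.inl hb
        refine Or.inr fun k => ?_
        have hb0 : 0 < ‖b‖ := norm_pos_iff.2 hb
        have hS0 : 0 < S := by
          refine lt_of_le_of_ne (SS_nonneg _) fun h => ?_
          have h1 := (SS_eq_zero (D := D) (-‖b‖, b)).1 h.symm
          exact hb (congrArg Prod.snd h1)
        have h1 : S ≤ ‖s‖ := by
          rw [hS1, hsa]
          refine norm_bp_le ?_
          rw [abs_of_nonpos (by linarith : -(D.m0 b) ≤ 0),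
            abs_of_nonpos (by linarith : q - D.m0 b ≤ 0)]
          linarith
        have h2 : P.κ3 * S ≤ ‖hor t‖ := (mul_le_mul_of_nonneg_left h1 P.hκ3.le).trans ht.le
        have h3 : hor t ≠ 0 := by
          rw [← norm_pos_iff]
          exact lt_of_le_of_lt (mul_nonneg P.hκ3.le hs0.le) ht
        have h4 := le_norm_fs (x := x) H.hκ (P.hκ23.trans H.hκ2) (xx_nonneg H.hc0 _) hS0 h2 h3
        rw [hx1 hb] at h4
        have h5 : P.κ3 ≤ ‖‖b‖⁻¹ • (Ph P c0 κ (s, t)).2.2‖ := by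
          rw [hPh]
          simp only
          rw [ht', norm_smul, norm_inv, norm_norm, LinearIsometryEquiv.norm_map, hx1 hb,
            inv_mul_eq_div, le_div_iff₀ hb0]
          exact h4
        have h6 := norm_core_wall P k (b := ‖b‖⁻¹ • b) (by
          rw [norm_smul, norm_inv, norm_norm, inv_mul_cancel₀ hb0.ne'])
        have h7 := norm_sub_norm_le (‖b‖⁻¹ • (Ph P c0 κ (s, t)).2.2) (D.core k (‖b‖⁻¹ • b))
        linarith
  have e1 : (Ph P c0 κ (s, t)).1 = -‖b‖ := by rw [hPh]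
  have e2 : (Ph P c0 κ (s, t)).2.1 = b := by rw [hPh]
  have hWA : WA P (Ph P c0 κ (s, t)) ↔ (⟪ec (n + 2), (Ph P c0 κ (s, t)).2.2⟫ = 0 ∧
      (b = 0 ∨ ∀ k, P.r ≤ ‖‖b‖⁻¹ • (Ph P c0 κ (s, t)).2.2 - D.core k (‖b‖⁻¹ • b)‖)) := by
    rw [WA, e1, e2, neg_neg]
    constructor
    · rintro (⟨-, h1, -, h2⟩ | ⟨-, h1, h2⟩)
      · exact ⟨h1, Or.inr h2⟩
      · exact ⟨h2, Or.inl h1⟩
    · rintro ⟨h1, h2⟩
      by_cases hb : b = 0
      · exact Or.inr ⟨by rw [hb, norm_zero, neg_zero], hb, h1⟩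
      · have hb0 : 0 < ‖b‖ := norm_pos_iff.2 hb
        exact Or.inl ⟨by linarith, h1, rfl, h2.resolve_left hb⟩
  rw [hWA, hinner, hcw]
  constructor
  · rintro ⟨h1, h2⟩
    exact ⟨hat, h1, (key h1).1 h2⟩
  · rintro ⟨-, h1, h2⟩
    exact ⟨h1, (key h1).2 h2⟩

/-! ### the main equivalence -/

lemma eta_zero (k : Fin m) : D.eta k 0 = 0 := by
  ext j
  rw [eta_apply, norm_zero, hs_zero]
  simp

/-- the zero set with flat plate zone and tubes. -/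
def ZZ (P : E2 D) (p : W n × W n) : Prop :=
  P.c p.1 p.2 = 0 ∧ P.a0 p.1 p.2 ≤ 0 ∧
    (∀ k, P.r * ‖p.1‖ - ‖D.A p.1 (p.2 - D.eta k p.1)‖ ≤ 0) ∧
    (P.a0 p.1 p.2 = 0 ∨ ∃ k, P.r * ‖p.1‖ - ‖D.A p.1 (p.2 - D.eta k p.1)‖ = 0)

include H in
lemma main_iff (p : W n × W n) (hp : p ≠ 0) :
    ZZ P p ↔ WA P (Ph P c0 κ p) ∨ ∃ k, TB P k (Ph P c0 κ p) := by
  obtain ⟨s, t⟩ := p
  rw [wall_iff H s t hp]
  simp only [tube_iff H, ZZ]
  constructor
  · rintro ⟨h1, h2, h3, h4⟩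
    by_cases h5 : P.a0 s t = 0
    · exact Or.inl ⟨h5, h1, fun k => by have := h3 k; linarith⟩
    · obtain ⟨k, hk⟩ := h4.resolve_left h5
      right
      have hs : s ≠ 0 := by
        intro hs
        rw [hs, norm_zero, mul_zero, eta_zero, sub_zero, zero_sub, neg_eq_zero, norm_eq_zero] at hk
        have ht := A_eq_zero D hk
        exact hp (by rw [hs, ht]; rfl)
      have h6 := (hor_le_of_tube P hs k (by linarith)).1
      refine ⟨k, hs, ?_, by linarith, h1⟩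
      rw [← P.asm s t h6]
      exact h2
  · rintro (⟨h1, h2, h3⟩ | ⟨k, hs, h1, h2, h3⟩)
    · exact ⟨h2, h1.le, fun k => by have := h3 k; linarith, Or.inl h1⟩
    · have h4 := (hor_le_of_tube P hs k h2.le).1
      refine ⟨h3, by rw [P.asm s t h4]; exact h1, ?_, Or.inr ⟨k, by linarith⟩⟩
      intro l
      by_cases hl : l = k
      · rw [hl]; linarith
      obtain ⟨b, a, hsa⟩ := exists_bp s
      obtain ⟨q, hq⟩ : ∃ q, a = q - D.m0 b := ⟨a + D.m0 b, by ring⟩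
      rw [hq] at hsa
      have hq0 : 0 ≤ q := by
        by_contra h
        push Not at h
        have h5 : 0 < P.a0 s 0 := by
          rw [hsa, mm_pos, mm_b0]
          linarith
        linarith
      obtain ⟨hl0, hs'⟩ := exists_sb P hsa hs hq0
      have hs0 : 0 < ‖s‖ := norm_pos_iff.2 hs
      have h5 := H.hsep k l ((‖b‖ + q)⁻¹ • b) (Ne.symm hl)
      rw [core_hom k hl0, core_hom l hl0, ← hs', ← smul_sub, ← map_sub, norm_smul,
        LinearIsometryEquiv.norm_map, Real.norm_of_nonneg (by positivity), one_div, inv_mul_eq_div,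
        lt_div_iff₀ hs0, ← A_sub] at h5
      have h6 : D.A s (D.eta k s - D.eta l s) =
          D.A s (t - D.eta l s) - D.A s (t - D.eta k s) := by
        rw [← A_sub]
        congr 1
        abel
      rw [h6] at h5
      have h7 := norm_sub_le (D.A s (t - D.eta l s)) (D.A s (t - D.eta k s))
      rw [h2] at h7
      linarith

lemma khom_mem {r R : ℝ} (hr : 0 < r)
    (hsep : ∀ k l b, k ≠ l → 2 * r < ‖D.core k b - D.core l b‖)
    (hbd : ∀ k b, ‖D.core k b‖ + r < R) (x : ℝ × Bc (n + 2) × W n) :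
    x ∈ Khom (toSys D r R hr hsep hbd) ↔
      ((x.1 < 0 ∧ ⟪ec (n + 2), x.2.2⟫ = 0 ∧ ‖x.2.1‖ = -x.1 ∧
        ∀ k, r ≤ ‖(-x.1)⁻¹ • x.2.2 - D.core k ((-x.1)⁻¹ • x.2.1)‖) ∨
      (x.1 = 0 ∧ x.2.1 = 0 ∧ ⟪ec (n + 2), x.2.2⟫ = 0)) ∨
      ∃ k, x.1 < 0 ∧ ‖x.2.1‖ ≤ -x.1 ∧
        ‖(-x.1)⁻¹ • x.2.2 - D.core k ((-x.1)⁻¹ • x.2.1)‖ = r ∧
        ⟪D.nuc k ((-x.1)⁻¹ • x.2.1), (-x.1)⁻¹ • x.2.2 - D.core k ((-x.1)⁻¹ • x.2.1)⟫ = 0 := by
  obtain ⟨σ, b, v⟩ := x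
  have hK : (σ, b, v) ∈ Khom (toSys D r R hr hsep hbd) ↔
      (σ < 0 ∧ ((⟪ec (n + 2), (-σ)⁻¹ • v⟫ = 0 ∧ ‖(-σ)⁻¹ • b‖ = 1 ∧
          ∀ k, r ≤ ‖(-σ)⁻¹ • v - D.core k ((-σ)⁻¹ • b)‖) ∨
        ∃ k, ‖(-σ)⁻¹ • b‖ ≤ 1 ∧ ‖(-σ)⁻¹ • v - D.core k ((-σ)⁻¹ • b)‖ = r ∧
          ⟪D.nuc k ((-σ)⁻¹ • b), (-σ)⁻¹ • v - D.core k ((-σ)⁻¹ • b)⟫ = 0)) ∨
      (σ = 0 ∧ b = 0 ∧ ⟪ec (n + 2), v⟫ = 0) := Iff.rfl
  rw [hK]
  simp only
  have h0 : σ < 0 → (⟪ec (n + 2), (-σ)⁻¹ • v⟫ = 0 ↔ ⟪ec (n + 2), v⟫ = 0) := by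
    intro hs
    rw [inner_smul_right, mul_eq_zero]
    have : (-σ)⁻¹ ≠ 0 := inv_ne_zero (by linarith)
    exact ⟨fun h => h.resolve_left this, Or.inr⟩
  have h1 : σ < 0 → (‖(-σ)⁻¹ • b‖ = 1 ↔ ‖b‖ = -σ) := fun hs => (scale_mem hs b v).1
  have h2 : σ < 0 → (‖(-σ)⁻¹ • b‖ ≤ 1 ↔ ‖b‖ ≤ -σ) := fun hs => (scale_mem hs b v).2.1
  constructor
  · rintro (⟨hs, h | ⟨k, h⟩⟩ | h)
    · exact Or.inl (Or.inl ⟨hs, (h0 hs).1 h.1, (h1 hs).1 h.2.1, h.2.2⟩)
    · exact Or.inr ⟨k, hs, (h2 hs).1 h.1, h.2⟩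
    · exact Or.inl (Or.inr h)
  · rintro ((⟨hs, h⟩ | h) | ⟨k, hs, h⟩)
    · exact Or.inl ⟨hs, Or.inl ⟨(h0 hs).2 h.1, (h1 hs).2 h.2.1, h.2.2⟩⟩
    · exact Or.inr h
    · exact Or.inl ⟨hs, Or.inr ⟨k, (h2 hs).2 h.1, h.2⟩⟩

include H in
/-- **END2**: the homogeneous homeomorphism carries the zero set to `Khom`. -/
theorem khom_iff (p : W n × W n) (hp : p ≠ 0) :
    ZZ P p ↔ Ph P c0 κ p ∈ Khom (toSys D P.r R P.hr H.hsep H.hbd) := by
  rw [main_iff H p hp, khom_mem]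
  rfl

end Main

/-- **END2, output**: a space `X` which is homeomorphic to the unit sphere of `W × W` with `Z`
corresponding to the zero set `ZZ` is homeomorphic to the link of a graph system with the cores
and normals of the homogeneous data. -/
theorem isLink (P : E2 D) (R : ℝ) (hR : 0 < R)
    (hsep : ∀ k l b, k ≠ l → 2 * P.r < ‖D.core k b - D.core l b‖)
    (hbd : ∀ k b, ‖D.core k b‖ + P.r < R) {X : Type*} [TopologicalSpace X] {Z : Set X}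
    (h : X ≃ₜ sphere (0 : W n × W n) 1) (hZ : ∀ x, x ∈ Z ↔ ZZ P (h x)) :
    ∃ g : X ≃ₜ OnePoint (Bc (n + 2) × W n), ∀ x, x ∈ Z ↔
      ∃ p ∈ (toSys D P.r R P.hr hsep hbd).K, g x = (p : OnePoint (Bc (n + 2) × W n)) := by
  obtain ⟨c0, hc0, hc⟩ := exists_c0 (D := D)
  have H : Cst D P R c0 (max P.κ2 R) :=
    ⟨hsep, hbd, hc0, hc, lt_max_of_lt_left P.hκ2, le_max_left _ _, le_max_right _ _⟩
  obtain ⟨f, hf⟩ := exists_homeo P hc0 H.hκ
  refine isLink_of_khom (toSys D P.r R P.hr hsep hbd) hR (h.trans f) fun x => ?_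
  rw [hZ]
  have hx0 : (h x : W n × W n) ≠ 0 := by
    intro h0
    have := mem_sphere_zero_iff_norm.1 (h x).2
    rw [h0, norm_zero] at this
    exact zero_ne_one this
  rw [khom_iff H _ hx0]
  obtain ⟨l, hl, hfx⟩ := hf (h x)
  have h1 : ((h.trans f) x : ℝ × Bc (n + 2) × W n) = l • Ph P c0 (max P.κ2 R) (h x) := hfx
  rw [h1, khom_smul _ hl]

end Crest.Agent.R267.End2c_864
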