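import Mathlib

/-!
# S0407, leaf P4.10 (helper785): finitely many isomorphism classes of ideals (Jordan-Zassenhaus,
rank one)

`R` commutative, reduced, finite and free over `ℤ` (an order in a product of number fields).
`fullClasses`: there is an integer `k ≠ 0` such that every ideal `I` of finite index is isomorphic
to an ideal `J` containing `k`: `a I = b J` with nonzerodivisors `a`, `b`.
-/

set_option autoImplicit false

namespace Crest.Agent.R267.P410_785

open nonZeroDivisors NumberField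

/-- a full ideal: it contains a nonzero integer. -/
def Full {R : Type*} [CommRing R] (I : Ideal R) : Prop := ∃ n : ℤ, n ≠ 0 ∧ (n : R) ∈ I

/-- every full ideal is isomorphic to an ideal containing a fixed nonzero integer. -/
def FC (R : Type*) [CommRing R] : Prop :=
  ∃ k : ℤ, k ≠ 0 ∧ ∀ I : Ideal R, Full I →
    ∃ J : Ideal R, (k : R) ∈ J ∧ ∃ a ∈ R⁰, ∃ b ∈ R⁰, Ideal.span {a} * I = Ideal.span {b} * J

theorem mem_map_aux {R O : Type*} [CommRing R] [CommRing O] (φ : R →+* O) (m : ℤ)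
    (h : ∀ x : O, ∃ r : R, φ r = m * x) (I : Ideal R) (z : O) (hz : z ∈ I.map φ) :
    ∀ c : O, ∃ y ∈ I, φ y = m * (c * z) := by
  induction hz using Submodule.span_induction with
  | mem x hx =>
    obtain ⟨i, hi, rfl⟩ := hx
    intro c
    obtain ⟨r, hr⟩ := h c
    exact ⟨r * i, I.mul_mem_left r hi, by rw [map_mul, hr]; ring⟩
  | zero => exact fun c => ⟨0, I.zero_mem, by simp⟩
  | add x y _ _ hx hy =>
    intro c
    obtain ⟨u, hu, hu'⟩ := hx c
    obtain ⟨v, hv, hv'⟩ := hy c
    exact ⟨u + v, I.add_mem hu hv, by rw [map_add, hu', hv']; ring⟩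
  | smul d x _ hx =>
    intro c
    obtain ⟨u, hu, hu'⟩ := hx (c * d)
    exact ⟨u, hu, by rw [hu', smul_eq_mul]; ring⟩

/-- the sandwich argument: `m O ⊆ R ⊆ O`. -/
theorem FC.of_sandwich {R O : Type*} [CommRing R] [CommRing O] (φ : R →+* O)
    (hφ : Function.Injective φ) (m : ℤ) (hm : m ≠ 0) (hmO : (m : O) ∈ O⁰)
    (h : ∀ x : O, ∃ r : R, φ r = m * x) (hO : FC O) : FC R := by
  obtain ⟨k, hk, H⟩ := hO
  refine ⟨m ^ 2 * k, by positivity, fun I hI => ?_⟩
  have hI' : Full (I.map φ) := by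
    obtain ⟨n, hn, hnI⟩ := hI
    exact ⟨n, hn, by simpa using Ideal.mem_map_of_mem φ hnI⟩
  obtain ⟨J, hkJ, a, ha, b, hb, hab⟩ := H _ hI'
  obtain ⟨ra, hra⟩ := h (m * a)
  obtain ⟨rb, hrb⟩ := h b
  have key1 : ∀ z ∈ I.map φ, ∃ j ∈ J, b * j = a * z := fun z hz => by
    have : a * z ∈ Ideal.span {a} * I.map φ := Ideal.mem_span_singleton_mul.2 ⟨z, hz, rfl⟩
    rw [hab] at this
    exact Ideal.mem_span_singleton_mul.1 this
  have key2 : ∀ j ∈ J, ∃ z ∈ I.map φ, a * z = b * j := fun z hz => by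
    have : b * z ∈ Ideal.span {b} * J := Ideal.mem_span_singleton_mul.2 ⟨z, hz, rfl⟩
    rw [← hab] at this
    exact Ideal.mem_span_singleton_mul.1 this
  have hnz : ∀ c ∈ O⁰, ∀ r : R, φ r = m * c → r ∈ R⁰ := fun c hc r hr => by
    rw [mem_nonZeroDivisors_iff_right]
    intro x hx
    apply hφ
    have h1 : φ x * (m * c) = 0 := by rw [← hr, ← map_mul, hx, map_zero]
    rw [map_zero]
    exact (mul_right_mem_nonZeroDivisors_eq_zero_iff (mul_mem hmO hc)).1 h1
  let I' : Ideal R :=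
    { carrier := {x | ∃ y ∈ I, b * φ x = m * a * φ y}
      add_mem' := by
        rintro x x' ⟨y, hy, h1⟩ ⟨y', hy', h2⟩
        exact ⟨y + y', I.add_mem hy hy', by rw [map_add, map_add, mul_add, mul_add, h1, h2]⟩
      zero_mem' := ⟨0, I.zero_mem, by simp⟩
      smul_mem' := by
        rintro c x ⟨y, hy, h1⟩
        refine ⟨c * y, I.mul_mem_left c hy, ?_⟩
        rw [smul_eq_mul, map_mul, map_mul]
        linear_combination φ c * h1 }
  refine ⟨I', ?_, ra, hnz _ (mul_mem hmO ha) _ hra, rb, hnz _ hb _ hrb, ?_⟩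
  · obtain ⟨z, hz, hz'⟩ := key2 _ hkJ
    obtain ⟨y, hy, hy'⟩ := mem_map_aux φ m h I z hz 1
    refine ⟨y, hy, ?_⟩
    rw [hy', map_intCast]
    push_cast
    linear_combination (-(m : O) ^ 2) * hz'
  · ext x
    rw [Ideal.mem_span_singleton_mul, Ideal.mem_span_singleton_mul]
    constructor
    · rintro ⟨y, hy, rfl⟩
      obtain ⟨j, _, hj'⟩ := key1 _ (Ideal.mem_map_of_mem φ hy)
      obtain ⟨x, hx⟩ := h j
      have hbx : b * φ x = m * a * φ y := by rw [hx]; linear_combination (m : O) * hj'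
      refine ⟨x, ⟨y, hy, hbx⟩, hφ ?_⟩
      rw [map_mul, map_mul, hra, hrb]
      linear_combination (m : O) * hbx
    · rintro ⟨x, ⟨y, hy, hxy⟩, rfl⟩
      refine ⟨y, hy, hφ ?_⟩
      rw [map_mul, map_mul, hra, hrb]
      linear_combination (-(m : O)) * hxy

/-- the class group of a number field is finite. -/
theorem FC.ringOfIntegers (K : Type*) [Field K] [NumberField K] : FC (𝓞 K) := by
  classical
  have hs : ∀ C : ClassGroup (𝓞 K), ∃ J : (Ideal (𝓞 K))⁰, ClassGroup.mk0 J = C :=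
    ClassGroup.mk0_surjective
  choose J hJ using hs
  refine ⟨∏ C, (Ideal.absNorm (J C : Ideal (𝓞 K)) : ℤ), ?_, fun I hI => ?_⟩
  · rw [Finset.prod_ne_zero_iff]
    intro C _
    exact_mod_cast Ideal.absNorm_ne_zero_of_nonZeroDivisors (J C)
  · have hI0 : I ∈ (Ideal (𝓞 K))⁰ := by
      rw [mem_nonZeroDivisors_iff_ne_zero]
      rintro rfl
      obtain ⟨n, hn, hn'⟩ := hI
      have : ((n : ℤ) : 𝓞 K) = 0 := by simpa using hn'
      exact hn (by exact_mod_cast this)
    have := hJ (ClassGroup.mk0 ⟨I, hI0⟩)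
    obtain ⟨x, y, hx, hy, hxy⟩ := ClassGroup.mk0_eq_mk0_iff.1 this.symm
    refine ⟨J (ClassGroup.mk0 ⟨I, hI0⟩), ?_, x, mem_nonZeroDivisors_of_ne_zero hx, y,
      mem_nonZeroDivisors_of_ne_zero hy, hxy⟩
    obtain ⟨c, hc⟩ := Finset.dvd_prod_of_mem
      (fun C => (Ideal.absNorm (J C : Ideal (𝓞 K)) : ℤ)) (Finset.mem_univ (ClassGroup.mk0 ⟨I, hI0⟩))
    rw [hc]
    push_cast
    apply Ideal.mul_mem_right
    exact Ideal.absNorm_mem _

/-- finite products. -/
theorem FC.pi {ι : Type*} [Finite ι] (O : ι → Type*) [∀ i, CommRing (O i)]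
    (hO : ∀ i, FC (O i)) : FC (∀ i, O i) := by
  classical
  have := Fintype.ofFinite ι
  choose k hk H using hO
  refine ⟨∏ i, k i, Finset.prod_ne_zero_iff.2 fun i _ => hk i, fun I hI => ?_⟩
  have hI' : ∀ i, Full (I.map (Pi.evalRingHom O i)) := fun i => by
    obtain ⟨n, hn, hnI⟩ := hI
    exact ⟨n, hn, by simpa using Ideal.mem_map_of_mem (Pi.evalRingHom O i) hnI⟩
  choose J hJ a ha b hb hab using fun i => H i _ (hI' i)
  have hnz : ∀ c : ∀ i, O i, (∀ i, c i ∈ (O i)⁰) → c ∈ (∀ i, O i)⁰ := fun c hc => by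
    rw [mem_nonZeroDivisors_iff_right]
    intro x hx
    ext i
    exact (mul_right_mem_nonZeroDivisors_eq_zero_iff (hc i)).1 (congrFun hx i)
  refine ⟨Ideal.pi J, ?_, a, hnz a ha, b, hnz b hb, ?_⟩
  · intro i
    obtain ⟨c, hc⟩ := Finset.dvd_prod_of_mem k (Finset.mem_univ i)
    have : (((∏ i, k i : ℤ) : (∀ i, O i)) i) = (k i : O i) * (c : O i) := by
      rw [hc]; simp
    rw [this]
    exact Ideal.mul_mem_right _ _ (hJ i)
  · ext x
    rw [Ideal.mem_span_singleton_mul, Ideal.mem_span_singleton_mul]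
    constructor
    · rintro ⟨y, hy, rfl⟩
      have : ∀ i, ∃ j ∈ J i, b i * j = a i * y i := fun i => by
        have h1 : a i * y i ∈ Ideal.span {a i} * I.map (Pi.evalRingHom O i) :=
          Ideal.mem_span_singleton_mul.2 ⟨y i, Ideal.mem_map_of_mem (Pi.evalRingHom O i) hy, rfl⟩
        rw [hab] at h1
        exact Ideal.mem_span_singleton_mul.1 h1
      choose j hj hj' using this
      exact ⟨j, fun i => hj i, funext hj'⟩
    · rintro ⟨j, hj, rfl⟩
      have : ∀ i, ∃ y ∈ I, a i * y i = b i * j i := fun i => by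
        have h1 : b i * j i ∈ Ideal.span {b i} * J i :=
          Ideal.mem_span_singleton_mul.2 ⟨j i, hj i, rfl⟩
        rw [← hab] at h1
        obtain ⟨z, hz, hz'⟩ := Ideal.mem_span_singleton_mul.1 h1
        obtain ⟨y, hy, hy'⟩ := (Ideal.mem_map_iff_of_surjective (Pi.evalRingHom O i)
          (Function.surjective_eval i)).1 hz
        refine ⟨y, hy, ?_⟩
        rw [← hz', ← hy']
        rfl
      choose y hy hy' using this
      refine ⟨∑ i, Pi.single i 1 * y i, I.sum_mem fun i _ => I.mul_mem_left _ (hy i), ?_⟩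
      funext i
      rw [Pi.mul_apply, Pi.mul_apply, ← hy' i, Finset.sum_apply]
      congr 1
      rw [Finset.sum_eq_single i]
      · simp
      · intro l _ hl
        simp [Pi.single_eq_of_ne' hl]
      · simp

/-- the case of a ring embedded in a product of number fields as a full order. -/
theorem FC.of_fields {R : Type*} [CommRing R] [Module.Finite ℤ R] {ι : Type*} [Finite ι]
    (K : ι → Type*) [∀ i, Field (K i)] [∀ i, NumberField (K i)] (f : R →+* ∀ i, K i)
    (hf : Function.Injective f)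
    (hK : ∀ x : ∀ i, K i, ∃ n : ℤ, n ≠ 0 ∧ ∃ r : R, f r = n * x) : FC R := by
  classical
  have hint : ∀ i (r : R), f r i ∈ integralClosure ℤ (K i) := fun i r =>
    (Algebra.IsIntegral.isIntegral (R := ℤ) r).map ((Pi.evalRingHom K i).comp f).toIntAlgHom
  let φi : ∀ i, R →+* 𝓞 (K i) := fun i =>
    ((Pi.evalRingHom K i).comp f).codRestrict (integralClosure ℤ (K i)) (hint i)
  let φ : R →+* ∀ i, 𝓞 (K i) := RingHom.pi φi
  have hφc : ∀ r i, ((φ r i : 𝓞 (K i)) : K i) = f r i := fun r i => rfl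
  have hφ : Function.Injective φ := fun x y hxy => hf <| funext fun i => by
    rw [← hφc, ← hφc, hxy]
  have hden : ∀ x : ∀ i, 𝓞 (K i), ∃ n : ℤ, n ≠ 0 ∧ ∃ r : R, φ r = n * x := fun x => by
    obtain ⟨n, hn, r, hr⟩ := hK fun i => (x i : K i)
    refine ⟨n, hn, r, funext fun i => RingOfIntegers.ext ?_⟩
    rw [hφc, hr]
    simp
  choose n hn r hr using hden
  obtain ⟨s, hs⟩ := (Module.Finite.fg_top : (⊤ : Submodule ℤ (∀ i, 𝓞 (K i))).FG)
  have hm0 : (∏ x ∈ s, n x) ≠ 0 := Finset.prod_ne_zero_iff.2 fun x _ => hn x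
  refine FC.of_sandwich φ hφ (∏ x ∈ s, n x) hm0 ?_ ?_ (FC.pi _ fun i => FC.ringOfIntegers (K i))
  · rw [mem_nonZeroDivisors_iff_right]
    intro x hx
    funext i
    have h1 : x i * ((∏ x ∈ s, n x : ℤ) : 𝓞 (K i)) = 0 := by
      have := congrFun hx i
      simpa using this
    rcases mul_eq_zero.1 h1 with h2 | h2
    · exact h2
    · exact absurd (by exact_mod_cast h2) hm0
  · intro x
    have hx : x ∈ Submodule.span ℤ (s : Set (∀ i, 𝓞 (K i))) := by rw [hs]; trivial
    induction hx using Submodule.span_induction with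
    | mem x hx =>
      obtain ⟨c, hc⟩ := Finset.dvd_prod_of_mem n hx
      refine ⟨c * r x, ?_⟩
      rw [map_mul, hr, hc, map_intCast]
      push_cast
      ring
    | zero => exact ⟨0, by simp⟩
    | add x y _ _ hx hy =>
      obtain ⟨u, hu⟩ := hx
      obtain ⟨v, hv⟩ := hy
      exact ⟨u + v, by rw [map_add, hu, hv]; ring⟩
    | smul c x _ hx =>
      obtain ⟨u, hu⟩ := hx
      exact ⟨c * u, by rw [map_mul, hu, map_intCast, zsmul_eq_mul]; ring⟩

theorem finite_rat_aux {V W : Type*} [AddCommGroup V] [AddCommGroup W] (_ : Module ℚ V)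
    (_ : Module ℚ W) [Module.Finite ℚ V] (f : V →+ W) (hf : Function.Surjective f) :
    Module.Finite ℚ W :=
  Module.Finite.of_surjective f.toRatLinearMap hf

/-- **Jordan-Zassenhaus in rank one**: for a reduced commutative ring `R`, finite and free over
`ℤ`, there is `k ≠ 0` such that every ideal of finite index is isomorphic to one containing `k`. -/
theorem FC.of_order (R : Type*) [CommRing R] [IsReduced R] [Module.Finite ℤ R]
    [Module.Free ℤ R] : FC R := by
  classical
  open TensorProduct in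
  have hinj : Function.Injective
      (Algebra.TensorProduct.includeRight : R →ₐ[ℤ] ℚ ⊗[ℤ] R) :=
    Algebra.TensorProduct.includeRight_injective (RingHom.injective_int _)
  have hden : ∀ x : TensorProduct ℤ ℚ R, ∃ n : ℤ, n ≠ 0 ∧ ∃ r : R,
      (Algebra.TensorProduct.includeRight : R →ₐ[ℤ] TensorProduct ℤ ℚ R) r = n * x := by
    intro x
    induction x using TensorProduct.induction_on with
    | zero => exact ⟨1, one_ne_zero, 0, by simp⟩
    | tmul q r =>
      refine ⟨q.den, by exact_mod_cast q.den_nz, q.num * r, ?_⟩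
      have h1 : ((q.den : ℤ) : TensorProduct ℤ ℚ R) = ((q.den : ℚ) ⊗ₜ[ℤ] (1 : R)) := by
        have := map_natCast (Algebra.TensorProduct.includeLeft :
          ℚ →ₐ[ℤ] TensorProduct ℤ ℚ R) q.den
        rw [Int.cast_natCast]
        exact this.symm
      rw [h1, Algebra.TensorProduct.tmul_mul_tmul, one_mul]
      have h2 : (q.den : ℚ) * q = (q.num : ℚ) := by
        rw [mul_comm]; exact Rat.mul_den_eq_num q
      rw [h2, Algebra.TensorProduct.includeRight_apply, ← zsmul_eq_mul,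
        TensorProduct.tmul_smul, TensorProduct.smul_tmul']
      simp
    | add x y hx hy =>
      obtain ⟨n, hn, r, hr⟩ := hx
      obtain ⟨n', hn', r', hr'⟩ := hy
      refine ⟨n * n', mul_ne_zero hn hn', n' * r + n * r', ?_⟩
      rw [map_add, map_mul, map_mul, hr, hr', map_intCast, map_intCast]
      push_cast
      ring
  have hz : ∀ (n : ℤ) (x : TensorProduct ℤ ℚ R), n ≠ 0 → (n : TensorProduct ℤ ℚ R) * x = 0 →
      x = 0 := by
    intro n x hn hx
    have h1 : ((n : ℚ)⁻¹ • ((n : ℚ) • x)) = 0 := by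
      have : (n : ℚ) • x = (n : TensorProduct ℤ ℚ R) * x := by
        rw [Algebra.smul_def (n : ℚ) x]; simp
      rw [this, hx, smul_zero]
    rwa [smul_smul, inv_mul_cancel₀ (by exact_mod_cast hn), one_smul] at h1
  have hred : IsReduced (TensorProduct ℤ ℚ R) := by
    refine ⟨fun x hx => ?_⟩
    obtain ⟨n, hn, r, hr⟩ := hden x
    have h1 : IsNilpotent (Algebra.TensorProduct.includeRight (R := ℤ) (A := ℚ) r) := by
      rw [hr]; exact (Commute.all _ _).isNilpotent_mul_left hx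
    have h2 : IsNilpotent r := (IsNilpotent.map_iff hinj).1 h1
    rw [h2.eq_zero, map_zero] at hr
    exact hz n x hn hr.symm
  have hart : IsArtinianRing (TensorProduct ℤ ℚ R) := IsArtinianRing.of_finite ℚ _
  let _ : ∀ I : MaximalSpectrum (TensorProduct ℤ ℚ R), Field (TensorProduct ℤ ℚ R ⧸ I.asIdeal) :=
    fun I => IsArtinianRing.fieldOfSubtypeIsMaximal (TensorProduct ℤ ℚ R) I
  have hnf : ∀ I : MaximalSpectrum (TensorProduct ℤ ℚ R),
      NumberField (TensorProduct ℤ ℚ R ⧸ I.asIdeal) := fun I => by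
    have h1 : CharZero (TensorProduct ℤ ℚ R ⧸ I.asIdeal) := algebraRat.charZero _
    refine @NumberField.mk _ _ h1 ?_
    exact finite_rat_aux inferInstance _ (Ideal.Quotient.mk I.asIdeal).toAddMonoidHom
      Ideal.Quotient.mk_surjective
  let e := IsArtinianRing.equivPi (TensorProduct ℤ ℚ R)
  refine FC.of_fields (fun I : MaximalSpectrum (TensorProduct ℤ ℚ R) =>
    TensorProduct ℤ ℚ R ⧸ I.asIdeal)
    ((e : TensorProduct ℤ ℚ R →+* _).comp
      (Algebra.TensorProduct.includeRight : R →ₐ[ℤ] TensorProduct ℤ ℚ R).toRingHom)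
    (e.injective.comp hinj) fun x => ?_
  obtain ⟨n, hn, r, hr⟩ := hden (e.symm x)
  refine ⟨n, hn, r, ?_⟩
  have : e ((Algebra.TensorProduct.includeRight : R →ₐ[ℤ] TensorProduct ℤ ℚ R) r) = n * x := by
    rw [hr, map_mul, AlgEquiv.apply_symm_apply, map_intCast]
  exact this

theorem finite_quot (R : Type*) [CommRing R] [Module.Finite ℤ R] (k : ℤ) (hk : k ≠ 0) :
    Finite (R ⧸ Ideal.span {(k : R)}) := by
  have : Module.Finite ℤ (R ⧸ Ideal.span {(k : R)}) :=
    Module.Finite.of_surjective (Ideal.Quotient.mk (Ideal.span {(k : R)})).toAddMonoidHom.toIntLinearMap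
      Ideal.Quotient.mk_surjective
  refine Module.finite_of_fg_torsion _ fun {x} => ?_
  obtain ⟨x, rfl⟩ := Ideal.Quotient.mk_surjective x
  refine ⟨⟨k, mem_nonZeroDivisors_of_ne_zero hk⟩, ?_⟩
  change k • Ideal.Quotient.mk (Ideal.span {(k : R)}) x = 0
  rw [← map_zsmul, Ideal.Quotient.eq_zero_iff_mem, zsmul_eq_mul]
  exact Ideal.mul_mem_right _ _ (Ideal.subset_span rfl)

/-- only finitely many ideals contain a given nonzero integer. -/
theorem finite_ideals (R : Type*) [CommRing R] [Module.Finite ℤ R] (k : ℤ) (hk : k ≠ 0) :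
    {J : Ideal R | (k : R) ∈ J}.Finite := by
  have := finite_quot R k hk
  refine Set.Finite.of_injOn (f := fun J : Ideal R => (J.map (Ideal.Quotient.mk
    (Ideal.span {(k : R)})) : Set (R ⧸ Ideal.span {(k : R)}))) (t := Set.univ)
    (fun _ _ => Set.mem_univ _) ?_ (Set.toFinite _)
  intro J hJ J' hJ' h
  have key : ∀ J : Ideal R, (k : R) ∈ J →
      (J.map (Ideal.Quotient.mk (Ideal.span {(k : R)}))).comap
        (Ideal.Quotient.mk (Ideal.span {(k : R)})) = J := fun J hJ => by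
    rw [Ideal.comap_map_of_surjective _ Ideal.Quotient.mk_surjective, ← RingHom.ker_eq_comap_bot,
      Ideal.mk_ker, sup_eq_left, Ideal.span_singleton_le_iff_mem]
    exact hJ
  rw [← key J hJ, ← key J' hJ', SetLike.coe_injective h]

/-- finitely many classes of full ideals. -/
theorem finite_classes (R : Type*) [CommRing R] [IsReduced R] [Module.Finite ℤ R]
    [Module.Free ℤ R] : ∃ S : Set (Ideal R), S.Finite ∧ ∀ I : Ideal R, Full I →
      ∃ J ∈ S, ∃ a ∈ R⁰, ∃ b ∈ R⁰, Ideal.span {a} * I = Ideal.span {b} * J := by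
  obtain ⟨k, hk, H⟩ := FC.of_order R
  exact ⟨_, finite_ideals R k hk, fun I hI => H I hI⟩

/-- multiplication by `a`. -/
def mulMap {R : Type*} [CommRing R] (a : R) (I : Ideal R) :
    ↥I →ₗ[R] ↥(Ideal.span {a} * I) where
  toFun := fun x : ↥I => ⟨a * (x : R), Ideal.mem_span_singleton_mul.2 ⟨x, x.2, rfl⟩⟩
  map_add' := fun x y => Subtype.ext (by simp [mul_add])
  map_smul' := fun c x => Subtype.ext (by simp; ring)

/-- multiplication by a nonzerodivisor. -/
noncomputable def mulEquiv {R : Type*} [CommRing R] {a : R} (ha : a ∈ R⁰) (I : Ideal R) :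
    ↥I ≃ₗ[R] ↥(Ideal.span {a} * I) :=
  LinearEquiv.ofBijective (mulMap a I)
    ⟨fun x y h => Subtype.ext ((mul_cancel_left_mem_nonZeroDivisors ha).1
        (congrArg Subtype.val h)), fun y => by
      obtain ⟨z, hz, hz'⟩ := Ideal.mem_span_singleton_mul.1 y.2
      exact ⟨⟨z, hz⟩, Subtype.ext hz'⟩⟩

/-- equal classes give isomorphic modules. -/
theorem equiv_of_eq {R : Type*} [CommRing R] {I J : Ideal R} {a b : R} (ha : a ∈ R⁰)
    (hb : b ∈ R⁰) (h : Ideal.span {a} * I = Ideal.span {b} * J) : Nonempty (I ≃ₗ[R] J) :=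
  ⟨(mulEquiv ha I).trans ((LinearEquiv.ofEq _ _ h).trans (mulEquiv hb J).symm)⟩

/-- a colouring of the full ideals with finitely many colours; equal colours give isomorphic
ideals. -/
theorem exists_coloring (R : Type*) [CommRing R] [IsReduced R] [Module.Finite ℤ R]
    [Module.Free ℤ R] : ∃ (n : ℕ) (col : Ideal R → Fin (n + 1)), ∀ I I' : Ideal R,
      Full I → Full I' → col I = col I' → Nonempty (I ≃ₗ[R] I') := by
  classical
  obtain ⟨S, hS, H⟩ := finite_classes R
  have := hS.fintype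
  choose! J hJS a ha b hb hab using H
  let e := Fintype.equivFin S
  refine ⟨Fintype.card S, fun I => if h : Full I then (e ⟨J I, hJS I h⟩).castSucc else Fin.last _,
    fun I I' hI hI' h => ?_⟩
  simp only [hI, hI', dif_pos, Fin.castSucc_inj, EmbeddingLike.apply_eq_iff_eq,
    Subtype.mk.injEq] at h
  obtain ⟨e1⟩ := equiv_of_eq (ha I hI) (hb I hI) (hab I hI)
  obtain ⟨e2⟩ := equiv_of_eq (ha I' hI') (hb I' hI') (hab I' hI')
  exact ⟨e1.trans ((LinearEquiv.ofEq _ _ h).trans e2.symm)⟩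

/-- the same for arbitrary modules isomorphic to full ideals. -/
theorem pigeonhole (R : Type*) [CommRing R] [IsReduced R] [Module.Finite ℤ R]
    [Module.Free ℤ R] : ∃ n : ℕ, ∀ (J : Finset ℕ) (_ : n < J.card) (I : ℕ → Ideal R)
      (_ : ∀ j ∈ J, Full (I j)), ∃ i ∈ J, ∃ j ∈ J, i < j ∧ Nonempty (I i ≃ₗ[R] I j) := by
  obtain ⟨n, col, H⟩ := exists_coloring R
  refine ⟨n + 1, fun J hJ I hI => ?_⟩
  obtain ⟨i, hi, j, hj, hij, h⟩ := Finset.exists_ne_map_eq_of_card_lt_of_maps_to
    (t := (Finset.univ : Finset (Fin (n + 1)))) (by simpa using hJ)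
    (f := fun j => col (I j)) (fun _ _ => by simp)
  rcases lt_or_gt_of_ne hij with h1 | h1
  · exact ⟨i, hi, j, hj, h1, H _ _ (hI i hi) (hI j hj) h⟩
  · exact ⟨j, hj, i, hi, h1, H _ _ (hI j hj) (hI i hi) h.symm⟩

end Crest.Agent.R267.P410_785
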