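import Mathlib
import Crest.Agent.R267.P410_785

/-!
# S0407, leaf P4.10, lattice version (helper785)

`K` reduced commutative `ℚ`-algebra, `Λ ⊆ K` a subring, finite over `ℤ`, with `ℚ Λ = K`.
The full `Λ`-lattices `I ⊆ K` fall into finitely many classes modulo multiplication by units
of `K`.
-/

set_option autoImplicit false

namespace Crest.Agent.R267.P410b_785

open nonZeroDivisors Crest.Agent.R267.P410_785

/-- a full lattice: `n ∈ I`, `n I ⊆ Λ` for some integer `n ≠ 0`. -/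
def LFull {K : Type*} [CommRing K] {Λ : Subring K} (I : Submodule Λ K) : Prop :=
  ∃ n : ℤ, n ≠ 0 ∧ (n : K) ∈ I ∧ ∀ x ∈ I, (n : K) * x ∈ Λ

section

variable {K : Type*} [CommRing K] {Λ : Subring K}

/-- the ideal `n I` of `Λ`. -/
def toIdeal (n : ℤ) (I : Submodule Λ K) : Ideal Λ where
  carrier := {x | ∃ y ∈ I, (x : K) = n * y}
  add_mem' := by
    rintro x x' ⟨y, hy, h⟩ ⟨y', hy', h'⟩
    exact ⟨y + y', I.add_mem hy hy', by rw [Subring.coe_add, h, h', mul_add]⟩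
  zero_mem' := ⟨0, I.zero_mem, by simp⟩
  smul_mem' := by
    rintro c x ⟨y, hy, h⟩
    refine ⟨c • y, I.smul_mem c hy, ?_⟩
    rw [smul_eq_mul, Subring.coe_mul, h, Subring.smul_def, smul_eq_mul]
    ring

theorem mem_toIdeal {n : ℤ} {I : Submodule Λ K} {x : Λ} :
    x ∈ toIdeal n I ↔ ∃ y ∈ I, (x : K) = n * y := Iff.rfl

end

variable (K : Type*) [CommRing K] [Algebra ℚ K] (Λ : Subring K)

theorem isUnit_int [Nontrivial K] (n : ℤ) (hn : n ≠ 0) : IsUnit (n : K) := by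
  have h1 : IsUnit (n : ℚ) := IsUnit.mk0 _ (by exact_mod_cast hn)
  simpa using h1.map (algebraMap ℚ K)

theorem isUnit_nzd [Nontrivial K] [Module.Finite ℤ Λ] (a : Λ) (ha : a ∈ Λ⁰) :
    IsUnit (a : K) := by
  have h1 : IsAlgebraic ℤ a := by
    have : Nontrivial Λ := inferInstance
    exact (Algebra.IsIntegral.isIntegral (R := ℤ) a).isAlgebraic
  obtain ⟨r, hr, c, hc⟩ := h1.exists_nonzero_dvd ha
  have h2 : (a : K) * (c : K) = (r : K) := by
    rw [← Subring.coe_mul, ← hc]; simp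
  exact isUnit_of_mul_isUnit_left (h2 ▸ isUnit_int K r hr)

theorem exists_coloring' [IsReduced K] [Module.Finite ℤ Λ] :
    ∃ (h : ℕ) (col : Submodule Λ K → Fin (h + 1)), ∀ I I' : Submodule Λ K,
      LFull I → LFull I' → col I = col I' → ∃ a : Kˣ, ∀ x : K, x ∈ I' ↔ ∃ y ∈ I, x = a * y := by
  classical
  rcases subsingleton_or_nontrivial K with hK | hK
  · exact ⟨0, fun _ => 0, fun I I' _ _ _ => ⟨1, fun x => ⟨fun _ => ⟨0, I.zero_mem,
      Subsingleton.elim _ _⟩, fun _ => by rw [Subsingleton.elim x 0]; exact I'.zero_mem⟩⟩⟩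
  have hred : IsReduced Λ := isReduced_of_injective Λ.subtype Subtype.val_injective
  have htf : Module.IsTorsionFree ℤ Λ := by
    refine ⟨fun n hn x y hxy => ?_⟩
    have hn0 : n ≠ 0 := hn.ne_zero
    have h1 : (n : K) * (x : K) = (n : K) * (y : K) := by
      have := congrArg (Subtype.val) hxy
      simpa using this
    exact Subtype.ext ((isUnit_int K n hn0).mul_left_cancel h1)
  obtain ⟨S, hS, H⟩ := finite_classes Λ
  have := hS.fintype
  choose! J hJS a ha b hb hab using H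
  let e := Fintype.equivFin S
  let N : Submodule Λ K → ℤ := fun I => if h : LFull I then h.choose else 1
  have hN : ∀ I, LFull I → N I ≠ 0 ∧ (N I : K) ∈ I ∧ ∀ x ∈ I, (N I : K) * x ∈ Λ := fun I hI => by
    have := hI.choose_spec
    simp only [N, hI, dif_pos]
    exact this
  have hfull : ∀ I, LFull I → Full (toIdeal (N I) I) := fun I hI => by
    obtain ⟨h1, h2, _⟩ := hN I hI
    exact ⟨N I * N I, mul_ne_zero h1 h1, (N I : K), h2, by push_cast; rfl⟩
  refine ⟨Fintype.card S, fun I => if h : LFull I then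
    (e ⟨J (toIdeal (N I) I), hJS _ (hfull I h)⟩).castSucc else Fin.last _, fun I I' hI hI' h => ?_⟩
  simp only [hI, hI', dif_pos, Fin.castSucc_inj, EmbeddingLike.apply_eq_iff_eq,
    Subtype.mk.injEq] at h
  set A := toIdeal (N I) I with hA
  set A' := toIdeal (N I') I' with hA'
  have hAf : Full A := hfull I hI
  have hAf' : Full A' := hfull I' hI'
  obtain ⟨hn, hnI, hnΛ⟩ := hN I hI
  obtain ⟨hn', hnI', hnΛ'⟩ := hN I' hI'
  have e1 := hab A hAf
  have e2 := hab A' hAf'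
  rw [← h] at e2
  -- `(a b') A = (b a') A'` after scaling
  obtain ⟨ua, hua⟩ := isUnit_nzd K Λ _ (ha A hAf)
  obtain ⟨ub, hub⟩ := isUnit_nzd K Λ _ (hb A hAf)
  obtain ⟨ua', hua'⟩ := isUnit_nzd K Λ _ (ha A' hAf')
  obtain ⟨ub', hub'⟩ := isUnit_nzd K Λ _ (hb A' hAf')
  obtain ⟨un, hun⟩ := isUnit_int K (N I) hn
  obtain ⟨un', hun'⟩ := isUnit_int K (N I') hn'
  -- general transport
  have key : ∀ (B B' : Ideal Λ) (α β α' β' : Λ) (C : Ideal Λ),
      Ideal.span {α} * B = Ideal.span {β} * C → Ideal.span {α'} * B' = Ideal.span {β'} * C →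
      ∀ x ∈ B, ∃ x' ∈ B', α' * β * x' = α * β' * x := by
    intro B B' α β α' β' C h1 h2 x hx
    have h3 : α * x ∈ Ideal.span {α} * B := Ideal.mem_span_singleton_mul.2 ⟨x, hx, rfl⟩
    rw [h1] at h3
    obtain ⟨c, hc, hc'⟩ := Ideal.mem_span_singleton_mul.1 h3
    have h4 : β' * c ∈ Ideal.span {β'} * C := Ideal.mem_span_singleton_mul.2 ⟨c, hc, rfl⟩
    rw [← h2] at h4
    obtain ⟨x', hx', h5⟩ := Ideal.mem_span_singleton_mul.1 h4
    exact ⟨x', hx', by linear_combination β * h5 + β' * hc'⟩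
  have mem1 : ∀ (I : Submodule Λ K), LFull I → ∀ y ∈ I, ∃ x ∈ toIdeal (N I) I,
      ((x : Λ) : K) = (N I : K) * y := fun I hI y hy =>
    ⟨⟨_, (hN I hI).2.2 y hy⟩, ⟨y, hy, rfl⟩, rfl⟩
  refine ⟨(ua' * ub * un')⁻¹ * (ua * ub' * un), fun x => ⟨fun hx => ?_, ?_⟩⟩
  · obtain ⟨x1, hx1, hx1'⟩ := mem1 I' hI' x hx
    obtain ⟨x2, ⟨y, hy, hy'⟩, h6⟩ := key A' A _ _ _ _ _ e2 e1 x1 hx1
    refine ⟨y, hy, ?_⟩
    have h7 := congrArg (Subtype.val) h6
    simp only [Subring.coe_mul, hx1', hy', ← hua, ← hub, ← hua', ← hub', ← hun, ← hun'] at h7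
    have h8 : ((ua * ub' * un : Kˣ) : K) * y = ((ua' * ub * un' : Kˣ) : K) * x := by
      push_cast
      linear_combination h7
    rw [Units.val_mul, mul_assoc, h8, Units.inv_mul_cancel_left]
  · rintro ⟨y, hy, rfl⟩
    obtain ⟨x1, hx1, hx1'⟩ := mem1 I hI y hy
    obtain ⟨x2, ⟨z, hz, hz'⟩, h6⟩ := key A A' _ _ _ _ _ e1 e2 x1 hx1
    have h7 := congrArg (Subtype.val) h6
    simp only [Subring.coe_mul, hx1', hz', ← hua, ← hub, ← hua', ← hub', ← hun, ← hun'] at h7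
    have h8 : ((ua * ub' * un : Kˣ) : K) * y = ((ua' * ub * un' : Kˣ) : K) * z := by
      push_cast
      linear_combination -h7
    rw [Units.val_mul, mul_assoc, h8, Units.inv_mul_cancel_left]
    exact hz

/-- pigeonhole form: among more than `h` full lattices two differ by a unit of `K`. -/
theorem pigeonhole' [IsReduced K] [Module.Finite ℤ Λ] :
    ∃ h : ℕ, ∀ (J : Finset ℕ) (_ : h < J.card) (I : ℕ → Submodule Λ K) (_ : ∀ j ∈ J, LFull (I j)),
      ∃ i ∈ J, ∃ j ∈ J, i < j ∧ ∃ a : Kˣ, ∀ x : K, x ∈ I j ↔ ∃ y ∈ I i, x = a * y := by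
  obtain ⟨n, col, H⟩ := exists_coloring' K Λ
  refine ⟨n + 1, fun J hJ I hI => ?_⟩
  obtain ⟨i, hi, j, hj, hij, h⟩ := Finset.exists_ne_map_eq_of_card_lt_of_maps_to
    (t := (Finset.univ : Finset (Fin (n + 1)))) (by simpa using hJ)
    (f := fun j => col (I j)) (fun _ _ => by simp)
  rcases lt_or_gt_of_ne hij with h1 | h1
  · exact ⟨i, hi, j, hj, h1, H _ _ (hI i hi) (hI j hj) h⟩
  · exact ⟨j, hj, i, hi, h1, H _ _ (hI j hj) (hI i hi) h.symm⟩

end Crest.Agent.R267.P410b_785
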