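import Crest.Agent.R267.P411_61

/-!
# S0407, package P4: the monodromy of `F` satisfies `Φ_Q (T ^ (3 u)) = 0` (helper61)
-/

set_option autoImplicit false

namespace Crest.Agent.R267.P411b_61

open Matrix Polynomial Crest.Agent.R267.P4Defs_780 Crest.Agent.R267.P41_339
open Crest.Agent.R267.P411_61

section Alg

variable {R : Type*} [Ring R]

lemma pow_eq_one_of_geom {p : ℕ} {Z : R} (h : ∑ t ∈ Finset.range p, Z ^ t = 0) :
    Z ^ p = 1 := by
  have h1 := geom_sum_mul Z p
  rw [h, zero_mul] at h1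
  exact (sub_eq_zero.1 h1.symm)

/-- the geometric sum is insensitive to prime-to-`p` powers. -/
lemma geom_pow {p a : ℕ} (hp : p.Prime) (ha : ¬ p ∣ a) {Z : R}
    (h : ∑ t ∈ Finset.range p, Z ^ t = 0) : ∑ t ∈ Finset.range p, (Z ^ a) ^ t = 0 := by
  have : Fact p.Prime := ⟨hp⟩
  have : NeZero p := ⟨hp.ne_zero⟩
  have hZ := pow_eq_one_of_geom h
  have hmod : ∀ n : ℕ, Z ^ n = Z ^ (n % p) := by
    intro n
    conv_lhs => rw [← Nat.div_add_mod n p, pow_add, pow_mul, hZ, one_pow, one_mul]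
  have h1 : ∀ f : ℕ → R, ∑ t ∈ Finset.range p, f t = ∑ t : ZMod p, f t.val := by
    intro f
    obtain ⟨p', rfl⟩ : ∃ p', p = p' + 1 := ⟨p - 1, by have := hp.two_le; omega⟩
    exact Finset.sum_range (fun t => f t)
  have ha' : (a : ZMod p) ≠ 0 := by
    rwa [Ne, ZMod.natCast_eq_zero_iff]
  rw [h1 (fun t => (Z ^ a) ^ t)]
  have h2 : ∀ t : ZMod p, (Z ^ a) ^ t.val = Z ^ ((a : ZMod p) * t).val := by
    intro t
    rw [← pow_mul, hmod, ZMod.val_mul, ZMod.val_natCast, Nat.mod_mul_mod]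
  rw [Finset.sum_congr rfl (fun t _ => h2 t)]
  have h3 : Function.Bijective (fun t : ZMod p => (a : ZMod p) * t) :=
    mulLeft_bijective₀ _ ha'
  rw [h3.sum_comp (fun t : ZMod p => Z ^ t.val), ← h1 (fun t => Z ^ t), h]

variable [Algebra ℚ R]

lemma aeval_expand' (p : ℕ) (W : R) (P : ℚ[X]) : aeval W (expand ℚ p P) = aeval (W ^ p) P := by
  rw [expand_aeval]

/-- product of commuting roots of `Φ_a` and `Φ_p`. -/
theorem cyc_mul {p a : ℕ} (hp : p.Prime) (ha0 : 0 < a) (ha : ¬ p ∣ a) {Y Z : R}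
    (hYZ : Commute Y Z) (hY : aeval Y (cyclotomic a ℚ) = 0)
    (hZ : ∑ t ∈ Finset.range p, Z ^ t = 0) :
    aeval (Z * Y) (cyclotomic (a * p) ℚ) = 0 := by
  have hZp := pow_eq_one_of_geom hZ
  have hYa : Y ^ a = 1 := by
    obtain ⟨g, hg⟩ := cyclotomic.dvd_X_pow_sub_one a ℚ
    have h1 := congrArg (aeval Y) hg
    rw [map_mul, hY, zero_mul] at h1
    simpa [sub_eq_zero] using h1
  -- the Bezout identity
  have hB : (X ^ a - 1 : ℚ[X]) * ∑ t ∈ Finset.range p, (X ^ a) ^ t = X ^ (a * p) - 1 := by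
    rw [mul_geom_sum, pow_mul]
  have hsep : (X ^ (a * p) - 1 : ℚ[X]).Separable := by
    have hne : ((a * p : ℕ) : ℚ) ≠ 0 := by
      have : 0 < a * p := Nat.mul_pos ha0 hp.pos
      exact_mod_cast this.ne'
    have := separable_X_pow_sub_C (1 : ℚ) hne one_ne_zero
    simpa using this
  have hco : IsCoprime (cyclotomic a ℚ) (∑ t ∈ Finset.range p, (X ^ a) ^ t) := by
    rw [← hB] at hsep
    exact (hsep.isCoprime).of_isCoprime_of_dvd_left (cyclotomic.dvd_X_pow_sub_one a ℚ)
  obtain ⟨r, t, hrt⟩ := hco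
  have hexp := cyclotomic_expand_eq_cyclotomic_mul hp ha ℚ
  have key : cyclotomic (a * p) ℚ = r * expand ℚ p (cyclotomic a ℚ) +
      t * cyclotomic (a * p) ℚ * ∑ t ∈ Finset.range p, (X ^ a) ^ t := by
    rw [hexp]
    linear_combination (- cyclotomic (a * p) ℚ) * hrt
  have hW1 : (Z * Y) ^ p = Y ^ p := by
    rw [(hYZ.symm).mul_pow, hZp, one_mul]
  have e1 : aeval (Z * Y) (expand ℚ p (cyclotomic a ℚ)) = 0 := by
    rw [aeval_expand', hW1, ← aeval_expand', hexp, map_mul, hY, mul_zero]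
  have e2 : aeval (Z * Y) (∑ t ∈ Finset.range p, ((X : ℚ[X]) ^ a) ^ t) = 0 := by
    rw [map_sum]
    rw [← geom_pow hp ha hZ]
    refine Finset.sum_congr rfl fun t _ => ?_
    rw [map_pow, map_pow, aeval_X, (hYZ.symm).mul_pow, hYa, mul_one]
  rw [key, map_add, map_mul, map_mul, e1, e2, mul_zero, mul_zero, add_zero]

end Alg

/-! ### systems -/

/-- unsigned monodromy over `ℚ`. -/
noncomputable def U1 (c : List ℕ) : Matrix (Fin (mu c)) (Fin (mu c)) ℚ :=
  ((Int.castRingHom ℚ).mapMatrix (compMat c)) ^ mu c.tail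

/-- unsigned monodromy of a system over `ℚ`. -/
noncomputable def Us : (S : List (List ℕ)) → Matrix (Idx S) (Idx S) ℚ
  | [] => 1
  | c :: S => Matrix.kroneckerMap (· * ·) (U1 c) (Us S)

/-- `X ↦ 1 ⊗ X`. -/
noncomputable def kR (c : List ℕ) (S : List (List ℕ)) :
    Matrix (Idx S) (Idx S) ℚ →+* Matrix (Idx (c :: S)) (Idx (c :: S)) ℚ where
  toFun M := Matrix.kroneckerMap (· * ·) (1 : Matrix (Fin (mu c)) (Fin (mu c)) ℚ) M
  map_one' := Matrix.one_kronecker_one (α := ℚ)
  map_mul' M N := by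
    have := Matrix.mul_kronecker_mul (1 : Matrix (Fin (mu c)) (Fin (mu c)) ℚ)
      (1 : Matrix (Fin (mu c)) (Fin (mu c)) ℚ) M N
    rw [Matrix.mul_one] at this
    exact this
  map_zero' := Matrix.kronecker_zero _
  map_add' M N := Matrix.kronecker_add _ M N

/-- `X ↦ X ⊗ 1`. -/
noncomputable def kL (c : List ℕ) (S : List (List ℕ)) :
    Matrix (Fin (mu c)) (Fin (mu c)) ℚ →+* Matrix (Idx (c :: S)) (Idx (c :: S)) ℚ where
  toFun M := Matrix.kroneckerMap (· * ·) M (1 : Matrix (Idx S) (Idx S) ℚ)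
  map_one' := Matrix.one_kronecker_one (α := ℚ)
  map_mul' M N := by
    have := Matrix.mul_kronecker_mul M N (1 : Matrix (Idx S) (Idx S) ℚ)
      (1 : Matrix (Idx S) (Idx S) ℚ)
    rw [Matrix.mul_one] at this
    exact this
  map_zero' := Matrix.zero_kronecker _
  map_add' M N := Matrix.add_kronecker M N _

lemma kLR (c : List ℕ) (S : List (List ℕ)) (A : Matrix (Fin (mu c)) (Fin (mu c)) ℚ)
    (B : Matrix (Idx S) (Idx S) ℚ) :
    kL c S A * kR c S B = Matrix.kroneckerMap (· * ·) A B := by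
  have := Matrix.mul_kronecker_mul A (1 : Matrix (Fin (mu c)) (Fin (mu c)) ℚ)
    (1 : Matrix (Idx S) (Idx S) ℚ) B
  rw [Matrix.mul_one, Matrix.one_mul] at this
  exact this.symm

lemma kRL (c : List ℕ) (S : List (List ℕ)) (A : Matrix (Fin (mu c)) (Fin (mu c)) ℚ)
    (B : Matrix (Idx S) (Idx S) ℚ) :
    kR c S B * kL c S A = Matrix.kroneckerMap (· * ·) A B := by
  have := Matrix.mul_kronecker_mul (1 : Matrix (Fin (mu c)) (Fin (mu c)) ℚ) A B
    (1 : Matrix (Idx S) (Idx S) ℚ)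
  rw [Matrix.mul_one, Matrix.one_mul] at this
  exact this.symm

lemma Us_cons (c : List ℕ) (S : List (List ℕ)) : Us (c :: S) = kL c S (U1 c) * kR c S (Us S) :=
  (kLR c S _ _).symm

lemma kcomm (c : List ℕ) (S : List (List ℕ)) (A : Matrix (Fin (mu c)) (Fin (mu c)) ℚ)
    (B : Matrix (Idx S) (Idx S) ℚ) : Commute (kL c S A) (kR c S B) := by
  show kL c S A * kR c S B = kR c S B * kL c S A
  rw [kLR, kRL]

lemma Us_cons_pow (c : List ℕ) (S : List (List ℕ)) (m : ℕ) :
    Us (c :: S) ^ m = kL c S (U1 c ^ m) * kR c S (Us S ^ m) := by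
  rw [Us_cons, (kcomm c S _ _).mul_pow, map_pow, map_pow]

lemma aeval_kR (c : List ℕ) (S : List (List ℕ)) (M : Matrix (Idx S) (Idx S) ℚ) (P : ℚ[X]) :
    aeval (kR c S M) P = kR c S (aeval M P) := by
  let f : Matrix (Idx S) (Idx S) ℚ →ₐ[ℚ] Matrix (Idx (c :: S)) (Idx (c :: S)) ℚ :=
    (kR c S).toRatAlgHom
  exact aeval_algHom_apply f M P

lemma U1_pow {m : ℕ} {c : List ℕ} (h : OK m c) : U1 c ^ m = 1 := by
  obtain ⟨t, ht⟩ := h.dvd
  unfold U1
  rw [← pow_mul, ht, pow_mul, ← map_pow, comp_pow_prod (Good.of_two h.two), map_one, one_pow]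

lemma U1_single (p : ℕ) : U1 [p] = (Int.castRingHom ℚ).mapMatrix (compMat [p]) := by
  unfold U1
  have : mu ([p] : List ℕ).tail = 1 := rfl
  rw [this, pow_one]

lemma U1_geom {p : ℕ} (hp : 2 ≤ p) : ∑ t ∈ Finset.range p, U1 [p] ^ t = 0 := by
  rw [U1_single]
  have := congrArg ((Int.castRingHom ℚ).mapMatrix) (comp_geom hp)
  rw [map_sum, map_zero] at this
  simpa only [map_pow] using this

theorem cyc_OK {m a : ℕ} : ∀ (S S' : List (List ℕ)), (∀ c ∈ S, OK m c) →
    aeval (Us S' ^ m) (cyclotomic a ℚ) = 0 → aeval (Us (S ++ S') ^ m) (cyclotomic a ℚ) = 0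
  | [], S', _, h => h
  | c :: S, S', hS, h => by
      have ih := cyc_OK S S' (fun c hc => hS c (by simp [hc])) h
      rw [List.cons_append, Us_cons_pow, U1_pow (hS c (by simp)), map_one, one_mul, aeval_kR, ih,
        map_zero]

theorem cyc_primes {m : ℕ} : ∀ (q : List ℕ), (∀ p ∈ q, p.Prime) → q.Nodup →
    (∀ p ∈ q, ¬ p ∣ m) →
    aeval (Us (q.map fun x => [x]) ^ m) (cyclotomic q.prod ℚ) = 0
  | [], _, _, _ => by
      show aeval ((1 : Matrix (Idx []) (Idx []) ℚ) ^ m) (cyclotomic 1 ℚ) = 0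
      rw [one_pow, cyclotomic_one]
      simp
  | p :: q, h1, h2, h3 => by
      have hp := h1 p (by simp)
      rw [List.nodup_cons] at h2
      have ih := cyc_primes (m := m) q (fun p hp => h1 p (by simp [hp])) h2.2
        (fun p hp => h3 p (by simp [hp]))
      have ha0 : 0 < q.prod := Nat.pos_of_ne_zero (by
        intro h0
        rw [List.prod_eq_zero_iff] at h0
        exact (h1 0 (by simp [h0])).ne_zero rfl)
      have ha : ¬ p ∣ q.prod := by
        intro hd
        rw [hp.prime.dvd_prod_iff] at hd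
        obtain ⟨r, hr, hpr⟩ := hd
        have hr' := h1 r (by simp [hr])
        rw [Nat.prime_dvd_prime_iff_eq hp hr'] at hpr
        exact h2.1 (hpr ▸ hr)
      rw [List.map_cons, Us_cons_pow, List.prod_cons, mul_comm p]
      apply cyc_mul hp ha0 ha
      · exact ((kcomm [p] _ _ _).symm)
      · rw [aeval_kR, ih, map_zero]
      · have h4 := geom_pow hp (h3 p (by simp)) (U1_geom hp.two_le)
        have h5 := congrArg (kL [p] (q.map fun x => [x])) h4
        rw [map_sum, map_zero] at h5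
        simpa only [map_pow] using h5

/-- signs: `Tsys = (-1)^nvar Us` over `ℚ`. -/
lemma Tsys_Us : ∀ S : List (List ℕ),
    (Int.castRingHom ℚ).mapMatrix (Tsys S) = ((-1 : ℚ) ^ nvar S) • Us S
  | [] => by
      show (Int.castRingHom ℚ).mapMatrix (1 : Matrix (Idx []) (Idx []) ℤ) = ((-1 : ℚ) ^ 0) •
        (1 : Matrix (Idx []) (Idx []) ℚ)
      rw [map_one, pow_zero, one_smul]
  | c :: S => by
      have ih := Tsys_Us S
      have hn : nvar (c :: S) = c.length + nvar S := by simp [nvar]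
      have h1 : (Int.castRingHom ℚ).mapMatrix (T1 c) = ((-1 : ℚ) ^ c.length) • U1 c := by
        unfold T1 U1
        rw [← map_pow]
        ext i j
        rw [RingHom.mapMatrix_apply, Matrix.map_apply, Matrix.smul_apply, Matrix.smul_apply,
          smul_eq_mul, smul_eq_mul, RingHom.mapMatrix_apply, Matrix.map_apply]
        simp
      rw [hn]
      ext p p'
      have e1 := congrFun (congrFun ih p.2) p'.2
      have e2 := congrFun (congrFun h1 p.1) p'.1
      simp only [RingHom.mapMatrix_apply, Matrix.map_apply, Matrix.smul_apply,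
        smul_eq_mul, eq_intCast] at e1 e2 ⊢
      have e3 : Tsys (c :: S) p p' = T1 c p.1 p'.1 * Tsys S p.2 p'.2 := rfl
      have e4 : Us (c :: S) p p' = U1 c p.1 p'.1 * Us S p.2 p'.2 := rfl
      rw [e3, e4]
      push_cast
      rw [e1, e2]
      ring

section Family

variable {L : List (ℕ × ℕ × ℤ)} {u : ℕ} {q : List ℕ}

/-- `Φ_Q (T ^ (3 u)) = 0`, `Q = ∏ q`. -/
theorem F_cyc (hC : Cert L u) (hA : Aux u q) (s j : ℕ) :
    aeval (Tsys (F L u q s j) ^ (3 * u)) (cyclotomic q.prod ℤ) = 0 := by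
  have hu := hC.big
  set φ := (Int.castRingHom ℚ).mapMatrix (m := Idx (F L u q s j)) with hφ
  have hinj : Function.Injective φ := by
    rw [hφ]
    intro M N h
    ext i k
    have := congrFun (congrFun h i) k
    simpa using this
  apply hinj
  rw [map_zero]
  have h1 : φ (aeval (Tsys (F L u q s j) ^ (3 * u)) (cyclotomic q.prod ℤ)) =
      aeval (φ (Tsys (F L u q s j) ^ (3 * u))) (cyclotomic q.prod ℚ) := by
    rw [← map_cyclotomic q.prod (Int.castRingHom ℚ), aeval_def, aeval_def, hom_eval₂, eval₂_map]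
    congr 1
    exact RingHom.ext_int _ _
  obtain ⟨t, ht⟩ := nvar_F (L := L) hA s j
  have h8 : (-1 : ℚ) ^ (8 * t) = 1 := by rw [pow_mul]; norm_num
  rw [h1, map_pow, hφ, Tsys_Us, ht, h8, one_smul]
  have h2 : F L u q s j = (rep 8 [[3]] ++ rep 8 [[u]] ++ rep (8 * (s - j)) (ZP L) ++
      rep (8 * j) (ZM L)) ++ q.map (fun x => [x]) := rfl
  rw [h2]
  apply cyc_OK
  · intro c hc
    simp only [List.mem_append] at hc
    rcases hc with ((h | h) | h) | h
    · have := mem_rep h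
      rw [List.mem_singleton] at this
      subst this
      exact ok_single (by norm_num) ⟨u, rfl⟩
    · have := mem_rep h
      rw [List.mem_singleton] at this
      subst this
      exact ok_single (by omega) ⟨3, by ring⟩
    · exact ok_ZP hC c (mem_rep h)
    · exact ok_ZM hC c (mem_rep h)
  · apply cyc_primes q hA.prime hA.nodup
    intro p hp hd
    have h3 := hA.prime p hp
    have h4 := (Nat.coprime_list_prod_right_iff.1 (coprime_mq hC hA)) p hp
    have h5 : p ∣ 1 := by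
      rw [← h4]
      exact Nat.dvd_gcd hd dvd_rfl
    exact h3.one_lt.ne' (Nat.dvd_one.1 h5)

end Family

end Crest.Agent.R267.P411b_61
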