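import Mathlib

/-!
# S0407, package P4: hermitian modules over commutative rings with involution (helper780)

Interface for P4.7, P4.8, P4.9, P4.11: hermitian forms, isometries, `hyp h = H(R) ⊥ h`,
Eichler transvections `E`, `F'`, the torus `D`.  All rings are commutative with involution `star`.
-/

set_option autoImplicit false

namespace Crest.Agent.R267.P4Herm_780

/-- the two hypotheses on the base ring: an element of trace one and a skew unit. -/
structure Good (R : Type*) [CommRing R] [StarRing R] : Prop where
  tr : ∃ c : R, c + star c = 1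
  skew : ∃ d : R, IsUnit d ∧ star d = -d

/-- hermitian forms, linear in the second variable. -/
structure HForm (R M : Type*) [CommRing R] [StarRing R] [AddCommGroup M] [Module R M] where
  h : M → M → R
  add_right : ∀ x y z, h x (y + z) = h x y + h x z
  smul_right : ∀ (a : R) x y, h x (a • y) = a * h x y
  symm : ∀ x y, star (h x y) = h y x

namespace HForm

variable {R M N : Type*} [CommRing R] [StarRing R] [AddCommGroup M] [Module R M]
  [AddCommGroup N] [Module R N]

theorem add_left (H : HForm R M) (x y z : M) : H.h (x + y) z = H.h x z + H.h y z := by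
  rw [← H.symm, H.add_right, star_add, H.symm, H.symm]

theorem smul_left (H : HForm R M) (a : R) (x y : M) : H.h (a • x) y = star a * H.h x y := by
  rw [← H.symm, H.smul_right, star_mul', H.symm]

/-- the linear functional `h(x, ·)`. -/
def dual (H : HForm R M) (x : M) : M →ₗ[R] R where
  toFun := H.h x
  map_add' := H.add_right x
  map_smul' := fun a y => by simpa using H.smul_right a x y

/-- unimodular: every linear functional is `h(x, ·)` for a unique `x`. -/
def Unimodular (H : HForm R M) : Prop := Function.Bijective H.dual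

/-- isometry of hermitian modules. -/
def Isom (H : HForm R M) (H' : HForm R N) : Prop :=
  ∃ g : M ≃ₗ[R] N, ∀ x y, H'.h (g x) (g y) = H.h x y

theorem Isom.refl (H : HForm R M) : Isom H H := ⟨LinearEquiv.refl R M, fun _ _ => rfl⟩

theorem Isom.symm {H : HForm R M} {H' : HForm R N} (e : Isom H H') : Isom H' H := by
  obtain ⟨g, hg⟩ := e
  exact ⟨g.symm, fun x y => by rw [← hg]; simp⟩

/-- the form `H(R) ⊥ h` on `R × R × M`, `e = (1,0,0)`, `f = (0,1,0)`. -/
def hyp (H : HForm R M) : HForm R (R × R × M) where
  h v w := star v.1 * w.2.1 + star v.2.1 * w.1 + H.h v.2.2 w.2.2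
  add_right x y z := by simp [H.add_right]; ring
  smul_right a x y := by simp [H.smul_right]; ring
  symm x y := by simp [H.symm]; ring

/-- the Eichler transvection `E(w, r) : (a,b,x) ↦ (a + r b - h(w,x), b, x + b w)`. -/
def E (H : HForm R M) (w : M) (r : R) : (R × R × M) →ₗ[R] (R × R × M) where
  toFun v := (v.1 + r * v.2.1 - H.h w v.2.2, v.2.1, v.2.2 + v.2.1 • w)
  map_add' v v' := by
    ext
    · simp [H.add_right]; ring
    · simp
    · simp [add_smul]; abel
  map_smul' a v := by
    ext
    · simp [H.smul_right]; ring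
    · simp
    · simp [smul_smul]

/-- the opposite transvection `F'(w, r) : (a,b,x) ↦ (a, b + r a - h(w,x), x + a w)`. -/
def F' (H : HForm R M) (w : M) (r : R) : (R × R × M) →ₗ[R] (R × R × M) where
  toFun v := (v.1, v.2.1 + r * v.1 - H.h w v.2.2, v.2.2 + v.1 • w)
  map_add' v v' := by
    ext
    · simp
    · simp [H.add_right]; ring
    · simp [add_smul]; abel
  map_smul' a v := by
    ext
    · simp
    · simp [H.smul_right]; ring
    · simp [smul_smul]

/-- `D(l) : (a,b,x) ↦ (l a, star(l)⁻¹ b, x)`. -/
def D (M : Type*) [AddCommGroup M] [Module R M] (l : Rˣ) :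
    (R × R × M) →ₗ[R] (R × R × M) where
  toFun v := ((l : R) * v.1, star ((l⁻¹ : Rˣ) : R) * v.2.1, v.2.2)
  map_add' v v' := by ext <;> simp <;> ring
  map_smul' a v := by ext <;> simp <;> ring

theorem E_isom (H : HForm R M) {w : M} {r : R} (hr : r + star r = - H.h w w)
    (v v' : R × R × M) : H.hyp.h (H.E w r v) (H.E w r v') = H.hyp.h v v' := by
  have h1 : star (H.h w v.2.2) = H.h v.2.2 w := H.symm _ _
  simp only [hyp, E, LinearMap.coe_mk, AddHom.coe_mk, star_add, star_sub, star_mul', h1,
    H.add_right, H.add_left, H.smul_right, H.smul_left]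
  linear_combination (star v.2.1 * v'.2.1) * hr

theorem F'_isom (H : HForm R M) {w : M} {r : R} (hr : r + star r = - H.h w w)
    (v v' : R × R × M) : H.hyp.h (H.F' w r v) (H.F' w r v') = H.hyp.h v v' := by
  have h1 : star (H.h w v.2.2) = H.h v.2.2 w := H.symm _ _
  simp only [hyp, F', LinearMap.coe_mk, AddHom.coe_mk, star_add, star_sub, star_mul', h1,
    H.add_right, H.add_left, H.smul_right, H.smul_left]
  linear_combination (star v.1 * v'.1) * hr

theorem D_isom (H : HForm R M) (l : Rˣ) (v v' : R × R × M) :
    H.hyp.h (D M l v) (D M l v') = H.hyp.h v v' := by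
  have h1 : star (l : R) * star ((l⁻¹ : Rˣ) : R) = 1 := by
    rw [← star_mul']; simp
  have h2 : (l : R) * ((l⁻¹ : Rˣ) : R) = 1 := by simp
  simp only [hyp, D, LinearMap.coe_mk, AddHom.coe_mk, star_mul', star_star]
  linear_combination (star v.1 * v'.2.1) * h1 + (star v.2.1 * v'.1) * h2

/-- the generators: transvections with admissible parameters, and the torus. -/
inductive Gen (H : HForm R M) : ((R × R × M) →ₗ[R] (R × R × M)) → Prop
  | id : Gen H LinearMap.id
  | E (w : M) (r : R) (hr : r + star r = - H.h w w) (g) : Gen H g → Gen H ((H.E w r).comp g)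
  | F' (w : M) (r : R) (hr : r + star r = - H.h w w) (g) : Gen H g → Gen H ((H.F' w r).comp g)
  | D (l : Rˣ) (g) : Gen H g → Gen H ((D M l).comp g)

end HForm

/-- P4.7 (LOC, projective case). `R` commutative, `J`-adically complete, `R ⧸ J` finite reduced,
`R` good: any two unimodular hermitian forms on a finite projective module are isometric. -/
def P47 : Prop :=
  ∀ (R : Type) [CommRing R] [StarRing R] (J : Ideal R), Good R → (∀ x ∈ J, star x ∈ J) →
    IsAdicComplete J R → Finite (R ⧸ J) → IsReduced (R ⧸ J) →
    ∀ (P : Type) [AddCommGroup P] [Module R P] [Module.Finite R P] [Module.Projective R P]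
      (H H' : HForm R P), H.Unimodular → H'.Unimodular → HForm.Isom H H'

/-- P4.8. `R` commutative reduced artinian `ℚ`-algebra, good: every isometry of `H(R) ⊥ V₁`
is a product of transvections and elements `D(l)`. -/
def P48 : Prop :=
  ∀ (R : Type) [CommRing R] [StarRing R] [Algebra ℚ R] [IsArtinianRing R] [IsReduced R], Good R →
    ∀ (V : Type) [AddCommGroup V] [Module R V] [Module.Finite R V] (H : HForm R V),
      H.Unimodular → ∀ g : (R × R × V) ≃ₗ[R] (R × R × V),
        (∀ x y, H.hyp.h (g x) (g y) = H.hyp.h x y) → HForm.Gen H (g : _ →ₗ[R] _)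

end Crest.Agent.R267.P4Herm_780
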