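import Crest.Agent.R267.P411c_61
import Crest.Agent.R267.P4Lam_780

/-!
# S0407, package P4, node P4.11: hyperbolic pair with `b(e, T^k f) = lam (X^k)` (helper61)
-/

set_option autoImplicit false

namespace Crest.Agent.R267.P411d_61

open Matrix Polynomial Crest.Agent.R267.P4Defs_780 Crest.Agent.R267.P4Lam_780
open Crest.Agent.R267.P411_61 Crest.Agent.R267.P411c_61

theorem cyc_dvd_geom {Q p v : ℕ} (hQ : 0 < Q) (h1 : Q ∣ p * v) (h2 : ¬ Q ∣ v) :
    cyclotomic Q ℤ ∣ ∑ t ∈ Finset.range p, ((X : ℤ[X]) ^ v) ^ t := by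
  have h3 : cyclotomic Q ℤ ∣ (∑ t ∈ Finset.range p, ((X : ℤ[X]) ^ v) ^ t) * (X ^ v - 1) := by
    rw [geom_sum_mul, ← pow_mul, mul_comm v]
    obtain ⟨t, ht⟩ := h1
    refine (cyclotomic.dvd_X_pow_sub_one Q ℤ).trans ?_
    rw [ht, pow_mul]
    exact sub_one_dvd_pow_sub_one _ _
  rcases ((cyclotomic.irreducible hQ).prime).dvd_or_dvd h3 with h | h
  · exact h
  · exfalso
    apply h2
    have hz := Complex.isPrimitiveRoot_exp Q hQ.ne'
    obtain ⟨g, hg⟩ := h
    have h4 := congrArg (aeval (Complex.exp (2 * Real.pi * Complex.I / Q))) hg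
    have h5 : aeval (Complex.exp (2 * Real.pi * Complex.I / Q)) (cyclotomic Q ℤ) = 0 := by
      have : NeZero ((Q : ℕ) : ℂ) := ⟨by exact_mod_cast hQ.ne'⟩
      have h6 := (isRoot_cyclotomic_iff (n := Q) (R := ℂ)).2 hz
      rw [aeval_def, ← eval_map]
      have h7 : (cyclotomic Q ℤ).map (algebraMap ℤ ℂ) = cyclotomic Q ℂ := map_cyclotomic _ _
      rw [h7]
      exact h6
    rw [map_mul, h5, zero_mul] at h4
    have h8 : Complex.exp (2 * Real.pi * Complex.I / Q) ^ v = 1 := by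
      simpa [sub_eq_zero] using h4
    exact hz.dvd_of_pow_eq_one v h8

section Ring

variable {m Q : ℕ}

lemma gx_pow_congr {a b : ℕ} (h : a ≡ b [MOD (m * Q)]) : gx m Q ℤ ^ a = gx m Q ℤ ^ b := by
  have h1 := gx_pow (m := m) (Q := Q) (R := ℤ)
  have h2 : ∀ a, gx m Q ℤ ^ a = gx m Q ℤ ^ (a % (m * Q)) := by
    intro a
    conv_lhs => rw [← Nat.div_add_mod a (m * Q), pow_add, pow_mul, h1, one_pow, one_mul]
  rw [h2 a, h2 b, h]

lemma gx_geom [NeZero Q] {p v : ℕ} (h1 : Q ∣ p * v) (h2 : ¬ Q ∣ v) :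
    ∑ t ∈ Finset.range p, (gx m Q ℤ ^ (m * v)) ^ t = 0 := by
  obtain ⟨g, hg⟩ := cyc_dvd_geom (NeZero.pos Q) h1 h2
  have h3 := congrArg (aeval (gx m Q ℤ ^ m)) hg
  rw [map_mul, aeval_gx_pow, zero_mul, map_sum] at h3
  rw [← h3]
  refine Finset.sum_congr rfl fun t _ => ?_
  rw [map_pow, map_pow, aeval_X, pow_mul]

end Ring

section Family

variable {L : List (ℕ × ℕ × ℤ)} {u : ℕ} {q : List ℕ}

lemma q_pos (hA : Aux u q) : 0 < q.prod := Nat.pos_of_ne_zero (by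
    intro h0
    rw [List.prod_eq_zero_iff] at h0
    exact (hA.prime 0 h0).ne_zero rfl)

/-- P4.11: for every functional `lam` on `Lam = ℤ[X]/Φ_Q(X^{3u})` which vanishes on `X^k`,
`3 u ∤ k`, there are `e`, `f` with `b(e, T^k e) = 0`, `b(e, T^k f) = lam (X^k)`, where
`b(x, y) = xᵗ A T^h y`. -/
theorem hyp_lam (hC : Cert L u) (hA : Aux u q) [NeZero (3 * u)] [NeZero q.prod] (s j : ℕ)
    (lam : Lam (3 * u) q.prod ℤ →+ ℤ)
    (h0 : ∀ k, ¬ 3 * u ∣ k → lam (gx (3 * u) q.prod ℤ ^ k) = 0) :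
    ∃ e f : Idx (F L u q s j) → ℤ, ∀ k : ℕ,
      e ⬝ᵥ ((sysMat (F L u q s j) * Tsys (F L u q s j) ^ (hs u q + k)) *ᵥ e) = 0 ∧
      e ⬝ᵥ ((sysMat (F L u q s j) * Tsys (F L u q s j) ^ (hs u q + k)) *ᵥ f) =
        lam (gx (3 * u) q.prod ℤ ^ k) := by
  have hu := hC.big
  have hm : 0 < 3 * u := by omega
  have hQ := q_pos hA
  have hco := coprime_mq hC hA
  obtain ⟨μ, hμ1, hμ2⟩ := Nat.chineseRemainder hco 0 1
  rw [Nat.modEq_zero_iff_dvd] at hμ1
  obtain ⟨μ', hμ'⟩ := hμ1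
  set h := hs u q with hh
  -- the shift
  obtain ⟨i, hi1, hi2⟩ := Nat.chineseRemainder hco (3 * u * h - h) 0
  have hi3 : 3 * u ∣ h + i := by
    have h1 : h + i ≡ h + (3 * u * h - h) [MOD 3 * u] := hi1.add_left _
    rw [Nat.add_sub_cancel' (Nat.le_mul_of_pos_left _ hm)] at h1
    rw [Nat.dvd_iff_mod_eq_zero, h1]
    exact Nat.mul_mod_right _ _
  have hi4 : q.prod ∣ i := (Nat.modEq_zero_iff_dvd).1 hi2
  set c := q.prod * h - h with hc
  have hc' : c + h = q.prod * h := Nat.sub_add_cancel (Nat.le_mul_of_pos_left _ hQ)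
  set G : ℕ → ℤ := fun k => lam (gx (3 * u) q.prod ℤ ^ (μ * (k + c))) with hG
  have hAdm : Adm q G := by
    refine ⟨fun k => ?_, fun p hp e h1 h2 k => ?_⟩
    · show lam (gx (3 * u) q.prod ℤ ^ (μ * (k + q.prod + c))) =
        lam (gx (3 * u) q.prod ℤ ^ (μ * (k + c)))
      congr 1
      apply gx_pow_congr
      rw [show μ * (k + q.prod + c) = μ * (k + c) + 3 * u * q.prod * μ' by rw [hμ']; ring]
      exact modEq_add_mul _ _ _
    · show ∑ t ∈ Finset.range p, lam (gx (3 * u) q.prod ℤ ^ (μ * (k + t * e + c))) = 0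
      have h3 : ∑ t ∈ Finset.range p, (gx (3 * u) q.prod ℤ ^ (3 * u * (μ' * e))) ^ t = 0 := by
        apply gx_geom
        · rw [mul_left_comm]; exact Dvd.dvd.mul_left h1 _
        · intro hd
          apply h2
          have h4 : q.prod ∣ μ * e := by
            rw [hμ', mul_assoc]; exact Dvd.dvd.mul_left hd _
          have h5 : μ * e ≡ 1 * e [MOD q.prod] := hμ2.mul_right e
          rw [one_mul] at h5
          exact (Nat.modEq_zero_iff_dvd).1 (h5.symm.trans ((Nat.modEq_zero_iff_dvd).2 h4))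
      have h4 : ∀ t, gx (3 * u) q.prod ℤ ^ (μ * (k + t * e + c)) =
          gx (3 * u) q.prod ℤ ^ (μ * (k + c)) *
            (gx (3 * u) q.prod ℤ ^ (3 * u * (μ' * e))) ^ t := by
        intro t
        rw [← pow_mul, ← pow_add, hμ']
        congr 1
        ring
      simp only [h4]
      rw [← map_sum, ← Finset.mul_sum, h3, mul_zero, map_zero]
  obtain ⟨e, f, hef⟩ := hyp_gen hC hA s j G hAdm
  refine ⟨e, Tsys (F L u q s j) ^ i *ᵥ f, fun k => ⟨(hef _).1, ?_⟩⟩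
  rw [Matrix.mulVec_mulVec, Matrix.mul_assoc, ← pow_add, (hef _).2]
  have h5 : 3 * u ∣ h + k + i ↔ 3 * u ∣ k := by
    rw [show h + k + i = k + (h + i) by ring]
    exact Nat.dvd_add_iff_left hi3 |>.symm
  by_cases hk : 3 * u ∣ k
  · rw [if_pos (h5.2 hk)]
    show lam (gx (3 * u) q.prod ℤ ^ (μ * (h + k + i + c))) = _
    congr 1
    apply gx_pow_congr
    rw [← Nat.modEq_and_modEq_iff_modEq_mul hco]
    constructor
    · rw [hμ', mul_assoc]
      exact ((Nat.modEq_zero_iff_dvd).2 (dvd_mul_right _ _)).trans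
        ((Nat.modEq_zero_iff_dvd).2 hk).symm
    · have h6 : μ * (h + k + i + c) ≡ 1 * (h + k + i + c) [MOD q.prod] := hμ2.mul_right _
      refine h6.trans ?_
      obtain ⟨i', hi'⟩ := hi4
      rw [one_mul, show h + k + i + c = k + q.prod * (i' + h) by
        rw [mul_add, ← hi', ← hc']; ring]
      exact modEq_add_mul _ _ _
  · rw [if_neg (fun h => hk (h5.1 h)), h0 k hk]

end Family

end Crest.Agent.R267.P411d_61
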