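import Mathlib
import Crest.Agent.R267.P4Lam_780

/-!
# S0407, package P4: a perfect symmetric functional on `Lam m Q R` (helper780)
-/

set_option autoImplicit false

namespace Crest.Agent.R267.P4Fun_780

open Polynomial Crest.Agent.R267.P4Herm_780 Crest.Agent.R267.P4Lam_780

/-- perfect functionals. -/
def Perf {R A : Type} [CommRing R] [CommRing A] [Algebra R A] (lam : A →ₗ[R] R) : Prop :=
  ∀ φ : A →ₗ[R] R, ∃! z : A, ∀ w : A, lam (z * w) = φ w

theorem Perf.ext {R A : Type} [CommRing R] [CommRing A] [Algebra R A] {lam : A →ₗ[R] R}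
    (h : Perf lam) {a b : A} (hab : ∀ w, lam (a * w) = lam (b * w)) : a = b := by
  obtain ⟨z, -, hz⟩ := h (lam.comp (LinearMap.mulLeft R b))
  rw [hz a (fun w => by simpa using hab w), hz b (fun w => by simp)]

/-- multiplication by a unit preserves perfectness. -/
theorem Perf.mul {R A : Type} [CommRing R] [CommRing A] [Algebra R A] {lam : A →ₗ[R] R}
    (h : Perf lam) (v : Aˣ) : Perf (lam.comp (LinearMap.mulLeft R (v : A))) := by
  intro φ
  obtain ⟨z, hz, hz'⟩ := h φ
  refine ⟨((v⁻¹ : Aˣ) : A) * z, fun w => ?_, fun y hy => ?_⟩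
  · rw [← hz w]
    simp only [LinearMap.comp_apply, LinearMap.mulLeft_apply]
    rw [← mul_assoc, ← mul_assoc]; simp
  · have : (v : A) * y = z := hz' _ (fun w => by
      rw [← hy w]
      simp only [LinearMap.comp_apply, LinearMap.mulLeft_apply, mul_assoc])
    rw [← this, ← mul_assoc]; simp

section

variable {m Q : ℕ} {R : Type} [CommRing R] [NeZero m]

theorem modByMonic_eq_self_of_degree_lt' {f g : R[X]} (h : f.natDegree < g.natDegree) :
    f %ₘ g = f := by
  by_cases hg : g.Monic
  · nontriviality R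
    exact (modByMonic_eq_self_iff hg).2 (degree_lt_degree h)
  · exact modByMonic_eq_of_not_monic _ hg

/-- the coefficient of `X ^ (D - 1)`, `D` = degree of `Psi`. -/
noncomputable def tau (m Q : ℕ) (R : Type) [CommRing R] [NeZero m] : Lam m Q R →ₗ[R] R :=
  (lcoeff R ((Psi m Q R).natDegree - 1)).comp (AdjoinRoot.modByMonicHom (Psi_monic m Q R))

theorem tau_aeval {f : R[X]} (hf : f.natDegree < (Psi m Q R).natDegree) :
    tau m Q R (aeval (gx m Q R) f) = f.coeff ((Psi m Q R).natDegree - 1) := by
  have h1 : aeval (gx m Q R) f = AdjoinRoot.mk (Psi m Q R) f := AdjoinRoot.aeval_eq f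
  rw [h1]
  change (AdjoinRoot.modByMonicHom (Psi_monic m Q R) (AdjoinRoot.mk (Psi m Q R) f)).coeff _ = _
  rw [AdjoinRoot.modByMonicHom_mk, modByMonic_eq_self_of_degree_lt' hf]

variable [Nontrivial R]

theorem tau_pow {k : ℕ} (hk : k < (Psi m Q R).natDegree) :
    tau m Q R (gx m Q R ^ k) = if k = (Psi m Q R).natDegree - 1 then 1 else 0 := by
  have h1 : gx m Q R ^ k = aeval (gx m Q R) (X ^ k : R[X]) := by simp
  rw [h1, tau_aeval (by rwa [natDegree_X_pow]), coeff_X_pow]
  simp [eq_comm]

/-- the power basis. -/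
noncomputable def bas (m Q : ℕ) (R : Type) [CommRing R] [NeZero m] :
    Module.Basis (Fin (Psi m Q R).natDegree) R (Lam m Q R) :=
  (AdjoinRoot.powerBasis' (Psi_monic m Q R)).basis

omit [Nontrivial R] in
theorem bas_apply (i : Fin (Psi m Q R).natDegree) : bas m Q R i = gx m Q R ^ (i : ℕ) :=
  (AdjoinRoot.powerBasis' (Psi_monic m Q R)).basis_eq_pow i

instance : Module.Free R (Lam m Q R) := (Psi_monic m Q R).free_adjoinRoot
instance : Module.Finite R (Lam m Q R) := (Psi_monic m Q R).finite_adjoinRoot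

theorem tau_perf (hD : 0 < (Psi m Q R).natDegree) : Perf (tau m Q R) := by
  set D := (Psi m Q R).natDegree with hDdef
  let N : Matrix (Fin D) (Fin D) R :=
    Matrix.of fun i j => tau m Q R (bas m Q R i * bas m Q R j)
  have hN : IsUnit N.det := by
    have h1 : (N.submatrix id (Fin.revPerm : Equiv.Perm (Fin D))).det = 1 := by
      rw [Matrix.det_of_isLowerTriangular]
      · apply Finset.prod_eq_one
        intro i _
        simp only [N, Matrix.submatrix_apply, id, Matrix.of_apply, bas_apply, Fin.revPerm_apply,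
          Fin.val_rev]
        rw [← pow_add, tau_pow (by omega), if_pos (by omega)]
      · intro i j hij
        have hij' : (i : ℕ) < j := hij
        simp only [N, Matrix.submatrix_apply, id, Matrix.of_apply, bas_apply, Fin.revPerm_apply,
          Fin.val_rev]
        rw [← pow_add, tau_pow (by omega), if_neg (by omega)]
    rw [Matrix.det_permute'] at h1
    exact IsUnit.of_mul_eq_one_right _ h1
  intro φ
  have key : ∀ z : Lam m Q R, (∀ w, tau m Q R (z * w) = φ w) ↔
      Matrix.vecMul (fun i => (bas m Q R).repr z i) N = fun j => φ (bas m Q R j) := by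
    intro z
    have hz : ∀ j, Matrix.vecMul (fun i => (bas m Q R).repr z i) N j =
        tau m Q R (z * bas m Q R j) := by
      intro j
      conv_rhs => rw [← (bas m Q R).sum_repr z, Finset.sum_mul, map_sum]
      simp only [Matrix.vecMul, dotProduct, N, Matrix.of_apply, smul_mul_assoc, map_smul,
        smul_eq_mul]
    constructor
    · intro h; ext j; rw [hz, h]
    · intro h w
      have h2 : (tau m Q R).comp (LinearMap.mulLeft R z) = φ := by
        apply (bas m Q R).ext
        intro j
        rw [LinearMap.comp_apply, LinearMap.mulLeft_apply, ← hz, h]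
      exact congrArg (fun f => f w) h2
  let c : Fin D → R := Matrix.vecMul (fun j => φ (bas m Q R j)) N⁻¹
  refine ⟨∑ i, c i • bas m Q R i, ?_, ?_⟩
  · refine (key _).2 ?_
    have h3 : (fun i => (bas m Q R).repr (∑ i, c i • bas m Q R i) i) = c := by
      ext i
      rw [(bas m Q R).repr_sum_self]
    rw [h3]
    simp only [c]
    rw [Matrix.vecMul_vecMul, Matrix.nonsing_inv_mul _ hN, Matrix.vecMul_one]
  · intro y hy
    have h4 := (key y).1 hy
    have h5 : (fun i => (bas m Q R).repr y i) = c := by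
      simp only [c]
      rw [← h4, Matrix.vecMul_vecMul, Matrix.mul_nonsing_inv _ hN, Matrix.vecMul_one]
    conv_lhs => rw [← (bas m Q R).sum_repr y]
    exact Finset.sum_congr rfl fun i _ => by rw [← h5]

end

section

variable {m Q : ℕ} {R : Type} [CommRing R] [Nontrivial R] [NeZero m] [NeZero Q]

theorem Psi_coeff_zero (hQ : 1 < Q) : (Psi m Q R).coeff 0 = 1 := by
  rw [coeff_zero_eq_eval_zero, Psi, expand_eval, zero_pow (NeZero.ne m),
    ← coeff_zero_eq_eval_zero, cyclotomic_coeff_zero R hQ]

theorem tau_star_gx (hQ : 1 < Q) (hD : 0 < (Psi m Q R).natDegree) :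
    tau m Q R (star (gx m Q R)) = -1 := by
  have h1 : star (gx m Q R) = - aeval (gx m Q R) (divX (Psi m Q R)) := by
    have h2 := congrArg (aeval (gx m Q R)) (divX_mul_X_add (Psi m Q R))
    rw [map_add, map_mul, aeval_X, aeval_C, Psi_coeff_zero hQ, map_one, aeval_gx] at h2
    have h3 := gx_mul_star (m := m) (Q := Q) (R := R)
    linear_combination (star (gx m Q R)) * h2 - (aeval (gx m Q R) (divX (Psi m Q R))) * h3
  rw [h1, map_neg, tau_aeval, coeff_divX]
  · have h4 := (Psi_monic m Q R).coeff_natDegree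
    rw [show (Psi m Q R).natDegree - 1 + 1 = (Psi m Q R).natDegree by omega, h4]
  · rw [natDegree_divX_eq_natDegree_tsub_one]; omega

theorem tau_star' (hQ : 1 < Q) (hD : 2 ≤ (Psi m Q R).natDegree) (w : Lam m Q R) :
    tau m Q R w = tau m Q R (-(gx m Q R ^ ((Psi m Q R).natDegree - 2)) * star w) := by
  have h : tau m Q R = (tau m Q R).comp
      ((LinearMap.mulLeft R (-(gx m Q R ^ ((Psi m Q R).natDegree - 2)))).comp
        (conj (m := m) (Q := Q) (R := R)).toLinearMap) := by
    apply (bas m Q R).ext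
    intro k
    have hk := k.2
    simp only [LinearMap.comp_apply, LinearMap.mulLeft_apply, AlgHom.toLinearMap_apply]
    rw [bas_apply, ← star_def, star_pow, neg_mul, map_neg]
    by_cases h0 : (k : ℕ) = (Psi m Q R).natDegree - 1
    · have h1 : gx m Q R ^ ((Psi m Q R).natDegree - 2) * star (gx m Q R) ^ (k : ℕ) =
          star (gx m Q R) := by
        rw [h0, show (Psi m Q R).natDegree - 1 = (Psi m Q R).natDegree - 2 + 1 by omega,
          pow_succ, ← mul_assoc, ← mul_pow, gx_mul_star, one_pow, one_mul]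
      rw [h1, tau_star_gx hQ (by omega), tau_pow hk, if_pos h0, neg_neg]
    · have h1 : gx m Q R ^ ((Psi m Q R).natDegree - 2) * star (gx m Q R) ^ (k : ℕ) =
          gx m Q R ^ ((Psi m Q R).natDegree - 2 - k) := by
        have h2 : (Psi m Q R).natDegree - 2 = ((Psi m Q R).natDegree - 2 - k) + k := by omega
        conv_lhs => rw [h2, pow_add, mul_assoc, ← mul_pow, gx_mul_star, one_pow, mul_one]
      rw [h1, tau_pow hk, if_neg h0, tau_pow (by omega), if_neg (by omega), neg_zero]
  exact congrArg (fun f => f w) h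

/-- `ζ - ζ⁻¹`, `ζ = gx ^ m`. -/
noncomputable def skew (m Q : ℕ) (R : Type) [CommRing R] [NeZero m] [NeZero Q] : Lam m Q R :=
  gx m Q R ^ m - star (gx m Q R ^ m)

omit [Nontrivial R] in
theorem star_skew : star (skew m Q R) = - skew m Q R := by
  simp [skew]

omit [Nontrivial R] in
theorem isUnit_skew (hQ : ∀ {p : ℕ}, p.Prime → ∀ k : ℕ, p ^ k ≠ Q) (ho : Odd Q) :
    IsUnit (skew m Q R) := by
  have ht2 : aeval ((gx m Q R ^ m) ^ 2) (cyclotomic Q R) = 0 :=
    aeval_pow_cyclotomic aeval_gx_pow (Nat.coprime_two_left.2 ho) (by norm_num)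
  have hu2 := isUnit_one_sub ht2 hQ
  have h5 : skew m Q R * (- (gx m Q R ^ m)) = 1 - (gx m Q R ^ m) ^ 2 := by
    have := gx_pow_mul_star (m := m) (Q := Q) (R := R) m
    unfold skew
    linear_combination this
  exact isUnit_of_mul_isUnit_left (h5 ▸ hu2)

/-- a symmetric perfect functional. -/
noncomputable def lam (m Q : ℕ) (R : Type) [CommRing R] [NeZero m] [NeZero Q] :
    Lam m Q R →ₗ[R] R :=
  (tau m Q R).comp (LinearMap.mulLeft R (gx m Q R ^ ((Psi m Q R).natDegree / 2 - 1) * skew m Q R))

theorem natDegree_even (hQ : 2 < Q) : Even (Psi m Q R).natDegree := by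
  rw [Psi_natDegree]; exact (Nat.totient_even hQ).mul_right m

theorem two_le_natDegree (hQ : 2 < Q) : 2 ≤ (Psi m Q R).natDegree := by
  have h1 := natDegree_even (m := m) (R := R) hQ
  have h2 : 0 < (Psi m Q R).natDegree := by
    rw [Psi_natDegree]
    exact Nat.mul_pos (Nat.totient_pos.2 (by omega)) (NeZero.pos m)
  obtain ⟨k, hk⟩ := h1
  omega

theorem lam_star (hQ : 2 < Q) (z : Lam m Q R) : lam m Q R (star z) = lam m Q R z := by
  have hD := two_le_natDegree (m := m) (R := R) hQ
  obtain ⟨k, hk⟩ := natDegree_even (m := m) (R := R) hQ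
  simp only [lam, LinearMap.comp_apply, LinearMap.mulLeft_apply]
  conv_rhs => rw [tau_star' (by omega) hD]
  congr 1
  rw [star_mul', star_mul', star_skew]
  have h2 : (Psi m Q R).natDegree / 2 - 1 = k - 1 := by omega
  have h3 : (Psi m Q R).natDegree - 2 = (k - 1) + (k - 1) := by omega
  rw [h2, h3, pow_add]
  have h4 := gx_pow_mul_star (m := m) (Q := Q) (R := R) (k - 1)
  linear_combination (-(gx m Q R ^ (k - 1)) * skew m Q R * star z) * h4

theorem lam_perf (hQ2 : 2 < Q) (hQ : ∀ {p : ℕ}, p.Prime → ∀ k : ℕ, p ^ k ≠ Q) (ho : Odd Q) :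
    Perf (lam m Q R) := by
  have hD := two_le_natDegree (m := m) (R := R) hQ2
  have hg : IsUnit (gx m Q R) := IsUnit.of_mul_eq_one _ gx_mul_star
  obtain ⟨v, hv⟩ := (hg.pow ((Psi m Q R).natDegree / 2 - 1)).mul (isUnit_skew (m := m) (R := R) hQ ho)
  have h := (tau_perf (m := m) (Q := Q) (R := R) (by omega)).mul v
  rw [hv] at h
  exact h

end

end Crest.Agent.R267.P4Fun_780
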