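import Mathlib
import Crest.Agent.R267.P4Fun_780
import Crest.Agent.R267.P4Defs_780

/-!
# S0407, package P4: bridge between Seifert forms and hermitian forms over `Lam m Q R` (helper780)

* `toH`: a symmetric `R`-bilinear form `b` with `b (z • x) y = b x (star z • y)` is
  `lam (h x y)` for a unique hermitian form `h`; `b` perfect implies `h` unimodular.
* `LT m Q L T`: `L` perfect, `L x (T y) = L y x`, `Psi(T) = 0`.  `LT.mod`: the `Lam`-module
  structure, `LT.hform`: the hermitian form; `LT.unimod`, `LT.of_isom`, `LT.to_isom`.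
* `MatLT`: the same for matrices; `MatLT.cong_of_isom`.
-/

set_option autoImplicit false
set_option linter.unusedSectionVars false

namespace Crest.Agent.R267.P4Brg_780

open Polynomial Matrix Crest.Agent.R267.P4Herm_780 Crest.Agent.R267.P4Lam_780
  Crest.Agent.R267.P4Fun_780 Crest.Agent.R267.P4Defs_780

/-! ### abstract bridge -/

section Abs

variable {R A : Type} [CommRing R] [CommRing A] [Algebra R A] {lam : A →ₗ[R] R}
  {M : Type} [AddCommGroup M] [Module R M] [Module A M] [IsScalarTower R A M]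

/-- the functional `w ↦ b x (w • y)`. -/
def fn (A : Type) [CommRing A] [Algebra R A] [Module A M] [IsScalarTower R A M]
    (b : M →ₗ[R] M →ₗ[R] R) (x y : M) : A →ₗ[R] R where
  toFun w := b x (w • y)
  map_add' := by intro w w'; rw [add_smul, map_add]
  map_smul' := by intro r w; rw [smul_assoc, map_smul]; rfl

/-- the hermitian form of `b`. -/
noncomputable def hh (hp : Perf lam) (b : M →ₗ[R] M →ₗ[R] R) (x y : M) : A :=
  (hp (fn A b x y)).choose

theorem hh_spec (hp : Perf lam) (b : M →ₗ[R] M →ₗ[R] R) (x y : M) (w : A) :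
    lam (hh hp b x y * w) = b x (w • y) := (hp (fn A b x y)).choose_spec.1 w

theorem hh_eq (hp : Perf lam) (b : M →ₗ[R] M →ₗ[R] R) {x y : M} {z : A}
    (hz : ∀ w, lam (z * w) = b x (w • y)) : hh hp b x y = z :=
  hp.ext fun w => by rw [hh_spec, hz]

theorem lam_hh (hp : Perf lam) (b : M →ₗ[R] M →ₗ[R] R) (x y : M) :
    lam (hh hp b x y) = b x y := by
  have := hh_spec hp b x y 1
  rwa [mul_one, one_smul] at this

variable [StarRing A]

/-- the hermitian form of a symmetric equivariant bilinear form. -/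
noncomputable def toH (hp : Perf lam) (hs : ∀ z, lam (star z) = lam z)
    (b : M →ₗ[R] M →ₗ[R] R) (hsym : ∀ x y, b x y = b y x)
    (hb : ∀ (z : A) x y, b (z • x) y = b x (star z • y)) : HForm A M where
  h := hh hp b
  add_right x y z := hh_eq hp b fun w => by
    rw [add_mul, map_add, hh_spec, hh_spec, smul_add, map_add]
  smul_right a x y := hh_eq hp b fun w => by
    rw [mul_comm a, mul_assoc, hh_spec, smul_smul, mul_comm a w]
  symm x y := by
    symm
    apply hh_eq hp b
    intro w
    have h1 : star (hh hp b x y) * w = star (hh hp b x y * star w) := by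
      rw [star_mul', star_star]
    rw [h1, hs, hh_spec, ← hb, hsym]

theorem toH_h (hp : Perf lam) (hs : ∀ z, lam (star z) = lam z)
    (b : M →ₗ[R] M →ₗ[R] R) (hsym : ∀ x y, b x y = b y x)
    (hb : ∀ (z : A) x y, b (z • x) y = b x (star z • y)) (x y : M) :
    (toH hp hs b hsym hb).h x y = hh hp b x y := rfl

theorem toH_unimodular (hp : Perf lam) (hs : ∀ z, lam (star z) = lam z)
    (b : M →ₗ[R] M →ₗ[R] R) (hsym : ∀ x y, b x y = b y x)
    (hb : ∀ (z : A) x y, b (z • x) y = b x (star z • y)) (hbij : Function.Bijective b) :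
    (toH hp hs b hsym hb).Unimodular := by
  constructor
  · intro x x' hxx
    apply hbij.1
    ext y
    have h1 : hh hp b x y = hh hp b x' y := congrArg (fun f => f y) hxx
    rw [← lam_hh hp b x y, ← lam_hh hp b x' y, h1]
  · intro f
    let φ : M →ₗ[R] R :=
      { toFun := fun y => lam (f y)
        map_add' := by intro y y'; rw [map_add, map_add]
        map_smul' := by
          intro r y
          rw [← algebraMap_smul A r y, map_smul, smul_eq_mul, ← Algebra.smul_def, map_smul]
          rfl }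
    obtain ⟨x, hx⟩ := hbij.2 φ
    refine ⟨x, ?_⟩
    ext y
    apply hh_eq hp b
    intro w
    have h1 : b x (w • y) = φ (w • y) := by rw [hx]
    rw [h1]
    change lam (f y * w) = lam (f (w • y))
    rw [map_smul, smul_eq_mul, mul_comm]

end Abs

/-! ### the `Lam`-module of a Seifert form -/

section Mod

variable {m Q : ℕ} {R : Type} [CommRing R] {M : Type} [AddCommGroup M] [Module R M]

/-- the ring homomorphism `Lam m Q R → End M`, `gx ↦ T`. -/
noncomputable def lamHom (T : Module.End R M) (hT : aeval T (Psi m Q R) = 0) :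
    Lam m Q R →+* Module.End R M :=
  Ideal.Quotient.lift (Ideal.span {Psi m Q R}) (aeval T : R[X] →ₐ[R] Module.End R M).toRingHom
    (by
      intro a ha
      obtain ⟨c, rfl⟩ := Ideal.mem_span_singleton'.1 ha
      change aeval T (c * Psi m Q R) = 0
      rw [map_mul, hT, mul_zero])

theorem lamHom_aeval (T : Module.End R M) (hT : aeval T (Psi m Q R) = 0) (f : R[X]) :
    lamHom T hT (aeval (gx m Q R) f) = aeval T f := by
  have h1 : aeval (gx m Q R) f = AdjoinRoot.mk (Psi m Q R) f := AdjoinRoot.aeval_eq f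
  rw [h1]
  exact Ideal.Quotient.lift_mk _ _ _

/-- the module structure, `gx • x = T x`. -/
@[reducible] noncomputable def lamModule (T : Module.End R M) (hT : aeval T (Psi m Q R) = 0) :
    Module (Lam m Q R) M := Module.compHom M (lamHom T hT)

theorem smul_aeval' (T : Module.End R M) (hT : aeval T (Psi m Q R) = 0) (f : R[X]) (x : M) :
    letI := lamModule T hT
    aeval (gx m Q R) f • x = aeval T f x := by
  change lamHom T hT (aeval (gx m Q R) f) x = _
  rw [lamHom_aeval]

theorem smul_gx' (T : Module.End R M) (hT : aeval T (Psi m Q R) = 0) (x : M) :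
    letI := lamModule T hT
    gx m Q R • x = T x := by
  have h1 : lamHom T hT (aeval (gx m Q R) (X : R[X])) x = aeval T (X : R[X]) x := by
    rw [lamHom_aeval]
  rw [aeval_X, aeval_X] at h1
  exact h1

theorem isScalarTower' (T : Module.End R M) (hT : aeval T (Psi m Q R) = 0) :
    letI := lamModule T hT
    IsScalarTower R (Lam m Q R) M := by
  let _ := lamModule T hT
  constructor
  intro r z x
  induction z using ind with
  | h f =>
    rw [← map_smul]
    change lamHom T hT _ x = r • lamHom T hT _ x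
    rw [lamHom_aeval, lamHom_aeval, map_smul]; rfl

end Mod

/-- perfect `L` with monodromy `T` annihilated by `Psi`. -/
structure LT (m Q : ℕ) {R M : Type} [CommRing R] [AddCommGroup M] [Module R M]
    (L : M →ₗ[R] M →ₗ[R] R) (T : Module.End R M) : Prop where
  bij : Function.Bijective L
  mono : ∀ x y, L x (T y) = L y x
  psi : aeval T (Psi m Q R) = 0

namespace LT

variable {m Q : ℕ} {R M M' : Type} [CommRing R] [AddCommGroup M] [Module R M]
  [AddCommGroup M'] [Module R M']
  {L : M →ₗ[R] M →ₗ[R] R} {T : Module.End R M} {L' : M' →ₗ[R] M' →ₗ[R] R} {T' : Module.End R M'}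

theorem inv (h : LT m Q L T) (x y : M) : L (T x) (T y) = L x y := by
  rw [h.mono, h.mono]

theorem inv_pow (h : LT m Q L T) (k : ℕ) (x y : M) : L ((T ^ k) x) ((T ^ k) y) = L x y := by
  induction k with
  | zero => rfl
  | succ k ih => rw [pow_succ', Module.End.mul_apply, Module.End.mul_apply, h.inv, ih]

theorem pow_n (h : LT m Q L T) : T ^ (m * Q) = 1 := by
  obtain ⟨g, hg⟩ := Psi_dvd m Q R
  have := congrArg (aeval T) hg
  rw [map_mul, h.psi, zero_mul] at this
  simpa [sub_eq_zero] using this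

theorem pow_pred [NeZero m] [NeZero Q] (h : LT m Q L T) (x : M) :
    T ((T ^ (m * Q - 1)) x) = x := by
  have h0 := mQ_pos m Q
  rw [← Module.End.mul_apply, ← pow_succ', show m * Q - 1 + 1 = m * Q by omega, h.pow_n]; rfl

theorem right_inj [NeZero m] [NeZero Q] (h : LT m Q L T) {a b : M} (hab : ∀ w, L w a = L w b) :
    a = b := by
  have h1 : (T ^ (m * Q - 1)) a = (T ^ (m * Q - 1)) b := by
    apply h.bij.1
    ext w
    have h2 := h.mono w ((T ^ (m * Q - 1)) a)
    have h3 := h.mono w ((T ^ (m * Q - 1)) b)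
    rw [h.pow_pred] at h2 h3
    rw [← h2, ← h3, hab]
  rw [← h.pow_pred a, h1, h.pow_pred]

/-- isometries commute with the monodromy. -/
theorem comm [NeZero m] [NeZero Q] (h : LT m Q L T) (h' : LT m Q L' T') (g : M ≃ₗ[R] M')
    (hg : ∀ x y, L' (g x) (g y) = L x y) (x : M) : g (T x) = T' (g x) := by
  apply h'.right_inj
  intro w
  obtain ⟨v, rfl⟩ := g.surjective w
  rw [hg, h.mono, h'.mono, hg]

/-! the symmetric form `b x y = L x (T^k y)`, `k = (n + 1) / 2`, `n = m Q` odd. -/

/-- `b x y = L x (T^k y)`. -/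
noncomputable def bb (m Q : ℕ) (L : M →ₗ[R] M →ₗ[R] R) (T : Module.End R M) :
    M →ₗ[R] M →ₗ[R] R := L.compl₂ (T ^ ((m * Q + 1) / 2))

theorem bb_apply (x y : M) : bb m Q L T x y = L x ((T ^ ((m * Q + 1) / 2)) y) := rfl

theorem L_apply (h : LT m Q L T) (ho : Odd (m * Q)) (x y : M) :
    L x y = bb m Q L T x ((T ^ ((m * Q - 1) / 2)) y) := by
  obtain ⟨k, hk⟩ := ho
  rw [bb_apply, ← Module.End.mul_apply, ← pow_add,
    show (m * Q + 1) / 2 + (m * Q - 1) / 2 = m * Q by omega, h.pow_n]; rfl

theorem bb_symm (h : LT m Q L T) (ho : Odd (m * Q)) (x y : M) :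
    bb m Q L T x y = bb m Q L T y x := by
  obtain ⟨k, hk⟩ := ho
  have e1 : (m * Q + 1) / 2 = k + 1 := by omega
  have h1 := h.mono ((T ^ (k + 1)) x) y
  have h2 := h.inv_pow (k + 1) x ((T ^ (k + 1)) y)
  have h3 : (T ^ (k + 1)) ((T ^ (k + 1)) y) = T y := by
    rw [← Module.End.mul_apply, ← pow_add, show k + 1 + (k + 1) = m * Q + 1 by omega, pow_succ,
      h.pow_n]; rfl
  rw [h3] at h2
  rw [bb_apply, bb_apply, e1, ← h1, h2]

theorem bb_T [NeZero m] [NeZero Q] (h : LT m Q L T) (x y : M) :
    bb m Q L T (T x) y = bb m Q L T x ((T ^ (m * Q - 1)) y) := by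
  have h0 := mQ_pos m Q
  have h1 := h.inv x ((T ^ (m * Q - 1)) ((T ^ ((m * Q + 1) / 2)) y))
  rw [h.pow_pred] at h1
  rw [bb_apply, bb_apply, h1, ← Module.End.mul_apply, ← Module.End.mul_apply, ← pow_add,
    ← pow_add, add_comm]

theorem bb_T_pow [NeZero m] [NeZero Q] (h : LT m Q L T) (k : ℕ) (x y : M) :
    bb m Q L T ((T ^ k) x) y = bb m Q L T x (((T ^ (m * Q - 1)) ^ k) y) := by
  induction k generalizing x y with
  | zero => rfl
  | succ k ih =>
    rw [pow_succ, Module.End.mul_apply, ih, h.bb_T, pow_succ', Module.End.mul_apply]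

theorem bb_smul [NeZero m] [NeZero Q] (h : LT m Q L T) (z : Lam m Q R) (x y : M) :
    letI := lamModule T h.psi
    bb m Q L T (z • x) y = bb m Q L T x (star z • y) := by
  let _ := lamModule T h.psi
  induction z using ind with
  | h f =>
    have e1 : star (aeval (gx m Q R) f) = aeval (gx m Q R) (f.comp (X ^ (m * Q - 1))) := by
      rw [aeval_comp, star_def, ← aeval_algHom_apply, conj_gx, map_pow, aeval_X]
    rw [e1]
    clear e1
    change bb m Q L T (lamHom T h.psi _ x) y = bb m Q L T x (lamHom T h.psi _ y)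
    rw [lamHom_aeval, lamHom_aeval, aeval_comp, map_pow, aeval_X]
    induction f using Polynomial.induction_on' with
    | add p q hp hq =>
      simp only [map_add, LinearMap.add_apply] at hp hq ⊢
      rw [hp, hq]
    | monomial k r =>
      rw [aeval_monomial, aeval_monomial]
      simp only [Module.End.mul_apply, Module.algebraMap_end_apply, map_smul, LinearMap.smul_apply]
      rw [h.bb_T_pow]

theorem pow_surj [NeZero m] [NeZero Q] (h : LT m Q L T) (k : ℕ) (y : M) :
    (T ^ k) ((T ^ (k * (m * Q - 1))) y) = y := by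
  have h0 := mQ_pos m Q
  have e : k + k * (m * Q - 1) = (m * Q) * k := by
    obtain ⟨n, hn⟩ : ∃ n, m * Q = n + 1 := ⟨m * Q - 1, by omega⟩
    rw [hn, Nat.add_sub_cancel]; ring
  rw [← Module.End.mul_apply, ← pow_add, e, pow_mul, h.pow_n, one_pow]; rfl

theorem pow_surj' [NeZero m] [NeZero Q] (h : LT m Q L T) (k : ℕ) (y : M) :
    (T ^ (k * (m * Q - 1))) ((T ^ k) y) = y := by
  rw [← Module.End.mul_apply, ← pow_add, add_comm, pow_add, Module.End.mul_apply, h.pow_surj]

theorem bb_bij [NeZero m] [NeZero Q] (h : LT m Q L T) : Function.Bijective (bb m Q L T) := by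
  constructor
  · intro x x' hxx
    apply h.bij.1
    ext y
    have h1 := congrArg (fun f => f ((T ^ ((m * Q + 1) / 2 * (m * Q - 1))) y)) hxx
    simp only [bb_apply, h.pow_surj] at h1
    exact h1
  · intro φ
    obtain ⟨x, hx⟩ := h.bij.2 (φ.comp (T ^ ((m * Q + 1) / 2 * (m * Q - 1))))
    refine ⟨x, ?_⟩
    ext y
    rw [bb_apply, hx, LinearMap.comp_apply, h.pow_surj']

end LT

/-- `Q` is odd and not a prime power. -/
structure GoodQ (Q : ℕ) : Prop where
  two : 2 < Q
  npp : ∀ {p : ℕ}, p.Prime → ∀ k : ℕ, p ^ k ≠ Q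
  odd : Odd Q

namespace LT

variable {m Q : ℕ} {R M M' : Type} [CommRing R] [AddCommGroup M] [Module R M]
  [AddCommGroup M'] [Module R M'] [Nontrivial R] [NeZero m] [NeZero Q]
  {L : M →ₗ[R] M →ₗ[R] R} {T : Module.End R M} {L' : M' →ₗ[R] M' →ₗ[R] R} {T' : Module.End R M'}

/-- the hermitian form of a Seifert form. -/
noncomputable def hform (h : LT m Q L T) (hQ : GoodQ Q) (hm : Odd m) :
    @HForm (Lam m Q R) M _ _ _ (lamModule T h.psi) :=
  letI := lamModule T h.psi
  haveI := isScalarTower' T h.psi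
  toH (lam_perf hQ.two hQ.npp hQ.odd) (lam_star hQ.two) (bb m Q L T) (h.bb_symm (hm.mul hQ.odd))
    h.bb_smul

theorem hform_unimodular (h : LT m Q L T) (hQ : GoodQ Q) (hm : Odd m) :
    letI := lamModule T h.psi
    (h.hform hQ hm).Unimodular := by
  let _ := lamModule T h.psi
  have := isScalarTower' T h.psi
  exact toH_unimodular _ _ _ _ _ h.bb_bij

theorem lam_hform (h : LT m Q L T) (hQ : GoodQ Q) (hm : Odd m) (x y : M) :
    letI := lamModule T h.psi
    lam m Q R ((h.hform hQ hm).h x y) = bb m Q L T x y := by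
  let _ := lamModule T h.psi
  have := isScalarTower' T h.psi
  exact lam_hh (lam_perf hQ.two hQ.npp hQ.odd) (bb m Q L T) x y

theorem gx_pow_smul (h : LT m Q L T) (k : ℕ) (x : M) :
    letI := lamModule T h.psi
    gx m Q R ^ k • x = (T ^ k) x := by
  have h1 : lamHom T h.psi (aeval (gx m Q R) (X ^ k : R[X])) x = aeval T (X ^ k : R[X]) x := by
    rw [lamHom_aeval]
  have e1 : aeval (gx m Q R) (X ^ k : R[X]) = gx m Q R ^ k := by simp
  have e2 : aeval T (X ^ k : R[X]) = T ^ k := by simp
  rw [e1, e2] at h1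
  exact h1

/-- an isometry of the hermitian forms is an isometry of the Seifert forms. -/
theorem of_isom (h : LT m Q L T) (h' : LT m Q L' T') (hQ : GoodQ Q) (hm : Odd m)
    (e : @HForm.Isom (Lam m Q R) M M' _ _ _ (lamModule T h.psi) _ (lamModule T' h'.psi)
      (h.hform hQ hm) (h'.hform hQ hm)) :
    ∃ g : M ≃ₗ[R] M', ∀ x y, L' (g x) (g y) = L x y := by
  let _ := lamModule T h.psi
  let _ := lamModule T' h'.psi
  have := isScalarTower' T h.psi
  have := isScalarTower' T' h'.psi
  obtain ⟨g, hg⟩ := e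
  refine ⟨g.restrictScalars R, fun x y => ?_⟩
  have ho := hm.mul hQ.odd
  have h1 : ∀ x y, bb m Q L' T' (g x) (g y) = bb m Q L T x y := by
    intro x y
    rw [← h.lam_hform hQ hm, ← h'.lam_hform hQ hm, hg]
  change L' (g x) (g y) = L x y
  rw [h.L_apply ho, h'.L_apply ho, ← h1]
  congr 1
  rw [← h.gx_pow_smul, map_smul, ← h'.gx_pow_smul]

/-- an isometry of the Seifert forms is an isometry of the hermitian forms. -/
theorem to_isom (h : LT m Q L T) (h' : LT m Q L' T') (hQ : GoodQ Q) (hm : Odd m)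
    (g : M ≃ₗ[R] M') (hg : ∀ x y, L' (g x) (g y) = L x y) :
    letI := lamModule T h.psi
    letI := lamModule T' h'.psi
    ∃ g' : M ≃ₗ[Lam m Q R] M', (∀ x, g' x = g x) ∧
      ∀ x y, (h'.hform hQ hm).h (g' x) (g' y) = (h.hform hQ hm).h x y := by
  let _ := lamModule T h.psi
  let _ := lamModule T' h'.psi
  have := isScalarTower' T h.psi
  have := isScalarTower' T' h'.psi
  have hT : ∀ x, g (T x) = T' (g x) := h.comm h' g hg
  have hTk : ∀ (k : ℕ) x, g ((T ^ k) x) = (T' ^ k) (g x) := by
    intro k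
    induction k with
    | zero => intro x; rfl
    | succ k ih => intro x; rw [pow_succ', pow_succ', Module.End.mul_apply, Module.End.mul_apply, hT, ih]
  have hz : ∀ (z : Lam m Q R) x, g (z • x) = z • g x := by
    intro z x
    induction z using ind with
    | h f =>
      change g (lamHom T h.psi _ x) = lamHom T' h'.psi _ (g x)
      rw [lamHom_aeval, lamHom_aeval]
      induction f using Polynomial.induction_on' with
      | add p q hp hq => simp only [map_add, LinearMap.add_apply]; rw [hp, hq]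
      | monomial k r =>
        rw [aeval_monomial, aeval_monomial]
        simp only [Module.End.mul_apply, Module.algebraMap_end_apply, map_smul]
        rw [hTk]
  refine ⟨{ g with map_smul' := hz }, fun x => rfl, fun x y => ?_⟩
  change hh (lam_perf hQ.two hQ.npp hQ.odd) (bb m Q L' T') (g x) (g y) =
    hh (lam_perf hQ.two hQ.npp hQ.odd) (bb m Q L T) x y
  apply hh_eq
  intro w
  rw [hh_spec, ← hz, bb_apply, bb_apply, ← hTk, hg]

end LT

/-! ### matrices -/

/-- unimodular matrix with monodromy `T` annihilated by `Psi`. -/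
structure MatLT (m Q : ℕ) {R ι : Type} [CommRing R] [Fintype ι] [DecidableEq ι]
    (A T : Matrix ι ι R) : Prop where
  det : IsUnit A.det
  mono : A * T = Aᵀ
  psi : aeval T (Psi m Q R) = 0

namespace MatLT

variable {m Q : ℕ} {R ι κ : Type} [CommRing R] [Fintype ι] [DecidableEq ι] [Fintype κ]
  [DecidableEq κ]

theorem map {S : Type} [CommRing S] {A T : Matrix ι ι R} (h : MatLT m Q A T) (f : R →+* S) :
    MatLT m Q (A.map f) (T.map f) := by
  refine ⟨?_, ?_, ?_⟩
  · have := h.det.map f
    rwa [RingHom.map_det] at this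
  · rw [← Matrix.map_mul, h.mono, Matrix.transpose_map]
  · have h1 := congrArg f.mapMatrix h.psi
    rw [map_zero] at h1
    have h2 : f.mapMatrix (aeval T (Psi m Q R)) = aeval (f.mapMatrix T) (Psi m Q S) := by
      rw [← Psi_map m Q R f, aeval_def, aeval_def, hom_eval₂, eval₂_map]
      congr 1
      ext r i j
      simp [Matrix.algebraMap_matrix_apply, apply_ite f]
    rw [h2] at h1
    exact h1

/-- the Seifert form of a matrix. -/
noncomputable def form (A : Matrix ι ι R) : (ι → R) →ₗ[R] (ι → R) →ₗ[R] R :=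
  Matrix.toLinearMap₂' R A

theorem form_apply (A : Matrix ι ι R) (x y : ι → R) : form A x y = x ⬝ᵥ (A *ᵥ y) :=
  Matrix.toLinearMap₂'_apply' _ _ _

theorem toLT {A T : Matrix ι ι R} (h : MatLT m Q A T) : LT m Q (form A) (Matrix.toLin' T) := by
  refine ⟨?_, ?_, ?_⟩
  · constructor
    · intro x x' hxx
      have h1 : ∀ y, x ⬝ᵥ (A *ᵥ y) = x' ⬝ᵥ (A *ᵥ y) := fun y => by
        rw [← form_apply, ← form_apply, hxx]
      have h2 : ∀ z, x ⬝ᵥ z = x' ⬝ᵥ z := by
        intro z
        have := h1 (A⁻¹ *ᵥ z)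
        rwa [Matrix.mulVec_mulVec, Matrix.mul_nonsing_inv _ h.det, Matrix.one_mulVec] at this
      exact dotProduct_eq _ _ h2
    · intro φ
      refine ⟨(fun i => φ (Pi.single i 1)) ᵥ* A⁻¹, ?_⟩
      apply LinearMap.pi_ext'
      intro i
      ext
      simp only [LinearMap.comp_apply, LinearMap.single_apply]
      rw [form_apply, ← Matrix.dotProduct_mulVec, Matrix.mulVec_mulVec,
        Matrix.nonsing_inv_mul _ h.det, Matrix.one_mulVec]
      simp
  · intro x y
    rw [form_apply, form_apply, Matrix.toLin'_apply, Matrix.mulVec_mulVec, h.mono,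
      Matrix.mulVec_transpose, dotProduct_comm, Matrix.dotProduct_mulVec]
  · have h1 : aeval (Matrix.toLin' T) (Psi m Q R) = Matrix.toLinAlgEquiv' (aeval T (Psi m Q R)) := by
      rw [← aeval_algHom_apply (Matrix.toLinAlgEquiv' (R := R) (n := ι))]
      rfl
    rw [h1, h.psi, map_zero]

theorem cong_of_isometry {A : Matrix ι ι R} {B : Matrix κ κ R} (g : (ι → R) ≃ₗ[R] (κ → R))
    (hg : ∀ x y, form B (g x) (g y) = form A x y) : Cong R B A := by
  refine ⟨LinearMap.toMatrix' (g : (ι → R) →ₗ[R] (κ → R)),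
    LinearMap.toMatrix' (g.symm : (κ → R) →ₗ[R] (ι → R)), ?_, ?_, ?_⟩
  · rw [← LinearMap.toMatrix'_comp]; simp
  · rw [← LinearMap.toMatrix'_comp]; simp
  · have hP : ∀ x, LinearMap.toMatrix' (g : (ι → R) →ₗ[R] (κ → R)) *ᵥ x = g x := by
      intro x; rw [← Matrix.toLin'_apply, Matrix.toLin'_toMatrix']; rfl
    have h1 : ∀ x y : ι → R, x ⬝ᵥ
        (((LinearMap.toMatrix' (g : (ι → R) →ₗ[R] (κ → R)))ᵀ * B *
          LinearMap.toMatrix' (g : (ι → R) →ₗ[R] (κ → R))) *ᵥ y) = x ⬝ᵥ (A *ᵥ y) := by
      intro x y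
      have h2 := hg x y
      rw [form_apply, form_apply] at h2
      rw [← h2, ← Matrix.mulVec_mulVec, ← Matrix.mulVec_mulVec, hP, Matrix.mulVec_transpose,
        dotProduct_comm, ← Matrix.dotProduct_mulVec, hP, dotProduct_comm]
    ext i j
    have h3 := h1 (Pi.single i 1) (Pi.single j 1)
    simpa using h3

theorem isometry_of_cong {A : Matrix ι ι R} {B : Matrix κ κ R} (h : Cong R B A) :
    ∃ g : (ι → R) ≃ₗ[R] (κ → R), ∀ x y, form B (g x) (g y) = form A x y := by
  obtain ⟨P, Q, hPQ, hQP, hc⟩ := h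
  refine ⟨LinearEquiv.ofLinearMap (Matrix.toLin' P) (Matrix.toLin' Q) ?_ ?_, fun x y => ?_⟩
  · rw [← Matrix.toLin'_mul, hPQ, Matrix.toLin'_one]
  · rw [← Matrix.toLin'_mul, hQP, Matrix.toLin'_one]
  · rw [LinearEquiv.coe_ofLinearMap, form_apply, form_apply, ← hc,
      Matrix.toLin'_apply, Matrix.toLin'_apply, ← Matrix.mulVec_mulVec, ← Matrix.mulVec_mulVec,
      Matrix.mulVec_transpose, dotProduct_comm x, ← Matrix.dotProduct_mulVec,
      dotProduct_comm]

/-- FINAL STEP of `LOCSQ`: isometric hermitian forms give congruent matrices. -/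
theorem cong_of_isom [Nontrivial R] [NeZero m] [NeZero Q] {A T : Matrix ι ι R}
    {B S : Matrix κ κ R} (hA : MatLT m Q A T) (hB : MatLT m Q B S) (hQ : GoodQ Q) (hm : Odd m)
    (e : @HForm.Isom (Lam m Q R) (ι → R) (κ → R) _ _ _ (lamModule (Matrix.toLin' T) hA.toLT.psi) _
      (lamModule (Matrix.toLin' S) hB.toLT.psi)
      (hA.toLT.hform hQ hm) (hB.toLT.hform hQ hm)) : Cong R B A := by
  obtain ⟨g, hg⟩ := hA.toLT.of_isom hB.toLT hQ hm e
  exact cong_of_isometry g hg

end MatLT

end Crest.Agent.R267.P4Brg_780
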