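import Crest.Agent.R267.P411d_61
import Crest.Agent.R267.P4Fun_780
import Crest.Agent.R267.P4Brg_780

/-!
# S0407, package P4, node P4.11: hyperbolic pair for the functional `lam` of P4Fun_780 (helper61)
-/

set_option autoImplicit false

namespace Crest.Agent.R267.P411f_61

open Matrix Polynomial Crest.Agent.R267.P4Defs_780 Crest.Agent.R267.P4Lam_780
open Crest.Agent.R267.P4Fun_780 Crest.Agent.R267.P4Brg_780
open Crest.Agent.R267.P411_61 Crest.Agent.R267.P411c_61 Crest.Agent.R267.P411d_61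

/-- `ℤ/m`-grading: `tau` only sees the degree `-1`. -/
theorem tau_gx_pow {m Q j : ℕ} [NeZero m] [NeZero Q] (hj : j % m ≠ m - 1) :
    tau m Q ℤ (gx m Q ℤ ^ j) = 0 := by
  have hm : 0 < m := NeZero.pos m
  have hφ : 0 < Q.totient := Nat.totient_pos.2 (NeZero.pos Q)
  have hlt : j % m < m := Nat.mod_lt _ hm
  set f : ℤ[X] := (X ^ (j / m) : ℤ[X]) %ₘ cyclotomic Q ℤ with hf
  have hfd : f.natDegree < Q.totient := by
    by_cases h0 : f = 0
    · rw [h0, natDegree_zero]; exact hφ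
    · have h1 : f.degree < (cyclotomic Q ℤ).degree :=
        degree_modByMonic_lt _ (cyclotomic.monic Q ℤ)
      have h2 := natDegree_lt_natDegree h0 h1
      rwa [natDegree_cyclotomic] at h2
  have h1 : gx m Q ℤ ^ j = aeval (gx m Q ℤ) (expand ℤ m f * X ^ (j % m)) := by
    have h2 := modByMonic_add_div (X ^ (j / m) : ℤ[X]) (cyclotomic Q ℤ)
    have h3 := congrArg (fun P => aeval (gx m Q ℤ) (expand ℤ m P)) h2
    simp only [map_add, map_mul, map_pow, expand_X, aeval_X] at h3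
    have h4 : aeval (gx m Q ℤ) (expand ℤ m (cyclotomic Q ℤ)) = 0 := aeval_gx
    rw [h4, zero_mul, add_zero] at h3
    rw [map_mul, h3, map_pow, aeval_X, ← pow_mul, ← pow_add, Nat.div_add_mod]
  have hD : (Psi m Q ℤ).natDegree = Q.totient * m := Psi_natDegree m Q ℤ
  have hdeg : (expand ℤ m f * X ^ (j % m)).natDegree < (Psi m Q ℤ).natDegree := by
    refine lt_of_le_of_lt natDegree_mul_le ?_
    rw [natDegree_expand, natDegree_X_pow, hD]
    have : f.natDegree * m ≤ (Q.totient - 1) * m := Nat.mul_le_mul_right _ (by omega)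
    have h5 : (Q.totient - 1) * m + m = Q.totient * m := by
      rw [Nat.sub_mul, one_mul]
      exact Nat.sub_add_cancel (Nat.le_mul_of_pos_left _ hφ)
    omega
  rw [h1, tau_aeval hdeg, hD, coeff_mul_X_pow', coeff_expand hm]
  split_ifs with h6 h7
  · exfalso
    apply hj
    have h8 : m ∣ Q.totient * m := dvd_mul_left _ _
    have h9 : 1 ≤ Q.totient * m := Nat.mul_pos hφ hm
    have h10 : Q.totient * m = (Q.totient * m - 1 - j % m) + (1 + j % m) := by omega
    rw [h10] at h8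
    have h11 := (Nat.dvd_add_iff_right h7).2 h8
    have h12 : m ≤ 1 + j % m := Nat.le_of_dvd (by omega) h11
    omega
  · rfl
  · rfl

/-- (a) -/
theorem lam_gx_pow {m Q k : ℕ} [NeZero m] [NeZero Q] (hQ : GoodQ Q) (hk : ¬ m ∣ k) :
    lam m Q ℤ (gx m Q ℤ ^ k) = 0 := by
  have hm : 0 < m := NeZero.pos m
  have hφ : 0 < Q.totient := Nat.totient_pos.2 (NeZero.pos Q)
  have hD : (Psi m Q ℤ).natDegree = Q.totient * m := Psi_natDegree m Q ℤ
  obtain ⟨t, ht⟩ := Nat.totient_even hQ.two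
  have ht0 : 0 < t := by omega
  have hD2 : (Psi m Q ℤ).natDegree / 2 - 1 = t * m - 1 := by
    rw [hD, ht, show (t + t) * m = 2 * (t * m) by ring, Nat.mul_div_cancel_left _ (by norm_num)]
  have htm : 1 ≤ t * m := Nat.mul_pos ht0 hm
  have hstar : star (gx m Q ℤ ^ m) = gx m Q ℤ ^ (m * (m * Q - 1)) := by
    rw [star_pow, star_def, conj_gx, ← pow_mul, mul_comm]
  have key : ∀ a : ℕ, (t * m - 1 + a * m + k) % m ≠ m - 1 := by
    intro a h
    apply hk
    have h1 : m ∣ t * m - 1 + a * m + k + 1 := by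
      rw [Nat.dvd_iff_mod_eq_zero, Nat.add_mod, h]
      rcases Nat.lt_or_ge 1 m with h2 | h2
      · rw [Nat.mod_eq_of_lt h2, Nat.sub_add_cancel hm, Nat.mod_self]
      · have : m = 1 := by omega
        subst this
        simp
    have h2 : t * m - 1 + a * m + k + 1 = (t + a) * m + k := by
      rw [add_mul]; omega
    rw [h2] at h1
    exact (Nat.dvd_add_iff_right (dvd_mul_left _ _)).2 h1
  have e1 : gx m Q ℤ ^ (t * m - 1) * (gx m Q ℤ ^ m - star (gx m Q ℤ ^ m)) * gx m Q ℤ ^ k =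
      gx m Q ℤ ^ (t * m - 1 + 1 * m + k) - gx m Q ℤ ^ (t * m - 1 + (m * Q - 1) * m + k) := by
    rw [hstar, mul_sub, sub_mul, ← pow_add, ← pow_add, ← pow_add, ← pow_add, one_mul,
      mul_comm m (m * Q - 1)]
  show tau m Q ℤ (gx m Q ℤ ^ ((Psi m Q ℤ).natDegree / 2 - 1) *
    (gx m Q ℤ ^ m - star (gx m Q ℤ ^ m)) * gx m Q ℤ ^ k) = 0
  rw [hD2, e1, map_sub, tau_gx_pow (key _), tau_gx_pow (key _), sub_zero]

/-- (b) -/
theorem goodQ {u : ℕ} {q : List ℕ} (hA : Aux u q) : GoodQ q.prod := by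
  obtain ⟨x, y, q', rfl⟩ : ∃ x y q', q = x :: y :: q' := by
    have := hA.length
    match q, this with
    | x :: y :: q', _ => exact ⟨x, y, q', rfl⟩
  have hx := hA.prime x (by simp)
  have hy := hA.prime y (by simp)
  have hxy : x ≠ y := by
    have := hA.nodup
    simp only [List.nodup_cons, List.mem_cons, not_or] at this
    exact this.1.1
  have hpos : 0 < (x :: y :: q').prod := by
    apply List.prod_pos
    intro a ha
    exact (hA.prime a ha).pos
  have hxd : x ∣ (x :: y :: q').prod := List.dvd_prod (by simp)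
  have hyd : y ∣ (x :: y :: q').prod := List.dvd_prod (by simp)
  refine ⟨?_, ?_, ?_⟩
  · have h1 := Nat.le_of_dvd hpos hxd
    have h2 := (hA.big x (by simp)).1
    omega
  · intro p hp k hk
    have h1 : x ∣ p ^ k := hk ▸ hxd
    have h2 : y ∣ p ^ k := hk ▸ hyd
    have h3 := (Nat.prime_dvd_prime_iff_eq hx hp).1 (hx.dvd_of_dvd_pow h1)
    have h4 := (Nat.prime_dvd_prime_iff_eq hy hp).1 (hy.dvd_of_dvd_pow h2)
    exact hxy (h3.trans h4.symm)
  · have h1 : ∀ l : List ℕ, (∀ a ∈ l, a.Prime ∧ 3 < a) → Odd l.prod := by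
      intro l
      induction l with
      | nil => intro _; simp
      | cons a l ih =>
        intro h
        rw [List.prod_cons]
        exact ((h a (by simp)).1.odd_of_ne_two (by have := (h a (by simp)).2; omega)).mul
          (ih fun b hb => h b (by simp [hb]))
    exact h1 _ fun a ha => ⟨hA.prime a ha, (hA.big a ha).1⟩

section Family

variable {L : List (ℕ × ℕ × ℤ)} {u : ℕ} {q : List ℕ}

/-- (c) the hyperbolic pair: `b(e, T^k e) = 0`, `b(e, T^k f) = lam (gx ^ k)`. -/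
theorem hyp_lam780 (hC : Cert L u) (hA : Aux u q) [NeZero (3 * u)] [NeZero q.prod] (s j : ℕ) :
    ∃ e f : Idx (F L u q s j) → ℤ, ∀ k : ℕ,
      e ⬝ᵥ ((sysMat (F L u q s j) *
        Tsys (F L u q s j) ^ ((3 * u * q.prod + 1) / 2 + k)) *ᵥ e) = 0 ∧
      e ⬝ᵥ ((sysMat (F L u q s j) *
        Tsys (F L u q s j) ^ ((3 * u * q.prod + 1) / 2 + k)) *ᵥ f) =
        lam (3 * u) q.prod ℤ (gx (3 * u) q.prod ℤ ^ k) := by
  have h := hyp_lam hC hA s j ((lam (3 * u) q.prod ℤ).toAddMonoidHom)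
    (fun k hk => lam_gx_pow (goodQ hA) hk)
  exact h

end Family

end Crest.Agent.R267.P411f_61
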