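import Mathlib
import Crest.Agent.R267.P4Defs_780
import Crest.Agent.R267.P4Lam_780

/-!
# S0407, package P4: the Prop `MONO` (helper780): monodromy of the systems `F`
-/

set_option autoImplicit false

namespace Crest.Agent.R267.P4Mono_780

open Polynomial Matrix Crest.Agent.R267.P4Defs_780 Crest.Agent.R267.P4Lam_780

/-- P4.14. The Seifert matrix `A` of `F_{s,j}` is unimodular and `T = A⁻¹ Aᵀ` satisfies
`T ^ (3 u Q) = 1` and `Φ_Q(T ^ (3 u)) = 0`, `Q = q₁ ⋯ q₈`. -/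
def MONO : Prop :=
  ∀ (L : List (ℕ × ℕ × ℤ)) (u : ℕ) (q : List ℕ), Cert L u → Aux u q → ∀ s j : ℕ,
    IsUnit (sysMat (F L u q s j)).det ∧
    ∃ T : Matrix (Idx (F L u q s j)) (Idx (F L u q s j)) ℤ,
      sysMat (F L u q s j) * T = (sysMat (F L u q s j))ᵀ ∧
      T ^ (3 * u * q.prod) = 1 ∧ aeval T (Psi (3 * u) q.prod ℤ) = 0

end Crest.Agent.R267.P4Mono_780
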