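import Crest.Agent.R267.P411_61
import Crest.Agent.R267.P4Mono_780

/-!
# S0407, package P4, node P4.14 (helper111): the Prop `MONO`

`A = sysMat (F L u q s j)` is unimodular, its monodromy `T` satisfies `T ^ (3 u Q) = 1` and
`Φ_Q(T ^ (3 u)) = 0`.
-/

set_option autoImplicit false

namespace Crest.Agent.R267.P414_111

open Polynomial Matrix Crest.Agent.R267.P4Defs_780 Crest.Agent.R267.P4Lam_780
  Crest.Agent.R267.P41_339 Crest.Agent.R267.P411_61

/-! ### product of commuting roots of cyclotomic polynomials -/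

/-- in a commutative ring, `p` is a multiple of `Φ_a(s t)` if `Φ_a(s) = 0`, `Φ_p(t) = 0`. -/
theorem dvd_of_roots {C : Type*} [CommRing C] {a p : ℕ} (hp : p.Prime) (hpa : p.Coprime a)
    {s t : C} (hs : aeval s (cyclotomic a ℤ) = 0) (ht : aeval t (cyclotomic p ℤ) = 0) :
    aeval (s * t) (cyclotomic a ℤ) ∣ (p : C) := by
  rw [← Ideal.mem_span_singleton, ← Ideal.Quotient.eq_zero_iff_mem]
  set I := Ideal.span {aeval (s * t) (cyclotomic a ℤ)} with hI
  let f : C →ₐ[ℤ] C ⧸ I := Ideal.Quotient.mkₐ ℤ I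
  have h1 : aeval (f s * f t) (cyclotomic a ℤ) = 0 := by
    rw [← map_mul, aeval_algHom_apply]
    exact Ideal.Quotient.eq_zero_iff_mem.2 (Ideal.mem_span_singleton_self _)
  have h2 : aeval (f s) (cyclotomic a ℤ) = 0 := by
    rw [aeval_algHom_apply, hs, map_zero]
  have h3 : aeval (f t) (cyclotomic p ℤ) = 0 := by
    rw [aeval_algHom_apply, ht, map_zero]
  have e1 := pow_eq_one_of_cyclotomic h1
  have e2 := pow_eq_one_of_cyclotomic h2
  have e3 := pow_eq_one_of_cyclotomic h3
  rw [mul_pow, e2, one_mul] at e1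
  have e4 : f t = 1 := by
    have h4 : orderOf (f t) ∣ Nat.gcd p a :=
      Nat.dvd_gcd (orderOf_dvd_of_pow_eq_one e3) (orderOf_dvd_of_pow_eq_one e1)
    rw [hpa] at h4
    exact orderOf_eq_one_iff.1 (Nat.dvd_one.1 h4)
  rw [e4] at h3
  have h5 : aeval (1 : C ⧸ I) (cyclotomic p ℤ) = (p : C ⧸ I) := by
    have := Fact.mk hp
    rw [← map_one (algebraMap ℤ (C ⧸ I)), aeval_algebraMap_apply, coe_aeval_eq_eval,
      eval_one_cyclotomic_prime]
    simp
  rw [h5] at h3
  change f (p : C) = 0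
  rw [map_natCast]
  exact h3

theorem root_mul_comm {C : Type*} [CommRing C] {a p : ℕ} (hp : p.Prime) (hpa : p.Coprime a)
    (htf : ∀ x : C, (p : C) * x = 0 → x = 0)
    {s t : C} (hs : aeval s (cyclotomic a ℤ) = 0) (ht : aeval t (cyclotomic p ℤ) = 0) :
    aeval (s * t) (cyclotomic (a * p) ℤ) = 0 := by
  have hdiv : ¬ p ∣ a := (Nat.Prime.coprime_iff_not_dvd hp).1 hpa
  have h1 : aeval (s * t) (expand ℤ p (cyclotomic a ℤ)) = 0 := by
    rw [expand_aeval, mul_pow, pow_eq_one_of_cyclotomic ht, mul_one]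
    exact aeval_pow_cyclotomic hs hpa hp.pos
  rw [cyclotomic_expand_eq_cyclotomic_mul hp hdiv, map_mul] at h1
  obtain ⟨w, hw⟩ := dvd_of_roots hp hpa hs ht
  apply htf
  rw [hw, mul_assoc, mul_comm w, ← mul_assoc, mul_comm (aeval (s * t) (cyclotomic a ℤ)), h1,
    zero_mul]

theorem root_mul {M : Type*} [Ring M] {a p : ℕ} (hp : p.Prime) (hpa : p.Coprime a)
    (htf : ∀ x : M, (p : M) * x = 0 → x = 0)
    {s t : M} (hc : s * t = t * s)
    (hs : aeval s (cyclotomic a ℤ) = 0) (ht : aeval t (cyclotomic p ℤ) = 0) :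
    aeval (s * t) (cyclotomic (a * p) ℤ) = 0 := by
  have hcomm : ∀ x ∈ ({s, t} : Set M), ∀ y ∈ ({s, t} : Set M), x * y = y * x := by
    rintro x (rfl | rfl) y (rfl | rfl)
    · rfl
    · exact hc
    · exact hc.symm
    · rfl
  letI : CommRing (Algebra.adjoin ℤ ({s, t} : Set M)) := Algebra.adjoinCommRingOfComm ℤ hcomm
  let s' : Algebra.adjoin ℤ ({s, t} : Set M) := ⟨s, Algebra.subset_adjoin (by simp)⟩
  let t' : Algebra.adjoin ℤ ({s, t} : Set M) := ⟨t, Algebra.subset_adjoin (by simp)⟩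
  let v : Algebra.adjoin ℤ ({s, t} : Set M) →ₐ[ℤ] M := (Algebra.adjoin ℤ ({s, t} : Set M)).val
  have hinj : Function.Injective v := Subtype.val_injective
  have hs' : aeval s' (cyclotomic a ℤ) = 0 := by
    apply hinj
    rw [map_zero, ← aeval_algHom_apply]
    exact hs
  have ht' : aeval t' (cyclotomic p ℤ) = 0 := by
    apply hinj
    rw [map_zero, ← aeval_algHom_apply]
    exact ht
  have h := root_mul_comm hp hpa (C := Algebra.adjoin ℤ ({s, t} : Set M)) (fun x hx => by
    apply hinj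
    rw [map_zero]
    apply htf
    have := congrArg v hx
    rw [map_mul, map_natCast, map_zero] at this
    exact this) hs' ht'
  have h2 := congrArg v h
  rw [← aeval_algHom_apply, map_zero] at h2
  exact h2

/-! ### Kronecker products -/

section Kron

variable {m n : Type} [Fintype m] [Fintype n] [DecidableEq m] [DecidableEq n]

/-- `B ↦ 1 ⊗ B`. -/
noncomputable def kl (m : Type) {n : Type} [Fintype m] [Fintype n] [DecidableEq m]
    [DecidableEq n] : Matrix n n ℤ →ₐ[ℤ] Matrix (m × n) (m × n) ℤ :=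
  RingHom.toIntAlgHom
    { toFun := fun B => Matrix.kroneckerMap (· * ·) (1 : Matrix m m ℤ) B
      map_one' := Matrix.one_kronecker_one (α := ℤ)
      map_mul' := fun B B' => by
        have := Matrix.mul_kronecker_mul (1 : Matrix m m ℤ) (1 : Matrix m m ℤ) B B'
        rw [Matrix.mul_one] at this
        exact this
      map_zero' := Matrix.kronecker_zero _
      map_add' := fun B B' => Matrix.kronecker_add _ _ _ }

/-- `A ↦ A ⊗ 1`. -/
noncomputable def kr {m : Type} (n : Type) [Fintype m] [Fintype n] [DecidableEq m]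
    [DecidableEq n] : Matrix m m ℤ →ₐ[ℤ] Matrix (m × n) (m × n) ℤ :=
  RingHom.toIntAlgHom
    { toFun := fun A => Matrix.kroneckerMap (· * ·) A (1 : Matrix n n ℤ)
      map_one' := Matrix.one_kronecker_one (α := ℤ)
      map_mul' := fun A A' => by
        have := Matrix.mul_kronecker_mul A A' (1 : Matrix n n ℤ) (1 : Matrix n n ℤ)
        rw [Matrix.mul_one] at this
        exact this
      map_zero' := Matrix.zero_kronecker _
      map_add' := fun A A' => Matrix.add_kronecker _ _ _ }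

theorem kl_apply (B : Matrix n n ℤ) :
    kl m B = Matrix.kroneckerMap (· * ·) (1 : Matrix m m ℤ) B := rfl

theorem kr_apply (A : Matrix m m ℤ) :
    kr n A = Matrix.kroneckerMap (· * ·) A (1 : Matrix n n ℤ) := rfl

theorem kl_mul_kr (A : Matrix m m ℤ) (B : Matrix n n ℤ) :
    kl m B * kr n A = Matrix.kroneckerMap (· * ·) A B := by
  have := Matrix.mul_kronecker_mul (1 : Matrix m m ℤ) A B (1 : Matrix n n ℤ)
  rw [Matrix.mul_one, Matrix.one_mul] at this
  exact this.symm

theorem kr_mul_kl (A : Matrix m m ℤ) (B : Matrix n n ℤ) :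
    kr n A * kl m B = Matrix.kroneckerMap (· * ·) A B := by
  have := Matrix.mul_kronecker_mul A (1 : Matrix m m ℤ) (1 : Matrix n n ℤ) B
  rw [Matrix.mul_one, Matrix.one_mul] at this
  exact this.symm

theorem aeval_kron_one {f : ℤ[X]} {B : Matrix n n ℤ} (h : aeval B f = 0) :
    aeval (Matrix.kroneckerMap (· * ·) (1 : Matrix m m ℤ) B) f = 0 := by
  rw [← kl_apply, aeval_algHom_apply, h, map_zero]

theorem matrix_torsionFree {p : ℕ} (hp : p ≠ 0) (x : Matrix n n ℤ)
    (h : (p : Matrix n n ℤ) * x = 0) : x = 0 := by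
  rw [← nsmul_eq_mul] at h
  ext i j
  have := congrFun (congrFun h i) j
  simpa [hp] using this

theorem aeval_kron_root {a p : ℕ} (hp : p.Prime) (hpa : p.Coprime a) {A : Matrix m m ℤ}
    {B : Matrix n n ℤ} (hA : aeval A (cyclotomic p ℤ) = 0) (hB : aeval B (cyclotomic a ℤ) = 0) :
    aeval (Matrix.kroneckerMap (· * ·) A B) (cyclotomic (a * p) ℤ) = 0 := by
  rw [← kl_mul_kr]
  apply root_mul hp hpa (fun x hx => matrix_torsionFree hp.ne_zero x hx)
  · rw [kl_mul_kr, kr_mul_kl]
  · rw [aeval_algHom_apply, hB, map_zero]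
  · rw [aeval_algHom_apply, hA, map_zero]

end Kron

/-! ### the power `T ^ m` up to sign -/

/-- `T ^ m` with the sign `(-1) ^ (m * nvar)`. -/
noncomputable def U (m : ℕ) (S : List (List ℕ)) : Matrix (Idx S) (Idx S) ℤ :=
  (((-1 : ℤ) ^ m) ^ nvar S) • Tsys S ^ m

theorem U_cons (m : ℕ) (c : List ℕ) (S : List (List ℕ)) :
    U m (c :: S) = Matrix.kroneckerMap (· * ·) ((((-1 : ℤ) ^ m) ^ c.length) • T1 c ^ m) (U m S) := by
  have hn : nvar (c :: S) = c.length + nvar S := by simp [nvar]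
  unfold U
  rw [Tsys_pow, hn, pow_add]
  refine Matrix.ext fun p p' => ?_
  show (((-1 : ℤ) ^ m) ^ c.length * ((-1 : ℤ) ^ m) ^ nvar S) *
    ((T1 c ^ m) p.1 p'.1 * (Tsys S ^ m) p.2 p'.2) =
    (((-1 : ℤ) ^ m) ^ c.length * (T1 c ^ m) p.1 p'.1) *
      (((-1 : ℤ) ^ m) ^ nvar S * (Tsys S ^ m) p.2 p'.2)
  ring

theorem eps_sq (m k : ℕ) : (((-1 : ℤ) ^ m) ^ k) * (((-1 : ℤ) ^ m) ^ k) = 1 := by
  rw [← mul_pow, ← mul_pow]; simp

theorem chain_OK {m : ℕ} {c : List ℕ} (h : OK m c) :
    (((-1 : ℤ) ^ m) ^ c.length) • T1 c ^ m = 1 := by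
  rw [T1_pow h, smul_smul, eps_sq, one_smul]

theorem chain_prime {m x : ℕ} (hx : x.Prime) (hm : m.Coprime x) (hm0 : 0 < m) :
    aeval ((((-1 : ℤ) ^ m) ^ [x].length) • T1 [x] ^ m) (cyclotomic x ℤ) = 0 := by
  have h1 : (((-1 : ℤ) ^ m) ^ [x].length) • T1 [x] ^ m = compMat [x] ^ m := by
    have h0 : T1 [x] = (-1 : ℤ) • compMat [x] := by
      unfold T1
      have e1 : mu ([x] : List ℕ).tail = 1 := rfl
      have e2 : ([x] : List ℕ).length = 1 := rfl
      rw [e1, e2, pow_one, pow_one]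
    rw [h0, _root_.smul_pow, smul_smul, show ([x] : List ℕ).length = 1 from rfl, pow_one,
      ← mul_pow, show (-1 : ℤ) * -1 = 1 by norm_num, one_pow, one_smul]
  rw [h1]
  have hg : Crest.Agent.R267.P41_339.Good [x] := by
    intro a ha
    rw [List.mem_singleton] at ha
    rw [ha]
    exact hx.one_lt.le
  have h2 := comp_phi hg
  rw [phi_single hx.two_le] at h2
  have := Fact.mk hx
  rw [← cyclotomic_prime ℤ x] at h2
  exact aeval_pow_cyclotomic h2 hm hm0

theorem U_primes {m : ℕ} (hm0 : 0 < m) : ∀ q : List ℕ, q.Nodup → (∀ x ∈ q, x.Prime) →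
    (∀ x ∈ q, m.Coprime x) →
    aeval (U m (q.map (fun x => [x]))) (cyclotomic q.prod ℤ) = 0
  | [], _, _, _ => by
      have h : U m (List.map (fun x => [x]) []) = 1 := by
        show (((-1 : ℤ) ^ m) ^ 0) • (1 : Matrix (Idx []) (Idx []) ℤ) ^ m = 1
        rw [pow_zero, one_smul, one_pow]
      rw [h]
      simp
  | x :: q, hn, hp, hc => by
      rw [List.nodup_cons] at hn
      have ih := U_primes hm0 q hn.2 (fun y hy => hp y (List.mem_cons_of_mem _ hy))
        (fun y hy => hc y (List.mem_cons_of_mem _ hy))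
      have hx := hp x List.mem_cons_self
      have hcop : x.Coprime q.prod := by
        rw [Nat.Prime.coprime_iff_not_dvd hx]
        intro hd
        obtain ⟨y, hy, hxy⟩ := (Nat.Prime.prime hx).dvd_prod_iff.1 hd
        have := (Nat.prime_dvd_prime_iff_eq hx (hp y (List.mem_cons_of_mem _ hy))).1 hxy
        exact hn.1 (this ▸ hy)
      rw [List.map_cons, U_cons, List.prod_cons, mul_comm x]
      exact aeval_kron_root hx hcop
        (chain_prime hx (hc x List.mem_cons_self) hm0) ih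

theorem U_append {m : ℕ} {f : ℤ[X]} {S' : List (List ℕ)} (h : aeval (U m S') f = 0) :
    ∀ S : List (List ℕ), (∀ c ∈ S, OK m c) → aeval (U m (S ++ S')) f = 0
  | [], _ => h
  | c :: S, hS => by
      have ih := U_append h S (fun c hc => hS c (List.mem_cons_of_mem _ hc))
      rw [List.cons_append, U_cons, chain_OK (hS c List.mem_cons_self)]
      exact aeval_kron_one ih

/-! ### determinants -/

theorem sys_det : ∀ (S : List (List ℕ)), (∀ c ∈ S, c ≠ [] ∧ ∀ a ∈ c, 1 ≤ a) →
    (sysMat S).det = 1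
  | [], _ => by
      show (1 : Matrix (Idx []) (Idx []) ℤ).det = 1
      exact Matrix.det_one
  | c :: S, h => by
      obtain ⟨hc, hg⟩ := h c List.mem_cons_self
      obtain ⟨a, l, rfl⟩ : ∃ a l, c = a :: l := List.exists_cons_of_ne_nil hc
      have ih := sys_det S (fun c hc => h c (List.mem_cons_of_mem _ hc))
      have h1 := Matrix.det_kronecker (chainMat (a :: l)) (sysMat S)
      rw [chain_det hg, ih, one_pow, one_pow, one_mul] at h1
      exact h1

/-! ### the family -/

theorem mono : Crest.Agent.R267.P4Mono_780.MONO := by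
  intro L u q hC hA s j
  have hS : ∀ c ∈ F L u q s j, c ≠ [] ∧ ∀ a ∈ c, 1 ≤ a :=
    fun c hc => ⟨(ok_F hC hA s j c hc).ne, (ok_F hC hA s j c hc).one⟩
  refine ⟨by rw [sys_det _ hS]; exact isUnit_one, Tsys (F L u q s j), F_T hC hA s j,
    F_Tpow hC hA s j, ?_⟩
  have hu := hC.big
  have hm0 : 0 < 3 * u := by omega
  rw [Psi, expand_aeval]
  have h1 : U (3 * u) (F L u q s j) = Tsys (F L u q s j) ^ (3 * u) := by
    obtain ⟨t, ht⟩ := nvar_F (L := L) hA s j
    unfold U
    have h8 : (((-1 : ℤ) ^ (3 * u)) ^ (8 * t)) = 1 := by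
      rw [← pow_mul, show 3 * u * (8 * t) = 2 * (3 * u * (4 * t)) by ring, pow_mul]
      norm_num
    rw [ht, h8, one_smul]
  rw [← h1]
  have h2 : aeval (U (3 * u) (q.map (fun x => [x]))) (cyclotomic q.prod ℤ) = 0 := by
    apply U_primes hm0 q hA.nodup hA.prime
    intro x hx
    obtain ⟨h3, h4⟩ := hA.big x hx
    have hxp := hA.prime x hx
    apply Nat.Coprime.mul_left
    · exact (Nat.coprime_primes Nat.prime_three hxp).2 (by omega)
    · exact (Nat.coprime_primes hC.prime hxp).2 (Ne.symm h4)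
  have h3 := U_append h2 (rep 8 [[3]] ++ rep 8 [[u]] ++ rep (8 * (s - j)) (ZP L) ++
    rep (8 * j) (ZM L)) (by
      intro c hc
      simp only [List.mem_append] at hc
      rcases hc with ((h | h) | h) | h
      · have := Crest.Agent.R267.P411_61.mem_rep h
        rw [List.mem_singleton] at this
        subst this
        exact ok_single (by norm_num) ⟨u, by ring⟩
      · have := Crest.Agent.R267.P411_61.mem_rep h
        rw [List.mem_singleton] at this
        subst this
        exact ok_single (by omega) ⟨3, by ring⟩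
      · exact ok_ZP hC c (Crest.Agent.R267.P411_61.mem_rep h)
      · exact ok_ZM hC c (Crest.Agent.R267.P411_61.mem_rep h))
  exact h3

end Crest.Agent.R267.P414_111
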