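import Mathlib.Analysis.SpecialFunctions.Trigonometric.Basic
import Mathlib.Analysis.SpecialFunctions.Trigonometric.Complex
import Mathlib.Data.Int.GCD
import Mathlib.Tactic

/-!
# S0407, arithmetic certificate (helper8)

An explicit formal integer combination `L` of "weights" `a / b` in `(0, 1/2)`, `b = 24989` or
`b = 3 * 24989`, which is a combination of the distribution relations
`[w] = [3 w] + [1/3 - w] + [1/3 + w]` and satisfies

* (zeta) for each denominator `b`, `∏ ((b - a) / a) ^ z = 1`;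
* (sum)  `∑ z = 28 ≠ 0`;
* (cot)  for every odd `k` prime to `3 * 24989`, `∏ |tan (π k a / (2 b))| ^ z = 1`.

Found by integer relation search (LLL); the check of (zeta) is a kernel computation.
-/

set_option autoImplicit false
set_option maxRecDepth 100000

namespace Crest.Agent.R267.Cert_8

/-- the prime `u`. -/
def u : ℕ := 24989

/-- pairs `(v, n_v)` : the combination is `∑ n_v R_3(v/u)`. -/
def data : List (ℕ × ℤ) :=
  [(64, 5), (164, -3), (217, 5), (247, 1), (251, -10), (272, 1), (311, 5), (313, -5), (376, -1),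
   (389, -6), (425, 3), (495, 3), (502, -6), (512, -4), (522, -2), (532, -1), (557, 2), (575, 1),
   (592, 9), (593, -10), (609, 8), (622, -2), (649, 1), (717, 3), (774, 4), (778, -4), (804, -3),
   (833, 7), (851, 1), (929, 3), (977, -4), (985, 1), (1038, -8), (1154, -4), (1198, 2), (1226,
   -1), (1249, -6), (1250, -2), (1257, -5), (1274, -2), (1325, 1), (1354, -5), (1389, 2), (1457,
   -1), (1490, -5), (1493, 1), (1524, 8), (1543, 1), (1621, 5), (1634, -5), (1683, -2), (1702,
   13), (1714, 8), (1715, 6), (1722, 5), (1767, 6), (1845, 2), (1847, -4), (1853, 3), (1915, -4),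
   (1966, 1), (1980, 2), (2018, -4), (2036, -4), (2113, -1), (2140, -1), (2149, -4), (2152, 12),
   (2194, 4), (2199, 2), (2201, -2), (2237, 10), (2291, 1), (2341, 1), (2351, -1), (2357, 2),
   (2363, 6), (2426, -2), (2434, -2), (2482, 1), (2486, 1), (2496, 1), (2510, 1), (2561, -6),
   (2562, 1), (2587, 4), (2687, -2), (2741, 2), (2768, 5), (2862, -5), (2888, -3), (2914, 6),
   (2947, 4), (3049, 2), (3079, 1), (3158, 4), (3159, -5), (3212, 2), (3233, -1), (3300, -9),
   (3330, -3), (3336, 4), (3339, -3), (3355, -1), (3421, 8), (3471, 1), (3530, 2), (3532, -1),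
   (3549, -2), (3569, -1), (3576, -2), (3659, -1), (3681, -4), (3690, 4), (3695, 2), (3723, -5),
   (3728, 1), (3745, 1), (3797, -4), (3829, -6), (3845, -3), (3939, -3), (3951, -4), (3957, 1),
   (3979, -7), (4000, -1), (4054, 9), (4084, 3), (4103, 4), (4217, -7), (4237, 3), (4257, -7),
   (4284, 2), (4298, -7), (4304, 2), (4311, -2), (4332, -9), (4341, 4), (4380, -4), (4393, -2),
   (4403, 1), (4435, 3), (4442, 8), (4474, 5), (4476, -1), (4531, 3), (4551, 2), (4562, -1),
   (4588, 1), (4622, -3), (4660, 1), (4679, 2), (4683, 1), (4726, -2), (4771, -4), (4773, -11),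
   (4793, 4), (4799, 1), (4826, -4), (4868, 5), (4937, -3), (4941, 7), (4947, 1), (5024, -3),
   (5049, -7), (5114, -8), (5123, 4), (5133, -6), (5144, 1), (5151, -7), (5160, 1), (5171, -5),
   (5210, -3), (5224, 2), (5314, -6), (5338, -1), (5373, 1), (5393, 3), (5395, -6), (5401, 1),
   (5417, 1), (5443, -1), (5469, 9), (5473, -3), (5487, -3), (5504, -1), (5565, -4), (5567, -1),
   (5583, 5), (5600, -9), (5607, 4), (5641, -6), (5666, 2), (5677, 2), (5695, 5), (5723, 4),
   (5729, 7), (5739, 5), (5786, 6), (5809, -1), (5849, 3), (5889, 4), (5890, 6), (5897, 7),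
   (5939, 3), (5961, 4), (5964, -7), (6009, 3), (6018, 1), (6032, 4), (6034, -6), (6049, 5),
   (6059, -8), (6060, -3), (6075, 4), (6088, 5), (6091, 3), (6095, 7), (6113, -5), (6173, 2),
   (6229, -3), (6236, -1), (6239, -7), (6241, 2), (6290, -1), (6304, -11), (6316, 4), (6330, 3),
   (6386, -7), (6388, -3), (6551, -2), (6567, -1), (6593, -1), (6602, 11), (6654, -1), (6731,
   -1), (6754, -2), (6792, 3), (6813, -6), (6876, 8), (6899, -3), (7053, 2), (7101, 4), (7102,
   1), (7128, 6), (7173, -5), (7186, 1), (7212, -1), (7270, 4), (7275, -1), (7287, -3), (7314,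
   6), (7318, -3), (7325, -5), (7329, -1), (7334, 12), (7367, 6), (7369, 4), (7437, -4), (7439,
   -13), (7457, -4), (7469, -4), (7474, 5), (7478, -2), (7513, 2), (7529, -2), (7590, -3), (7601,
   1), (7632, 1), (7679, 3), (7697, -4), (7717, -2), (7723, 12), (7761, 1), (7767, -5), (7781,
   7), (7815, 5), (7817, -2), (7818, 4), (7853, 6), (7864, 3), (7916, 9), (7934, -6), (7937, -4),
   (7961, 4), (8042, -3), (8084, -3), (8092, -7), (8138, -7), (8144, 1), (8155, 2), (8163, -2),
   (8167, 3), (8168, 5), (8174, -3), (8198, 8), (8206, 2), (8268, -7), (8284, -1), (8306, -1),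
   (8412, 3), (8418, -1), (8445, -3), (8450, -7), (8497, -2), (8509, -7), (8544, 5), (8557, -1),
   (8587, -5), (8590, -2), (8604, 1), (8613, -1), (8636, -2), (8646, -8), (8701, -4), (8721, -1),
   (8730, 3), (8777, -7), (8825, 4), (8877, 4), (8978, 6), (9071, -1), (9167, 8), (9178, -1),
   (9195, -9), (9312, 3), (9372, 3), (9429, 7), (9449, 3), (9451, 1), (9457, -3), (9468, 6),
   (9480, -1), (9526, -1), (9549, -4), (9575, 3), (9593, -2), (9671, -1), (9738, 4), (9780, 1),
   (9826, 2), (9837, -5), (10051, 6), (10095, 1), (10115, -3), (10143, 1), (10152, -2), (10217,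
   -5), (10263, -2), (10295, -3), (10386, -2), (10425, -4), (10449, 3), (10494, 6), (10505, 4),
   (10525, -6), (10633, -5), (10653, 3), (10737, -5), (10953, 3), (10988, 3), (11021, 2), (11037,
   2), (11097, 5), (11133, 4), (11219, -1), (11233, 3), (11253, 7), (11285, 2), (11350, -1),
   (11400, 7), (11401, 5), (11414, 3), (11455, 9), (11480, -1), (11481, -4), (11501, 3), (11528,
   -2), (11623, 10), (11712, -10), (11745, 2), (11780, -2), (11881, -3), (11990, -3), (12000,
   -1), (12026, -1), (12032, -1), (12064, -3), (12150, 3), (12154, 5), (12159, 2), (12207, -2),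
   (12252, 3), (12278, -2), (12319, 6), (12416, -3), (12431, 4), (12449, 4)]

/-- The folded distribution relation `n * R_3(v/u)`, as a list of `(a, b, z)` meaning `z * [a/b]`. -/
def rel (p : ℕ × ℤ) : List (ℕ × ℕ × ℤ) :=
  if 6 * p.1 < u then
    [(p.1, u, p.2), (3 * p.1, u, -p.2), (u - 3 * p.1, 3 * u, -p.2), (u + 3 * p.1, 3 * u, -p.2)]
  else if 3 * p.1 < u then
    [(p.1, u, p.2), (u - 3 * p.1, u, p.2), (u - 3 * p.1, 3 * u, -p.2),
      (2 * u - 3 * p.1, 3 * u, p.2)]
  else
    [(p.1, u, p.2), (3 * p.1 - u, u, p.2), (3 * p.1 - u, 3 * u, -p.2),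
      (2 * u - 3 * p.1, 3 * u, p.2)]

/-- The certificate: `(a, b, z)` means `z` times the weight `a / b`. -/
def L : List (ℕ × ℕ × ℤ) := data.flatMap rel

/-- numerator of `((b - a) / a) ^ z`. -/
def num (x : ℕ × ℕ × ℤ) : ℕ :=
  if 0 ≤ x.2.2 then (x.2.1 - x.1) ^ x.2.2.toNat else x.1 ^ (-x.2.2).toNat

/-- denominator of `((b - a) / a) ^ z`. -/
def den (x : ℕ × ℕ × ℤ) : ℕ :=
  if 0 ≤ x.2.2 then x.1 ^ x.2.2.toNat else (x.2.1 - x.1) ^ (-x.2.2).toNat

theorem num_div_den (x : ℕ × ℕ × ℤ) (h : x.1 < x.2.1) :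
    (num x : ℚ) / den x = (((x.2.1 : ℚ) - x.1) / x.1) ^ x.2.2 := by
  have hc : ((x.2.1 - x.1 : ℕ) : ℚ) = (x.2.1 : ℚ) - x.1 := by
    rw [Nat.cast_sub h.le]
  unfold num den
  split_ifs with h0
  · obtain ⟨n, hn⟩ := Int.eq_ofNat_of_zero_le h0
    rw [hn]
    simp only [Int.toNat_natCast, Nat.cast_pow, hc, zpow_natCast, div_pow]
  · obtain ⟨n, hn⟩ := Int.eq_ofNat_of_zero_le (show 0 ≤ -x.2.2 by omega)
    have hn' : x.2.2 = -(n : ℤ) := by omega
    rw [hn]
    simp only [Int.toNat_natCast, Nat.cast_pow, hc, hn', zpow_neg, zpow_natCast, div_pow, inv_div]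

/-- good symbols -/
def Good (x : ℕ × ℕ × ℤ) : Prop :=
  0 < x.1 ∧ 2 * x.1 < x.2.1 ∧ Nat.Coprime x.1 x.2.1 ∧ (x.2.1 = u ∨ x.2.1 = 3 * u) ∧ x.2.2 ≠ 0

instance (x : ℕ × ℕ × ℤ) : Decidable (Good x) := by unfold Good; infer_instance

def goodb (x : ℕ × ℕ × ℤ) : Bool :=
  Nat.blt 0 x.1 && (Nat.blt (2 * x.1) x.2.1 && ((Nat.gcd x.1 x.2.1 == 1) &&
    ((x.2.1 == u || x.2.1 == 3 * u) && !(x.2.2 == 0))))

theorem goodb_spec (x : ℕ × ℕ × ℤ) (h : goodb x = true) : Good x := by
  simp only [goodb, Bool.and_eq_true, Nat.blt_eq, beq_iff_eq, Bool.or_eq_true, Bool.not_eq_true',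
    beq_eq_false_iff_ne] at h
  exact ⟨h.1, h.2.1, h.2.2.1, h.2.2.2.1, h.2.2.2.2⟩

theorem all_goodb : L.all goodb = true := by decide +kernel

theorem good {x : ℕ × ℕ × ℤ} (hx : x ∈ L) : Good x :=
  goodb_spec x (List.all_eq_true.1 all_goodb x hx)

theorem prod_level_u :
    ((L.filter (fun x => x.2.1 == u)).map num).prod =
      ((L.filter (fun x => x.2.1 == u)).map den).prod := by decide +kernel

theorem prod_level_3u :
    ((L.filter (fun x => x.2.1 == 3 * u)).map num).prod =
      ((L.filter (fun x => x.2.1 == 3 * u)).map den).prod := by decide +kernel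

theorem sum_eq : (L.map (fun x => x.2.2)).sum = 28 := by decide +kernel

/-! ### The trigonometric identity -/

open Real

/-- `|tan (π k a / (2 b))|` -/
noncomputable def T (k : ℤ) (a b : ℕ) : ℝ := |tan (π * k * a / (2 * b))|

theorem sin_cos_ne {k : ℤ} {a b : ℕ} (hk : IsCoprime k (b : ℤ)) (ha : 0 < a) (hab : a < b) :
    sin (π * k * a / (2 * b)) ≠ 0 ∧ cos (π * k * a / (2 * b)) ≠ 0 := by
  have hb : (0 : ℝ) < b := by exact_mod_cast ha.trans hab
  have key : sin (2 * (π * k * a / (2 * b))) ≠ 0 := by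
    intro h
    obtain ⟨n, hn⟩ := Real.sin_eq_zero_iff.1 h
    have h1 : (n : ℝ) * b = k * a := by
      have hpi := Real.pi_ne_zero
      field_simp at hn
      linarith
    have h2 : n * (b : ℤ) = k * a := by exact_mod_cast h1
    have h3 : (b : ℤ) ∣ k * a := ⟨n, by rw [← h2]; ring⟩
    have h4 : (b : ℤ) ∣ a := hk.symm.dvd_of_dvd_mul_left h3
    have h5 : b ∣ a := by exact_mod_cast h4
    exact absurd (Nat.le_of_dvd ha h5) (by omega)
  rw [Real.sin_two_mul] at key
  constructor
  · intro h; rw [h] at key; simp at key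
  · intro h; rw [h] at key; simp at key

theorem T_pos {k : ℤ} {a b : ℕ} (hk : IsCoprime k (b : ℤ)) (ha : 0 < a) (hab : a < b) :
    0 < T k a b := by
  obtain ⟨h1, h2⟩ := sin_cos_ne hk ha hab
  unfold T
  rw [Real.tan_eq_sin_div_cos]
  exact abs_pos.2 (div_ne_zero h1 h2)

/-- `tan x = tan 3x tan(y - x) tan (y + x)` if `sin^2 y = 1/4`. -/
theorem tan_triple {x y : ℝ} (hy : sin y ^ 2 = 1 / 4) (h1 : sin x ≠ 0) (h2 : cos x ≠ 0)
    (h3 : sin (3 * x) ≠ 0) (h4 : cos (3 * x) ≠ 0) :
    tan x = tan (3 * x) * (tan (y - x) * tan (y + x)) := by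
  have hcy : cos y ^ 2 = 3 / 4 := by
    have := Real.sin_sq_add_cos_sq y
    linarith
  have hs : sin (y - x) * sin (y + x) = 1 / 4 - sin x ^ 2 := by
    have e := Real.sin_sq_add_cos_sq x
    rw [Real.sin_sub, Real.sin_add]
    have : (sin y * cos x - cos y * sin x) * (sin y * cos x + cos y * sin x) =
      sin y ^ 2 * cos x ^ 2 - cos y ^ 2 * sin x ^ 2 := by ring
    rw [this, hy, hcy]
    nlinarith
  have hc : cos (y - x) * cos (y + x) = 3 / 4 - sin x ^ 2 := by
    have e := Real.sin_sq_add_cos_sq x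
    rw [Real.cos_sub, Real.cos_add]
    have : (cos y * cos x + sin y * sin x) * (cos y * cos x - sin y * sin x) =
      cos y ^ 2 * cos x ^ 2 - sin y ^ 2 * sin x ^ 2 := by ring
    rw [this, hy, hcy]
    nlinarith
  have h3' : sin (3 * x) = 4 * sin x * (cos (y - x) * cos (y + x)) := by
    rw [hc, Real.sin_three_mul]; ring
  have h4' : cos (3 * x) = 4 * cos x * (sin (y - x) * sin (y + x)) := by
    rw [hs, Real.cos_three_mul]
    have e := Real.sin_sq_add_cos_sq x
    have : sin x ^ 2 = 1 - cos x ^ 2 := by linarith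
    rw [this]; ring
  have ha : cos (y - x) * cos (y + x) ≠ 0 := by
    intro h; rw [h] at h3'; simp at h3'; exact h3 h3'
  have hb : sin (y - x) * sin (y + x) ≠ 0 := by
    intro h; rw [h] at h4'; simp at h4'; exact h4 h4'
  have e1 : tan (y - x) * tan (y + x) =
      (sin (y - x) * sin (y + x)) / (cos (y - x) * cos (y + x)) := by
    rw [Real.tan_eq_sin_div_cos, Real.tan_eq_sin_div_cos, div_mul_div_comm]
  rw [e1, Real.tan_eq_sin_div_cos (3 * x), h3', h4', Real.tan_eq_sin_div_cos x]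
  generalize cos (y - x) * cos (y + x) = c at ha ⊢
  generalize sin (y - x) * sin (y + x) = s at hb ⊢
  field_simp

theorem sin_sq_of_odd {k : ℤ} (hk : Odd k) (h3 : ¬ (3 : ℤ) ∣ k) :
    sin (π * k / 6) ^ 2 = 1 / 4 := by
  have hc : cos (2 * (π * k / 6)) = 1 / 2 := by
    obtain ⟨n, hn⟩ := hk
    have : ∃ m : ℤ, k = 6 * m + 1 ∨ k = 6 * m - 1 := by
      rcases (by omega : k % 6 = 1 ∨ k % 6 = 5) with h | h
      · exact ⟨k / 6, Or.inl (by omega)⟩
      · exact ⟨k / 6 + 1, Or.inr (by omega)⟩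
    obtain ⟨m, hm | hm⟩ := this
    · have : 2 * (π * k / 6) = π / 3 + m * (2 * π) := by
        rw [hm]; push_cast; ring
      rw [this, Real.cos_add_int_mul_two_pi, Real.cos_pi_div_three]
    · have : 2 * (π * k / 6) = -(π / 3) + m * (2 * π) := by
        rw [hm]; push_cast; ring
      rw [this, Real.cos_add_int_mul_two_pi, Real.cos_neg, Real.cos_pi_div_three]
  rw [Real.cos_two_mul] at hc
  have := Real.sin_sq_add_cos_sq (π * k / 6)
  linarith

/-- `|tan(πk/2 - x)| = |tan x|⁻¹` for odd `k`. -/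
theorem abs_tan_odd_sub {k : ℤ} (hk : Odd k) (x : ℝ) :
    |tan (π * k / 2 - x)| = |tan x|⁻¹ := by
  obtain ⟨n, rfl⟩ := hk
  have e : π * ((2 * n + 1 : ℤ) : ℝ) / 2 - x = (π / 2 - x) + n * π := by
    push_cast; ring
  rw [e, Real.tan_add_int_mul_pi, Real.tan_pi_div_two_sub, abs_inv]

theorem abs_tan_sub_odd {k : ℤ} (hk : Odd k) (x : ℝ) :
    |tan (x - π * k / 2)| = |tan x|⁻¹ := by
  rw [← abs_tan_odd_sub hk, ← abs_neg, ← Real.tan_neg]
  congr 2; ring

theorem T_rel {k : ℤ} (hk : Odd k) (hc : IsCoprime k ((3 * u : ℕ) : ℤ)) (p : ℕ × ℤ)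
    (hg : ∀ x ∈ rel p, Good x) :
    ((rel p).map (fun x => (T k x.1 x.2.1) ^ x.2.2)).prod = 1 := by
  have hu0 : (0 : ℝ) < u := by norm_num [u]
  have hu : (u : ℝ) ≠ 0 := hu0.ne'
  have hcu : IsCoprime k (u : ℤ) := by
    have : ((3 * u : ℕ) : ℤ) = 3 * (u : ℤ) := by push_cast; ring
    rw [this] at hc
    exact hc.of_mul_right_right
  have hc3 : IsCoprime k (3 : ℤ) := by
    have : ((3 * u : ℕ) : ℤ) = 3 * (u : ℤ) := by push_cast; ring
    rw [this] at hc
    exact hc.of_mul_right_left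
  have h3k : ¬ (3 : ℤ) ∣ k := by
    intro h
    have := hc3.symm.isUnit_of_dvd' (dvd_refl _) h
    rw [Int.isUnit_iff] at this
    omega
  obtain ⟨v, n⟩ := p
  -- the basic identity
  have basic : 0 < v → v < u → (sin (3 * (π * k * v / (2 * u))) ≠ 0) →
      (cos (3 * (π * k * v / (2 * u))) ≠ 0) →
      T k v u = |tan (3 * (π * k * v / (2 * u)))| *
        (|tan (π * k / 6 - π * k * v / (2 * u))| * |tan (π * k / 6 + π * k * v / (2 * u))|) := by
    intro h0 h1 h2 h3
    obtain ⟨h4, h5⟩ := sin_cos_ne hcu h0 h1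
    unfold T
    rw [← abs_mul, ← abs_mul, ← tan_triple (sin_sq_of_odd hk h3k) h4 h5 h2 h3]
  unfold rel at hg ⊢
  simp only at hg ⊢
  split_ifs at hg ⊢ with c1 c2
  · -- v < u / 6
    simp only [List.mem_cons, List.not_mem_nil, or_false, forall_eq_or_imp, forall_eq] at hg
    obtain ⟨g1, g2, g3, g4⟩ := hg
    have hv : 0 < v := g1.1
    have hvu : v < u := by have := g1.2.1; simp only at this; omega
    have e3 : 3 * (π * k * v / (2 * u)) = π * k * ((3 * v : ℕ) : ℝ) / (2 * u) := by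
      push_cast; ring
    have s3 := sin_cos_ne hcu g2.1 (show 3 * v < u by omega)
    have b := basic hv hvu (by rw [e3]; exact s3.1) (by rw [e3]; exact s3.2)
    have e1 : π * k / 6 - π * k * v / (2 * u) =
        π * k * ((u - 3 * v : ℕ) : ℝ) / (2 * ((3 * u : ℕ) : ℝ)) := by
      rw [Nat.cast_sub (by omega)]; push_cast; field_simp; ring
    have e2 : π * k / 6 + π * k * v / (2 * u) =
        π * k * ((u + 3 * v : ℕ) : ℝ) / (2 * ((3 * u : ℕ) : ℝ)) := by
      push_cast; field_simp; ring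
    rw [e3, e1, e2] at b
    have p2 : 0 < T k (3 * v) u := T_pos hcu g2.1 (by omega)
    have p3 : 0 < T k (u - 3 * v) (3 * u) := T_pos hc g3.1 (by omega)
    have p4 : 0 < T k (u + 3 * v) (3 * u) := T_pos hc g4.1 (by omega)
    have b' : T k v u = T k (3 * v) u * (T k (u - 3 * v) (3 * u) * T k (u + 3 * v) (3 * u)) := b
    simp only [List.map_cons, List.map_nil, List.prod_cons, List.prod_nil, mul_one, zpow_neg]
    rw [b', mul_zpow, mul_zpow]
    have q2 := (zpow_pos p2 n).ne'
    have q3 := (zpow_pos p3 n).ne'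
    have q4 := (zpow_pos p4 n).ne'
    field_simp
  · -- u / 6 < v < u / 3
    simp only [List.mem_cons, List.not_mem_nil, or_false, forall_eq_or_imp, forall_eq] at hg
    obtain ⟨g1, g2, g3, g4⟩ := hg
    have hv : 0 < v := g1.1
    have hvu : v < u := by have := g1.2.1; simp only at this; omega
    have h2v : 2 * v < u := g1.2.1
    -- T(3v/u) = T((u-3v)/u)⁻¹
    have e3 : 3 * (π * k * v / (2 * u)) =
        π * k / 2 - π * k * ((u - 3 * v : ℕ) : ℝ) / (2 * u) := by
      rw [Nat.cast_sub (by omega)]; push_cast; field_simp; ring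
    have e3' : 3 * (π * k * v / (2 * u)) = π * k * ((3 * v : ℕ) : ℝ) / (2 * u) := by
      push_cast; ring
    have s3 := sin_cos_ne hcu (show 0 < 3 * v by omega) (show 3 * v < u by omega)
    have b := basic hv hvu (by rw [e3']; exact s3.1) (by rw [e3']; exact s3.2)
    have e1 : π * k / 6 - π * k * v / (2 * u) =
        π * k * ((u - 3 * v : ℕ) : ℝ) / (2 * ((3 * u : ℕ) : ℝ)) := by
      rw [Nat.cast_sub (by omega)]; push_cast; field_simp; ring
    have e2 : π * k / 6 + π * k * v / (2 * u) =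
        π * k / 2 - π * k * ((2 * u - 3 * v : ℕ) : ℝ) / (2 * ((3 * u : ℕ) : ℝ)) := by
      rw [Nat.cast_sub (by omega)]; push_cast; field_simp; ring
    rw [e3, e1, e2, abs_tan_odd_sub hk, abs_tan_odd_sub hk] at b
    have p2 : 0 < T k (u - 3 * v) u := T_pos hcu g2.1 (by omega)
    have p3 : 0 < T k (u - 3 * v) (3 * u) := T_pos hc g3.1 (by omega)
    have p4 : 0 < T k (2 * u - 3 * v) (3 * u) := T_pos hc g4.1 (by omega)
    have b' : T k v u = (T k (u - 3 * v) u)⁻¹ *
      (T k (u - 3 * v) (3 * u) * (T k (2 * u - 3 * v) (3 * u))⁻¹) := b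
    simp only [List.map_cons, List.map_nil, List.prod_cons, List.prod_nil, mul_one, zpow_neg]
    rw [b', mul_zpow, mul_zpow, inv_zpow, inv_zpow]
    have q2 := (zpow_pos p2 n).ne'
    have q3 := (zpow_pos p3 n).ne'
    have q4 := (zpow_pos p4 n).ne'
    field_simp
  · -- u / 3 < v < u / 2
    simp only [List.mem_cons, List.not_mem_nil, or_false, forall_eq_or_imp, forall_eq] at hg
    obtain ⟨g1, g2, g3, g4⟩ := hg
    have hv : 0 < v := g1.1
    have hvu : v < u := by have := g1.2.1; simp only at this; omega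
    have h2v : 2 * v < u := g1.2.1
    have h3v : u < 3 * v := by have := g2.1; simp only at this; omega
    have s3 := sin_cos_ne hcu g2.1 (show 3 * v - u < u by omega)
    have e3 : 3 * (π * k * v / (2 * u)) =
        π * k * ((3 * v - u : ℕ) : ℝ) / (2 * u) - π * ((-k : ℤ) : ℝ) / 2 := by
      rw [Nat.cast_sub (by omega)]; push_cast; field_simp; ring
    have e3s : sin (3 * (π * k * v / (2 * u))) ≠ 0 ∧ cos (3 * (π * k * v / (2 * u))) ≠ 0 := by
      have hw : 2 * (3 * (π * k * v / (2 * u))) =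
          2 * (π * k * ((3 * v - u : ℕ) : ℝ) / (2 * u)) + k * π := by
        rw [Nat.cast_sub (by omega)]; push_cast; field_simp; ring
      have hs : sin (2 * (3 * (π * k * v / (2 * u)))) ≠ 0 := by
        rw [hw, Real.sin_add_int_mul_pi]
        refine mul_ne_zero ?_ ?_
        · exact zpow_ne_zero _ (by norm_num)
        · rw [Real.sin_two_mul]
          exact mul_ne_zero (mul_ne_zero two_ne_zero s3.1) s3.2
      rw [Real.sin_two_mul] at hs
      constructor
      · intro h; rw [h] at hs; simp at hs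
      · intro h; rw [h] at hs; simp at hs
    have b := basic hv hvu e3s.1 e3s.2
    have e1 : π * k / 6 - π * k * v / (2 * u) =
        -(π * k * ((3 * v - u : ℕ) : ℝ) / (2 * ((3 * u : ℕ) : ℝ))) := by
      rw [Nat.cast_sub (by omega)]; push_cast; field_simp; ring
    have e2 : π * k / 6 + π * k * v / (2 * u) =
        π * k / 2 - π * k * ((2 * u - 3 * v : ℕ) : ℝ) / (2 * ((3 * u : ℕ) : ℝ)) := by
      rw [Nat.cast_sub (by omega)]; push_cast; field_simp; ring
    rw [e3, e1, e2, abs_tan_odd_sub hk, abs_tan_sub_odd hk.neg, Real.tan_neg, abs_neg] at b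
    have p2 : 0 < T k (3 * v - u) u := T_pos hcu g2.1 (by omega)
    have p3 : 0 < T k (3 * v - u) (3 * u) := T_pos hc g3.1 (by omega)
    have p4 : 0 < T k (2 * u - 3 * v) (3 * u) := T_pos hc g4.1 (by omega)
    have b' : T k v u = (T k (3 * v - u) u)⁻¹ *
      (T k (3 * v - u) (3 * u) * (T k (2 * u - 3 * v) (3 * u))⁻¹) := b
    simp only [List.map_cons, List.map_nil, List.prod_cons, List.prod_nil, mul_one, zpow_neg]
    rw [b', mul_zpow, mul_zpow, inv_zpow, inv_zpow]
    have q2 := (zpow_pos p2 n).ne'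
    have q3 := (zpow_pos p3 n).ne'
    have q4 := (zpow_pos p4 n).ne'
    field_simp

theorem prod_flatMap {α β M : Type*} [Monoid M] (l : List α) (f : α → List β) (g : β → M)
    (h : ∀ a ∈ l, ((f a).map g).prod = 1) : ((l.flatMap f).map g).prod = 1 := by
  induction l with
  | nil => simp
  | cons a l ih =>
    rw [List.flatMap_cons, List.map_append, List.prod_append, h a (by simp),
      ih (fun b hb => h b (by simp [hb])), one_mul]

/-- (cot) -/
theorem prod_T {k : ℤ} (hk : Odd k) (hc : IsCoprime k ((3 * u : ℕ) : ℤ)) :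
    (L.map (fun x => (T k x.1 x.2.1) ^ x.2.2)).prod = 1 := by
  refine prod_flatMap _ _ _ (fun p hp => T_rel hk hc p (fun x hx => good ?_))
  exact List.mem_flatMap.2 ⟨p, hp, hx⟩

/-- (zeta) -/
theorem prod_zeta (b : ℕ) :
    ((L.filter (fun x => x.2.1 == b)).map
      (fun x => (((x.2.1 : ℚ) - x.1) / x.1) ^ x.2.2)).prod = 1 := by
  have aux : ∀ l : List (ℕ × ℕ × ℤ), (∀ x ∈ l, Good x) → (l.map num).prod = (l.map den).prod →
      (l.map (fun x => (((x.2.1 : ℚ) - x.1) / x.1) ^ x.2.2)).prod = 1 := by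
    intro l hl h
    have h1 : ∀ l : List (ℕ × ℕ × ℤ), (∀ x ∈ l, Good x) →
        (l.map (fun x => (((x.2.1 : ℚ) - x.1) / x.1) ^ x.2.2)).prod =
          ((l.map num).prod : ℚ) / ((l.map den).prod : ℚ) ∧ ((l.map den).prod : ℚ) ≠ 0 := by
      intro l
      induction l with
      | nil => intro _; simp
      | cons x l ih =>
        intro hx
        obtain ⟨i1, i2⟩ := ih (fun y hy => hx y (by simp [hy]))
        have g := hx x (by simp)
        have hlt : x.1 < x.2.1 := by have := g.2.1; omega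
        have hd : (den x : ℚ) ≠ 0 := by
          have : den x ≠ 0 := by
            unfold den
            split_ifs
            · exact pow_ne_zero _ g.1.ne'
            · exact pow_ne_zero _ (by omega)
          exact_mod_cast this
        simp only [List.map_cons, List.prod_cons, Nat.cast_mul]
        refine ⟨?_, mul_ne_zero hd i2⟩
        rw [i1, ← num_div_den x hlt]
        field_simp
    obtain ⟨i1, i2⟩ := h1 l hl
    rw [i1, h, div_self i2]
  have hmem : ∀ x ∈ L.filter (fun x => x.2.1 == b), Good x :=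
    fun x hx => good (List.mem_of_mem_filter hx)
  by_cases h1 : b = u
  · subst h1
    exact aux _ hmem prod_level_u
  by_cases h2 : b = 3 * u
  · subst h2
    exact aux _ hmem prod_level_3u
  · have : L.filter (fun x => x.2.1 == b) = [] := by
      rw [List.filter_eq_nil_iff]
      intro x hx hxb
      have hxb' : x.2.1 = b := by simpa using hxb
      rcases (good hx).2.2.2.1 with h | h
      · exact h1 (by rw [← hxb', h])
      · exact h2 (by rw [← hxb', h])
    rw [this]; simp

/-- **Certificate.** -/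
theorem cert : ∃ L : List (ℕ × ℕ × ℤ),
    (∀ x ∈ L, 0 < x.1 ∧ 2 * x.1 < x.2.1 ∧ Nat.Coprime x.1 x.2.1 ∧
      (x.2.1 = 24989 ∨ x.2.1 = 3 * 24989) ∧ x.2.2 ≠ 0) ∧
    (∀ b : ℕ, ((L.filter (fun x => x.2.1 == b)).map
      (fun x => (((x.2.1 : ℚ) - x.1) / x.1) ^ x.2.2)).prod = 1) ∧
    (L.map (fun x => x.2.2)).sum = 28 ∧
    (∀ k : ℤ, Odd k → IsCoprime k ((3 * 24989 : ℕ) : ℤ) →
      (L.map (fun x => |tan (π * k * x.1 / (2 * x.2.1))| ^ x.2.2)).prod = 1) :=
  ⟨L, fun _ hx => good hx, prod_zeta, sum_eq, fun _ hk hc => prod_T hk hc⟩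

theorem prime_u : Nat.Prime 24989 := by norm_num

end Crest.Agent.R267.Cert_8
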