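import Mathlib
import Crest.Agent.R267.P4Defs_780

/-!
# S0407, package P4: the Prop `LOCSQ` (helper780)

Weaker than `LOCS`: local congruence may use the rational congruence (this gives the isogeny of
the `ℤ_p[T]`-modules for free).
-/

set_option autoImplicit false

namespace Crest.Agent.R267.P4LocsQ_780

open Crest.Agent.R267.P4Defs_780

/-- P4.6 + P4.7: two rationally congruent `F_{s,i}`, `F_{s,j}` are congruent over `ℤ_p`. -/
def LOCSQ : Prop :=
  ∀ (L : List (ℕ × ℕ × ℤ)) (u : ℕ) (q : List ℕ), Cert L u → Aux u q →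
    ∀ s : ℕ, ∀ i ≤ s, ∀ j ≤ s, CongOver ℚ (sysMat (F L u q s i)) (sysMat (F L u q s j)) →
      ∀ (p : ℕ) [Fact p.Prime],
        CongOver ℤ_[p] (sysMat (F L u q s i)) (sysMat (F L u q s j))

end Crest.Agent.R267.P4LocsQ_780
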