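import Mathlib
import Crest.Agent.R267.P4Defs_780
import Crest.Agent.R267.P4LocsQ_780
import Crest.Agent.R267.Cert_8

/-!
# S0407, package P4: assembly `RATB → LOCS → GLOBS → INT` (helper780)
-/

set_option autoImplicit false

namespace Crest.Agent.R267.P4Asm_780

open Matrix Crest.Agent.R267.P4Defs_780 Crest.Agent.R267.P4LocsQ_780

/-! ### chains -/

theorem chainOf_zero (b : ℕ) : chainOf 0 b = [] := by
  unfold chainOf; simp

theorem chainOf_pos {a : ℕ} (ha : 0 < a) (b : ℕ) : chainOf a b = (b / a) :: chainOf (b % a) b := by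
  conv_lhs => unfold chainOf
  simp [ha.ne']

theorem chainOf_two_le (a b : ℕ) (h : 2 * a < b) : ∀ e ∈ chainOf a b, 2 ≤ e := by
  induction a using Nat.strong_induction_on with
  | _ a ih =>
    rcases Nat.eq_zero_or_pos a with rfl | ha
    · simp [chainOf_zero]
    · rw [chainOf_pos ha]
      intro e he
      rcases List.mem_cons.1 he with rfl | he
      · exact (Nat.le_div_iff_mul_le ha).2 h.le
      · have := Nat.mod_lt b ha
        exact ih _ this (by omega) e he

theorem chainOf_last (a b : ℕ) (h : 2 * a < b) (hb : Odd b) :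
    ∀ hne : chainOf a b ≠ [], 3 ≤ (chainOf a b).getLast hne := by
  induction a using Nat.strong_induction_on with
  | _ a ih =>
    rcases Nat.eq_zero_or_pos a with rfl | ha
    · intro hne; exact absurd (chainOf_zero b) hne
    · intro hne
      have hlt := Nat.mod_lt b ha
      rcases Nat.eq_zero_or_pos (b % a) with h0 | h1
      · have e1 : chainOf a b = [b / a] := by rw [chainOf_pos ha, h0, chainOf_zero]
        have e2 : (chainOf a b).getLast hne = b / a := by
          simp [e1]
        rw [e2]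
        have h2 : 2 ≤ b / a := (Nat.le_div_iff_mul_le ha).2 h.le
        have h3 : a * (b / a) = b := Nat.mul_div_cancel' (Nat.dvd_of_mod_eq_zero h0)
        by_contra hlt3
        have h4 : b / a = 2 := by omega
        rw [h4] at h3
        omega
      · have hne' : chainOf (b % a) b ≠ [] := by rw [chainOf_pos h1]; simp
        have key := ih (b % a) hlt (by omega) hne'
        have e2 : (chainOf a b).getLast hne = (chainOf (b % a) b).getLast hne' := by
          have e1 := chainOf_pos ha b
          simp only [e1, List.getLast_cons hne']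
        rw [e2]; exact key

theorem length_chainOf {a : ℕ} (ha : 0 < a) (b : ℕ) :
    (chainOf a b).length = (chainOf (b % a) b).length + 1 := by
  rw [chainOf_pos ha]; simp

/-! ### number of variables -/

theorem nvar_append (S T : List (List ℕ)) : nvar (S ++ T) = nvar S + nvar T := by
  simp [nvar]

theorem nvar_replicate (n : ℕ) (c : List ℕ) : nvar (List.replicate n c) = n * c.length := by
  simp [nvar]

theorem nvar_rep (n : ℕ) (S : List (List ℕ)) : nvar (rep n S) = n * nvar S := by
  induction n with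
  | zero => simp [rep, nvar]
  | succ n ih =>
    have : rep (n + 1) S = S ++ rep n S := by simp [rep, List.replicate_succ]
    rw [this, nvar_append, ih]; ring

theorem nvar_filter (S : List (List ℕ)) : nvar (S.filter (fun c => c ≠ [])) = nvar S := by
  induction S with
  | nil => rfl
  | cons c S ih =>
    by_cases hc : c = []
    · subst hc
      have : ([] :: S).filter (fun c : List ℕ => c ≠ []) = S.filter (fun c => c ≠ []) := by simp
      rw [this, ih]; simp [nvar]
    · have : (c :: S).filter (fun c : List ℕ => c ≠ []) = c :: S.filter (fun c => c ≠ []) := by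
        simp [hc]
      rw [this]
      simp only [nvar, List.map_cons, List.sum_cons] at ih ⊢
      rw [ih]

theorem nvar_flatMap {α : Type} (L : List α) (f : α → List (List ℕ)) :
    (nvar (L.flatMap f) : ℤ) = (L.map (fun x => (nvar (f x) : ℤ))).sum := by
  induction L with
  | nil => simp [nvar]
  | cons x L ih => simp [nvar_append, ih]

theorem nvar_block {x : ℕ × ℕ × ℤ} (hx : 0 < x.1) :
    (nvar (blockP x) : ℤ) - nvar (blockM x) = x.2.2 := by
  have hl := length_chainOf hx x.2.1
  simp only [blockP, blockM, nvar_append, nvar_replicate, hl]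
  push_cast
  have h1 : ((x.2.2.toNat : ℤ)) - ((-x.2.2).toNat : ℤ) = x.2.2 := by omega
  linear_combination h1

theorem nvar_Z {L : List (ℕ × ℕ × ℤ)} (hL : ∀ x ∈ L, 0 < x.1) :
    (nvar (ZP L) : ℤ) - nvar (ZM L) = (L.map (fun x => x.2.2)).sum := by
  unfold ZP ZM
  rw [nvar_filter, nvar_filter, nvar_flatMap, nvar_flatMap]
  induction L with
  | nil => simp
  | cons x L ih =>
    have h1 := nvar_block (hL x (by simp))
    have h2 := ih (fun y hy => hL y (by simp [hy]))
    simp only [List.map_cons, List.sum_cons]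
    linarith

/-! ### congruence -/

theorem Cong.of_equiv {ι κ : Type} [Fintype ι] [Fintype κ] [DecidableEq ι] [DecidableEq κ]
    {R : Type} [CommRing R] {A : Matrix ι ι R} {B : Matrix κ κ R} (e : κ ≃ ι)
    (h : ∀ x y, A (e x) (e y) = B x y) : Cong R A B := by
  have hB : B = A.submatrix e e := by ext x y; simp [h]
  refine ⟨(1 : Matrix ι ι R).submatrix id e, (1 : Matrix ι ι R).submatrix e id, ?_, ?_, ?_⟩
  · ext i j
    simp [Matrix.mul_apply, Matrix.one_apply]
    rw [Finset.sum_eq_single (e.symm i)]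
    · simp
    · intro b _ hne
      have : i ≠ e b := fun h => hne (by rw [h]; simp)
      simp [this]
    · intro h; exact absurd (Finset.mem_univ _) h
  · ext i j
    simp [Matrix.mul_apply, Matrix.one_apply]
  · rw [hB]
    ext i j
    simp [Matrix.mul_apply, Matrix.one_apply]

theorem Cong.trans {ι κ μ : Type} [Fintype ι] [Fintype κ] [Fintype μ] [DecidableEq ι]
    [DecidableEq κ] [DecidableEq μ] {R : Type} [CommRing R] {A : Matrix ι ι R}
    {B : Matrix κ κ R} {C : Matrix μ μ R} (h1 : Cong R A B) (h2 : Cong R B C) : Cong R A C := by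
  obtain ⟨P, Q, a, b, c⟩ := h1
  obtain ⟨P', Q', a', b', c'⟩ := h2
  refine ⟨P * P', Q' * Q, ?_, ?_, ?_⟩
  · calc P * P' * (Q' * Q) = P * (P' * Q') * Q := by simp only [Matrix.mul_assoc]
      _ = 1 := by rw [a', Matrix.mul_one, a]
  · calc Q' * Q * (P * P') = Q' * (Q * P) * P' := by simp only [Matrix.mul_assoc]
      _ = 1 := by rw [b, Matrix.mul_one, b']
  · calc (P * P')ᵀ * A * (P * P') = P'ᵀ * (Pᵀ * A * P) * P' := by
          rw [Matrix.transpose_mul]; simp only [Matrix.mul_assoc]
      _ = C := by rw [c, c']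

theorem Cong.symm {ι κ : Type} [Fintype ι] [Fintype κ] [DecidableEq ι]
    [DecidableEq κ] {R : Type} [CommRing R] {A : Matrix ι ι R}
    {B : Matrix κ κ R} (h : Cong R A B) : Cong R B A := by
  obtain ⟨P, Q, a, b, c⟩ := h
  refine ⟨Q, P, b, a, ?_⟩
  rw [← c]
  have h1 : Qᵀ * Pᵀ = 1 := by rw [← Matrix.transpose_mul, a, Matrix.transpose_one]
  calc Qᵀ * (Pᵀ * A * P) * Q = (Qᵀ * Pᵀ) * A * (P * Q) := by simp only [Matrix.mul_assoc]
    _ = A := by rw [h1, a, Matrix.one_mul, Matrix.mul_one]

theorem mu_two : mu [2] = 1 := by simp [mu]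

theorem cong_two_cons (S : List (List ℕ)) : Cong ℤ (sysMat S) (sysMat ([2] :: S)) := by
  have hu : Unique (Fin (mu [2])) := by rw [mu_two]; infer_instance
  let e : Idx ([2] :: S) ≃ Idx S := Equiv.uniqueProd (Idx S) (Fin (mu [2]))
  refine Cong.of_equiv e ?_
  rintro ⟨a, x⟩ ⟨b, y⟩
  have ha : a = b := Subsingleton.elim _ _
  subst ha
  change sysMat S x y = chainMat [2] a a * sysMat S x y
  have h1 : chainMat [2] a a = 1 := by
    simp [chainMat, phi]
  rw [h1, one_mul]

theorem cong_two (n : ℕ) (S : List (List ℕ)) :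
    Cong ℤ (sysMat S) (sysMat (List.replicate n [2] ++ S)) := by
  induction n with
  | zero => exact Cong.of_equiv (Equiv.refl _) (fun _ _ => rfl)
  | succ n ih =>
    have : List.replicate (n + 1) [2] ++ S = [2] :: (List.replicate n [2] ++ S) := by
      simp [List.replicate_succ]
    rw [this]
    exact Cong.trans ih (cong_two_cons _)

/-! ### the family -/

theorem mem_rep {n : ℕ} {S : List (List ℕ)} {c : List ℕ} (h : c ∈ rep n S) : c ∈ S := by
  simp only [rep, List.mem_flatten] at h
  obtain ⟨l, hl, hc⟩ := h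
  rw [List.eq_of_mem_replicate hl] at hc
  exact hc

theorem good_Z {L : List (ℕ × ℕ × ℤ)} {u : ℕ} (hC : Cert L u) {c : List ℕ}
    (hc : c ∈ ZP L ∨ c ∈ ZM L) :
    c ≠ [] ∧ (∀ a ∈ c, 2 ≤ a) ∧ ∀ h : c ≠ [], 3 ≤ c.getLast h := by
  have hu : Odd u := by
    rcases hC.prime.eq_two_or_odd' with h | h
    · have := hC.big; omega
    · exact h
  have key : ∀ x ∈ L, c = chainOf x.1 x.2.1 ∨ c = chainOf (x.2.1 % x.1) x.2.1 →
      (∀ a ∈ c, 2 ≤ a) ∧ ∀ h : c ≠ [], 3 ≤ c.getLast h := by
    intro x hx hcx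
    obtain ⟨h1, h2, -, h3⟩ := hC.range x hx
    have hodd : Odd x.2.1 := by
      rcases h3 with h3 | h3 <;> rw [h3]
      · exact hu
      · exact (by decide : Odd 3).mul hu
    have h4 := Nat.mod_lt x.2.1 h1
    rcases hcx with rfl | rfl
    · exact ⟨chainOf_two_le _ _ h2, chainOf_last _ _ h2 hodd⟩
    · exact ⟨chainOf_two_le _ _ (by omega), chainOf_last _ _ (by omega) hodd⟩
  have hblock : ∀ x, c ∈ blockP x ∨ c ∈ blockM x →
      c = chainOf x.1 x.2.1 ∨ c = chainOf (x.2.1 % x.1) x.2.1 := by
    intro x h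
    simp only [blockP, blockM, List.mem_append, List.mem_replicate] at h
    tauto
  rcases hc with hc | hc
  · simp only [ZP, List.mem_filter, List.mem_flatMap] at hc
    obtain ⟨⟨x, hx, hcx⟩, hne⟩ := hc
    exact ⟨by simpa using hne, key x hx (hblock x (Or.inl hcx))⟩
  · simp only [ZM, List.mem_filter, List.mem_flatMap] at hc
    obtain ⟨⟨x, hx, hcx⟩, hne⟩ := hc
    exact ⟨by simpa using hne, key x hx (hblock x (Or.inr hcx))⟩

theorem good_F {L : List (ℕ × ℕ × ℤ)} {u : ℕ} {q : List ℕ} (hC : Cert L u) (hA : Aux u q)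
    {s j : ℕ} {c : List ℕ} (hc : c ∈ F L u q s j) :
    c ≠ [] ∧ (∀ a ∈ c, 2 ≤ a) ∧ ∀ h : c ≠ [], 3 ≤ c.getLast h := by
  have hone : ∀ a : ℕ, 3 ≤ a → c = [a] →
      c ≠ [] ∧ (∀ a ∈ c, 2 ≤ a) ∧ ∀ h : c ≠ [], 3 ≤ c.getLast h := by
    rintro a ha rfl
    refine ⟨by simp, ?_, ?_⟩
    · intro b hb; simp at hb; omega
    · intro _; simpa using ha
  simp only [F, List.mem_append, List.mem_map] at hc
  rcases hc with (((hc | hc) | hc) | hc) | ⟨x, hx, rfl⟩
  · have := mem_rep hc; simp at this; exact hone 3 le_rfl this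
  · have := mem_rep hc; simp at this; exact hone u hC.big.le this
  · exact good_Z hC (Or.inl (mem_rep hc))
  · exact good_Z hC (Or.inr (mem_rep hc))
  · exact hone x (hA.big x hx).1.le rfl

theorem nvar_F {L : List (ℕ × ℕ × ℤ)} {u : ℕ} {q : List ℕ} (hA : Aux u q) (s j : ℕ) :
    nvar (F L u q s j) = 24 + 8 * (s - j) * nvar (ZP L) + 8 * j * nvar (ZM L) := by
  have h1 : nvar (q.map (fun x => [x])) = 8 := by
    rw [← hA.length]; simp [nvar, Function.comp_def]
  simp only [F, nvar_append, nvar_rep, h1]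
  simp only [nvar, List.map_cons, List.map_nil, List.sum_cons, List.sum_nil, List.length_cons,
    List.length_nil]
  ring

theorem three_mem_F (L : List (ℕ × ℕ × ℤ)) (u : ℕ) (q : List ℕ) (s j : ℕ) :
    [3] ∈ F L u q s j := by
  simp [F, rep]

/-- certificate and auxiliary primes exist. -/
theorem exists_data : ∃ (L : List (ℕ × ℕ × ℤ)) (u : ℕ) (q : List ℕ), Cert L u ∧ Aux u q := by
  obtain ⟨L, h1, h2, h3, h4⟩ := Cert_8.cert
  refine ⟨L, 24989, [5, 7, 11, 13, 17, 19, 23, 29], ?_, ?_⟩
  · refine ⟨Cert_8.prime_u, by norm_num, ?_, h2, by rw [h3]; norm_num, ?_⟩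
    · intro x hx
      obtain ⟨a, b, c, d, -⟩ := h1 x hx
      exact ⟨a, b, c, d⟩
    · exact h4
  · refine ⟨rfl, by decide, ?_, ?_⟩
    · intro x hx
      simp only [List.mem_cons, List.not_mem_nil, or_false] at hx
      rcases hx with rfl | rfl | rfl | rfl | rfl | rfl | rfl | rfl <;> norm_num
    · intro x hx
      simp only [List.mem_cons, List.not_mem_nil, or_false] at hx
      rcases hx with rfl | rfl | rfl | rfl | rfl | rfl | rfl | rfl <;> norm_num

attribute [local irreducible] sysMat F

/-- ASSEMBLY OF P4. -/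
theorem INT_ofQ (hR : RATB) (hL : LOCSQ) (hG : GLOBS) : INT := by
  obtain ⟨L, u, q, hC, hA⟩ := exists_data
  obtain ⟨B, hB⟩ := hR L u q hC hA
  obtain ⟨h, hh⟩ := hG L u q hC hA
  let s := (B + 1) * h
  obtain ⟨col, hcol⟩ := hB s
  -- a colour with more than `h` indices
  obtain ⟨y, -, hy⟩ : ∃ y ∈ (Finset.univ : Finset (Fin (B + 1))),
      h < ((Finset.range (s + 1)).filter (fun j => col j = y)).card := by
    apply Finset.exists_lt_card_fiber_of_mul_lt_card_of_maps_to
    · intro a _; exact Finset.mem_univ _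
    · simp [s]
  set J := (Finset.range (s + 1)).filter (fun j => col j = y) with hJ
  have hJs : ∀ j ∈ J, j ≤ s := by
    intro j hj
    have := (Finset.mem_filter.1 hj).1
    have := Finset.mem_range.1 this
    omega
  have hJc : ∀ i ∈ J, ∀ j ∈ J, col i = col j := by
    intro i hi j hj
    rw [(Finset.mem_filter.1 hi).2, (Finset.mem_filter.1 hj).2]
  obtain ⟨i, hi, j, hj, hij, hcong⟩ := hh s J hJs hy
    (fun i hi j hj => hcol i (hJs i hi) j (hJs j hj) (hJc i hi j hj))
    (fun i hi j hj p _ => hL L u q hC hA s i (hJs i hi) j (hJs j hj)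
      (hcol i (hJs i hi) j (hJs j hj) (hJc i hi j hj)) p)
  have hjs := hJs j hj
  -- the number of squares
  set d : ℕ := nvar (F L u q s i) - nvar (F L u q s j) with hd
  have hZ := nvar_Z (L := L) (fun x hx => (hC.range x hx).1)
  have hpos := hC.sum_pos
  have hPM : nvar (ZM L) < nvar (ZP L) := by omega
  obtain ⟨t, ht⟩ : ∃ t, j = i + t := ⟨j - i, by omega⟩
  obtain ⟨r, hr⟩ : ∃ r, s = j + r := ⟨s - j, by omega⟩
  obtain ⟨w, hw⟩ : ∃ w, nvar (ZP L) = nvar (ZM L) + w := ⟨nvar (ZP L) - nvar (ZM L), by omega⟩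
  have hwpos : 0 < w := by omega
  have htpos : 0 < t := by omega
  have hNi : nvar (F L u q s i) = nvar (F L u q s j) + 8 * (t * w) := by
    rw [nvar_F hA, nvar_F hA, hw]
    have e1 : s - i = r + t := by omega
    have e2 : s - j = r := by omega
    rw [e1, e2, ht]; ring
  have hdval : d = 8 * (t * w) := by omega
  have hdpos : 0 < d := by rw [hdval]; positivity
  refine ⟨List.replicate d [2] ++ F L u q s j, F L u q s i, ?_, ?_, ?_, ?_, ?_, ?_, ?_, ?_, ?_⟩
  · intro c hc
    rcases List.mem_append.1 hc with hc | hc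
    · rw [List.eq_of_mem_replicate hc]
      refine ⟨by simp, ?_⟩
      intro a ha; simp at ha; omega
    · obtain ⟨h1, h2, -⟩ := good_F hC hA hc
      exact ⟨h1, h2⟩
  · intro c hc
    obtain ⟨h1, h2, -⟩ := good_F hC hA hc
    exact ⟨h1, h2⟩
  · rw [nvar_append, nvar_replicate, hNi, hdval]
    simp only [List.length_cons, List.length_nil]
    ring
  · rw [nvar_append, nvar_F hA]; omega
  · rw [nvar_append, nvar_replicate, hdval, nvar_F hA]
    simp only [List.length_cons, List.length_nil]
    have : 8 * (t * w) * (0 + 1) + (24 + 8 * (s - j) * nvar (ZP L) + 8 * j * nvar (ZM L)) =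
      8 * (t * w + 3 + (s - j) * nvar (ZP L) + j * nvar (ZM L)) := by ring
    rw [this]
    exact dvd_mul_right _ _
  · exact List.mem_append_left _ (List.mem_replicate.2 ⟨hdpos.ne', rfl⟩)
  · exact three_mem_F _ _ _ _ _
  · intro c hc
    exact (good_F hC hA hc).2.2
  · exact Cong.symm (Cong.trans hcong (cong_two d _))

theorem INT_of (hR : RATB) (hL : LOCS) (hG : GLOBS) : INT :=
  INT_ofQ hR (fun L u q hC hA s i hi j hj _ p _ => hL L u q hC hA s i hi j hj p) hG

end Crest.Agent.R267.P4Asm_780
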