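import Mathlib
import Crest.Agent.R267.P4Defs_780
import Crest.Agent.R267.P41_339
import Crest.Agent.R267.P4Asm_780

/-!
# S0407, node P4.5e (helper235): `L_F + L_Fᵀ` and `L_F - L_Fᵀ` are invertible over `ℚ`
-/

set_option autoImplicit false

namespace Crest.Agent.R267.P45e_235

open Polynomial Matrix Crest.Agent.R267.P4Defs_780 Crest.Agent.R267.P41_339
  Crest.Agent.R267.P4Asm_780
open scoped Kronecker

/-! ### polynomial identities -/

lemma neg_one_part {R : Type*} [Ring R] (T : R) {n : ℕ} (hn : Odd n) (hT : T ^ n = 1) :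
    ∃ G : R, (1 + T) * G = 2 := by
  have h : (X + 1 : ℤ[X]) ∣ X ^ n + 1 := by
    have := hn.add_dvd_pow_add_pow (X : ℤ[X]) 1
    simpa using this
  obtain ⟨g, hg⟩ := h
  refine ⟨aeval T g, ?_⟩
  have h1 := congrArg (aeval T) hg
  simp only [map_add, map_mul, map_pow, aeval_X, map_one] at h1
  rw [hT] at h1
  rw [add_comm 1 T, ← h1]
  norm_num

lemma one_part {R : Type*} [Ring R] (T : R) {q M : ℕ}
    (hT : ∑ i ∈ Finset.range q, (T ^ M) ^ i = 0) :
    ∃ G : R, (1 - T) * G = (q : R) := by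
  have h : (1 - X : ℤ[X]) ∣ ∑ i ∈ Finset.range q, (1 - (X ^ M) ^ i) := by
    apply Finset.dvd_sum
    intro i _
    rw [← pow_mul]
    have := sub_dvd_pow_sub_pow (1 : ℤ[X]) X (M * i)
    simpa using this
  obtain ⟨g, hg⟩ := h
  refine ⟨aeval T g, ?_⟩
  have h1 := congrArg (aeval T) hg
  simp only [map_sum, map_sub, map_mul, map_pow, aeval_X, map_one] at h1
  rw [← h1, Finset.sum_sub_distrib, hT]
  simp

/-! ### the monodromy of a system -/

/-- monodromy of a chain up to sign: `ω ^ mu (tail)` -/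
noncomputable def monoMat : (c : List ℕ) → Matrix (Fin (mu c)) (Fin (mu c)) ℤ
  | [] => 1
  | a :: l => compMat (a :: l) ^ mu l

/-- monodromy of a system up to sign -/
noncomputable def sysMono : (S : List (List ℕ)) → Matrix (Idx S) (Idx S) ℤ
  | [] => 1
  | c :: S => Matrix.kroneckerMap (· * ·) (monoMat c) (sysMono S)

lemma sysMat_cons (c : List ℕ) (S : List (List ℕ)) :
    sysMat (c :: S) = (chainMat c ⊗ₖ sysMat S : Matrix (Fin (mu c) × Idx S) (Fin (mu c) × Idx S) ℤ) :=
  rfl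

lemma sysMono_cons (c : List ℕ) (S : List (List ℕ)) :
    sysMono (c :: S) =
      (monoMat c ⊗ₖ sysMono S : Matrix (Fin (mu c) × Idx S) (Fin (mu c) × Idx S) ℤ) :=
  rfl

lemma kron_pow {m n : Type*} [Fintype m] [DecidableEq m] [Fintype n] [DecidableEq n]
    (A : Matrix m m ℤ) (B : Matrix n n ℤ) (k : ℕ) : (A ⊗ₖ B) ^ k = (A ^ k) ⊗ₖ (B ^ k) := by
  induction k with
  | zero => simp
  | succ k ih => rw [pow_succ, pow_succ, pow_succ, ih, Matrix.mul_kronecker_mul]

lemma chain_transpose {c : List ℕ} (hne : c ≠ []) (h : Good c) :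
    (chainMat c)ᵀ = ((-1 : ℤ) ^ c.length) • (chainMat c * monoMat c) := by
  obtain ⟨a, l, rfl⟩ := List.exists_cons_of_ne_nil hne
  have h1 := chain_mono h
  have h2 : ((-1 : ℤ) ^ (l.length + 1)) * (-1) ^ (l.length + 1) = 1 := by
    rw [← mul_pow]; simp
  simp only [monoMat, List.length_cons]
  rw [h1, smul_smul, h2, one_smul]

lemma sys_transpose : ∀ (S : List (List ℕ)), (∀ c ∈ S, c ≠ [] ∧ Good c) →
    (sysMat S)ᵀ = ((-1 : ℤ) ^ nvar S) • (sysMat S * sysMono S)
  | [], _ => by simp [sysMat, sysMono, nvar]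
  | c :: S, h => by
      have ih := sys_transpose S (fun d hd => h d (List.mem_cons_of_mem _ hd))
      obtain ⟨hne, hg⟩ := h c List.mem_cons_self
      have hc := chain_transpose hne hg
      have hn : nvar (c :: S) = c.length + nvar S := by simp [nvar]
      change (chainMat c ⊗ₖ sysMat S)ᵀ =
        ((-1 : ℤ) ^ nvar (c :: S)) • ((chainMat c ⊗ₖ sysMat S) * (monoMat c ⊗ₖ sysMono S))
      rw [← Matrix.kroneckerMap_transpose, hc, ih, ← Matrix.mul_kronecker_mul,
        Matrix.smul_kronecker, Matrix.kronecker_smul, smul_smul, hn, pow_add]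

lemma sys_det : ∀ (S : List (List ℕ)), (∀ c ∈ S, c ≠ [] ∧ Good c) → (sysMat S).det = 1
  | [], _ => by simp [sysMat]
  | c :: S, h => by
      have ih := sys_det S (fun d hd => h d (List.mem_cons_of_mem _ hd))
      obtain ⟨hne, hg⟩ := h c List.mem_cons_self
      obtain ⟨a, l, rfl⟩ := List.exists_cons_of_ne_nil hne
      have hc := chain_det hg
      change (chainMat (a :: l) ⊗ₖ sysMat S).det = 1
      rw [Matrix.det_kronecker, hc, ih, one_pow, one_pow, one_mul]

lemma sysMono_pow (S : List (List ℕ)) {n : ℕ} (h : ∀ c ∈ S, monoMat c ^ n = 1) :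
    sysMono S ^ n = 1 := by
  induction S with
  | nil => simp [sysMono]
  | cons c S ih =>
      have ih' := ih (fun d hd => h d (List.mem_cons_of_mem _ hd))
      have hc := h c List.mem_cons_self
      change (monoMat c ⊗ₖ sysMono S) ^ n = 1
      rw [kron_pow, hc, ih', Matrix.one_kronecker_one]

lemma geom_kron_left {m n : Type*} [Fintype m] [DecidableEq m] [Fintype n] [DecidableEq n]
    (A : Matrix m m ℤ) (q : ℕ) (hA : ∑ i ∈ Finset.range q, A ^ i = 0) :
    ∑ i ∈ Finset.range q, (A ⊗ₖ (1 : Matrix n n ℤ)) ^ i = 0 := by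
  have h1 : ∀ i, (A ⊗ₖ (1 : Matrix n n ℤ)) ^ i = (A ^ i) ⊗ₖ (1 : Matrix n n ℤ) := by
    intro i; rw [kron_pow, one_pow]
  simp only [h1]
  have h2 : ∀ s : Finset ℕ, ∑ i ∈ s, (A ^ i) ⊗ₖ (1 : Matrix n n ℤ) =
      (∑ i ∈ s, A ^ i) ⊗ₖ (1 : Matrix n n ℤ) := by
    intro s
    induction s using Finset.induction_on with
    | empty => simp
    | insert a s ha ih => rw [Finset.sum_insert ha, Finset.sum_insert ha, ih,
        Matrix.add_kronecker]
  rw [h2, hA, Matrix.zero_kronecker]

lemma geom_kron_right {m n : Type*} [Fintype m] [DecidableEq m] [Fintype n] [DecidableEq n]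
    (A : Matrix n n ℤ) (q : ℕ) (hA : ∑ i ∈ Finset.range q, A ^ i = 0) :
    ∑ i ∈ Finset.range q, ((1 : Matrix m m ℤ) ⊗ₖ A) ^ i = 0 := by
  have h1 : ∀ i, ((1 : Matrix m m ℤ) ⊗ₖ A) ^ i = (1 : Matrix m m ℤ) ⊗ₖ (A ^ i) := by
    intro i; rw [kron_pow, one_pow]
  simp only [h1]
  have h2 : ∀ s : Finset ℕ, ∑ i ∈ s, (1 : Matrix m m ℤ) ⊗ₖ (A ^ i) =
      (1 : Matrix m m ℤ) ⊗ₖ (∑ i ∈ s, A ^ i) := by
    intro s
    induction s using Finset.induction_on with
    | empty => simp
    | insert a s ha ih => rw [Finset.sum_insert ha, Finset.sum_insert ha, ih,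
        Matrix.kronecker_add]
  rw [h2, hA, Matrix.kronecker_zero]

/-- one block `c` whose `N`-th power satisfies the cyclotomic relation, all others killed. -/
lemma sysMono_geom (S₁ S₂ : List (List ℕ)) (c : List ℕ) {N q : ℕ}
    (h1 : ∀ d ∈ S₁, monoMat d ^ N = 1) (h2 : ∀ d ∈ S₂, monoMat d ^ N = 1)
    (hc : ∑ i ∈ Finset.range q, (monoMat c ^ N) ^ i = 0) :
    ∑ i ∈ Finset.range q, (sysMono (S₁ ++ c :: S₂) ^ N) ^ i = 0 := by
  induction S₁ with
  | nil =>
      have h3 := sysMono_pow S₂ h2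
      change ∑ i ∈ Finset.range q, ((monoMat c ⊗ₖ sysMono S₂) ^ N) ^ i = 0
      rw [kron_pow, h3]
      exact geom_kron_left _ q hc
  | cons d S₁ ih =>
      have ih' := ih (fun e he => h1 e (List.mem_cons_of_mem _ he))
      have hd := h1 d List.mem_cons_self
      change ∑ i ∈ Finset.range q, ((monoMat d ⊗ₖ sysMono (S₁ ++ c :: S₂)) ^ N) ^ i = 0
      rw [kron_pow, hd]
      exact geom_kron_right _ q ih'

/-! ### orders of the monodromies -/

lemma chainOf_good {a b : ℕ} (h : 2 * a < b) : Good (chainOf a b) :=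
  Good.of_two (chainOf_two_le a b h)

lemma mu_tail_mul (b : ℕ) : ∀ (a : ℕ), 0 < a → 2 * a < b →
    mu (chainOf (b % a) b) * b = a * (chainOf a b).prod := by
  intro a
  induction a using Nat.strong_induction_on with
  | _ a ih =>
    intro ha hab
    have hlt := Nat.mod_lt b ha
    rw [chainOf_pos ha, List.prod_cons]
    have hdm := Nat.div_add_mod b a
    rcases Nat.eq_zero_or_pos (b % a) with h0 | h1
    · rw [h0, chainOf_zero]
      rw [h0, add_zero] at hdm
      simp only [mu, List.prod_nil, one_mul, mul_one]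
      exact hdm.symm
    · have key := ih (b % a) hlt h1 (by omega)
      have hg : Good (chainOf (b % a) b) := chainOf_good (by omega)
      rw [chainOf_pos h1] at hg
      have hmu := mu_add_mu (a := b / (b % a)) (l := chainOf (b % (b % a)) b) hg.head
      rw [chainOf_pos h1, List.prod_cons] at key
      rw [chainOf_pos h1, List.prod_cons]
      set p := b / (b % a) * (chainOf (b % (b % a)) b).prod with hp
      set m := mu (b / (b % a) :: chainOf (b % (b % a)) b)
      set m' := mu (chainOf (b % (b % a)) b)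
      have e1 : m * b + m' * b = p * b := by rw [← add_mul, hmu]
      have e2 : p * b = p * (a * (b / a)) + p * (b % a) := by rw [← mul_add, hdm]
      nlinarith [e1, e2, key]

lemma monoMat_chainOf_pow {a b : ℕ} (ha : 0 < a) (hab : 2 * a < b) :
    monoMat (chainOf a b) ^ b = 1 := by
  have hg := chainOf_good hab
  have hm := mu_tail_mul b a ha hab
  have hp := comp_pow_prod hg
  rw [chainOf_pos ha] at hm hp hg ⊢
  simp only [monoMat]
  rw [← pow_mul, hm, mul_comm a, pow_mul, hp, one_pow]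

lemma monoMat_single (x : ℕ) : monoMat [x] = compMat [x] := pow_one _

lemma monoMat_single_pow {x : ℕ} (hx : 2 ≤ x) : monoMat [x] ^ x = 1 := by
  have hg : Good [x] := by intro a ha; simp at ha; omega
  have hp := comp_pow_prod hg
  rw [monoMat_single]
  simpa using hp

lemma monoMat_Z {L : List (ℕ × ℕ × ℤ)} {u : ℕ} (hC : Cert L u) {c : List ℕ}
    (hc : c ∈ ZP L ∨ c ∈ ZM L) : monoMat c ^ (3 * u) = 1 := by
  have hex : ∃ x ∈ L, c = chainOf x.1 x.2.1 ∨ c = chainOf (x.2.1 % x.1) x.2.1 := by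
    rcases hc with hc | hc
    · simp only [ZP, List.mem_filter, List.mem_flatMap] at hc
      obtain ⟨⟨x, hx, hcx⟩, -⟩ := hc
      refine ⟨x, hx, ?_⟩
      simp only [blockP, List.mem_append, List.mem_replicate] at hcx
      tauto
    · simp only [ZM, List.mem_filter, List.mem_flatMap] at hc
      obtain ⟨⟨x, hx, hcx⟩, -⟩ := hc
      refine ⟨x, hx, ?_⟩
      simp only [blockM, List.mem_append, List.mem_replicate] at hcx
      tauto
  obtain ⟨x, hx, hcx⟩ := hex
  obtain ⟨h1, h2, -, h3⟩ := hC.range x hx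
  have hb : monoMat c ^ x.2.1 = 1 := by
    rcases hcx with rfl | rfl
    · exact monoMat_chainOf_pow h1 h2
    · have h4 := Nat.mod_lt x.2.1 h1
      rcases Nat.eq_zero_or_pos (x.2.1 % x.1) with h0 | h5
      · rw [h0, chainOf_zero]; simp [monoMat]
      · exact monoMat_chainOf_pow h5 (by omega)
  have hd : x.2.1 ∣ 3 * u := by
    rcases h3 with h3 | h3 <;> rw [h3]
    exact Dvd.intro_left 3 rfl
  obtain ⟨k, hk⟩ := hd
  rw [hk, pow_mul, hb, one_pow]

lemma pow_of_dvd {R : Type*} [Monoid R] {x : R} {m n : ℕ} (h : x ^ m = 1) (hd : m ∣ n) :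
    x ^ n = 1 := by
  obtain ⟨k, rfl⟩ := hd
  rw [pow_mul, h, one_pow]

/-- the part of `F` before the auxiliary blocks -/
noncomputable def F₀ (L : List (ℕ × ℕ × ℤ)) (u : ℕ) (s j : ℕ) : List (List ℕ) :=
  rep 8 [[3]] ++ rep 8 [[u]] ++ rep (8 * (s - j)) (ZP L) ++ rep (8 * j) (ZM L)

lemma F_eq (L : List (ℕ × ℕ × ℤ)) (u : ℕ) (q : List ℕ) (s j : ℕ) :
    F L u q s j = F₀ L u s j ++ q.map (fun x => [x]) := rfl

lemma monoMat_F₀ {L : List (ℕ × ℕ × ℤ)} {u : ℕ} (hC : Cert L u) {s j : ℕ} {c : List ℕ}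
    (hc : c ∈ F₀ L u s j) : monoMat c ^ (3 * u) = 1 := by
  simp only [F₀, List.mem_append] at hc
  rcases hc with ((hc | hc) | hc) | hc
  · have := mem_rep hc; simp at this; subst this
    exact pow_of_dvd (monoMat_single_pow (by norm_num)) (Dvd.intro _ rfl)
  · have := mem_rep hc; simp at this; subst this
    have := hC.big
    exact pow_of_dvd (monoMat_single_pow (by omega)) (Dvd.intro_left _ rfl)
  · exact monoMat_Z hC (Or.inl (mem_rep hc))
  · exact monoMat_Z hC (Or.inr (mem_rep hc))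

lemma odd_of_prime_big {p : ℕ} (hp : p.Prime) (h : 3 < p) : Odd p := by
  rcases hp.eq_two_or_odd' with h' | h'
  · omega
  · exact h'

lemma odd_prod_of {q : List ℕ} (h : ∀ x ∈ q, Odd x) : Odd q.prod := by
  induction q with
  | nil => simp
  | cons a q ih =>
      rw [List.prod_cons]
      exact (h a List.mem_cons_self).mul (ih (fun x hx => h x (List.mem_cons_of_mem _ hx)))

/-- finite odd order -/
lemma sysMono_F_odd {L : List (ℕ × ℕ × ℤ)} {u : ℕ} {q : List ℕ} (hC : Cert L u) (hA : Aux u q)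
    (s j : ℕ) : ∃ n, Odd n ∧ sysMono (F L u q s j) ^ n = 1 := by
  refine ⟨3 * u * q.prod, ?_, ?_⟩
  · refine (((by decide : Odd 3).mul (odd_of_prime_big hC.prime hC.big)).mul ?_)
    exact odd_prod_of (fun x hx => odd_of_prime_big (hA.prime x hx) (hA.big x hx).1)
  · apply sysMono_pow
    intro c hc
    rw [F_eq, List.mem_append, List.mem_map] at hc
    rcases hc with hc | ⟨x, hx, rfl⟩
    · exact pow_of_dvd (monoMat_F₀ hC hc) (Dvd.intro _ rfl)
    · have := (hA.big x hx).1
      exact pow_of_dvd (monoMat_single_pow (by omega))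
        (Dvd.dvd.mul_left (List.dvd_prod hx) _)

/-- the cyclotomic relation for `[x]` -/
lemma monoMat_single_geom {x : ℕ} (hx : 2 ≤ x) : ∑ i ∈ Finset.range x, monoMat [x] ^ i = 0 := by
  have hg : Good [x] := by intro a ha; simp at ha; omega
  have hphi : phi [x] = ∑ i ∈ Finset.range x, (X : ℤ[X]) ^ i := by
    have h1 := phi_mul hg
    simp only [List.prod_nil, mul_one] at h1
    have h2 : (∑ i ∈ Finset.range x, (X : ℤ[X]) ^ i) * phi [] = X ^ x - 1 := by
      simp only [phi]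
      exact geom_sum_mul _ _
    have hne : phi [] ≠ 0 := by
      simp only [phi]
      exact X_sub_C_ne_zero (1 : ℤ) |> fun h => by simpa using h
    exact mul_right_cancel₀ hne (h1.trans h2.symm)
  have h3 := comp_phi hg
  rw [hphi, map_sum] at h3
  rw [monoMat_single]
  simpa using h3

/-- no eigenvalue one -/
lemma sysMono_F_geom {L : List (ℕ × ℕ × ℤ)} {u : ℕ} {q : List ℕ} (hC : Cert L u) (hA : Aux u q)
    (s j : ℕ) : ∃ x N : ℕ, x ≠ 0 ∧
      ∑ i ∈ Finset.range x, (sysMono (F L u q s j) ^ N) ^ i = 0 := by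
  have hlen := hA.length
  obtain ⟨x, q', rfl⟩ : ∃ x q', q = x :: q' := by
    rcases q with _ | ⟨x, q'⟩
    · simp at hlen
    · exact ⟨x, q', rfl⟩
  have hxp := hA.prime x List.mem_cons_self
  have hxb := hA.big x List.mem_cons_self
  have hnd := hA.nodup
  rw [List.nodup_cons] at hnd
  have hcop : Nat.Coprime (3 * u * q'.prod) x := by
    apply Nat.Coprime.mul_left
    · apply Nat.Coprime.mul_left
      · exact (Nat.coprime_primes Nat.prime_three hxp).2 (by omega)
      · exact (Nat.coprime_primes hC.prime hxp).2 (Ne.symm hxb.2)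
    · have : ∀ l : List ℕ, (∀ y ∈ l, y.Prime ∧ y ≠ x) → Nat.Coprime l.prod x := by
        intro l
        induction l with
        | nil => intro _; simp
        | cons y l ih =>
            intro h
            rw [List.prod_cons]
            apply Nat.Coprime.mul_left
            · exact (Nat.coprime_primes (h y List.mem_cons_self).1 hxp).2
                (h y List.mem_cons_self).2
            · exact ih (fun z hz => h z (List.mem_cons_of_mem _ hz))
      apply this
      intro y hy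
      refine ⟨hA.prime y (List.mem_cons_of_mem _ hy), ?_⟩
      rintro rfl
      exact hnd.1 hy
  obtain ⟨t, -, ht⟩ := Nat.exists_mul_mod_eq_one_of_coprime hcop hxp.one_lt
  refine ⟨x, 3 * u * q'.prod * t, hxp.ne_zero, ?_⟩
  rw [F_eq, List.map_cons]
  apply sysMono_geom
  · intro d hd
    exact pow_of_dvd (monoMat_F₀ hC hd) ⟨q'.prod * t, by ring⟩
  · intro d hd
    rw [List.mem_map] at hd
    obtain ⟨y, hy, rfl⟩ := hd
    have := (hA.big y (List.mem_cons_of_mem _ hy)).1
    exact pow_of_dvd (monoMat_single_pow (by omega))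
      (Dvd.dvd.mul_right (Dvd.dvd.mul_left (List.dvd_prod hy) _) _)
  · have hx2 : 2 ≤ x := hxp.two_le
    have h1 : monoMat [x] ^ (3 * u * q'.prod * t) = monoMat [x] := by
      rw [← Nat.div_add_mod (3 * u * q'.prod * t) x, pow_add, pow_mul,
        monoMat_single_pow hx2, one_pow, one_mul, ht, pow_one]
    rw [h1]
    exact monoMat_single_geom hx2

/-! ### the result -/

lemma det_ne_zero_of_mul {ι : Type*} [Fintype ι] [DecidableEq ι] {A G : Matrix ι ι ℤ} {k : ℤ}
    (hk : k ≠ 0) (h : A * G = Matrix.scalar ι k) : A.det ≠ 0 := by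
  intro h0
  have h1 := congrArg Matrix.det h
  rw [Matrix.det_mul, h0, zero_mul] at h1
  have h2 : (Matrix.scalar ι k).det = k ^ Fintype.card ι := by
    rw [Matrix.scalar_apply, Matrix.det_diagonal, Finset.prod_const, Finset.card_univ]
  rw [h2] at h1
  exact pow_ne_zero _ hk h1.symm

lemma good_F' {L : List (ℕ × ℕ × ℤ)} {u : ℕ} {q : List ℕ} (hC : Cert L u) (hA : Aux u q)
    (s j : ℕ) : ∀ c ∈ F L u q s j, c ≠ [] ∧ Good c := fun _ hc =>
  ⟨(good_F hC hA hc).1, Good.of_two (good_F hC hA hc).2.1⟩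

theorem transpose_F {L : List (ℕ × ℕ × ℤ)} {u : ℕ} {q : List ℕ} (hC : Cert L u) (hA : Aux u q)
    (s j : ℕ) : (sysMat (F L u q s j))ᵀ = sysMat (F L u q s j) * sysMono (F L u q s j) := by
  rw [sys_transpose _ (good_F' hC hA s j)]
  have h : Even (nvar (F L u q s j)) := by
    rw [nvar_F hA]
    refine ⟨12 + 4 * (s - j) * nvar (ZP L) + 4 * j * nvar (ZM L), by ring⟩
  rw [h.neg_one_pow, one_smul]

theorem det_add_ne {L : List (ℕ × ℕ × ℤ)} {u : ℕ} {q : List ℕ} (hC : Cert L u) (hA : Aux u q)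
    (s j : ℕ) : (sysMat (F L u q s j) + (sysMat (F L u q s j))ᵀ).det ≠ 0 := by
  obtain ⟨n, hn, hT⟩ := sysMono_F_odd hC hA s j
  obtain ⟨G, hG⟩ := neg_one_part _ hn hT
  have h1 : sysMat (F L u q s j) + (sysMat (F L u q s j))ᵀ =
      sysMat (F L u q s j) * (1 + sysMono (F L u q s j)) := by
    rw [transpose_F hC hA, Matrix.mul_add, Matrix.mul_one]
  rw [h1, Matrix.det_mul, sys_det _ (good_F' hC hA s j), one_mul]
  apply det_ne_zero_of_mul (k := 2) (by norm_num) (G := G)
  rw [hG]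
  simp

theorem det_sub_ne {L : List (ℕ × ℕ × ℤ)} {u : ℕ} {q : List ℕ} (hC : Cert L u) (hA : Aux u q)
    (s j : ℕ) : (sysMat (F L u q s j) - (sysMat (F L u q s j))ᵀ).det ≠ 0 := by
  obtain ⟨x, N, hx, hT⟩ := sysMono_F_geom hC hA s j
  obtain ⟨G, hG⟩ := one_part _ hT
  have h1 : sysMat (F L u q s j) - (sysMat (F L u q s j))ᵀ =
      sysMat (F L u q s j) * (1 - sysMono (F L u q s j)) := by
    rw [transpose_F hC hA, Matrix.mul_sub, Matrix.mul_one]
  rw [h1, Matrix.det_mul, sys_det _ (good_F' hC hA s j), one_mul]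
  apply det_ne_zero_of_mul (k := x) (by exact_mod_cast hx) (G := G)
  rw [hG]
  simp

/-- P4.5e -/
theorem isUnit_add {L : List (ℕ × ℕ × ℤ)} {u : ℕ} {q : List ℕ} (hC : Cert L u) (hA : Aux u q)
    (s j : ℕ) : IsUnit (((sysMat (F L u q s j)).map (Int.cast : ℤ → ℚ)) +
      ((sysMat (F L u q s j)).map (Int.cast : ℤ → ℚ))ᵀ).det := by
  have h : ((sysMat (F L u q s j)).map (Int.cast : ℤ → ℚ)) +
      ((sysMat (F L u q s j)).map (Int.cast : ℤ → ℚ))ᵀ =
      (sysMat (F L u q s j) + (sysMat (F L u q s j))ᵀ).map (Int.cast : ℤ → ℚ) := by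
    ext a b; simp
  rw [h, isUnit_iff_ne_zero]
  have h2 : ((sysMat (F L u q s j) + (sysMat (F L u q s j))ᵀ).map (Int.cast : ℤ → ℚ)).det =
      ((sysMat (F L u q s j) + (sysMat (F L u q s j))ᵀ).det : ℚ) :=
    ((Int.castRingHom ℚ).map_det _).symm
  rw [h2]
  exact_mod_cast det_add_ne hC hA s j

/-- P4.5e -/
theorem isUnit_sub {L : List (ℕ × ℕ × ℤ)} {u : ℕ} {q : List ℕ} (hC : Cert L u) (hA : Aux u q)
    (s j : ℕ) : IsUnit (((sysMat (F L u q s j)).map (Int.cast : ℤ → ℚ)) -
      ((sysMat (F L u q s j)).map (Int.cast : ℤ → ℚ))ᵀ).det := by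
  have h : ((sysMat (F L u q s j)).map (Int.cast : ℤ → ℚ)) -
      ((sysMat (F L u q s j)).map (Int.cast : ℤ → ℚ))ᵀ =
      (sysMat (F L u q s j) - (sysMat (F L u q s j))ᵀ).map (Int.cast : ℤ → ℚ) := by
    ext a b; simp
  rw [h, isUnit_iff_ne_zero]
  have h2 : ((sysMat (F L u q s j) - (sysMat (F L u q s j))ᵀ).map (Int.cast : ℤ → ℚ)).det =
      ((sysMat (F L u q s j) - (sysMat (F L u q s j))ᵀ).det : ℚ) :=
    ((Int.castRingHom ℚ).map_det _).symm
  rw [h2]
  exact_mod_cast det_sub_ne hC hA s j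

end Crest.Agent.R267.P45e_235
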