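import Mathlib
import Crest.Agent.R267.P4Herm_780

/-!
# S0407, node P4.8 (helper118): `U(H(R) ⊥ V) = E · D` over a reduced commutative artinian
`ℚ`-algebra with involution which has an element of trace one and a skew unit.
-/

set_option autoImplicit false

namespace Crest.Agent.R267.P48_118

open Crest.Agent.R267.P4Herm_780 Crest.Agent.R267.P4Herm_780.HForm

section ring

variable {R : Type*} [CommRing R] [IsArtinianRing R] [IsReduced R]

omit [IsReduced R] [IsArtinianRing R] in
theorem mk_eq_zero' (I : MaximalSpectrum R) (a : R) :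
    Ideal.Quotient.mk I.asIdeal a = 0 ↔ a ∈ I.asIdeal := Ideal.Quotient.eq_zero_iff_mem

theorem eq_of_mod {a b : R} (h : ∀ I : MaximalSpectrum R, a - b ∈ I.asIdeal) : a = b := by
  apply (IsArtinianRing.equivPi R).injective
  funext I
  rw [IsArtinianRing.equivPi_apply, IsArtinianRing.equivPi_apply]
  exact Ideal.Quotient.eq.2 (h I)

theorem exists_quasiInv (a : R) : ∃ b : R, a * a * b = a := by
  classical
  let : ∀ I : MaximalSpectrum R, Field (R ⧸ I.asIdeal) := fun I => Ideal.Quotient.field I.asIdeal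
  let v : ∀ I : MaximalSpectrum R, R ⧸ I.asIdeal := fun I => (Ideal.Quotient.mk I.asIdeal a)⁻¹
  obtain ⟨b, hb⟩ := (IsArtinianRing.equivPi R).surjective v
  refine ⟨b, ?_⟩
  apply (IsArtinianRing.equivPi R).injective
  rw [map_mul, map_mul, hb]
  funext I
  rw [Pi.mul_apply, Pi.mul_apply, IsArtinianRing.equivPi_apply]
  change (Ideal.Quotient.mk I.asIdeal a) * (Ideal.Quotient.mk I.asIdeal a) *
    (Ideal.Quotient.mk I.asIdeal a)⁻¹ = Ideal.Quotient.mk I.asIdeal a
  by_cases h : Ideal.Quotient.mk I.asIdeal a = 0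
  · rw [h]; simp
  · field_simp

omit [IsReduced R] in
theorem exists_rat [Algebra ℚ R] (P : Polynomial R) (S : Set (MaximalSpectrum R))
    (h : ∀ I ∈ S, ∃ n, P.coeff n ∉ I.asIdeal) :
    ∃ t : ℚ, ∀ I ∈ S, P.eval (algebraMap ℚ R t) ∉ I.asIdeal := by
  classical
  let : ∀ I : MaximalSpectrum R, Field (R ⧸ I.asIdeal) := fun I => Ideal.Quotient.field I.asIdeal
  let bad : MaximalSpectrum R → Set ℚ := fun I =>
    {t : ℚ | I ∈ S ∧ P.eval (algebraMap ℚ R t) ∈ I.asIdeal}
  have hbad : ∀ I, (bad I).Finite := by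
    intro I
    by_cases hI : I ∈ S
    · obtain ⟨n, hn⟩ := h I hI
      let Q := P.map (Ideal.Quotient.mk I.asIdeal)
      have hQ : Q ≠ 0 := by
        intro h0
        apply hn
        have := congrArg (fun p => Polynomial.coeff p n) h0
        simp only [Q, Polynomial.coeff_map, Polynomial.coeff_zero] at this
        exact (mk_eq_zero' I _).1 this
      have hfin : (Q.roots.toFinset : Set (R ⧸ I.asIdeal)).Finite := Finset.finite_toSet _
      have hinj : Function.Injective (fun t : ℚ => Ideal.Quotient.mk I.asIdeal (algebraMap ℚ R t)) := by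
        have := ((Ideal.Quotient.mk I.asIdeal).comp (algebraMap ℚ R)).injective
        exact this
      refine (hfin.preimage hinj.injOn).subset ?_
      rintro t ⟨_, ht⟩
      simp only [Set.mem_preimage, Finset.mem_coe, Multiset.mem_toFinset]
      rw [Polynomial.mem_roots hQ, Polynomial.IsRoot.def]
      simp only [Q]
      rw [Polynomial.eval_map, Polynomial.eval₂_hom]
      exact (mk_eq_zero' I _).2 ht
    · convert Set.finite_empty
      ext t; simp [bad, hI]
  have hU : (⋃ I, bad I).Finite := Set.finite_iUnion hbad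
  obtain ⟨t, ht⟩ := hU.infinite_compl.nonempty
  refine ⟨t, fun I hI hmem => ht ?_⟩
  exact Set.mem_iUnion.2 ⟨I, hI, hmem⟩

end ring


section mod

variable {R M : Type*} [CommRing R] [StarRing R] [AddCommGroup M] [Module R M] (H : HForm R M)

theorem h_zero_left (x : M) : H.h 0 x = 0 := by
  have := H.smul_left 0 0 x
  simpa using this

theorem h_zero_right (x : M) : H.h x 0 = 0 := by
  have := H.smul_right 0 x 0
  simpa using this

theorem h_neg_left (x y : M) : H.h (-x) y = - H.h x y := by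
  have := H.smul_left (-1) x y
  simpa using this

theorem h_neg_right (x y : M) : H.h x (-y) = - H.h x y := by
  have := H.smul_right (-1) x y
  simpa using this

theorem h_sub_right (x y z : M) : H.h x (y - z) = H.h x y - H.h x z := by
  rw [sub_eq_add_neg, H.add_right, h_neg_right, sub_eq_add_neg]

theorem h_self_star (x : M) : star (H.h x x) = H.h x x := H.symm x x

theorem E_inv {w : M} {r : R} (hr : r + star r = - H.h w w) :
    (H.E (-w) (star r)).comp (H.E w r) = LinearMap.id := by
  ext v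
  all_goals simp [HForm.E, h_neg_left, h_zero_right]
  all_goals linear_combination hr

theorem F_inv {w : M} {r : R} (hr : r + star r = - H.h w w) :
    (H.F' (-w) (star r)).comp (H.F' w r) = LinearMap.id := by
  ext v
  all_goals simp [HForm.F', h_neg_left, h_zero_right]
  all_goals linear_combination hr

theorem D_inv (l : Rˣ) : (HForm.D M l⁻¹).comp (HForm.D M l) = LinearMap.id := by
  have h1 : star (l : R) * star ((l⁻¹ : Rˣ) : R) = 1 := by
    rw [← star_mul']; simp
  ext v
  all_goals simp [HForm.D]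
  rw [h1]

theorem gen_of_E {w : M} {r : R} (hr : r + star r = - H.h w w)
    {g : (R × R × M) →ₗ[R] (R × R × M)} (h : Gen H ((H.E w r).comp g)) : Gen H g := by
  have h1 : star r + star (star r) = - H.h (-w) (-w) := by
    rw [h_neg_left, h_neg_right, neg_neg, star_star, add_comm]; exact hr
  have h2 := Gen.E (-w) (star r) h1 _ h
  rwa [← LinearMap.comp_assoc, E_inv H hr, LinearMap.id_comp] at h2

theorem gen_of_F {w : M} {r : R} (hr : r + star r = - H.h w w)
    {g : (R × R × M) →ₗ[R] (R × R × M)} (h : Gen H ((H.F' w r).comp g)) : Gen H g := by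
  have h1 : star r + star (star r) = - H.h (-w) (-w) := by
    rw [h_neg_left, h_neg_right, neg_neg, star_star, add_comm]; exact hr
  have h2 := Gen.F' (-w) (star r) h1 _ h
  rwa [← LinearMap.comp_assoc, F_inv H hr, LinearMap.id_comp] at h2

theorem gen_of_D (l : Rˣ)
    {g : (R × R × M) →ₗ[R] (R × R × M)} (h : Gen H ((HForm.D M l).comp g)) : Gen H g := by
  have h2 := Gen.D l⁻¹ _ h
  rwa [← LinearMap.comp_assoc, D_inv l, LinearMap.id_comp] at h2

/-- isometries (not assumed bijective). -/
def Is (g : (R × R × M) →ₗ[R] (R × R × M)) : Prop :=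
  ∀ x y, H.hyp.h (g x) (g y) = H.hyp.h x y

variable {H}

theorem Is.E {g : (R × R × M) →ₗ[R] (R × R × M)} (hg : Is H g) {w : M} {r : R}
    (hr : r + star r = - H.h w w) : Is H ((H.E w r).comp g) := fun x y => by
  rw [LinearMap.comp_apply, LinearMap.comp_apply, H.E_isom hr, hg]

theorem Is.F {g : (R × R × M) →ₗ[R] (R × R × M)} (hg : Is H g) {w : M} {r : R}
    (hr : r + star r = - H.h w w) : Is H ((H.F' w r).comp g) := fun x y => by
  rw [LinearMap.comp_apply, LinearMap.comp_apply, H.F'_isom hr, hg]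

theorem Is.D {g : (R × R × M) →ₗ[R] (R × R × M)} (hg : Is H g) (l : Rˣ) :
    Is H ((HForm.D M l).comp g) := fun x y => by
  rw [LinearMap.comp_apply, LinearMap.comp_apply, H.D_isom, hg]

end mod


section main

variable {R M : Type*} [CommRing R] [StarRing R] [Algebra ℚ R] [IsArtinianRing R] [IsReduced R]
  [AddCommGroup M] [Module R M]

omit [IsArtinianRing R] [IsReduced R] in
theorem star_rat (t : ℚ) : star (algebraMap ℚ R t) = algebraMap ℚ R t :=
  (starRingEnd R).map_rat_algebraMap t

omit [StarRing R] [Algebra ℚ R] [IsArtinianRing R] [IsReduced R] in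
theorem isUnit_of_forall {a : R} (h : ∀ I : MaximalSpectrum R, a ∉ I.asIdeal) : IsUnit a := by
  by_contra hu
  obtain ⟨m, hm, ha⟩ := exists_max_ideal_of_mem_nonunits hu
  exact h ⟨m, hm⟩ ha

omit [StarRing R] [Algebra ℚ R] [IsArtinianRing R] [IsReduced R] in
theorem cubic_coeff (b n A B : R) :
    (Polynomial.C b - Polynomial.C n * Polynomial.X - Polynomial.C A * Polynomial.X ^ 2
      + Polynomial.C B * Polynomial.X ^ 3).coeff 0 = b ∧
    (Polynomial.C b - Polynomial.C n * Polynomial.X - Polynomial.C A * Polynomial.X ^ 2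
      + Polynomial.C B * Polynomial.X ^ 3).coeff 1 = - n ∧
    (Polynomial.C b - Polynomial.C n * Polynomial.X - Polynomial.C A * Polynomial.X ^ 2
      + Polynomial.C B * Polynomial.X ^ 3).coeff 3 = B := by
  refine ⟨?_, ?_, ?_⟩ <;> simp [Polynomial.coeff_X, Polynomial.coeff_C, Polynomial.coeff_X_pow]

variable (H : HForm R M)

omit [IsReduced R] in
/-- the base case: everything in `V` is fixed. -/
theorem base (hG : Good R) (hnd : ∀ x, (∀ z, H.h z x = 0) → x = 0)
    (g : (R × R × M) →ₗ[R] (R × R × M)) (hg : Is H g)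
    (hfix : ∀ y, g (0, 0, y) = (0, 0, y)) : Gen H g := by
  obtain ⟨d0, hd0u, hd0⟩ := hG.skew
  -- the images of `e` and `f`
  have hV : ∀ v : R × R × M, v.2.2 = 0 → (g v).2.2 = 0 := by
    intro v hv
    apply hnd
    intro z
    have h1 := hg (0, 0, z) v
    rw [hfix] at h1
    simp [HForm.hyp] at h1
    rw [h1, hv, h_zero_right]
  obtain ⟨a, b, w, he⟩ : ∃ a b w, g (1, 0, 0) = (a, b, w) := ⟨_, _, _, rfl⟩
  have hw : w = 0 := by simpa [he] using hV (1, 0, 0) rfl
  subst hw
  obtain ⟨c, d, w, hf⟩ : ∃ c d w, g (0, 1, 0) = (c, d, w) := ⟨_, _, _, rfl⟩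
  have hw : w = 0 := by simpa [hf] using hV (0, 1, 0) rfl
  subst hw
  have hee : star a * b + star b * a = 0 := by
    have h1 := hg (1, 0, 0) (1, 0, 0)
    rw [he] at h1
    simpa [HForm.hyp, h_zero_right] using h1
  have hef : star a * d + star b * c = 1 := by
    have h1 := hg (1, 0, 0) (0, 1, 0)
    rw [he, hf] at h1
    simpa [HForm.hyp, h_zero_right] using h1
  -- make `a` a unit
  obtain ⟨t, ht⟩ := exists_rat (R := R) (Polynomial.C a + Polynomial.X * Polynomial.C (d0 * b))
    Set.univ (by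
      intro I _
      by_contra hcon
      push Not at hcon
      have h0 := hcon 0
      have h1 := hcon 1
      simp at h0
      simp [Polynomial.coeff_C] at h1
      have hb : b ∈ I.asIdeal := by
        obtain ⟨u, hu⟩ := hd0u
        have := I.asIdeal.mul_mem_left ((u⁻¹ : Rˣ) : R) h1
        rw [← mul_assoc, ← hu, Units.inv_mul, one_mul] at this
        exact this
      have h2 : star (star a * d + star b * c) = 1 := by rw [hef, star_one]
      simp only [star_add, star_mul', star_star] at h2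
      have : (1 : R) ∈ I.asIdeal := by
        rw [← h2]
        exact I.asIdeal.add_mem (I.asIdeal.mul_mem_right _ h0) (I.asIdeal.mul_mem_right _ hb)
      exact I.isMaximal.ne_top ((Ideal.eq_top_iff_one _).2 this))
  have hau : IsUnit (a + algebraMap ℚ R t * d0 * b) := by
    apply isUnit_of_forall
    intro I hI
    apply ht I trivial
    simpa [mul_assoc] using hI
  have hr1 : (algebraMap ℚ R t * d0) + star (algebraMap ℚ R t * d0) = - H.h (0 : M) 0 := by
    rw [h_zero_right, star_mul', star_rat, hd0]; ring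
  apply gen_of_E H hr1
  have hg1 := hg.E hr1
  set g1 := (H.E 0 (algebraMap ℚ R t * d0)).comp g with hg1def
  set a1 := a + algebraMap ℚ R t * d0 * b with ha1
  have he1 : g1 (1, 0, 0) = (a1, b, 0) := by
    simp [hg1def, he, HForm.E, h_zero_right, ha1]
  have hf1 : ∃ c1, g1 (0, 1, 0) = (c1, d, 0) := by
    simp [hg1def, hf, HForm.E, h_zero_right]
  have hfix1 : ∀ y, g1 (0, 0, y) = (0, 0, y) := by
    intro y
    simp [hg1def, hfix, HForm.E, h_zero_left]
  obtain ⟨c1, hf1⟩ := hf1
  clear_value g1 a1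
  obtain ⟨u, hu⟩ := hau
  have hee1 : star a1 * b + star b * a1 = 0 := by
    have h1 := hg1 (1, 0, 0) (1, 0, 0)
    rw [he1] at h1
    simpa [HForm.hyp, h_zero_right] using h1
  -- kill `b`
  have huu : ((u⁻¹ : Rˣ) : R) * a1 = 1 := by rw [← hu]; simp
  have huu' : star ((u⁻¹ : Rˣ) : R) * star a1 = 1 := by
    rw [← star_mul', huu, star_one]
  have hr2 : (-(b * ((u⁻¹ : Rˣ) : R))) + star (-(b * ((u⁻¹ : Rˣ) : R))) = - H.h (0 : M) 0 := by
    rw [h_zero_right, star_neg, star_mul']
    linear_combination (-(((u⁻¹ : Rˣ) : R) * star ((u⁻¹ : Rˣ) : R))) * hee1 +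
      (b * ((u⁻¹ : Rˣ) : R)) * huu' + (star b * star ((u⁻¹ : Rˣ) : R)) * huu
  apply gen_of_F H hr2
  have hg2 := hg1.F hr2
  set g2 := (H.F' 0 (-(b * ((u⁻¹ : Rˣ) : R)))).comp g1 with hg2def
  have he2 : g2 (1, 0, 0) = (a1, 0, 0) := by
    simp [hg2def, he1, HForm.F', h_zero_right]
    rw [mul_assoc, huu, mul_one]; ring
  have hf2 : ∃ d2, g2 (0, 1, 0) = (c1, d2, 0) := by
    simp [hg2def, hf1, HForm.F', h_zero_right]
  have hfix2 : ∀ y, g2 (0, 0, y) = (0, 0, y) := by
    intro y
    simp [hg2def, hfix1, HForm.F', h_zero_left]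
  obtain ⟨d2, hf2⟩ := hf2
  clear_value g2
  -- normalise `a1`
  apply gen_of_D H (u⁻¹)
  have hg3 := hg2.D (u⁻¹)
  set g3 := (HForm.D M (u⁻¹)).comp g2 with hg3def
  have he3 : g3 (1, 0, 0) = (1, 0, 0) := by
    simp [hg3def, he2, HForm.D, huu]
  have hf3 : ∃ c3 d3, g3 (0, 1, 0) = (c3, d3, 0) := by
    simp [hg3def, hf2, HForm.D]
  have hfix3 : ∀ y, g3 (0, 0, y) = (0, 0, y) := by
    intro y
    simp [hg3def, hfix2, HForm.D]
  obtain ⟨c3, d3, hf3⟩ := hf3
  clear_value g3
  have hd3 : d3 = 1 := by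
    have h1 := hg3 (1, 0, 0) (0, 1, 0)
    rw [he3, hf3] at h1
    simpa [HForm.hyp, h_zero_right] using h1
  subst hd3
  have hc3 : star c3 + c3 = 0 := by
    have h1 := hg3 (0, 1, 0) (0, 1, 0)
    rw [hf3] at h1
    simpa [HForm.hyp, h_zero_right] using h1
  have hr4 : (-c3) + star (-c3) = - H.h (0 : M) 0 := by
    rw [h_zero_right, star_neg]; linear_combination - hc3
  apply gen_of_E H hr4
  have hid : (H.E 0 (-c3)).comp g3 = LinearMap.id := by
    apply LinearMap.ext
    rintro ⟨x, y, z⟩
    have hdec : ((x, y, z) : R × R × M) = x • ((1, 0, 0) : R × R × M) + y • ((0, 1, 0) : R × R × M)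
        + (0, 0, z) := by
      ext <;> simp
    rw [hdec]
    simp only [LinearMap.comp_apply, map_add, map_smul, he3, hf3, hfix3]
    ext <;> simp [HForm.E, h_zero_left]
  rw [hid]
  exact Gen.id

/-- the induction: `K` is the part of `V` which is fixed. -/
theorem step (hG : Good R) (hnd : ∀ x, (∀ z, H.h z x = 0) → x = 0)
    (K : Submodule R M) (hK : ∀ x, ∃ y ∈ K, ∀ z ∈ K, H.h z (x - y) = 0) (hKtop : K ≠ ⊤)
    (IH : ∀ K' : Submodule R M, K < K' → (∀ x, ∃ y ∈ K', ∀ z ∈ K', H.h z (x - y) = 0) →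
      ∀ g : (R × R × M) →ₗ[R] (R × R × M), Is H g → (∀ y ∈ K', g (0, 0, y) = (0, 0, y)) →
        Gen H g)
    (g : (R × R × M) →ₗ[R] (R × R × M)) (hg : Is H g)
    (hfix : ∀ y ∈ K, g (0, 0, y) = (0, 0, y)) : Gen H g := by
  obtain ⟨d0, hd0u, hd0⟩ := hG.skew
  obtain ⟨c0, hc0⟩ := hG.tr
  -- an anisotropic vector in the complement
  have hex : ∃ x : M, (∀ z ∈ K, H.h z x = 0) ∧ H.h x x ≠ 0 := by
    by_contra hcon
    push Not at hcon
    apply hKtop
    rw [Submodule.eq_top_iff']
    intro x
    obtain ⟨y, hy, hyz⟩ := hK x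
    have hxy : x - y = 0 := by
      apply hnd
      intro z
      obtain ⟨y', hy', hz'⟩ := hK z
      -- polarisation
      have key : ∀ u v : M, (∀ z ∈ K, H.h z u = 0) → (∀ z ∈ K, H.h z v = 0) →
          H.h u v + H.h v u = 0 := by
        intro u v hu hv
        have h1 := hcon (u + v) (fun z hz => by rw [H.add_right, hu z hz, hv z hz, add_zero])
        rw [H.add_right, H.add_left, H.add_left, hcon u hu, hcon v hv] at h1
        linear_combination h1
      have k1 := key (z - y') (x - y) hz' hyz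
      have k2 := key (z - y') (d0 • (x - y)) hz'
        (fun z hz => by rw [H.smul_right, hyz z hz, mul_zero])
      rw [H.smul_right, H.smul_left, hd0] at k2
      have k3 : H.h (z - y') (x - y) = 0 := by
        obtain ⟨u, hu⟩ := hd0u
        have e1 : d0 * (2 * H.h (z - y') (x - y)) = 0 := by linear_combination d0 * k1 + k2
        have e2 : 2 * H.h (z - y') (x - y) = 0 := by
          have e0 : ((u⁻¹ : Rˣ) : R) * (d0 * (2 * H.h (z - y') (x - y))) = 0 := by
            rw [e1, mul_zero]
          rwa [← mul_assoc, ← hu, Units.inv_mul, one_mul] at e0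
        have e3 : algebraMap ℚ R (1 / 2) * (2 * H.h (z - y') (x - y)) = 0 := by
          rw [e2, mul_zero]
        rw [← mul_assoc] at e3
        have e4 : algebraMap ℚ R (1 / 2) * 2 = 1 := by
          have h2 : (2 : R) = algebraMap ℚ R 2 := (map_ofNat (algebraMap ℚ R) 2).symm
          rw [h2, ← map_mul]; norm_num
        rwa [e4, one_mul] at e3
      have hz : z = (z - y') + y' := by abel
      rw [hz, H.add_left, k3, hyz y' hy', add_zero]
    have : x = y := sub_eq_zero.1 hxy
    rw [this]; exact hy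
  obtain ⟨x0, hx0K, hx0⟩ := hex
  obtain ⟨q0, hq0⟩ := exists_quasiInv (H.h x0 x0)
  set ε := H.h x0 x0 * q0 with hε
  have hα0s : star (H.h x0 x0) = H.h x0 x0 := H.symm x0 x0
  have hεs : star ε = ε := by
    have h1 : H.h x0 x0 * H.h x0 x0 * star q0 = H.h x0 x0 := by
      have := congrArg star hq0
      simpa only [star_mul', hα0s] using this
    rw [hε, star_mul', hα0s]
    linear_combination q0 * h1 - star q0 * hq0
  have hεα : H.h x0 x0 * ε = H.h x0 x0 := by rw [hε, ← mul_assoc]; exact hq0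
  have hεε : ε * ε = ε := by
    rw [hε]; linear_combination q0 * hq0
  set x1 := ε • x0 with hx1
  set α := H.h x1 x1 with hα
  have hαα : α = H.h x0 x0 := by
    rw [hα, hx1, H.smul_right, H.smul_left, hεs]
    linear_combination (1 + ε) * hεα
  have hx1K : ∀ z ∈ K, H.h z x1 = 0 := fun z hz => by
    rw [hx1, H.smul_right, hx0K z hz, mul_zero]
  have hαne : α ≠ 0 := by rw [hαα]; exact hx0
  have hεx1 : ε • x1 = x1 := by rw [hx1, smul_smul, hεε]
  have hεα1 : ε * α = α := by rw [hαα, mul_comm]; exact hεα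
  have hq1 : α * q0 = ε := by rw [hαα]
  have hαs : star α = α := H.symm x1 x1
  clear_value α
  clear_value x1
  clear_value ε
  -- general facts on isometries fixing `K`
  have horth : ∀ g : (R × R × M) →ₗ[R] (R × R × M), Is H g → (∀ y ∈ K, g (0, 0, y) = (0, 0, y)) →
      ∀ z ∈ K, H.h z (g (0, 0, x1)).2.2 = 0 := by
    intro g hg hfix z hz
    have h1 := hg (0, 0, z) (0, 0, x1)
    rw [hfix z hz] at h1
    simp [HForm.hyp] at h1
    rw [h1, hx1K z hz]
  have hεg : ∀ g : (R × R × M) →ₗ[R] (R × R × M), ε • g (0, 0, x1) = g (0, 0, x1) := by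
    intro g
    rw [← map_smul]
    congr 1
    ext <;> simp [hεx1]
  have hnorm : ∀ g : (R × R × M) →ₗ[R] (R × R × M), Is H g →
      H.hyp.h (g (0, 0, x1)) (g (0, 0, x1)) = α := by
    intro g hg
    rw [hg]
    simp [HForm.hyp, hα]
  have hEfix : ∀ (g : (R × R × M) →ₗ[R] (R × R × M)), (∀ y ∈ K, g (0, 0, y) = (0, 0, y)) →
      ∀ (w : M) (r : R), (∀ z ∈ K, H.h z w = 0) →
      ∀ y ∈ K, ((H.E w r).comp g) (0, 0, y) = (0, 0, y) := by
    intro g hfix w r hw y hy
    have : H.h w y = 0 := by rw [← H.symm, hw y hy, star_zero]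
    simp [hfix y hy, HForm.E, this]
  have hFfix : ∀ (g : (R × R × M) →ₗ[R] (R × R × M)), (∀ y ∈ K, g (0, 0, y) = (0, 0, y)) →
      ∀ (w : M) (r : R), (∀ z ∈ K, H.h z w = 0) →
      ∀ y ∈ K, ((H.F' w r).comp g) (0, 0, y) = (0, 0, y) := by
    intro g hfix w r hw y hy
    have : H.h w y = 0 := by rw [← H.symm, hw y hy, star_zero]
    simp [hfix y hy, HForm.F', this]
  -- step 1: make the second coordinate a unit on the support of `ε`
  obtain ⟨a, b, v, hx⟩ : ∃ a b v, g (0, 0, x1) = (a, b, v) := ⟨_, _, _, rfl⟩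
  have hvK : ∀ z ∈ K, H.h z v = 0 := by
    intro z hz
    have := horth g hg hfix z hz
    rwa [hx] at this
  have hab : star a * b + star b * a + H.h v v = α := by
    have := hnorm g hg
    rw [hx] at this
    simpa [HForm.hyp] using this
  set ν := H.h v v with hν
  have hνs : star ν = ν := H.symm v v
  obtain ⟨t, ht⟩ := exists_rat (R := R)
    (Polynomial.C b - Polynomial.C ν * Polynomial.X - Polynomial.C (c0 * ν * a) * Polynomial.X ^ 2
      + Polynomial.C (d0 * a) * Polynomial.X ^ 3)
    {I | ε ∉ I.asIdeal} (by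
      intro I hI
      by_contra hcon
      push Not at hcon
      have h0 := hcon 0
      have h1 := hcon 1
      have h3 := hcon 3
      rw [(cubic_coeff b ν (c0 * ν * a) (d0 * a)).1] at h0
      rw [(cubic_coeff b ν (c0 * ν * a) (d0 * a)).2.1] at h1
      rw [(cubic_coeff b ν (c0 * ν * a) (d0 * a)).2.2] at h3
      rw [neg_mem_iff] at h1
      have ha : a ∈ I.asIdeal := by
        obtain ⟨u, hu⟩ := hd0u
        have := I.asIdeal.mul_mem_left ((u⁻¹ : Rˣ) : R) h3
        rw [← mul_assoc, ← hu, Units.inv_mul, one_mul] at this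
        exact this
      apply hI
      rw [← hq1, ← hab]
      apply I.asIdeal.mul_mem_right
      exact I.asIdeal.add_mem (I.asIdeal.add_mem (I.asIdeal.mul_mem_left _ h0)
        (I.asIdeal.mul_mem_left _ ha)) h1)
  set T := algebraMap ℚ R t with hT
  have hTs : star T = T := star_rat t
  have hr1 : (- c0 * T ^ 2 * ν + T ^ 3 * d0) + star (- c0 * T ^ 2 * ν + T ^ 3 * d0)
      = - H.h (T • v) (T • v) := by
    rw [H.smul_right, H.smul_left, ← hν, star_add, star_mul', star_mul', star_mul', star_neg,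
      star_pow, star_pow, hTs, hνs, hd0]
    linear_combination (- T ^ 2 * ν) * hc0
  apply gen_of_F H hr1
  have hg1 := hg.F hr1
  have hfix1 := hFfix g hfix (T • v) (- c0 * T ^ 2 * ν + T ^ 3 * d0)
    (fun z hz => by rw [H.smul_right, hvK z hz, mul_zero])
  set g1 := (H.F' (T • v) (- c0 * T ^ 2 * ν + T ^ 3 * d0)).comp g with hg1def
  set b1 := b + (- c0 * T ^ 2 * ν + T ^ 3 * d0) * a - T * ν with hb1
  have hx1' : ∃ v1, g1 (0, 0, x1) = (a, b1, v1) := by
    refine ⟨v + a • (T • v), ?_⟩
    simp [hg1def, hx, HForm.F', hb1, H.smul_left, hTs, ← hν]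
  obtain ⟨v1, hx1'⟩ := hx1'
  have hb1I : ∀ I : MaximalSpectrum R, ε ∉ I.asIdeal → b1 ∉ I.asIdeal := by
    intro I hI hbI
    apply ht I hI
    have : Polynomial.eval T (Polynomial.C b - Polynomial.C ν * Polynomial.X -
        Polynomial.C (c0 * ν * a) * Polynomial.X ^ 2 + Polynomial.C (d0 * a) * Polynomial.X ^ 3)
        = b1 := by
      simp [hb1]; ring
    rw [this]; exact hbI
  clear_value g1 b1
  -- the inverse of `b1` on the support
  obtain ⟨q, hq⟩ := exists_quasiInv b1
  have hγb : (ε * q) * b1 = ε := by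
    apply eq_of_mod
    intro I
    by_cases hI : ε ∈ I.asIdeal
    · have : ε * q * b1 - ε = (q * b1 - 1) * ε := by ring
      rw [this]; exact I.asIdeal.mul_mem_left _ hI
    · have hbI := hb1I I hI
      have h1 : b1 * (b1 * q - 1) ∈ I.asIdeal := by
        have : b1 * (b1 * q - 1) = 0 := by linear_combination hq
        rw [this]; exact I.asIdeal.zero_mem
      have h2 : b1 * q - 1 ∈ I.asIdeal :=
        (I.isMaximal.isPrime.mem_or_mem h1).resolve_left hbI
      have : ε * q * b1 - ε = ε * (b1 * q - 1) := by ring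
      rw [this]; exact I.asIdeal.mul_mem_left _ h2
  set γ := ε * q with hγ
  have hεγ : ε * γ = γ := by rw [hγ, ← mul_assoc, hεε]
  clear_value γ
  have hv1K : ∀ z ∈ K, H.h z v1 = 0 := by
    intro z hz
    have := horth g1 hg1 hfix1 z hz
    rwa [hx1'] at this
  have hεv1 : ε • v1 = v1 := by
    have := hεg g1
    rw [hx1'] at this
    exact congrArg (fun s => s.2.2) this
  -- step 2
  set w2 := γ • (x1 - v1) with hw2
  have hw2K : ∀ z ∈ K, H.h z w2 = 0 := fun z hz => by
    rw [hw2, H.smul_right, h_sub_right, hx1K z hz, hv1K z hz, sub_zero, mul_zero]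
  have hr2 : (- c0 * H.h w2 w2) + star (- c0 * H.h w2 w2) = - H.h w2 w2 := by
    rw [star_mul', star_neg, H.symm w2 w2]
    linear_combination (- H.h w2 w2) * hc0
  apply gen_of_E H hr2
  have hg2 := hg1.E hr2
  have hfix2 := hEfix g1 hfix1 w2 (- c0 * H.h w2 w2) hw2K
  set g2 := (H.E w2 (- c0 * H.h w2 w2)).comp g1 with hg2def
  have hx2' : ∃ a2, g2 (0, 0, x1) = (a2, b1, x1) := by
    refine ⟨(g2 (0, 0, x1)).1, ?_⟩
    ext
    · rfl
    · simp [hg2def, hx1', HForm.E]
    · simp only [hg2def, LinearMap.comp_apply, hx1', HForm.E, LinearMap.coe_mk, AddHom.coe_mk]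
      rw [hw2, smul_smul, mul_comm b1 γ, hγb, smul_sub, hεx1, hεv1]
      abel
  obtain ⟨a2, hx2'⟩ := hx2'
  clear_value g2
  -- step 3
  have hεa2 : ε * a2 = a2 := by
    have := hεg g2
    rw [hx2'] at this
    exact congrArg (fun s => s.1) this
  have hab2 : star a2 * b1 + star b1 * a2 = 0 := by
    have := hnorm g2 hg2
    rw [hx2'] at this
    simp [HForm.hyp, ← hα] at this
    exact this
  have hr3 : (- (γ * a2)) + star (- (γ * a2)) = - H.h (0 : M) 0 := by
    rw [h_zero_right, star_neg, star_mul']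
    have e1 : star γ * star b1 = ε := by rw [← star_mul', hγb, hεs]
    have e2 : ε * star a2 = star a2 := by
      have := congrArg star hεa2
      rwa [star_mul', hεs] at this
    linear_combination (- (γ * star γ)) * hab2 + (γ * a2) * e1 + γ * hεa2 +
      (star γ * star a2) * hγb + star γ * e2
  apply gen_of_E H hr3
  have hg3 := hg2.E hr3
  have hfix3 := hEfix g2 hfix2 0 (- (γ * a2)) (fun z _ => h_zero_right H z)
  set g3 := (H.E 0 (- (γ * a2))).comp g2 with hg3def
  have hx3' : g3 (0, 0, x1) = (0, b1, x1) := by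
    ext
    · simp only [hg3def, LinearMap.comp_apply, hx2', HForm.E, LinearMap.coe_mk, AddHom.coe_mk,
        h_zero_left]
      linear_combination (- a2) * hγb - hεa2
    · simp [hg3def, hx2', HForm.E]
    · simp [hg3def, hx2', HForm.E]
  clear_value g3
  -- step 4
  have hεb1 : ε * b1 = b1 := by
    have := hεg g3
    rw [hx3'] at this
    exact congrArg (fun s => s.2.1) this
  set w4 := star (b1 * q0) • x1 with hw4
  have hw4x : H.h w4 x1 = b1 := by
    rw [hw4, H.smul_left, star_star, ← hα]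
    linear_combination b1 * hq1 + hεb1
  have hw4K : ∀ z ∈ K, H.h z w4 = 0 := fun z hz => by
    rw [hw4, H.smul_right, hx1K z hz, mul_zero]
  have hr4 : (- c0 * H.h w4 w4) + star (- c0 * H.h w4 w4) = - H.h w4 w4 := by
    rw [star_mul', star_neg, H.symm w4 w4]
    linear_combination (- H.h w4 w4) * hc0
  apply gen_of_F H hr4
  have hg4 := hg3.F hr4
  have hfix4 := hFfix g3 hfix3 w4 (- c0 * H.h w4 w4) hw4K
  set g4 := (H.F' w4 (- c0 * H.h w4 w4)).comp g3 with hg4def
  have hx4' : g4 (0, 0, x1) = (0, 0, x1) := by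
    ext
    · simp [hg4def, hx3', HForm.F']
    · simp [hg4def, hx3', HForm.F', hw4x]
    · simp [hg4def, hx3', HForm.F']
  clear_value g4
  -- conclusion
  refine IH (K ⊔ Submodule.span R {x1}) ?_ ?_ g4 hg4 ?_
  · rw [left_lt_sup]
    intro hle
    apply hαne
    rw [hα]
    exact hx1K x1 (hle (Submodule.mem_span_singleton_self x1))
  · intro x
    obtain ⟨y, hy, hyz⟩ := hK x
    refine ⟨y + (q0 * H.h x1 (x - y)) • x1, Submodule.add_mem_sup hy
      (Submodule.smul_mem _ _ (Submodule.mem_span_singleton_self x1)), ?_⟩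
    intro z hz
    obtain ⟨k, hk, l, hl, rfl⟩ := Submodule.mem_sup.1 hz
    obtain ⟨c, rfl⟩ := Submodule.mem_span_singleton.1 hl
    have e1 : ε * H.h x1 (x - y) = H.h x1 (x - y) := by
      have : H.h (ε • x1) (x - y) = H.h x1 (x - y) := by rw [hεx1]
      rwa [H.smul_left, hεs] at this
    have e2 : x - (y + (q0 * H.h x1 (x - y)) • x1) = (x - y) - (q0 * H.h x1 (x - y)) • x1 := by
      abel
    rw [e2]
    have hyk := hyz k hk
    generalize x - y = u at e1 hyk ⊢
    rw [H.add_left, H.smul_left, h_sub_right, h_sub_right, H.smul_right, H.smul_right,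
      hyk, hx1K k hk, ← hα]
    linear_combination (- star c * H.h x1 u) * hq1 - star c * e1
  · intro z hz
    obtain ⟨k, hk, l, hl, rfl⟩ := Submodule.mem_sup.1 hz
    obtain ⟨c, rfl⟩ := Submodule.mem_span_singleton.1 hl
    have e1 : ((0, 0, k + c • x1) : R × R × M) = (0, 0, k) + c • ((0, 0, x1) : R × R × M) := by
      ext <;> simp
    rw [e1, map_add, map_smul, hfix4 k hk, hx4']

theorem main [Module.Finite R M] (hG : Good R) (hnd : ∀ x, (∀ z, H.h z x = 0) → x = 0)
    (g : (R × R × M) →ₗ[R] (R × R × M)) (hg : Is H g) : Gen H g := by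
  have hwf : WellFoundedGT (Submodule R M) := inferInstance
  have key : ∀ K : Submodule R M, (∀ x, ∃ y ∈ K, ∀ z ∈ K, H.h z (x - y) = 0) →
      ∀ g : (R × R × M) →ₗ[R] (R × R × M), Is H g → (∀ y ∈ K, g (0, 0, y) = (0, 0, y)) →
        Gen H g := by
    intro K
    induction K using hwf.induction with
    | ind K IH =>
      intro hK g hg hfix
      by_cases htop : K = ⊤
      · exact base H hG hnd g hg (fun y => hfix y (htop ▸ Submodule.mem_top))
      · exact step H hG hnd K hK htop (fun K' hK' => IH K' hK') g hg hfix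
  refine key ⊥ (fun x => ⟨0, Submodule.zero_mem _, ?_⟩) g hg ?_
  · intro z hz
    rw [(Submodule.mem_bot R).1 hz, h_zero_left]
  · intro y hy
    rw [(Submodule.mem_bot R).1 hy]
    exact map_zero g

end main

/-- P4.8. -/
theorem p48 : P48 := by
  intro R _ _ _ _ _ hG V _ _ _ H hU g hg
  refine main H hG ?_ (g : (R × R × V) →ₗ[R] (R × R × V)) hg
  intro x hx
  have h1 : H.dual x = H.dual 0 := by
    apply LinearMap.ext
    intro z
    change H.h x z = H.h 0 z
    rw [h_zero_left, ← H.symm, hx z, star_zero]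
  exact hU.1 h1

end Crest.Agent.R267.P48_118

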