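import Mathlib
import Crest.Agent.R267.P4Herm_780
import Crest.Agent.R267.P48_118

/-!
# S0407, node P4.9 (helper169): patching

`glob`: a unimodular `Λ`-lattice in `K × K × V` (form `hyp H`) which is, at all primes dividing
`N`, the image of `Λ × Λ × M₁` under a rational isometry, and equal to it away from `N`, is
isometric to `L(I) = I × Iᵛ × M₁` for a full `Λ`-lattice `I` of `K`.
No completions: the word in Eichler transvections given by P4.8 is replaced, letter by letter, by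
`E(ρ w, ρ² r)` with an integer `ρ`.
-/

set_option autoImplicit false

namespace Crest.Agent.R267.P49_169

open Crest.Agent.R267.P4Herm_780 Crest.Agent.R267.P4Herm_780.HForm Crest.Agent.R267.P48_118

section grp

variable {X Y : Type*} [AddCommGroup X] [AddCommGroup Y]

/-- `U` and `U'` agree at all primes dividing `N`. -/
def Near (N : ℕ) (U U' : AddSubgroup X) : Prop :=
  ∃ t : ℕ, t.Coprime N ∧ (∀ x ∈ U, t • x ∈ U') ∧ (∀ x ∈ U', t • x ∈ U)

/-- `U` and `U'` agree at all primes not dividing `N`. -/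
def Away (N : ℕ) (U U' : AddSubgroup X) : Prop :=
  ∃ k : ℕ, (∀ x ∈ U, N ^ k • x ∈ U') ∧ (∀ x ∈ U', N ^ k • x ∈ U)

/-- commensurable subgroups (of finite exponent in each other). -/
def Com (U U' : AddSubgroup X) : Prop :=
  ∃ c : ℕ, 0 < c ∧ (∀ x ∈ U, c • x ∈ U') ∧ (∀ x ∈ U', c • x ∈ U)

theorem Near.refl (N : ℕ) (U : AddSubgroup X) : Near N U U :=
  ⟨1, Nat.coprime_one_left N, fun x hx => by simpa using hx, fun x hx => by simpa using hx⟩

theorem Near.symm {N : ℕ} {U U' : AddSubgroup X} (h : Near N U U') : Near N U' U := by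
  obtain ⟨t, ht, h1, h2⟩ := h
  exact ⟨t, ht, h2, h1⟩

theorem Near.trans {N : ℕ} {U U' U'' : AddSubgroup X} (h : Near N U U') (h' : Near N U' U'') :
    Near N U U'' := by
  obtain ⟨t, ht, h1, h2⟩ := h
  obtain ⟨s, hs, h3, h4⟩ := h'
  refine ⟨s * t, hs.mul_left ht, fun x hx => ?_, fun x hx => ?_⟩
  · rw [mul_smul]; exact h3 _ (h1 _ hx)
  · rw [mul_comm, mul_smul]; exact h2 _ (h4 _ hx)

theorem Near.map {N : ℕ} {U U' : AddSubgroup X} (h : Near N U U') (f : X →+ Y) :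
    Near N (U.map f) (U'.map f) := by
  obtain ⟨t, ht, h1, h2⟩ := h
  refine ⟨t, ht, ?_, ?_⟩
  · rintro _ ⟨x, hx, rfl⟩
    exact ⟨t • x, h1 _ hx, map_nsmul f t x⟩
  · rintro _ ⟨x, hx, rfl⟩
    exact ⟨t • x, h2 _ hx, map_nsmul f t x⟩

theorem Away.refl (N : ℕ) (U : AddSubgroup X) : Away N U U :=
  ⟨0, fun x hx => by simpa using hx, fun x hx => by simpa using hx⟩

theorem Away.symm {N : ℕ} {U U' : AddSubgroup X} (h : Away N U U') : Away N U' U := by
  obtain ⟨t, h1, h2⟩ := h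
  exact ⟨t, h2, h1⟩

theorem Away.trans {N : ℕ} {U U' U'' : AddSubgroup X} (h : Away N U U') (h' : Away N U' U'') :
    Away N U U'' := by
  obtain ⟨t, h1, h2⟩ := h
  obtain ⟨s, h3, h4⟩ := h'
  refine ⟨s + t, fun x hx => ?_, fun x hx => ?_⟩
  · rw [pow_add, mul_smul]; exact h3 _ (h1 _ hx)
  · rw [add_comm, pow_add, mul_smul]; exact h2 _ (h4 _ hx)

theorem Away.map {N : ℕ} {U U' : AddSubgroup X} (h : Away N U U') (f : X →+ Y) :
    Away N (U.map f) (U'.map f) := by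
  obtain ⟨t, h1, h2⟩ := h
  refine ⟨t, ?_, ?_⟩
  · rintro _ ⟨x, hx, rfl⟩
    exact ⟨_, h1 _ hx, map_nsmul f _ x⟩
  · rintro _ ⟨x, hx, rfl⟩
    exact ⟨_, h2 _ hx, map_nsmul f _ x⟩

theorem Com.symm {U U' : AddSubgroup X} (h : Com U U') : Com U' U := by
  obtain ⟨t, ht, h1, h2⟩ := h
  exact ⟨t, ht, h2, h1⟩

theorem Com.refl (U : AddSubgroup X) : Com U U :=
  ⟨1, one_pos, fun x hx => by simpa using hx, fun x hx => by simpa using hx⟩

theorem Com.trans {U U' U'' : AddSubgroup X} (h : Com U U') (h' : Com U' U'') :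
    Com U U'' := by
  obtain ⟨t, ht, h1, h2⟩ := h
  obtain ⟨s, hs, h3, h4⟩ := h'
  refine ⟨s * t, Nat.mul_pos hs ht, fun x hx => ?_, fun x hx => ?_⟩
  · rw [mul_smul]; exact h3 _ (h1 _ hx)
  · rw [mul_comm, mul_smul]; exact h2 _ (h4 _ hx)

theorem Com.map {U U' : AddSubgroup X} (h : Com U U') (f : X →+ Y) :
    Com (U.map f) (U'.map f) := by
  obtain ⟨t, ht, h1, h2⟩ := h
  refine ⟨t, ht, ?_, ?_⟩
  · rintro _ ⟨x, hx, rfl⟩
    exact ⟨_, h1 _ hx, map_nsmul f _ x⟩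
  · rintro _ ⟨x, hx, rfl⟩
    exact ⟨_, h2 _ hx, map_nsmul f _ x⟩

theorem mem_of_coprime {U : AddSubgroup X} {a b : ℕ} (h : a.Coprime b) {x : X}
    (ha : a • x ∈ U) (hb : b • x ∈ U) : x ∈ U := by
  obtain ⟨u, v, huv⟩ := Nat.isCoprime_iff_coprime.2 h
  have : x = u • (a • x) + v • (b • x) := by
    rw [← natCast_zsmul, ← natCast_zsmul, smul_smul, smul_smul, ← add_smul, huv, one_smul]
  rw [this]
  exact U.add_mem (U.zsmul_mem ha _) (U.zsmul_mem hb _)

theorem Near.mem {N : ℕ} {U U' : AddSubgroup X} (h : Near N U U') (h' : Away N U U') {x : X}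
    (hx : x ∈ U) : x ∈ U' := by
  obtain ⟨t, ht, h1, _⟩ := h
  obtain ⟨k, h3, _⟩ := h'
  exact mem_of_coprime (ht.pow_right k) (h1 x hx) (h3 x hx)

theorem Near.com {N : ℕ} (hN : 0 < N) {U U' : AddSubgroup X} (h : Away N U U') : Com U U' := by
  obtain ⟨k, h1, h2⟩ := h
  exact ⟨N ^ k, pow_pos hN k, h1, h2⟩

end grp

section arith

theorem exists_factor (N : ℕ) : ∀ n : ℕ, 0 < n → ∃ m1 m2 k : ℕ, n = m1 * m2 ∧ m1 ∣ N ^ k ∧
    m2.Coprime N := by
  intro n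
  induction n using Nat.strong_induction_on with
  | _ n ih =>
    intro hn
    by_cases h : n.Coprime N
    · exact ⟨1, n, 0, by simp, by simp, h⟩
    · set g := n.gcd N with hg
      have hg1 : g ≠ 1 := h
      have hg0 : 0 < g := Nat.gcd_pos_of_pos_left N hn
      obtain ⟨n', hn'⟩ : g ∣ n := Nat.gcd_dvd_left n N
      have hn'0 : 0 < n' := by
        rcases Nat.eq_zero_or_pos n' with h0 | h0
        · rw [h0, mul_zero] at hn'; omega
        · exact h0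
      have hlt : n' < n := by
        rw [hn']
        have : 2 ≤ g := by omega
        nlinarith
      obtain ⟨m1, m2, k, h1, h2, h3⟩ := ih n' hlt hn'0
      refine ⟨g * m1, m2, k + 1, ?_, ?_, h3⟩
      · rw [hn', h1, mul_assoc]
      · rw [pow_succ, mul_comm]
        exact Nat.mul_dvd_mul h2 (Nat.gcd_dvd_right n N)

theorem arith (N n c : ℕ) (hn : 0 < n) (hc : 0 < c) :
    ∃ (ρ : ℤ) (k t : ℕ), t.Coprime N ∧ (n : ℤ) ∣ ρ * (N : ℤ) ^ k ∧
      ((n * c : ℕ) : ℤ) ∣ t * (ρ - 1) := by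
  obtain ⟨m1, m2, k, h1, h2, h3⟩ := exists_factor N (n * c) (Nat.mul_pos hn hc)
  have hcop : m1.Coprime m2 := by
    have : (N ^ k).Coprime m2 := (Nat.Coprime.pow_left k h3.symm)
    exact Nat.Coprime.coprime_dvd_left h2 this
  obtain ⟨u, v, huv⟩ := Nat.isCoprime_iff_coprime.2 hcop
  refine ⟨v * m2, k, m2, h3, ?_, ?_⟩
  · have e1 : ((n * c : ℕ) : ℤ) ∣ v * m2 * (N : ℤ) ^ k := by
      rw [h1]
      obtain ⟨j, hj⟩ := h2
      have hj' : (N : ℤ) ^ k = m1 * j := by exact_mod_cast hj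
      rw [hj']; push_cast
      exact ⟨v * j, by ring⟩
    exact dvd_trans ⟨(c : ℤ), by push_cast; ring⟩ e1
  · rw [h1]
    refine ⟨-u, ?_⟩
    push_cast
    linear_combination (m2 : ℤ) * huv

end arith

section herm

variable {K V : Type*} [CommRing K] [StarRing K] [AddCommGroup V] [Module K V] (H : HForm K V)

/-- the standing hypotheses on `Λ ⊆ K` and `M₁ ⊆ V`. -/
structure Lat (Λ : Subring K) (M₁ : AddSubgroup V) : Prop where
  star_mem : ∀ a ∈ Λ, star a ∈ Λ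
  full : ∀ a : K, ∃ n : ℕ, 0 < n ∧ n • a ∈ Λ
  smul_mem : ∀ a ∈ Λ, ∀ x ∈ M₁, a • x ∈ M₁
  full₁ : ∀ x : V, ∃ n : ℕ, 0 < n ∧ n • x ∈ M₁
  h_mem : ∀ x ∈ M₁, ∀ y ∈ M₁, H.h x y ∈ Λ

/-- `Λ × Λ × M₁`. -/
def M0 (Λ : Subring K) (M₁ : AddSubgroup V) : AddSubgroup (K × K × V) where
  carrier := {v | v.1 ∈ Λ ∧ v.2.1 ∈ Λ ∧ v.2.2 ∈ M₁}
  add_mem' := fun ha hb => ⟨Λ.add_mem ha.1 hb.1, Λ.add_mem ha.2.1 hb.2.1, M₁.add_mem ha.2.2 hb.2.2⟩
  zero_mem' := ⟨Λ.zero_mem, Λ.zero_mem, M₁.zero_mem⟩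
  neg_mem' := fun ha => ⟨Λ.neg_mem ha.1, Λ.neg_mem ha.2.1, M₁.neg_mem ha.2.2⟩

omit [StarRing K] [Module K V] in
theorem mem_M0 {Λ : Subring K} {M₁ : AddSubgroup V} {v : K × K × V} :
    v ∈ M0 Λ M₁ ↔ v.1 ∈ Λ ∧ v.2.1 ∈ Λ ∧ v.2.2 ∈ M₁ := Iff.rfl

theorem neg_param {w : V} {r : K} (hr : r + star r = - H.h w w) :
    star r + star (star r) = - H.h (-w) (-w) := by
  rw [h_neg_left, h_neg_right, neg_neg, star_star, add_comm]; exact hr

/-- `E` as a linear equivalence. -/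
def Ee (w : V) (r : K) (hr : r + star r = - H.h w w) : (K × K × V) ≃ₗ[K] (K × K × V) :=
  LinearEquiv.ofLinearMap (H.E w r) (H.E (-w) (star r))
    (by simpa using E_inv H (neg_param H hr)) (E_inv H hr)

/-- `F'` as a linear equivalence. -/
def Fe (w : V) (r : K) (hr : r + star r = - H.h w w) : (K × K × V) ≃ₗ[K] (K × K × V) :=
  LinearEquiv.ofLinearMap (H.F' w r) (H.F' (-w) (star r))
    (by simpa using F_inv H (neg_param H hr)) (F_inv H hr)

variable (V) in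
/-- `D` as a linear equivalence. -/
def De (l : Kˣ) : (K × K × V) ≃ₗ[K] (K × K × V) :=
  LinearEquiv.ofLinearMap (HForm.D V l) (HForm.D V l⁻¹)
    (by simpa using D_inv (M := V) l⁻¹) (D_inv l)

/-- `(a, b, x) ↦ (b, a, x)`. -/
def sw : (K × K × V) ≃ₗ[K] (K × K × V) where
  toFun v := (v.2.1, v.1, v.2.2)
  invFun v := (v.2.1, v.1, v.2.2)
  map_add' _ _ := rfl
  map_smul' _ _ := rfl
  left_inv _ := rfl
  right_inv _ := rfl

/-- isometries. -/
def IsI (g : (K × K × V) ≃ₗ[K] (K × K × V)) : Prop :=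
  ∀ x y, H.hyp.h (g x) (g y) = H.hyp.h x y

variable {H}

theorem IsI.trans {g g' : (K × K × V) ≃ₗ[K] (K × K × V)} (h : IsI H g) (h' : IsI H g') :
    IsI H (g.trans g') := fun x y => by
  rw [LinearEquiv.trans_apply, LinearEquiv.trans_apply, h', h]

theorem IsI.symm {g : (K × K × V) ≃ₗ[K] (K × K × V)} (h : IsI H g) : IsI H g.symm := fun x y => by
  rw [← h]; simp

variable (H)

theorem isI_Ee {w : V} {r : K} (hr : r + star r = - H.h w w) : IsI H (Ee H w r hr) :=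
  fun x y => H.E_isom hr x y

theorem isI_Fe {w : V} {r : K} (hr : r + star r = - H.h w w) : IsI H (Fe H w r hr) :=
  fun x y => H.F'_isom hr x y

theorem isI_De (l : Kˣ) : IsI H (De V l) :=
  fun x y => H.D_isom l x y

theorem isI_sw : IsI H (sw (K := K) (V := V)) := fun x y => by
  simp [HForm.hyp, sw]; ring

/-- image of a subgroup. -/
abbrev im (g : (K × K × V) ≃ₗ[K] (K × K × V)) (U : AddSubgroup (K × K × V)) :
    AddSubgroup (K × K × V) := U.map ((g : (K × K × V) →ₗ[K] (K × K × V)).toAddMonoidHom)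

omit [StarRing K] in
theorem mem_im {g : (K × K × V) ≃ₗ[K] (K × K × V)} {U : AddSubgroup (K × K × V)}
    {x : K × K × V} : x ∈ im g U ↔ g.symm x ∈ U := by
  constructor
  · rintro ⟨y, hy, rfl⟩
    have : g.symm ((g : (K × K × V) →ₗ[K] (K × K × V)).toAddMonoidHom y) = y := g.symm_apply_apply y
    rw [this]; exact hy
  · intro h
    exact ⟨g.symm x, h, g.apply_symm_apply x⟩

omit [StarRing K] in
theorem im_trans (g g' : (K × K × V) ≃ₗ[K] (K × K × V)) (U : AddSubgroup (K × K × V)) :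
    im (g.trans g') U = im g' (im g U) := by
  ext x
  rw [mem_im, mem_im, mem_im]; rfl

/-- small transvections preserve a lattice at `N`. -/
theorem small {Λ : Subring K} {M₁ : AddSubgroup V} (hL : Lat H Λ M₁) {U : AddSubgroup (K × K × V)}
    {c t : ℕ} (h1 : ∀ x ∈ U, c • x ∈ M0 Λ M₁) (h2 : ∀ x ∈ M0 Λ M₁, c • x ∈ U)
    {w : V} {r : K} (hw : ∃ m ∈ M₁, t • w = (c ^ 2) • m) (hr : ∃ l ∈ Λ, t • r = (c ^ 2) • l)
    {x : K × K × V} (hx : x ∈ U) : t • (H.E w r x) ∈ U := by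
  obtain ⟨m, hm, hwm⟩ := hw
  obtain ⟨l, hl, hrl⟩ := hr
  have hcx := h1 x hx
  obtain ⟨a, b, y⟩ := x
  rw [mem_M0] at hcx
  simp only [Prod.smul_mk] at hcx
  obtain ⟨_, hb, hy⟩ := hcx
  have key : t • (H.E w r (a, b, y)) = t • (a, b, y) +
      c • ((l * (c • b) - H.h m (c • y), 0, (c • b) • m) : K × K × V) := by
    have e1 : t • H.h w y = c • H.h m (c • y) := by
      have : t • H.h w y = H.h (t • w) y := by
        rw [← Nat.cast_smul_eq_nsmul K t w, H.smul_left, star_natCast, nsmul_eq_mul]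
      rw [this, hwm, ← Nat.cast_smul_eq_nsmul K (c ^ 2) m, H.smul_left, star_natCast,
        ← Nat.cast_smul_eq_nsmul K c y, H.smul_right, nsmul_eq_mul]
      push_cast; ring
    have e2 : t • (r * b) = c • (l * (c • b)) := by
      rw [← smul_mul_assoc, hrl]
      simp only [nsmul_eq_mul]
      push_cast; ring
    have e3 : t • (b • w) = c • ((c • b) • m) := by
      rw [smul_comm t b w, hwm]
      rw [← Nat.cast_smul_eq_nsmul K (c ^ 2) m, ← Nat.cast_smul_eq_nsmul K c ((c • b) • m),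
        nsmul_eq_mul, smul_smul, smul_smul]
      congr 1
      push_cast; ring
    ext
    · simp only [HForm.E, LinearMap.coe_mk, AddHom.coe_mk, Prod.smul_mk, Prod.mk_add_mk]
      rw [smul_sub, smul_add, e1, e2, smul_sub]; abel
    · simp [HForm.E]
    · simp only [HForm.E, LinearMap.coe_mk, AddHom.coe_mk, Prod.smul_mk, Prod.mk_add_mk]
      rw [smul_add, e3]
  rw [key]
  refine U.add_mem (U.nsmul_mem hx t) (h2 _ ?_)
  rw [mem_M0]
  exact ⟨Λ.sub_mem (Λ.mul_mem hl hb) (hL.h_mem _ hm _ hy), Λ.zero_mem, hL.smul_mem _ hb _ hm⟩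

theorem E_mul {w w2 : V} {r r2 : K} (x : K × K × V) :
    H.E w r (H.E w2 r2 x) = H.E (w + w2) (r + r2 - H.h w w2) x := by
  ext
  · simp only [HForm.E, LinearMap.coe_mk, AddHom.coe_mk, H.add_left, H.add_right, H.smul_right]
    ring
  · simp [HForm.E]
  · simp only [HForm.E, LinearMap.coe_mk, AddHom.coe_mk, smul_add]
    abel

/-- approximation of one transvection. -/
theorem approxE {Λ : Subring K} {M₁ : AddSubgroup V} (hL : Lat H Λ M₁) (N : ℕ)
    {U : AddSubgroup (K × K × V)} (hU : Com U (M0 Λ M₁)) {w : V} {r : K}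
    (hr : r + star r = - H.h w w) :
    ∃ (w' : V) (r' : K) (hr' : r' + star r' = - H.h w' w'),
      (∃ k : ℕ, N ^ k • w' ∈ M₁ ∧ N ^ k • r' ∈ Λ) ∧
      Near N (im (Ee H w' r' hr') U) (im (Ee H w r hr) U) := by
  obtain ⟨c, hc, h1, h2⟩ := hU
  obtain ⟨n1, hn1, hw1⟩ := hL.full₁ w
  obtain ⟨n2, hn2, hr2⟩ := hL.full r
  obtain ⟨ρ, k, t, ht, ⟨j, hj⟩, ⟨i, hi⟩⟩ := arith N (n1 * n2) (c ^ 2) (Nat.mul_pos hn1 hn2)
    (pow_pos hc 2)
  have hnw : (n1 * n2) • w ∈ M₁ := by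
    rw [mul_comm, mul_smul]; exact M₁.nsmul_mem hw1 _
  have hnr : (n1 * n2) • r ∈ Λ := by
    rw [mul_smul]; exact Λ.toAddSubgroup.nsmul_mem hr2 _
  set n := n1 * n2 with hn
  clear_value n
  have hnrs : n • star r ∈ Λ := by
    have := hL.star_mem _ hnr
    rwa [star_nsmul] at this
  have hr' : ((ρ : K) ^ 2 * r) + star ((ρ : K) ^ 2 * r) = - H.h ((ρ : K) • w) ((ρ : K) • w) := by
    rw [H.smul_left, H.smul_right, star_mul', star_pow, star_intCast]
    linear_combination (ρ : K) ^ 2 * hr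
  have hrr2 : ((ρ - 1 : K) * (ρ * r - star r)) + star ((ρ - 1 : K) * (ρ * r - star r)) =
      - H.h ((ρ - 1 : K) • w) ((ρ - 1 : K) • w) := by
    rw [H.smul_left, H.smul_right, star_mul', star_sub, star_sub, star_mul', star_intCast,
      star_one, star_star]
    linear_combination (ρ - 1 : K) ^ 2 * hr
  have hcomp : ∀ x, H.E ((ρ : K) • w) ((ρ : K) ^ 2 * r) x =
      H.E w r (H.E ((ρ - 1 : K) • w) ((ρ - 1 : K) * (ρ * r - star r)) x) := by
    intro x
    rw [E_mul]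
    have e1 : w + (ρ - 1 : K) • w = (ρ : K) • w := by rw [sub_smul, one_smul]; abel
    have e2 : r + (ρ - 1 : K) * (ρ * r - star r) - H.h w ((ρ - 1 : K) • w) = (ρ : K) ^ 2 * r := by
      rw [H.smul_right]
      linear_combination (-(ρ - 1 : K)) * hr
    rw [e1, e2]
  -- smallness
  have hjK : ((ρ : K)) * (N : K) ^ k = n * j := by exact_mod_cast congrArg (Int.cast : ℤ → K) hj
  have hiK : (t : K) * ((ρ : K) - 1) = n * c ^ 2 * i := by
    exact_mod_cast congrArg (Int.cast : ℤ → K) hi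
  have hwm : ∃ m ∈ M₁, t • ((ρ - 1 : K) • w) = (c ^ 2) • m := by
    refine ⟨i • (n • w), M₁.zsmul_mem hnw i, ?_⟩
    rw [← Nat.cast_smul_eq_nsmul K t, ← Nat.cast_smul_eq_nsmul K (c ^ 2),
      ← Nat.cast_smul_eq_nsmul K n, ← Int.cast_smul_eq_zsmul K i, smul_smul, smul_smul, smul_smul,
      hiK]
    congr 1
    push_cast; ring
  have hrm : ∃ l ∈ Λ, t • ((ρ - 1 : K) * (ρ * r - star r)) = (c ^ 2) • l := by
    refine ⟨i * (ρ * (n • r) - n • star r), ?_, ?_⟩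
    · exact Λ.mul_mem (intCast_mem Λ i) (Λ.sub_mem (Λ.mul_mem (intCast_mem Λ ρ) hnr) hnrs)
    · simp only [nsmul_eq_mul]
      push_cast
      linear_combination (ρ * r - star r) * hiK
  have hwm' : ∃ m ∈ M₁, t • (-((ρ - 1 : K) • w)) = (c ^ 2) • m := by
    obtain ⟨m, hm, h⟩ := hwm
    exact ⟨-m, M₁.neg_mem hm, by rw [smul_neg, h, smul_neg]⟩
  have hrm' : ∃ l ∈ Λ, t • star ((ρ - 1 : K) * (ρ * r - star r)) = (c ^ 2) • l := by
    obtain ⟨l, hl, h⟩ := hrm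
    refine ⟨star l, hL.star_mem l hl, ?_⟩
    rw [← star_nsmul, h, star_nsmul]
  refine ⟨(ρ : K) • w, (ρ : K) ^ 2 * r, hr', ⟨k, ?_, ?_⟩, t, ht, ?_, ?_⟩
  · have : N ^ k • ((ρ : K) • w) = j • (n • w) := by
      rw [← Nat.cast_smul_eq_nsmul K (N ^ k), ← Nat.cast_smul_eq_nsmul K n,
        ← Int.cast_smul_eq_zsmul K j, smul_smul, smul_smul]
      congr 1
      push_cast
      linear_combination hjK
    rw [this]; exact M₁.zsmul_mem hnw j
  · have : N ^ k • ((ρ : K) ^ 2 * r) = j * ρ * (n • r) := by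
      simp only [nsmul_eq_mul]; push_cast
      linear_combination (ρ : K) * r * hjK
    rw [this]
    exact Λ.mul_mem (Λ.mul_mem (intCast_mem Λ j) (intCast_mem Λ ρ)) hnr
  · rintro _ ⟨x, hx, rfl⟩
    refine ⟨t • (H.E ((ρ - 1 : K) • w) ((ρ - 1 : K) * (ρ * r - star r)) x),
      small H hL h1 h2 hwm hrm hx, ?_⟩
    change H.E w r _ = t • H.E ((ρ : K) • w) ((ρ : K) ^ 2 * r) x
    rw [map_nsmul, hcomp]
  · rintro _ ⟨x, hx, rfl⟩
    refine ⟨t • (H.E (-((ρ - 1 : K) • w)) (star ((ρ - 1 : K) * (ρ * r - star r))) x),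
      small H hL h1 h2 hwm' hrm' hx, ?_⟩
    change H.E ((ρ : K) • w) ((ρ : K) ^ 2 * r) _ = t • H.E w r x
    rw [map_nsmul, hcomp]
    have := LinearMap.congr_fun (E_inv H (neg_param H hrr2)) x
    simp only [neg_neg, star_star, LinearMap.comp_apply, LinearMap.id_apply] at this
    rw [this]

theorem sw_F {w : V} {r : K} (x : K × K × V) : H.F' w r x = sw (H.E w r (sw x)) := by
  ext <;> simp [HForm.F', HForm.E, sw]

omit [StarRing K] in
theorem im_sw_M0 (Λ : Subring K) (M₁ : AddSubgroup V) : im sw (M0 Λ M₁) = M0 Λ M₁ := by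
  ext x
  rw [mem_im, mem_M0, mem_M0]
  exact ⟨fun h => ⟨h.2.1, h.1, h.2.2⟩, fun h => ⟨h.2.1, h.1, h.2.2⟩⟩

theorem im_Fe {w : V} {r : K} (hr : r + star r = - H.h w w) (U : AddSubgroup (K × K × V)) :
    im (Fe H w r hr) U = im sw (im (Ee H w r hr) (im sw U)) := by
  rw [← im_trans, ← im_trans]
  have : Fe H w r hr = (sw.trans (Ee H w r hr)).trans sw := LinearEquiv.ext fun x => sw_F H x
  rw [this]; rfl

theorem approxF {Λ : Subring K} {M₁ : AddSubgroup V} (hL : Lat H Λ M₁) (N : ℕ)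
    {U : AddSubgroup (K × K × V)} (hU : Com U (M0 Λ M₁)) {w : V} {r : K}
    (hr : r + star r = - H.h w w) :
    ∃ (w' : V) (r' : K) (hr' : r' + star r' = - H.h w' w'),
      (∃ k : ℕ, N ^ k • w' ∈ M₁ ∧ N ^ k • r' ∈ Λ) ∧
      Near N (im (Fe H w' r' hr') U) (im (Fe H w r hr) U) := by
  have hU' : Com (im sw U) (M0 Λ M₁) := by
    have : Com (im sw U) (im sw (M0 Λ M₁)) := hU.map _
    rwa [im_sw_M0] at this
  obtain ⟨w', r', hr', hk, hn⟩ := approxE H hL N hU' hr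
  refine ⟨w', r', hr', hk, ?_⟩
  rw [im_Fe, im_Fe]
  exact hn.map _

/-- `g` preserves `M0` away from `N`. -/
def Pres (Λ : Subring K) (M₁ : AddSubgroup V) (N : ℕ) (g : (K × K × V) ≃ₗ[K] (K × K × V)) : Prop :=
  Away N (im g (M0 Λ M₁)) (M0 Λ M₁)

omit [StarRing K] in
theorem Pres.trans {Λ : Subring K} {M₁ : AddSubgroup V} {N : ℕ}
    {g g' : (K × K × V) ≃ₗ[K] (K × K × V)} (h : Pres Λ M₁ N g) (h' : Pres Λ M₁ N g') :
    Pres Λ M₁ N (g.trans g') := by
  unfold Pres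
  rw [im_trans]
  exact (h.map _).trans h'

omit [StarRing K] in
theorem im_symm_im (g : (K × K × V) ≃ₗ[K] (K × K × V)) (U : AddSubgroup (K × K × V)) :
    im g.symm (im g U) = U := by
  ext x
  rw [mem_im, mem_im]; simp

omit [StarRing K] in
theorem Pres.symm {Λ : Subring K} {M₁ : AddSubgroup V} {N : ℕ}
    {g : (K × K × V) ≃ₗ[K] (K × K × V)} (h : Pres Λ M₁ N g) : Pres Λ M₁ N g.symm := by
  have := h.map ((g.symm : (K × K × V) ≃ₗ[K] (K × K × V)) : (K × K × V) →ₗ[K] (K × K × V)).toAddMonoidHom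
  have h2 : Away N (im g.symm (im g (M0 Λ M₁))) (im g.symm (M0 Λ M₁)) := this
  rw [im_symm_im] at h2
  exact h2.symm

theorem E_mem {Λ : Subring K} {M₁ : AddSubgroup V} (hL : Lat H Λ M₁) {N k : ℕ} {w : V} {r : K}
    (hw : N ^ k • w ∈ M₁) (hr : N ^ k • r ∈ Λ) {x : K × K × V} (hx : x ∈ M0 Λ M₁) :
    N ^ k • H.E w r x ∈ M0 Λ M₁ := by
  obtain ⟨a, b, y⟩ := x
  obtain ⟨ha, hb, hy⟩ := mem_M0.1 hx
  simp only at ha hb hy
  rw [mem_M0]
  simp only [HForm.E, LinearMap.coe_mk, AddHom.coe_mk, Prod.smul_mk]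
  refine ⟨?_, Λ.toAddSubgroup.nsmul_mem hb _, ?_⟩
  · have e1 : N ^ k • (a + r * b - H.h w y) = N ^ k • a + (N ^ k • r) * b - H.h (N ^ k • w) y := by
      rw [← Nat.cast_smul_eq_nsmul K (N ^ k) w, H.smul_left, star_natCast]
      simp only [nsmul_eq_mul]; ring
    rw [e1]
    exact Λ.sub_mem (Λ.add_mem (Λ.toAddSubgroup.nsmul_mem ha _) (Λ.mul_mem hr hb))
      (hL.h_mem _ hw _ hy)
  · rw [smul_add, smul_comm]
    exact M₁.add_mem (M₁.nsmul_mem hy _) (hL.smul_mem _ hb _ hw)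

theorem pres_E {Λ : Subring K} {M₁ : AddSubgroup V} (hL : Lat H Λ M₁) {N k : ℕ} {w : V} {r : K}
    (hr : r + star r = - H.h w w)
    (hwk : N ^ k • w ∈ M₁) (hrk : N ^ k • r ∈ Λ) : Pres Λ M₁ N (Ee H w r hr) := by
  refine ⟨k, ?_, ?_⟩
  · rintro _ ⟨x, hx, rfl⟩
    exact E_mem H hL hwk hrk hx
  · intro x hx
    rw [mem_im, map_nsmul]
    refine E_mem H hL (w := -w) (r := star r) ?_ ?_ hx
    · rw [smul_neg]; exact M₁.neg_mem hwk
    · rw [← star_nsmul]; exact hL.star_mem _ hrk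

theorem pres_F {Λ : Subring K} {M₁ : AddSubgroup V} (hL : Lat H Λ M₁) {N k : ℕ} {w : V} {r : K}
    (hr : r + star r = - H.h w w)
    (hwk : N ^ k • w ∈ M₁) (hrk : N ^ k • r ∈ Λ) : Pres Λ M₁ N (Fe H w r hr) := by
  unfold Pres
  rw [im_Fe, im_sw_M0]
  have := (pres_E H hL hr hwk hrk).map ((sw : (K × K × V) ≃ₗ[K] (K × K × V)) : (K × K × V) →ₗ[K] (K × K × V)).toAddMonoidHom
  have h2 : Away N (im sw (im (Ee H w r hr) (M0 Λ M₁))) (im sw (M0 Λ M₁)) := this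
  rwa [im_sw_M0] at h2

/-- words in transvections. -/
inductive Wd : ((K × K × V) ≃ₗ[K] (K × K × V)) → Prop
  | id : Wd (LinearEquiv.refl K _)
  | E (w : V) (r : K) (hr : r + star r = - H.h w w) (g) : Wd g → Wd (g.trans (Ee H w r hr))
  | F (w : V) (r : K) (hr : r + star r = - H.h w w) (g) : Wd g → Wd (g.trans (Fe H w r hr))

/-- every subgroup commensurable with `M0` has commensurable images. -/
theorem com_E {Λ : Subring K} {M₁ : AddSubgroup V} (hL : Lat H Λ M₁) {w : V} {r : K}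
    (hr : r + star r = - H.h w w) : Com (im (Ee H w r hr) (M0 Λ M₁)) (M0 Λ M₁) := by
  obtain ⟨n1, hn1, hw1⟩ := hL.full₁ w
  obtain ⟨n2, hn2, hr2⟩ := hL.full r
  have hw : (n1 * n2) ^ 1 • w ∈ M₁ := by
    rw [pow_one, mul_comm, mul_smul]; exact M₁.nsmul_mem hw1 _
  have hr' : (n1 * n2) ^ 1 • r ∈ Λ := by
    rw [pow_one, mul_smul]; exact Λ.toAddSubgroup.nsmul_mem hr2 _
  exact Near.com (Nat.mul_pos hn1 hn2) (pres_E H hL hr hw hr')

theorem com_F {Λ : Subring K} {M₁ : AddSubgroup V} (hL : Lat H Λ M₁) {w : V} {r : K}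
    (hr : r + star r = - H.h w w) : Com (im (Fe H w r hr) (M0 Λ M₁)) (M0 Λ M₁) := by
  rw [im_Fe, im_sw_M0]
  have := (com_E H hL hr).map ((sw : (K × K × V) ≃ₗ[K] (K × K × V)) : (K × K × V) →ₗ[K] (K × K × V)).toAddMonoidHom
  have h2 : Com (im sw (im (Ee H w r hr) (M0 Λ M₁))) (im sw (M0 Λ M₁)) := this
  rwa [im_sw_M0] at h2

/-- approximation of a word. -/
theorem approxW {Λ : Subring K} {M₁ : AddSubgroup V} (hL : Lat H Λ M₁) (N : ℕ)
    {g : (K × K × V) ≃ₗ[K] (K × K × V)} (hg : Wd H g) {U : AddSubgroup (K × K × V)}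
    (hU : Com U (M0 Λ M₁)) :
    Com (im g U) (M0 Λ M₁) ∧ ∃ γ : (K × K × V) ≃ₗ[K] (K × K × V), IsI H γ ∧ Pres Λ M₁ N γ ∧
      Near N (im γ U) (im g U) := by
  induction hg with
  | id =>
    refine ⟨?_, LinearEquiv.refl K _, fun _ _ => rfl, ?_, Near.refl _ _⟩
    · have : im (LinearEquiv.refl K (K × K × V)) U = U := by ext x; rw [mem_im]; rfl
      rw [this]; exact hU
    · unfold Pres
      have : im (LinearEquiv.refl K (K × K × V)) (M0 Λ M₁) = M0 Λ M₁ := by ext x; rw [mem_im]; rfl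
      rw [this]; exact Away.refl _ _
  | E w r hr g _ ih =>
    obtain ⟨hc, γ, h1, h2, h3⟩ := ih
    obtain ⟨w', r', hr', ⟨k, hwk, hrk⟩, hn⟩ := approxE H hL N hc hr
    refine ⟨?_, γ.trans (Ee H w' r' hr'), h1.trans (isI_Ee H hr'),
      h2.trans (pres_E H hL hr' hwk hrk), ?_⟩
    · rw [im_trans]
      exact (hc.map _).trans (com_E H hL hr)
    · rw [im_trans, im_trans]
      exact (h3.map _).trans hn
  | F w r hr g _ ih =>
    obtain ⟨hc, γ, h1, h2, h3⟩ := ih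
    obtain ⟨w', r', hr', ⟨k, hwk, hrk⟩, hn⟩ := approxF H hL N hc hr
    refine ⟨?_, γ.trans (Fe H w' r' hr'), h1.trans (isI_Fe H hr'),
      h2.trans (pres_F H hL hr' hwk hrk), ?_⟩
    · rw [im_trans]
      exact (hc.map _).trans (com_F H hL hr)
    · rw [im_trans, im_trans]
      exact (h3.map _).trans hn

/-- move the torus to the right. -/
theorem push {g : (K × K × V) →ₗ[K] (K × K × V)} (hg : Gen H g) :
    ∀ a : Kˣ, ∃ ε : (K × K × V) ≃ₗ[K] (K × K × V), Wd H ε ∧ ∃ l : Kˣ,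
      ∀ x, HForm.D V a (g x) = ε (HForm.D V l x) := by
  induction hg with
  | id => exact fun a => ⟨_, Wd.id, a, fun x => rfl⟩
  | E w r hr g _ ih =>
    intro a
    obtain ⟨ε, h1, l, h2⟩ := ih a
    have hr' : ((a : K) * star (a : K) * r) + star ((a : K) * star (a : K) * r) =
        - H.h (star (a : K) • w) (star (a : K) • w) := by
      rw [H.smul_left, H.smul_right, star_mul', star_mul', star_star]
      linear_combination ((a : K) * star (a : K)) * hr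
    refine ⟨ε.trans (Ee H (star (a : K) • w) ((a : K) * star (a : K) * r) hr'),
      Wd.E _ _ _ _ h1, l, fun x => ?_⟩
    rw [LinearEquiv.trans_apply, ← h2]
    have e1 : star (a : K) * star ((a⁻¹ : Kˣ) : K) = 1 := by rw [← star_mul']; simp
    change HForm.D V a (H.E w r (g x)) = H.E _ _ (HForm.D V a (g x))
    generalize g x = v
    obtain ⟨p, q, y⟩ := v
    ext
    · simp only [HForm.D, HForm.E, LinearMap.coe_mk, AddHom.coe_mk, H.smul_left, star_star]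
      linear_combination (- (a : K) * r * q) * e1
    · simp [HForm.D, HForm.E]
    · simp only [HForm.D, HForm.E, LinearMap.coe_mk, AddHom.coe_mk, smul_smul]
      congr 2
      linear_combination (- q) * e1
  | F' w r hr g _ ih =>
    intro a
    obtain ⟨ε, h1, l, h2⟩ := ih a
    have hr' : (((a⁻¹ : Kˣ) : K) * star ((a⁻¹ : Kˣ) : K) * r) +
        star (((a⁻¹ : Kˣ) : K) * star ((a⁻¹ : Kˣ) : K) * r) =
        - H.h (((a⁻¹ : Kˣ) : K) • w) (((a⁻¹ : Kˣ) : K) • w) := by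
      rw [H.smul_left, H.smul_right, star_mul', star_mul', star_star]
      linear_combination (((a⁻¹ : Kˣ) : K) * star ((a⁻¹ : Kˣ) : K)) * hr
    refine ⟨ε.trans (Fe H (((a⁻¹ : Kˣ) : K) • w) (((a⁻¹ : Kˣ) : K) * star ((a⁻¹ : Kˣ) : K) * r) hr'),
      Wd.F _ _ _ _ h1, l, fun x => ?_⟩
    rw [LinearEquiv.trans_apply, ← h2]
    have e1 : ((a⁻¹ : Kˣ) : K) * (a : K) = 1 := by simp
    change HForm.D V a (H.F' w r (g x)) = H.F' _ _ (HForm.D V a (g x))
    generalize g x = v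
    obtain ⟨p, q, y⟩ := v
    ext
    · simp [HForm.D, HForm.F']
    · simp only [HForm.D, HForm.F', LinearMap.coe_mk, AddHom.coe_mk, H.smul_left]
      linear_combination (- star ((a⁻¹ : Kˣ) : K) * r * p) * e1
    · simp only [HForm.D, HForm.F', LinearMap.coe_mk, AddHom.coe_mk, smul_smul]
      congr 2
      linear_combination (- p) * e1
  | D b g _ ih =>
    intro a
    obtain ⟨ε, h1, l, h2⟩ := ih (a * b)
    refine ⟨ε, h1, l, fun x => ?_⟩
    rw [← h2]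
    change HForm.D V a (HForm.D V b (g x)) = HForm.D V (a * b) (g x)
    generalize g x = v
    obtain ⟨p, q, y⟩ := v
    ext
    · simp [HForm.D, mul_assoc]
    · simp only [HForm.D, LinearMap.coe_mk, AddHom.coe_mk, mul_inv_rev, Units.val_mul, star_mul']
      ring
    · simp [HForm.D]

/-- the lattice `I × Iᵛ × M₁`. -/
def LI (Λ : Subring K) (M₁ : AddSubgroup V) (I : AddSubgroup K) : AddSubgroup (K × K × V) where
  carrier := {v | v.1 ∈ I ∧ (∀ a ∈ I, star v.2.1 * a ∈ Λ) ∧ v.2.2 ∈ M₁}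
  add_mem' := fun {v w} ha hb => ⟨I.add_mem ha.1 hb.1, fun a h => by
    simp only [Prod.snd_add, Prod.fst_add, star_add, add_mul]
    exact Λ.add_mem (ha.2.1 a h) (hb.2.1 a h), M₁.add_mem ha.2.2 hb.2.2⟩
  zero_mem' := ⟨I.zero_mem, fun a _ => by simp, M₁.zero_mem⟩
  neg_mem' := fun {v} ha => ⟨I.neg_mem ha.1, fun a h => by
    simp only [Prod.snd_neg, Prod.fst_neg, star_neg, neg_mul]
    exact Λ.neg_mem (ha.2.1 a h), M₁.neg_mem ha.2.2⟩

omit [Module K V] in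
theorem mem_LI {Λ : Subring K} {M₁ : AddSubgroup V} {I : AddSubgroup K} {v : K × K × V} :
    v ∈ LI Λ M₁ I ↔ v.1 ∈ I ∧ (∀ a ∈ I, star v.2.1 * a ∈ Λ) ∧ v.2.2 ∈ M₁ := Iff.rfl

theorem LI_smul (Λ : Subring K) (M₁ : AddSubgroup V) (I I' : AddSubgroup K) (a : Kˣ)
    (h : ∀ x, x ∈ I ↔ (a : K) * x ∈ I') : im (De V a) (LI Λ M₁ I) = LI Λ M₁ I' := by
  ext ⟨p, q, y⟩
  rw [mem_im, mem_LI, mem_LI]
  change ((a⁻¹ : Kˣ) : K) * p ∈ I ∧ (∀ b ∈ I, star (star (((a⁻¹)⁻¹ : Kˣ) : K) * q) * b ∈ Λ) ∧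
    y ∈ M₁ ↔ p ∈ I' ∧ (∀ b ∈ I', star q * b ∈ Λ) ∧ y ∈ M₁
  rw [h, inv_inv, ← mul_assoc, Units.mul_inv, one_mul]
  refine and_congr_right fun _ => and_congr_left fun _ => ?_
  constructor
  · intro h1 b hb
    have h2 := h1 (((a⁻¹ : Kˣ) : K) * b) ((h _).2 (by rw [← mul_assoc, Units.mul_inv, one_mul]; exact hb))
    have h3 : star (star (a : K) * q) * (((a⁻¹ : Kˣ) : K) * b) = star q * b := by
      rw [star_mul', star_star]
      have : (a : K) * ((a⁻¹ : Kˣ) : K) = 1 := by simp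
      linear_combination (star q * b) * this
    rwa [h3] at h2
  · intro h1 b hb
    have h2 := h1 _ ((h _).1 hb)
    have h3 : star (star (a : K) * q) * b = star q * (a * b) := by
      rw [star_mul', star_star]; ring
    rwa [h3]

theorem com_D {Λ : Subring K} {M₁ : AddSubgroup V} (hL : Lat H Λ M₁) (l : Kˣ) :
    Com (im (De V l) (M0 Λ M₁)) (M0 Λ M₁) := by
  obtain ⟨n1, hn1, h1⟩ := hL.full l
  obtain ⟨n2, hn2, h2⟩ := hL.full ((l⁻¹ : Kˣ) : K)
  have h1' : n1 • star (l : K) ∈ Λ := by rw [← star_nsmul]; exact hL.star_mem _ h1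
  have h2' : n2 • star ((l⁻¹ : Kˣ) : K) ∈ Λ := by rw [← star_nsmul]; exact hL.star_mem _ h2
  have key : ∀ {m : ℕ} {a b : K}, m • a ∈ Λ → b ∈ Λ → ∀ k, (k * m) • (a * b) ∈ Λ := by
    intro m a b ha hb k
    rw [mul_smul, ← smul_mul_assoc]
    exact Λ.toAddSubgroup.nsmul_mem (Λ.mul_mem ha hb) _
  refine ⟨n1 * n2, Nat.mul_pos hn1 hn2, ?_, ?_⟩
  · rintro _ ⟨⟨p, q, y⟩, ⟨hp, hq, hy⟩, rfl⟩
    refine ⟨?_, ?_, M₁.nsmul_mem hy _⟩
    · change (n1 * n2) • ((l : K) * p) ∈ Λ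
      rw [mul_comm n1 n2]; exact key h1 hp _
    · change (n1 * n2) • (star ((l⁻¹ : Kˣ) : K) * q) ∈ Λ
      exact key h2' hq _
  · rintro ⟨p, q, y⟩ ⟨hp, hq, hy⟩
    rw [mem_im]
    refine ⟨?_, ?_, M₁.nsmul_mem hy _⟩
    · change ((l⁻¹ : Kˣ) : K) * ((n1 * n2) • p) ∈ Λ
      rw [mul_smul_comm]; exact key h2 hp _
    · change star (((l⁻¹)⁻¹ : Kˣ) : K) * ((n1 * n2) • q) ∈ Λ
      rw [mul_smul_comm, inv_inv, mul_comm n1 n2]; exact key h1' hq _

end herm

section main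

variable {K V : Type} [CommRing K] [StarRing K] [Algebra ℚ K] [IsArtinianRing K] [IsReduced K]
  [AddCommGroup V] [Module K V] [Module.Finite K V] (H : HForm K V)

omit [Algebra ℚ K] [IsArtinianRing K] [IsReduced K] [Module K V] [Module.Finite K V]
  [StarRing K] in
theorem proj_mem {N : ℕ} {U M'' M : AddSubgroup (K × K × V)} (hn : Near N U M'')
    (ha : Away N M'' M) (π : (K × K × V) →+ (K × K × V)) (hU : ∀ x ∈ U, π x ∈ U)
    (hM : ∀ x ∈ M, π x ∈ M) : ∀ x ∈ M'', π x ∈ M'' := by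
  intro x hx
  obtain ⟨t, ht, h1, h2⟩ := hn
  obtain ⟨k, h3, h4⟩ := ha
  refine mem_of_coprime (a := t * t) (b := N ^ k * N ^ k) ?_ ?_ ?_
  · exact ((ht.mul_left ht).pow_right k).mul_right ((ht.mul_left ht).pow_right k)
  · rw [mul_smul, ← map_nsmul]
    exact h1 _ (hU _ (h2 _ hx))
  · rw [mul_smul, ← map_nsmul]
    exact h4 _ (hM _ (h3 _ hx))

/-- hypotheses on a second lattice. -/
structure Loc (Λ : Subring K) (M₁ : AddSubgroup V) (M' : AddSubgroup (K × K × V)) : Prop where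
  smul_mem : ∀ a ∈ Λ, ∀ x ∈ M', a • x ∈ M'
  h_mem : ∀ x ∈ M', ∀ y ∈ M', H.hyp.h x y ∈ Λ
  mem_of : ∀ x, (∀ y ∈ M', H.hyp.h x y ∈ Λ) → x ∈ M'
  com : Com M' (M0 Λ M₁)
  loc : ∀ N : ℕ, 0 < N → ∃ g : (K × K × V) ≃ₗ[K] (K × K × V), IsI H g ∧
    Near N (im g (M0 Λ M₁)) M'

/-- P4.9. -/
theorem glob (hK : Good K) (hH : H.Unimodular) {Λ : Subring K} {M₁ : AddSubgroup V}
    (hL : Lat H Λ M₁) {M' : AddSubgroup (K × K × V)} (hM' : Loc H Λ M₁ M') :
    ∃ γ : (K × K × V) ≃ₗ[K] (K × K × V), IsI H γ ∧ ∃ I : AddSubgroup K,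
      (∀ a ∈ Λ, ∀ x ∈ I, a * x ∈ I) ∧ Com I Λ.toAddSubgroup ∧ im γ M' = LI Λ M₁ I := by
  obtain ⟨N, hN, hA1, hA2⟩ := hM'.com
  have hA : Away N M' (M0 Λ M₁) := ⟨1, by simpa using hA1, by simpa using hA2⟩
  obtain ⟨g, hg, hgN⟩ := hM'.loc N hN
  have hgen := p48 K hK V H hH g hg
  obtain ⟨ε, hε, l, hl⟩ := push H hgen 1
  have hD1 : ∀ x : K × K × V, HForm.D V (1 : Kˣ) x = x := by
    intro x; ext <;> simp [HForm.D]
  have hgl : g = (De V l).trans ε := LinearEquiv.ext fun x => by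
    have := hl x
    rw [hD1] at this
    exact this
  have hcU := com_D H hL l
  set U := im (De V l) (M0 Λ M₁) with hU
  obtain ⟨_, γ, hγ, hγP, hγN⟩ := approxW H hL N hε hcU
  have e1 : im ε U = im g (M0 Λ M₁) := by rw [hgl, im_trans]
  rw [e1] at hγN
  have hnear : Near N (im γ U) M' := hγN.trans hgN
  have hnear2 : Near N U (im γ.symm M') := by
    have : Near N (im γ.symm (im γ U)) (im γ.symm M') := hnear.map _
    rwa [im_symm_im] at this
  have haway2 : Away N (im γ.symm M') (M0 Λ M₁) := by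
    have h1 : Away N (im γ.symm M') (im γ.symm (M0 Λ M₁)) := hA.map _
    exact h1.trans hγP.symm
  set M'' := im γ.symm M' with hM''
  have hMem : ∀ x, x ∈ M'' ↔ γ x ∈ M' := fun x => by
    rw [hM'', mem_im]; simp
  have hcom := Near.com hN haway2
  obtain ⟨t, ht, hn1, hn2⟩ := id hnear2
  obtain ⟨k, ha1, ha2⟩ := id haway2
  -- the three projections
  let π1 : (K × K × V) →+ (K × K × V) :=
    { toFun := fun v => (v.1, 0, 0), map_zero' := rfl, map_add' := fun v w => by simp }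
  let π2 : (K × K × V) →+ (K × K × V) :=
    { toFun := fun v => (0, v.2.1, 0), map_zero' := rfl, map_add' := fun v w => by simp }
  let π3 : (K × K × V) →+ (K × K × V) :=
    { toFun := fun v => (0, 0, v.2.2), map_zero' := rfl, map_add' := fun v w => by simp }
  have hM0π1 : ∀ x ∈ M0 Λ M₁, π1 x ∈ M0 Λ M₁ := fun x hx => ⟨hx.1, Λ.zero_mem, M₁.zero_mem⟩
  have hM0π2 : ∀ x ∈ M0 Λ M₁, π2 x ∈ M0 Λ M₁ := fun x hx => ⟨Λ.zero_mem, hx.2.1, M₁.zero_mem⟩
  have hM0π3 : ∀ x ∈ M0 Λ M₁, π3 x ∈ M0 Λ M₁ := fun x hx => ⟨Λ.zero_mem, Λ.zero_mem, hx.2.2⟩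
  have hUπ : ∀ π : (K × K × V) →+ (K × K × V), (∀ x ∈ M0 Λ M₁, π x ∈ M0 Λ M₁) →
      (∀ x, (De V l).symm (π x) = π ((De V l).symm x)) → ∀ x ∈ U, π x ∈ U := by
    intro π h1 h2 x hx
    rw [hU, mem_im] at hx ⊢
    rw [h2]; exact h1 _ hx
  have hUπ1 := hUπ π1 hM0π1 (fun x => by
    change HForm.D V l⁻¹ (π1 x) = π1 (HForm.D V l⁻¹ x)
    simp [HForm.D, π1])
  have hUπ2 := hUπ π2 hM0π2 (fun x => by
    change HForm.D V l⁻¹ (π2 x) = π2 (HForm.D V l⁻¹ x)
    simp [HForm.D, π2])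
  have hUπ3 := hUπ π3 hM0π3 (fun x => by
    change HForm.D V l⁻¹ (π3 x) = π3 (HForm.D V l⁻¹ x)
    simp [HForm.D, π3])
  have p1 := proj_mem hnear2 haway2 π1 hUπ1 hM0π1
  have p2 := proj_mem hnear2 haway2 π2 hUπ2 hM0π2
  have p3 := proj_mem hnear2 haway2 π3 hUπ3 hM0π3
  let I : AddSubgroup K :=
    { carrier := {a | ((a, 0, 0) : K × K × V) ∈ M''}
      add_mem' := fun {a b} ha hb => by
        have := M''.add_mem ha hb
        simpa using this
      zero_mem' := M''.zero_mem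
      neg_mem' := fun {a} ha => by
        have := M''.neg_mem ha
        simpa using this }
  have hI : ∀ a, a ∈ I ↔ ((a, 0, 0) : K × K × V) ∈ M'' := fun _ => Iff.rfl
  refine ⟨γ.symm, hγ.symm, I, ?_, ?_, ?_⟩
  · intro a ha x hx
    rw [hI] at hx ⊢
    have h1 : ((a * x, 0, 0) : K × K × V) = a • ((x, 0, 0) : K × K × V) := by simp
    rw [hMem] at hx ⊢
    rw [h1, map_smul]
    exact hM'.smul_mem a ha _ hx
  · obtain ⟨c, hc, hc1, hc2⟩ := hcom
    refine ⟨c, hc, ?_, ?_⟩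
    · intro a ha
      exact (hc1 _ ha).1
    · intro a ha
      have := hc2 (a, 0, 0) ⟨ha, Λ.zero_mem, M₁.zero_mem⟩
      rw [hI]
      simpa using this
  · ext ⟨a, b, y⟩
    rw [mem_LI]
    constructor
    · intro hx
      refine ⟨p1 _ hx, ?_, ?_⟩
      · intro a' ha'
        have h1 := (hMem _).1 (p2 _ hx)
        have h2 := (hMem _).1 ((hI a').1 ha')
        have h3 := hM'.h_mem _ h1 _ h2
        rw [hγ] at h3
        simpa [HForm.hyp, π2, h_zero_right] using h3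
      · have h1 := p3 _ hx
        refine mem_of_coprime (ht.pow_right k) ?_ ?_
        · have := hn2 _ h1
          rw [hU, mem_im] at this
          exact this.2.2
        · exact (ha1 _ h1).2.2
    · rintro ⟨h1, h2, h3⟩
      simp only at h1 h2 h3
      have q1 : ((a, 0, 0) : K × K × V) ∈ M'' := h1
      have q2 : ((0, b, 0) : K × K × V) ∈ M'' := by
        rw [hMem]
        apply hM'.mem_of
        intro z hz
        have hz' : γ.symm z ∈ M'' := by rw [hMem]; simpa using hz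
        have h4 := h2 _ (p1 _ hz')
        have h5 : H.hyp.h (γ (0, b, 0)) z = H.hyp.h (0, b, 0) (γ.symm z) := by
          rw [← hγ (0, b, 0) (γ.symm z)]; simp
        rw [h5]
        simpa [HForm.hyp, h_zero_left, π1] using h4
      have q3 : ((0, 0, y) : K × K × V) ∈ M'' := by
        refine mem_of_coprime (ht.pow_right k) ?_ ?_
        · apply hn1
          rw [hU, mem_im]
          change HForm.D V l⁻¹ (0, 0, y) ∈ M0 Λ M₁
          refine ⟨?_, ?_, h3⟩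
          · simp [HForm.D]
          · simp [HForm.D]
        · exact ha2 _ ⟨Λ.zero_mem, Λ.zero_mem, h3⟩
      have : ((a, b, y) : K × K × V) = (a, 0, 0) + (0, b, 0) + (0, 0, y) := by simp
      rw [this]
      exact M''.add_mem (M''.add_mem q1 q2) q3

/-- P4.10 in the form needed: among `h + 1` full `Λ`-lattices of `K` two are proportional. -/
def P410 (Λ : Subring K) (h : ℕ) : Prop :=
  ∀ I : Fin (h + 1) → AddSubgroup K, (∀ i, ∀ a ∈ Λ, ∀ x ∈ I i, a * x ∈ I i) →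
    (∀ i, Com (I i) Λ.toAddSubgroup) →
    ∃ i j, i ≠ j ∧ ∃ a : Kˣ, ∀ x, x ∈ I i ↔ (a : K) * x ∈ I j

/-- pigeonhole: two of `h + 1` lattices in the genus are isometric. -/
theorem pigeon (hK : Good K) (hH : H.Unimodular) {Λ : Subring K} {M₁ : AddSubgroup V}
    (hL : Lat H Λ M₁) {h : ℕ} (hP : P410 Λ h) (M' : Fin (h + 1) → AddSubgroup (K × K × V))
    (hM' : ∀ i, Loc H Λ M₁ (M' i)) :
    ∃ i j, i ≠ j ∧ ∃ γ : (K × K × V) ≃ₗ[K] (K × K × V), IsI H γ ∧ im γ (M' i) = M' j := by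
  choose γ hγ I hI1 hI2 hI3 using fun i => glob H hK hH hL (hM' i)
  obtain ⟨i, j, hij, a, ha⟩ := hP I hI1 hI2
  refine ⟨i, j, hij, ((γ i).trans (De V a)).trans (γ j).symm,
    ((hγ i).trans (isI_De H a)).trans (hγ j).symm, ?_⟩
  rw [im_trans, im_trans, hI3, LI_smul Λ M₁ (I i) (I j) a ha, ← hI3, im_symm_im]

end main

end Crest.Agent.R267.P49_169
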