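import Mathlib
import Crest.Agent.R267.P49_169

/-!
# S0407, node P4.9, second part (helper169): hermitian lattices with a hyperbolic pair

`HL K Λ`: unimodular hermitian `Λ`-lattices; `pigeonHL`: among `h + 1` lattices which are, for every
`N`, rationally isometric to `X₀` by a map which is an isometry of lattices at all primes dividing
`N`, two are isometric; `X₀` contains a hyperbolic pair and `h` is the constant of P4.10.
-/

set_option autoImplicit false

namespace Crest.Agent.R267.P49b_169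

open Crest.Agent.R267.P4Herm_780 Crest.Agent.R267.P4Herm_780.HForm Crest.Agent.R267.P48_118
  Crest.Agent.R267.P49_169

/-- bundled unimodular hermitian lattices. -/
structure HL (K : Type) [CommRing K] [StarRing K] (Λ : Subring K) where
  V : Type
  [grp : AddCommGroup V]
  [mod : Module K V]
  [fin : Module.Finite K V]
  H : HForm K V
  uni : H.Unimodular
  M : AddSubgroup V
  smul_mem : ∀ a ∈ Λ, ∀ x ∈ M, a • x ∈ M
  h_mem : ∀ x ∈ M, ∀ y ∈ M, H.h x y ∈ Λ
  mem_of : ∀ x, (∀ y ∈ M, H.h x y ∈ Λ) → x ∈ M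
  full : ∀ x, ∃ n : ℕ, 0 < n ∧ n • x ∈ M
  fg : M.FG

attribute [instance] HL.grp HL.mod HL.fin

theorem exists_mul_mem {V : Type*} [AddCommGroup V] {U U' : AddSubgroup V} (hU : U.FG)
    (h : ∀ x ∈ U, ∃ n : ℕ, 0 < n ∧ n • x ∈ U') : ∃ c : ℕ, 0 < c ∧ ∀ x ∈ U, c • x ∈ U' := by
  classical
  obtain ⟨S, hS⟩ := hU
  have hSU : ∀ x ∈ S, x ∈ U := fun x hx => by rw [← hS]; exact AddSubgroup.subset_closure hx
  have h' : ∀ x, ∃ n : ℕ, 0 < n ∧ (x ∈ U → n • x ∈ U') := by
    intro x
    by_cases hx : x ∈ U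
    · obtain ⟨n, hn, h1⟩ := h x hx
      exact ⟨n, hn, fun _ => h1⟩
    · exact ⟨1, one_pos, fun h2 => absurd h2 hx⟩
  choose n hn hn' using h'
  refine ⟨∏ x ∈ S, n x, Finset.prod_pos fun x _ => hn x, ?_⟩
  intro x hx
  rw [← hS] at hx
  induction hx using AddSubgroup.closure_induction with
  | mem x hx =>
    rw [← Finset.prod_erase_mul S n hx, mul_smul]
    exact U'.nsmul_mem (hn' x (hSU x hx)) _
  | zero => rw [smul_zero]; exact U'.zero_mem
  | add x y _ _ hx hy => rw [smul_add]; exact U'.add_mem hx hy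
  | neg x _ hx => rw [smul_neg]; exact U'.neg_mem hx

theorem fg_map {V W : Type*} [AddCommGroup V] [AddCommGroup W] {U : AddSubgroup V} (hU : U.FG)
    (f : V →+ W) : (U.map f).FG := by
  classical
  obtain ⟨S, hS⟩ := hU
  exact ⟨S.image f, by rw [Finset.coe_image, ← AddMonoidHom.map_closure, hS]⟩

section im

variable {K V W : Type} [CommRing K] [AddCommGroup V] [Module K V] [AddCommGroup W] [Module K W]

/-- image of a subgroup under a linear equivalence. -/
abbrev img (g : V ≃ₗ[K] W) (U : AddSubgroup V) : AddSubgroup W :=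
  U.map ((g : V →ₗ[K] W).toAddMonoidHom)

theorem mem_img {g : V ≃ₗ[K] W} {U : AddSubgroup V} {x : W} : x ∈ img g U ↔ g.symm x ∈ U := by
  constructor
  · rintro ⟨y, hy, rfl⟩
    have : g.symm ((g : V →ₗ[K] W).toAddMonoidHom y) = y := g.symm_apply_apply y
    rw [this]; exact hy
  · intro h
    exact ⟨g.symm x, h, g.apply_symm_apply x⟩

theorem img_trans {X : Type} [AddCommGroup X] [Module K X] (g : V ≃ₗ[K] W) (g' : W ≃ₗ[K] X)
    (U : AddSubgroup V) : img (g.trans g') U = img g' (img g U) := by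
  ext x
  rw [mem_img, mem_img, mem_img]; rfl

theorem img_symm_img (g : V ≃ₗ[K] W) (U : AddSubgroup V) : img g.symm (img g U) = U := by
  ext x
  rw [mem_img, mem_img]; simp

theorem img_img_symm (g : V ≃ₗ[K] W) (U : AddSubgroup W) : img g (img g.symm U) = U := by
  ext x
  rw [mem_img, mem_img]; simp

end im

section split

variable {K V : Type} [CommRing K] [StarRing K] [AddCommGroup V] [Module K V] (H : HForm K V)
  (e f : V)

/-- orthogonal complement of `e`, `f`. -/
def V1 : Submodule K V where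
  carrier := {x | H.h e x = 0 ∧ H.h f x = 0}
  add_mem' := fun ha hb => ⟨by rw [H.add_right, ha.1, hb.1, add_zero],
    by rw [H.add_right, ha.2, hb.2, add_zero]⟩
  zero_mem' := ⟨h_zero_right H _, h_zero_right H _⟩
  smul_mem' := fun c x hx => ⟨by rw [H.smul_right, hx.1, mul_zero],
    by rw [H.smul_right, hx.2, mul_zero]⟩

theorem mem_V1 {x : V} : x ∈ V1 H e f ↔ H.h e x = 0 ∧ H.h f x = 0 := Iff.rfl

/-- restriction of the form. -/
def res : HForm K (V1 H e f) where
  h x y := H.h x y
  add_right _ _ _ := H.add_right _ _ _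
  smul_right _ _ _ := H.smul_right _ _ _
  symm _ _ := H.symm _ _

variable {H e f} (hee : H.h e e = 0) (hff : H.h f f = 0) (hef : H.h e f = 1)

include hef in
theorem hfe : H.h f e = 1 := by rw [← H.symm, hef, star_one]

include hee hff hef in
theorem proj_mem' (v : V) : v - H.h f v • e - H.h e v • f ∈ V1 H e f := by
  rw [mem_V1]
  constructor
  · rw [h_sub_right, h_sub_right, H.smul_right, H.smul_right, hee, hef]; ring
  · rw [h_sub_right, h_sub_right, H.smul_right, H.smul_right, hff, hfe hef]; ring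

/-- the splitting. -/
def Th : (K × K × V1 H e f) ≃ₗ[K] V where
  toFun v := v.1 • e + v.2.1 • f + v.2.2
  invFun v := (H.h f v, H.h e v, ⟨v - H.h f v • e - H.h e v • f, proj_mem' hee hff hef v⟩)
  map_add' v w := by
    simp only [Prod.fst_add, Prod.snd_add, add_smul, Submodule.coe_add]; abel
  map_smul' a v := by
    simp [smul_add, smul_smul]
  left_inv v := by
    obtain ⟨a, b, x, hx⟩ := v
    rw [mem_V1] at hx
    have h1 : H.h f (a • e + b • f + x) = a := by
      rw [H.add_right, H.add_right, H.smul_right, H.smul_right, hff, hfe hef, hx.2]; ring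
    have h2 : H.h e (a • e + b • f + x) = b := by
      rw [H.add_right, H.add_right, H.smul_right, H.smul_right, hee, hef, hx.1]; ring
    ext
    · exact h1
    · exact h2
    · simp only [h1, h2]; abel
  right_inv v := by
    simp only; abel

theorem Th_apply (v : K × K × V1 H e f) : Th hee hff hef v = v.1 • e + v.2.1 • f + v.2.2 := rfl

theorem Th_isom (v w : K × K × V1 H e f) :
    H.h (Th hee hff hef v) (Th hee hff hef w) = (res H e f).hyp.h v w := by
  obtain ⟨a, b, x, hx⟩ := v
  obtain ⟨a', b', y, hy⟩ := w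
  rw [mem_V1] at hx hy
  have h1 : H.h x e = 0 := by rw [← H.symm, hx.1, star_zero]
  have h2 : H.h x f = 0 := by rw [← H.symm, hx.2, star_zero]
  simp only [Th_apply, HForm.hyp, res, H.add_right, H.add_left, H.smul_right, H.smul_left,
    hee, hff, hef, hfe hef, hy.1, hy.2, h1, h2]
  ring

include hee hff hef in
theorem res_unimodular (hU : H.Unimodular) : (res H e f).Unimodular := by
  constructor
  · intro x x' hxx
    have h1 : ∀ y ∈ V1 H e f, H.h x y = H.h x' y := fun y hy =>
      congrArg (fun φ => φ ⟨y, hy⟩) hxx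
    apply Subtype.ext
    apply hU.1
    ext v
    change H.h x v = H.h x' v
    have hx := x.2
    have hx' := x'.2
    rw [mem_V1] at hx hx'
    have e1 : H.h (x : V) e = 0 := by rw [← H.symm, hx.1, star_zero]
    have e2 : H.h (x : V) f = 0 := by rw [← H.symm, hx.2, star_zero]
    have e3 : H.h (x' : V) e = 0 := by rw [← H.symm, hx'.1, star_zero]
    have e4 : H.h (x' : V) f = 0 := by rw [← H.symm, hx'.2, star_zero]
    have h2 := h1 _ (proj_mem' hee hff hef v)
    rw [h_sub_right, h_sub_right, h_sub_right, h_sub_right, H.smul_right, H.smul_right,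
      H.smul_right, H.smul_right, e1, e2, e3, e4] at h2
    linear_combination h2
  · intro φ
    let π : V →ₗ[K] V1 H e f :=
      (LinearMap.snd K K (V1 H e f)).comp ((LinearMap.snd K K (K × V1 H e f)).comp
        ((Th hee hff hef).symm : V →ₗ[K] K × K × V1 H e f))
    obtain ⟨w, hw⟩ := hU.2 (φ.comp π)
    have hw' : ∀ v, H.h w v = φ (π v) := fun v => congrArg (fun ψ => ψ v) hw
    have hπ : ∀ x : V1 H e f, π x = x := by
      intro x
      have hx := x.2
      rw [mem_V1] at hx
      apply Subtype.ext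
      change (x : V) - H.h f x • e - H.h e x • f = x
      rw [hx.1, hx.2]; simp
    have hwe : H.h w e = 0 := by
      rw [hw']
      have : π e = 0 := by
        apply Subtype.ext
        change e - H.h f e • e - H.h e e • f = 0
        rw [hee, hfe hef]; simp
      rw [this, map_zero]
    have hwf : H.h w f = 0 := by
      rw [hw']
      have : π f = 0 := by
        apply Subtype.ext
        change f - H.h f f • e - H.h e f • f = 0
        rw [hff, hef]; simp
      rw [this, map_zero]
    refine ⟨⟨w, ?_⟩, ?_⟩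
    · rw [mem_V1]
      exact ⟨by rw [← H.symm, hwe, star_zero], by rw [← H.symm, hwf, star_zero]⟩
    · ext x
      change H.h w x = φ x
      rw [hw', hπ]

end split

section main

variable {K : Type} [CommRing K] [StarRing K] {Λ : Subring K}

/-- rational isometries which are isometries of lattices at all `p ∣ N`. -/
def RIso (N : ℕ) (X Y : HL K Λ) : Prop :=
  ∃ g : X.V ≃ₗ[K] Y.V, (∀ x y, Y.H.h (g x) (g y) = X.H.h x y) ∧ Near N (img g X.M) Y.M

/-- isometries. -/
def Iso (X Y : HL K Λ) : Prop :=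
  ∃ g : X.V ≃ₗ[K] Y.V, (∀ x y, Y.H.h (g x) (g y) = X.H.h x y) ∧ img g X.M = Y.M

theorem pigeonHL [Algebra ℚ K] [IsArtinianRing K] [IsReduced K] (hK : Good K)
    (hstar : ∀ a ∈ Λ, star a ∈ Λ) (hfull : ∀ a : K, ∃ n : ℕ, 0 < n ∧ n • a ∈ Λ)
    {c : K} (hc : c ∈ Λ) (hc1 : c + star c = 1) {h : ℕ} (hP : P410 Λ h)
    (X0 : HL K Λ) {e f0 : X0.V} (he : e ∈ X0.M) (hf0 : f0 ∈ X0.M) (hee : X0.H.h e e = 0)
    (hef0 : X0.H.h e f0 = 1) (X : Fin (h + 1) → HL K Λ)
    (hX : ∀ i, ∀ N, 0 < N → RIso N X0 (X i)) : ∃ i j, i ≠ j ∧ Iso (X i) (X j) := by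
  -- normalise the hyperbolic pair
  have hfe0 : X0.H.h f0 e = 1 := hfe hef0
  obtain ⟨f, hf, hff, hef⟩ : ∃ f ∈ X0.M, X0.H.h f f = 0 ∧ X0.H.h e f = 1 := by
    refine ⟨f0 - (c * X0.H.h f0 f0) • e, ?_, ?_, ?_⟩
    · exact X0.M.sub_mem hf0 (X0.smul_mem _ (Λ.mul_mem hc (X0.h_mem _ hf0 _ hf0)) _ he)
    · have hs : star (X0.H.h f0 f0) = X0.H.h f0 f0 := X0.H.symm _ _
      have e1 : ∀ x y z : X0.V, X0.H.h (x - y) z = X0.H.h x z - X0.H.h y z := by
        intro x y z
        rw [sub_eq_add_neg, X0.H.add_left, h_neg_left, sub_eq_add_neg]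
      rw [h_sub_right, e1, e1, X0.H.smul_right, X0.H.smul_right, X0.H.smul_left, X0.H.smul_left,
        hee, hfe0, hef0, star_mul', hs]
      linear_combination (- X0.H.h f0 f0) * hc1
    · rw [h_sub_right, X0.H.smul_right, hee, hef0]; ring
  set M1 : AddSubgroup (V1 X0.H e f) := X0.M.comap (V1 X0.H e f).subtype.toAddMonoidHom with hM1
  have hmemM1 : ∀ x : V1 X0.H e f, x ∈ M1 ↔ (x : X0.V) ∈ X0.M := fun _ => Iff.rfl
  have hL : Lat (res X0.H e f) Λ M1 :=
    { star_mem := hstar
      full := hfull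
      smul_mem := fun a ha x hx => X0.smul_mem a ha _ hx
      full₁ := fun x => by
        obtain ⟨n, hn, hx⟩ := X0.full x
        exact ⟨n, hn, hx⟩
      h_mem := fun x hx y hy => X0.h_mem _ hx _ hy }
  set T := Th hee hff hef with hT
  have hTM : img T (M0 Λ M1) = X0.M := by
    ext v
    rw [mem_img]
    constructor
    · rintro ⟨h1, h2, h3⟩
      have h4 : T (T.symm v) = v := T.apply_symm_apply v
      rw [← h4, hT, Th_apply]
      exact X0.M.add_mem (X0.M.add_mem (X0.smul_mem _ h1 _ he) (X0.smul_mem _ h2 _ hf)) h3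
    · intro hv
      have h1 : X0.H.h f v ∈ Λ := X0.h_mem _ hf _ hv
      have h2 : X0.H.h e v ∈ Λ := X0.h_mem _ he _ hv
      exact ⟨h1, h2, X0.M.sub_mem (X0.M.sub_mem hv (X0.smul_mem _ h1 _ he)) (X0.smul_mem _ h2 _ hf)⟩
  -- transport
  have hG : ∀ i, ∃ P : (X i).V ≃ₗ[K] (K × K × V1 X0.H e f),
      ∀ x y, (res X0.H e f).hyp.h (P x) (P y) = (X i).H.h x y := by
    intro i
    obtain ⟨g, hg, -⟩ := hX i 2 (by norm_num)
    refine ⟨g.symm.trans T.symm, fun x y => ?_⟩
    rw [← Th_isom hee hff hef]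
    simp only [LinearEquiv.trans_apply]
    rw [← hT, T.apply_symm_apply, T.apply_symm_apply, ← hg]
    simp
  choose P hPi using hG
  have hloc : ∀ i, ∀ N : ℕ, 0 < N → ∃ g : (K × K × V1 X0.H e f) ≃ₗ[K] (K × K × V1 X0.H e f),
      IsI (res X0.H e f) g ∧ Near N (im g (M0 Λ M1)) (img (P i) (X i).M) := by
    intro i N hN
    obtain ⟨g, hg, hgN⟩ := hX i N hN
    refine ⟨(T.trans g).trans (P i), fun x y => ?_, ?_⟩
    · simp only [LinearEquiv.trans_apply]
      rw [hPi, hg, hT, Th_isom]
    · have h1 : im ((T.trans g).trans (P i)) (M0 Λ M1) = img (P i) (img g X0.M) := by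
        change img ((T.trans g).trans (P i)) (M0 Λ M1) = _
        rw [img_trans, img_trans, hTM]
      rw [h1]
      exact hgN.map _
  have hLoc : ∀ i, Loc (res X0.H e f) Λ M1 (img (P i) (X i).M) := by
    intro i
    refine ⟨?_, ?_, ?_, ?_, hloc i⟩
    · intro a ha x hx
      rw [mem_img] at hx ⊢
      rw [map_smul]
      exact (X i).smul_mem a ha _ hx
    · intro x hx y hy
      rw [mem_img] at hx hy
      have := (X i).h_mem _ hx _ hy
      rw [← hPi] at this
      simpa using this
    · intro x hx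
      rw [mem_img]
      apply (X i).mem_of
      intro y hy
      have h1 := hx (P i y) (by rw [mem_img]; simpa using hy)
      rw [← hPi]
      simpa using h1
    · have hM0 : M0 Λ M1 = img T.symm X0.M := by rw [← hTM, img_symm_img]
      have hfg0 : (M0 Λ M1).FG := by rw [hM0]; exact fg_map X0.fg _
      have hfg1 : (img (P i) (X i).M).FG := fg_map (X i).fg _
      have hfull0 : ∀ x, ∃ n : ℕ, 0 < n ∧ n • x ∈ M0 Λ M1 := by
        intro x
        obtain ⟨n, hn, h1⟩ := X0.full (T x)
        refine ⟨n, hn, ?_⟩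
        rw [hM0, mem_img]
        simpa using h1
      have hfull1 : ∀ x, ∃ n : ℕ, 0 < n ∧ n • x ∈ img (P i) (X i).M := by
        intro x
        obtain ⟨n, hn, h1⟩ := (X i).full ((P i).symm x)
        refine ⟨n, hn, ?_⟩
        rw [mem_img]
        simpa using h1
      obtain ⟨c1, hc1, h1⟩ := exists_mul_mem hfg1 (fun x _ => hfull0 x)
      obtain ⟨c2, hc2, h2⟩ := exists_mul_mem hfg0 (fun x _ => hfull1 x)
      refine ⟨c1 * c2, Nat.mul_pos hc1 hc2, fun x hx => ?_, fun x hx => ?_⟩
      · rw [mul_comm, mul_smul]; exact AddSubgroup.nsmul_mem _ (h1 x hx) _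
      · rw [mul_smul]; exact AddSubgroup.nsmul_mem _ (h2 x hx) _
  obtain ⟨i, j, hij, γ, hγ, hγM⟩ := pigeon (res X0.H e f) hK (res_unimodular hee hff hef X0.uni)
    hL hP (fun i => img (P i) (X i).M) hLoc
  refine ⟨i, j, hij, ((P i).trans γ).trans (P j).symm, fun x y => ?_, ?_⟩
  · simp only [LinearEquiv.trans_apply]
    rw [← hPi j]
    simp only [LinearEquiv.apply_symm_apply]
    rw [hγ, hPi]
  · have h1 : img γ (img (P i) (X i).M) = img (P j) (X j).M := hγM
    rw [img_trans, img_trans, h1, img_symm_img]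

end main

end Crest.Agent.R267.P49b_169
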