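import Mathlib
import Crest.Agent.R267.P4Brg_780

/-!
# S0407, package P4: the inclusion `Lam m Q ℤ → Lam m Q ℚ` (helper169)
-/

set_option autoImplicit false

namespace Crest.Agent.R267.P4Z_169

open Polynomial Crest.Agent.R267.P4Herm_780 Crest.Agent.R267.P4Lam_780
  Crest.Agent.R267.P4Fun_780 Crest.Agent.R267.P4Defs_780 Crest.Agent.R267.P4Brg_780

variable {m Q : ℕ} [NeZero m] [NeZero Q]

theorem isReduced_lam (m Q : ℕ) [NeZero m] [NeZero Q] : IsReduced (Lam m Q ℚ) := by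
  have h0 : ((m * Q : ℕ) : ℚ) ≠ 0 := by exact_mod_cast (mQ_pos m Q).ne'
  have h1 : (X ^ (m * Q) - 1 : ℚ[X]).Separable := (X_pow_sub_one_separable_iff).2 h0
  have h2 : Squarefree (Psi m Q ℚ) := (h1.of_dvd (Psi_dvd m Q ℚ)).squarefree
  have h3 : (Ideal.span {Psi m Q ℚ}).IsRadical :=
    isRadical_iff_span_singleton.1 h2.isRadical
  exact (Ideal.isRadical_iff_quotient_reduced _).1 h3

/-- the inclusion. -/
noncomputable def iot (m Q : ℕ) [NeZero m] [NeZero Q] : Lam m Q ℤ →+* Lam m Q ℚ :=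
  AdjoinRoot.lift ((algebraMap ℚ (Lam m Q ℚ)).comp (Int.castRingHom ℚ)) (gx m Q ℚ) (by
    rw [← eval₂_map, Psi_map]
    exact aeval_gx)

theorem iot_gx : iot m Q (gx m Q ℤ) = gx m Q ℚ := AdjoinRoot.lift_root _

omit [NeZero m] [NeZero Q] in
theorem algZ (r : ℤ) : algebraMap ℤ (Lam m Q ℤ) r = ((r : ℤ) : Lam m Q ℤ) := eq_intCast _ r

omit [NeZero m] [NeZero Q] in
theorem hom_ext' {B : Type*} [CommRing B] {φ ψ : Lam m Q ℤ →+* B}
    (h : φ (gx m Q ℤ) = ψ (gx m Q ℤ)) : φ = ψ := by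
  apply RingHom.ext
  intro z
  induction z using ind with
  | h f =>
    induction f using Polynomial.induction_on' with
    | add p q hp hq => rw [map_add, map_add, map_add, hp, hq]
    | monomial k r =>
      rw [aeval_monomial, algZ, map_mul, map_mul, map_pow, map_pow, h, map_intCast, map_intCast]

theorem iot_star (z : Lam m Q ℤ) : iot m Q (star z) = star (iot m Q z) := by
  have h : (iot m Q).comp (conj : Lam m Q ℤ →ₐ[ℤ] Lam m Q ℤ).toRingHom =
      ((conj : Lam m Q ℚ →ₐ[ℚ] Lam m Q ℚ).toRingHom).comp (iot m Q) := by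
    apply hom_ext'
    change iot m Q (conj (gx m Q ℤ)) = conj (iot m Q (gx m Q ℤ))
    rw [iot_gx, conj_gx, conj_gx, map_pow, iot_gx]
  exact congrArg (fun f => f z) h

omit [NeZero m] [NeZero Q] in
theorem cast_mul_q (r : ℤ) (x : Lam m Q ℚ) : (r : Lam m Q ℚ) * x = (r : ℚ) • x := by
  rw [Algebra.smul_def]
  congr 1

theorem iot_alg (r : ℤ) (z : Lam m Q ℤ) :
    iot m Q (algebraMap ℤ (Lam m Q ℤ) r * z) = (r : ℚ) • iot m Q z := by
  rw [algZ, map_mul, map_intCast, cast_mul_q]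

theorem tau_iot (z : Lam m Q ℤ) : tau m Q ℚ (iot m Q z) = ((tau m Q ℤ z : ℤ) : ℚ) := by
  have hd : (Psi m Q ℚ).natDegree = (Psi m Q ℤ).natDegree := by
    rw [Psi_natDegree, Psi_natDegree]
  conv_lhs => rw [← (bas m Q ℤ).sum_repr z]
  conv_rhs => rw [← (bas m Q ℤ).sum_repr z]
  rw [map_sum, map_sum, map_sum, Int.cast_sum]
  refine Finset.sum_congr rfl fun i _ => ?_
  have hi := i.2
  rw [bas_apply]
  conv_lhs => rw [Algebra.smul_def, iot_alg, map_pow, iot_gx]
  rw [map_smul, map_smul, tau_pow hi, tau_pow (by rw [hd]; exact hi), hd]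
  split_ifs <;> simp

theorem iot_skew : iot m Q (skew m Q ℤ) = skew m Q ℚ := by
  rw [skew, skew, map_sub, map_pow, iot_gx, iot_star, map_pow, iot_gx]

theorem lam_iot (z : Lam m Q ℤ) : lam m Q ℚ (iot m Q z) = ((lam m Q ℤ z : ℤ) : ℚ) := by
  have hd : (Psi m Q ℚ).natDegree = (Psi m Q ℤ).natDegree := by
    rw [Psi_natDegree, Psi_natDegree]
  simp only [lam, LinearMap.comp_apply, LinearMap.mulLeft_apply]
  rw [← tau_iot]
  congr 1
  rw [map_mul (iot m Q), map_mul (iot m Q), map_pow, iot_gx, iot_skew, hd]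

theorem iot_full : ∀ a : Lam m Q ℚ, ∃ n : ℕ, 0 < n ∧ ∃ z, iot m Q z = n • a := by
  intro a
  induction a using ind with
  | h f =>
    induction f using Polynomial.induction_on' with
    | add p q hp hq =>
      obtain ⟨n1, h1, z1, hz1⟩ := hp
      obtain ⟨n2, h2, z2, hz2⟩ := hq
      refine ⟨n1 * n2, Nat.mul_pos h1 h2, n2 • z1 + n1 • z2, ?_⟩
      rw [map_add, map_nsmul, map_nsmul, hz1, hz2, map_add, smul_add, smul_smul, smul_smul,
        mul_comm n2 n1]
    | monomial k r =>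
      refine ⟨r.den, r.pos, algebraMap ℤ (Lam m Q ℤ) r.num * gx m Q ℤ ^ k, ?_⟩
      rw [iot_alg, map_pow, iot_gx, aeval_monomial, ← Algebra.smul_def,
        ← Nat.cast_smul_eq_nsmul ℚ, smul_smul, mul_comm, Rat.mul_den_eq_num]

theorem ext_gx (hQ : GoodQ Q) {a b : Lam m Q ℚ}
    (h : ∀ k : ℕ, lam m Q ℚ (a * gx m Q ℚ ^ k) = lam m Q ℚ (b * gx m Q ℚ ^ k)) : a = b := by
  apply (lam_perf hQ.two hQ.npp hQ.odd).ext
  intro w
  induction w using ind with
  | h f =>
    induction f using Polynomial.induction_on' with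
    | add p q hp hq => rw [map_add, mul_add, mul_add, map_add, map_add, hp, hq]
    | monomial k r =>
      rw [aeval_monomial, ← Algebra.smul_def, mul_smul_comm, mul_smul_comm, map_smul, map_smul, h]

theorem iot_dual (hQ : GoodQ Q) : ∀ a : Lam m Q ℚ,
    (∀ z, ∃ c : ℤ, lam m Q ℚ (a * iot m Q z) = c) → ∃ z, iot m Q z = a := by
  intro a ha
  choose c hc using ha
  let φ : Lam m Q ℤ →ₗ[ℤ] ℤ :=
    { toFun := c
      map_add' := fun x y => by
        have h1 := hc (x + y)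
        rw [map_add, mul_add, map_add, hc, hc] at h1
        exact_mod_cast h1.symm
      map_smul' := fun r x => by
        have h1 := hc (r • x)
        rw [zsmul_eq_mul, map_mul (iot m Q), map_intCast, cast_mul_q, mul_smul_comm, map_smul,
          hc] at h1
        rw [zsmul_eq_mul]
        rw [RingHom.id_apply, smul_eq_mul]
        rw [smul_eq_mul] at h1
        exact_mod_cast h1.symm }
  obtain ⟨z0, hz0, -⟩ := lam_perf (m := m) (R := ℤ) hQ.two hQ.npp hQ.odd φ
  refine ⟨z0, ext_gx hQ fun k => ?_⟩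
  have h1 := hz0 (gx m Q ℤ ^ k)
  have h2 := hc (gx m Q ℤ ^ k)
  have h3 := lam_iot (z0 * gx m Q ℤ ^ k)
  rw [map_pow, iot_gx] at h2
  rw [map_mul, map_pow, iot_gx, h1] at h3
  rw [h2, h3]; rfl

end Crest.Agent.R267.P4Z_169
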