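import Mathlib
import Crest.Agent.R267.P4Defs_780

/-!
# S0407, P4.9: weak approximation (helper169)

`WA`: two unimodular integral matrices `A`, `B` (with `A ± Aᵀ` invertible over `ℚ`) which are
congruent over `ℚ` and over `ℤ_p` for all `p ∣ N` are congruent over `ℚ` by a matrix of denominator
prime to `N`.
-/

set_option autoImplicit false

namespace Crest.Agent.R267.WA_169

open Matrix Polynomial Filter Topology Crest.Agent.R267.P4Defs_780

section cayley

variable {F n : Type*} [Field F] [Fintype n] [DecidableEq n]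

/-- Cayley transform. -/
noncomputable def cay (Y : Matrix n n F) : Matrix n n F := (1 + Y) * (1 - Y)⁻¹

theorem cay_isom {A Y : Matrix n n F} (hY : Yᵀ * A + A * Y = 0) (hu : IsUnit (1 - Y).det) :
    (cay Y)ᵀ * A * cay Y = A := by
  have h1 : (1 + Y)ᵀ * A = A * (1 - Y) := by
    rw [transpose_add, transpose_one, add_mul, mul_sub, Matrix.one_mul, Matrix.mul_one,
      eq_neg_of_add_eq_zero_left hY, sub_eq_add_neg]
  have h2 : (1 - Y)ᵀ * A = A * (1 + Y) := by
    rw [transpose_sub, transpose_one, sub_mul, mul_add, Matrix.one_mul, Matrix.mul_one,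
      eq_neg_of_add_eq_zero_left hY, sub_neg_eq_add]
  have h3 : (1 - Y) * (1 + Y) = (1 + Y) * (1 - Y) := by noncomm_ring
  have h4 : (1 - Y) * (1 - Y)⁻¹ = 1 := Matrix.mul_nonsing_inv _ hu
  have h5 : ((1 - Y)⁻¹)ᵀ * (1 - Y)ᵀ = 1 := by rw [← transpose_mul, h4, transpose_one]
  calc (cay Y)ᵀ * A * cay Y
      = ((1 - Y)⁻¹)ᵀ * ((1 + Y)ᵀ * A) * (1 + Y) * (1 - Y)⁻¹ := by
        rw [cay, transpose_mul]; simp only [Matrix.mul_assoc]
    _ = ((1 - Y)⁻¹)ᵀ * A * ((1 - Y) * (1 + Y)) * (1 - Y)⁻¹ := by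
        rw [h1]; simp only [Matrix.mul_assoc]
    _ = ((1 - Y)⁻¹)ᵀ * (A * (1 + Y)) * ((1 - Y) * (1 - Y)⁻¹) := by
        rw [h3]; simp only [Matrix.mul_assoc]
    _ = (((1 - Y)⁻¹)ᵀ * (1 - Y)ᵀ) * A := by
        rw [h4, ← h2, Matrix.mul_one]; simp only [Matrix.mul_assoc]
    _ = A := by rw [h5, Matrix.one_mul]

theorem cay_inv [CharZero F] {A g : Matrix n n F} (hg : gᵀ * A * g = A)
    (hu : IsUnit (g + 1).det) :
    ∃ Y : Matrix n n F, Yᵀ * A + A * Y = 0 ∧ IsUnit (1 - Y).det ∧ cay Y = g := by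
  have h1 : (g + 1) * (g + 1)⁻¹ = 1 := Matrix.mul_nonsing_inv _ hu
  have h2 : (g + 1)⁻¹ * (g + 1) = 1 := Matrix.nonsing_inv_mul _ hu
  have hY1 : 1 - (g - 1) * (g + 1)⁻¹ = (2 : F) • (g + 1)⁻¹ := by
    calc 1 - (g - 1) * (g + 1)⁻¹ = (g + 1) * (g + 1)⁻¹ - (g - 1) * (g + 1)⁻¹ := by rw [h1]
      _ = ((g + 1) - (g - 1)) * (g + 1)⁻¹ := (sub_mul _ _ _).symm
      _ = (2 : F) • (g + 1)⁻¹ := by
        rw [show (g + 1) - (g - 1) = (2 : F) • (1 : Matrix n n F) by rw [two_smul]; abel]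
        rw [smul_mul_assoc, Matrix.one_mul]
  have hY2 : 1 + (g - 1) * (g + 1)⁻¹ = (2 : F) • (g * (g + 1)⁻¹) := by
    calc 1 + (g - 1) * (g + 1)⁻¹ = (g + 1) * (g + 1)⁻¹ + (g - 1) * (g + 1)⁻¹ := by rw [h1]
      _ = ((g + 1) + (g - 1)) * (g + 1)⁻¹ := (add_mul _ _ _).symm
      _ = (2 : F) • (g * (g + 1)⁻¹) := by
        rw [show (g + 1) + (g - 1) = (2 : F) • g by rw [two_smul]; abel, smul_mul_assoc]
  have hinv : (1 - (g - 1) * (g + 1)⁻¹)⁻¹ = (1 / 2 : F) • (g + 1) := by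
    apply Matrix.inv_eq_right_inv
    rw [hY1, smul_mul_smul_comm, h2]
    norm_num
  refine ⟨(g - 1) * (g + 1)⁻¹, ?_, ?_, ?_⟩
  · have h3 : (g + 1)ᵀ * ((((g - 1) * (g + 1)⁻¹)ᵀ * A + A * ((g - 1) * (g + 1)⁻¹))) * (g + 1)
        = 0 := by
      have h4 : (g + 1)ᵀ * ((g + 1)⁻¹)ᵀ = 1 := by rw [← transpose_mul, h2, transpose_one]
      calc (g + 1)ᵀ * ((((g - 1) * (g + 1)⁻¹)ᵀ * A + A * ((g - 1) * (g + 1)⁻¹))) * (g + 1)
          = ((g + 1)ᵀ * ((g + 1)⁻¹)ᵀ) * ((g - 1)ᵀ * A * (g + 1)) +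
            ((g + 1)ᵀ * A * (g - 1)) * ((g + 1)⁻¹ * (g + 1)) := by
            rw [transpose_mul]; noncomm_ring
        _ = (g - 1)ᵀ * A * (g + 1) + (g + 1)ᵀ * A * (g - 1) := by
            rw [h4, h2, Matrix.one_mul, Matrix.mul_one]
        _ = (gᵀ * A * g + gᵀ * A * g) - (A + A) := by
            rw [transpose_sub, transpose_add, transpose_one]; noncomm_ring
        _ = 0 := by rw [hg]; abel
    have h4 : ((g + 1)⁻¹)ᵀ * (g + 1)ᵀ = 1 := by rw [← transpose_mul, h1, transpose_one]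
    set Z := (((g - 1) * (g + 1)⁻¹)ᵀ * A + A * ((g - 1) * (g + 1)⁻¹))
    calc Z = (((g + 1)⁻¹)ᵀ * (g + 1)ᵀ) * Z * ((g + 1) * (g + 1)⁻¹) := by
          rw [h4, h1, Matrix.one_mul, Matrix.mul_one]
      _ = ((g + 1)⁻¹)ᵀ * ((g + 1)ᵀ * Z * (g + 1)) * (g + 1)⁻¹ := by
          simp only [Matrix.mul_assoc]
      _ = 0 := by rw [h3]; simp
  · rw [hY1, det_smul]
    exact ((isUnit_iff_ne_zero.2 two_ne_zero).pow _).mul (Matrix.isUnit_nonsing_inv_det _ hu)
  · rw [cay, hinv, hY2, smul_mul_smul_comm, Matrix.mul_assoc, h2]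
    norm_num

theorem cay_neg {Y : Matrix n n F} (hu : IsUnit (1 - Y).det) (hu' : IsUnit (1 + Y).det) :
    cay Y * cay (-Y) = 1 ∧ cay (-Y) * cay Y = 1 := by
  have h1 : (1 - Y) * (1 - Y)⁻¹ = 1 := Matrix.mul_nonsing_inv _ hu
  have h2 : (1 + Y) * (1 + Y)⁻¹ = 1 := Matrix.mul_nonsing_inv _ hu'
  have h2' : (1 + Y)⁻¹ * (1 + Y) = 1 := Matrix.nonsing_inv_mul _ hu'
  have h3 : cay Y * cay (-Y) = 1 := by
    rw [cay, cay, sub_neg_eq_add, ← sub_eq_add_neg]
    calc (1 + Y) * (1 - Y)⁻¹ * ((1 - Y) * (1 + Y)⁻¹)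
        = (1 + Y) * ((1 - Y)⁻¹ * (1 - Y)) * (1 + Y)⁻¹ := by simp only [Matrix.mul_assoc]
      _ = 1 := by rw [Matrix.nonsing_inv_mul _ hu, Matrix.mul_one, h2]
  exact ⟨h3, mul_eq_one_comm.1 h3⟩

/-- `a + l b` is invertible for all but finitely many rational `l`. -/
theorem finite_bad [CharZero F] {a b c : Matrix n n F} (hab : a * b = b * a) (hbc : b * c = c * b)
    (h2 : a + b * c = 2) : {l : ℚ | ¬ IsUnit (a + (l : F) • b).det}.Finite := by
  -- the polynomial
  set f : F[X] := det ((X : F[X]) • b.map C + a.map C) with hf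
  have hev : ∀ l : F, f.eval l = (a + l • b).det := by
    intro l
    rw [hf, ← coe_evalRingHom, RingHom.map_det]
    congr 1
    ext i j
    simp only [RingHom.mapMatrix_apply, map_apply, Matrix.add_apply, Matrix.smul_apply,
      smul_eq_mul, coe_evalRingHom, eval_add, eval_mul, eval_X, eval_C]
    ring
  have hf0 : f ≠ 0 := by
    intro h0
    obtain ⟨v, hv0, hv⟩ := (Matrix.exists_mulVec_eq_zero_iff (M := ((X : F[X]) • b.map C +
      a.map C))).2 (by rw [← hf, h0])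
    -- coefficients
    let w : ℕ → n → F := fun k i => (v i).coeff k
    have hco : ∀ (b : Matrix n n F) (i : n) (k : ℕ), ((b.map C).mulVec v i).coeff k =
        b.mulVec (w k) i := by
      intro b i k
      simp only [Matrix.mulVec, dotProduct, map_apply, finsetSum_coeff, coeff_C_mul]
      rfl
    have hv' : ∀ i, X * ((b.map C).mulVec v i) + (a.map C).mulVec v i = 0 := by
      intro i
      have := congrFun hv i
      rw [Matrix.add_mulVec, Matrix.smul_mulVec] at this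
      simpa using this
    have hw0 : a.mulVec (w 0) = 0 := by
      funext i
      have := congrArg (fun p => Polynomial.coeff p 0) (hv' i)
      simp only [coeff_add, Polynomial.mul_coeff_zero, coeff_X_zero, zero_mul, zero_add, hco,
        coeff_zero] at this
      exact this
    have hws : ∀ k, b.mulVec (w k) + a.mulVec (w (k + 1)) = 0 := by
      intro k
      funext i
      have := congrArg (fun p => Polynomial.coeff p (k + 1)) (hv' i)
      simp only [coeff_add, coeff_X_mul, hco, coeff_zero] at this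
      exact this
    have hpow : ∀ k, (a ^ (k + 1)).mulVec (w k) = 0 := by
      intro k
      induction k with
      | zero => rw [zero_add, pow_one]; exact hw0
      | succ k ih =>
        have h3 : a.mulVec (w (k + 1)) = - b.mulVec (w k) :=
          eq_neg_of_add_eq_zero_right (hws k)
        have hcomm : a ^ (k + 1) * b = b * a ^ (k + 1) :=
          ((show Commute a b from hab).pow_left (k + 1)).eq
        rw [pow_succ, ← Matrix.mulVec_mulVec, h3, Matrix.mulVec_neg, Matrix.mulVec_mulVec,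
          hcomm, ← Matrix.mulVec_mulVec, ih, Matrix.mulVec_zero, neg_zero]
    -- the top coefficient
    obtain ⟨N, hN⟩ : ∃ N, ∀ k, N ≤ k → w k = 0 := by
      refine ⟨(Finset.univ.sup fun i => (v i).natDegree) + 1, fun k hk => ?_⟩
      funext i
      apply coeff_eq_zero_of_natDegree_lt
      have : (v i).natDegree ≤ Finset.univ.sup fun i => (v i).natDegree :=
        Finset.le_sup (f := fun i => (v i).natDegree) (Finset.mem_univ i)
      omega
    have hall : ∀ j k, N ≤ k + j → w k = 0 := by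
      intro j
      induction j with
      | zero => intro k hk; exact hN k hk
      | succ j ih =>
        intro k hk
        have h4 : w (k + 1) = 0 := ih (k + 1) (by omega)
        have h5 : b.mulVec (w k) = 0 := by
          have := hws k
          rwa [h4, Matrix.mulVec_zero, add_zero] at this
        -- `2 w_k = a w_k`
        have h6 : a.mulVec (w k) = (2 : F) • w k := by
          have h7 : (a + b * c).mulVec (w k) = (2 : F) • w k := by
            rw [h2]
            have : (2 : Matrix n n F) = (2 : F) • 1 := by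
              rw [two_smul, one_add_one_eq_two]
            rw [this, Matrix.smul_mulVec, Matrix.one_mulVec]
          rw [hbc, Matrix.add_mulVec, ← Matrix.mulVec_mulVec, h5, Matrix.mulVec_zero,
            add_zero] at h7
          exact h7
        have h8 : ∀ m : ℕ, (a ^ m).mulVec (w k) = (2 : F) ^ m • w k := by
          intro m
          induction m with
          | zero => simp
          | succ m ihm =>
            rw [pow_succ, ← Matrix.mulVec_mulVec, h6, Matrix.mulVec_smul, ihm, smul_smul, pow_succ,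
              mul_comm]
        have h9 := hpow k
        rw [h8, smul_eq_zero] at h9
        exact h9.resolve_left (pow_ne_zero _ two_ne_zero)
    apply hv0
    funext i
    ext k
    have : w k = 0 := hall N k (by omega)
    exact congrFun this i
  have hfin : {x : F | f.IsRoot x}.Finite := Polynomial.finite_setOfPred_isRoot hf0
  refine (hfin.preimage (f := fun l : ℚ => (l : F)) (Rat.cast_injective.injOn)).subset ?_
  intro l hl
  simp only [Set.mem_ofPred_eq, isUnit_iff_ne_zero, not_not] at hl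
  simp only [Set.mem_preimage, Set.mem_ofPred_eq, IsRoot.def, hev]
  exact hl

end cayley

section padic

local instance (p : Nat.Primes) : Fact p.1.Prime := ⟨p.2⟩

theorem exists_rho (S : Finset Nat.Primes) (p : Nat.Primes) : ∃ ρ : ℕ → ℤ,
    Tendsto (fun k => ((ρ k : ℤ) : ℚ_[p])) atTop (𝓝 1) ∧
    ∀ q ∈ S, q ≠ p → Tendsto (fun k => ((ρ k : ℤ) : ℚ_[q])) atTop (𝓝 0) := by
  classical
  set M : ℕ := ∏ q ∈ S.erase p, (q : ℕ) with hM
  have hcop : M.Coprime p := by
    rw [hM]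
    refine Nat.Coprime.prod_left fun q hq => ?_
    rw [Nat.coprime_primes q.2 p.2]
    intro h
    exact (Finset.mem_erase.1 hq).1 (Subtype.ext h)
  have hp2 : 2 ≤ (p : ℕ) := p.2.two_le
  refine ⟨fun k => ((M ^ (Nat.totient ((p : ℕ) ^ (k + 1))) : ℕ) : ℤ), ?_, ?_⟩
  · rw [tendsto_iff_norm_sub_tendsto_zero]
    have hlim : Tendsto (fun k : ℕ => ((p : ℝ)⁻¹) ^ (k + 1)) atTop (𝓝 0) := by
      have h1 : (p : ℝ)⁻¹ < 1 := by
        apply inv_lt_one_of_one_lt₀
        exact_mod_cast p.2.one_lt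
      exact (tendsto_pow_atTop_nhds_zero_of_lt_one (by positivity) h1).comp (tendsto_add_atTop_nat 1)
    refine squeeze_zero (fun _ => norm_nonneg _) (fun k => ?_) hlim
    have h2 : M ^ (Nat.totient ((p : ℕ) ^ (k + 1))) ≡ 1 [MOD (p : ℕ) ^ (k + 1)] :=
      Nat.ModEq.pow_totient (hcop.pow_right (k + 1))
    have h3 : (((p : ℕ) ^ (k + 1) : ℕ) : ℤ) ∣
        ((M ^ (Nat.totient ((p : ℕ) ^ (k + 1))) : ℕ) : ℤ) - 1 := by
      have := (Nat.modEq_iff_dvd.1 h2.symm)
      simpa using this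
    have h4 := (Padic.norm_int_le_pow_iff_dvd (p := (p : ℕ))
      (((M ^ (Nat.totient ((p : ℕ) ^ (k + 1))) : ℕ) : ℤ) - 1) (k + 1)).2 (by exact_mod_cast h3)
    rw [_root_.zpow_neg, _root_.zpow_natCast, ← inv_pow] at h4
    rw [Int.cast_sub, Int.cast_one] at h4
    exact h4
  · intro q hq hqp
    have hqM : (q : ℕ) ∣ M := Finset.dvd_prod_of_mem _ (Finset.mem_erase.2 ⟨hqp, hq⟩)
    have h1 : ‖((M : ℤ) : ℚ_[q])‖ < 1 := by
      rw [Padic.norm_intCast_lt_one_iff]; exact_mod_cast hqM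
    have h2 : Tendsto (fun k : ℕ => Nat.totient ((p : ℕ) ^ (k + 1))) atTop atTop := by
      refine tendsto_atTop_mono (fun k => ?_) tendsto_id
      rw [Nat.totient_prime_pow_succ p.2]
      have h3 : k < (p : ℕ) ^ k := Nat.lt_pow_self p.2.one_lt
      have h4 : 1 ≤ (p : ℕ) - 1 := by omega
      calc id k ≤ (p : ℕ) ^ k * 1 := by simp only [id_eq]; omega
        _ ≤ _ := Nat.mul_le_mul_left _ h4
    have h3 := (tendsto_pow_atTop_nhds_zero_of_norm_lt_one h1).comp h2
    refine h3.congr fun k => ?_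
    simp

/-- a `ℚ`-linear map `ℚ_p → ℚ` moving a given matrix as little as we like. -/
theorem exists_phi {ι : Type} [Fintype ι] (p : ℕ) [Fact p.Prime] (Y : Matrix ι ι ℚ_[p])
    {U : Set (Matrix ι ι ℚ_[p])} (hU : U ∈ 𝓝 Y) :
    ∃ φ : ℚ_[p] →ₗ[ℚ] ℚ, Y.map (fun y => ((φ y : ℚ) : ℚ_[p])) ∈ U := by
  classical
  set V0 : Submodule ℚ ℚ_[p] := Submodule.span ℚ (Set.range fun x : ι × ι => Y x.1 x.2) with hV0
  have : Module.Finite ℚ V0 := Module.Finite.span_of_finite ℚ (Set.finite_range _)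
  let b := Module.finBasis ℚ V0
  have hmem : ∀ i j, Y i j ∈ V0 := fun i j => Submodule.subset_span ⟨(i, j), rfl⟩
  let Φ : (Fin (Module.finrank ℚ V0) → ℚ_[p]) → Matrix ι ι ℚ_[p] :=
    fun x i j => ∑ k, ((b.repr ⟨Y i j, hmem i j⟩ k : ℚ) : ℚ_[p]) * x k
  have hΦ : Continuous Φ := by
    refine continuous_pi fun i => continuous_pi fun j => ?_
    exact continuous_finsetSum _ fun k _ =>
      (continuous_const (y := ((b.repr ⟨Y i j, hmem i j⟩ k : ℚ) : ℚ_[p]))).mul
        (continuous_apply (A := fun _ => ℚ_[p]) k)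
  have hb : Φ (fun k => (b k : ℚ_[p])) = Y := by
    ext i j
    have h1 := b.sum_repr ⟨Y i j, hmem i j⟩
    have h2 := congrArg (Subtype.val) h1
    simp only [Submodule.coe_sum, Submodule.coe_smul] at h2
    change ∑ k, ((b.repr ⟨Y i j, hmem i j⟩ k : ℚ) : ℚ_[p]) * (b k : ℚ_[p]) = Y i j
    refine Eq.trans ?_ h2
    refine Finset.sum_congr rfl fun k _ => ?_
    rw [Rat.smul_def]
  have hU' : Φ ⁻¹' U ∈ 𝓝 (fun k => (b k : ℚ_[p])) := by
    apply hΦ.continuousAt
    rw [hb]; exact hU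
  have hdense : DenseRange (Pi.map (fun (_ : Fin (Module.finrank ℚ V0)) (r : ℚ) => (r : ℚ_[p]))) :=
    DenseRange.piMap fun _ => Padic.denseRange_ratCast p
  obtain ⟨_, hx, r, rfl⟩ := mem_closure_iff_nhds.1 (hdense (fun k => (b k : ℚ_[p]))) _ hU'
  obtain ⟨φ, hφ⟩ := LinearMap.exists_extend (b.constr ℚ r)
  refine ⟨φ, ?_⟩
  have hval : ∀ i j, φ (Y i j) = ∑ k, b.repr ⟨Y i j, hmem i j⟩ k * r k := by
    intro i j
    have h1 : φ (Y i j) = (b.constr ℚ r) ⟨Y i j, hmem i j⟩ := by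
      rw [← hφ]; rfl
    rw [h1, Module.Basis.constr_apply_fintype]
    rfl
  have : Y.map (fun y => ((φ y : ℚ) : ℚ_[p])) =
      Φ (Pi.map (fun (_ : Fin (Module.finrank ℚ V0)) (r : ℚ) => (r : ℚ_[p])) r) := by
    ext i j
    simp only [map_apply, hval]
    push_cast
    rfl
  rw [this]; exact hx

theorem not_dvd_den {p : ℕ} [hp : Fact p.Prime] {x : ℚ} (h : ‖(x : ℚ_[p])‖ ≤ 1) : ¬ p ∣ x.den := by
  intro hd
  have h1 : ‖((x.den : ℤ) : ℚ_[p])‖ < 1 := by
    rw [Padic.norm_intCast_lt_one_iff]; exact_mod_cast hd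
  have h2 : (x : ℚ_[p]) * ((x.den : ℤ) : ℚ_[p]) = ((x.num : ℤ) : ℚ_[p]) := by
    have := Rat.mul_den_eq_num x
    exact_mod_cast congrArg (fun y : ℚ => (y : ℚ_[p])) this
  have h3 : ‖((x.num : ℤ) : ℚ_[p])‖ < 1 := by
    rw [← h2, norm_mul]
    calc ‖(x : ℚ_[p])‖ * ‖((x.den : ℤ) : ℚ_[p])‖ ≤ 1 * ‖((x.den : ℤ) : ℚ_[p])‖ :=
          mul_le_mul_of_nonneg_right h (norm_nonneg _)
      _ < 1 := by rw [one_mul]; exact h1
  rw [Padic.norm_intCast_lt_one_iff] at h3
  have h4 : p ∣ x.num.natAbs := Int.natCast_dvd.1 h3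
  have h5 := Nat.dvd_gcd h4 hd
  rw [x.reduced] at h5
  exact hp.out.one_lt.ne' (Nat.dvd_one.1 h5)

/-- `Cayley` is continuous where defined. -/
theorem continuousAt_cay {ι : Type} [Fintype ι] [DecidableEq ι] {p : ℕ} [Fact p.Prime]
    {Y : Matrix ι ι ℚ_[p]} (hu : IsUnit (1 - Y).det) : ContinuousAt (cay (F := ℚ_[p])) Y := by
  have h1 : ContinuousAt (fun Z : Matrix ι ι ℚ_[p] => (1 - Z)⁻¹) Y := by
    have h2 : (fun Z : Matrix ι ι ℚ_[p] => (1 - Z)⁻¹) =
        fun Z => ((1 - Z).det)⁻¹ • (1 - Z).adjugate := by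
      funext Z
      rw [Matrix.inv_def, Ring.inverse_eq_inv']
    rw [h2]
    have h3 : Continuous (fun Z : Matrix ι ι ℚ_[p] => (1 - Z)) := continuous_const.sub continuous_id
    exact (h3.matrix_det.continuousAt.inv₀ hu.ne_zero).smul h3.matrix_adjugate.continuousAt
  have h4 : Continuous (fun Z : Matrix ι ι ℚ_[p] => (1 + Z)) := continuous_const.add continuous_id
  exact h4.continuousAt.mul h1

theorem cast_mul {ι κ μ : Type} [Fintype κ] {R S : Type} [CommRing R] [CommRing S] (f : R →+* S)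
    (A : Matrix ι κ R) (B : Matrix κ μ R) : (A * B).map f = A.map f * B.map f := Matrix.map_mul

theorem exists_den {ι κ : Type} [Fintype ι] [Fintype κ] (P : Matrix ι κ ℚ) :
    ∃ t : ℕ, (∀ p : ℕ, p.Prime → (∀ i j, ¬ p ∣ (P i j).den) → ¬ p ∣ t) ∧
      ∃ X : Matrix ι κ ℤ, (t : ℚ) • P = X.map (Int.cast : ℤ → ℚ) := by
  obtain ⟨t, h1, h2⟩ : ∃ t : ℕ, (∀ x : ι × κ, (P x.1 x.2).den ∣ t) ∧
      (∀ p : ℕ, p.Prime → (∀ i j, ¬ p ∣ (P i j).den) → ¬ p ∣ t) := by
    refine ⟨∏ x : ι × κ, (P x.1 x.2).den, fun x => ?_, fun p hp h => ?_⟩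
    · exact Finset.dvd_prod_of_mem (fun x : ι × κ => (P x.1 x.2).den) (Finset.mem_univ x)
    · rw [Prime.dvd_finsetProd_iff hp.prime]
      rintro ⟨x, _, hx⟩
      exact h _ _ hx
  refine ⟨t, h2, ?_⟩
  have htX : ∀ i j, ∃ m : ℤ, (t : ℚ) * P i j = m := by
    intro i j
    obtain ⟨r, hr⟩ := h1 (i, j)
    refine ⟨r * (P i j).num, ?_⟩
    have h1 := Rat.mul_den_eq_num (P i j)
    simp only at hr
    rw [hr]; push_cast
    linear_combination (r : ℚ) * h1
  choose X1 hX1 using htX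
  exact ⟨Matrix.of X1, by ext i j; simp [hX1]⟩

/-- the conclusion of weak approximation. -/
def NearQ {ι κ : Type} [Fintype ι] [Fintype κ] [DecidableEq ι] [DecidableEq κ]
    (N : ℕ) (A : Matrix ι ι ℤ) (B : Matrix κ κ ℤ) : Prop :=
  ∃ (P : Matrix ι κ ℚ) (P' : Matrix κ ι ℚ), P * P' = 1 ∧ P' * P = 1 ∧
    Pᵀ * A.map (Int.cast : ℤ → ℚ) * P = B.map (Int.cast : ℤ → ℚ) ∧
    ∃ t : ℕ, t.Coprime N ∧ (∃ X : Matrix ι κ ℤ, (t : ℚ) • P = X.map (Int.cast : ℤ → ℚ)) ∧
      ∃ X' : Matrix κ ι ℤ, (t : ℚ) • P' = X'.map (Int.cast : ℤ → ℚ)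

set_option maxHeartbeats 800000 in
theorem WA {ι κ : Type} [Fintype ι] [Fintype κ] [DecidableEq ι] [DecidableEq κ]
    (A : Matrix ι ι ℤ) (B : Matrix κ κ ℤ) (hB : IsUnit B.det)
    (hp : IsUnit (A.map (Int.cast : ℤ → ℚ) + (A.map (Int.cast : ℤ → ℚ))ᵀ).det)
    (hm : IsUnit (A.map (Int.cast : ℤ → ℚ) - (A.map (Int.cast : ℤ → ℚ))ᵀ).det)
    (hQ : CongOver ℚ A B)
    (hloc : ∀ (p : ℕ) [Fact p.Prime], CongOver ℤ_[p] A B) (N : ℕ) (hN : 0 < N) :
    NearQ N A B := by
  classical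
  obtain ⟨P0, P0', hPP, hPP', hP⟩ := hQ
  set AQ := A.map (Int.cast : ℤ → ℚ) with hAQ
  set BQ := B.map (Int.cast : ℤ → ℚ) with hBQ
  -- the primes
  obtain ⟨S, hmemS⟩ : ∃ S : Finset Nat.Primes, ∀ q : Nat.Primes, q ∈ S ↔ (q : ℕ) ∣ 2 * N := by
    have hfin : {q : Nat.Primes | (q : ℕ) ∣ 2 * N}.Finite := by
      refine (((2 * N).divisors.finite_toSet).preimage (f := fun q : Nat.Primes => (q : ℕ))
        (Nat.Primes.coe_nat_injective.injOn)).subset ?_
      intro q hq
      simp only [Set.mem_preimage, Finset.mem_coe, Nat.mem_divisors]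
      exact ⟨hq, by omega⟩
    exact ⟨hfin.toFinset, fun q => by rw [Set.Finite.mem_toFinset]; rfl⟩
  -- the skew element
  set X : Matrix ι ι ℚ := (AQ + AQᵀ)⁻¹ * (AQ - AQᵀ) with hX
  have hSi : (AQ + AQᵀ)⁻¹ * (AQ + AQᵀ) = 1 := Matrix.nonsing_inv_mul _ hp
  have hSi' : (AQ + AQᵀ) * (AQ + AQᵀ)⁻¹ = 1 := Matrix.mul_nonsing_inv _ hp
  have hXdet : IsUnit X.det := by
    rw [hX, det_mul]
    exact (Matrix.isUnit_nonsing_inv_det _ hp).mul hm
  have hXT : Xᵀ * AQ + AQ * X = 0 := by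
    have hST : (AQ + AQᵀ)ᵀ = AQ + AQᵀ := by rw [transpose_add, transpose_transpose, add_comm]
    have hKT : (AQ - AQᵀ)ᵀ = -(AQ - AQᵀ) := by rw [transpose_sub, transpose_transpose, neg_sub]
    have h1 : Xᵀ = -((AQ - AQᵀ) * (AQ + AQᵀ)⁻¹) := by
      rw [hX, transpose_mul, hKT, transpose_nonsing_inv, hST, Matrix.neg_mul]
    have h2 : AQ - AQᵀ = (2 : ℚ) • AQ - (AQ + AQᵀ) := by rw [two_smul]; abel
    have h3 : (AQ - AQᵀ) * (AQ + AQᵀ)⁻¹ * AQ = AQ * ((AQ + AQᵀ)⁻¹ * (AQ - AQᵀ)) := by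
      rw [h2, sub_mul, mul_sub, sub_mul, mul_sub, hSi', hSi, Matrix.one_mul, Matrix.mul_one]
      congr 1
      simp only [Matrix.smul_mul, Matrix.mul_smul, Matrix.mul_assoc]
    rw [h1, Matrix.neg_mul, h3, hX, neg_add_cancel]
  -- local data
  have hdata : ∀ q : Nat.Primes, ∃ g : Matrix ι ι ℚ_[q],
      gᵀ * AQ.map (Rat.cast : ℚ → ℚ_[q]) * g = AQ.map (Rat.cast : ℚ → ℚ_[q]) ∧
      ∀ i j, ‖(g * P0.map (Rat.cast : ℚ → ℚ_[q])) i j‖ ≤ 1 := by
    intro q
    obtain ⟨R, R', hRR, hRR', hR⟩ := hloc q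
    set c : ℚ →+* ℚ_[q] := Rat.castHom _ with hc
    set d : ℤ_[q] →+* ℚ_[q] := PadicInt.Coe.ringHom with hd
    have hcast : ∀ Z : Matrix ι ι ℤ, (Z.map (Int.cast : ℤ → ℚ)).map c =
        (Z.map (Int.cast : ℤ → ℤ_[q])).map d := by
      intro Z; ext i j; simp [hc, hd]
    have hcast' : ∀ Z : Matrix κ κ ℤ, (Z.map (Int.cast : ℤ → ℚ)).map c =
        (Z.map (Int.cast : ℤ → ℤ_[q])).map d := by
      intro Z; ext i j; simp [hc, hd]
    have hR2 : (R.map d)ᵀ * AQ.map c * R.map d = BQ.map c := by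
      rw [hAQ, hcast, hBQ, hcast', ← hR, Matrix.map_mul, Matrix.map_mul, transpose_map]
    have hP2 : (P0.map c)ᵀ * AQ.map c * P0.map c = BQ.map c := by
      rw [← hP, Matrix.map_mul, Matrix.map_mul, transpose_map]
    have hPPc : P0.map c * P0'.map c = 1 := by
      rw [← Matrix.map_mul, hPP]; simp
    have hPPc' : P0'.map c * P0.map c = 1 := by
      rw [← Matrix.map_mul, hPP']; simp
    refine ⟨R.map d * P0'.map c, ?_, ?_⟩
    · have h1 : (P0'.map c)ᵀ * (P0.map c)ᵀ = 1 := by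
        rw [← transpose_mul, hPPc, transpose_one]
      calc (R.map d * P0'.map c)ᵀ * AQ.map c * (R.map d * P0'.map c)
          = (P0'.map c)ᵀ * ((R.map d)ᵀ * AQ.map c * R.map d) * P0'.map c := by
            rw [transpose_mul]; simp only [Matrix.mul_assoc]
        _ = ((P0'.map c)ᵀ * (P0.map c)ᵀ) * AQ.map c * (P0.map c * P0'.map c) := by
            rw [hR2, ← hP2]; simp only [Matrix.mul_assoc]
        _ = AQ.map c := by rw [h1, hPPc, Matrix.one_mul, Matrix.mul_one]
    · intro i j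
      have h1 : R.map d * P0'.map c * P0.map c = R.map d := by
        rw [Matrix.mul_assoc, hPPc', Matrix.mul_one]
      change ‖(R.map d * P0'.map c * P0.map c) i j‖ ≤ 1
      rw [h1]
      exact (R i j).2
  choose g hg hgint using hdata
  -- commutation
  have hcomm : ∀ q : Nat.Primes, X.map (Rat.cast : ℚ → ℚ_[q]) * g q =
      g q * X.map (Rat.cast : ℚ → ℚ_[q]) := by
    intro q
    set c : ℚ →+* ℚ_[q] := Rat.castHom _ with hc
    have hg' := hg q
    change (g q)ᵀ * AQ.map c * g q = AQ.map c at hg'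
    have hgT : (g q)ᵀ * (AQᵀ).map c * g q = (AQᵀ).map c := by
      have := congrArg transpose hg'
      rw [transpose_mul, transpose_mul, transpose_transpose, ← Matrix.mul_assoc] at this
      rw [← transpose_map]; exact this
    have hgS : (g q)ᵀ * (AQ + AQᵀ).map c * g q = (AQ + AQᵀ).map c := by
      rw [Matrix.map_add c (fun _ _ => map_add c _ _), mul_add, add_mul, hg', hgT]
    have hgK : (g q)ᵀ * (AQ - AQᵀ).map c * g q = (AQ - AQᵀ).map c := by
      rw [Matrix.map_sub c (fun _ _ => map_sub c _ _), mul_sub, sub_mul, hg', hgT]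
    have hSc : ((AQ + AQᵀ)⁻¹).map c * (AQ + AQᵀ).map c = 1 := by
      rw [← Matrix.map_mul, hSi]; simp
    have hSc' : (AQ + AQᵀ).map c * ((AQ + AQᵀ)⁻¹).map c = 1 := by
      rw [← Matrix.map_mul, hSi']; simp
    set s := (AQ + AQᵀ).map c
    set s' := ((AQ + AQᵀ)⁻¹).map c
    set k := (AQ - AQᵀ).map c
    have hXc : X.map c = s' * k := by rw [hX, Matrix.map_mul]
    change X.map c * g q = g q * X.map c
    rw [hXc]
    -- `(s' gᵀ s) g = 1`
    have e1 : (s' * (g q)ᵀ * s) * g q = 1 := by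
      rw [Matrix.mul_assoc, Matrix.mul_assoc, ← Matrix.mul_assoc (g q)ᵀ, hgS, hSc]
    have e2 : g q * (s' * (g q)ᵀ * s) = 1 := mul_eq_one_comm.1 e1
    have e3 : g q * s' * (g q)ᵀ = s' := by
      calc g q * s' * (g q)ᵀ = g q * (s' * (g q)ᵀ * s) * s' := by
            simp only [Matrix.mul_assoc, hSc', Matrix.mul_one]
        _ = s' := by rw [e2, Matrix.one_mul]
    calc s' * k * g q = (g q * s' * (g q)ᵀ) * k * g q := by rw [e3]
      _ = g q * s' * ((g q)ᵀ * k * g q) := by simp only [Matrix.mul_assoc]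
      _ = g q * (s' * k) := by rw [hgK, Matrix.mul_assoc]
  -- choice of the parameter
  have hXi : X * X⁻¹ = 1 := Matrix.mul_nonsing_inv _ hXdet
  have hXi' : X⁻¹ * X = 1 := Matrix.nonsing_inv_mul _ hXdet
  have hbad1 : {l : ℚ | ¬ IsUnit ((1 : Matrix ι ι ℚ) + (l : ℚ) • X).det}.Finite := by
    refine (finite_bad (a := 1) (b := X) (c := X⁻¹) (by simp) (by rw [hXi, hXi']) (by
      rw [hXi, one_add_one_eq_two])).subset ?_
    intro l hl
    simpa using hl
  have hbad2 : {l : ℚ | ¬ IsUnit ((1 : Matrix ι ι ℚ) - (l : ℚ) • X).det}.Finite := by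
    refine (finite_bad (a := 1) (b := -X) (c := -X⁻¹) (by simp) (by
      rw [neg_mul_neg, neg_mul_neg, hXi, hXi']) (by
      rw [neg_mul_neg, hXi, one_add_one_eq_two])).subset ?_
    intro l hl
    simpa [sub_eq_add_neg] using hl
  have hbad3 : ∀ q : Nat.Primes, {l : ℚ | ¬ IsUnit ((1 + g q) +
      (l : ℚ_[q]) • ((g q - 1) * X.map (Rat.cast : ℚ → ℚ_[q]))).det}.Finite := by
    intro q
    set c : ℚ →+* ℚ_[q] := Rat.castHom _ with hc
    have hc1 : X.map c * (X⁻¹).map c = 1 := by rw [← Matrix.map_mul, hXi]; simp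
    have hc2 : (X⁻¹).map c * X.map c = 1 := by rw [← Matrix.map_mul, hXi']; simp
    have hc3 : X.map c * g q = g q * X.map c := hcomm q
    have hc4 : (X⁻¹).map c * g q = g q * (X⁻¹).map c := by
      calc (X⁻¹).map c * g q = (X⁻¹).map c * g q * (X.map c * (X⁻¹).map c) := by
            rw [hc1, Matrix.mul_one]
        _ = (X⁻¹).map c * (g q * X.map c) * (X⁻¹).map c := by simp only [Matrix.mul_assoc]
        _ = ((X⁻¹).map c * X.map c) * g q * (X⁻¹).map c := by
            rw [← hc3]; simp only [Matrix.mul_assoc]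
        _ = g q * (X⁻¹).map c := by rw [hc2, Matrix.one_mul]
    refine finite_bad (a := 1 + g q) (b := (g q - 1) * X.map c) (c := -(X⁻¹).map c) ?_ ?_ ?_
    · have : (1 + g q) * (g q - 1) = (g q - 1) * (1 + g q) := by noncomm_ring
      calc (1 + g q) * ((g q - 1) * X.map c) = (g q - 1) * ((1 + g q) * X.map c) := by
            rw [← Matrix.mul_assoc, this, Matrix.mul_assoc]
        _ = (g q - 1) * (X.map c + X.map c * g q) := by rw [add_mul, Matrix.one_mul, ← hc3]
        _ = (g q - 1) * X.map c * (1 + g q) := by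
            rw [Matrix.mul_assoc, mul_add (X.map c), Matrix.mul_one]
    · have e1 : (g q - 1) * X.map c * (X⁻¹).map c = g q - 1 := by
        rw [Matrix.mul_assoc, hc1, Matrix.mul_one]
      have e2 : (X⁻¹).map c * ((g q - 1) * X.map c) = g q - 1 := by
        rw [← Matrix.mul_assoc, mul_sub, hc4, Matrix.mul_one, sub_mul, Matrix.mul_assoc, hc2,
          Matrix.mul_one]
      rw [mul_neg, neg_mul, e1, e2]
    · rw [mul_neg, Matrix.mul_assoc, hc1, Matrix.mul_one]
      have : (1 + g q) + -(g q - 1) = 1 + 1 := by abel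
      rw [this, one_add_one_eq_two]
  obtain ⟨l, hl⟩ := ((hbad1.union hbad2).union (S.finite_toSet.biUnion
    (fun q _ => hbad3 q))).infinite_compl.nonempty
  simp only [Set.mem_compl_iff, Set.mem_union, Set.mem_iUnion, Set.mem_ofPred_eq, not_or,
    not_not, not_exists] at hl
  obtain ⟨⟨hl1, hl2⟩, hl3⟩ := hl
  set X0 : Matrix ι ι ℚ := l • X with hX0
  have hX0L : X0ᵀ * AQ + AQ * X0 = 0 := by
    rw [hX0, transpose_smul, smul_mul_assoc, mul_smul_comm, ← smul_add, hXT, smul_zero]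
  obtain ⟨hcc, hcc'⟩ := cay_neg hl2 hl1
  have hX0iso := cay_isom hX0L hl2
  have hX0iso' : (cay (-X0))ᵀ * AQ * cay (-X0) = AQ := by
    apply cay_isom
    · rw [transpose_neg, neg_mul, mul_neg, ← neg_add, hX0L, neg_zero]
    · rw [sub_neg_eq_add]; exact hl1
  -- local Cayley parameters
  have hY : ∀ q : Nat.Primes, q ∈ S → ∃ Y : Matrix ι ι ℚ_[q],
      Yᵀ * AQ.map (Rat.cast : ℚ → ℚ_[q]) + AQ.map (Rat.cast : ℚ → ℚ_[q]) * Y = 0 ∧
      IsUnit (1 - Y).det ∧ cay Y = g q * (cay X0).map (Rat.cast : ℚ → ℚ_[q]) := by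
    intro q hq
    set c : ℚ →+* ℚ_[q] := Rat.castHom _ with hc
    have hg' : (g q)ᵀ * AQ.map c * g q = AQ.map c := hg q
    have hci : ((cay X0).map c)ᵀ * AQ.map c * (cay X0).map c = AQ.map c := by
      conv_rhs => rw [← hX0iso]
      rw [Matrix.map_mul, Matrix.map_mul, transpose_map]
    apply cay_inv
    · change (g q * (cay X0).map c)ᵀ * AQ.map c * (g q * (cay X0).map c) = AQ.map c
      calc (g q * (cay X0).map c)ᵀ * AQ.map c * (g q * (cay X0).map c)
          = ((cay X0).map c)ᵀ * ((g q)ᵀ * AQ.map c * g q) * (cay X0).map c := by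
            rw [transpose_mul]; simp only [Matrix.mul_assoc]
        _ = AQ.map c := by rw [hg', hci]
    · change IsUnit (g q * (cay X0).map c + 1).det
      have hu : IsUnit ((1 - X0).map c).det := by
        rw [← RingHom.mapMatrix_apply, ← RingHom.map_det]; exact hl2.map c
      have h1 : (cay X0).map c * (1 - X0).map c = (1 + X0).map c := by
        rw [← Matrix.map_mul, cay, Matrix.mul_assoc, Matrix.nonsing_inv_mul _ hl2, Matrix.mul_one]
      have h2 : (g q * (cay X0).map c + 1) * (1 - X0).map c =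
          (1 + g q) + (l : ℚ_[q]) • ((g q - 1) * X.map c) := by
        have h3 : (1 + X0).map c = 1 + (l : ℚ_[q]) • X.map c := by
          rw [Matrix.map_add c (fun _ _ => map_add c _ _), Matrix.map_one c (map_zero c) (map_one c)]
          congr 1
        have h4 : (1 - X0).map c = 1 - (l : ℚ_[q]) • X.map c := by
          rw [Matrix.map_sub c (fun _ _ => map_sub c _ _), Matrix.map_one c (map_zero c) (map_one c)]
          congr 1
        rw [add_mul, Matrix.mul_assoc, h1, h3, h4, mul_add, Matrix.mul_one, Matrix.one_mul,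
          mul_smul_comm, sub_mul, Matrix.one_mul, smul_sub]
        abel
      have h3 := hl3 q hq
      have h4 : IsUnit ((g q * (cay X0).map c + 1) * (1 - X0).map c).det := by rw [h2]; exact h3
      rw [det_mul] at h4
      exact isUnit_of_mul_isUnit_left h4
  choose! Y hYL hYu hYc using hY
  -- neighbourhoods
  let U : ∀ q : Nat.Primes, Set (Matrix ι ι ℚ_[q]) := fun q => {Z | IsUnit (1 - Z).det ∧
    ∀ i j, ‖(cay Z * (cay (-X0)).map (Rat.cast : ℚ → ℚ_[q]) *
      P0.map (Rat.cast : ℚ → ℚ_[q])) i j‖ ≤ 1}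
  have hU : ∀ q ∈ S, U q ∈ 𝓝 (Y q) := by
    intro q hq
    set c : ℚ →+* ℚ_[q] := Rat.castHom _ with hc
    have h1 : ∀ᶠ Z in 𝓝 (Y q), IsUnit (1 - Z).det := by
      have h3 : Continuous (fun Z : Matrix ι ι ℚ_[q] => (1 - Z).det) :=
        (continuous_const.sub continuous_id).matrix_det
      have h4 := h3.continuousAt.eventually_ne (hYu q hq).ne_zero
      exact h4.mono fun Z hZ => isUnit_iff_ne_zero.2 hZ
    have h2 : ContinuousAt (fun Z : Matrix ι ι ℚ_[q] => cay Z * (cay (-X0)).map c * P0.map c)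
        (Y q) := by
      have h5 : Continuous (fun W : Matrix ι ι ℚ_[q] => W * (cay (-X0)).map c * P0.map c) :=
        (continuous_id.matrix_mul continuous_const).matrix_mul continuous_const
      exact h5.continuousAt.comp (continuousAt_cay (hYu q hq))
    have h3 : cay (Y q) * (cay (-X0)).map c * P0.map c = g q * P0.map c := by
      have h4 : cay (Y q) = g q * (cay X0).map c := hYc q hq
      have h5 : (cay X0).map c * (cay (-X0)).map c = 1 := by
        rw [← Matrix.map_mul, hcc, Matrix.map_one c (map_zero c) (map_one c)]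
      rw [h4, Matrix.mul_assoc (g q), h5, Matrix.mul_one]
    have h6 : ∀ i j, ∀ᶠ Z in 𝓝 (Y q), ‖(cay Z * (cay (-X0)).map c * P0.map c) i j‖ ≤ 1 := by
      intro i j
      have h7 : ContinuousAt (fun Z : Matrix ι ι ℚ_[q] =>
          (cay Z * (cay (-X0)).map c * P0.map c) i j) (Y q) := by
        have := (continuous_apply_apply (ρ := fun _ _ => ℚ_[q]) i j).continuousAt.comp h2
        exact this
      have h8 := h7.eventually (Metric.ball_mem_nhds _ one_pos)
      refine h8.mono fun Z hZ => ?_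
      rw [dist_eq_norm] at hZ
      have h9 : (cay Z * (cay (-X0)).map c * P0.map c) i j =
          ((cay Z * (cay (-X0)).map c * P0.map c) i j -
            (cay (Y q) * (cay (-X0)).map c * P0.map c) i j) +
          (cay (Y q) * (cay (-X0)).map c * P0.map c) i j := by ring
      rw [h9]
      refine (Padic.nonarchimedean _ _).trans (max_le hZ.le ?_)
      rw [h3]; exact hgint q i j
    have h10 : ∀ᶠ Z in 𝓝 (Y q), ∀ i j, ‖(cay Z * (cay (-X0)).map c * P0.map c) i j‖ ≤ 1 := by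
      rw [eventually_all]; intro i
      rw [eventually_all]; intro j
      exact h6 i j
    exact h1.and h10
  have hphi : ∀ q : Nat.Primes, q ∈ S → ∃ φ : ℚ_[q] →ₗ[ℚ] ℚ,
      (Y q).map (fun y => ((φ y : ℚ) : ℚ_[q])) ∈ {Z | ∀ᶠ W in 𝓝 Z, W ∈ U q} := fun q hq =>
    exists_phi (q : ℕ) (Y q) (Filter.Eventually.eventually_nhds (hU q hq))
  choose! φ hφ using hphi
  let R : Nat.Primes → Matrix ι ι ℚ := fun q => (Y q).map (φ q)
  have hRL : ∀ q ∈ S, (R q)ᵀ * AQ + AQ * R q = 0 := by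
    intro q hq
    ext i j
    have h1 := congrFun (congrFun (hYL q hq) i) j
    rw [Matrix.add_apply, Matrix.mul_apply, Matrix.mul_apply] at h1
    have h2 := congrArg (φ q) h1
    rw [Matrix.add_apply, Matrix.mul_apply, Matrix.mul_apply]
    rw [Matrix.zero_apply, map_zero, map_add, map_sum, map_sum] at h2
    rw [Matrix.zero_apply, ← h2]
    congr 1
    · refine Finset.sum_congr rfl fun k _ => ?_
      simp only [transpose_apply, map_apply, R]
      rw [mul_comm, mul_comm (Y q k i), ← Rat.smul_def, map_smul, smul_eq_mul]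
    · refine Finset.sum_congr rfl fun k _ => ?_
      simp only [map_apply, R]
      rw [← Rat.smul_def, map_smul, smul_eq_mul]
  choose ρ hρ1 hρ0 using exists_rho S
  let s : ℕ → Matrix ι ι ℚ := fun k => ∑ p ∈ S, ((ρ p k : ℤ) : ℚ) • R p
  have hsL : ∀ k, (s k)ᵀ * AQ + AQ * s k = 0 := by
    intro k
    have : (s k)ᵀ * AQ + AQ * s k = ∑ p ∈ S, ((ρ p k : ℤ) : ℚ) • ((R p)ᵀ * AQ + AQ * R p) := by
      simp only [s, transpose_sum, Matrix.sum_mul, Matrix.mul_sum, ← Finset.sum_add_distrib,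
        transpose_smul, smul_mul_assoc, mul_smul_comm, smul_add]
    rw [this]
    exact Finset.sum_eq_zero fun p hp => by rw [hRL p hp, smul_zero]
  have hlim : ∀ q ∈ S, Tendsto (fun k => (s k).map (Rat.cast : ℚ → ℚ_[q])) atTop
      (𝓝 ((Y q).map (fun y => ((φ q y : ℚ) : ℚ_[q])))) := by
    intro q hq
    refine tendsto_pi_nhds.2 fun i => tendsto_pi_nhds.2 fun j => ?_
    have h1 : ∀ k, (s k).map (Rat.cast : ℚ → ℚ_[q]) i j =
        ∑ p ∈ S, ((ρ p k : ℤ) : ℚ_[q]) * ((R p i j : ℚ) : ℚ_[q]) := by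
      intro k
      simp only [s, map_apply, Matrix.sum_apply, Matrix.smul_apply, smul_eq_mul]
      push_cast
      rfl
    have h2 : (Y q).map (fun y => ((φ q y : ℚ) : ℚ_[q])) i j =
        ∑ p ∈ S, (if p = q then 1 else 0) * ((R p i j : ℚ) : ℚ_[q]) := by
      simp only [ite_mul, one_mul, zero_mul, Finset.sum_ite_eq', hq, if_true]
      rfl
    rw [h2]
    refine (tendsto_finsetSum S fun p hp => ?_).congr fun k => (h1 k).symm
    refine Tendsto.mul ?_ tendsto_const_nhds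
    by_cases hpq : p = q
    · subst hpq
      simpa using hρ1 p
    · rw [if_neg hpq]
      exact hρ0 p q hq (Ne.symm hpq)
  have hev : ∀ᶠ k in atTop, ∀ q ∈ S, (s k).map (Rat.cast : ℚ → ℚ_[q]) ∈ U q := by
    rw [Filter.eventually_all_finset]
    intro q hq
    exact (hlim q hq).eventually (hφ q hq)
  obtain ⟨k, hk⟩ := hev.exists
  have hsLk := hsL k
  set Z := s k with hZ
  clear_value Z
  have h2S : (⟨2, Nat.prime_two⟩ : Nat.Primes) ∈ S := (hmemS _).2 (dvd_mul_right 2 N)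
  have hZu : IsUnit (1 - Z).det := by
    have h1 := (hk _ h2S).1
    set q : Nat.Primes := ⟨2, Nat.prime_two⟩
    set c : ℚ →+* ℚ_[q] := Rat.castHom _ with hc
    have h3 : (1 - Z.map c) = (1 - Z).map c := by
      rw [Matrix.map_sub c (fun _ _ => map_sub c _ _), Matrix.map_one c (map_zero c) (map_one c)]
    change IsUnit (1 - Z.map c).det at h1
    rw [h3, ← RingHom.mapMatrix_apply, ← RingHom.map_det] at h1
    rw [isUnit_iff_ne_zero] at h1 ⊢
    intro h0
    rw [h0, map_zero] at h1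
    exact h1 rfl
  have hZiso := cay_isom hsLk hZu
  set P := cay Z * cay (-X0) * P0 with hPdef
  have hPiso : Pᵀ * AQ * P = BQ := by
    calc Pᵀ * AQ * P = P0ᵀ * ((cay (-X0))ᵀ * ((cay Z)ᵀ * AQ * cay Z) * cay (-X0)) * P0 := by
          rw [hPdef, transpose_mul, transpose_mul]; simp only [Matrix.mul_assoc]
      _ = BQ := by rw [hZiso, hX0iso', hP]
  have hint : ∀ q ∈ S, ∀ i j, ‖((P i j : ℚ) : ℚ_[q])‖ ≤ 1 := by
    intro q hq i j
    set c : ℚ →+* ℚ_[q] := Rat.castHom _ with hc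
    have h1 := (hk q hq).2 i j
    have h3 : (cay Z).map c = cay (Z.map c) := by
      rw [cay, cay, Matrix.map_mul]
      congr 1
      · rw [Matrix.map_add c (fun _ _ => map_add c _ _), Matrix.map_one c (map_zero c) (map_one c)]
      · symm
        apply Matrix.inv_eq_right_inv
        have h4 : (1 - Z.map c) = (1 - Z).map c := by
          rw [Matrix.map_sub c (fun _ _ => map_sub c _ _), Matrix.map_one c (map_zero c) (map_one c)]
        rw [h4, ← Matrix.map_mul, Matrix.mul_nonsing_inv _ hZu,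
          Matrix.map_one c (map_zero c) (map_one c)]
    have h4 : P.map c = cay (Z.map c) * (cay (-X0)).map c * P0.map c := by
      rw [hPdef, Matrix.map_mul, Matrix.map_mul, h3]
    have h5 : ((P i j : ℚ) : ℚ_[q]) = (P.map c) i j := rfl
    rw [h5, h4]
    exact h1
  -- the inverse
  have hBQdet : IsUnit BQ.det := by
    have : BQ = (Int.castRingHom ℚ).mapMatrix B := rfl
    rw [this, ← RingHom.map_det]; exact hB.map _
  have hinv : (BQ⁻¹ * Pᵀ * AQ) * P = 1 := by
    calc (BQ⁻¹ * Pᵀ * AQ) * P = BQ⁻¹ * (Pᵀ * AQ * P) := by simp only [Matrix.mul_assoc]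
      _ = 1 := by rw [hPiso, Matrix.nonsing_inv_mul _ hBQdet]
  have hcard : Fintype.card ι = Fintype.card κ := Matrix.square_of_invertible P0 P0' hPP hPP'
  have hinv' : P * (BQ⁻¹ * Pᵀ * AQ) = 1 :=
    (Matrix.mul_eq_one_comm_of_equiv (Fintype.equivOfCardEq hcard.symm)).mp hinv
  -- the denominator
  obtain ⟨t, ht, X1, hX1'⟩ := exists_den P
  refine ⟨P, BQ⁻¹ * Pᵀ * AQ, hinv', hinv, hPiso, t, ?_, ⟨X1, hX1'⟩, B⁻¹ * X1ᵀ * A, ?_⟩
  · apply Nat.coprime_of_dvd
    intro p hp h1 h2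
    set q : Nat.Primes := ⟨p, hp⟩ with hq
    exact ht p hp (fun i j => not_dvd_den (p := p) (hp := ⟨hp⟩)
      (hint q ((hmemS q).2 (dvd_mul_of_dvd_right h2 2)) i j)) h1
  · have h1 : BQ⁻¹ = (B⁻¹).map (Int.cast : ℤ → ℚ) := by
      apply Matrix.inv_eq_right_inv
      have h2 : (B * B⁻¹).map (Int.castRingHom ℚ) = 1 := by
        rw [Matrix.mul_nonsing_inv _ hB, Matrix.map_one _ (map_zero _) (map_one _)]
      rw [Matrix.map_mul] at h2
      exact h2
    have h2 : (B⁻¹ * (X1)ᵀ * A).map (Int.castRingHom ℚ) =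
        (B⁻¹).map (Int.castRingHom ℚ) * ((X1).map (Int.castRingHom ℚ))ᵀ * AQ := by
      rw [Matrix.map_mul, Matrix.map_mul, transpose_map]; rfl
    change _ = (B⁻¹ * (X1)ᵀ * A).map (Int.castRingHom ℚ)
    rw [h2]
    have h3 : (X1).map (Int.castRingHom ℚ) = (t : ℚ) • P := hX1'.symm
    have h4 : (B⁻¹).map (Int.castRingHom ℚ) = BQ⁻¹ := h1.symm
    rw [h3, h4, transpose_smul, Matrix.mul_smul, Matrix.smul_mul]

end padic

end Crest.Agent.R267.WA_169
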