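import Mathlib
import Crest.Agent.R267.P49b_169
import Crest.Agent.R267.WA_169
import Crest.Agent.R267.P4Brg_780
import Crest.Agent.R267.P411b_61
import Crest.Agent.R267.P411d_61
import Crest.Agent.R267.P410b_785
import Crest.Agent.R267.P414_111
import Crest.Agent.R267.P45e_235
import Crest.Agent.R267.P4Z_169
import Crest.Agent.R267.P411f_61

/-!
# S0407, package P4: the Prop `GLOBS` (helper169)
-/

set_option autoImplicit false

namespace Crest.Agent.R267.Globs_169

open Polynomial Matrix Crest.Agent.R267.P4Herm_780 Crest.Agent.R267.P4Lam_780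
  Crest.Agent.R267.P4Fun_780 Crest.Agent.R267.P4Defs_780 Crest.Agent.R267.P4Brg_780
  Crest.Agent.R267.P49_169 Crest.Agent.R267.P49b_169 Crest.Agent.R267.WA_169
  Crest.Agent.R267.P4Z_169

section cast

variable {ι : Type}

/-- integral vectors in `ℚ ^ ι`. -/
def cst (ι : Type) : (ι → ℤ) →+ (ι → ℚ) := (Int.castAddHom ℚ).compLeft ι

theorem cst_apply (x : ι → ℤ) (i : ι) : cst ι x i = (x i : ℚ) := rfl

theorem cst_inj : Function.Injective (cst ι) := fun x y h => by
  funext i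
  have := congrFun h i
  rw [cst_apply, cst_apply] at this
  exact_mod_cast this

variable [Fintype ι]

theorem cst_mulVec {κ : Type} (A : Matrix κ ι ℤ) (x : ι → ℤ) :
    (A.map (Int.castRingHom ℚ)) *ᵥ (cst ι x) = cst κ (A *ᵥ x) := by
  funext i
  simp [Matrix.mulVec, dotProduct, cst_apply]

theorem cst_dot (x y : ι → ℤ) : cst ι x ⬝ᵥ cst ι y = ((x ⬝ᵥ y : ℤ) : ℚ) := by
  simp [dotProduct, cst_apply]

theorem exists_clear (x : ι → ℚ) : ∃ n : ℕ, 0 < n ∧ n • x ∈ (cst ι).range := by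
  refine ⟨∏ i, (x i).den, Finset.prod_pos fun i _ => (x i).pos, ?_⟩
  have h : ∀ i, ∃ c : ℤ, ((∏ i, (x i).den : ℕ) : ℚ) * x i = c := by
    intro i
    obtain ⟨r, hr⟩ : (x i).den ∣ ∏ i, (x i).den :=
      Finset.dvd_prod_of_mem (fun i => (x i).den) (Finset.mem_univ i)
    refine ⟨r * (x i).num, ?_⟩
    have h1 := Rat.mul_den_eq_num (x i)
    rw [hr]; push_cast
    linear_combination (r : ℚ) * h1
  choose c hc using h
  refine ⟨c, ?_⟩
  funext i
  rw [cst_apply, ← hc, Pi.smul_apply, nsmul_eq_mul]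

theorem range_fg : (cst ι).range.FG := by
  classical
  have : AddGroup.FG (ι → ℤ) := inferInstance
  obtain ⟨S, hS⟩ := (AddGroup.fg_def.1 this : (⊤ : AddSubgroup (ι → ℤ)).FG)
  rw [AddMonoidHom.range_eq_map]
  exact fg_map ⟨S, hS⟩ _

end cast

variable {m Q : ℕ} [NeZero m] [NeZero Q]

/-- the integral subring of `Lam m Q ℚ`. -/
noncomputable abbrev LZ (m Q : ℕ) [NeZero m] [NeZero Q] : Subring (Lam m Q ℚ) := (iot m Q).range

section std

variable {ι : Type} [Fintype ι] [DecidableEq ι] {A T : Matrix ι ι ℤ}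

theorem smul_cst (hA : MatLT m Q A T) (z : Lam m Q ℤ) (y : ι → ℤ) :
    letI := lamModule (Matrix.toLin' (T.map (Int.castRingHom ℚ))) (hA.map (Int.castRingHom ℚ)).toLT.psi
    iot m Q z • (cst ι y) ∈ (cst ι).range := by
  let _ := lamModule (Matrix.toLin' (T.map (Int.castRingHom ℚ)))
    (hA.map (Int.castRingHom ℚ)).toLT.psi
  have hT : ∀ (k : ℕ) (y : ι → ℤ), gx m Q ℚ ^ k • (cst ι y) = cst ι ((T ^ k) *ᵥ y) := by
    intro k y
    rw [(hA.map (Int.castRingHom ℚ)).toLT.gx_pow_smul]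
    induction k with
    | zero => simp
    | succ k ih =>
      rw [pow_succ', Module.End.mul_apply, ih, Matrix.toLin'_apply, cst_mulVec,
        Matrix.mulVec_mulVec, pow_succ']
  induction z using ind with
  | h f =>
    induction f using Polynomial.induction_on' with
    | add p q hp hq =>
      rw [map_add, map_add, add_smul]
      exact AddSubgroup.add_mem _ hp hq
    | monomial k r =>
      have h1 : iot m Q (aeval (gx m Q ℤ) (monomial k r)) = (r : Lam m Q ℚ) * gx m Q ℚ ^ k := by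
        rw [aeval_monomial, map_mul, map_pow, iot_gx]
        congr 1
        rw [show algebraMap ℤ (Lam m Q ℤ) r = ((r : ℤ) : Lam m Q ℤ) from eq_intCast _ r,
          map_intCast]
      rw [h1, mul_smul, hT, Int.cast_smul_eq_zsmul]
      exact AddSubgroup.zsmul_mem _ (AddMonoidHom.mem_range.2 ⟨_, rfl⟩) _

/-- the standard lattice of a unimodular Seifert matrix. -/
noncomputable def stdHL (hA : MatLT m Q A T) (hQ : GoodQ Q) (hm : Odd m) :
    HL (Lam m Q ℚ) (LZ m Q) := by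
  letI := lamModule (Matrix.toLin' (T.map (Int.castRingHom ℚ)))
    (hA.map (Int.castRingHom ℚ)).toLT.psi
  haveI := isScalarTower' (Matrix.toLin' (T.map (Int.castRingHom ℚ)))
    (hA.map (Int.castRingHom ℚ)).toLT.psi
  haveI : Module.Finite (Lam m Q ℚ) (ι → ℚ) := Module.Finite.of_restrictScalars_finite ℚ _ _
  exact
  { V := ι → ℚ
    H := (hA.map (Int.castRingHom ℚ)).toLT.hform hQ hm
    uni := (hA.map (Int.castRingHom ℚ)).toLT.hform_unimodular hQ hm
    M := (cst ι).range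
    smul_mem := by
      rintro _ ⟨z, rfl⟩ _ ⟨y, rfl⟩
      exact smul_cst hA z y
    h_mem := by
      rintro _ ⟨x, rfl⟩ _ ⟨y, rfl⟩
      apply iot_dual hQ
      intro z
      obtain ⟨y', hy'⟩ := smul_cst hA z y
      have h1 : lam m Q ℚ (((hA.map (Int.castRingHom ℚ)).toLT.hform hQ hm).h (cst ι x) (cst ι y) *
          iot m Q z) = LT.bb m Q (MatLT.form (A.map (Int.castRingHom ℚ)))
            (Matrix.toLin' (T.map (Int.castRingHom ℚ))) (cst ι x) (iot m Q z • cst ι y) :=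
        hh_spec (lam_perf hQ.two hQ.npp hQ.odd) _ _ _ _
      refine ⟨x ⬝ᵥ (A *ᵥ (T ^ ((m * Q + 1) / 2) *ᵥ y')), ?_⟩
      rw [h1, ← hy']
      have h2 : ((Matrix.toLin' (T.map (Int.castRingHom ℚ))) ^ ((m * Q + 1) / 2)) (cst ι y') =
          cst ι (T ^ ((m * Q + 1) / 2) *ᵥ y') := by
        rw [← Matrix.toLin'_pow, Matrix.toLin'_apply, ← cst_mulVec]
        congr 1
        exact ((Int.castRingHom ℚ).mapMatrix.map_pow T _).symm
      rw [LT.bb_apply, h2, MatLT.form_apply, cst_mulVec, cst_dot]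
    mem_of := by
      intro x hx
      set U : Matrix ι ι ℤ := A * T ^ ((m * Q + 1) / 2) with hU
      have hTu : IsUnit T.det := by
        have h1 := congrArg Matrix.det hA.mono
        rw [Matrix.det_mul, Matrix.det_transpose] at h1
        have h2 : T.det = 1 := hA.det.mul_left_cancel (by rw [h1, mul_one])
        rw [h2]; exact isUnit_one
      have hUu : IsUnit U.det := by
        rw [hU, Matrix.det_mul, Matrix.det_pow]
        exact hA.det.mul (hTu.pow _)
      have h1 : ∀ y : ι → ℤ, ∃ c : ℤ, x ⬝ᵥ cst ι (U *ᵥ y) = c := by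
        intro y
        obtain ⟨z, hz⟩ := hx (cst ι y) ⟨y, rfl⟩
        have h2 : lam m Q ℚ (((hA.map (Int.castRingHom ℚ)).toLT.hform hQ hm).h x (cst ι y)) =
          LT.bb m Q (MatLT.form (A.map (Int.castRingHom ℚ)))
            (Matrix.toLin' (T.map (Int.castRingHom ℚ))) x (cst ι y) :=
          lam_hh (lam_perf hQ.two hQ.npp hQ.odd) _ _ _
        rw [← hz, lam_iot, LT.bb_apply, MatLT.form_apply] at h2
        refine ⟨lam m Q ℤ z, ?_⟩
        rw [h2, ← Matrix.mulVec_mulVec]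
        have h3 : ((Matrix.toLin' (T.map (Int.castRingHom ℚ))) ^ ((m * Q + 1) / 2)) (cst ι y) =
            cst ι (T ^ ((m * Q + 1) / 2) *ᵥ y) := by
          rw [← Matrix.toLin'_pow, Matrix.toLin'_apply, ← cst_mulVec]
          congr 1
          exact ((Int.castRingHom ℚ).mapMatrix.map_pow T _).symm
        rw [h3, cst_mulVec]
      have h4 : ∀ i, ∃ c : ℤ, x i = c := by
        intro i
        obtain ⟨c, hc⟩ := h1 (U⁻¹ *ᵥ Pi.single i 1)
        rw [Matrix.mulVec_mulVec, Matrix.mul_nonsing_inv _ hUu, Matrix.one_mulVec] at hc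
        refine ⟨c, ?_⟩
        rw [← hc]
        have h5 : cst ι (Pi.single i 1) = Pi.single i 1 := by
          funext k
          by_cases hk : k = i
          · subst hk; simp [cst_apply]
          · simp [cst_apply, hk]
        rw [h5]; simp
      choose c hc using h4
      exact ⟨c, funext fun i => by rw [cst_apply, hc]⟩
    full := exists_clear
    fg := range_fg }

variable {κ : Type} [Fintype κ] [DecidableEq κ] {B S : Matrix κ κ ℤ}

theorem rIso_of_nearQ (hA : MatLT m Q A T) (hB : MatLT m Q B S) (hQ : GoodQ Q) (hm : Odd m)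
    {N : ℕ} (h : NearQ N A B) : RIso N (stdHL hA hQ hm) (stdHL hB hQ hm) := by
  obtain ⟨P, P', h1, h2, h3, t, ht, ⟨X, hX⟩, ⟨X', hX'⟩⟩ := h
  let g : (ι → ℚ) ≃ₗ[ℚ] (κ → ℚ) := LinearEquiv.ofLinearMap (Matrix.toLin' P') (Matrix.toLin' P)
    (by rw [← Matrix.toLin'_mul, h2, Matrix.toLin'_one])
    (by rw [← Matrix.toLin'_mul, h1, Matrix.toLin'_one])
  have hgx : ∀ x, g x = P' *ᵥ x := fun x => rfl
  have h4 : P'ᵀ * B.map (Int.castRingHom ℚ) * P' = A.map (Int.castRingHom ℚ) := by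
    have h5 : P'ᵀ * Pᵀ = 1 := by rw [← transpose_mul, h1, transpose_one]
    have h6 : B.map (Int.castRingHom ℚ) = Pᵀ * A.map (Int.castRingHom ℚ) * P := h3.symm
    calc P'ᵀ * B.map (Int.castRingHom ℚ) * P'
        = (P'ᵀ * Pᵀ) * A.map (Int.castRingHom ℚ) * (P * P') := by
          rw [h6]; simp only [Matrix.mul_assoc]
      _ = A.map (Int.castRingHom ℚ) := by rw [h5, h1, Matrix.one_mul, Matrix.mul_one]
  have hg : ∀ x y, MatLT.form (B.map (Int.castRingHom ℚ)) (g x) (g y) =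
      MatLT.form (A.map (Int.castRingHom ℚ)) x y := by
    intro x y
    rw [MatLT.form_apply, MatLT.form_apply, hgx, hgx, ← h4, ← Matrix.mulVec_mulVec,
      ← Matrix.mulVec_mulVec, Matrix.mulVec_transpose, dotProduct_comm x,
      ← Matrix.dotProduct_mulVec, dotProduct_comm]
  obtain ⟨g', hg1, hg2⟩ := (hA.map (Int.castRingHom ℚ)).toLT.to_isom
    (hB.map (Int.castRingHom ℚ)).toLT hQ hm g hg
  refine ⟨g', hg2, t, ht, ?_, ?_⟩
  · rintro _ ⟨_, ⟨y, rfl⟩, rfl⟩
    refine ⟨X' *ᵥ y, ?_⟩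
    rw [← cst_mulVec]
    have h5 : X'.map (Int.castRingHom ℚ) = (t : ℚ) • P' := hX'.symm
    rw [h5, Matrix.smul_mulVec, ← hgx, ← hg1, Nat.cast_smul_eq_nsmul]
    rfl
  · rintro _ ⟨y, rfl⟩
    refine ⟨cst ι (X *ᵥ y), ⟨_, rfl⟩, ?_⟩
    have h5 : X.map (Int.castRingHom ℚ) = (t : ℚ) • P := hX.symm
    have h6 : g (cst ι (X *ᵥ y)) = t • cst κ y := by
      rw [hgx, ← cst_mulVec, h5, Matrix.smul_mulVec, Matrix.mulVec_smul, Matrix.mulVec_mulVec, h2,
        Matrix.one_mulVec, Nat.cast_smul_eq_nsmul]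
    exact (hg1 _).trans h6

theorem cong_of_iso (hA : MatLT m Q A T) (hB : MatLT m Q B S) (hQ : GoodQ Q) (hm : Odd m)
    (h : Iso (stdHL hA hQ hm) (stdHL hB hQ hm)) : Cong ℤ B A := by
  let _ := lamModule (Matrix.toLin' (T.map (Int.castRingHom ℚ)))
    (hA.map (Int.castRingHom ℚ)).toLT.psi
  let _ := lamModule (Matrix.toLin' (S.map (Int.castRingHom ℚ)))
    (hB.map (Int.castRingHom ℚ)).toLT.psi
  obtain ⟨g0, hg0, hM0⟩ := h
  let g : (ι → ℚ) ≃ₗ[Lam m Q ℚ] (κ → ℚ) := g0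
  have hg : ∀ x y, ((hB.map (Int.castRingHom ℚ)).toLT.hform hQ hm).h (g x) (g y) =
    ((hA.map (Int.castRingHom ℚ)).toLT.hform hQ hm).h x y := hg0
  have hM : (cst ι).range.map ((g : (ι → ℚ) →ₗ[Lam m Q ℚ] (κ → ℚ)).toAddMonoidHom) =
    (cst κ).range := hM0
  have ho := hm.mul hQ.odd
  have hb : ∀ x y, LT.bb m Q (MatLT.form (B.map (Int.castRingHom ℚ)))
      (Matrix.toLin' (S.map (Int.castRingHom ℚ))) (g x) (g y) =
      LT.bb m Q (MatLT.form (A.map (Int.castRingHom ℚ)))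
      (Matrix.toLin' (T.map (Int.castRingHom ℚ))) x y := by
    intro x y
    rw [← (hA.map (Int.castRingHom ℚ)).toLT.lam_hform hQ hm,
      ← (hB.map (Int.castRingHom ℚ)).toLT.lam_hform hQ hm, hg]
  have hL : ∀ x y, MatLT.form (B.map (Int.castRingHom ℚ)) (g x) (g y) =
      MatLT.form (A.map (Int.castRingHom ℚ)) x y := by
    intro x y
    rw [(hA.map (Int.castRingHom ℚ)).toLT.L_apply ho, (hB.map (Int.castRingHom ℚ)).toLT.L_apply ho,
      ← hb]
    congr 1
    rw [← (hA.map (Int.castRingHom ℚ)).toLT.gx_pow_smul, map_smul,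
      ← (hB.map (Int.castRingHom ℚ)).toLT.gx_pow_smul]
  have ha : ∀ x : ι → ℤ, ∃ y : κ → ℤ, cst κ y = g (cst ι x) := by
    intro x
    have : g (cst ι x) ∈ (cst κ).range := by
      rw [← hM]; exact ⟨_, ⟨x, rfl⟩, rfl⟩
    exact this
  have hb' : ∀ y : κ → ℤ, ∃ x : ι → ℤ, cst ι x = g.symm (cst κ y) := by
    intro y
    have : cst κ y ∈ (cst ι).range.map ((g : (ι → ℚ) →ₗ[Lam m Q ℚ] (κ → ℚ)).toAddMonoidHom) := by
      rw [hM]; exact ⟨y, rfl⟩
    obtain ⟨_, ⟨x, rfl⟩, hx⟩ := this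
    refine ⟨x, ?_⟩
    rw [← hx]
    exact (g.symm_apply_apply _).symm
  choose a ha using ha
  choose b hb' using hb'
  let G : (ι → ℤ) ≃ₗ[ℤ] (κ → ℤ) :=
    { toFun := a
      invFun := b
      left_inv := fun x => cst_inj (by rw [hb', ha, g.symm_apply_apply])
      right_inv := fun y => cst_inj (by rw [ha, hb', g.apply_symm_apply])
      map_add' := fun x y => cst_inj (by rw [ha, map_add, map_add, map_add, ha, ha])
      map_smul' := fun c x => cst_inj (by
        rw [ha, RingHom.id_apply, map_zsmul, map_zsmul, map_zsmul, ha]) }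
  have hG : ∀ x, cst κ (G x) = g (cst ι x) := ha
  refine MatLT.cong_of_isometry G fun x y => ?_
  have h1 := hL (cst ι x) (cst ι y)
  rw [← hG, ← hG, MatLT.form_apply, MatLT.form_apply, cst_mulVec, cst_mulVec, cst_dot, cst_dot] at h1
  rw [MatLT.form_apply, MatLT.form_apply]
  exact_mod_cast h1

end std

theorem iso_symm {K : Type} [CommRing K] [StarRing K] {Λ : Subring K} {X Y : HL K Λ}
    (h : Iso X Y) : Iso Y X := by
  obtain ⟨g, hg, hM⟩ := h
  exact ⟨g.symm, fun x y => by rw [← hg]; simp, by rw [← hM, img_symm_img]⟩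

/-- P4.10 in our form. -/
theorem exists_P410 (m Q : ℕ) [NeZero m] [NeZero Q] : ∃ h : ℕ, P410 (LZ m Q) h := by
  have := isReduced_lam m Q
  have hfin : Module.Finite ℤ (LZ m Q) := by
    have h0 : @Module.Finite ℤ (Lam m Q ℤ) _ _ (AddCommGroup.toIntModule _) := by
      have h1 : (AddCommGroup.toIntModule (Lam m Q ℤ)) = Algebra.toModule := Subsingleton.elim _ _
      rw [h1]; infer_instance
    let _ : Module ℤ (Lam m Q ℤ) := AddCommGroup.toIntModule _
    exact Module.Finite.of_surjective ((iot m Q).rangeRestrict.toAddMonoidHom.toIntLinearMap)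
      (iot m Q).rangeRestrict_surjective
  obtain ⟨h, H⟩ := Crest.Agent.R267.P410b_785.pigeonhole' (Lam m Q ℚ) (LZ m Q)
  refine ⟨h, fun I hI1 hI2 => ?_⟩
  let I' : Fin (h + 1) → Submodule (LZ m Q) (Lam m Q ℚ) := fun i =>
    { carrier := I i
      add_mem' := (I i).add_mem
      zero_mem' := (I i).zero_mem
      smul_mem' := fun c x hx => hI1 i c.1 c.2 x hx }
  obtain ⟨i, hi, j, hj, hij, a, ha⟩ := H (Finset.range (h + 1)) (by simp)
    (fun k => if hk : k < h + 1 then I' ⟨k, hk⟩ else ⊥) (by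
      intro k hk
      rw [Finset.mem_range] at hk
      simp only [hk, dif_pos]
      obtain ⟨c, hc, h1, h2⟩ := hI2 ⟨k, hk⟩
      refine ⟨c, by exact_mod_cast hc.ne', ?_, fun x hx => ?_⟩
      · have := h2 1 (one_mem (LZ m Q))
        rw [nsmul_eq_mul, mul_one] at this
        change (((c : ℤ)) : Lam m Q ℚ) ∈ I ⟨k, hk⟩
        rwa [Int.cast_natCast]
      · have := h1 x hx
        rw [nsmul_eq_mul] at this
        rw [Int.cast_natCast]
        exact this)
  rw [Finset.mem_range] at hi hj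
  simp only [hi, hj, dif_pos] at ha
  refine ⟨⟨i, hi⟩, ⟨j, hj⟩, fun h => hij.ne (congrArg Fin.val h), a, fun x => ?_⟩
  constructor
  · intro hx
    exact (ha _).2 ⟨x, hx, rfl⟩
  · intro hx
    obtain ⟨y, hy, hxy⟩ := (ha _).1 hx
    have : x = y := by
      have := congrArg (fun z => ((a⁻¹ : (Lam m Q ℚ)ˣ) : Lam m Q ℚ) * z) hxy
      simpa [← mul_assoc] using this
    rw [this]; exact hy

/-- the hyperbolic pair. -/
theorem exists_pair {L : List (ℕ × ℕ × ℤ)} {u : ℕ} {q : List ℕ} (hC : Cert L u) (hA : Aux u q)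
    [NeZero (3 * u)] [NeZero q.prod] (hQ : GoodQ q.prod) (hm : Odd (3 * u)) (s j : ℕ)
    (hM : MatLT (3 * u) q.prod (sysMat (F L u q s j))
      (Crest.Agent.R267.P411_61.Tsys (F L u q s j))) :
    ∃ e ∈ (stdHL hM hQ hm).M, ∃ f ∈ (stdHL hM hQ hm).M, (stdHL hM hQ hm).H.h e e = 0 ∧
      (stdHL hM hQ hm).H.h e f = 1 := by
  let _ := lamModule (Matrix.toLin' ((Crest.Agent.R267.P411_61.Tsys (F L u q s j)).map
    (Int.castRingHom ℚ))) (hM.map (Int.castRingHom ℚ)).toLT.psi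
  obtain ⟨e, f, hef⟩ := Crest.Agent.R267.P411d_61.hyp_lam hC hA s j
    (lam (3 * u) q.prod ℤ).toAddMonoidHom (fun k hk => Crest.Agent.R267.P411f_61.lam_gx_pow hQ hk)
  have key : ∀ (x y : Idx (F L u q s j) → ℤ) (k : ℕ), lam (3 * u) q.prod ℚ
      (((hM.map (Int.castRingHom ℚ)).toLT.hform hQ hm).h (cst _ x) (cst _ y) *
        gx (3 * u) q.prod ℚ ^ k) =
      ((x ⬝ᵥ ((sysMat (F L u q s j) * Crest.Agent.R267.P411_61.Tsys (F L u q s j) ^
        (Crest.Agent.R267.P411_61.hs u q + k)) *ᵥ y) : ℤ) : ℚ) := by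
    intro x y k
    have h1 : lam (3 * u) q.prod ℚ
      (((hM.map (Int.castRingHom ℚ)).toLT.hform hQ hm).h (cst _ x) (cst _ y) *
        gx (3 * u) q.prod ℚ ^ k) = LT.bb (3 * u) q.prod
          (MatLT.form ((sysMat (F L u q s j)).map (Int.castRingHom ℚ)))
          (Matrix.toLin' ((Crest.Agent.R267.P411_61.Tsys (F L u q s j)).map
            (Int.castRingHom ℚ))) (cst _ x) (gx (3 * u) q.prod ℚ ^ k • cst _ y) :=
      hh_spec (lam_perf hQ.two hQ.npp hQ.odd) _ _ _ _
    rw [h1, (hM.map (Int.castRingHom ℚ)).toLT.gx_pow_smul, LT.bb_apply, ← Module.End.mul_apply,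
      ← pow_add]
    have h3 : ((Matrix.toLin' ((Crest.Agent.R267.P411_61.Tsys (F L u q s j)).map
        (Int.castRingHom ℚ))) ^ (Crest.Agent.R267.P411_61.hs u q + k)) (cst _ y) =
        cst _ ((Crest.Agent.R267.P411_61.Tsys (F L u q s j)) ^
          (Crest.Agent.R267.P411_61.hs u q + k) *ᵥ y) := by
      rw [← Matrix.toLin'_pow, Matrix.toLin'_apply, ← cst_mulVec]
      congr 1
      exact ((Int.castRingHom ℚ).mapMatrix.map_pow
        (Crest.Agent.R267.P411_61.Tsys (F L u q s j)) _).symm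
    change MatLT.form ((sysMat (F L u q s j)).map (Int.castRingHom ℚ)) (cst _ x)
      (((Matrix.toLin' ((Crest.Agent.R267.P411_61.Tsys (F L u q s j)).map
        (Int.castRingHom ℚ))) ^ (Crest.Agent.R267.P411_61.hs u q + k)) (cst _ y)) = _
    rw [h3, MatLT.form_apply, cst_mulVec, cst_dot, Matrix.mulVec_mulVec]
  refine ⟨cst _ e, ⟨e, rfl⟩, cst _ f, ⟨f, rfl⟩, ?_, ?_⟩
  · refine ext_gx (m := 3 * u) (Q := q.prod) hQ fun k => ?_
    refine (key e e k).trans ?_
    rw [(hef k).1, zero_mul, map_zero, Int.cast_zero]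
  · refine ext_gx (m := 3 * u) (Q := q.prod) hQ fun k => ?_
    refine (key e f k).trans ?_
    rw [(hef k).2, one_mul]
    have h2 := lam_iot (m := 3 * u) (Q := q.prod) (gx (3 * u) q.prod ℤ ^ k)
    rw [map_pow, iot_gx] at h2
    exact h2.symm

theorem globs : GLOBS := by
  intro L u q hC hA
  have hu := hC.big
  have : NeZero (3 * u) := ⟨by omega⟩
  have : NeZero q.prod := ⟨(Crest.Agent.R267.P411d_61.q_pos hA).ne'⟩
  have hQ := Crest.Agent.R267.P411f_61.goodQ hA
  have hm : Odd (3 * u) := by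
    have : Odd u := hC.prime.odd_of_ne_two (by omega)
    exact (by decide : Odd 3).mul this
  obtain ⟨h, hP⟩ := exists_P410 (3 * u) q.prod
  refine ⟨h, fun s J hJs hcard hQc hloc => ?_⟩
  have hMat : ∀ j, MatLT (3 * u) q.prod (sysMat (F L u q s j))
      (Crest.Agent.R267.P411_61.Tsys (F L u q s j)) := fun j =>
    ⟨(Crest.Agent.R267.P414_111.mono L u q hC hA s j).1,
      Crest.Agent.R267.P411_61.F_T hC hA s j, by
        rw [Psi, expand_aeval]; exact Crest.Agent.R267.P411b_61.F_cyc hC hA s j⟩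
  obtain ⟨J', hJ', hcard'⟩ := Finset.exists_subset_card_eq (Nat.succ_le_of_lt hcard)
  let ε := J'.orderEmbOfFin hcard'
  have hε : ∀ i, ε i ∈ J := fun i => hJ' (J'.orderEmbOfFin_mem hcard' i)
  obtain ⟨e, he, f, hf, hee, hef⟩ := exists_pair hC hA hQ hm s (ε 0) (hMat (ε 0))
  have hK : Good (Lam (3 * u) q.prod ℚ) := P4Lam_780.good hQ.npp hQ.odd
  have hZ : Good (Lam (3 * u) q.prod ℤ) := P4Lam_780.good hQ.npp hQ.odd
  obtain ⟨c, hc⟩ := hZ.tr
  have := isReduced_lam (3 * u) q.prod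
  have : IsArtinianRing (Lam (3 * u) q.prod ℚ) := IsArtinianRing.of_finite ℚ _
  obtain ⟨i, j, hij, hI⟩ := pigeonHL (Λ := LZ (3 * u) q.prod) hK
    (by rintro _ ⟨z, rfl⟩; exact ⟨star z, iot_star z⟩)
    (fun a => by
      obtain ⟨n, hn, z, hz⟩ := iot_full a
      exact ⟨n, hn, z, hz⟩)
    (c := iot _ _ c) ⟨c, rfl⟩ (by rw [← iot_star, ← map_add, hc, map_one]) hP
    (stdHL (hMat (ε 0)) hQ hm) he hf hee hef (fun i => stdHL (hMat (ε i)) hQ hm)
    (fun i N hN => rIso_of_nearQ _ _ hQ hm (WA _ _ (hMat (ε i)).det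
      (Crest.Agent.R267.P45e_235.isUnit_add hC hA s (ε 0))
      (Crest.Agent.R267.P45e_235.isUnit_sub hC hA s (ε 0))
      (hQc _ (hε 0) _ (hε i)) (fun p _ => hloc _ (hε 0) _ (hε i) p) N hN))
  rcases lt_or_gt_of_ne hij with hlt | hlt
  · exact ⟨ε i, hε i, ε j, hε j, ε.strictMono hlt, cong_of_iso _ _ hQ hm (iso_symm hI)⟩
  · exact ⟨ε j, hε j, ε i, hε i, ε.strictMono hlt, cong_of_iso _ _ hQ hm hI⟩

end Crest.Agent.R267.Globs_169
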