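import Mathlib
import Crest.Agent.R267.P4Defs_780

/-!
# S0407, node P4.4 (helper148), part a: the commutative semiring of congruence classes of square
rational matrices (block sum, Kronecker product).
-/

set_option autoImplicit false

namespace Crest.Agent.R267.P44a_148

open Matrix Crest.Agent.R267.P4Defs_780

section CongLemmas

variable {ι κ ν : Type} [Fintype ι] [Fintype κ] [Fintype ν]
  [DecidableEq ι] [DecidableEq κ] [DecidableEq ν]

lemma cong_refl (A : Matrix ι ι ℚ) : Cong ℚ A A := ⟨1, 1, by simp, by simp, by simp⟩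

lemma cong_symm {A : Matrix ι ι ℚ} {B : Matrix κ κ ℚ} (h : Cong ℚ A B) : Cong ℚ B A := by
  obtain ⟨P, Q, h1, h2, h3⟩ := h
  refine ⟨Q, P, h2, h1, ?_⟩
  rw [← h3]
  have h4 : Qᵀ * Pᵀ = 1 := by rw [← Matrix.transpose_mul, h1, Matrix.transpose_one]
  calc Qᵀ * (Pᵀ * A * P) * Q = (Qᵀ * Pᵀ) * A * (P * Q) := by simp only [Matrix.mul_assoc]
    _ = A := by rw [h4, h1, Matrix.one_mul, Matrix.mul_one]

lemma cong_trans {A : Matrix ι ι ℚ} {B : Matrix κ κ ℚ} {C : Matrix ν ν ℚ} (h : Cong ℚ A B)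
    (h' : Cong ℚ B C) : Cong ℚ A C := by
  obtain ⟨P, Q, h1, h2, h3⟩ := h
  obtain ⟨P', Q', h1', h2', h3'⟩ := h'
  refine ⟨P * P', Q' * Q, ?_, ?_, ?_⟩
  · calc P * P' * (Q' * Q) = P * (P' * Q') * Q := by simp only [Matrix.mul_assoc]
      _ = 1 := by rw [h1', Matrix.mul_one, h1]
  · calc Q' * Q * (P * P') = Q' * (Q * P) * P' := by simp only [Matrix.mul_assoc]
      _ = 1 := by rw [h2, Matrix.mul_one, h2']
  · rw [← h3', ← h3, Matrix.transpose_mul]
    simp only [Matrix.mul_assoc]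

lemma cong_reindex (A : Matrix ι ι ℚ) (B : Matrix κ κ ℚ) (e : κ ≃ ι)
    (h : ∀ i j, B i j = A (e i) (e j)) : Cong ℚ A B := by
  refine ⟨(1 : Matrix ι ι ℚ).submatrix id e, (1 : Matrix ι ι ℚ).submatrix e id, ?_, ?_, ?_⟩
  · rw [Matrix.submatrix_mul_equiv, Matrix.one_mul, Matrix.submatrix_id_id]
  · ext i j
    rw [Matrix.mul_apply]
    simp [Matrix.one_apply]
  · ext i j
    rw [h, Matrix.mul_apply]
    simp only [Matrix.mul_apply, Matrix.transpose_apply, Matrix.submatrix_apply, id,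
      Matrix.one_apply]
    simp

/-- isometric embedding of a nondegenerate form in a form of at most the same dimension. -/
lemma cong_of_isom {A : Matrix ι ι ℚ} {B : Matrix κ κ ℚ} (P : Matrix κ ι ℚ)
    (h : Pᵀ * B * P = A) (hA : IsUnit A.det) (hc : Fintype.card κ ≤ Fintype.card ι) :
    Cong ℚ A B := by
  have h1 : (A⁻¹ * Pᵀ * B) * P = 1 := by
    rw [Matrix.mul_assoc, Matrix.mul_assoc, ← Matrix.mul_assoc Pᵀ, h, Matrix.nonsing_inv_mul _ hA]
  have hle : Fintype.card ι ≤ Fintype.card κ := by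
    have hinj : Function.Injective (Matrix.mulVecLin P) := by
      intro x y hxy
      have h2 := congrArg (Matrix.mulVec (A⁻¹ * Pᵀ * B)) hxy
      simpa [Matrix.mulVec_mulVec, h1] using h2
    have := LinearMap.finrank_le_finrank_of_injective hinj
    simpa using this
  have h2 : P * (A⁻¹ * Pᵀ * B) = 1 :=
    (Matrix.mul_eq_one_comm_of_card_eq _ _ _ (le_antisymm hle hc)).1 h1
  exact cong_symm ⟨P, A⁻¹ * Pᵀ * B, h2, h1, h⟩

variable {ι' κ' : Type} [Fintype ι'] [Fintype κ'] [DecidableEq ι'] [DecidableEq κ']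

lemma cong_fromBlocks {A : Matrix ι ι ℚ} {A' : Matrix ι' ι' ℚ} {B : Matrix κ κ ℚ}
    {B' : Matrix κ' κ' ℚ} (h : Cong ℚ A A') (h' : Cong ℚ B B') :
    Cong ℚ (fromBlocks A 0 0 B) (fromBlocks A' 0 0 B') := by
  obtain ⟨P, Q, h1, h2, h3⟩ := h
  obtain ⟨P', Q', h1', h2', h3'⟩ := h'
  refine ⟨fromBlocks P 0 0 P', fromBlocks Q 0 0 Q', ?_, ?_, ?_⟩
  · rw [fromBlocks_multiply, h1, h1']; simp
  · rw [fromBlocks_multiply, h2, h2']; simp
  · rw [fromBlocks_transpose, fromBlocks_multiply, fromBlocks_multiply]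
    simp [h3, h3']

lemma cong_kronecker {A : Matrix ι ι ℚ} {A' : Matrix ι' ι' ℚ} {B : Matrix κ κ ℚ}
    {B' : Matrix κ' κ' ℚ} (h : Cong ℚ A A') (h' : Cong ℚ B B') :
    Cong ℚ (kroneckerMap (· * ·) A B) (kroneckerMap (· * ·) A' B') := by
  obtain ⟨P, Q, h1, h2, h3⟩ := h
  obtain ⟨P', Q', h1', h2', h3'⟩ := h'
  refine ⟨kroneckerMap (· * ·) P P', kroneckerMap (· * ·) Q Q', ?_, ?_, ?_⟩
  · rw [← Matrix.mul_kronecker_mul, h1, h1']; simp
  · rw [← Matrix.mul_kronecker_mul, h2, h2']; simp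
  · rw [← Matrix.kroneckerMap_transpose, ← Matrix.mul_kronecker_mul, ← Matrix.mul_kronecker_mul,
      h3, h3']

end CongLemmas

/-! ### classes -/

/-- square rational matrices -/
def Sq : Type := Σ n : ℕ, Matrix (Fin n) (Fin n) ℚ

instance sqSetoid : Setoid Sq where
  r X Y := Cong ℚ X.2 Y.2
  iseqv := ⟨fun _ => cong_refl _, cong_symm, cong_trans⟩

/-- congruence classes of square rational matrices -/
def Cls : Type := Quotient sqSetoid

section cl

variable {ι κ : Type} [Fintype ι] [Fintype κ] [DecidableEq ι] [DecidableEq κ]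

/-- class of a square matrix -/
noncomputable def cl (A : Matrix ι ι ℚ) : Cls :=
  Quotient.mk _ ⟨Fintype.card ι, A.submatrix (Fintype.equivFin ι).symm (Fintype.equivFin ι).symm⟩

lemma cong_sub (A : Matrix ι ι ℚ) :
    Cong ℚ A (A.submatrix (Fintype.equivFin ι).symm (Fintype.equivFin ι).symm) :=
  cong_reindex _ _ (Fintype.equivFin ι).symm fun _ _ => rfl

lemma cl_eq_iff {A : Matrix ι ι ℚ} {B : Matrix κ κ ℚ} : cl A = cl B ↔ Cong ℚ A B := by
  constructor
  · intro h
    have h1 : Cong ℚ _ _ := Quotient.exact h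
    exact cong_trans (cong_sub A) (cong_trans h1 (cong_symm (cong_sub B)))
  · intro h
    apply Quotient.sound
    exact cong_trans (cong_symm (cong_sub A)) (cong_trans h (cong_sub B))

lemma cl_mk (X : Sq) : cl X.2 = Quotient.mk _ X := by
  apply Quotient.sound
  exact cong_symm (cong_sub X.2)

lemma exists_cl (x : Cls) : ∃ (n : ℕ) (A : Matrix (Fin n) (Fin n) ℚ), cl A = x := by
  induction x using Quotient.inductionOn with
  | h X => exact ⟨X.1, X.2, cl_mk X⟩

lemma cl_reindex (A : Matrix ι ι ℚ) (B : Matrix κ κ ℚ) (e : κ ≃ ι)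
    (h : ∀ i j, B i j = A (e i) (e j)) : cl A = cl B :=
  cl_eq_iff.2 (cong_reindex A B e h)

end cl

noncomputable instance : Add Cls where
  add := Quotient.lift₂ (fun X Y : Sq => cl (fromBlocks X.2 0 0 Y.2)) (by
    intro X Y X' Y' h h'
    exact cl_eq_iff.2 (cong_fromBlocks h h'))

noncomputable instance : Mul Cls where
  mul := Quotient.lift₂ (fun X Y : Sq => cl (kroneckerMap (· * ·) X.2 Y.2)) (by
    intro X Y X' Y' h h'
    exact cl_eq_iff.2 (cong_kronecker h h'))

noncomputable instance : Zero Cls := ⟨cl (0 : Matrix Empty Empty ℚ)⟩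

noncomputable instance : One Cls := ⟨cl (1 : Matrix Unit Unit ℚ)⟩

section ops

variable {ι κ : Type} [Fintype ι] [Fintype κ] [DecidableEq ι] [DecidableEq κ]

lemma cl_zero : cl (0 : Matrix Empty Empty ℚ) = 0 := rfl

lemma cl_one : cl (1 : Matrix Unit Unit ℚ) = 1 := rfl

lemma cl_fromBlocks (A : Matrix ι ι ℚ) (B : Matrix κ κ ℚ) :
    cl (fromBlocks A 0 0 B) = cl A + cl B :=
  cl_eq_iff.2 (cong_fromBlocks (cong_sub A) (cong_sub B))

lemma cl_kronecker (A : Matrix ι ι ℚ) (B : Matrix κ κ ℚ) :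
    cl (kroneckerMap (· * ·) A B) = cl A * cl B :=
  cl_eq_iff.2 (cong_kronecker (cong_sub A) (cong_sub B))

end ops

private lemma add_assoc' (x y z : Cls) : x + y + z = x + (y + z) := by
  obtain ⟨a, A, rfl⟩ := exists_cl x
  obtain ⟨b, B, rfl⟩ := exists_cl y
  obtain ⟨c, C, rfl⟩ := exists_cl z
  rw [← cl_fromBlocks, ← cl_fromBlocks, ← cl_fromBlocks, ← cl_fromBlocks]
  refine cl_reindex _ _ (Equiv.sumAssoc _ _ _).symm ?_
  rintro (i | i | i) (j | j | j) <;> simp [Equiv.sumAssoc]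

private lemma add_comm' (x y : Cls) : x + y = y + x := by
  obtain ⟨a, A, rfl⟩ := exists_cl x
  obtain ⟨b, B, rfl⟩ := exists_cl y
  rw [← cl_fromBlocks, ← cl_fromBlocks]
  refine cl_reindex _ _ (Equiv.sumComm _ _) ?_
  rintro (i | i) (j | j) <;> simp

private lemma zero_add' (x : Cls) : 0 + x = x := by
  obtain ⟨a, A, rfl⟩ := exists_cl x
  rw [← cl_zero, ← cl_fromBlocks]
  refine cl_reindex _ _ (Equiv.emptySum Empty _).symm ?_
  intro i j; simp

private lemma mul_assoc' (x y z : Cls) : x * y * z = x * (y * z) := by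
  obtain ⟨a, A, rfl⟩ := exists_cl x
  obtain ⟨b, B, rfl⟩ := exists_cl y
  obtain ⟨c, C, rfl⟩ := exists_cl z
  rw [← cl_kronecker, ← cl_kronecker, ← cl_kronecker, ← cl_kronecker]
  refine cl_reindex _ _ (Equiv.prodAssoc _ _ _).symm ?_
  rintro ⟨i, i', i''⟩ ⟨j, j', j''⟩
  simp [mul_assoc]

private lemma mul_comm' (x y : Cls) : x * y = y * x := by
  obtain ⟨a, A, rfl⟩ := exists_cl x
  obtain ⟨b, B, rfl⟩ := exists_cl y
  rw [← cl_kronecker, ← cl_kronecker]
  refine cl_reindex _ _ (Equiv.prodComm _ _) ?_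
  rintro ⟨i, i'⟩ ⟨j, j'⟩
  simp [mul_comm]

private lemma one_mul' (x : Cls) : 1 * x = x := by
  obtain ⟨a, A, rfl⟩ := exists_cl x
  rw [← cl_one, ← cl_kronecker]
  refine cl_reindex _ _ (Equiv.punitProd _).symm ?_
  intro i j
  simp

private lemma zero_mul' (x : Cls) : 0 * x = 0 := by
  obtain ⟨a, A, rfl⟩ := exists_cl x
  rw [← cl_zero, ← cl_kronecker]
  refine cl_reindex _ _ (Equiv.emptyProd _).symm ?_
  intro i
  exact i.elim

private lemma add_mul' (x y z : Cls) : (x + y) * z = x * z + y * z := by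
  obtain ⟨a, A, rfl⟩ := exists_cl x
  obtain ⟨b, B, rfl⟩ := exists_cl y
  obtain ⟨c, C, rfl⟩ := exists_cl z
  rw [← cl_fromBlocks, ← cl_kronecker, ← cl_kronecker, ← cl_kronecker, ← cl_fromBlocks]
  refine cl_reindex _ _ (Equiv.sumProdDistrib _ _ _).symm ?_
  rintro (⟨i, i'⟩ | ⟨i, i'⟩) (⟨j, j'⟩ | ⟨j, j'⟩) <;> simp

noncomputable instance : CommSemiring Cls where
  add_assoc := add_assoc'
  zero_add := zero_add'
  add_zero x := by rw [add_comm', zero_add']
  add_comm := add_comm'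
  nsmul := nsmulRec
  left_distrib x y z := by rw [mul_comm', add_mul', mul_comm' y, mul_comm' z]
  right_distrib := add_mul'
  zero_mul := zero_mul'
  mul_zero x := by rw [mul_comm', zero_mul']
  mul_assoc := mul_assoc'
  one_mul := one_mul'
  mul_one x := by rw [mul_comm', one_mul']
  mul_comm := mul_comm'

/-! ### block sums -/

/-- splitting off the first block -/
def sigmaFinSucc {m : ℕ} (n : Fin (m + 1) → Type) :
    (Σ i : Fin (m + 1), n i) ≃ n 0 ⊕ (Σ i : Fin m, n i.succ) where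
  toFun x := Fin.cases (motive := fun i => n i → n 0 ⊕ (Σ i : Fin m, n i.succ))
    (fun y => Sum.inl y) (fun i y => Sum.inr ⟨i, y⟩) x.1 x.2
  invFun := Sum.elim (fun y => ⟨0, y⟩) (fun y => ⟨y.1.succ, y.2⟩)
  left_inv := by
    rintro ⟨i, y⟩
    induction i using Fin.cases with
    | zero => rfl
    | succ i => rfl
  right_inv := by
    rintro (y | ⟨i, y⟩) <;> rfl

theorem cl_blockDiagonal' : ∀ {m : ℕ} {n : Fin m → Type} [∀ i, Fintype (n i)]
    [∀ i, DecidableEq (n i)] (A : ∀ i, Matrix (n i) (n i) ℚ),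
    cl (blockDiagonal' A) = ∑ i, cl (A i)
  | 0, n, _, _, A => by
      rw [Fin.sum_univ_zero, ← cl_zero]
      refine cl_reindex _ _ (Equiv.equivOfIsEmpty _ _) ?_
      intro i
      exact i.elim
  | m + 1, n, _, _, A => by
      rw [Fin.sum_univ_succ, ← cl_blockDiagonal' (fun i => A i.succ), ← cl_fromBlocks]
      refine cl_reindex _ _ (sigmaFinSucc n).symm ?_
      rintro (i | ⟨i, i'⟩) (j | ⟨j, j'⟩)
      · simp [sigmaFinSucc]
      · simp only [fromBlocks_apply₁₂, Matrix.zero_apply, sigmaFinSucc, Equiv.coe_fn_symm_mk,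
          Sum.elim_inl, Sum.elim_inr]
        rw [blockDiagonal'_apply_ne]
        exact (Fin.succ_ne_zero j).symm
      · simp only [fromBlocks_apply₂₁, Matrix.zero_apply, sigmaFinSucc, Equiv.coe_fn_symm_mk,
          Sum.elim_inl, Sum.elim_inr]
        rw [blockDiagonal'_apply_ne]
        exact (Fin.succ_ne_zero i)
      · simp only [fromBlocks_apply₂₂, sigmaFinSucc, Equiv.coe_fn_symm_mk, Sum.elim_inr]
        by_cases h : i = j
        · subst h
          rw [blockDiagonal'_apply_eq, blockDiagonal'_apply_eq]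
        · rw [blockDiagonal'_apply_ne _ _ _ h, blockDiagonal'_apply_ne]
          exact fun h' => h (Fin.succ_injective _ h')

/-- the same over an arbitrary finite index type -/
theorem cl_blockDiagonal'_fintype {σ : Type} [Fintype σ] [DecidableEq σ] {n : σ → Type}
    [∀ i, Fintype (n i)] [∀ i, DecidableEq (n i)] (A : ∀ i, Matrix (n i) (n i) ℚ) :
    cl (blockDiagonal' A) = ∑ i, cl (A i) := by
  rw [← (Fintype.equivFin σ).symm.sum_comp, ← cl_blockDiagonal']
  refine cl_reindex _ _ (Equiv.sigmaCongrLeft (β := n) (Fintype.equivFin σ).symm) ?_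
  rintro ⟨i, i'⟩ ⟨j, j'⟩
  by_cases h : i = j
  · subst h
    simp [Equiv.sigmaCongrLeft, blockDiagonal'_apply_eq]
  · rw [blockDiagonal'_apply_ne _ _ _ h]
    simp only [Equiv.sigmaCongrLeft_apply]
    rw [blockDiagonal'_apply_ne]
    exact fun h' => h ((Fintype.equivFin σ).symm.injective h')

/-! ### invertible classes -/

/-- an element of the additive closure of a set of classes is a block sum. -/
theorem exists_sum_of_mem {T : Set Cls} {x : Cls} (hx : x ∈ AddSubmonoid.closure T) :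
    ∃ (m : ℕ) (f : Fin m → Cls), (∀ i, f i ∈ T) ∧ x = ∑ i, f i := by
  obtain ⟨l, hl, rfl⟩ := AddSubmonoid.exists_list_of_mem_closure hx
  exact ⟨l.length, fun i => l.get i, fun i => hl _ (List.get_mem _ _),
    by rw [← List.sum_ofFn, List.ofFn_get]⟩

end Crest.Agent.R267.P44a_148
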