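import Mathlib
import Crest.Agent.R267.P44a_148

/-!
# S0407, node P4.4 (helper148), part b: trace forms over Galois extensions of `ℚ`; the powers of
such a form have only finitely many types.
-/

set_option autoImplicit false

namespace Crest.Agent.R267.P44b_148

open Matrix Module Crest.Agent.R267.P4Defs_780 Crest.Agent.R267.P44a_148

section FB

variable {E : Type} [Field E] [Algebra ℚ E] [FiniteDimensional ℚ E]

/-- matrix of the form `Tr (rho * c x * y)` -/
noncomputable def FB (c : E ≃ₐ[ℚ] E) (rho : E) :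
    Matrix (Fin (finrank ℚ E)) (Fin (finrank ℚ E)) ℚ :=
  Matrix.of fun i j => Algebra.trace ℚ E (rho * c (finBasis ℚ E i) * finBasis ℚ E j)

lemma FB_apply (c : E ≃ₐ[ℚ] E) (rho : E) (i j : Fin (finrank ℚ E)) :
    FB c rho i j = Algebra.trace ℚ E (rho * c (finBasis ℚ E i) * finBasis ℚ E j) := rfl

lemma FB_sum (c : E ≃ₐ[ℚ] E) (rho x y : E) :
    ∑ k, ∑ l, (finBasis ℚ E).repr x k * FB c rho k l * (finBasis ℚ E).repr y l =
      Algebra.trace ℚ E (rho * c x * y) := by
  have hx : c x = ∑ k, (finBasis ℚ E).repr x k • c (finBasis ℚ E k) := by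
    conv_lhs => rw [← (finBasis ℚ E).sum_repr x, map_sum]
    exact Finset.sum_congr rfl fun k _ => by rw [map_smul]
  have hy : y = ∑ l, (finBasis ℚ E).repr y l • finBasis ℚ E l := ((finBasis ℚ E).sum_repr y).symm
  have hxy : rho * c x * y = ∑ k, ∑ l, ((finBasis ℚ E).repr x k * (finBasis ℚ E).repr y l) •
      (rho * c (finBasis ℚ E k) * finBasis ℚ E l) := by
    conv_lhs => rw [hx, hy]
    rw [Finset.mul_sum Finset.univ _ rho, Finset.sum_mul]
    refine Finset.sum_congr rfl fun k _ => ?_
    rw [Finset.mul_sum]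
    refine Finset.sum_congr rfl fun l _ => ?_
    rw [mul_smul_comm, mul_smul_comm, smul_mul_assoc, smul_smul, mul_comm]
  rw [hxy, map_sum]
  refine Finset.sum_congr rfl fun k _ => ?_
  rw [map_sum]
  refine Finset.sum_congr rfl fun l _ => ?_
  rw [map_smul, smul_eq_mul, FB_apply]
  ring

lemma FB_det (c : E ≃ₐ[ℚ] E) {rho : E} (h : rho ≠ 0) : IsUnit (FB c rho).det := by
  rw [isUnit_iff_ne_zero]
  intro h0
  obtain ⟨v, hv, hv0⟩ := Matrix.exists_mulVec_eq_zero_iff.2 h0
  set y : E := ∑ l, v l • finBasis ℚ E l with hy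
  have hrepr : ∀ l, (finBasis ℚ E).repr y l = v l := by
    intro l
    rw [hy, (finBasis ℚ E).repr_sum_self]
  have key : ∀ x : E, Algebra.trace ℚ E (rho * c x * y) = 0 := by
    intro x
    rw [← FB_sum]
    refine Finset.sum_eq_zero fun k _ => ?_
    have h1 := congrFun hv0 k
    rw [Matrix.mulVec, dotProduct] at h1
    calc ∑ l, (finBasis ℚ E).repr x k * FB c rho k l * (finBasis ℚ E).repr y l
        = (finBasis ℚ E).repr x k * ∑ l, FB c rho k l * v l := by
          rw [Finset.mul_sum]
          refine Finset.sum_congr rfl fun l _ => ?_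
          rw [hrepr]; ring
      _ = 0 := by rw [h1]; simp
  have hy0 : y = 0 := by
    have hnd := traceForm_nondegenerate ℚ E
    refine hnd.1 y fun z => ?_
    rw [Algebra.traceForm_apply]
    have h2 := key (c.symm (rho⁻¹ * z))
    rw [AlgEquiv.apply_symm_apply, mul_inv_cancel_left₀ h] at h2
    rw [mul_comm]; exact h2
  apply hv
  ext l
  rw [← hrepr l, hy0]; simp

end FB

/-- decomposition criterion -/
theorem cl_eq_sum_FB {σ : Type} [Fintype σ] [DecidableEq σ] (E : σ → Type) [∀ s, Field (E s)]
    [∀ s, Algebra ℚ (E s)] [∀ s, FiniteDimensional ℚ (E s)] (c : ∀ s, E s ≃ₐ[ℚ] E s)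
    (rho : ∀ s, E s) {ι : Type} [Fintype ι] [DecidableEq ι] (A : Matrix ι ι ℚ)
    (hA : IsUnit A.det) (v : ∀ s, ι → E s)
    (h : ∀ i j, A i j = ∑ s, Algebra.trace ℚ (E s) (rho s * c s (v s i) * v s j))
    (hcard : ∑ s, finrank ℚ (E s) ≤ Fintype.card ι) :
    cl A = ∑ s, cl (FB (c s) (rho s)) := by
  rw [← cl_blockDiagonal'_fintype]
  refine cl_eq_iff.2 (cong_of_isom
    (Matrix.of fun x i => (finBasis ℚ (E x.1)).repr (v x.1 i) x.2) ?_ hA ?_)
  · ext i j
    rw [h, Matrix.mul_apply, Fintype.sum_sigma]
    refine Finset.sum_congr rfl fun s _ => ?_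
    rw [← FB_sum, Finset.sum_comm]
    refine Finset.sum_congr rfl fun l _ => ?_
    rw [Matrix.mul_apply, Fintype.sum_sigma, Finset.sum_eq_single s]
    · rw [Finset.sum_mul]
      refine Finset.sum_congr rfl fun k _ => ?_
      rw [blockDiagonal'_apply_eq, Matrix.transpose_apply]
      rfl
    · intro t _ hts
      refine Finset.sum_eq_zero fun k _ => ?_
      rw [blockDiagonal'_apply_ne _ _ _ hts, mul_zero]
    · intro hs
      exact absurd (Finset.mem_univ s) hs
  · rw [Fintype.card_sigma]
    simpa using hcard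

section Galois

variable {E : Type} [Field E] [Algebra ℚ E] [FiniteDimensional ℚ E]

/-- multiplying by a norm does not change the class -/
theorem cl_FB_norm (c : E ≃ₐ[ℚ] E) (rho z : E) (hr : rho ≠ 0) (hz : z ≠ 0) :
    cl (FB c (rho * (c z * z))) = cl (FB c rho) := by
  have h := cl_eq_sum_FB (σ := Unit) (fun _ => E) (fun _ => c) (fun _ => rho)
    (FB c (rho * (c z * z))) (FB_det c (by
      refine mul_ne_zero hr (mul_ne_zero ?_ hz)
      simpa using hz)) (fun _ i => z * finBasis ℚ E i) (by
      intro i j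
      simp only [Finset.univ_unique, PUnit.default_eq_unit, Finset.sum_const, Finset.card_singleton,
        one_smul]
      rw [FB_apply, map_mul c]
      congr 1
      ring) (by simp)
  simpa using h

/-- `(E, rho) ⊗ (E, rho') = ⊕_σ (E, rho * σ rho')` -/
theorem cl_FB_mul [IsGalois ℚ E] (c : E ≃ₐ[ℚ] E) (hc : ∀ (s : E ≃ₐ[ℚ] E) (x : E),
    c (s x) = s (c x)) {rho rho' : E} (hr : rho ≠ 0) (hr' : rho' ≠ 0) :
    cl (FB c rho) * cl (FB c rho') = ∑ s : E ≃ₐ[ℚ] E, cl (FB c (rho * s rho')) := by
  classical
  rw [← cl_kronecker]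
  refine cl_eq_sum_FB (σ := (E ≃ₐ[ℚ] E)) (fun _ => E) (fun _ => c) (fun s => rho * s rho')
    (kroneckerMap (· * ·) (FB c rho) (FB c rho')) ?_
    (fun s i => finBasis ℚ E i.1 * s (finBasis ℚ E i.2)) ?_ ?_
  · have h1 := FB_det c hr
    have h2 := FB_det c hr'
    rw [Matrix.det_kronecker]
    exact (h1.pow _).mul (h2.pow _)
  · rintro ⟨i, j⟩ ⟨i', j'⟩
    rw [kroneckerMap_apply]
    simp only
    set a := rho * c (finBasis ℚ E i) * finBasis ℚ E i' with ha
    set b := rho' * c (finBasis ℚ E j) * finBasis ℚ E j' with hb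
    have e : ∀ s : E ≃ₐ[ℚ] E, rho * s rho' * c (finBasis ℚ E i * s (finBasis ℚ E j)) *
        (finBasis ℚ E i' * s (finBasis ℚ E j')) = a * s b := by
      intro s
      rw [map_mul, hc, ha, hb, map_mul, map_mul]
      ring
    have e2 : ∑ s : E ≃ₐ[ℚ] E, Algebra.trace ℚ E (rho * s rho' *
        c (finBasis ℚ E i * s (finBasis ℚ E j)) * (finBasis ℚ E i' * s (finBasis ℚ E j'))) =
        Algebra.trace ℚ E (a * ∑ s : E ≃ₐ[ℚ] E, s b) := by
      rw [Finset.mul_sum, map_sum]
      exact Finset.sum_congr rfl fun s _ => by rw [e]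
    rw [e2, ← trace_eq_sum_automorphisms, mul_comm a, ← Algebra.smul_def, map_smul, smul_eq_mul,
      mul_comm]
    rfl
  · rw [Finset.sum_const, Finset.card_univ, Fintype.card_prod, Fintype.card_fin, smul_eq_mul,
      ← Nat.card_eq_fintype_card, IsGalois.card_aut_eq_finrank]

end Galois

/-! ### bounded classes -/

/-- the powers of `x` lie in a finitely generated submonoid -/
def Bdd (x : Cls) : Prop :=
  ∃ S : Submodule ℕ Cls, S.FG ∧ (1 : Cls) ∈ S ∧ ∀ y ∈ S, x * y ∈ S

theorem bdd_joint {α : Type*} (s : Finset α) (x : α → Cls) (h : ∀ a ∈ s, Bdd (x a)) :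
    ∃ S : Submodule ℕ Cls, S.FG ∧ (1 : Cls) ∈ S ∧ ∀ a ∈ s, ∀ y ∈ S, x a * y ∈ S := by
  classical
  induction s using Finset.induction_on with
  | empty =>
      exact ⟨Submodule.span ℕ {1}, Submodule.fg_span (Set.finite_singleton _),
        Submodule.subset_span rfl, by simp⟩
  | insert a s ha ih =>
      obtain ⟨S, hS, h1, h2⟩ := ih fun b hb => h b (Finset.mem_insert_of_mem hb)
      obtain ⟨S', hS', h1', h2'⟩ := h a (Finset.mem_insert_self a s)
      refine ⟨S' * S, hS'.mul hS, ?_, ?_⟩
      · have := Submodule.mul_mem_mul h1' h1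
        rwa [one_mul] at this
      · intro b hb y hy
        rcases Finset.mem_insert.1 hb with rfl | hb
        · refine Submodule.mul_induction_on hy ?_ ?_
          · intro m hm n hn
            rw [← mul_assoc]
            exact Submodule.mul_mem_mul (h2' m hm) hn
          · intro m n hm hn
            rw [mul_add]
            exact Submodule.add_mem _ hm hn
        · refine Submodule.mul_induction_on hy ?_ ?_
          · intro m hm n hn
            rw [mul_left_comm]
            exact Submodule.mul_mem_mul hm (h2 b hb n hn)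
          · intro m n hm hn
            rw [mul_add]
            exact Submodule.add_mem _ hm hn

theorem bdd_sum {α : Type*} (s : Finset α) (x : α → Cls) (h : ∀ a ∈ s, Bdd (x a)) :
    Bdd (∑ a ∈ s, x a) := by
  obtain ⟨S, hS, h1, h2⟩ := bdd_joint s x h
  refine ⟨S, hS, h1, fun y hy => ?_⟩
  rw [Finset.sum_mul]
  exact Submodule.sum_mem _ fun a ha => h2 a ha y hy

section Galois

variable {E : Type} [Field E] [Algebra ℚ E] [FiniteDimensional ℚ E]

/-- powers of a trace form with `c rho = eps * rho`, `eps ^ M = 1`. -/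
theorem bdd_FB [IsGalois ℚ E] (c : E ≃ₐ[ℚ] E) (hc : ∀ (s : E ≃ₐ[ℚ] E) (x : E),
    c (s x) = s (c x)) {rho eps : E} (hr : rho ≠ 0) (he : c rho = eps * rho) {M : ℕ}
    (hM : 0 < M) (heM : eps ^ M = 1) : Bdd (cl (FB c rho)) := by
  classical
  let m : ((E ≃ₐ[ℚ] E) → ℕ) → E := fun n => ∏ s, (s rho) ^ n s
  have hs0 : ∀ s : E ≃ₐ[ℚ] E, s rho ≠ 0 := fun s => by simpa using hr
  have hm0 : ∀ n, m n ≠ 0 := fun n => Finset.prod_ne_zero_iff.2 fun s _ => pow_ne_zero _ (hs0 s)
  let T : Set Cls := insert 1 (Set.range fun n : (E ≃ₐ[ℚ] E) → Fin (2 * M) =>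
    cl (FB c (m fun s => n s)))
  have hTfin : T.Finite := (Set.finite_range _).insert _
  have hmem : ∀ n : (E ≃ₐ[ℚ] E) → ℕ, (∀ s, n s < 2 * M) →
      cl (FB c (m n)) ∈ Submodule.span ℕ T := by
    intro n hn
    apply Submodule.subset_span
    refine Set.mem_insert_of_mem _ ⟨fun s => ⟨n s, hn s⟩, rfl⟩
  have hone : m (Pi.single 1 1) = rho := by
    show ∏ s, (s rho) ^ (Pi.single (M := fun _ => ℕ) (1 : E ≃ₐ[ℚ] E) 1 s) = rho
    rw [Finset.prod_eq_single 1]
    · simp
    · intro s _ hs
      rw [Pi.single_eq_of_ne hs, pow_zero]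
    · intro h
      exact absurd (Finset.mem_univ _) h
  refine ⟨Submodule.span ℕ T, Submodule.fg_span hTfin,
    Submodule.subset_span (Set.mem_insert _ _), ?_⟩
  intro y hy
  induction hy using Submodule.span_induction with
  | zero => rw [mul_zero]; exact Submodule.zero_mem _
  | add a b _ _ ha hb => rw [mul_add]; exact Submodule.add_mem _ ha hb
  | smul k a _ ha => rw [mul_smul_comm]; exact Submodule.smul_mem _ _ ha
  | mem y hy =>
      rcases hy with rfl | ⟨n, rfl⟩
      · rw [mul_one]
        have := hmem (Pi.single 1 1) (by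
          intro s
          by_cases h : s = 1
          · subst h; rw [Pi.single_eq_same]; omega
          · rw [Pi.single_eq_of_ne h]; omega)
        rwa [hone] at this
      · simp only
        rw [mul_comm, cl_FB_mul c hc (hm0 _) hr]
        refine Submodule.sum_mem _ fun s _ => ?_
        by_cases h : (n s : ℕ) + 1 < 2 * M
        · have e : m (fun t => n t) * s rho = m (Function.update (fun t => (n t : ℕ)) s (n s + 1)) := by
            show (∏ t, (t rho) ^ (n t : ℕ)) * s rho =
              ∏ t, (t rho) ^ (Function.update (fun t => (n t : ℕ)) s (n s + 1) t)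
            rw [← Finset.mul_prod_erase _ _ (Finset.mem_univ s),
              ← Finset.mul_prod_erase Finset.univ (fun t => (t rho) ^ _) (Finset.mem_univ s)]
            rw [Function.update_self, pow_succ]
            have : ∏ t ∈ Finset.univ.erase s, (t rho) ^ (n t : ℕ) = ∏ t ∈ Finset.univ.erase s,
                (t rho) ^ (Function.update (fun t => (n t : ℕ)) s (n s + 1) t) := by
              refine Finset.prod_congr rfl fun t ht => ?_
              rw [Function.update_of_ne (Finset.ne_of_mem_erase ht)]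
            rw [this]; ring
          rw [e]
          apply hmem
          intro t
          by_cases ht : t = s
          · subst ht; rw [Function.update_self]; exact h
          · rw [Function.update_of_ne ht]; exact (n t).2
        · have hn : (n s : ℕ) + 1 = 2 * M := by have := (n s).2; omega
          have hcs : c ((s rho) ^ M) = (s rho) ^ M := by
            rw [map_pow, hc, he, map_mul, mul_pow, ← map_pow, heM, map_one, one_mul]
          have e : m (fun t => n t) * s rho =
              m (Function.update (fun t => (n t : ℕ)) s 0) * (c ((s rho) ^ M) * (s rho) ^ M) := by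
            show (∏ t, (t rho) ^ (n t : ℕ)) * s rho =
              (∏ t, (t rho) ^ (Function.update (fun t => (n t : ℕ)) s 0 t)) * _
            rw [← Finset.mul_prod_erase _ _ (Finset.mem_univ s),
              ← Finset.mul_prod_erase Finset.univ (fun t => (t rho) ^ _) (Finset.mem_univ s)]
            have h2 : (s rho) ^ M * (s rho) ^ M = (s rho) ^ (n s : ℕ) * s rho := by
              rw [← pow_add, ← pow_succ]; congr 1; omega
            rw [Function.update_self, pow_zero, one_mul, hcs, h2]
            have : ∏ t ∈ Finset.univ.erase s, (t rho) ^ (n t : ℕ) = ∏ t ∈ Finset.univ.erase s,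
                (t rho) ^ (Function.update (fun t => (n t : ℕ)) s 0 t) := by
              refine Finset.prod_congr rfl fun t ht => ?_
              rw [Function.update_of_ne (Finset.ne_of_mem_erase ht)]
            rw [this]; ring
          rw [e, cl_FB_norm c _ _ (hm0 _) (pow_ne_zero _ (hs0 s))]
          apply hmem
          intro t
          by_cases ht : t = s
          · subst ht; rw [Function.update_self]; omega
          · rw [Function.update_of_ne ht]; exact (n t).2

end Galois

end Crest.Agent.R267.P44b_148
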