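import Mathlib
import Crest.Agent.R267.P4Defs_780
import Crest.Agent.R267.P41_339
import Crest.Agent.R267.P44a_148
import Crest.Agent.R267.P44b_148

/-!
# S0407, node P4.4 (helper148), part c: rational decomposition of the chain matrices, theorem
`types`.
-/

set_option autoImplicit false

namespace Crest.Agent.R267.P44c_148

open Matrix Module Polynomial Crest.Agent.R267.P4Defs_780 Crest.Agent.R267.P44a_148
  Crest.Agent.R267.P44b_148 Crest.Agent.R267.P41_339

/-! ### complex conjugation on a cyclotomic field -/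

/-- `ℚ(ζ_d)`, with its unique `ℚ`-algebra structure -/
def Cy (d : ℕ) : Type := CyclotomicField d ℚ

noncomputable instance (d : ℕ) : Field (Cy d) := inferInstanceAs (Field (CyclotomicField d ℚ))

instance (d : ℕ) : CharZero (Cy d) := inferInstanceAs (CharZero (CyclotomicField d ℚ))

instance (d : ℕ) [NeZero d] : IsCyclotomicExtension {d} ℚ (Cy d) := by
  have h : @IsCyclotomicExtension {d} ℚ (CyclotomicField d ℚ) _ _
    (CyclotomicField.algebra d ℚ) := inferInstance
  have e : CyclotomicField.algebra d ℚ = (inferInstance : Algebra ℚ (Cy d)) :=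
    Subsingleton.elim _ _
  rw [e] at h
  exact h

section Conj

variable (d : ℕ) [NeZero d]

/-- the chosen primitive root -/
noncomputable def zt : Cy d := IsCyclotomicExtension.zeta d ℚ (Cy d)

lemma zt_spec : IsPrimitiveRoot (zt d) d := IsCyclotomicExtension.zeta_spec d ℚ (Cy d)

lemma zt_ne : zt d ≠ 0 := (zt_spec d).ne_zero (NeZero.ne d)

instance : IsGalois ℚ (Cy d) := IsCyclotomicExtension.isGalois {d} ℚ _

instance : FiniteDimensional ℚ (Cy d) :=
  IsCyclotomicExtension.finiteDimensional {d} ℚ _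

lemma irr : Irreducible (cyclotomic d ℚ) := cyclotomic.irreducible_rat (NeZero.pos d)

/-- complex conjugation -/
noncomputable def cj : Cy d ≃ₐ[ℚ] Cy d :=
  IsCyclotomicExtension.fromZetaAut (zt_spec d).inv (irr d)

lemma cj_zt : cj d (zt d) = (zt d)⁻¹ := IsCyclotomicExtension.fromZetaAut_spec _ _

lemma cj_comm (s : Cy d ≃ₐ[ℚ] Cy d) (x : Cy d) :
    cj d (s x) = s (cj d x) := by
  have h : ((cj d : Cy d →ₐ[ℚ] Cy d).comp
      (s : Cy d →ₐ[ℚ] Cy d)) =
      ((s : Cy d →ₐ[ℚ] Cy d).comp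
      (cj d : Cy d →ₐ[ℚ] Cy d)) := by
    refine ((zt_spec d).powerBasis ℚ).algHom_ext ?_
    rw [IsPrimitiveRoot.powerBasis_gen]
    show cj d (s (zt d)) = s (cj d (zt d))
    have h1 : (s (zt d)) ^ d = 1 := by rw [← map_pow, (zt_spec d).pow_eq_one, map_one]
    obtain ⟨k, _, hk⟩ := (zt_spec d).eq_pow_of_pow_eq_one h1
    rw [cj_zt, map_inv₀, ← hk, map_pow, cj_zt, inv_pow]
  exact DFunLike.congr_fun h x

lemma trace_zt (G : ℂ → ℂ) (x : Cy d)
    (h : ∀ φ : Cy d →ₐ[ℚ] ℂ, φ x = G (φ (zt d))) :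
    ((Algebra.trace ℚ (Cy d) x : ℚ) : ℂ) = ∑ z ∈ primitiveRoots d ℂ, G z := by
  have h1 := trace_eq_sum_embeddings (K := ℚ) ℂ (x := x)
  rw [show ((Algebra.trace ℚ (Cy d) x : ℚ) : ℂ) =
    algebraMap ℚ ℂ (Algebra.trace ℚ (Cy d) x) from rfl, h1]
  rw [← Finset.sum_coe_sort (primitiveRoots d ℂ)]
  refine Fintype.sum_equiv ((zt_spec d).embeddingsEquivPrimitiveRoots ℂ (irr d)) _ _ fun φ => ?_
  rw [IsPrimitiveRoot.embeddingsEquivPrimitiveRoots_apply_coe]
  exact h φ

end Conj

/-! ### chains -/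

section Chain

variable {a : ℕ} {l : List ℕ}

/-- the multiplier -/
noncomputable def rh (a : ℕ) (l : List ℕ) (d : ℕ) [NeZero d] : Cy d :=
  aeval (zt d)⁻¹ (symb l) / ((a * l.prod : ℕ) : Cy d)

lemma cj_rh (h : Good (a :: l)) (d : ℕ) [NeZero d] :
    cj d (rh a l d) = ((-1) ^ (l.length + 1) * (zt d) ^ mu l) * rh a l d := by
  unfold rh
  have h1 : cj d (aeval (zt d)⁻¹ (symb l)) = aeval (zt d) (symb l) := by
    have h2 := Polynomial.aeval_algHom_apply
      ((cj d : Cy d →ₐ[ℚ] Cy d).restrictScalars ℤ)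
      (zt d)⁻¹ (symb l)
    have h3 : (cj d : Cy d →ₐ[ℚ] Cy d).restrictScalars ℤ
      ((zt d)⁻¹) = zt d := by
      show cj d ((zt d)⁻¹) = zt d
      rw [map_inv₀, cj_zt, inv_inv]
    rw [h3] at h2
    exact h2.symm
  rw [map_div₀, map_natCast, h1]
  have h4 := symb_inv (K := Cy d) h.tail (zt_ne d)
  have h5 : ((-1 : Cy d) ^ (l.length + 1)) * (-1) ^ (l.length + 1) = 1 := by
    rw [← mul_pow]; simp
  rw [mul_div_assoc']
  congr 1
  generalize ((-1 : Cy d) ^ (l.length + 1)) = e at h4 h5 ⊢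
  linear_combination (-e) * h4 - (aeval (zt d) (symb l)) * h5

lemma eps_pow (l : List ℕ) (d : ℕ) [NeZero d] :
    ((-1) ^ (l.length + 1) * (zt d) ^ mu l : Cy d) ^ (2 * d) = 1 := by
  have h1 : ((-1 : Cy d) ^ (l.length + 1)) ^ (2 * d) = 1 := by
    rw [← pow_mul, mul_comm, mul_assoc, pow_mul]; simp
  have h2 : ((zt d) ^ mu l) ^ (2 * d) = 1 := by
    rw [← pow_mul, mul_comm (mu l), mul_comm 2, mul_assoc, pow_mul, (zt_spec d).pow_eq_one, one_pow]
  rw [mul_pow, h1, h2, one_mul]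

/-- chain matrix as a sum of traces -/
lemma chain_trace (h : Good (a :: l)) (i j : Fin (mu (a :: l))) :
    (chainMat (a :: l) i j : ℚ) = ∑ d ∈ (a * l.prod).divisors.attach,
      haveI : NeZero d.1 := ⟨(Nat.pos_of_mem_divisors d.2).ne'⟩
      Algebra.trace ℚ (Cy d.1)
        (rh a l d.1 * cj d.1 ((zt d.1) ^ (i : ℕ)) * (zt d.1) ^ (j : ℕ)) := by
  classical
  have hr : 0 < a * l.prod := Nat.mul_pos h.head h.tail.prod_pos
  have hrC : ((a * l.prod : ℕ) : ℂ) ≠ 0 := by exact_mod_cast hr.ne'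
  have hζ := prim h
  set ζ := Complex.exp (2 * Real.pi * Complex.I / ((a * l.prod : ℕ) : ℂ)) with hζdef
  let G : ℂ → ℂ := fun z => aeval z⁻¹ (symb l) / ((a * l.prod : ℕ) : ℂ) * (z⁻¹) ^ (i : ℕ) *
    z ^ (j : ℕ)
  have h1 : ((chainMat (a :: l) i j : ℤ) : ℂ) = ∑ z ∈ nthRootsFinset (a * l.prod) (1 : ℂ), G z := by
    have e0 : nthRootsFinset (a * l.prod) (1 : ℂ) =
        (Finset.range (a * l.prod)).image (fun k => ζ ^ k) := by
      symm
      apply Finset.eq_of_subset_of_card_le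
      · intro z hz
        obtain ⟨k, _, rfl⟩ := Finset.mem_image.1 hz
        rw [mem_nthRootsFinset hr, ← pow_mul, mul_comm, pow_mul, hζ.pow_eq_one, one_pow]
      · rw [hζ.card_nthRootsFinset, Finset.card_image_of_injOn, Finset.card_range]
        intro k hk k' hk' hkk
        exact hζ.pow_inj (Finset.mem_range.1 hk) (Finset.mem_range.1 hk') hkk
    rw [e0, Finset.sum_image]
    · apply mul_left_cancel₀ hrC
      rw [chainMat_dft h hζ, Finset.mul_sum]
      refine Finset.sum_congr rfl fun k _ => ?_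
      simp only [G]
      rw [inv_pow]
      field_simp
    · intro k hk k' hk' hkk
      exact hζ.pow_inj (Finset.mem_range.1 hk) (Finset.mem_range.1 hk') hkk
  have h2 : ((chainMat (a :: l) i j : ℤ) : ℂ) = ∑ d ∈ (a * l.prod).divisors,
      ∑ z ∈ primitiveRoots d ℂ, G z := by
    rw [h1, IsPrimitiveRoot.nthRoots_one_eq_biUnion_primitiveRoots, Finset.sum_biUnion]
    intro x _ y _ hxy
    exact IsPrimitiveRoot.disjoint hxy
  have h3 : ((chainMat (a :: l) i j : ℚ) : ℂ) = (((∑ d ∈ (a * l.prod).divisors.attach,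
      haveI : NeZero d.1 := ⟨(Nat.pos_of_mem_divisors d.2).ne'⟩
      Algebra.trace ℚ (Cy d.1)
        (rh a l d.1 * cj d.1 ((zt d.1) ^ (i : ℕ)) * (zt d.1) ^ (j : ℕ))) : ℚ) : ℂ) := by
    rw [Rat.cast_intCast, h2, ← Finset.sum_attach, Rat.cast_sum]
    refine Finset.sum_congr rfl fun d _ => ?_
    have : NeZero d.1 := ⟨(Nat.pos_of_mem_divisors d.2).ne'⟩
    symm
    apply trace_zt
    intro φ
    simp only [G, rh]
    rw [map_mul, map_mul, map_div₀, map_natCast, map_pow, map_pow, map_pow, cj_zt, map_inv₀]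
    congr 3
    have := Polynomial.aeval_algHom_apply (φ.restrictScalars ℤ) (zt d.1)⁻¹ (symb l)
    rw [AlgHom.restrictScalars_apply, AlgHom.restrictScalars_apply, map_inv₀] at this
    exact this.symm
  exact_mod_cast h3

/-- the divisors which occur in a chain -/
noncomputable def Dv (a : ℕ) (l : List ℕ) : Finset ℕ := by
  classical
  exact (a * l.prod).divisors.filter fun d => ∃ h : 0 < d,
    haveI : NeZero d := ⟨h.ne'⟩
    rh a l d ≠ 0

instance instNZ (d : {d // d ∈ Dv a l}) : NeZero d.1 := by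
  classical
  have h := d.2
  unfold Dv at h
  obtain ⟨h1, _⟩ := (Finset.mem_filter.1 h).2
  exact ⟨h1.ne'⟩

lemma Dv_dvd (d : {d // d ∈ Dv a l}) : d.1 ∣ a * l.prod := by
  classical
  have h := d.2
  unfold Dv at h
  exact Nat.dvd_of_mem_divisors (Finset.mem_filter.1 h).1

lemma Dv_ne (d : {d // d ∈ Dv a l}) : rh a l d.1 ≠ 0 := by
  classical
  have h := d.2
  unfold Dv at h
  obtain ⟨h1, h2⟩ := (Finset.mem_filter.1 h).2
  exact h2

lemma chain_trace' (h : Good (a :: l)) (i j : Fin (mu (a :: l))) :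
    (chainMat (a :: l) i j : ℚ) = ∑ d : {d // d ∈ Dv a l},
      Algebra.trace ℚ (Cy d.1)
        (rh a l d.1 * cj d.1 ((zt d.1) ^ (i : ℕ)) * (zt d.1) ^ (j : ℕ)) := by
  classical
  rw [chain_trace h]
  let f : ℕ → ℚ := fun d => if hd : 0 < d then
    haveI : NeZero d := ⟨hd.ne'⟩
    Algebra.trace ℚ (Cy d) (rh a l d * cj d ((zt d) ^ (i : ℕ)) * (zt d) ^ (j : ℕ)) else 0
  have e1 : ∀ d ∈ (a * l.prod).divisors.attach,
      (haveI : NeZero d.1 := ⟨(Nat.pos_of_mem_divisors d.2).ne'⟩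
      Algebra.trace ℚ (Cy d.1)
        (rh a l d.1 * cj d.1 ((zt d.1) ^ (i : ℕ)) * (zt d.1) ^ (j : ℕ))) = f d.1 := by
    intro d _
    simp only [f]
    rw [dif_pos (Nat.pos_of_mem_divisors d.2)]
  rw [Finset.sum_congr rfl e1, Finset.sum_attach _ f]
  have e2 : ∀ d : {d // d ∈ Dv a l}, Algebra.trace ℚ (Cy d.1)
        (rh a l d.1 * cj d.1 ((zt d.1) ^ (i : ℕ)) * (zt d.1) ^ (j : ℕ)) = f d.1 := by
    intro d
    simp only [f]
    rw [dif_pos (NeZero.pos d.1)]
  rw [Finset.sum_congr rfl fun d _ => e2 d, Finset.sum_coe_sort (Dv a l) f]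
  symm
  refine Finset.sum_subset ?_ ?_
  · intro d hd
    unfold Dv at hd
    exact (Finset.mem_filter.1 hd).1
  · intro d hd hd'
    have h0 := Nat.pos_of_mem_divisors hd
    simp only [f]
    rw [dif_pos h0]
    have h1 : @rh a l d ⟨h0.ne'⟩ = 0 := by
      by_contra h2
      apply hd'
      unfold Dv
      exact Finset.mem_filter.2 ⟨hd, h0, h2⟩
    rw [h1, zero_mul, zero_mul, map_zero]

lemma finrank_Cy (d : ℕ) [NeZero d] : finrank ℚ (Cy d) = d.totient :=
  IsCyclotomicExtension.finrank (Cy d) (irr d)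

lemma card_Dv (h : Good (a :: l)) : ∑ d : {d // d ∈ Dv a l}, finrank ℚ (Cy d.1) ≤
    mu (a :: l) := by
  classical
  have hr : 0 < a * l.prod := Nat.mul_pos h.head h.tail.prod_pos
  have h1 : ∑ d : {d // d ∈ Dv a l}, finrank ℚ (Cy d.1) = ∑ d ∈ Dv a l, d.totient := by
    rw [← Finset.sum_coe_sort (Dv a l) Nat.totient]
    refine Finset.sum_congr rfl ?_
    intro d _
    exact finrank_Cy d.1
  have hdvd : ∏ d ∈ Dv a l, cyclotomic d ℚ ∣ (phi (a :: l)).map (Int.castRingHom ℚ) := by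
    apply Finset.prod_dvd_of_coprime
    · intro d _ d' _ hdd
      exact cyclotomic.isCoprime_rat hdd
    · intro d hd
      have hne := Dv_ne ⟨d, hd⟩
      have hdv := Dv_dvd ⟨d, hd⟩
      have : NeZero d := instNZ ⟨d, hd⟩
      rw [cyclotomic_eq_minpoly_rat (zt_spec d) (NeZero.pos d)]
      apply minpoly.dvd
      have h2 : aeval (zt d)⁻¹ (phi l) ≠ 0 := by
        intro h3
        apply hne
        show aeval (zt d)⁻¹ (symb l) / ((a * l.prod : ℕ) : Cy d) = 0
        rw [symb_aeval, h3, mul_zero, zero_div]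
      have h3 : ((zt d)⁻¹) ^ (a * l.prod) = 1 := by
        obtain ⟨k, hk⟩ := hdv
        rw [hk, pow_mul, inv_pow, (zt_spec d).pow_eq_one, inv_one, one_pow]
      have h4 := phi_zero_of_tail_ne h h3 h2
      have h5 := phi_inv_zero h (zt_ne d) h4
      have h6 := aeval_map_algebraMap ℚ (zt d) (phi (a :: l))
      exact h6.trans h5
  have h2 := natDegree_le_of_dvd hdvd (by
    rw [Polynomial.map_ne_zero_iff (RingHom.injective_int _)]
    exact (basic h).monic.ne_zero)
  rw [natDegree_map_eq_of_injective (RingHom.injective_int _), (basic h).natDegree,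
    natDegree_prod_of_monic _ _ fun d _ => cyclotomic.monic d ℚ] at h2
  rw [h1]
  refine le_trans (le_of_eq ?_) h2
  exact Finset.sum_congr rfl fun d _ => (natDegree_cyclotomic d ℚ).symm

/-- the chain matrix over `ℚ` -/
theorem cl_chain (h : Good (a :: l)) :
    cl ((chainMat (a :: l)).map (Int.cast : ℤ → ℚ)) =
      ∑ d : {d // d ∈ Dv a l}, cl (FB (cj d.1) (rh a l d.1)) := by
  classical
  refine cl_eq_sum_FB (fun d : {d // d ∈ Dv a l} => Cy d.1) (fun d => cj d.1)
    (fun d => rh a l d.1) _ ?_ (fun d i => (zt d.1) ^ (i : ℕ)) ?_ ?_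
  · have h1 := chain_det h
    have h2 : ((chainMat (a :: l)).map (Int.cast : ℤ → ℚ)).det = 1 := by
      have := (Int.castRingHom ℚ).map_det (chainMat (a :: l))
      rw [h1, map_one] at this
      exact this.symm
    rw [h2]; exact isUnit_one
  · intro i j
    rw [Matrix.map_apply, chain_trace' h]
  · rw [Fintype.card_fin]
    exact card_Dv h

theorem bdd_chain (h : Good (a :: l)) :
    Bdd (cl ((chainMat (a :: l)).map (Int.cast : ℤ → ℚ))) := by
  rw [cl_chain h]
  apply bdd_sum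
  intro d _
  exact bdd_FB (cj d.1) (cj_comm d.1) (Dv_ne d) (cj_rh h d.1) (M := 2 * d.1)
    (by have := NeZero.pos d.1; omega) (eps_pow l d.1)

end Chain

/-! ### systems -/

lemma cl_sysMat_cons (c : List ℕ) (S : List (List ℕ)) :
    cl ((sysMat (c :: S)).map (Int.cast : ℤ → ℚ)) =
      cl ((chainMat c).map (Int.cast : ℤ → ℚ)) * cl ((sysMat S).map (Int.cast : ℤ → ℚ)) := by
  rw [← cl_kronecker]
  refine cl_reindex (κ := Fin (mu c) × Idx S) _ _ (Equiv.refl (Fin (mu c) × Idx S)) ?_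
  rintro ⟨i, i'⟩ ⟨j, j'⟩
  show ((chainMat c i j : ℤ) : ℚ) * ((sysMat S i' j' : ℤ) : ℚ) =
    ((chainMat c i j * sysMat S i' j' : ℤ) : ℚ)
  rw [Int.cast_mul]

lemma cl_sysMat_nil : cl ((sysMat []).map (Int.cast : ℤ → ℚ)) = 1 := by
  rw [← cl_one]
  refine cl_reindex (κ := Unit) _ _ (Equiv.refl Unit) ?_
  intro i j
  simp [sysMat]

/-- finitely many types for all systems with chains in a finite set -/
theorem types_aux (C : Finset (List ℕ)) (hC : ∀ c ∈ C, c ≠ [] ∧ Good c) :
    ∃ T : Finset Cls, ∀ S : List (List ℕ), (∀ c ∈ S, c ∈ C) →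
      cl ((sysMat S).map (Int.cast : ℤ → ℚ)) ∈ AddSubmonoid.closure (T : Set Cls) := by
  obtain ⟨S, hS, h1, h2⟩ := bdd_joint C (fun c => cl ((chainMat c).map (Int.cast : ℤ → ℚ))) (by
    intro c hc
    obtain ⟨h3, h4⟩ := hC c hc
    cases c with
    | nil => exact absurd rfl h3
    | cons a l => exact bdd_chain h4)
  obtain ⟨T, hT⟩ := hS
  refine ⟨T, fun L hL => ?_⟩
  rw [← Submodule.span_nat_eq_addSubmonoidClosure, Submodule.mem_toAddSubmonoid, hT]
  induction L with
  | nil => rw [cl_sysMat_nil]; exact h1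
  | cons c L ih =>
      rw [cl_sysMat_cons]
      exact h2 c (hL c List.mem_cons_self) _ (ih fun d hd => hL d (List.mem_cons_of_mem _ hd))

lemma sysMat_det : ∀ {S : List (List ℕ)}, (∀ c ∈ S, c ≠ [] ∧ Good c) →
    IsUnit ((sysMat S).map (Int.cast : ℤ → ℚ)).det
  | [], _ => by
      have : ((sysMat []).map (Int.cast : ℤ → ℚ)) = (1 : Matrix (Idx []) (Idx []) ℚ) :=
        Matrix.map_one (Int.cast : ℤ → ℚ) Int.cast_zero Int.cast_one
      rw [this, Matrix.det_one]; exact isUnit_one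
  | c :: S, h => by
      obtain ⟨h3, h4⟩ := h c List.mem_cons_self
      have ih := sysMat_det (S := S) fun d hd => h d (List.mem_cons_of_mem _ hd)
      have h5 : IsUnit ((chainMat c).map (Int.cast : ℤ → ℚ)).det := by
        cases c with
        | nil => exact absurd rfl h3
        | cons a l =>
            have h1 := chain_det h4
            have := (Int.castRingHom ℚ).map_det (chainMat (a :: l))
            rw [h1, map_one] at this
            have h2 : ((chainMat (a :: l)).map (Int.cast : ℤ → ℚ)).det = 1 := this.symm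
            rw [h2]; exact isUnit_one
      have e : (sysMat (c :: S)).map (Int.cast : ℤ → ℚ) =
          (kroneckerMap (· * ·) ((chainMat c).map (Int.cast : ℤ → ℚ))
            ((sysMat S).map (Int.cast : ℤ → ℚ)) : Matrix (Fin (mu c) × Idx S)
              (Fin (mu c) × Idx S) ℚ) := by
        ext ⟨i, i'⟩ ⟨j, j'⟩
        show ((chainMat c i j * sysMat S i' j' : ℤ) : ℚ) =
          ((chainMat c i j : ℤ) : ℚ) * ((sysMat S i' j' : ℤ) : ℚ)
        rw [Int.cast_mul]
      have h6 := Matrix.det_kronecker ((chainMat c).map (Int.cast : ℤ → ℚ))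
        ((sysMat S).map (Int.cast : ℤ → ℚ))
      have h7 : ((sysMat (c :: S)).map (Int.cast : ℤ → ℚ)).det = _ :=
        (congrArg Matrix.det e).trans h6
      rw [h7]
      exact (h5.pow _).mul (ih.pow _)

lemma cong_det {ι κ : Type} [Fintype ι] [Fintype κ] [DecidableEq ι] [DecidableEq κ]
    {A : Matrix ι ι ℚ} {B : Matrix κ κ ℚ} (h : Cong ℚ A B) (hA : IsUnit A.det) :
    ∃ N : Matrix κ κ ℚ, N * B = 1 := by
  obtain ⟨P, Q, h1, h2, h3⟩ := h
  refine ⟨Q * A⁻¹ * Qᵀ, ?_⟩
  rw [← h3]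
  have h4 : Qᵀ * Pᵀ = 1 := by rw [← Matrix.transpose_mul, h1, Matrix.transpose_one]
  calc Q * A⁻¹ * Qᵀ * (Pᵀ * A * P) = Q * (A⁻¹ * ((Qᵀ * Pᵀ) * A)) * P := by
        simp only [Matrix.mul_assoc]
    _ = 1 := by rw [h4, Matrix.one_mul, Matrix.nonsing_inv_mul _ hA, Matrix.mul_one, h2]

lemma block_unit {m : ℕ} {n : Fin m → Type} [∀ i, Fintype (n i)] [∀ i, DecidableEq (n i)]
    (M : ∀ i, Matrix (n i) (n i) ℚ) (N : Matrix (Σ i, n i) (Σ i, n i) ℚ)
    (h : N * blockDiagonal' M = 1) (i : Fin m) : IsUnit (M i).det := by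
  have h1 : (Matrix.of fun x y : n i => N ⟨i, x⟩ ⟨i, y⟩) * M i = 1 := by
    ext x y
    have h2 := congrFun (congrFun h ⟨i, x⟩) ⟨i, y⟩
    rw [Matrix.mul_apply, Fintype.sum_sigma, Finset.sum_eq_single i] at h2
    · rw [Matrix.mul_apply]
      have e : ∀ z : n i, (Matrix.of fun x y : n i => N ⟨i, x⟩ ⟨i, y⟩) x z * M i z y =
          N ⟨i, x⟩ ⟨i, z⟩ * blockDiagonal' M ⟨i, z⟩ ⟨i, y⟩ := by
        intro z
        rw [blockDiagonal'_apply_eq]; rfl
      rw [Finset.sum_congr rfl fun z _ => e z, h2, Matrix.one_apply, Matrix.one_apply]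
      simp
    · intro j _ hj
      refine Finset.sum_eq_zero fun z _ => ?_
      rw [blockDiagonal'_apply_ne _ _ _ hj, mul_zero]
    · intro hi
      exact absurd (Finset.mem_univ i) hi
  have h3 := congrArg Matrix.det h1
  rw [Matrix.det_mul, Matrix.det_one] at h3
  exact IsUnit.of_mul_eq_one_right _ h3

/-- finitely many types, matrix form -/
theorem types_general (C : Finset (List ℕ)) (hC : ∀ c ∈ C, c ≠ [] ∧ Good c) :
    ∃ (t : ℕ) (n : Fin t → ℕ) (tau : ∀ k, Matrix (Fin (n k)) (Fin (n k)) ℚ),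
      (∀ k, IsUnit (tau k).det) ∧ ∀ S : List (List ℕ), (∀ c ∈ S, c ∈ C) →
        ∃ (m : ℕ) (f : Fin m → Fin t), Cong ℚ ((sysMat S).map (Int.cast : ℤ → ℚ))
          (blockDiagonal' fun i => tau (f i)) := by
  classical
  obtain ⟨T, hT⟩ := types_aux C hC
  choose n A hA using exists_cl
  let T' : Finset Cls := T.filter fun x => IsUnit (A x).det
  refine ⟨T'.card, fun k => n (T'.equivFin.symm k).1, fun k => A (T'.equivFin.symm k).1, ?_, ?_⟩
  · intro k
    exact (Finset.mem_filter.1 (T'.equivFin.symm k).2).2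
  · intro S hS
    obtain ⟨m, f, hf, hsum⟩ := exists_sum_of_mem (hT S hS)
    have h1 : cl ((sysMat S).map (Int.cast : ℤ → ℚ)) = cl (blockDiagonal' fun i => A (f i)) := by
      rw [cl_blockDiagonal', hsum]
      exact Finset.sum_congr rfl fun i _ => (hA (f i)).symm
    have h2 := cl_eq_iff.1 h1
    obtain ⟨N, hN⟩ := cong_det h2 (sysMat_det fun c hc => hC c (hS c hc))
    have h3 := block_unit _ N hN
    have hf' : ∀ i, f i ∈ T' := fun i => Finset.mem_filter.2 ⟨hf i, h3 i⟩
    refine ⟨m, fun i => T'.equivFin ⟨f i, hf' i⟩, ?_⟩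
    have e : ∀ i, (T'.equivFin.symm (T'.equivFin ⟨f i, hf' i⟩)).1 = f i := by
      intro i; rw [Equiv.symm_apply_apply]
    refine cl_eq_iff.1 ?_
    rw [h1, cl_blockDiagonal', cl_blockDiagonal']
    refine Finset.sum_congr rfl fun i _ => ?_
    rw [hA, hA, e]

/-! ### the family `F` -/

lemma good_chainOf (b : ℕ) : ∀ a : ℕ, a ≤ b → Good (chainOf a b) := by
  intro a
  induction a using Nat.strong_induction_on with
  | _ a ih =>
    intro hab
    rw [chainOf]
    split_ifs with h0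
    · intro x hx; simp at hx
    · intro x hx
      rcases List.mem_cons.1 hx with rfl | hx
      · exact (Nat.one_le_div_iff (Nat.pos_of_ne_zero h0)).2 hab
      · have h1 : b % a < a := Nat.mod_lt _ (Nat.pos_of_ne_zero h0)
        exact ih (b % a) h1 (by omega) x hx

lemma mem_rep {n : ℕ} {S : List (List ℕ)} {c : List ℕ} (h : c ∈ rep n S) : c ∈ S := by
  unfold rep at h
  obtain ⟨s, hs, hc⟩ := List.mem_flatten.1 h
  rw [List.eq_of_mem_replicate hs] at hc
  exact hc

/-- TYPES -/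
theorem types (L : List (ℕ × ℕ × ℤ)) (u : ℕ) (q : List ℕ) (hL : Cert L u) (hq : Aux u q) :
    ∃ (t : ℕ) (n : Fin t → ℕ) (tau : ∀ k, Matrix (Fin (n k)) (Fin (n k)) ℚ),
      (∀ k, IsUnit (tau k).det) ∧ ∀ s j : ℕ,
        ∃ (m : ℕ) (f : Fin m → Fin t), Cong ℚ ((sysMat (F L u q s j)).map (Int.cast : ℤ → ℚ))
          (blockDiagonal' fun i => tau (f i)) := by
  classical
  let C : Finset (List ℕ) := ([3] :: [u] :: (ZP L ++ ZM L ++ q.map fun x => [x])).toFinset
  have hmem : ∀ c, c ∈ C ↔ c = [3] ∨ c = [u] ∨ c ∈ ZP L ∨ c ∈ ZM L ∨ c ∈ q.map fun x => [x] := by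
    intro c
    simp [C]
  have hch : ∀ x ∈ L, Good (chainOf x.1 x.2.1) ∧ Good (chainOf (x.2.1 % x.1) x.2.1) := by
    intro x hx
    obtain ⟨h1, h2, _, _⟩ := hL.range x hx
    have h3 : x.2.1 % x.1 < x.1 := Nat.mod_lt _ h1
    exact ⟨good_chainOf _ _ (by omega), good_chainOf _ _ (by omega)⟩
  have hC : ∀ c ∈ C, c ≠ [] ∧ Good c := by
    intro c hc
    rcases (hmem c).1 hc with rfl | rfl | hc | hc | hc
    · refine ⟨by simp, fun x hx => ?_⟩
      rw [List.mem_singleton] at hx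
      omega
    · refine ⟨by simp, fun x hx => ?_⟩
      rw [List.mem_singleton] at hx
      have := hL.big
      omega
    · unfold ZP at hc
      rw [List.mem_filter] at hc
      obtain ⟨h1, h2⟩ := hc
      refine ⟨by simpa using h2, ?_⟩
      obtain ⟨x, hx, hx'⟩ := List.mem_flatMap.1 h1
      unfold blockP at hx'
      rcases List.mem_append.1 hx' with h | h
      · rw [List.eq_of_mem_replicate h]; exact (hch x hx).1
      · rw [List.eq_of_mem_replicate h]; exact (hch x hx).2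
    · unfold ZM at hc
      rw [List.mem_filter] at hc
      obtain ⟨h1, h2⟩ := hc
      refine ⟨by simpa using h2, ?_⟩
      obtain ⟨x, hx, hx'⟩ := List.mem_flatMap.1 h1
      unfold blockM at hx'
      rcases List.mem_append.1 hx' with h | h
      · rw [List.eq_of_mem_replicate h]; exact (hch x hx).2
      · rw [List.eq_of_mem_replicate h]; exact (hch x hx).1
    · obtain ⟨x, hx, rfl⟩ := List.mem_map.1 hc
      refine ⟨by simp, fun y hy => ?_⟩
      rw [List.mem_singleton] at hy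
      have := (hq.big x hx).1
      omega
  obtain ⟨t, n, tau, h1, h2⟩ := types_general C hC
  refine ⟨t, n, tau, h1, fun s j => h2 _ ?_⟩
  intro c hc
  rw [hmem]
  unfold F at hc
  simp only [List.mem_append] at hc
  rcases hc with (((hc | hc) | hc) | hc) | hc
  · left; simpa using mem_rep hc
  · right; left; simpa using mem_rep hc
  · right; right; left; exact mem_rep hc
  · right; right; right; left; exact mem_rep hc
  · right; right; right; right; exact hc

end Crest.Agent.R267.P44c_148
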