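import Mathlib
import Crest.Agent.R267.P4Defs_780
import Crest.Agent.R267.P41_339

/-!
# S0407, node P4.1, part 2 (helper339): trace form of the chain matrix over `ℂ`, argument of the
multipliers `rho`.
-/

set_option autoImplicit false

namespace Crest.Agent.R267.P41_339

open Polynomial Matrix Crest.Agent.R267.P4Defs_780 Complex

/-- the argument function `alpha` of a chain at `x = κ / r`. -/
noncomputable def alpha : List ℕ → ℝ → ℝ
  | [], _ => 0
  | _ :: l, x => (l.length : ℝ) - Int.fract (x * l.prod) - alpha l x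

/-- `e(x) = exp (2 π i x)`. -/
noncomputable def e (x : ℝ) : ℂ := exp ((2 * Real.pi * x : ℝ) * I)

lemma e_add (x y : ℝ) : e (x + y) = e x * e y := by
  unfold e; rw [← exp_add]; congr 1; push_cast; ring

lemma e_ne_zero (x : ℝ) : e x ≠ 0 := exp_ne_zero _

lemma e_neg (x : ℝ) : e (-x) = (e x)⁻¹ := by
  unfold e; rw [← exp_neg]; congr 1; push_cast; ring

lemma e_int (n : ℤ) : e n = 1 := by
  unfold e
  rw [exp_eq_one_iff]
  exact ⟨n, by push_cast; ring⟩

lemma e_zero : e 0 = 1 := by simpa using e_int 0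

lemma e_pow (x : ℝ) (n : ℕ) : e x ^ n = e (x * n) := by
  unfold e; rw [← exp_nat_mul]; congr 1; push_cast; ring

lemma e_fract (x : ℝ) : e (Int.fract x) = e x := by
  have : x = Int.fract x + (⌊x⌋ : ℤ) := (Int.fract_add_floor x).symm
  conv_rhs => rw [this, e_add, e_int, mul_one]

/-- unit vector `exp (i π y)` -/
noncomputable def u (y : ℝ) : ℂ := exp ((Real.pi * y : ℝ) * I)

lemma u_add (x y : ℝ) : u (x + y) = u x * u y := by
  unfold u; rw [← exp_add]; congr 1; push_cast; ring

lemma u_ne_zero (x : ℝ) : u x ≠ 0 := exp_ne_zero _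

lemma u_neg (x : ℝ) : u (-x) = (u x)⁻¹ := by
  unfold u; rw [← exp_neg]; congr 1; push_cast; ring

lemma u_zero : u 0 = 1 := by simp [u]

lemma u_two_mul (x : ℝ) : u (2 * x) = e x := by
  unfold u e; congr 1; push_cast; ring

lemma u_half : u (1 / 2) = I := by
  unfold u
  rw [show ((Real.pi * (1 / 2) : ℝ) : ℂ) * I = (Real.pi : ℂ) / 2 * I by push_cast; ring]
  exact exp_pi_div_two_mul_I

lemma u_one : u 1 = -1 := by
  unfold u
  rw [show ((Real.pi * 1 : ℝ) : ℂ) * I = (Real.pi : ℂ) * I by push_cast; ring]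
  exact exp_pi_mul_I

lemma u_nat (n : ℕ) : u n = (-1) ^ n := by
  induction n with
  | zero => simp [u_zero]
  | succ n ih => rw [Nat.cast_succ, u_add, u_one, ih, pow_succ]

/-- `e(-f) - 1 = 2 sin (π f) · exp (iπ(-1/2-f))`. -/
lemma e_neg_sub_one (f : ℝ) :
    e (-f) - 1 = (2 * Real.sin (Real.pi * f) : ℝ) * u (-1 / 2 - f) := by
  have h1 : u (-1 / 2 - f) = -I * u (-f) := by
    rw [show (-1 / 2 - f : ℝ) = -(1 / 2) + -f by ring, u_add, u_neg, u_half, inv_I]
  have h2 : e (-f) = u (-f) * u (-f) := by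
    rw [← u_add, ← u_two_mul]; congr 1; ring
  have h3 : (1 : ℂ) = u f * u (-f) := by
    rw [← u_add, add_neg_cancel, u_zero]
  have h4 : ((2 * Real.sin (Real.pi * f) : ℝ) : ℂ) = (u (-f) - u f) * I := by
    push_cast
    rw [Complex.two_sin]
    unfold u
    congr 2 <;> push_cast <;> ring_nf
  rw [h1, h4, h2]
  conv_lhs => rw [h3]
  linear_combination ((u (-f) - u f) * u (-f)) * I_mul_I

/-- positive multiples of a complex number -/
def PM (z w : ℂ) : Prop := ∃ p : ℝ, 0 < p ∧ z = p * w

lemma PM.refl (w : ℂ) : PM w w := ⟨1, one_pos, by simp⟩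

lemma PM.mul {z w z' w' : ℂ} (h : PM z w) (h' : PM z' w') : PM (z * z') (w * w') := by
  obtain ⟨p, hp, rfl⟩ := h
  obtain ⟨q, hq, rfl⟩ := h'
  exact ⟨p * q, mul_pos hp hq, by push_cast; ring⟩

lemma PM.inv {z w : ℂ} (h : PM z w) : PM z⁻¹ w⁻¹ := by
  obtain ⟨p, hp, rfl⟩ := h
  exact ⟨p⁻¹, inv_pos.2 hp, by push_cast; rw [mul_inv]⟩

lemma PM.div {z w z' w' : ℂ} (h : PM z w) (h' : PM z' w') : PM (z / z') (w / w') := by
  rw [div_eq_mul_inv, div_eq_mul_inv]; exact h.mul h'.inv

lemma PM.of_pos {p : ℝ} (hp : 0 < p) : PM (p : ℂ) 1 := ⟨p, hp, by simp⟩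

/-- `e(-y) - 1` when it does not vanish -/
lemma pm_e_sub_one {y : ℝ} (h : e (-y) ≠ 1) : PM (e (-y) - 1) (u (-1 / 2 - Int.fract y)) := by
  have h1 : e (-y) = e (-Int.fract y) := by
    rw [e_neg, e_neg, e_fract]
  rw [h1, e_neg_sub_one]
  refine ⟨2 * Real.sin (Real.pi * Int.fract y), ?_, rfl⟩
  have h0 : Int.fract y ≠ 0 := by
    intro h0
    apply h
    rw [h1, h0, neg_zero, e_zero]
  have h2 : 0 < Int.fract y := lt_of_le_of_ne (Int.fract_nonneg y) h0.symm
  have h3 := Int.fract_lt_one y
  have : 0 < Real.sin (Real.pi * Int.fract y) := by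
    apply Real.sin_pos_of_pos_of_lt_pi
    · exact mul_pos Real.pi_pos h2
    · nlinarith [Real.pi_pos]
  positivity

lemma fract_zero_of_e {y : ℝ} (h : e (-y) = 1) : Int.fract y = 0 := by
  unfold e at h
  rw [exp_eq_one_iff] at h
  obtain ⟨n, hn⟩ := h
  have h1 : ((2 * Real.pi * -y : ℝ) : ℂ) = ((n * (2 * Real.pi) : ℝ) : ℂ) := by
    have h2 : ((2 * Real.pi * -y : ℝ) : ℂ) * I = ((n * (2 * Real.pi) : ℝ) : ℂ) * I := by
      rw [hn]; push_cast; ring
    exact mul_right_cancel₀ I_ne_zero h2
  have h3 : 2 * Real.pi * -y = n * (2 * Real.pi) := by exact_mod_cast h1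
  have h4 : y = ((-n : ℤ) : ℝ) := by
    have hp := Real.pi_pos.ne'
    have : 2 * Real.pi * (-y - n) = 0 := by linarith
    rcases mul_eq_zero.1 this with h | h
    · simp [hp] at h
    · push_cast; linarith
  rw [h4]; exact Int.fract_intCast _

/-- the exponent of `phi c (e(-x))` -/
noncomputable def B (c : List ℕ) (x : ℝ) : ℝ :=
  ((c.length : ℝ) - 1) / 2 - Int.fract (x * c.prod) - alpha c x

lemma B_cons (a : ℕ) (l : List ℕ) (x : ℝ) :
    B (a :: l) x = -1 / 2 - Int.fract (x * (a :: l).prod) - B l x := by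
  simp only [B, alpha, List.length_cons]
  push_cast
  ring

lemma B_nil (x : ℝ) : B [] x = -1 / 2 - Int.fract x := by
  simp only [B, alpha, List.length_nil, List.prod_nil]
  push_cast
  ring_nf

theorem phi_arg : ∀ {c : List ℕ}, Good c → ∀ x : ℝ,
    (aeval (e (-x)) (phi c) ≠ 0 → PM (aeval (e (-x)) (phi c)) (u (B c x))) ∧
    (aeval (e (-x)) (phi c) = 0 →
      PM (aeval (e (-x)) (derivative (phi c))) ((e (-x))⁻¹ * u (B c x + 1 / 2)))
  | [], _, x => by
      have hphi : aeval (e (-x)) (phi []) = e (-x) - 1 := by simp [phi]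
      have hder : aeval (e (-x)) (derivative (phi [])) = 1 := by simp [phi]
      rw [hphi, hder, B_nil]
      refine ⟨fun h => pm_e_sub_one (fun h1 => h (by rw [h1, sub_self])), fun h => ?_⟩
      have h1 : e (-x) = 1 := sub_eq_zero.1 h
      rw [h1, fract_zero_of_e h1]
      have : u (-1 / 2 - 0 + 1 / 2) = 1 := by
        rw [show (-1 / 2 - 0 + 1 / 2 : ℝ) = 0 by norm_num, u_zero]
      rw [this]
      simpa using PM.refl 1
  | a :: l, h, x => by
      have ih := phi_arg h.tail x
      have hr : 0 < a * l.prod := Nat.mul_pos h.head h.tail.prod_pos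
      set η := e (-x) with hη
      have hη0 : η ≠ 0 := e_ne_zero _
      have hm := congrArg (aeval η) (phi_mul h)
      rw [map_mul, aeval_X_pow_sub_one] at hm
      have hηr : η ^ (a * l.prod) = e (-(x * (a :: l).prod)) := by
        rw [hη, e_pow, List.prod_cons]; congr 1; push_cast; ring
      have hd := congrArg (fun p : ℤ[X] => aeval η (derivative p)) (phi_mul h)
      simp only [derivative_mul, derivative_sub, derivative_one, derivative_X_pow, sub_zero,
        map_add, map_mul, map_pow, aeval_X, aeval_C, map_natCast] at hd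
      rw [B_cons]
      by_cases hl : aeval η (phi l) = 0
      · -- tail vanishes: `η ^ r = 1`, derivative of the product
        have hr1 : η ^ (a * l.prod) = 1 := by
          rw [hl, mul_zero] at hm; exact (sub_eq_zero.1 hm.symm)
        have hf : Int.fract (x * (a :: l).prod) = 0 := fract_zero_of_e (by rw [← hηr, hr1])
        have h1 := ih.2 hl
        rw [hl, mul_zero, zero_add] at hd
        have h2 : PM (((a * l.prod : ℕ) : ℂ) * η ^ (a * l.prod - 1)) (η⁻¹) := by
          refine ⟨(a * l.prod : ℕ), by exact_mod_cast hr, ?_⟩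
          have : η ^ (a * l.prod - 1) = η⁻¹ := by
            have h3 : η ^ (a * l.prod - 1) * η = 1 := by
              rw [← pow_succ, Nat.sub_add_cancel hr, hr1]
            exact eq_inv_of_mul_eq_one_left h3
          rw [this, Complex.ofReal_natCast]
        have hne : aeval η (derivative (phi l)) ≠ 0 := by
          intro h0
          rw [h0, mul_zero] at hd
          obtain ⟨p, hp, h3⟩ := h2
          rw [← hd] at h3
          have : ((p : ℂ) * η⁻¹) ≠ 0 := mul_ne_zero (by exact_mod_cast hp.ne') (inv_ne_zero hη0)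
          exact this h3.symm
        have h3 : aeval η (phi (a :: l)) =
            (((a * l.prod : ℕ) : ℂ) * η ^ (a * l.prod - 1)) / aeval η (derivative (phi l)) := by
          rw [eq_div_iff hne, hd]
        have h4 : PM (aeval η (phi (a :: l))) (η⁻¹ / (η⁻¹ * u (B l x + 1 / 2))) := by
          rw [h3]; exact h2.div h1
        have h5 : η⁻¹ / (η⁻¹ * u (B l x + 1 / 2)) =
            u (-1 / 2 - Int.fract (x * (a :: l).prod) - B l x) := by
          rw [hf, div_mul_cancel_left₀ (inv_ne_zero hη0), ← u_neg]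
          congr 1; ring
        rw [h5] at h4
        refine ⟨fun _ => h4, fun h0 => ?_⟩
        exfalso
        obtain ⟨p, hp, h6⟩ := h4
        rw [h0] at h6
        exact (mul_ne_zero (by exact_mod_cast hp.ne') (u_ne_zero _)) h6.symm
      · have h1 := ih.1 hl
        by_cases hr1 : η ^ (a * l.prod) = 1
        · -- `phi c (η) = 0`
          have hf : Int.fract (x * (a :: l).prod) = 0 := fract_zero_of_e (by rw [← hηr, hr1])
          have h0 : aeval η (phi (a :: l)) = 0 := phi_zero_of_tail_ne h hr1 hl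
          refine ⟨fun h2 => absurd h0 h2, fun _ => ?_⟩
          rw [h0, zero_mul, add_zero] at hd
          have h2 : PM (((a * l.prod : ℕ) : ℂ) * η ^ (a * l.prod - 1)) (η⁻¹) := by
            refine ⟨(a * l.prod : ℕ), by exact_mod_cast hr, ?_⟩
            have : η ^ (a * l.prod - 1) = η⁻¹ := by
              have h3 : η ^ (a * l.prod - 1) * η = 1 := by
                rw [← pow_succ, Nat.sub_add_cancel hr, hr1]
              exact eq_inv_of_mul_eq_one_left h3
            rw [this, Complex.ofReal_natCast]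
          have h3 : aeval η (derivative (phi (a :: l))) =
              (((a * l.prod : ℕ) : ℂ) * η ^ (a * l.prod - 1)) / aeval η (phi l) := by
            rw [eq_div_iff hl, hd]
          rw [h3]
          have h4 := h2.div h1
          have h5 : η⁻¹ / u (B l x) =
              η⁻¹ * u (-1 / 2 - Int.fract (x * (a :: l).prod) - B l x + 1 / 2) := by
            rw [hf, div_eq_mul_inv, ← u_neg]
            congr 2; ring
          rw [← h5]; exact h4
        · have h2 : PM (η ^ (a * l.prod) - 1) (u (-1 / 2 - Int.fract (x * (a :: l).prod))) := by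
            rw [hηr]; apply pm_e_sub_one; rw [← hηr]; exact hr1
          have h3 : aeval η (phi (a :: l)) = (η ^ (a * l.prod) - 1) / aeval η (phi l) := by
            rw [eq_div_iff hl, hm]
          have h4 := h2.div h1
          rw [← h3] at h4
          have h5 : u (-1 / 2 - Int.fract (x * (a :: l).prod)) / u (B l x) =
              u (-1 / 2 - Int.fract (x * (a :: l).prod) - B l x) := by
            rw [div_eq_mul_inv, ← u_neg, ← u_add]; congr 1
          rw [h5] at h4
          refine ⟨fun _ => h4, fun h0 => ?_⟩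
          exfalso
          obtain ⟨p, hp, h6⟩ := h4
          rw [h0] at h6
          exact (mul_ne_zero (by exact_mod_cast hp.ne') (u_ne_zero _)) h6.symm

/-- multiplier `rho` of the chain `a :: l` at `η = e(x)`, `x = κ / r`:
`rho = symb l (e(-x)) / r`. -/
noncomputable def rho (a : ℕ) (l : List ℕ) (x : ℝ) : ℂ :=
  aeval (e (-x)) (symb l) / ((a * l.prod : ℕ) : ℂ)

/-- P4.1: argument of `rho`: a positive multiple of `exp (iπ(k/2 + alpha))`, `k` = length,
whenever `phi (tail) (e(-x)) ≠ 0` (in particular for `x = κ / r`, `phi c (e(x)) = 0`). -/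
theorem rho_arg {a : ℕ} {l : List ℕ} (h : Good (a :: l)) (x : ℝ)
    (hx : aeval (e (-x)) (phi l) ≠ 0) :
    PM (rho a l x) (u (((a :: l).length : ℝ) / 2 + alpha (a :: l) x)) := by
  have hr : 0 < a * l.prod := Nat.mul_pos h.head h.tail.prod_pos
  have h1 := (phi_arg h.tail x).1 hx
  unfold rho
  rw [symb_aeval, ← u_nat, div_eq_mul_inv]
  have h2 : PM ((((a * l.prod : ℕ) : ℂ))⁻¹) 1 := by
    have := (PM.of_pos (p := ((a * l.prod : ℕ) : ℝ)) (by exact_mod_cast hr)).inv
    rwa [Complex.ofReal_natCast, inv_one] at this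
  have h3 := ((PM.refl (u ((l.length + 1 : ℕ) : ℝ))).mul h1).mul h2
  rw [mul_one, ← u_add] at h3
  have h4 : (((l.length + 1 : ℕ) : ℝ) + B l x) =
      ((a :: l).length : ℝ) / 2 + alpha (a :: l) x := by
    simp only [B, alpha, List.length_cons]
    push_cast
    ring
  rw [h4] at h3
  exact h3

/-- P4.1: eigenvalue of the monodromy: `e(x) ^ mu l = e(-alpha)`. -/
theorem mono_eigen {a : ℕ} : ∀ {l : List ℕ}, Good l → ∀ x : ℝ,
    e x ^ mu l = e (-alpha (a :: l) x)
  | [], _, x => by
      simp only [mu, pow_one, alpha, List.prod_nil, List.length_nil]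
      push_cast
      rw [show (-(0 - Int.fract (x * 1) - 0) : ℝ) = Int.fract x by ring_nf, e_fract]
  | b :: l, h, x => by
      have ih := mono_eigen (a := b) h.tail x
      have hmu := mu_add_mu (a := b) (l := l) h.head
      have h1 : e x ^ mu (b :: l) * e x ^ mu l = e (x * (b :: l).prod) := by
        rw [← pow_add, hmu, e_pow, List.prod_cons]
      have h2 : e x ^ mu (b :: l) = e (x * (b :: l).prod) * e (alpha (b :: l) x) := by
        have h3 : e (-alpha (b :: l) x) * e (alpha (b :: l) x) = 1 := by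
          rw [← e_add, neg_add_cancel, e_zero]
        rw [← h1, ih, mul_assoc, h3, mul_one]
      rw [h2, ← e_fract (x * (b :: l).prod), ← e_add]
      have h4 : -alpha (a :: b :: l) x =
          Int.fract (x * (b :: l).prod) + alpha (b :: l) x + ((-((l.length : ℤ) + 1) : ℤ) : ℝ) := by
        simp only [alpha, List.length_cons]
        push_cast
        ring
      rw [h4, e_add _ ((_ : ℤ) : ℝ), e_int, mul_one]

lemma e_div (r k : ℕ) :
    e ((k : ℝ) / (r : ℝ)) = Complex.exp (2 * Real.pi * Complex.I / (r : ℂ)) ^ k := by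
  rw [← exp_nat_mul]
  unfold e
  congr 1
  push_cast
  ring

/-- P4.1: trace form. With `r = a * l.prod`, sum over `κ < r` with `phi c (e(κ/r)) = 0`. -/
theorem trace_form {a : ℕ} {l : List ℕ} (h : Good (a :: l)) (i j : Fin (mu (a :: l))) :
    (chainMat (a :: l) i j : ℂ) =
      ∑ k ∈ (Finset.range (a * l.prod)).filter
          (fun k : ℕ => aeval (e ((k : ℝ) / ((a * l.prod : ℕ) : ℝ))) (phi (a :: l)) = 0),
        rho a l ((k : ℝ) / ((a * l.prod : ℕ) : ℝ)) *
          (e (-((k : ℝ) / ((a * l.prod : ℕ) : ℝ))) ^ (i : ℕ) *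
            e ((k : ℝ) / ((a * l.prod : ℕ) : ℝ)) ^ (j : ℕ)) := by
  have hr : 0 < a * l.prod := Nat.mul_pos h.head h.tail.prod_pos
  have hrC : ((a * l.prod : ℕ) : ℂ) ≠ 0 := by exact_mod_cast hr.ne'
  have hζ := prim h
  set ζ := Complex.exp (2 * Real.pi * Complex.I / ((a * l.prod : ℕ) : ℂ)) with hζdef
  have he : ∀ k : ℕ, e ((k : ℝ) / ((a * l.prod : ℕ) : ℝ)) = ζ ^ k := by
    intro k
    rw [hζdef, e_div]
  have he' : ∀ k : ℕ, e (-((k : ℝ) / ((a * l.prod : ℕ) : ℝ))) = (ζ⁻¹) ^ k := by
    intro k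
    rw [e_neg, he, inv_pow]
  have hd := chainMat_dft h hζ i j
  have h1 : (chainMat (a :: l) i j : ℂ) = ∑ k ∈ Finset.range (a * l.prod),
      rho a l ((k : ℝ) / ((a * l.prod : ℕ) : ℝ)) *
          (e (-((k : ℝ) / ((a * l.prod : ℕ) : ℝ))) ^ (i : ℕ) *
            e ((k : ℝ) / ((a * l.prod : ℕ) : ℝ)) ^ (j : ℕ)) := by
    apply mul_left_cancel₀ hrC
    rw [hd, Finset.mul_sum]
    refine Finset.sum_congr rfl fun k _ => ?_
    unfold rho
    rw [he, he']
    field_simp
  rw [h1, Finset.sum_filter_of_ne]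
  intro k _ hk
  rw [he]
  rcases key_zero h hζ k with h0 | ⟨_, h2⟩
  · exfalso
    apply hk
    unfold rho
    rw [he', h0]
    simp
  · exact h2

end Crest.Agent.R267.P41_339
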