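import Mathlib
import Crest.Agent.R267.P4Defs_780
import Crest.Agent.R267.P41_339
import Crest.Agent.R267.P41b_339

/-!
# S0407, node P4.2 (helper339): the sums `S_c(κ) = ∑_{phi(η)=0} exp (iπκ alpha(η))` of a chain.

* `S_odd`  : `κ` odd, no `sin (πκ w_j / 2)` zero: `S_c(κ) = (-i)^k ∏ cot (πκ w_j/2)`;
* `S_even` : `S_c(2κ) = ∏ (1/w_j - 1 if κ w_j ∈ ℤ, else -1)`.
-/

set_option autoImplicit false

namespace Crest.Agent.R267.P42_339

open Polynomial Matrix Crest.Agent.R267.P4Defs_780 Crest.Agent.R267.P41_339 Complex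
open scoped ComplexConjugate

lemma conj_u (y : ℝ) : conj (u y) = u (-y) := by
  unfold u
  rw [← exp_conj]
  congr 1
  rw [map_mul, conj_I, conj_ofReal]
  push_cast
  ring

lemma u_int_even {n : ℤ} (h : Even n) : u n = 1 := by
  obtain ⟨m, rfl⟩ := h
  rw [show (((m + m : ℤ)) : ℝ) = 2 * (m : ℝ) by push_cast; ring, u_two_mul, e_int]

lemma u_int_odd {n : ℤ} (h : Odd n) : u n = -1 := by
  obtain ⟨m, rfl⟩ := h
  rw [show (((2 * m + 1 : ℤ)) : ℝ) = 2 * (m : ℝ) + 1 by push_cast; ring, u_add, u_two_mul,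
    e_int, u_one, one_mul]

/-- first weight of a chain (`0` for the empty chain) -/
noncomputable def w : List ℕ → ℝ
  | [] => 0
  | a :: l => (mu l : ℝ) / ((a * l.prod : ℕ) : ℝ)

/-- summation set: indices of the roots of `phi c` among the `c.prod`-th roots of unity -/
noncomputable def rootSet (c : List ℕ) : Finset ℕ :=
  (Finset.range c.prod).filter
    (fun m : ℕ => aeval (e ((m : ℝ) / ((c.prod : ℕ) : ℝ))) (phi c) = 0)

/-- `S_c(κ)`. -/
noncomputable def S (c : List ℕ) (κ : ℤ) : ℂ :=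
  ∑ m ∈ rootSet c, u (κ * alpha c ((m : ℝ) / ((c.prod : ℕ) : ℝ)))

/-- `Z_c(κ)`: the same sum over all `r`-th roots of unity. -/
noncomputable def Z (c : List ℕ) (κ : ℤ) : ℂ :=
  ∑ m ∈ Finset.range c.prod, u (κ * alpha c ((m : ℝ) / ((c.prod : ℕ) : ℝ)))

/-- `nu l = mu (tail l)`, `nu [] = 0`; `mu l + nu l = l.prod`. -/
def nu : List ℕ → ℕ
  | [] => 0
  | _ :: l => mu l

lemma mu_add_nu {l : List ℕ} (h : Good l) : mu l + nu l = l.prod := by
  cases l with
  | nil => simp [mu, nu]
  | cons a l => rw [List.prod_cons]; exact mu_add_mu h.head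

/-- no carry: slope of `alpha` on an interval. -/
lemma alpha_slope : ∀ {l : List ℕ}, Good l → ∀ (q : ℕ) (t : ℝ), 0 ≤ t → t < 1 →
    alpha l (((q : ℝ) + t) / (l.prod : ℕ)) =
      alpha l ((q : ℝ) / (l.prod : ℕ)) - t * (nu l : ℝ) / (l.prod : ℕ)
  | [], _, q, t, _, _ => by simp [alpha, nu]
  | b :: l, h, q, t, ht, ht1 => by
      have hb : (0 : ℝ) < b := by exact_mod_cast h.head
      have hP : (0 : ℝ) < (l.prod : ℕ) := by exact_mod_cast h.tail.prod_pos
      obtain ⟨q', s', hs', hq⟩ : ∃ q' s' : ℕ, s' < b ∧ q = b * q' + s' :=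
        ⟨q / b, q % b, Nat.mod_lt _ h.head, (Nat.div_add_mod q b).symm⟩
      have hs'' : (s' : ℝ) + 1 ≤ b := by exact_mod_cast hs'
      have hprod : (((b :: l).prod : ℕ) : ℝ) = b * (l.prod : ℕ) := by
        rw [List.prod_cons]; exact Nat.cast_mul _ _
      have hqr : (q : ℝ) = b * q' + s' := by rw [hq]; push_cast; ring
      have h0s : (0 : ℝ) ≤ s' := Nat.cast_nonneg _
      -- positions
      have e1 : ((q : ℝ) + t) / ((b :: l).prod : ℕ) =
          ((q' : ℝ) + (s' + t) / b) / (l.prod : ℕ) := by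
        rw [hprod, hqr]; field_simp; ring
      have e2 : (q : ℝ) / ((b :: l).prod : ℕ) = ((q' : ℝ) + s' / b) / (l.prod : ℕ) := by
        rw [hprod, hqr]; field_simp
      have t1 : 0 ≤ ((s' : ℝ) + t) / b := by positivity
      have t2 : ((s' : ℝ) + t) / b < 1 := by rw [div_lt_one hb]; linarith
      have t3 : 0 ≤ (s' : ℝ) / b := by positivity
      have t4 : (s' : ℝ) / b < 1 := by rw [div_lt_one hb]; linarith
      have f1 : Int.fract (((q' : ℝ) + (s' + t) / b) / (l.prod : ℕ) * (l.prod : ℕ)) =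
          (s' + t) / b := by
        rw [div_mul_cancel₀ _ hP.ne']
        rw [show ((q' : ℝ) + (s' + t) / b) = (s' + t) / b + (q' : ℕ) by ring,
          Int.fract_add_natCast, Int.fract_eq_self.2 ⟨t1, t2⟩]
      have f2 : Int.fract (((q' : ℝ) + s' / b) / (l.prod : ℕ) * (l.prod : ℕ)) = s' / b := by
        rw [div_mul_cancel₀ _ hP.ne']
        rw [show ((q' : ℝ) + s' / b) = s' / b + (q' : ℕ) by ring,
          Int.fract_add_natCast, Int.fract_eq_self.2 ⟨t3, t4⟩]
      rw [e1, e2]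
      simp only [alpha]
      rw [f1, f2, alpha_slope h.tail q' _ t1 t2, alpha_slope h.tail q' _ t3 t4, hprod]
      have hmn := mu_add_nu h.tail
      have hmn' : (nu l : ℝ) = (l.prod : ℕ) - (mu l : ℝ) := by
        rw [← hmn]; push_cast; ring
      rw [show nu (b :: l) = mu l from rfl, hmn']
      field_simp
      ring

/-- `alpha` of the chain `a :: l` at `(a q + s) / r`. -/
lemma alpha_cons_split {a : ℕ} {l : List ℕ} (h : Good (a :: l)) (q s : ℕ) (hs : s < a) :
    alpha (a :: l) (((a * q + s : ℕ) : ℝ) / (((a :: l).prod : ℕ) : ℝ)) =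
      (l.length : ℝ) - alpha l ((q : ℝ) / (l.prod : ℕ)) - s * w (a :: l) := by
  have ha : (0 : ℝ) < a := by exact_mod_cast h.head
  have hP : (0 : ℝ) < (l.prod : ℕ) := by exact_mod_cast h.tail.prod_pos
  have hs' : (s : ℝ) + 1 ≤ a := by exact_mod_cast hs
  have h0s : (0 : ℝ) ≤ s := Nat.cast_nonneg _
  have hprod : (((a :: l).prod : ℕ) : ℝ) = a * (l.prod : ℕ) := by
    rw [List.prod_cons]; exact Nat.cast_mul _ _
  have e1 : ((a * q + s : ℕ) : ℝ) / (((a :: l).prod : ℕ) : ℝ) =
      ((q : ℝ) + s / a) / (l.prod : ℕ) := by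
    rw [hprod]; push_cast; field_simp
  have t3 : 0 ≤ (s : ℝ) / a := by positivity
  have t4 : (s : ℝ) / a < 1 := by rw [div_lt_one ha]; linarith
  rw [e1]
  simp only [alpha]
  rw [alpha_slope h.tail q _ t3 t4, div_mul_cancel₀ _ hP.ne',
    show ((q : ℝ) + s / a) = s / a + (q : ℕ) by ring, Int.fract_add_natCast,
    Int.fract_eq_self.2 ⟨t3, t4⟩]
  have hmn := mu_add_nu h.tail
  have hmn' : (nu l : ℝ) = (l.prod : ℕ) - (mu l : ℝ) := by
    rw [← hmn]; push_cast; ring
  rw [hmn']
  simp only [w]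
  rw [Nat.cast_mul]
  field_simp
  ring

lemma sum_range_mul' {M : Type*} [AddCommMonoid M] (f : ℕ → M) (a P : ℕ) :
    ∑ m ∈ Finset.range (a * P), f m =
      ∑ q ∈ Finset.range P, ∑ s ∈ Finset.range a, f (a * q + s) := by
  induction P with
  | zero => simp
  | succ P ih => rw [Nat.mul_succ, Finset.sum_range_add, ih, Finset.sum_range_succ]

lemma Z_cons {a : ℕ} {l : List ℕ} (h : Good (a :: l)) (κ : ℤ) :
    Z (a :: l) κ = u (κ * l.length) * conj (Z l κ) *
      ∑ s ∈ Finset.range a, u (-(κ * w (a :: l))) ^ s := by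
  have e1 : Z (a :: l) κ = ∑ q ∈ Finset.range l.prod, ∑ s ∈ Finset.range a,
      u (κ * alpha (a :: l) (((a * q + s : ℕ) : ℝ) / (((a :: l).prod : ℕ) : ℝ))) := by
    unfold Z
    conv_lhs => rw [List.prod_cons]
    rw [sum_range_mul']
    rfl
  rw [e1]
  unfold Z
  generalize hG : ∑ s ∈ Finset.range a, u (-(κ * w (a :: l))) ^ s = G
  rw [map_sum, Finset.mul_sum, Finset.sum_mul, ← hG]
  refine Finset.sum_congr rfl fun q _ => ?_
  rw [Finset.mul_sum]
  refine Finset.sum_congr rfl fun s hs => ?_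
  rw [alpha_cons_split h q s (Finset.mem_range.1 hs), conj_u]
  have e2 : u (-(κ * w (a :: l))) ^ s = u (s * -(κ * w (a :: l))) := by
    unfold u; rw [← exp_nat_mul]; congr 1; push_cast; ring
  rw [e2, ← u_add, ← u_add]
  congr 1
  ring

/-- a root of unity is not a root of both `phi c` and `phi (tail)`. -/
lemma not_both {a : ℕ} {l : List ℕ} (h : Good (a :: l)) {η : ℂ}
    (hη : η ^ (a * l.prod) = 1) (h1 : aeval η (phi (a :: l)) = 0) :
    aeval η (phi l) ≠ 0 := by
  intro h2
  have hr : 0 < a * l.prod := Nat.mul_pos h.head h.tail.prod_pos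
  have hd := congrArg (fun p : ℤ[X] => aeval η (derivative p)) (phi_mul h)
  simp only [derivative_mul, derivative_sub, derivative_one, derivative_X_pow, sub_zero,
    map_add, map_mul, map_pow, aeval_X, map_natCast] at hd
  rw [h1, h2, mul_zero, zero_mul, add_zero] at hd
  have hne : η ≠ 0 := by
    intro h0; rw [h0, zero_pow hr.ne'] at hη; exact zero_ne_one hη
  exact (mul_ne_zero (by exact_mod_cast hr.ne') (pow_ne_zero _ hne)) hd.symm

lemma e_div_pow (r m : ℕ) (hr : 0 < r) : e ((m : ℝ) / (r : ℕ)) ^ r = 1 := by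
  have hr' : (r : ℝ) ≠ 0 := by exact_mod_cast hr.ne'
  rw [e_pow, div_mul_cancel₀ _ hr']
  exact_mod_cast e_int m

/-- roots of the tail among the `r`-th roots of unity -/
lemma tail_roots {a : ℕ} {l : List ℕ} (h : Good (a :: l)) (f : ℕ → ℂ) :
    ∑ m ∈ (Finset.range (a :: l).prod).filter
      (fun m : ℕ => aeval (e ((m : ℝ) / (((a :: l).prod : ℕ) : ℝ))) (phi l) = 0), f m =
    ∑ q ∈ rootSet l, f (a * q) := by
  symm
  have ha : 0 < a := h.head
  have hP : 0 < l.prod := h.tail.prod_pos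
  have haR : (a : ℝ) ≠ 0 := by exact_mod_cast ha.ne'
  have hPR : ((l.prod : ℕ) : ℝ) ≠ 0 := by exact_mod_cast hP.ne'
  have hprod : (((a :: l).prod : ℕ) : ℝ) = a * (l.prod : ℕ) := by
    rw [List.prod_cons]; exact Nat.cast_mul _ _
  have hdiv : ∀ q : ℕ, ((a * q : ℕ) : ℝ) / (((a :: l).prod : ℕ) : ℝ) = (q : ℝ) / (l.prod : ℕ) := by
    intro q
    rw [hprod]; push_cast; field_simp
  refine Finset.sum_bij (fun q _ => a * q) ?_ ?_ ?_ ?_
  · intro q hq
    rw [rootSet, Finset.mem_filter, Finset.mem_range] at hq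
    rw [Finset.mem_filter, Finset.mem_range, List.prod_cons]
    refine ⟨(Nat.mul_lt_mul_left ha).2 hq.1, ?_⟩
    have := hdiv q
    rw [List.prod_cons] at this
    rw [this]
    exact hq.2
  · intro q _ q' _ hqq
    exact Nat.eq_of_mul_eq_mul_left ha hqq
  · intro m hm
    rw [Finset.mem_filter, Finset.mem_range, List.prod_cons] at hm
    obtain ⟨hm1, hm2⟩ := hm
    -- `e(m / r) ^ P = 1`
    obtain ⟨g, hg⟩ := (basic h.tail).dvd
    have h1 := congrArg (aeval (e ((m : ℝ) / ((a * l.prod : ℕ) : ℝ)))) hg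
    rw [map_mul, hm2, zero_mul, aeval_X_pow_sub_one, sub_eq_zero, e_pow] at h1
    have h2 : (m : ℝ) / ((a * l.prod : ℕ) : ℝ) * (l.prod : ℕ) = (m : ℝ) / a := by
      rw [Nat.cast_mul]; field_simp
    rw [h2] at h1
    have h3 : Int.fract ((m : ℝ) / a) = 0 := by
      apply fract_zero_of_e
      rw [e_neg, h1, inv_one]
    have h4 : a ∣ m := by
      rw [Int.fract_eq_iff] at h3
      obtain ⟨_, _, z, hz⟩ := h3
      rw [sub_zero, div_eq_iff haR] at hz
      have h5 : (m : ℤ) = z * a := by exact_mod_cast hz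
      exact_mod_cast (Dvd.intro_left z h5.symm : (a : ℤ) ∣ m)
    obtain ⟨q, rfl⟩ := h4
    refine ⟨q, ?_, rfl⟩
    rw [rootSet, Finset.mem_filter, Finset.mem_range]
    refine ⟨(Nat.mul_lt_mul_left ha).1 hm1, ?_⟩
    have := hdiv q
    rw [List.prod_cons] at this
    rw [← this]
    exact hm2
  · intro q _; rfl

lemma Z_eq_S_add {a : ℕ} {l : List ℕ} (h : Good (a :: l)) (κ : ℤ) :
    Z (a :: l) κ = S (a :: l) κ + u (κ * l.length) * conj (S l κ) := by
  have hr : 0 < (a :: l).prod := h.prod_pos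
  have ha : 0 < a := h.head
  have hP : 0 < l.prod := h.tail.prod_pos
  have haR : (a : ℝ) ≠ 0 := by exact_mod_cast ha.ne'
  have hPR : ((l.prod : ℕ) : ℝ) ≠ 0 := by exact_mod_cast hP.ne'
  have hprod : (((a :: l).prod : ℕ) : ℝ) = a * (l.prod : ℕ) := by
    rw [List.prod_cons]; exact Nat.cast_mul _ _
  have hdiv : ∀ q : ℕ, ((a * q : ℕ) : ℝ) / (((a :: l).prod : ℕ) : ℝ) = (q : ℝ) / (l.prod : ℕ) := by
    intro q
    rw [hprod]; push_cast; field_simp
  unfold Z
  rw [← Finset.sum_filter_add_sum_filter_not (Finset.range (a :: l).prod)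
    (fun m : ℕ => aeval (e ((m : ℝ) / (((a :: l).prod : ℕ) : ℝ))) (phi (a :: l)) = 0)]
  congr 1
  have hfil : (Finset.range (a :: l).prod).filter
      (fun m : ℕ => ¬ aeval (e ((m : ℝ) / (((a :: l).prod : ℕ) : ℝ))) (phi (a :: l)) = 0) =
      (Finset.range (a :: l).prod).filter
      (fun m : ℕ => aeval (e ((m : ℝ) / (((a :: l).prod : ℕ) : ℝ))) (phi l) = 0) := by
    apply Finset.filter_congr
    intro m _
    have h1 := e_div_pow (a :: l).prod m hr
    rw [List.prod_cons] at h1 ⊢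
    constructor
    · intro h2
      by_contra h3
      exact h2 (phi_zero_of_tail_ne h h1 h3)
    · intro h2 h3
      exact not_both h h1 h3 h2
  rw [hfil, tail_roots h]
  unfold S
  rw [map_sum, Finset.mul_sum]
  refine Finset.sum_congr rfl fun q _ => ?_
  rw [hdiv, conj_u, ← u_add]
  congr 1
  simp only [alpha]
  rw [div_mul_cancel₀ _ hPR]
  rw [Int.fract_natCast]
  ring

lemma S_nil (κ : ℤ) : S [] κ = 1 := by
  unfold S rootSet
  have h1 : aeval (e (((0 : ℕ) : ℝ) / ((([] : List ℕ).prod : ℕ) : ℝ))) (phi []) = 0 := by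
    simp [phi, e_zero]
  rw [Finset.sum_filter]
  rw [show ([] : List ℕ).prod = 1 from rfl] at h1 ⊢
  rw [Finset.sum_range_one, if_pos h1]
  simp [alpha, u_zero]

lemma Z_nil (κ : ℤ) : Z [] κ = 1 := by
  unfold Z
  simp [alpha, u_zero]

/-- geometric sum of the `Z` recursion -/
lemma geom (a : ℕ) (y : ℝ) :
    (∑ s ∈ Finset.range a, u (-y) ^ s) * (1 - u (-y)) = 1 - u (-(a * y)) := by
  rw [geom_sum_mul_neg]
  congr 1
  unfold u; rw [← exp_nat_mul]; congr 1; push_cast; ring

/-- nonvanishing condition for odd `κ` -/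
def NZ (κ : ℤ) : List ℕ → Prop
  | [] => True
  | a :: l => Real.sin (Real.pi * κ * w (a :: l) / 2) ≠ 0 ∧ NZ κ l

/-- `∏ cot (πκ w_j/2)`. -/
noncomputable def cotProd (κ : ℤ) : List ℕ → ℝ
  | [] => 1
  | a :: l => (Real.cos (Real.pi * κ * w (a :: l) / 2) / Real.sin (Real.pi * κ * w (a :: l) / 2)) *
      cotProd κ l

lemma one_sub_u (y : ℝ) : 1 - u (-y) = 2 * I * Real.sin (Real.pi * y / 2) * u (-(y / 2)) := by
  have h1 : (1 : ℂ) = u (y / 2) * u (-(y / 2)) := by rw [← u_add, add_neg_cancel, u_zero]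
  have h2 : u (-y) = u (-(y / 2)) * u (-(y / 2)) := by rw [← u_add]; congr 1; ring
  have h3 : (Real.sin (Real.pi * y / 2) : ℂ) * 2 = (u (-(y / 2)) - u (y / 2)) * I := by
    rw [Complex.ofReal_sin, mul_comm, Complex.two_sin]
    unfold u
    congr 2 <;> push_cast <;> ring_nf
  rw [h2]
  conv_lhs => rw [h1]
  linear_combination (-I * u (-(y / 2))) * h3 - (u (-(y / 2)) - u (y / 2)) * u (-(y / 2)) * I_mul_I

lemma one_add_u (y : ℝ) : 1 + u (-y) = 2 * Real.cos (Real.pi * y / 2) * u (-(y / 2)) := by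
  have h1 : (1 : ℂ) = u (y / 2) * u (-(y / 2)) := by rw [← u_add, add_neg_cancel, u_zero]
  have h2 : u (-y) = u (-(y / 2)) * u (-(y / 2)) := by rw [← u_add]; congr 1; ring
  have h3 : (Real.cos (Real.pi * y / 2) : ℂ) * 2 = u (y / 2) + u (-(y / 2)) := by
    rw [Complex.ofReal_cos, mul_comm, Complex.two_cos]
    unfold u
    congr 2 <;> push_cast <;> ring_nf
  rw [h2]
  conv_lhs => rw [h1]
  linear_combination (-u (-(y / 2))) * h3

/-- P4.2, odd `κ`. -/
theorem S_odd_aux {κ : ℤ} (hκ : Odd κ) : ∀ {c : List ℕ}, Good c → NZ κ c →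
    S c κ = (-I) ^ c.length * (cotProd κ c : ℂ) ∧
      2 * S c κ = Z c κ * (1 + u (-(κ * w c)))
  | [], _, _ => by
      rw [S_nil, Z_nil]
      simp only [cotProd, w, List.length_nil, pow_zero, mul_zero, neg_zero, u_zero]
      norm_num
  | a :: l, h, hnz => by
      obtain ⟨hsin, hnz'⟩ := hnz
      obtain ⟨ih1, ih2⟩ := S_odd_aux hκ h.tail hnz'
      have ha : (0 : ℝ) < a := by exact_mod_cast h.head
      have hP : (0 : ℝ) < (l.prod : ℕ) := by exact_mod_cast h.tail.prod_pos
      -- reality type of `S l`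
      have hul : u (κ * l.length) = (-1) ^ l.length := by
        have : ((κ : ℝ) * l.length) = (((κ * l.length : ℤ)) : ℝ) := by push_cast; ring
        rw [this]
        rcases Nat.even_or_odd l.length with hl | hl
        · rw [u_int_even, hl.neg_one_pow]
          exact Even.mul_left (by exact_mod_cast hl) κ
        · rw [u_int_odd, hl.neg_one_pow]
          exact hκ.mul (by exact_mod_cast hl)
      have hreal : u (κ * l.length) * conj (S l κ) = S l κ := by
        rw [hul, ih1, map_mul, map_pow, conj_ofReal, map_neg, conj_I, neg_neg, ← mul_assoc,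
          ← mul_pow]
        congr 2
        ring
      -- `a w₁ = 1 - w₂`
      have hw : (a : ℝ) * w (a :: l) = 1 - w l := by
        have hmn := mu_add_nu h.tail
        have hwl : w l = (nu l : ℝ) / (l.prod : ℕ) := by
          cases l with
          | nil => simp [w, nu]
          | cons b l => simp only [w, nu, List.prod_cons]
        have hmn' : (nu l : ℝ) = (l.prod : ℕ) - (mu l : ℝ) := by
          rw [← hmn]; push_cast; ring
        rw [hwl, hmn']
        simp only [w]
        rw [Nat.cast_mul]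
        field_simp
        ring
      have hZ : Z (a :: l) κ * (1 - u (-(κ * w (a :: l)))) = 2 * S l κ := by
        rw [Z_cons h, mul_assoc, geom]
        have h1 : u (-(a * (κ * w (a :: l)))) = -u (κ * w l) := by
          rw [show -((a : ℝ) * (κ * w (a :: l))) = κ * w l + ((-κ : ℤ) : ℝ) by
            rw [show (a : ℝ) * (κ * w (a :: l)) = κ * (a * w (a :: l)) by ring, hw]
            push_cast; ring]
          rw [u_add, u_int_odd hκ.neg]
          ring
        rw [h1, sub_neg_eq_add]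
        have h2 := congrArg conj ih2
        rw [map_mul, map_mul, map_add, map_one, conj_u, neg_neg] at h2
        have h3 : conj (2 : ℂ) = 2 := by
          have : (2 : ℂ) = ((2 : ℝ) : ℂ) := by norm_num
          rw [this, conj_ofReal]
        rw [h3] at h2
        rw [mul_assoc, ← h2]
        calc u (κ * l.length) * (2 * conj (S l κ)) = 2 * (u (κ * l.length) * conj (S l κ)) := by
              ring
          _ = _ := by rw [hreal]
      have hZS := Z_eq_S_add h κ
      rw [hreal] at hZS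
      have hS2 : 2 * S (a :: l) κ = Z (a :: l) κ * (1 + u (-(κ * w (a :: l)))) := by
        linear_combination (-2 : ℂ) * hZS + hZ
      refine ⟨?_, hS2⟩
      -- solve for `S`
      have hD : 1 - u (-(κ * w (a :: l))) ≠ 0 := by
        rw [one_sub_u]
        have : Real.sin (Real.pi * (κ * w (a :: l)) / 2) ≠ 0 := by
          rwa [← mul_assoc]
        exact mul_ne_zero (mul_ne_zero (mul_ne_zero two_ne_zero I_ne_zero)
          (by exact_mod_cast this)) (u_ne_zero _)
      have hSD : S (a :: l) κ * (1 - u (-(κ * w (a :: l)))) =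
          S l κ * (1 + u (-(κ * w (a :: l)))) := by
        linear_combination (-(1 - u (-(κ * w (a :: l))))) * hZS + hZ
      apply mul_right_cancel₀ hD
      rw [hSD, ih1, one_sub_u, one_add_u]
      simp only [cotProd, List.length_cons]
      rw [show Real.pi * ((κ : ℝ) * w (a :: l)) / 2 = Real.pi * κ * w (a :: l) / 2 by ring]
      have hsC : ((Real.sin (Real.pi * κ * w (a :: l) / 2) : ℝ) : ℂ) ≠ 0 := by
        exact_mod_cast hsin
      rw [ofReal_mul, ofReal_div]
      have hI : (-I) * I = 1 := by rw [neg_mul, I_mul_I, neg_neg]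
      rw [pow_succ]
      generalize (-I) ^ l.length = J
      field_simp
      linear_combination (J * (cotProd κ l : ℂ) * (Real.cos (Real.pi * κ * w (a :: l) / 2) : ℂ) *
        u (-(κ * w (a :: l) / 2))) * I_sq

/-- P4.2, odd `κ`: `S_c(κ) = (-i)^k ∏ cot (πκ w_j/2)`. -/
theorem S_odd {κ : ℤ} (hκ : Odd κ) {c : List ℕ} (h : Good c) (hnz : NZ κ c) :
    S c κ = (-I) ^ c.length * (cotProd κ c : ℂ) := (S_odd_aux hκ h hnz).1

/-! ### even `κ`: traces -/

lemma e_zpow (x : ℝ) (n : ℤ) : e x ^ n = e (x * n) := by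
  unfold e
  rw [← exp_int_mul]
  congr 1
  push_cast
  ring

lemma e_alpha {a : ℕ} {l : List ℕ} (h : Good (a :: l)) (κ : ℤ) (m r : ℕ) :
    e (κ * alpha (a :: l) ((m : ℝ) / (r : ℕ))) =
      e (-(κ * (mu l / (r : ℕ)))) ^ m := by
  have h1 := mono_eigen (a := a) h.tail ((m : ℝ) / (r : ℕ))
  have h2 : e (κ * alpha (a :: l) ((m : ℝ) / (r : ℕ))) =
      (e (-alpha (a :: l) ((m : ℝ) / (r : ℕ)))) ^ (-κ) := by
    rw [e_zpow]; congr 1; push_cast; ring
  rw [h2, ← h1, e_pow, e_zpow, e_pow]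
  congr 1
  push_cast
  ring

lemma w_cons (a : ℕ) (l : List ℕ) : w (a :: l) = (mu l : ℝ) / (((a :: l).prod : ℕ) : ℝ) := by
  rw [List.prod_cons]; rfl

open Classical in
lemma Z_even {a : ℕ} {l : List ℕ} (h : Good (a :: l)) (κ : ℤ) :
    Z (a :: l) (2 * κ) =
      if ∃ n : ℤ, κ * w (a :: l) = n then (((a :: l).prod : ℕ) : ℂ) else 0 := by
  have hr : 0 < (a :: l).prod := h.prod_pos
  have hrR : (((a :: l).prod : ℕ) : ℝ) ≠ 0 := by exact_mod_cast hr.ne'
  have e1 : Z (a :: l) (2 * κ) =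
      ∑ m ∈ Finset.range (a :: l).prod, e (-(κ * w (a :: l))) ^ m := by
    unfold Z
    refine Finset.sum_congr rfl fun m _ => ?_
    rw [w_cons, ← e_alpha h, ← u_two_mul]
    congr 1
    push_cast
    ring
  rw [e1]
  split_ifs with hn
  · obtain ⟨n, hn⟩ := hn
    rw [hn, show (-(n : ℝ)) = ((-n : ℤ) : ℝ) by push_cast; ring, e_int]
    simp
  · have hne : e (-(κ * w (a :: l))) ≠ 1 := by
      intro h1
      have h2 := fract_zero_of_e h1
      rw [Int.fract_eq_iff] at h2
      obtain ⟨_, _, z, hz⟩ := h2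
      exact hn ⟨z, by rw [← hz, sub_zero]⟩
    have h3 : e (-(κ * w (a :: l))) ^ (a :: l).prod = 1 := by
      rw [w_cons]
      generalize (a :: l).prod = r at hrR
      rw [e_pow, show -((κ : ℝ) * (mu l / (r : ℝ))) * (r : ℝ) =
        ((-κ * mu l : ℤ) : ℝ) by push_cast; field_simp, e_int]
    have h4 := geom_sum_mul (e (-(κ * w (a :: l)))) (a :: l).prod
    rw [h3, sub_self] at h4
    rcases mul_eq_zero.1 h4 with h5 | h5
    · exact h5
    · exact absurd (sub_eq_zero.1 h5) hne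

/-- `a w₁ = 1 - w₂`. -/
lemma w_rec {a : ℕ} {l : List ℕ} (h : Good (a :: l)) : (a : ℝ) * w (a :: l) = 1 - w l := by
  have ha : (0 : ℝ) < a := by exact_mod_cast h.head
  have hP : (0 : ℝ) < (l.prod : ℕ) := by exact_mod_cast h.tail.prod_pos
  have hmn := mu_add_nu h.tail
  have hwl : w l = (nu l : ℝ) / (l.prod : ℕ) := by
    cases l with
    | nil => simp [w, nu]
    | cons b l => simp only [w, nu, List.prod_cons]
  have hmn' : (nu l : ℝ) = (l.prod : ℕ) - (mu l : ℝ) := by
    rw [← hmn]; push_cast; ring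
  rw [hwl, hmn']
  simp only [w]
  rw [Nat.cast_mul]
  field_simp
  ring

open Classical in
/-- `∏ (1/w_j - 1 if κ w_j ∈ ℤ, else -1)`. -/
noncomputable def evProd (κ : ℤ) : List ℕ → ℝ
  | [] => 1
  | a :: l => (if ∃ n : ℤ, (κ : ℝ) * w (a :: l) = n then 1 / w (a :: l) - 1 else -1) * evProd κ l

lemma mu_pos {c : List ℕ} (h : ∀ a ∈ c, 2 ≤ a) : 0 < mu c := by
  cases c with
  | nil => simp [mu]
  | cons a l =>
    have hg : Good l := (Good.of_two h).tail
    have h1 := mu_add_nu hg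
    have h2 : 2 ≤ a := h a List.mem_cons_self
    have h3 : 0 < l.prod := hg.prod_pos
    simp only [mu]
    have h4 : 2 * l.prod ≤ a * l.prod := Nat.mul_le_mul_right _ h2
    omega

/-- P4.2, even exponent. -/
theorem S_even_aux (κ : ℤ) : ∀ {c : List ℕ}, (∀ a ∈ c, 2 ≤ a) →
    S c (2 * κ) = (evProd κ c : ℂ) ∧
      ((∃ n : ℤ, (κ : ℝ) * w c = n) → S c (2 * κ) = mu c)
  | [], _ => by
      rw [S_nil]
      simp [evProd, mu]
  | a :: l, h2 => by
      have h : Good (a :: l) := Good.of_two h2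
      obtain ⟨ih1, ih2⟩ := S_even_aux κ (c := l) (fun b hb => h2 b (List.mem_cons_of_mem _ hb))
      have hul : u (((2 * κ : ℤ) : ℝ) * l.length) = 1 := by
        have : (((2 * κ : ℤ) : ℝ) * l.length) = (((κ * l.length + κ * l.length : ℤ)) : ℝ) := by
          push_cast; ring
        rw [this, u_int_even ⟨_, rfl⟩]
      have hreal : conj (S l (2 * κ)) = S l (2 * κ) := by rw [ih1, conj_ofReal]
      have hS : S (a :: l) (2 * κ) = Z (a :: l) (2 * κ) - S l (2 * κ) := by
        rw [Z_eq_S_add h, hul, hreal]; ring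
      have hr : 0 < (a :: l).prod := h.prod_pos
      have hrR : (((a :: l).prod : ℕ) : ℝ) ≠ 0 := by exact_mod_cast hr.ne'
      by_cases hn : ∃ n : ℤ, (κ : ℝ) * w (a :: l) = n
      · have hl : S l (2 * κ) = mu l := by
          apply ih2
          obtain ⟨n, hn⟩ := hn
          refine ⟨κ - a * n, ?_⟩
          push_cast
          rw [← hn]
          have := w_rec h
          linear_combination (κ : ℝ) * this
        have hmul : mu l ≠ 0 := (mu_pos (fun b hb => h2 b (List.mem_cons_of_mem _ hb))).ne'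
        have hmm := mu_add_nu h
        have hnu : nu (a :: l) = mu l := rfl
        have hmm' : ((mu (a :: l) : ℕ) : ℝ) = (((a :: l).prod : ℕ) : ℝ) - mu l := by
          rw [← hmm, hnu]; push_cast; ring
        have hSv : S (a :: l) (2 * κ) = mu (a :: l) := by
          rw [hS, Z_even h, if_pos hn, hl]
          rw [← hmm, hnu]; push_cast; ring
        refine ⟨?_, fun _ => hSv⟩
        simp only [evProd]
        rw [if_pos hn, ofReal_mul, ← ih1, hl, hSv]
        rw [w_cons]
        have hmulR : ((mu l : ℕ) : ℝ) ≠ 0 := by exact_mod_cast hmul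
        have : (1 / ((mu l : ℝ) / (((a :: l).prod : ℕ) : ℝ)) - 1) * (mu l : ℝ) =
            (mu (a :: l) : ℝ) := by
          rw [hmm']; field_simp
        exact_mod_cast this.symm
      · refine ⟨?_, fun h' => absurd h' hn⟩
        rw [hS, Z_even h, if_neg hn]
        simp only [evProd]
        rw [if_neg hn, ofReal_mul, ← ih1]
        push_cast
        ring

/-- P4.2, even exponent (traces): `S_c(2κ) = ∏ (1/w_j - 1 if κ w_j ∈ ℤ, else -1)`. -/
theorem S_even (κ : ℤ) {c : List ℕ} (h : ∀ a ∈ c, 2 ≤ a) : S c (2 * κ) = (evProd κ c : ℂ) :=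
  (S_even_aux κ h).1

end Crest.Agent.R267.P42_339
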