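import Mathlib
import Crest.Agent.R267.P4Defs_780
import Crest.Agent.R267.P42_339

/-!
# S0407, node P4.3 (helper903): the sums of the systems `F_{s,j}` do not depend on `j`.
-/

set_option autoImplicit false

namespace Crest.Agent.R267.P43_903

open Crest.Agent.R267.P4Defs_780 Crest.Agent.R267.P41_339 Crest.Agent.R267.P42_339 Complex
open scoped ComplexConjugate

/-! ### Euclid chains -/

lemma chainOf_zero (b : ℕ) : chainOf 0 b = [] := by
  rw [chainOf]; simp

lemma chainOf_pos {a : ℕ} (ha : 0 < a) (b : ℕ) :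
    chainOf a b = (b / a) :: chainOf (b % a) b := by
  rw [chainOf, dif_neg ha.ne']

/-- all exponents are at least two. -/
lemma chainOf_two (b : ℕ) : ∀ a : ℕ, 2 * a ≤ b → ∀ x ∈ chainOf a b, 2 ≤ x := by
  intro a
  induction a using Nat.strong_induction_on with
  | _ a ih =>
    intro hab x hx
    rcases Nat.eq_zero_or_pos a with rfl | ha
    · rw [chainOf_zero] at hx; simp at hx
    · rw [chainOf_pos ha, List.mem_cons] at hx
      rcases hx with rfl | hx
      · exact (Nat.le_div_iff_mul_le ha).2 hab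
      · have hlt := Nat.mod_lt b ha
        exact ih _ hlt (by omega) x hx

lemma chainOf_good {a b : ℕ} (h : 2 * a ≤ b) : Good (chainOf a b) :=
  Good.of_two (chainOf_two b a h)

/-- the first weight of the Euclid chain is `a / b`. -/
lemma w_chainOf {b : ℕ} (hb : 0 < b) : ∀ a : ℕ, 2 * a ≤ b → w (chainOf a b) = (a : ℝ) / b := by
  intro a
  induction a using Nat.strong_induction_on with
  | _ a ih =>
    intro hab
    rcases Nat.eq_zero_or_pos a with rfl | ha
    · rw [chainOf_zero]; simp [w]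
    · have hlt := Nat.mod_lt b ha
      have hg := chainOf_good hab
      have ihh := ih _ hlt (by omega)
      rw [chainOf_pos ha] at hg ⊢
      have h1 := w_rec hg
      rw [ihh] at h1
      have hbR : (b : ℝ) ≠ 0 := by exact_mod_cast hb.ne'
      have hq : 0 < b / a := Nat.div_pos (by omega) ha
      have hqR : ((b / a : ℕ) : ℝ) ≠ 0 := by exact_mod_cast hq.ne'
      have hdm : (a : ℝ) * ((b / a : ℕ) : ℝ) + ((b % a : ℕ) : ℝ) = b := by
        exact_mod_cast Nat.div_add_mod b a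
      apply mul_left_cancel₀ hqR
      rw [h1]
      field_simp
      linarith

lemma nz_chainOf {b : ℕ} (hb : 0 < b) {κ : ℤ} (hκ : IsCoprime κ (b : ℤ)) :
    ∀ a : ℕ, 2 * a ≤ b → NZ κ (chainOf a b) := by
  intro a
  induction a using Nat.strong_induction_on with
  | _ a ih =>
    intro hab
    rcases Nat.eq_zero_or_pos a with rfl | ha
    · rw [chainOf_zero]; trivial
    · have hlt := Nat.mod_lt b ha
      have hw := w_chainOf hb a hab
      rw [chainOf_pos ha] at hw ⊢
      refine ⟨?_, ih _ hlt (by omega)⟩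
      rw [hw]
      intro h0
      rw [Real.sin_eq_zero_iff] at h0
      obtain ⟨n, hn⟩ := h0
      have hbR : (b : ℝ) ≠ 0 := by exact_mod_cast hb.ne'
      have h1 : (κ : ℝ) * a = 2 * b * n := by
        have hp := Real.pi_pos.ne'
        field_simp at hn
        linear_combination (-1 : ℝ) * hn
      have h2 : κ * a = 2 * b * n := by exact_mod_cast h1
      have h3 : (b : ℤ) ∣ κ * a := ⟨2 * n, by rw [h2]; ring⟩
      have h4 : (b : ℤ) ∣ a := hκ.symm.dvd_of_dvd_mul_left h3
      have h5 : b ∣ a := by exact_mod_cast h4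
      have := Nat.le_of_dvd ha h5
      omega

/-! ### the ratio chain / tail -/

/-- ratio at odd `κ`. -/
lemma ratio_odd {a b : ℕ} (ha : 0 < a) (hab : 2 * a ≤ b) {κ : ℤ} (hodd : Odd κ)
    (hκ : IsCoprime κ (b : ℤ)) :
    S (chainOf a b) κ = (-I * ((Real.cos (Real.pi * κ * (a / b) / 2) /
      Real.sin (Real.pi * κ * (a / b) / 2) : ℝ) : ℂ)) * S (chainOf (b % a) b) κ := by
  have hb : 0 < b := by omega
  have hlt := Nat.mod_lt b ha
  have hw := w_chainOf hb a hab
  have h1 := S_odd hodd (chainOf_good hab) (nz_chainOf hb hκ a hab)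
  have h2 := S_odd hodd (chainOf_good (a := b % a) (b := b) (by omega))
    (nz_chainOf hb hκ (b % a) (by omega))
  rw [h1, h2]
  rw [chainOf_pos ha] at hw ⊢
  simp only [cotProd, List.length_cons]
  rw [hw, ofReal_mul, pow_succ]
  ring

open Classical in
/-- ratio at even exponents. -/
lemma ratio_even {a b : ℕ} (ha : 0 < a) (hab : 2 * a ≤ b) (κ : ℤ) :
    S (chainOf a b) (2 * κ) = ((if ∃ n : ℤ, (κ : ℝ) * (a / b) = n then 1 / ((a : ℝ) / b) - 1
      else -1 : ℝ) : ℂ) * S (chainOf (b % a) b) (2 * κ) := by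
  have hb : 0 < b := by omega
  have hlt := Nat.mod_lt b ha
  have hw := w_chainOf hb a hab
  rw [S_even κ (chainOf_two b a hab), S_even κ (chainOf_two b (b % a) (by omega))]
  rw [chainOf_pos ha] at hw ⊢
  simp only [evProd]
  rw [hw, ofReal_mul]

/-! ### products over systems -/

/-- `∏_{c ∈ T} S_c(κ)`. -/
noncomputable def prodS (T : List (List ℕ)) (κ : ℤ) : ℂ := (T.map (fun c => S c κ)).prod

lemma prodS_nil (κ : ℤ) : prodS [] κ = 1 := rfl

lemma prodS_cons (c : List ℕ) (T : List (List ℕ)) (κ : ℤ) :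
    prodS (c :: T) κ = S c κ * prodS T κ := by
  simp [prodS]

lemma prodS_append (T T' : List (List ℕ)) (κ : ℤ) :
    prodS (T ++ T') κ = prodS T κ * prodS T' κ := by
  simp [prodS]

lemma prodS_replicate (n : ℕ) (c : List ℕ) (κ : ℤ) :
    prodS (List.replicate n c) κ = S c κ ^ n := by
  simp [prodS]

lemma prodS_rep (n : ℕ) (T : List (List ℕ)) (κ : ℤ) :
    prodS (rep n T) κ = prodS T κ ^ n := by
  induction n with
  | zero => simp [rep, prodS]
  | succ n ih =>
    unfold rep at ih ⊢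
    rw [List.replicate_succ, List.flatten_cons, prodS_append, ih, pow_succ']

lemma prodS_filter (T : List (List ℕ)) (κ : ℤ) :
    prodS (T.filter (fun c => c ≠ [])) κ = prodS T κ := by
  induction T with
  | nil => rfl
  | cons c T ih =>
    by_cases hc : c = []
    · subst hc
      rw [List.filter_cons_of_neg (by simp), ih, prodS_cons, S_nil, one_mul]
    · rw [List.filter_cons_of_pos (by simpa using hc), prodS_cons, prodS_cons, ih]

lemma prodS_flatMap (f : ℕ × ℕ × ℤ → List (List ℕ)) (L : List (ℕ × ℕ × ℤ)) (κ : ℤ) :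
    prodS (L.flatMap f) κ = (L.map (fun x => prodS (f x) κ)).prod := by
  induction L with
  | nil => rfl
  | cons x L ih =>
    rw [List.flatMap_cons, prodS_append, ih, List.map_cons, List.prod_cons]

lemma prodS_ZP (L : List (ℕ × ℕ × ℤ)) (κ : ℤ) :
    prodS (ZP L) κ = (L.map (fun x => S (chainOf x.1 x.2.1) κ ^ x.2.2.toNat *
      S (chainOf (x.2.1 % x.1) x.2.1) κ ^ (-x.2.2).toNat)).prod := by
  unfold ZP
  rw [prodS_filter, prodS_flatMap]
  congr 1
  refine List.map_congr_left fun x _ => ?_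
  rw [blockP, prodS_append, prodS_replicate, prodS_replicate]

lemma prodS_ZM (L : List (ℕ × ℕ × ℤ)) (κ : ℤ) :
    prodS (ZM L) κ = (L.map (fun x => S (chainOf (x.2.1 % x.1) x.2.1) κ ^ x.2.2.toNat *
      S (chainOf x.1 x.2.1) κ ^ (-x.2.2).toNat)).prod := by
  unfold ZM
  rw [prodS_filter, prodS_flatMap]
  congr 1
  refine List.map_congr_left fun x _ => ?_
  rw [blockM, prodS_append, prodS_replicate, prodS_replicate]

/-- if `S_chain = g * S_tail` with `g ≠ 0` for all `x ∈ L`, then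
`prodS ZP = (∏ g^z) * prodS ZM`. -/
lemma prodS_ratio (g : ℕ × ℕ × ℤ → ℂ) (κ : ℤ) : ∀ (L : List (ℕ × ℕ × ℤ)),
    (∀ x ∈ L, g x ≠ 0 ∧ S (chainOf x.1 x.2.1) κ = g x * S (chainOf (x.2.1 % x.1) x.2.1) κ) →
    prodS (ZP L) κ = (L.map (fun x => g x ^ x.2.2)).prod * prodS (ZM L) κ := by
  intro L hL
  rw [prodS_ZP, prodS_ZM]
  induction L with
  | nil => simp
  | cons x L ih =>
    have ih' := ih fun y hy => hL y (List.mem_cons_of_mem _ hy)
    obtain ⟨hg, hx⟩ := hL x List.mem_cons_self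
    simp only [List.map_cons, List.prod_cons]
    rw [ih', hx]
    have key : (g x * S (chainOf (x.2.1 % x.1) x.2.1) κ) ^ x.2.2.toNat *
        S (chainOf (x.2.1 % x.1) x.2.1) κ ^ (-x.2.2).toNat =
        g x ^ x.2.2 * (S (chainOf (x.2.1 % x.1) x.2.1) κ ^ x.2.2.toNat *
          (g x * S (chainOf (x.2.1 % x.1) x.2.1) κ) ^ (-x.2.2).toNat) := by
      generalize S (chainOf (x.2.1 % x.1) x.2.1) κ = t
      rcases le_total 0 x.2.2 with hz | hz
      · obtain ⟨n, hn⟩ := Int.eq_ofNat_of_zero_le hz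
        rw [hn]
        simp [mul_pow]
      · obtain ⟨n, hn⟩ := Int.eq_ofNat_of_zero_le (neg_nonneg.2 hz)
        have hn' : x.2.2 = -(n : ℤ) := by omega
        rw [hn']
        simp only [Int.toNat_neg_natCast, pow_zero, one_mul, neg_neg, Int.toNat_natCast,
          zpow_neg, zpow_natCast, mul_pow]
        field_simp
    rw [key]
    ring

/-! ### list products -/

lemma prod_map_pow' {α M : Type} [CommMonoid M] (f : α → M) (n : ℕ) (L : List α) :
    (L.map (fun x => f x ^ n)).prod = (L.map f).prod ^ n := by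
  induction L with
  | nil => simp
  | cons x L ih => simp only [List.map_cons, List.prod_cons, ih, mul_pow]

lemma prod_map_inv' {α M : Type} [DivisionCommMonoid M] (f : α → M) (L : List α) :
    (L.map (fun x => (f x)⁻¹)).prod = ((L.map f).prod)⁻¹ := by
  induction L with
  | nil => simp
  | cons x L ih => simp only [List.map_cons, List.prod_cons, ih, mul_inv]

lemma prod_split (L : List (ℕ × ℕ × ℤ)) (u : ℕ) (hu : 0 < u)
    (h : ∀ x ∈ L, x.2.1 = u ∨ x.2.1 = 3 * u) (f : ℕ × ℕ × ℤ → ℂ) :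
    (L.map f).prod = ((L.filter (fun x => x.2.1 == u)).map f).prod *
      ((L.filter (fun x => x.2.1 == 3 * u)).map f).prod := by
  induction L with
  | nil => simp
  | cons x L ih =>
    have ih' := ih fun y hy => h y (List.mem_cons_of_mem _ hy)
    rcases h x List.mem_cons_self with hx | hx
    · have h1 : (x.2.1 == u) = true := by simpa using hx
      have h2 : ¬ ((x.2.1 == 3 * u) = true) := by
        simp only [beq_iff_eq]; omega
      rw [List.filter_cons_of_pos (p := fun x : ℕ × ℕ × ℤ => x.2.1 == u) h1,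
        List.filter_cons_of_neg (p := fun x : ℕ × ℕ × ℤ => x.2.1 == 3 * u) h2, List.map_cons,
        List.map_cons, List.prod_cons, List.prod_cons, ih', mul_assoc]
    · have h1 : ¬ ((x.2.1 == u) = true) := by
        simp only [beq_iff_eq]; omega
      have h2 : (x.2.1 == 3 * u) = true := by simpa using hx
      rw [List.filter_cons_of_neg (p := fun x : ℕ × ℕ × ℤ => x.2.1 == u) h1,
        List.filter_cons_of_pos (p := fun x : ℕ × ℕ × ℤ => x.2.1 == 3 * u) h2, List.map_cons,
        List.map_cons, List.prod_cons, List.prod_cons, ih']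
      ring

lemma key8 (c s : ℝ) (z : ℤ) :
    ((-I * (((c / s : ℝ)) : ℂ)) ^ z) ^ 8 = ((((|s / c| ^ z : ℝ) : ℂ)) ^ 8)⁻¹ := by
  have hI : (-I) ^ 8 = 1 := by
    rw [show (-I) ^ 8 = (I ^ 4) ^ 2 by ring, I_pow_four, one_pow]
  have e2 : (-I * (((c / s : ℝ)) : ℂ)) ^ 8 = (((|s / c| ^ 8)⁻¹ : ℝ) : ℂ) := by
    rw [mul_pow, hI, one_mul, ← ofReal_pow]
    congr 1
    rw [Even.pow_abs (by decide : Even 8), ← inv_pow, inv_div]
  calc ((-I * (((c / s : ℝ)) : ℂ)) ^ z) ^ 8 = ((-I * (((c / s : ℝ)) : ℂ)) ^ 8) ^ z := by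
        rw [← zpow_natCast, ← zpow_natCast, ← zpow_mul, ← zpow_mul, mul_comm z]
    _ = _ := by
        rw [e2, ← ofReal_zpow, ← ofReal_pow, ← ofReal_inv]
        congr 1
        rw [inv_zpow]
        congr 1
        rw [← zpow_natCast, ← zpow_natCast, ← zpow_mul, ← zpow_mul, mul_comm z]

lemma prod_ofReal {α : Type} (f : α → ℝ) (L : List α) :
    (L.map (fun x => ((f x : ℝ) : ℂ))).prod = (((L.map f).prod : ℝ) : ℂ) := by
  induction L with
  | nil => simp
  | cons x L ih => simp only [List.map_cons, List.prod_cons, ofReal_mul, ih]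

/-- odd case. -/
theorem eight_odd {L : List (ℕ × ℕ × ℤ)} {u : ℕ} (hC : Cert L u) {κ : ℤ} (hodd : Odd κ)
    (hκ : IsCoprime κ ((3 * u : ℕ) : ℤ)) : prodS (ZP L) κ ^ 8 = prodS (ZM L) κ ^ 8 := by
  set g : ℕ × ℕ × ℤ → ℂ := fun x =>
    (-I * ((Real.cos (Real.pi * κ * (x.1 / x.2.1) / 2) /
      Real.sin (Real.pi * κ * (x.1 / x.2.1) / 2) : ℝ) : ℂ)) with hg
  have hcop : ∀ x ∈ L, IsCoprime κ (x.2.1 : ℤ) := by
    intro x hx
    rcases (hC.range x hx).2.2.2 with h | h
    · rw [h]
      refine IsCoprime.of_isCoprime_of_dvd_right hκ ?_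
      exact ⟨3, by push_cast; ring⟩
    · rw [h]; exact hκ
  -- no zero of `sin (πκ a / b)`
  have hns : ∀ x ∈ L, Real.sin (Real.pi * κ * (x.1 / x.2.1)) ≠ 0 := by
    intro x hx h0
    obtain ⟨ha, hab, -, -⟩ := hC.range x hx
    rw [Real.sin_eq_zero_iff] at h0
    obtain ⟨n, hn⟩ := h0
    have hbR : (x.2.1 : ℝ) ≠ 0 := by
      have : x.2.1 ≠ 0 := by omega
      exact_mod_cast this
    have h1 : (κ : ℝ) * x.1 = x.2.1 * n := by
      have hp := Real.pi_pos.ne'
      field_simp at hn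
      linear_combination (-1 : ℝ) * hn
    have h2 : κ * x.1 = x.2.1 * n := by exact_mod_cast h1
    have h3 : (x.2.1 : ℤ) ∣ κ * x.1 := ⟨n, h2⟩
    have h4 : (x.2.1 : ℤ) ∣ x.1 := (hcop x hx).symm.dvd_of_dvd_mul_left h3
    have h5 : x.2.1 ∣ x.1 := by exact_mod_cast h4
    have := Nat.le_of_dvd ha h5
    omega
  have hsc : ∀ x ∈ L, Real.sin (Real.pi * κ * (x.1 / x.2.1) / 2) ≠ 0 ∧
      Real.cos (Real.pi * κ * (x.1 / x.2.1) / 2) ≠ 0 := by
    intro x hx
    have h1 := hns x hx
    have h2 : Real.sin (Real.pi * κ * (x.1 / x.2.1)) =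
        2 * Real.sin (Real.pi * κ * (x.1 / x.2.1) / 2) *
          Real.cos (Real.pi * κ * (x.1 / x.2.1) / 2) := by
      rw [← Real.sin_two_mul]; congr 1; ring
    rw [h2] at h1
    exact ⟨fun h => h1 (by rw [h]; ring), fun h => h1 (by rw [h]; ring)⟩
  have hne : ∀ x ∈ L, g x ≠ 0 := by
    intro x hx
    obtain ⟨h1, h2⟩ := hsc x hx
    refine mul_ne_zero (neg_ne_zero.2 I_ne_zero) ?_
    exact_mod_cast div_ne_zero h2 h1
  have hr := prodS_ratio g κ L fun x hx => ⟨hne x hx, by
    obtain ⟨ha, hab, -, -⟩ := hC.range x hx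
    exact ratio_odd ha (by omega) hodd (hcop x hx)⟩
  have h8 : (L.map (fun x => g x ^ x.2.2)).prod ^ 8 = 1 := by
    rw [← prod_map_pow']
    have h1 : (L.map (fun x => (g x ^ x.2.2) ^ 8)) = L.map (fun x =>
        (((((|Real.tan (Real.pi * κ * x.1 / (2 * x.2.1))| ^ x.2.2 : ℝ)) : ℂ)) ^ 8)⁻¹) := by
      refine List.map_congr_left fun x hx => ?_
      have e1 : Real.pi * κ * x.1 / (2 * x.2.1) = Real.pi * κ * (x.1 / x.2.1) / 2 := by
        have hbR : (x.2.1 : ℝ) ≠ 0 := by
          have : x.2.1 ≠ 0 := by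
            have := hC.range x hx; omega
          exact_mod_cast this
        field_simp
      rw [hg, e1, Real.tan_eq_sin_div_cos]
      exact key8 _ _ _
    rw [h1, prod_map_inv', prod_map_pow', prod_ofReal, hC.tan κ hodd hκ]
    simp
  rw [hr, mul_pow, h8, one_mul]

/-- even case. -/
theorem eight_even {L : List (ℕ × ℕ × ℤ)} {u : ℕ} (hC : Cert L u) (κ : ℤ) :
    prodS (ZP L) (2 * κ) ^ 8 = prodS (ZM L) (2 * κ) ^ 8 := by
  classical
  set r : ℕ × ℕ × ℤ → ℝ := fun x => 1 / ((x.1 : ℝ) / x.2.1) - 1 with hr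
  set g : ℕ × ℕ × ℤ → ℂ := fun x =>
    ((if ∃ n : ℤ, (κ : ℝ) * (x.1 / x.2.1) = n then r x else -1 : ℝ) : ℂ) with hg
  have hrr : ∀ x ∈ L, r x = ((x.2.1 : ℝ) - x.1) / x.1 ∧ r x ≠ 0 := by
    intro x hx
    obtain ⟨ha, hab, -, -⟩ := hC.range x hx
    have haR : (0 : ℝ) < x.1 := by exact_mod_cast ha
    have habR : (2 : ℝ) * x.1 < x.2.1 := by exact_mod_cast hab
    have h1 : r x = ((x.2.1 : ℝ) - x.1) / x.1 := by
      simp only [hr]
      field_simp
    refine ⟨h1, ?_⟩
    rw [h1]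
    exact div_ne_zero (by linarith) haR.ne'
  have hne : ∀ x ∈ L, g x ≠ 0 := by
    intro x hx
    simp only [hg]
    split_ifs
    · exact_mod_cast (hrr x hx).2
    · norm_num
  have hrat := prodS_ratio g (2 * κ) L fun x hx => ⟨hne x hx, by
    obtain ⟨ha, hab, -, -⟩ := hC.range x hx
    exact ratio_even ha (by omega) κ⟩
  have hu : 0 < u := hC.prime.pos
  have hlev : ∀ b : ℕ, ((L.filter (fun x => x.2.1 == b)).map
      (fun x => (g x ^ x.2.2) ^ 8)).prod = 1 := by
    intro b
    have hmem : ∀ x ∈ L.filter (fun x => x.2.1 == b), x ∈ L ∧ x.2.1 = b := by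
      intro x hx
      rw [List.mem_filter] at hx
      exact ⟨hx.1, by simpa using hx.2⟩
    -- the condition is `b ∣ κ`
    have hcond : ∀ x ∈ L.filter (fun x => x.2.1 == b),
        ((∃ n : ℤ, (κ : ℝ) * (x.1 / x.2.1) = n) ↔ (b : ℤ) ∣ κ) := by
      intro x hx
      obtain ⟨hxL, hxb⟩ := hmem x hx
      obtain ⟨ha, hab, hcop, -⟩ := hC.range x hxL
      have hbR : (x.2.1 : ℝ) ≠ 0 := by
        have : x.2.1 ≠ 0 := by omega
        exact_mod_cast this
      rw [← hxb]
      constructor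
      · rintro ⟨n, hn⟩
        have h1 : (κ : ℝ) * x.1 = x.2.1 * n := by
          field_simp at hn
          linear_combination hn
        have h2 : κ * x.1 = x.2.1 * n := by exact_mod_cast h1
        have h3 : IsCoprime (x.1 : ℤ) (x.2.1 : ℤ) := Nat.isCoprime_iff_coprime.2 hcop
        exact h3.symm.dvd_of_dvd_mul_right ⟨n, h2⟩
      · rintro ⟨n, hn⟩
        refine ⟨n * x.1, ?_⟩
        rw [hn]
        push_cast
        field_simp
    by_cases hb : (b : ℤ) ∣ κ
    · have h1 : ((L.filter (fun x => x.2.1 == b)).map (fun x => (g x ^ x.2.2) ^ 8)) =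
          ((L.filter (fun x => x.2.1 == b)).map
            (fun x => (((((x.2.1 : ℚ) - x.1) / x.1) ^ x.2.2 : ℚ) : ℂ) ^ 8)) := by
        refine List.map_congr_left fun x hx => ?_
        have h2 := (hcond x hx).2 hb
        simp only [hg]
        rw [if_pos h2, (hrr x (hmem x hx).1).1]
        push_cast
        rfl
      rw [h1, prod_map_pow']
      have h3 : ((L.filter (fun x => x.2.1 == b)).map
          (fun x => ((((((x.2.1 : ℚ) - x.1) / x.1) ^ x.2.2 : ℚ)) : ℂ))).prod =
          ((((L.filter (fun x => x.2.1 == b)).map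
            (fun x => (((x.2.1 : ℚ) - x.1) / x.1) ^ x.2.2)).prod : ℚ) : ℂ) := by
        generalize L.filter (fun x => x.2.1 == b) = L'
        induction L' with
        | nil => simp
        | cons x L' ih => simp only [List.map_cons, List.prod_cons, Rat.cast_mul, ih]
      rw [h3, hC.zeta b]
      simp
    · have h1 : ((L.filter (fun x => x.2.1 == b)).map (fun x => (g x ^ x.2.2) ^ 8)) =
          ((L.filter (fun x => x.2.1 == b)).map (fun _ => (1 : ℂ))) := by
        refine List.map_congr_left fun x hx => ?_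
        have h2 : ¬ ∃ n : ℤ, (κ : ℝ) * (x.1 / x.2.1) = n := fun h => hb ((hcond x hx).1 h)
        simp only [hg]
        rw [if_neg h2]
        have h3 : (((-1 : ℝ) : ℂ) ^ x.2.2) ^ 8 = ((((-1 : ℝ) : ℂ)) ^ 8) ^ x.2.2 := by
          rw [← zpow_natCast, ← zpow_natCast, ← zpow_mul, ← zpow_mul, mul_comm x.2.2]
        rw [h3]
        norm_num
      rw [h1]
      simp
  have h8 : (L.map (fun x => g x ^ x.2.2)).prod ^ 8 = 1 := by
    rw [← prod_map_pow', prod_split L u hu (fun x hx => (hC.range x hx).2.2.2), hlev, hlev, one_mul]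
  rw [hrat, mul_pow, h8, one_mul]

/-! ### killers -/

lemma S_single {a : ℕ} (ha : 0 < a) (κ : ℤ) :
    S [a] κ = (∑ s ∈ Finset.range a, u (-(κ * w [a])) ^ s) - 1 := by
  have hg : Good [a] := by
    intro x hx
    rw [List.mem_singleton] at hx
    rw [hx]; exact ha
  have h1 := Z_eq_S_add hg κ
  have h2 := Z_cons hg κ
  rw [S_nil] at h1
  rw [Z_nil] at h2
  simp only [List.length_nil, Nat.cast_zero, mul_zero, u_zero, map_one, mul_one, one_mul] at h1 h2
  rw [← h2, h1]
  ring

lemma killer {a : ℕ} (ha : Odd a) {κ : ℤ} (hodd : Odd κ) (hd : (a : ℤ) ∣ κ) : S [a] κ = 0 := by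
  obtain ⟨m, hm⟩ := hd
  have ha0 : 0 < a := ha.pos
  have haR : (a : ℝ) ≠ 0 := by exact_mod_cast ha0.ne'
  have hm' : Odd m := by
    rw [hm] at hodd
    exact (Int.odd_mul.1 hodd).2
  have h1 : u (-(κ * w [a])) = -1 := by
    have : -((κ : ℝ) * w [a]) = ((-m : ℤ) : ℝ) := by
      rw [hm]
      simp only [w, mu, List.prod_nil]
      push_cast
      field_simp
    rw [this, u_int_odd hm'.neg]
  rw [S_single ha0, h1, neg_one_geom_sum, if_neg (Nat.not_even_iff_odd.2 ha), sub_self]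

/-! ### the family -/

theorem prodS_F (L : List (ℕ × ℕ × ℤ)) (v : ℕ) (q : List ℕ) (s j : ℕ) (κ : ℤ) :
    prodS (F L v q s j) κ = S [3] κ ^ 8 * S [v] κ ^ 8 * (prodS (ZP L) κ ^ 8) ^ (s - j) *
      (prodS (ZM L) κ ^ 8) ^ j * prodS (q.map (fun x => [x])) κ := by
  unfold F
  rw [prodS_append, prodS_append, prodS_append, prodS_append, prodS_rep, prodS_rep, prodS_rep,
    prodS_rep, prodS_cons, prodS_cons, prodS_nil, mul_one, mul_one, pow_mul, pow_mul]

/-- **P4.3.** -/
theorem prodS_F_eq {L : List (ℕ × ℕ × ℤ)} {v : ℕ} (hC : Cert L v) (q : List ℕ) {s i j : ℕ}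
    (hi : i ≤ s) (hj : j ≤ s) (κ : ℤ) :
    prodS (F L v q s i) κ = prodS (F L v q s j) κ := by
  rw [prodS_F, prodS_F]
  have hvodd : Odd v := hC.prime.odd_of_ne_two (by have := hC.big; omega)
  by_cases h0 : S [3] κ = 0 ∨ S [v] κ = 0
  · rcases h0 with h0 | h0 <;> rw [h0] <;> simp
  · push Not at h0
    have h8 : prodS (ZP L) κ ^ 8 = prodS (ZM L) κ ^ 8 := by
      rcases Int.even_or_odd' κ with ⟨m, rfl | rfl⟩
      · exact eight_even hC m
      · have hodd : Odd (2 * m + 1) := ⟨m, rfl⟩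
        have h3 : ¬ ((3 : ℕ) : ℤ) ∣ (2 * m + 1) := fun h => h0.1 (killer (by decide) hodd h)
        have hv : ¬ ((v : ℕ) : ℤ) ∣ (2 * m + 1) := fun h => h0.2 (killer hvodd hodd h)
        refine eight_odd hC hodd ?_
        have c3 : IsCoprime (2 * m + 1 : ℤ) ((3 : ℕ) : ℤ) := by
          have hp : Prime ((3 : ℕ) : ℤ) := Nat.prime_iff_prime_int.1 (by norm_num)
          exact ((Prime.coprime_iff_not_dvd hp).2 h3).symm
        have cv : IsCoprime (2 * m + 1 : ℤ) ((v : ℕ) : ℤ) := by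
          have hp : Prime ((v : ℕ) : ℤ) := Nat.prime_iff_prime_int.1 hC.prime
          exact ((Prime.coprime_iff_not_dvd hp).2 hv).symm
        push_cast at c3 cv ⊢
        exact c3.mul_right cv
    rw [h8]
    have e1 : (prodS (ZM L) κ ^ 8) ^ (s - i) * (prodS (ZM L) κ ^ 8) ^ i =
        (prodS (ZM L) κ ^ 8) ^ (s - j) * (prodS (ZM L) κ ^ 8) ^ j := by
      rw [← pow_add, ← pow_add, Nat.sub_add_cancel hi, Nat.sub_add_cancel hj]
    linear_combination (S [3] κ ^ 8 * S [v] κ ^ 8 * prodS (q.map (fun x => [x])) κ) * e1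

/-! ### number of roots -/

/-- number of roots of `phi c`. -/
theorem card_rootSet {c : List ℕ} (h : ∀ a ∈ c, 2 ≤ a) : (rootSet c).card = mu c := by
  have h1 := (S_even_aux 0 h).2 ⟨0, by simp⟩
  unfold S at h1
  simp only [mul_zero, Int.cast_zero, zero_mul, u_zero, Finset.sum_const, nsmul_eq_mul,
    mul_one] at h1
  exact_mod_cast h1

end Crest.Agent.R267.P43_903
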