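import Mathlib
import Crest.Agent.R267.P4Defs_780

/-!
# S0407, REALS part 1 (helper903): real congruence from complex diagonalisation data.

`Diag A ι σ z`: the real matrix `A` is `V^H diag(z) V` with `V` invertible and `σ` the complex
conjugation on the index set.  Two such matrices with the same multiset of `z`'s and `σ` without
fixed points are congruent over `ℝ`.
-/

set_option autoImplicit false

namespace Crest.Agent.R267.Reals_903

open Matrix Crest.Agent.R267.P4Defs_780

/-- complex diagonalisation data of a real bilinear form. -/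
structure Diag {n : Type} [Fintype n] [DecidableEq n] (A : Matrix n n ℝ)
    (ι : Type) [Fintype ι] [DecidableEq ι] (σ : ι → ι) (z : ι → ℂ) where
  V : Matrix ι n ℂ
  W : Matrix n ι ℂ
  VW : V * W = 1
  WV : W * V = 1
  inv : ∀ k, σ (σ k) = k
  conjV : ∀ k j, V (σ k) j = (starRingEnd ℂ) (V k j)
  form : ∀ i j, (A i j : ℂ) = ∑ k, z k * ((starRingEnd ℂ) (V k i) * V k j)

section Cong

variable {n n' : Type} [Fintype n] [DecidableEq n] [Fintype n'] [DecidableEq n']
  {A : Matrix n n ℝ} {A' : Matrix n' n' ℝ}
  {ι ι' : Type} [Fintype ι] [DecidableEq ι] [Fintype ι'] [DecidableEq ι']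
  {σ : ι → ι} {σ' : ι' → ι'} {z : ι → ℂ} {z' : ι' → ℂ}

lemma Diag.conjW (D : Diag A ι σ z) (i : n) (k : ι) :
    D.W i (σ k) = (starRingEnd ℂ) (D.W i k) := by
  have hσ : Function.Involutive σ := D.inv
  set e : ι ≃ ι := hσ.toPerm σ
  -- `W.submatrix id σ` and `conj W` are both inverse to `conj V`
  have h1 : D.V.map (starRingEnd ℂ) = D.V.submatrix e id := by
    ext k j
    simp only [Matrix.map_apply, Matrix.submatrix_apply, id]
    exact (D.conjV k j).symm
  have h2 : (D.V.map (starRingEnd ℂ)) * (D.W.map (starRingEnd ℂ)) = 1 := by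
    rw [← Matrix.map_mul, D.VW, Matrix.map_one _ (map_zero _) (map_one _)]
  have h3 : (D.W.submatrix id e) * (D.V.submatrix e id) = 1 := by
    rw [Matrix.submatrix_mul_equiv, D.WV, Matrix.submatrix_id_id]
  have h4 : D.W.submatrix id e = D.W.map (starRingEnd ℂ) := by
    calc D.W.submatrix id e = D.W.submatrix id e * ((D.V.map (starRingEnd ℂ)) *
          (D.W.map (starRingEnd ℂ))) := by rw [h2, Matrix.mul_one]
      _ = (D.W.submatrix id e * D.V.submatrix e id) * (D.W.map (starRingEnd ℂ)) := by
          rw [h1, Matrix.mul_assoc]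
      _ = _ := by rw [h3, Matrix.one_mul]
  have h5 := congrFun (congrFun h4 i) k
  simpa [e] using h5

/-- transition matrix of an equivariant bijection. -/
noncomputable def trans (D : Diag A ι σ z) (D' : Diag A' ι' σ' z') (τ : ι ≃ ι') :
    Matrix n n' ℂ := D.W * D'.V.submatrix τ id

lemma trans_real (D : Diag A ι σ z) (D' : Diag A' ι' σ' z') (τ : ι ≃ ι')
    (hτ : ∀ k, τ (σ k) = σ' (τ k)) (i : n) (j : n') :
    (starRingEnd ℂ) (trans D D' τ i j) = trans D D' τ i j := by
  have hσ : Function.Involutive σ := D.inv
  unfold trans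
  simp only [Matrix.mul_apply, Matrix.submatrix_apply, id, map_sum, map_mul]
  have h1 : ∀ k, (starRingEnd ℂ) (D.W i k) * (starRingEnd ℂ) (D'.V (τ k) j) =
      D.W i (σ k) * D'.V (τ (σ k)) j := by
    intro k
    rw [D.conjW, hτ, D'.conjV]
  simp only [h1]
  exact Equiv.sum_comp (hσ.toPerm σ) (fun k => D.W i k * D'.V (τ k) j)

lemma trans_mul (D : Diag A ι σ z) (D' : Diag A' ι' σ' z') (τ : ι ≃ ι') :
    trans D D' τ * trans D' D τ.symm = 1 := by
  unfold trans
  calc D.W * D'.V.submatrix τ id * (D'.W * D.V.submatrix τ.symm id)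
      = D.W * ((D'.V.submatrix τ id * D'.W) * D.V.submatrix τ.symm id) := by
        simp only [Matrix.mul_assoc]
    _ = D.W * D.V := by
        congr 1
        have h1 : D'.V.submatrix τ id * D'.W = (1 : Matrix ι' ι' ℂ).submatrix τ id := by
          have := D'.VW
          rw [← this]
          ext i j
          simp [Matrix.mul_apply]
        rw [h1]
        ext k j
        simp [Matrix.mul_apply, Matrix.one_apply]
    _ = 1 := D.WV

theorem cong_of_diag (D : Diag A ι σ z) (D' : Diag A' ι' σ' z') (τ : ι ≃ ι')
    (hτ : ∀ k, τ (σ k) = σ' (τ k)) (hz : ∀ k, z' (τ k) = z k) : Cong ℝ A A' := by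
  have hτ' : ∀ k, τ.symm (σ' k) = σ (τ.symm k) := by
    intro k
    rw [Equiv.symm_apply_eq, hτ, Equiv.apply_symm_apply]
  have hinj : Function.Injective (Complex.ofReal : ℝ → ℂ) := Complex.ofReal_injective
  set P : Matrix n n' ℝ := (trans D D' τ).map Complex.re with hP
  set Q : Matrix n' n ℝ := (trans D' D τ.symm).map Complex.re with hQ
  have hPc : P.map Complex.ofRealHom = trans D D' τ := by
    ext i j
    simp only [hP, Matrix.map_apply, Complex.ofRealHom_eq_coe]
    exact Complex.conj_eq_iff_re.1 (trans_real D D' τ hτ i j)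
  have hQc : Q.map Complex.ofRealHom = trans D' D τ.symm := by
    ext i j
    simp only [hQ, Matrix.map_apply, Complex.ofRealHom_eq_coe]
    exact Complex.conj_eq_iff_re.1 (trans_real D' D τ.symm hτ' i j)
  have hmapinj : ∀ {a b : Type} (X Y : Matrix a b ℝ),
      X.map Complex.ofRealHom = Y.map Complex.ofRealHom → X = Y := by
    intro a b X Y h
    ext i j
    have := congrFun (congrFun h i) j
    exact hinj this
  refine ⟨P, Q, ?_, ?_, ?_⟩
  · apply hmapinj
    rw [Matrix.map_mul, hPc, hQc, trans_mul, Matrix.map_one _ (map_zero _) (map_one _)]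
  · apply hmapinj
    rw [Matrix.map_mul, hPc, hQc, Matrix.map_one _ (map_zero _) (map_one _)]
    have := trans_mul D' D τ.symm
    rwa [Equiv.symm_symm] at this
  · apply hmapinj
    rw [Matrix.map_mul, Matrix.map_mul, Matrix.transpose_map, hPc]
    have hVP : D.V * trans D D' τ = D'.V.submatrix τ id := by
      unfold trans
      rw [← Matrix.mul_assoc, D.VW, Matrix.one_mul]
    have hA : A.map Complex.ofRealHom = D.Vᴴ * Matrix.diagonal z * D.V := by
      ext i j
      simp only [Matrix.map_apply, Complex.ofRealHom_eq_coe]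
      rw [D.form, Matrix.mul_assoc, Matrix.mul_apply]
      refine Finset.sum_congr rfl fun k _ => ?_
      rw [Matrix.diagonal_mul, Matrix.conjTranspose_apply, RCLike.star_def]
      ring
    have hreal : (trans D D' τ)ᵀ = (trans D D' τ)ᴴ := by
      ext i j
      rw [Matrix.transpose_apply, Matrix.conjTranspose_apply, RCLike.star_def,
        trans_real D D' τ hτ]
    rw [hreal, hA]
    calc (trans D D' τ)ᴴ * (D.Vᴴ * Matrix.diagonal z * D.V) * trans D D' τ
        = (D.V * trans D D' τ)ᴴ * Matrix.diagonal z * (D.V * trans D D' τ) := by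
          rw [Matrix.conjTranspose_mul]; simp only [Matrix.mul_assoc]
      _ = _ := by
          rw [hVP]
          ext i j
          simp only [Matrix.map_apply, Complex.ofRealHom_eq_coe]
          rw [D'.form, Matrix.mul_assoc, Matrix.mul_apply, ← Equiv.sum_comp τ]
          refine Finset.sum_congr rfl fun k _ => ?_
          rw [Matrix.diagonal_mul, Matrix.conjTranspose_apply, RCLike.star_def,
            Matrix.submatrix_apply, Matrix.submatrix_apply, hz]
          simp only [id]
          ring

end Cong

section Match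

variable {ι ι' : Type} [Fintype ι] [DecidableEq ι] [Fintype ι'] [DecidableEq ι']
  {σ : ι → ι} {σ' : ι' → ι'} {z : ι → ℂ} {z' : ι' → ℂ}

/-- inductive matching. -/
lemma match_aux [Nonempty ι'] (hσ : ∀ k, σ (σ k) = k) (hσ' : ∀ k, σ' (σ' k) = k)
    (hne : ∀ k, σ k ≠ k)
    (hne' : ∀ k, σ' k ≠ k) (hz : ∀ k, z (σ k) = (starRingEnd ℂ) (z k))
    (hz' : ∀ k, z' (σ' k) = (starRingEnd ℂ) (z' k)) (N : ℕ) :
    ∀ (s : Finset ι) (s' : Finset ι'), s.card = N → (∀ k ∈ s, σ k ∈ s) → (∀ k ∈ s', σ' k ∈ s') →
      Multiset.map z s.val = Multiset.map z' s'.val →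
      ∃ g : ι → ι', (∀ k ∈ s, g k ∈ s' ∧ g (σ k) = σ' (g k) ∧ z' (g k) = z k) ∧
        Set.InjOn g s := by
  induction N using Nat.strong_induction_on with
  | _ N ih =>
    intro s s' hs h1 h2 hm
    rcases s.eq_empty_or_nonempty with rfl | ⟨x, hx⟩
    · exact ⟨fun _ => Classical.arbitrary ι', by simp, by simp⟩
    · have hyy : z x ∈ Multiset.map z' s'.val := by
        rw [← hm]; exact Multiset.mem_map_of_mem z hx
      obtain ⟨y, hy', hyx⟩ := Multiset.mem_map.1 hyy
      have hy : y ∈ s' := hy'
      have hσx := h1 x hx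
      have hσy := h2 y hy
      have injσ : ∀ a b, σ a = σ b → a = b := fun a b h => by rw [← hσ a, h, hσ]
      have injσ' : ∀ a b, σ' a = σ' b → a = b := fun a b h => by rw [← hσ' a, h, hσ']
      obtain ⟨g, hg, hgi⟩ := ih ((s.erase x).erase (σ x)).card (by
          rw [← hs]
          refine lt_of_le_of_lt (Finset.card_le_card (Finset.erase_subset _ _)) ?_
          exact Finset.card_erase_lt_of_mem hx)
        ((s.erase x).erase (σ x)) ((s'.erase y).erase (σ' y)) rfl
        (by
          intro k hk
          simp only [Finset.mem_erase] at hk ⊢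
          refine ⟨fun h => hk.2.1 (injσ _ _ h), fun h => hk.1 ?_, h1 k hk.2.2⟩
          rw [← hσ k, h])
        (by
          intro k hk
          simp only [Finset.mem_erase] at hk ⊢
          refine ⟨fun h => hk.2.1 (injσ' _ _ h), fun h => hk.1 ?_, h2 k hk.2.2⟩
          rw [← hσ' k, h])
        (by
          rw [Finset.erase_val, Finset.erase_val, Finset.erase_val, Finset.erase_val,
            Multiset.map_erase_of_mem z _ (by
              rw [← Finset.erase_val]; exact Finset.mem_erase.2 ⟨hne x, hσx⟩),
            Multiset.map_erase_of_mem z' _ (by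
              rw [← Finset.erase_val]; exact Finset.mem_erase.2 ⟨hne' y, hσy⟩),
            Multiset.map_erase_of_mem z _ hx, Multiset.map_erase_of_mem z' _ hy, hm, hyx, hz, hz',
            hyx])
      refine ⟨fun k => if k = x then y else if k = σ x then σ' y else g k, ?_, ?_⟩
      · intro k hk
        by_cases hkx : k = x
        · subst hkx
          refine ⟨?_, ?_, ?_⟩
          · simpa using hy
          · simp [hne k]
          · simpa using hyx
        · by_cases hkσ : k = σ x
          · subst hkσ
            refine ⟨?_, ?_, ?_⟩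
            · simpa [hne x] using hσy
            · simp [hσ, hσ', hne x]
            · simp [hne x, hz, hz', hyx]
          · have hk' : k ∈ (s.erase x).erase (σ x) := by
              simp only [Finset.mem_erase]; exact ⟨hkσ, hkx, hk⟩
            obtain ⟨g1, g2, g3⟩ := hg k hk'
            have n1 : σ k ≠ x := fun h => hkσ (by rw [← h, hσ])
            have n2 : σ k ≠ σ x := fun h => hkx (injσ _ _ h)
            simp only [if_neg hkx, if_neg hkσ, if_neg n1, if_neg n2]
            simp only [Finset.mem_erase] at g1
            exact ⟨g1.2.2, g2, g3⟩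
      · intro a ha b hb hab
        have key : ∀ k ∈ s, k ≠ x → k ≠ σ x → g k ≠ y ∧ g k ≠ σ' y := by
          intro k hk hkx hkσ
          have hk' : k ∈ (s.erase x).erase (σ x) := by
            simp only [Finset.mem_erase]; exact ⟨hkσ, hkx, hk⟩
          have := (hg k hk').1
          simp only [Finset.mem_erase] at this
          exact ⟨this.2.1, this.1⟩
        simp only at hab
        by_cases hax : a = x
        · by_cases hbx : b = x
          · rw [hax, hbx]
          · rw [if_pos hax, if_neg hbx] at hab
            by_cases hbσ : b = σ x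
            · rw [if_pos hbσ] at hab; exact absurd hab.symm (hne' y)
            · rw [if_neg hbσ] at hab; exact absurd hab.symm (key b hb hbx hbσ).1
        · rw [if_neg hax] at hab
          by_cases haσ : a = σ x
          · rw [if_pos haσ] at hab
            by_cases hbx : b = x
            · rw [if_pos hbx] at hab; exact absurd hab (hne' y)
            · rw [if_neg hbx] at hab
              by_cases hbσ : b = σ x
              · rw [haσ, hbσ]
              · rw [if_neg hbσ] at hab; exact absurd hab.symm (key b hb hbx hbσ).2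
          · rw [if_neg haσ] at hab
            by_cases hbx : b = x
            · rw [if_pos hbx] at hab; exact absurd hab (key a ha hax haσ).1
            · rw [if_neg hbx] at hab
              by_cases hbσ : b = σ x
              · rw [if_pos hbσ] at hab; exact absurd hab (key a ha hax haσ).2
              · rw [if_neg hbσ] at hab
                apply hgi _ _ hab
                · simp only [Finset.coe_erase, Set.mem_sdiff, Set.mem_singleton_iff]
                  exact ⟨⟨ha, hax⟩, haσ⟩
                · simp only [Finset.coe_erase, Set.mem_sdiff, Set.mem_singleton_iff]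
                  exact ⟨⟨hb, hbx⟩, hbσ⟩

/-- equivariant matching of two index sets with the same multiset of values. -/
theorem exists_match (hσ : ∀ k, σ (σ k) = k) (hσ' : ∀ k, σ' (σ' k) = k)
    (hne : ∀ k, σ k ≠ k)
    (hne' : ∀ k, σ' k ≠ k) (hz : ∀ k, z (σ k) = (starRingEnd ℂ) (z k))
    (hz' : ∀ k, z' (σ' k) = (starRingEnd ℂ) (z' k))
    (hm : Multiset.map z (Finset.univ : Finset ι).val =
      Multiset.map z' (Finset.univ : Finset ι').val) :
    ∃ τ : ι ≃ ι', (∀ k, τ (σ k) = σ' (τ k)) ∧ ∀ k, z' (τ k) = z k := by
  have hcard : Fintype.card ι = Fintype.card ι' := by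
    have := congrArg Multiset.card hm
    simpa using this
  rcases isEmpty_or_nonempty ι' with he | he
  · have hι : IsEmpty ι := by
      rw [← Fintype.card_eq_zero_iff, hcard, Fintype.card_eq_zero_iff]; exact he
    exact ⟨Equiv.equivOfIsEmpty ι ι', fun k => (hι.false k).elim, fun k => (hι.false k).elim⟩
  · obtain ⟨g, hg, hgi⟩ := match_aux hσ hσ' hne hne' hz hz' _ Finset.univ Finset.univ rfl
      (by simp) (by simp) hm
    have hinj : Function.Injective g := by
      intro a b hab
      exact hgi (by simp) (by simp) hab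
    have hbij : Function.Bijective g := (Fintype.bijective_iff_injective_and_card g).2 ⟨hinj, hcard⟩
    exact ⟨Equiv.ofBijective g hbij, fun k => (hg k (by simp)).2.1, fun k => (hg k (by simp)).2.2⟩

end Match

section Power

variable {ι ι' : Type} [Fintype ι] [Fintype ι']

/-- equal power sums imply equal multisets of values. -/
theorem multiset_eq_of_powersums {f : ι → ℂ} {f' : ι' → ℂ}
    (h : ∀ n : ℕ, ∑ k, f k ^ n = ∑ k, f' k ^ n) :
    Multiset.map f (Finset.univ : Finset ι).val = Multiset.map f' (Finset.univ : Finset ι').val := by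
  classical
  have hp : ∀ p : Polynomial ℂ, ∑ k, p.eval (f k) = ∑ k, p.eval (f' k) := by
    intro p
    simp only [Polynomial.eval_eq_sum_range]
    rw [Finset.sum_comm, Finset.sum_comm (s := (Finset.univ : Finset ι'))]
    refine Finset.sum_congr rfl fun i _ => ?_
    rw [← Finset.mul_sum, ← Finset.mul_sum, h]
  ext z
  rw [Multiset.count_map, Multiset.count_map]
  set T : Finset ℂ := (Finset.univ.image f ∪ Finset.univ.image f').erase z with hT
  set p : Polynomial ℂ := ∏ w ∈ T, (Polynomial.X - Polynomial.C w) with hpdef
  have hpz : p.eval z ≠ 0 := by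
    rw [hpdef, Polynomial.eval_prod, Finset.prod_ne_zero_iff]
    intro w hw
    simp only [Polynomial.eval_sub, Polynomial.eval_X, Polynomial.eval_C]
    rw [sub_ne_zero]
    exact (Finset.ne_of_mem_erase hw).symm
  have hp0 : ∀ w ∈ T, p.eval w = 0 := by
    intro w hw
    rw [hpdef, Polynomial.eval_prod]
    exact Finset.prod_eq_zero hw (by simp)
  have key := hp p
  have e1 : ∀ k, p.eval (f k) = if z = f k then p.eval z else 0 := by
    intro k
    by_cases hk : z = f k
    · rw [if_pos hk, ← hk]
    · rw [if_neg hk]
      apply hp0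
      rw [hT, Finset.mem_erase]
      exact ⟨fun h => hk h.symm, Finset.mem_union_left _ (Finset.mem_image_of_mem f (Finset.mem_univ k))⟩
  have e2 : ∀ k, p.eval (f' k) = if z = f' k then p.eval z else 0 := by
    intro k
    by_cases hk : z = f' k
    · rw [if_pos hk, ← hk]
    · rw [if_neg hk]
      apply hp0
      rw [hT, Finset.mem_erase]
      exact ⟨fun h => hk h.symm, Finset.mem_union_right _ (Finset.mem_image_of_mem f' (Finset.mem_univ k))⟩
  simp only [e1, e2] at key
  rw [← Finset.sum_filter, ← Finset.sum_filter, Finset.sum_const, Finset.sum_const,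
    nsmul_eq_mul, nsmul_eq_mul] at key
  have key2 := mul_right_cancel₀ hpz key
  have key3 : (Finset.univ.filter (fun k => z = f k)).card =
      (Finset.univ.filter (fun k => z = f' k)).card := by exact_mod_cast key2
  exact key3

end Power

end Crest.Agent.R267.Reals_903
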