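import Mathlib
import Crest.Agent.R267.P4Defs_780
import Crest.Agent.R267.P43_903
import Crest.Agent.R267.Reals_903

/-!
# S0407, REALS part 2 (helper903): diagonalisation data of the Seifert matrices of chains and
systems; the theorem REALS.
-/

set_option autoImplicit false

namespace Crest.Agent.R267.RealsB_903

open Crest.Agent.R267.P4Defs_780 Crest.Agent.R267.P41_339 Crest.Agent.R267.P42_339
open Crest.Agent.R267.P43_903 Crest.Agent.R267.Reals_903
open Complex Matrix
open scoped ComplexConjugate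

/-! ### one chain -/

/-- index type: roots of `phi c`. -/
abbrev RI (c : List ℕ) : Type := {m : ℕ // m ∈ rootSet c}

/-- the argument `x = m / r`. -/
noncomputable def xx (c : List ℕ) (m : ℕ) : ℝ := (m : ℝ) / ((c.prod : ℕ) : ℝ)

/-- conjugation on indices. -/
def sg (c : List ℕ) (m : ℕ) : ℕ := (c.prod - m) % c.prod

lemma e_conj (x : ℝ) : conj (e x) = e (-x) := by
  unfold e
  rw [← exp_conj]
  congr 1
  rw [map_mul, conj_I, conj_ofReal]
  push_cast
  ring

lemma e_sg {c : List ℕ} (hc : 0 < c.prod) {m : ℕ} (hm : m < c.prod) :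
    e (xx c (sg c m)) = e (-(xx c m)) := by
  have hr : ((c.prod : ℕ) : ℝ) ≠ 0 := by exact_mod_cast hc.ne'
  unfold xx sg
  rcases Nat.eq_zero_or_pos m with rfl | h0
  · simp
  · rw [Nat.mod_eq_of_lt (by omega), Nat.cast_sub hm.le]
    have : (((c.prod : ℕ) : ℝ) - m) / ((c.prod : ℕ) : ℝ) = -(m / ((c.prod : ℕ) : ℝ)) + ((1 : ℤ) : ℝ) := by
      rw [Int.cast_one, sub_div, div_self hr]; ring
    rw [this, e_add, e_int, mul_one]

lemma sg_lt {c : List ℕ} (hc : 0 < c.prod) (m : ℕ) : sg c m < c.prod := Nat.mod_lt _ hc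

lemma sg_sg {c : List ℕ} {m : ℕ} (hm : m < c.prod) : sg c (sg c m) = m := by
  unfold sg
  rcases Nat.eq_zero_or_pos m with rfl | h0
  · simp
  · rw [Nat.mod_eq_of_lt (by omega : c.prod - m < c.prod), Nat.mod_eq_of_lt (by omega)]
    omega

lemma aeval_conj (x : ℂ) (p : Polynomial ℤ) :
    Polynomial.aeval (conj x) p = conj (Polynomial.aeval x p) := by
  have h := Polynomial.hom_eval₂ p (Int.castRingHom ℂ) (starRingEnd ℂ) x
  have h2 : (starRingEnd ℂ).comp (Int.castRingHom ℂ) = Int.castRingHom ℂ := by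
    ext; simp
  rw [h2] at h
  rw [Polynomial.aeval_def, Polynomial.aeval_def]
  exact h.symm

lemma mem_rootSet {c : List ℕ} {m : ℕ} : m ∈ rootSet c ↔
    m < c.prod ∧ Polynomial.aeval (e (xx c m)) (phi c) = 0 := by
  unfold rootSet xx
  rw [Finset.mem_filter, Finset.mem_range]

lemma sg_mem {c : List ℕ} (hc : 0 < c.prod) {m : ℕ} (hm : m ∈ rootSet c) : sg c m ∈ rootSet c := by
  rw [mem_rootSet] at hm ⊢
  refine ⟨sg_lt hc m, ?_⟩
  rw [e_sg hc hm.1, ← e_conj, aeval_conj, hm.2, map_zero]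

lemma RI_pos {c : List ℕ} (m : RI c) : 0 < c.prod :=
  lt_of_le_of_lt (Nat.zero_le _) (mem_rootSet.1 m.2).1

/-- conjugation on the index type. -/
def sig (c : List ℕ) : RI c → RI c := fun m => ⟨sg c m.1, sg_mem (RI_pos m) m.2⟩

lemma sig_sig (c : List ℕ) (m : RI c) : sig c (sig c m) = m := by
  apply Subtype.ext
  exact sg_sg (mem_rootSet.1 m.2).1

/-- the unit multiplier. -/
noncomputable def zc (c : List ℕ) (m : RI c) : ℂ :=
  u ((c.length : ℝ) / 2 + alpha c (xx c m.1))

lemma norm_u (y : ℝ) : ‖u y‖ = 1 := by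
  unfold u
  exact norm_exp_ofReal_mul_I _

lemma pm_norm {z w : ℂ} (h : PM z w) (hw : ‖w‖ = 1) : z = (‖z‖ : ℝ) * w := by
  obtain ⟨p, hp, rfl⟩ := h
  rw [norm_mul, hw, mul_one, norm_real, Real.norm_of_nonneg hp.le]

lemma rho_pm {a : ℕ} {l : List ℕ} (h : Good (a :: l)) (m : RI (a :: l)) :
    PM (rho a l (xx (a :: l) m.1)) (zc (a :: l) m) := by
  apply rho_arg h
  have hm := mem_rootSet.1 m.2
  have h1 : Polynomial.aeval (e (-(xx (a :: l) m.1))) (phi (a :: l)) = 0 := by
    rw [← e_conj, aeval_conj, hm.2, map_zero]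
  refine not_both h ?_ h1
  rw [e_neg, inv_pow, inv_eq_one]
  have := e_div_pow (a :: l).prod m.1 h.prod_pos
  rw [← List.prod_cons]
  exact this

lemma rho_ne {a : ℕ} {l : List ℕ} (h : Good (a :: l)) (m : RI (a :: l)) :
    rho a l (xx (a :: l) m.1) ≠ 0 := by
  obtain ⟨p, hp, h1⟩ := rho_pm h m
  rw [h1]
  refine mul_ne_zero (by exact_mod_cast hp.ne') ?_
  exact u_ne_zero _

lemma rho_sig {a : ℕ} {l : List ℕ} (h : Good (a :: l)) (m : RI (a :: l)) :
    rho a l (xx (a :: l) (sig (a :: l) m).1) = conj (rho a l (xx (a :: l) m.1)) := by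
  have hm := mem_rootSet.1 m.2
  unfold rho
  rw [map_div₀, ← aeval_conj, e_conj]
  congr 1
  · congr 1
    rw [neg_neg, e_neg]
    have : e (xx (a :: l) (sig (a :: l) m).1) = e (-(xx (a :: l) m.1)) :=
      e_sg h.prod_pos hm.1
    rw [this, e_neg, inv_inv]
  · rw [map_natCast]

lemma zc_sig {a : ℕ} {l : List ℕ} (h : Good (a :: l)) (m : RI (a :: l)) :
    zc (a :: l) (sig (a :: l) m) = conj (zc (a :: l) m) := by
  have h1 := pm_norm (rho_pm h m) (norm_u _)
  have h2 := pm_norm (rho_pm h (sig (a :: l) m)) (norm_u _)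
  rw [rho_sig h m] at h2
  have h3 : (‖rho a l (xx (a :: l) m.1)‖ : ℂ) ≠ 0 := by
    have := norm_ne_zero_iff.2 (rho_ne h m)
    exact_mod_cast this
  rw [RCLike.norm_conj] at h2
  have h4 := congrArg conj h1
  rw [map_mul, conj_ofReal] at h4
  rw [h4] at h2
  exact (mul_left_cancel₀ h3 h2).symm

/-- diagonalisation data of a chain. -/
noncomputable def chainDiag {a : ℕ} {l : List ℕ} (h2 : ∀ x ∈ a :: l, 2 ≤ x) :
    Diag ((chainMat (a :: l)).map (Int.cast : ℤ → ℝ)) (RI (a :: l))
      (sig (a :: l)) (zc (a :: l)) := by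
  have h : Good (a :: l) := Good.of_two h2
  set V : Matrix (RI (a :: l)) (Fin (mu (a :: l))) ℂ := fun m j =>
    (Real.sqrt ‖rho a l (xx (a :: l) m.1)‖ : ℂ) * e (xx (a :: l) m.1) ^ (j : ℕ) with hV
  have hform : ∀ i j, ((((chainMat (a :: l)).map (Int.cast : ℤ → ℝ)) i j : ℝ) : ℂ) =
      ∑ k, zc (a :: l) k * ((starRingEnd ℂ) (V k i) * V k j) := by
    intro i j
    have h1 := trace_form h i j
    rw [Matrix.map_apply]
    have h3 : (((chainMat (a :: l) i j : ℤ) : ℝ) : ℂ) = ((chainMat (a :: l) i j : ℤ) : ℂ) := by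
      push_cast; rfl
    rw [h3, h1, ← List.prod_cons]
    change ∑ k ∈ rootSet (a :: l), _ = _
    rw [← Finset.sum_coe_sort]
    refine Finset.sum_congr rfl fun k _ => ?_
    have h4 := pm_norm (rho_pm h k) (norm_u _)
    have h5 : ((Real.sqrt ‖rho a l (xx (a :: l) k.1)‖ : ℝ) : ℂ) *
        ((Real.sqrt ‖rho a l (xx (a :: l) k.1)‖ : ℝ) : ℂ) =
        ((‖rho a l (xx (a :: l) k.1)‖ : ℝ) : ℂ) := by
      rw [← ofReal_mul, Real.mul_self_sqrt (norm_nonneg _)]
    simp only [hV, map_mul, map_pow, conj_ofReal, e_conj]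
    change rho a l (xx (a :: l) k.1) * (e (-(xx (a :: l) k.1)) ^ (i : ℕ) *
      e (xx (a :: l) k.1) ^ (j : ℕ)) = _
    conv_lhs => rw [h4]
    rw [← h5]
    ring
  -- invertibility
  set C : Matrix (Fin (mu (a :: l))) (Fin (mu (a :: l))) ℂ :=
    (chainMat (a :: l)).map (Int.castRingHom ℂ) with hC
  have hCV : C = Vᴴ * Matrix.diagonal (zc (a :: l)) * V := by
    ext i j
    have h1 := hform i j
    rw [Matrix.map_apply] at h1
    have h3 : (((chainMat (a :: l) i j : ℤ) : ℝ) : ℂ) = ((chainMat (a :: l) i j : ℤ) : ℂ) := by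
      push_cast; rfl
    rw [h3] at h1
    rw [hC, Matrix.map_apply, eq_intCast, h1, Matrix.mul_assoc, Matrix.mul_apply]
    refine Finset.sum_congr rfl fun k _ => ?_
    rw [Matrix.diagonal_mul, Matrix.conjTranspose_apply, RCLike.star_def]
    ring
  have hdet : IsUnit C.det := by
    have h1 : C.det = 1 := by
      rw [hC, ← RingHom.mapMatrix_apply, ← RingHom.map_det, chain_det h, map_one]
    rw [h1]; exact isUnit_one
  have hWV : (C⁻¹ * (Vᴴ * Matrix.diagonal (zc (a :: l)))) * V = 1 := by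
    rw [Matrix.mul_assoc, ← hCV, Matrix.nonsing_inv_mul C hdet]
  have hcard : Fintype.card (RI (a :: l)) = Fintype.card (Fin (mu (a :: l))) := by
    rw [Fintype.card_coe, Fintype.card_fin, card_rootSet h2]
  have hVW : V * (C⁻¹ * (Vᴴ * Matrix.diagonal (zc (a :: l)))) = 1 :=
    (Matrix.mul_eq_one_comm_of_card_eq _ _ _ hcard).2 hWV
  exact {
    V := V
    W := C⁻¹ * (Vᴴ * Matrix.diagonal (zc (a :: l)))
    VW := hVW
    WV := hWV
    inv := sig_sig _
    conjV := by
      intro k j
      have hk := mem_rootSet.1 k.2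
      simp only [hV, map_mul, map_pow, conj_ofReal, e_conj]
      have e1 : e (xx (a :: l) (sig (a :: l) k).1) = e (-(xx (a :: l) k.1)) :=
        e_sg h.prod_pos hk.1
      rw [e1, rho_sig h k, RCLike.norm_conj]
    form := hform }

/-! ### Kronecker products -/

section Kron

variable {n n' : Type} [Fintype n] [DecidableEq n] [Fintype n'] [DecidableEq n']
  {A : Matrix n n ℝ} {A' : Matrix n' n' ℝ}
  {ι ι' : Type} [Fintype ι] [DecidableEq ι] [Fintype ι'] [DecidableEq ι']
  {σ : ι → ι} {σ' : ι' → ι'} {z : ι → ℂ} {z' : ι' → ℂ}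

/-- data of a Kronecker product. -/
noncomputable def kron (D : Diag A ι σ z) (D' : Diag A' ι' σ' z') :
    Diag (Matrix.kroneckerMap (· * ·) A A') (ι × ι') (fun p => (σ p.1, σ' p.2))
      (fun p => z p.1 * z' p.2) where
  V := Matrix.kroneckerMap (· * ·) D.V D'.V
  W := Matrix.kroneckerMap (· * ·) D.W D'.W
  VW := by
    have h := Matrix.mul_kronecker_mul D.V D.W D'.V D'.W
    rw [D.VW, D'.VW, Matrix.one_kronecker_one] at h
    exact h.symm
  WV := by
    have h := Matrix.mul_kronecker_mul D.W D.V D'.W D'.V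
    rw [D.WV, D'.WV, Matrix.one_kronecker_one] at h
    exact h.symm
  inv := fun k => by
    ext
    · simp [D.inv]
    · simp [D'.inv]
  conjV := fun k j => by
    simp only [Matrix.kroneckerMap_apply, map_mul, D.conjV, D'.conjV]
  form := fun i j => by
    simp only [Matrix.kroneckerMap_apply, ofReal_mul, D.form, D'.form]
    rw [Finset.sum_mul_sum, Fintype.sum_prod_type]
    refine Finset.sum_congr rfl fun k _ => Finset.sum_congr rfl fun k' _ => ?_
    simp only [map_mul]
    ring

end Kron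

/-! ### systems -/

/-- index type of a system. -/
def IS : List (List ℕ) → Type
  | [] => Unit
  | c :: T => RI c × IS T

noncomputable instance instFintypeIS : (T : List (List ℕ)) → Fintype (IS T)
  | [] => inferInstanceAs (Fintype Unit)
  | _ :: T => @instFintypeProd _ _ _ (instFintypeIS T)

instance instDecidableEqIS : (T : List (List ℕ)) → DecidableEq (IS T)
  | [] => inferInstanceAs (DecidableEq Unit)
  | _ :: T => @instDecidableEqProd _ _ _ (instDecidableEqIS T)

/-- conjugation. -/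
noncomputable def sigS : (T : List (List ℕ)) → IS T → IS T
  | [], x => x
  | c :: T, p => (sig c p.1, sigS T p.2)

/-- multiplier. -/
noncomputable def zS : (T : List (List ℕ)) → IS T → ℂ
  | [], _ => 1
  | c :: T, p => zc c p.1 * zS T p.2

/-- sum of the `alpha`s. -/
noncomputable def alS : (T : List (List ℕ)) → IS T → ℝ
  | [], _ => 0
  | c :: T, p => alpha c (xx c p.1.1) + alS T p.2

lemma zS_eq : ∀ (T : List (List ℕ)) (p : IS T), zS T p = u ((nvar T : ℝ) / 2 + alS T p)
  | [], _ => by simp [zS, nvar, alS, u_zero]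
  | c :: T, p => by
      have hn : (nvar (c :: T) : ℝ) = c.length + nvar T := by simp [nvar]
      simp only [zS, alS]
      rw [zS_eq T p.2, zc, ← u_add, hn]
      congr 1
      ring

/-- the empty system. -/
noncomputable def unitDiag (A : Matrix Unit Unit ℝ) (hA : A () () = 1) :
    Diag A Unit (fun x => x) (fun _ => 1) where
  V := 1
  W := 1
  VW := by simp
  WV := by simp
  inv := fun _ => rfl
  conjV := fun k j => by simp
  form := fun i j => by
    cases i; cases j
    simp [hA]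

theorem sysDiag : ∀ {T : List (List ℕ)}, Adm T →
    Nonempty (Diag ((sysMat T).map (Int.cast : ℤ → ℝ)) (IS T) (sigS T) (zS T))
  | [], _ => ⟨unitDiag ((1 : Matrix Unit Unit ℤ).map (Int.cast : ℤ → ℝ)) (by simp)⟩
  | [] :: T, h => absurd rfl (h [] List.mem_cons_self).1
  | (a :: l) :: T, h => by
      obtain ⟨D'⟩ := sysDiag (T := T) fun c hc => h c (List.mem_cons_of_mem _ hc)
      have D := chainDiag (h (a :: l) List.mem_cons_self).2
      have D'' := kron D D'
      have e1 : Matrix.kroneckerMap (· * ·) ((chainMat (a :: l)).map (Int.cast : ℤ → ℝ))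
          ((sysMat T).map (Int.cast : ℤ → ℝ)) =
          (Matrix.kroneckerMap (· * ·) (chainMat (a :: l)) (sysMat T)).map (Int.cast : ℤ → ℝ) := by
        ext i j
        simp [Matrix.kroneckerMap_apply]
      rw [e1] at D''
      exact ⟨D''⟩

lemma zS_sig : ∀ {T : List (List ℕ)}, Adm T → ∀ p : IS T, zS T (sigS T p) = conj (zS T p)
  | [], _, _ => by simp [zS]
  | [] :: T, h, _ => absurd rfl (h [] List.mem_cons_self).1
  | (a :: l) :: T, h, p => by
      have h1 := zS_sig (T := T) (fun c hc => h c (List.mem_cons_of_mem _ hc)) p.2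
      have h2 := zc_sig (Good.of_two (h (a :: l) List.mem_cons_self).2) p.1
      simp only [zS, sigS, map_mul]
      rw [h1, h2]

lemma sigS_ne : ∀ {T : List (List ℕ)}, (∃ c ∈ T, ∀ m : RI c, sig c m ≠ m) →
    ∀ p : IS T, sigS T p ≠ p
  | [], h, _ => by
      obtain ⟨c, hc, _⟩ := h
      simp at hc
  | c :: T, h, p => by
      obtain ⟨d, hd, hne⟩ := h
      intro heq
      rw [List.mem_cons] at hd
      rcases hd with rfl | hd
      · exact hne p.1 (congrArg Prod.fst heq)
      · exact sigS_ne ⟨d, hd, hne⟩ p.2 (congrArg Prod.snd heq)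

lemma sig_three (m : RI [3]) : sig [3] m ≠ m := by
  intro h
  have h1 : sg [3] m.1 = m.1 := congrArg Subtype.val h
  obtain ⟨hm, h0⟩ := mem_rootSet.1 m.2
  have hm3 : m.1 < 3 := by simpa using hm
  have h2 : (3 - m.1) % 3 = m.1 := by simpa [sg] using h1
  have h3 : m.1 = 0 := by
    interval_cases m.1 <;> omega
  rw [h3] at h0
  -- `phi [3] (1) ≠ 0`
  have hg : Good [3] := by
    intro x hx
    rw [List.mem_singleton] at hx
    omega
  have he : e (xx [3] 0) = 1 := by
    unfold xx
    simp [e_zero]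
  rw [he] at h0
  have h4 : Polynomial.aeval (1 : ℂ) (phi []) = 0 := by simp [phi]
  exact not_both hg (by simp) h0 h4

/-- power sums. -/
lemma sum_alS (κ : ℤ) : ∀ T : List (List ℕ), ∑ p : IS T, u (κ * alS T p) = prodS T κ
  | [] => by
      change ∑ p : Unit, u (κ * alS [] p) = prodS [] κ
      simp [alS, prodS_nil, u_zero]
  | c :: T => by
      have h1 := sum_alS κ T
      rw [prodS_cons, ← h1]
      change ∑ p : RI c × IS T, u (κ * (alpha c (xx c p.1.1) + alS T p.2)) = _
      rw [Fintype.sum_prod_type]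
      have h2 : S c κ = ∑ k : RI c, u (κ * alpha c (xx c k.1)) := by
        unfold S
        rw [← Finset.sum_coe_sort]
        rfl
      rw [h2, Finset.sum_mul_sum]
      refine Finset.sum_congr rfl fun k _ => ?_
      refine Finset.sum_congr rfl fun k' _ => ?_
      rw [mul_add, u_add]

lemma u_pow (y : ℝ) (n : ℕ) : u y ^ n = u (n * y) := by
  unfold u; rw [← exp_nat_mul]; congr 1; push_cast; ring

/-- **criterion**: two admissible systems whose sums agree, with number of variables divisible by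
`8` and containing the chain `[3]`, are congruent over `ℝ`. -/
theorem cong_real {T T' : List (List ℕ)} (hT : Adm T) (hT' : Adm T') (h3 : [3] ∈ T)
    (h3' : [3] ∈ T') (hn : 8 ∣ nvar T) (hn' : 8 ∣ nvar T') (h : ∀ κ : ℤ, prodS T κ = prodS T' κ) :
    CongOver ℝ (sysMat T) (sysMat T') := by
  obtain ⟨D⟩ := sysDiag hT
  obtain ⟨D'⟩ := sysDiag hT'
  have hm : Multiset.map (fun p => u (alS T p)) (Finset.univ : Finset (IS T)).val =
      Multiset.map (fun p => u (alS T' p)) (Finset.univ : Finset (IS T')).val := by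
    apply multiset_eq_of_powersums
    intro n
    have h1 := h (n : ℤ)
    rw [← sum_alS, ← sum_alS] at h1
    simp only [u_pow]
    exact_mod_cast h1
  have hz : ∀ {U : List (List ℕ)}, 8 ∣ nvar U → ∀ p : IS U, zS U p = u (alS U p) := by
    intro U hU p
    rw [zS_eq]
    obtain ⟨k, hk⟩ := hU
    have : (nvar U : ℝ) / 2 = ((4 * k : ℤ) : ℝ) := by
      rw [hk]; push_cast; ring
    rw [u_add, this, u_int_even ⟨2 * k, by ring⟩, one_mul]
  have hm' : Multiset.map (zS T) (Finset.univ : Finset (IS T)).val =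
      Multiset.map (zS T') (Finset.univ : Finset (IS T')).val := by
    rw [show zS T = fun p => u (alS T p) from funext (hz hn),
      show zS T' = fun p => u (alS T' p) from funext (hz hn')]
    exact hm
  obtain ⟨τ, h1, h2⟩ := exists_match D.inv D'.inv
    (sigS_ne ⟨[3], h3, sig_three⟩) (sigS_ne ⟨[3], h3', sig_three⟩) (zS_sig hT) (zS_sig hT') hm'
  exact cong_of_diag D D' τ h1 h2

/-! ### the family -/

lemma nvar_append (T T' : List (List ℕ)) : nvar (T ++ T') = nvar T + nvar T' := by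
  simp [nvar]

lemma nvar_rep (n : ℕ) (T : List (List ℕ)) : nvar (rep n T) = n * nvar T := by
  induction n with
  | zero => simp [rep, nvar]
  | succ n ih =>
    unfold rep at ih ⊢
    rw [List.replicate_succ, List.flatten_cons, nvar_append, ih]
    ring

lemma nvar_F {L : List (ℕ × ℕ × ℤ)} {v : ℕ} {q : List ℕ} (hq : q.length = 8) (s j : ℕ) :
    8 ∣ nvar (F L v q s j) := by
  unfold F
  rw [nvar_append, nvar_append, nvar_append, nvar_append, nvar_rep, nvar_rep, nvar_rep, nvar_rep]
  have h1 : nvar (q.map (fun x => [x])) = 8 := by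
    rw [← hq]
    unfold nvar
    rw [List.map_map]
    have : (List.length ∘ fun x : ℕ => [x]) = fun _ => 1 := by funext x; rfl
    rw [this]
    simp
  rw [h1]
  refine Nat.dvd_add (Nat.dvd_add (Nat.dvd_add (Nat.dvd_add ?_ ?_) ?_) ?_) (dvd_refl 8)
  · exact dvd_mul_right _ _
  · exact dvd_mul_right _ _
  · exact ⟨(s - j) * nvar (ZP L), by ring⟩
  · exact ⟨j * nvar (ZM L), by ring⟩

lemma mem_rep {n : ℕ} {T : List (List ℕ)} {c : List ℕ} (h : c ∈ rep n T) : c ∈ T := by
  unfold rep at h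
  rw [List.mem_flatten] at h
  obtain ⟨T', h1, h2⟩ := h
  rw [List.eq_of_mem_replicate h1] at h2
  exact h2

lemma adm_Z {L : List (ℕ × ℕ × ℤ)} {v : ℕ} (hC : Cert L v) : Adm (ZP L) ∧ Adm (ZM L) := by
  have key : ∀ x ∈ L, (∀ y ∈ chainOf x.1 x.2.1, 2 ≤ y) ∧
      (∀ y ∈ chainOf (x.2.1 % x.1) x.2.1, 2 ≤ y) := by
    intro x hx
    obtain ⟨ha, hab, -, -⟩ := hC.range x hx
    have hlt := Nat.mod_lt x.2.1 ha
    exact ⟨chainOf_two _ _ (by omega), chainOf_two _ _ (by omega)⟩
  constructor
  · intro c hc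
    unfold ZP at hc
    rw [List.mem_filter, List.mem_flatMap] at hc
    obtain ⟨⟨x, hx, hc⟩, hne⟩ := hc
    refine ⟨by simpa using hne, ?_⟩
    unfold blockP at hc
    rw [List.mem_append] at hc
    rcases hc with hc | hc
    · rw [List.eq_of_mem_replicate hc]; exact (key x hx).1
    · rw [List.eq_of_mem_replicate hc]; exact (key x hx).2
  · intro c hc
    unfold ZM at hc
    rw [List.mem_filter, List.mem_flatMap] at hc
    obtain ⟨⟨x, hx, hc⟩, hne⟩ := hc
    refine ⟨by simpa using hne, ?_⟩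
    unfold blockM at hc
    rw [List.mem_append] at hc
    rcases hc with hc | hc
    · rw [List.eq_of_mem_replicate hc]; exact (key x hx).2
    · rw [List.eq_of_mem_replicate hc]; exact (key x hx).1

lemma adm_F {L : List (ℕ × ℕ × ℤ)} {v : ℕ} {q : List ℕ} (hC : Cert L v) (hA : Aux v q)
    (s j : ℕ) : Adm (F L v q s j) := by
  intro c hc
  unfold F at hc
  rw [List.mem_append, List.mem_append, List.mem_append, List.mem_append] at hc
  rcases hc with (((hc | hc) | hc) | hc) | hc
  · have := mem_rep hc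
    rw [List.mem_singleton] at this
    rw [this]
    refine ⟨by simp, ?_⟩
    intro a ha
    rw [List.mem_singleton] at ha
    omega
  · have := mem_rep hc
    rw [List.mem_singleton] at this
    rw [this]
    refine ⟨by simp, ?_⟩
    intro a ha
    rw [List.mem_singleton] at ha
    have := hC.big
    omega
  · exact (adm_Z hC).1 c (mem_rep hc)
  · exact (adm_Z hC).2 c (mem_rep hc)
  · rw [List.mem_map] at hc
    obtain ⟨x, hx, rfl⟩ := hc
    refine ⟨by simp, ?_⟩
    intro a ha
    rw [List.mem_singleton] at ha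
    have := (hA.big x hx).1
    omega

lemma three_mem_F (L : List (ℕ × ℕ × ℤ)) (v : ℕ) (q : List ℕ) (s j : ℕ) :
    [3] ∈ F L v q s j := by
  unfold F
  simp only [List.mem_append]
  left; left; left; left
  simp [rep]

/-- **REALS**: the `F_{s,j}` (fixed `s`) are congruent over `ℝ`. -/
theorem reals (L : List (ℕ × ℕ × ℤ)) (v : ℕ) (q : List ℕ) (hC : Cert L v) (hA : Aux v q)
    (s : ℕ) (i : ℕ) (hi : i ≤ s) (j : ℕ) (hj : j ≤ s) :
    CongOver ℝ (sysMat (F L v q s i)) (sysMat (F L v q s j)) :=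
  cong_real (adm_F hC hA s i) (adm_F hC hA s j) (three_mem_F L v q s i) (three_mem_F L v q s j)
    (nvar_F hA.length s i) (nvar_F hA.length s j) (fun κ => prodS_F_eq hC q hi hj κ)

end Crest.Agent.R267.RealsB_903
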