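import Crest.Agent.R267.P45Rat_96
import Crest.Agent.R267.P45e_235
import Crest.Agent.R267.P44c_148
import Crest.Agent.R267.RealsB_903

/-!
# S0407, package P4.5: the Prop `RATB`, unconditionally (helper96)
-/

set_option autoImplicit false

namespace Crest.Agent.R267.P45Fin_96

open Crest.Agent.R267.P4Defs_780 Crest.Agent.R267.P45Rat_96

theorem reals : REALS := fun L u q hC hA s i hi j hj =>
  RealsB_903.reals L u q hC hA s i hi j hj

theorem types : TYPES := fun L u q hC hA => P44c_148.types L u q hC hA

theorem ndeg : NDEG := fun _ _ _ hC hA s j =>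
  ⟨P45e_235.isUnit_add hC hA s j, P45e_235.isUnit_sub hC hA s j⟩

/-- the `F_{s,j}` fall into a bounded number of rational congruence classes. -/
theorem ratb : RATB := P45Rat_96.ratb reals types ndeg

end Crest.Agent.R267.P45Fin_96
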