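import Crest.Agent.R267.P4Fin_780
import Crest.Agent.R267.Asm_808

/-!
# S0407: `RATB → LOCSQ → GLOBS → INTb` in the form consumed by `Asm_808` (helper780)
-/

set_option autoImplicit false

namespace Crest.Agent.R267.P4FinB_780

open Crest.Agent.R267.P4Defs_780 Crest.Agent.R267.P4LocsQ_780

theorem INTb_of (hR : RATB) (hL : LOCSQ) (hG : GLOBS) : Asm_808.INTb := by
  intro bit hbit
  obtain ⟨S, S', h1, h2, h3, h4, h5, h6, h7, h8, h9, h10, h11, h12⟩ :=
    P4Fin_780.INTcol_of hR hL hG bit hbit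
  exact ⟨S, S', h1, h2, h3, h4, h5, h6, h7, h8, h9, h10, h11, h12⟩

end Crest.Agent.R267.P4FinB_780
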