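import Crest.Agent.R267.P46h_484
import Crest.Agent.R267.P45Fin_96
import Crest.Agent.R267.Globs_169
import Crest.Agent.R267.P4FinB_780

/-!
# S0407: the package P4 is complete (helper484)

`INTb` unconditional (RATB: helper96, LOCSQ: helper484, GLOBS: helper169), hence the statement of
S0407 follows from `TOPb`.
-/

set_option autoImplicit false

namespace Crest.Agent.R267.P4Done_484

/-- **P4**, unconditional. -/
theorem intb : Asm_808.INTb :=
  P4FinB_780.INTb_of P45Fin_96.ratb P46h_484.locsq Globs_169.globs

/-- `INT`, unconditional. -/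
theorem int : P4Defs_780.INT :=
  P4Asm_780.INT_ofQ P45Fin_96.ratb P46h_484.locsq Globs_169.globs

/-- S0407 from the topological output. -/
theorem stmt_of_TOPb (hT : Asm_808.TOPb) : Asm_808.S0407Stmt :=
  Asm_808.stmt_of_INTb_TOPb intb hT

end Crest.Agent.R267.P4Done_484
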