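import Crest.Agent.R267.DraftB_808
import Crest.Agent.R267.P4Done_484

/-!
# Assembly of S0407 from the class theorem for graph systems and T3 (row 267)

`IsLink Z G`: the pair `(sphere, Z)` is the link of the graph system `G` (in the one point
compactification of `B × V`). `T3Prop n`: the link of every increasing system of chains in `n + 3`
variables is the link of a graph system whose matrix is congruent to `± sysMat` (or its transpose),
the same sign and transposition for all systems. `stmt_of`: T3 for all `n ≥ 1` and `ClassGProp`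
for all `n ≥ 1` give S0407.
-/

set_option autoImplicit false

namespace Crest.Agent.R267.TopAsm_808

open Set
open Crest.Agent.R267.P4Defs_780 Crest.Agent.R267.Cone_808 Crest.Agent.R267.Sys_808
open Crest.Agent.R267.Asm_808 Crest.Agent.R267.GS_808 Crest.Agent.R267.DraftB_808

/-- the pair `(X, Z)` is the link of the graph system `G`. -/
def IsLink {n m : ℕ} {X : Type*} [TopologicalSpace X] (Z : Set X) (G : S n m) : Prop :=
  ∃ h : X ≃ₜ OnePoint (Bc (n + 2) × Vc (n + 2)), ∀ x, x ∈ Z ↔ ∃ p ∈ G.K, h x = (p : OnePoint _)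

theorem homeo_of_links {n m : ℕ} {X X' : Type*} [TopologicalSpace X] [TopologicalSpace X']
    {Z : Set X} {Z' : Set X'} {G G' : S n m} (h : IsLink Z G) (h' : IsLink Z' G')
    (E : Eqv G.K G'.K) : ∃ f : X ≃ₜ X', ∀ x, x ∈ Z ↔ f x ∈ Z' := by
  obtain ⟨a, ha⟩ := h
  obtain ⟨b, hb⟩ := h'
  obtain ⟨g, -, hg⟩ := E
  refine ⟨(a.trans g.onePointCongr).trans b.symm, fun x => ?_⟩
  rw [ha, hb]
  have : b (((a.trans g.onePointCongr).trans b.symm) x) = g.onePointCongr (a x) := by
    simp
  rw [this]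
  constructor
  · rintro ⟨p, hp, hx⟩
    exact ⟨g p, (hg p).1 hp, by rw [hx]; rfl⟩
  · rintro ⟨p, hp, hx⟩
    refine ⟨g.symm p, (hg _).2 (by simpa using hp), ?_⟩
    apply g.onePointCongr.injective
    rw [hx]
    have h2 : g.onePointCongr ((g.symm p : Bc (n + 2) × Vc (n + 2)) : OnePoint _) =
        ((g (g.symm p) : Bc (n + 2) × Vc (n + 2)) : OnePoint (Bc (n + 2) × Vc (n + 2))) := rfl
    rw [h2, g.apply_symm_apply]

/-- transposition if `t`. -/
def tr {ι : Type} (t : Bool) (A : Matrix ι ι ℤ) : Matrix ι ι ℤ := if t then A.transpose else A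

/-- **T3** in base dimension `n + 2` (`n + 3` variables). -/
def T3Prop (n : ℕ) : Prop :=
  ∃ (s : ℤ) (t : Bool), ∀ C : List (List ℕ), Adm C → Inc C → nvar C = n + 3 →
    ∃ (m : ℕ) (G : S n m) (A : Matrix (Fin m) (Fin m) ℤ), HasMat G A ∧
      IsLink {z : Sph (Var C) | sysFun C z = 0} G ∧ Cong ℤ (s • tr t (sysMat C)) A

lemma Cong.symm {ι κ : Type} [Fintype ι] [Fintype κ] [DecidableEq ι] [DecidableEq κ]
    {A : Matrix ι ι ℤ} {B : Matrix κ κ ℤ} (h : Cong ℤ A B) : Cong ℤ B A := by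
  obtain ⟨P, Q, h1, h2, h3⟩ := h
  refine ⟨Q, P, h2, h1, ?_⟩
  rw [← h3]
  have h1' : Q.transpose * P.transpose = 1 := by
    rw [← Matrix.transpose_mul, h1, Matrix.transpose_one]
  calc Q.transpose * (P.transpose * A * P) * Q
      = (Q.transpose * P.transpose) * A * (P * Q) := by simp only [Matrix.mul_assoc]
    _ = A := by rw [h1, h1', Matrix.one_mul, Matrix.mul_one]

lemma Cong.trans {ι κ τ : Type} [Fintype ι] [Fintype κ] [DecidableEq ι] [DecidableEq κ]
    [Fintype τ] [DecidableEq τ] {A : Matrix ι ι ℤ} {B : Matrix κ κ ℤ} {C : Matrix τ τ ℤ}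
    (h : Cong ℤ A B) (h' : Cong ℤ B C) : Cong ℤ A C := by
  obtain ⟨P, Q, h1, h2, h3⟩ := h
  obtain ⟨P', Q', h1', h2', h3'⟩ := h'
  refine ⟨P * P', Q' * Q, ?_, ?_, ?_⟩
  · calc P * P' * (Q' * Q) = P * (P' * Q') * Q := by simp only [Matrix.mul_assoc]
      _ = 1 := by rw [h1', Matrix.mul_one, h1]
  · calc Q' * Q * (P * P') = Q' * (Q * P) * P' := by simp only [Matrix.mul_assoc]
      _ = 1 := by rw [h2, Matrix.mul_one, h2']
  · rw [← h3', ← h3, Matrix.transpose_mul]
    simp only [Matrix.mul_assoc]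

lemma Cong.tr {ι κ : Type} [Fintype ι] [Fintype κ] [DecidableEq ι] [DecidableEq κ]
    {A : Matrix ι ι ℤ} {B : Matrix κ κ ℤ} (h : Cong ℤ A B) (s : ℤ) (t : Bool) :
    Cong ℤ (s • tr t A) (s • tr t B) := by
  obtain ⟨P, Q, h1, h2, h3⟩ := h
  refine ⟨P, Q, h1, h2, ?_⟩
  rw [Matrix.mul_smul, Matrix.smul_mul]
  congr 1
  unfold TopAsm_808.tr
  split_ifs
  · rw [← h3]
    simp only [Matrix.transpose_mul, Matrix.transpose_transpose, Matrix.mul_assoc]
  · exact h3

/-! ### number of strands -/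

lemma mu_le_prod : ∀ l : List ℕ, mu l ≤ l.prod
  | [] => le_rfl
  | a :: l => by rw [mu, List.prod_cons]; exact Nat.sub_le _ _

lemma prod_pos_of_two_le {l : List ℕ} (h : ∀ a ∈ l, 2 ≤ a) : 1 ≤ l.prod := by
  induction l with
  | nil => exact le_rfl
  | cons a l ih =>
    rw [List.prod_cons]
    have h1 := h a List.mem_cons_self
    have h2 := ih fun b hb => h b (List.mem_cons_of_mem _ hb)
    exact Nat.one_le_iff_ne_zero.2 (Nat.mul_ne_zero (by omega) (by omega))

lemma two_le_mu {c : List ℕ} (hc : c ≠ []) (h : ∀ a ∈ c, 2 ≤ a) (hl : 3 ≤ c.getLast hc) :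
    2 ≤ mu c := by
  cases c with
  | nil => exact absurd rfl hc
  | cons a l =>
    rw [mu]
    have h1 := mu_le_prod l
    have h2 := prod_pos_of_two_le fun b hb => h b (List.mem_cons_of_mem a hb)
    cases l with
    | nil =>
      simp only [List.getLast_singleton] at hl
      simp [mu]
      omega
    | cons b l =>
      have h3 : 2 ≤ (b :: l).prod := by
        rw [List.prod_cons]
        have := prod_pos_of_two_le (l := l) fun x hx =>
          h x (List.mem_cons_of_mem a (List.mem_cons_of_mem b hx))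
        have h4 := h b (List.mem_cons_of_mem a List.mem_cons_self)
        nlinarith
      have h4 := h a List.mem_cons_self
      have : 2 * (b :: l).prod ≤ a * (b :: l).prod := Nat.mul_le_mul_right _ h4
      by_cases h5 : 3 ≤ a
      · have : 3 * (b :: l).prod ≤ a * (b :: l).prod := Nat.mul_le_mul_right _ h5
        omega
      · omega

lemma one_le_card_Idx {S : List (List ℕ)} (h : ∀ c ∈ S, 1 ≤ mu c) : 1 ≤ Fintype.card (Idx S) := by
  induction S with
  | nil => exact le_of_eq Fintype.card_unit.symm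
  | cons c S ih =>
    have h1 : Fintype.card (Idx (c :: S)) = Fintype.card (Fin (mu c)) * Fintype.card (Idx S) :=
      Fintype.card_prod _ _
    rw [h1, Fintype.card_fin]
    have h2 := h c List.mem_cons_self
    have h3 := ih fun d hd => h d (List.mem_cons_of_mem _ hd)
    exact Nat.one_le_iff_ne_zero.2 (Nat.mul_ne_zero (by omega) (by omega))

lemma three_le_card {S : List (List ℕ)} (hA : Adm S)
    (hl : ∀ c ∈ S, ∀ h : c ≠ [], 3 ≤ c.getLast h) (h3 : [3] ∈ S) (hn : 3 < nvar S) :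
    3 ≤ Fintype.card (Idx S) := by
  have h2 : ∀ c ∈ S, 2 ≤ mu c := fun c hc => two_le_mu (hA c hc).1 (hA c hc).2 (hl c hc (hA c hc).1)
  match S, h2, h3, hn with
  | [], _, h3, _ => simp at h3
  | [c], _, h3, hn =>
    rw [List.mem_singleton] at h3
    rw [← h3] at hn
    simp [nvar] at hn
  | c :: d :: S, h2, _, _ =>
    have h1 : Fintype.card (Idx (c :: d :: S)) =
        Fintype.card (Fin (mu c)) * Fintype.card (Idx (d :: S)) := Fintype.card_prod _ _
    have h1' : Fintype.card (Idx (d :: S)) =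
        Fintype.card (Fin (mu d)) * Fintype.card (Idx S) := Fintype.card_prod _ _
    rw [h1, h1', Fintype.card_fin, Fintype.card_fin]
    have a1 := h2 c (by simp)
    have a2 := h2 d (by simp)
    have a3 := one_le_card_Idx (S := S) fun x hx => by
      have := h2 x (by simp [hx])
      omega
    have a4 : 2 * 1 ≤ mu d * Fintype.card (Idx S) := Nat.mul_le_mul a2 a3
    have a5 : 2 * (2 * 1) ≤ mu c * (mu d * Fintype.card (Idx S)) := Nat.mul_le_mul a1 a4
    omega

/-- **S0407 from T3 and the class theorem.** -/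
theorem stmt_of (h3 : ∀ n, 1 ≤ n → T3Prop n) (hG : ∀ n, 1 ≤ n → ClassGProp n) : S0407Stmt := by
  obtain ⟨C, C', hA, hA', hI, hI', hn, h4, h8, h2, h3', hl, -, hc⟩ :=
    P4Done_484.intb (fun _ => true) (fun _ => rfl)
  refine stmt_of_linkEq hA hA' hn h4 h8 h2 h3' hl ?_
  obtain ⟨n, hn'⟩ : ∃ n, nvar C = n + 3 := ⟨nvar C - 3, by omega⟩
  have hn1 : 1 ≤ n := by omega
  obtain ⟨s, t, hT⟩ := h3 n hn1
  obtain ⟨m, G, A, hG1, hG2, hG3⟩ := hT C hA hI hn'
  obtain ⟨m', G', A', hG1', hG2', hG3'⟩ := hT C' hA' hI' (by omega)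
  have key : Cong ℤ A' A := Cong.trans (Cong.symm hG3') (Cong.trans (Cong.tr (Cong.symm hc) s t) hG3)
  have hcard : 3 ≤ m' := by
    have h5 := three_le_card hA' hl h3' (by omega)
    obtain ⟨P, Q, h6, h7, -⟩ := hG3'
    have := T2alg1_684.card_eq_of_cong P Q h6 h7
    rw [Fintype.card_fin] at this
    omega
  obtain ⟨P, Q, k1, k2, k3⟩ := key
  have hm : m = m' := by
    have := T2alg1_684.card_eq_of_cong P Q k1 k2
    rw [Fintype.card_fin, Fintype.card_fin] at this
    exact this.symm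
  subst hm
  have E := hG n hn1 m G' G A' A ⟨P, Q, k1, k2⟩ hcard hG1' hG1 k3.symm
  obtain ⟨f, hf⟩ := homeo_of_links hG2 hG2' E.symm
  exact ⟨f, hf⟩

end Crest.Agent.R267.TopAsm_808
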