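import Crest.Agent.R267.EndG_864
import Crest.Agent.R267.End2c_864
import Crest.Agent.R267.TopAsm_808
import Crest.Agent.R267.SphReg_808

/-!
# Row 267, T3-end: from the flow-line output to `IsLink`

* `zc s t` : the point `s + i t` of `ℂ^N`; `sv`, `tv` : real and imaginary parts;
* `Facts` : what the function `G` must satisfy (besides the flow-line theorem);
* `Facts.e2` : the hypotheses of END2;
* `isLink_of_fl` : flow-line output implies that `{G = 0}` is the link of the graph system.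
-/

set_option autoImplicit false

namespace Crest.Agent.R267.EndH_864

open Set Metric Filter Topology
open scoped RealInnerProductSpace
open Crest.Agent.R267.GS_808 Crest.Agent.R267.EndDef_864 Crest.Agent.R267.EndBas_864
  Crest.Agent.R267.EndSys_864 Crest.Agent.R267.End2a_864 Crest.Agent.R267.End2b_864
  Crest.Agent.R267.End2c_864 Crest.Agent.R267.EndG_864 Crest.Agent.R267.End1_532
  Crest.Agent.R267.T3aDefs_957 Crest.Agent.R267.Calc_957 Crest.Agent.R267.Cone_808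
  Crest.Agent.R267.TopAsm_808 Crest.Agent.R267.DraftB_808

variable {n m : ℕ}

/-! ### points of `ℂ^N` -/

/-- the point `s + i t`. -/
noncomputable def zc (s t : W n) : Fin (n + 3) → ℂ := fun j => ⟨s j, t j⟩

/-- real parts. -/
noncomputable def sv (z : Fin (n + 3) → ℂ) : W n := vec fun j => (z j).re

/-- imaginary parts. -/
noncomputable def tv (z : Fin (n + 3) → ℂ) : W n := vec fun j => (z j).im

lemma zc_sv (z : Fin (n + 3) → ℂ) : zc (sv z) (tv z) = z := by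
  funext j
  exact Complex.ext rfl rfl

lemma sv_zc (s t : W n) : sv (zc s t) = s := rfl

lemma tv_zc (s t : W n) : tv (zc s t) = t := rfl

lemma zc_smul (l : ℝ) (s t : W n) : zc (l • s) (l • t) = l • zc s t := by
  funext j
  refine Complex.ext ?_ ?_
  · show l * s j = _
    simp [zc]
  · show l * t j = _
    simp [zc]

lemma zc_eq_zero {s t : W n} (h : zc s t = 0) : s = 0 ∧ t = 0 := by
  constructor
  · ext j
    exact congrArg Complex.re (congrFun h j)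
  · ext j
    exact congrArg Complex.im (congrFun h j)

lemma continuous_zc : Continuous fun p : W n × W n => zc p.1 p.2 := by
  refine continuous_pi fun j => ?_
  have h1 : Continuous fun p : W n × W n => ((p.1 j : ℝ) : ℂ) + ((p.2 j : ℝ) : ℂ) * Complex.I :=
    (Complex.continuous_ofReal.comp ((apply_continuous j).comp continuous_fst)).add
      ((Complex.continuous_ofReal.comp ((apply_continuous j).comp continuous_snd)).mul
        continuous_const)
  refine h1.congr fun p => ?_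
  exact Complex.ext (by simp [zc]) (by simp [zc])

lemma continuous_sv : Continuous (sv : (Fin (n + 3) → ℂ) → W n) := by
  unfold sv vec
  exact (PiLp.continuous_toLp 2 _).comp (continuous_pi fun j =>
    Complex.continuous_re.comp (continuous_apply j))

lemma continuous_tv : Continuous (tv : (Fin (n + 3) → ℂ) → W n) := by
  unfold tv vec
  exact (PiLp.continuous_toLp 2 _).comp (continuous_pi fun j =>
    Complex.continuous_im.comp (continuous_apply j))

/-! ### the sphere of `ℂ^N` -/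

lemma nsq_smul (l : ℝ) (z : Fin (n + 3) → ℂ) : nsq (l • z) = l ^ 2 * nsq z := by
  unfold nsq
  rw [Finset.mul_sum]
  refine Finset.sum_congr rfl fun j _ => ?_
  rw [Pi.smul_apply, norm_smul, mul_pow, Real.norm_eq_abs, sq_abs]

lemma exists_sph : ∃ g : Sph (Fin (n + 3)) ≃ₜ sphere (0 : W n × W n) 1,
    ∀ z, ∃ l : ℝ, 0 < l ∧ (g z : W n × W n) = l • (sv z.1, tv z.1) := by
  set F : (Fin (n + 3) → ℂ) → W n × W n := fun z => (sv z, tv z) with hF
  have cF : Continuous F := continuous_sv.prodMk continuous_tv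
  have hh : ∀ (l : ℝ) z, F (l • z) = l • F z := by
    intro l z
    refine Prod.ext ?_ ?_
    · show sv (l • z) = l • sv z
      ext j
      show ((l • z) j).re = l * (z j).re
      simp
    · show tv (l • z) = l • tv z
      ext j
      show ((l • z) j).im = l * (z j).im
      simp
  have hne : ∀ z : Fin (n + 3) → ℂ, z ≠ 0 → F z ≠ 0 := by
    intro z hz h
    apply hz
    have h1 : sv z = 0 := congrArg Prod.fst h
    have h2 : tv z = 0 := congrArg Prod.snd h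
    rw [← zc_sv z, h1, h2]
    funext j
    rfl
  let g0 : Sph (Fin (n + 3)) → sphere (0 : W n × W n) 1 := fun z => nrm (F z) (hne z z.ne_zero)
  have hg0 : Continuous g0 := by
    refine Continuous.subtype_mk ?_ _
    have h1 : Continuous fun x : Sph (Fin (n + 3)) => F x := cF.comp continuous_subtype_val
    exact (h1.norm.inv₀ fun x => norm_ne_zero_iff.2 (hne x x.ne_zero)).smul h1
  have inj : ∀ z z' : Fin (n + 3) → ℂ, F z = F z' → z = z' := by
    intro z z' h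
    have h1 : sv z = sv z' := congrArg Prod.fst h
    have h2 : tv z = tv z' := congrArg Prod.snd h
    rw [← zc_sv z, ← zc_sv z', h1, h2]
  have hinj : Function.Injective g0 := by
    intro x y hxy
    have h1 : ‖F x‖⁻¹ • F (x : Fin (n + 3) → ℂ) = ‖F y‖⁻¹ • F (y : Fin (n + 3) → ℂ) :=
      congrArg Subtype.val hxy
    have hx : 0 < ‖F (x : Fin (n + 3) → ℂ)‖⁻¹ := inv_pos.2 (norm_pos_iff.2 (hne _ x.ne_zero))
    have hy : 0 < ‖F (y : Fin (n + 3) → ℂ)‖⁻¹ := inv_pos.2 (norm_pos_iff.2 (hne _ y.ne_zero))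
    rw [← hh, ← hh] at h1
    have h2 := inj _ _ h1
    have h3 := congrArg nsq h2
    rw [nsq_smul, nsq_smul, x.2, y.2, mul_one, mul_one] at h3
    have h4 := (pow_left_inj₀ hx.le hy.le two_ne_zero).1 h3
    rw [h4] at h2
    exact Subtype.ext (smul_right_injective _ hy.ne' h2)
  have hsur : Function.Surjective g0 := by
    intro y
    set p := zc (y : W n × W n).1 (y : W n × W n).2 with hp
    have hFp : F p = y := rfl
    have hp0 : p ≠ 0 := by
      intro h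
      obtain ⟨h1, h2⟩ := zc_eq_zero h
      have h3 := mem_sphere_zero_iff_norm.1 y.2
      have h4 : (y : W n × W n) = 0 := Prod.ext h1 h2
      rw [h4, norm_zero] at h3
      exact zero_ne_one h3
    have hn : 0 < nsq p := nsq_pos hp0
    have hn' : 0 < (√(nsq p))⁻¹ := inv_pos.2 (Real.sqrt_pos.2 hn)
    refine ⟨⟨(√(nsq p))⁻¹ • p, ?_⟩, Subtype.ext ?_⟩
    · rw [nsq_smul, inv_pow, Real.sq_sqrt hn.le, inv_mul_cancel₀ hn.ne']
    · show ‖F ((√(nsq p))⁻¹ • p)‖⁻¹ • F ((√(nsq p))⁻¹ • p) = y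
      rw [hh, hFp, norm_smul, mem_sphere_zero_iff_norm.1 y.2, mul_one, Real.norm_of_nonneg hn'.le,
        smul_smul, inv_mul_cancel₀ hn'.ne', one_smul]
  have : CompactSpace (Sph (Fin (n + 3))) :=
    isCompact_iff_compactSpace.1 SphReg_808.isCompact_sph
  refine ⟨Continuous.homeoOfEquivCompactToT2 (f := Equiv.ofBijective g0 ⟨hinj, hsur⟩) hg0,
    fun x => ⟨‖F x‖⁻¹, inv_pos.2 (norm_pos_iff.2 (hne _ x.ne_zero)), rfl⟩⟩

/-! ### estimates for the strands -/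

section est

variable (L : LS n m) (Q : Par n) (hsm : ∀ k l j, L.sg k j ≠ L.sg l j →
    Q.ep * (‖vec (n := n) (L.V k)‖ + ‖vec (n := n) (L.V l)‖) < Q.d * |L.sg k j - L.sg l j|)

lemma hs_abs_le (s : W n) (j : Fin (n + 3)) : |max ((hd L Q hsm).hs s j) 0| ≤ |s j| := by
  have e1 : (hd L Q hsm).hs s j = ‖s‖ * (s j / ‖s‖ * st (s j / ‖s‖ / Q.d)) := rfl
  by_cases hs : s = 0
  · rw [e1, hs, norm_zero]
    simp
  have h0 : 0 < ‖s‖ := norm_pos_iff.2 hs
  have e2 : (hd L Q hsm).hs s j = s j * st (s j / ‖s‖ / Q.d) := by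
    rw [e1]
    field_simp
  rw [e2]
  have h1 := st_nonneg (s j / ‖s‖ / Q.d)
  have h2 := st_le_one (s j / ‖s‖ / Q.d)
  rcases le_or_gt (s j) 0 with h3 | h3
  · rw [max_eq_right (mul_nonpos_of_nonpos_of_nonneg h3 h1), abs_zero]
    exact abs_nonneg _
  · rw [max_eq_left (mul_nonneg h3.le h1), abs_mul, abs_of_nonneg h1]
    exact mul_le_of_le_one_right (abs_nonneg _) h2

lemma norm_eta_le {Sg Vm : ℝ} (hSg : ∀ k j, |L.sg k j| ≤ Sg) (hVm : ∀ k, ‖vec (n := n) (L.V k)‖ ≤ Vm)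
    (hSg0 : 0 ≤ Sg) (k : Fin m) (s : W n) :
    ‖(hd L Q hsm).eta k s‖ ≤ (Sg + Q.ep * Vm) * ‖s‖ := by
  set D := hd L Q hsm with hD
  have h1 : ‖(vec fun j => max (D.hs s j) 0 * D.sg k j : W n)‖ ≤ Sg * ‖s‖ := by
    refine le_of_sq_le_sq ?_ (by positivity)
    rw [norm_sq_def, mul_pow, norm_sq_def s, Finset.mul_sum]
    refine Finset.sum_le_sum fun j _ => ?_
    rw [vec_apply, mul_pow, mul_comm (Sg ^ 2)]
    refine mul_le_mul ?_ ?_ (sq_nonneg _) (sq_nonneg _)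
    · exact sq_le_sq.2 (hs_abs_le L Q hsm s j)
    · rw [← sq_abs (D.sg k j)]
      exact pow_le_pow_left₀ (abs_nonneg _) (hSg k j) 2
  have h2 : ‖(D.ep * ‖s‖ * D.th s) • proj (D.nrm k s) (vec (D.V k))‖ ≤ Q.ep * Vm * ‖s‖ := by
    have h3 : 0 ≤ D.ep * ‖s‖ * D.th s := mul_nonneg (mul_nonneg D.hep.le (norm_nonneg _)) (D.th0 s)
    rw [norm_smul, Real.norm_of_nonneg h3]
    calc D.ep * ‖s‖ * D.th s * ‖proj (D.nrm k s) (vec (D.V k))‖
        ≤ D.ep * ‖s‖ * 1 * Vm := by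
          refine mul_le_mul ?_ ((norm_proj_le _ _).trans (hVm k)) (norm_nonneg _) ?_
          · exact mul_le_mul_of_nonneg_left (D.th1 s) (mul_nonneg D.hep.le (norm_nonneg _))
          · exact mul_nonneg (mul_nonneg D.hep.le (norm_nonneg _)) zero_le_one
      _ = Q.ep * Vm * ‖s‖ := by
          show Q.ep * ‖s‖ * 1 * Vm = _
          ring
  rw [HD.eta]
  calc _ ≤ _ + _ := norm_add_le _ _
    _ ≤ Sg * ‖s‖ + Q.ep * Vm * ‖s‖ := add_le_add h1 h2
    _ = _ := by ring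

/-- over base points with negative coordinates the strands are near zero. -/
lemma norm_eta_le_neg {Vm : ℝ} (hVm : ∀ k, ‖vec (n := n) (L.V k)‖ ≤ Vm) (k : Fin m) {s : W n}
    (hneg : ∀ j, s j ≤ 0) : ‖(hd L Q hsm).eta k s‖ ≤ Q.ep * Vm * ‖s‖ := by
  set D := hd L Q hsm with hD
  have h1 : (vec fun j => max (D.hs s j) 0 * D.sg k j : W n) = 0 := by
    ext j
    rw [vec_apply, max_eq_right (hs_nonpos D (hneg j)), zero_mul]
    rfl
  have h3 : 0 ≤ D.ep * ‖s‖ * D.th s := mul_nonneg (mul_nonneg D.hep.le (norm_nonneg _)) (D.th0 s)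
  rw [HD.eta, h1, zero_add, norm_smul, Real.norm_of_nonneg h3]
  calc D.ep * ‖s‖ * D.th s * ‖proj (D.nrm k s) (vec (D.V k))‖
      ≤ D.ep * ‖s‖ * 1 * Vm := by
        refine mul_le_mul ?_ ((norm_proj_le _ _).trans (hVm k)) (norm_nonneg _) ?_
        · exact mul_le_mul_of_nonneg_left (D.th1 s) (mul_nonneg D.hep.le (norm_nonneg _))
        · exact mul_nonneg (mul_nonneg D.hep.le (norm_nonneg _)) zero_le_one
    _ = Q.ep * Vm * ‖s‖ := by
        show Q.ep * ‖s‖ * 1 * Vm = _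
        ring

end est

/-- the inverse of the shear is bounded. -/
lemma norm_le_A (D : HD n m) {s : W n} (hs : s ≠ 0) (v : W n) :
    ‖v‖ ≤ (1 + √(n + 3 : ℝ)) * ‖D.A s v‖ := by
  have hN := sqrt_pos n
  by_cases hk : D.ka s = 0
  · have : D.A s v = v := by rw [A_eq, q, hk]; simp
    rw [this]
    nlinarith [norm_nonneg v]
  have hl : ∀ j, s j ≤ D.d * ‖s‖ := fun j => (D.kap s hs hk j).le
  have hz := inner_nz_u1_neg D hs hl
  have h1 : v = D.A s v - (q D s * ⟪D.nz s, hor v⟫) • u1 n := by rw [A_eq, add_sub_cancel_right]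
  have h2 : |q D s * ⟪D.nz s, hor v⟫| ≤ √(n + 3 : ℝ) * ‖D.A s v‖ := by
    have h3 : ‖hor v‖ ≤ ‖D.A s v‖ := by
      rw [← hor_A D s]
      exact norm_hor_le _
    have h4 := norm_le_of_nonpos (v := D.nz s) fun j => nz_nonpos D hs (hl j)
    rw [real_inner_comm] at h4
    have h5 : |q D s| * |⟪D.nz s, u1 n⟫| ≤ 1 := by
      rw [q, abs_div, div_mul_cancel₀ _ (abs_pos.2 hz.ne).ne', abs_of_nonneg (D.ka0 s)]
      exact D.ka1 s
    rw [abs_mul]
    calc |q D s| * |⟪D.nz s, hor v⟫| ≤ |q D s| * (‖D.nz s‖ * ‖hor v‖) :=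
          mul_le_mul_of_nonneg_left (abs_real_inner_le_norm _ _) (abs_nonneg _)
      _ ≤ |q D s| * ((√(n + 3 : ℝ) * |⟪D.nz s, u1 n⟫|) * ‖D.A s v‖) := by gcongr
      _ = √(n + 3 : ℝ) * ‖D.A s v‖ * (|q D s| * |⟪D.nz s, u1 n⟫|) := by ring
      _ ≤ √(n + 3 : ℝ) * ‖D.A s v‖ * 1 := by gcongr
      _ = _ := by ring
  conv_lhs => rw [h1]
  refine (norm_sub_le _ _).trans ?_
  rw [norm_smul, norm_u1, mul_one, Real.norm_eq_abs]
  linarith

/-! ### the facts about `G` -/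

/-- facts about `G` used by END2. -/
structure Facts (G : (Fin (n + 3) → ℂ) → ℂ) (D : HD n m) (r2 κ1 : ℝ) : Prop where
  cG : ContinuousOn G {0}ᶜ
  hom : ∀ (l : ℝ) z, 0 < l → G (l • z) = l • G z
  mono : ∀ s : W n, s ≠ 0 → (∀ j, s j ≤ 0) → ∀ (t : W n) (h h' : ℝ), h < h' →
    (G (zc s (t + h' • u1 n))).im < (G (zc s (t + h • u1 n))).im
  sgp : ∀ s t : W n, (∀ j, s j ≤ 0) → (∀ j, t j < 0) → 0 < (G (zc s t)).im
  sgn : ∀ s t : W n, (∀ j, s j ≤ 0) → (∀ j, 0 < t j) → (G (zc s t)).im < 0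
  lin : ∀ s t : W n, s ≠ 0 → (∀ j, s j < 0) → ‖t‖ ≤ κ1 * ‖s‖ → (G (zc s t)).im = ⟪D.nz s, t⟫
  tube : ∀ (s t : W n) k, s ≠ 0 → ‖t - D.eta k s‖ ≤ r2 * ‖s‖ →
    (G (zc s t)).im = ⟪D.nrm k s, t - D.eta k s⟫

lemma exists_big_shift (t : W n) : ∃ h0 : ℝ, 0 < h0 ∧ ∀ h, h0 ≤ h → ∀ j, 0 < (t + h • u1 n) j ∧
    (t - h • u1 n) j < 0 := by
  have hN := sqrt_pos n
  refine ⟨√(n + 3 : ℝ) * ‖t‖ + √(n + 3 : ℝ), by positivity, fun h hh j => ?_⟩
  have h1 := abs_le.1 (abs_apply_le t j)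
  have h2 : ‖t‖ + 1 ≤ h * (1 / √(n + 3 : ℝ)) := by
    rw [mul_one_div, le_div_iff₀ hN]
    linarith
  rw [PiLp.add_apply, PiLp.sub_apply, PiLp.smul_apply, u1_apply, smul_eq_mul]
  constructor <;> linarith [h1.1, h1.2]

/-- **the hypotheses of END2.** -/
noncomputable def e2 (L : LS n m) (Q : Par n) (hsm : ∀ k l j, L.sg k j ≠ L.sg l j →
    Q.ep * (‖vec (n := n) (L.V k)‖ + ‖vec (n := n) (L.V l)‖) < Q.d * |L.sg k j - L.sg l j|)
    {G : (Fin (n + 3) → ℂ) → ℂ} {r r2 κ1 κ2 ε Sg Vm : ℝ} (F : Facts G (hd L Q hsm) r2 κ1)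
    (hr : 0 < r) (hr2 : (1 + √(n + 3 : ℝ)) * r ≤ r2) (hε : 0 < ε)
    (hSg : ∀ k j, |L.sg k j| ≤ Sg) (hVm : ∀ k, ‖vec (n := n) (L.V k)‖ ≤ Vm) (hSg0 : 0 ≤ Sg)
    (hVm0 : 0 ≤ Vm) (hκ2 : Sg + Q.ep * Vm + r ≤ κ2) (hκ21 : 1 ≤ κ2)
    (hκ1 : (1 + √(n + 3 : ℝ)) * (Q.ep * Vm + r) ≤ κ1) : E2 (hd L Q hsm) where
  c s t := (G (zc s t)).im
  a0 := a0f Q.e κ2 ε
  r := r
  κ1 := κ1
  κ2 := κ2
  κ3 := Q.ep * Vm + r
  Cp := max (2 * κ2) (8 * Q.e ^ 3 / ε)
  hr := hr
  hκ3 := by have := mul_nonneg Q.hep.le hVm0; linarith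
  hκ23 := by linarith
  hκ1 := hκ1
  hCp := le_max_of_le_left (by linarith)
  kap0 s hs h j := neg_of_kaf Q.he hs h j
  cc := by
    have h1 : Continuous G := continuous_of_homog F.cG fun l z hl => F.hom l z hl
    exact Complex.continuous_im.comp (h1.comp continuous_zc)
  ch l s t hl := by
    rw [zc_smul, F.hom _ _ hl]
    simp
  cm := F.mono
  cpos s hs hj t := by
    obtain ⟨h0, -, h1⟩ := exists_big_shift t
    refine ⟨-h0, ?_⟩
    rw [neg_smul, ← sub_eq_add_neg]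
    exact F.sgp _ _ hj fun j => (h1 h0 le_rfl j).2
  cneg s hs hj t := by
    obtain ⟨h0, -, h1⟩ := exists_big_shift t
    exact ⟨h0, F.sgn _ _ hj fun j => (h1 h0 le_rfl j).1⟩
  clin s hs hk t ht := by
    rw [F.lin s t hs (fun j => neg_of_kaf Q.he hs hk j) ht]
  cball s k t hs _ h := by
    rw [F.tube s t k hs]
    refine (norm_le_A (hd L Q hsm) hs _).trans ?_
    calc (1 + √(n + 3 : ℝ)) * ‖(hd L Q hsm).A s (t - (hd L Q hsm).eta k s)‖
        ≤ (1 + √(n + 3 : ℝ)) * (r * ‖s‖) := by gcongr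
      _ = (1 + √(n + 3 : ℝ)) * r * ‖s‖ := by ring
      _ ≤ r2 * ‖s‖ := by gcongr
  c00 h hc := by
    by_contra hh
    rcases lt_or_gt_of_ne hh with h1 | h1
    · have h2 := F.sgp 0 (h • u1 n) (fun j => le_rfl) fun j => by
        rw [PiLp.smul_apply, u1_apply, smul_eq_mul]
        have := sqrt_pos n
        exact mul_neg_of_neg_of_pos h1 (by positivity)
      rw [hc] at h2
      exact lt_irrefl _ h2
    · have h2 := F.sgn 0 (h • u1 n) (fun j => le_rfl) fun j => by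
        rw [PiLp.smul_apply, u1_apply, smul_eq_mul]
        have := sqrt_pos n
        positivity
      rw [hc] at h2
      exact lt_irrefl _ h2
  ca := a0f_continuous
  ah l s t hl := a0f_smul hl s t
  ahor s t := by rw [a0f, a0f, E2.hor_hor]
  asm s t h := by rw [a0f_small h, a0f_zero (by linarith)]
  ale s t h := by
    rw [a0f_zero (by linarith)]
    exact h.trans (a0f_le hε.le s t)
  am l s t hl h := lt_of_le_of_lt h (a0f_lt Q.he Q.heN (by linarith) hε h hl)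
  apos s t := exists_a0f_pos Q.he Q.heN (by linarith) s t
  aneg s t := exists_a0f_neg Q.he hε s t
  abd s t h := a0f_bd Q.he hκ21 hε h
  asgn s h := by
    rw [a0f_zero (by linarith)] at h
    by_cases hs : s = 0
    · rw [hs, inner_zero_right]
    · exact (inner_u1_neg fun j => neg_of_a00 Q.he hs h j).le
  am0 b := by
    rw [a0f_zero (by linarith)]
    show a00 Q.e (bp (n := n) b (- -(Q.g0 b))) = 0
    rw [neg_neg]
    exact (Q.g0_zero b _).2 rfl
  aka s t hs h := kaf_eq_one Q.he hs fun j => le_of_a00 Q.he hs (h.trans (a0f_le hε.le s t)) j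
  T1 s k hs := by
    have h1 := (norm_hor_le _).trans (norm_eta_le L Q hsm hSg hVm hSg0 k s)
    have h2 := norm_nonneg s
    nlinarith
  T1k s k hs hk := by
    have h1 := (norm_hor_le _).trans
      (norm_eta_le_neg L Q hsm hVm k fun j => (neg_of_kaf Q.he hs hk j).le)
    linarith

/-! ### the flow-line output -/

/-- boundary of the union of plate zone and tubes. -/
def Bd (D : HD n m) (e κ2 ε r : ℝ) (z : Fin (n + 3) → ℂ) : Prop :=
  a0f e κ2 ε (sv z) (tv z) ≤ 0 ∧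
    (∀ k, r * ‖sv z‖ - ‖D.A (sv z) (tv z - D.eta k (sv z))‖ ≤ 0) ∧
    (a0f e κ2 ε (sv z) (tv z) = 0 ∨ ∃ k, r * ‖sv z‖ - ‖D.A (sv z) (tv z - D.eta k (sv z))‖ = 0)

/-- **output of the flow-line theorem** (what CARVE has to deliver). -/
def FLOut (G : (Fin (n + 3) → ℂ) → ℂ) (D : HD n m) (e κ2 ε r : ℝ) : Prop :=
  ∃ F : Sph (Fin (n + 3)) ≃ₜ Sph (Fin (n + 3)), (∀ x : Sph (Fin (n + 3)), (G (F x)).im = (G x).im) ∧
    ∀ x : Sph (Fin (n + 3)), (G x).im = 0 → ((G x).re = 0 ↔ Bd D e κ2 ε r (F x))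

lemma ZZ_smul {D : HD n m} (P : E2 D) {l : ℝ} (hl : 0 < l) (p : W n × W n) :
    ZZ P (l • p) ↔ ZZ P p := by
  have h1 : P.c (l • p.1) (l • p.2) = l * P.c p.1 p.2 := P.ch l _ _ hl
  have h2 : P.a0 (l • p.1) (l • p.2) = l * P.a0 p.1 p.2 := P.ah l _ _ hl
  have h3 : ∀ k, P.r * ‖l • p.1‖ - ‖D.A (l • p.1) (l • p.2 - D.eta k (l • p.1))‖ =
      l * (P.r * ‖p.1‖ - ‖D.A p.1 (p.2 - D.eta k p.1)‖) := by
    intro k
    rw [eta_smul D hl, ← smul_sub, A_homog D hl, A_smul, norm_smul, norm_smul,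
      Real.norm_of_nonneg hl.le]
    ring
  unfold ZZ
  simp only [Prod.smul_fst, Prod.smul_snd, h1, h2, h3, mul_eq_zero, hl.ne', false_or]
  refine and_congr Iff.rfl (and_congr ?_ (and_congr (forall_congr' fun k => ?_) Iff.rfl))
  · exact ⟨fun h => by_contra fun h' => absurd h (not_le.2 (mul_pos hl (not_le.1 h'))),
      fun h => mul_nonpos_of_nonneg_of_nonpos hl.le h⟩
  · exact ⟨fun h => by_contra fun h' => absurd h (not_le.2 (mul_pos hl (not_le.1 h'))),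
      fun h => mul_nonpos_of_nonneg_of_nonpos hl.le h⟩

/-- **from the flow-line output to the graph link.** -/
theorem isLink_of_fl (L : LS n m) (Q : Par n) (hsm : ∀ k l j, L.sg k j ≠ L.sg l j →
    Q.ep * (‖vec (n := n) (L.V k)‖ + ‖vec (n := n) (L.V l)‖) < Q.d * |L.sg k j - L.sg l j|)
    {G : (Fin (n + 3) → ℂ) → ℂ} {r r2 κ1 κ2 ε Sg Vm R : ℝ} (F : Facts G (hd L Q hsm) r2 κ1)
    (hr : 0 < r) (hr2 : (1 + √(n + 3 : ℝ)) * r ≤ r2) (hε : 0 < ε)
    (hSg : ∀ k j, |L.sg k j| ≤ Sg) (hVm : ∀ k, ‖vec (n := n) (L.V k)‖ ≤ Vm) (hSg0 : 0 ≤ Sg)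
    (hVm0 : 0 ≤ Vm) (hκ2 : Sg + Q.ep * Vm + r ≤ κ2) (hκ21 : 1 ≤ κ2)
    (hκ1 : (1 + √(n + 3 : ℝ)) * (Q.ep * Vm + r) ≤ κ1)
    (hsep : ∀ k l b, k ≠ l → 2 * r < ‖(hd L Q hsm).core k b - (hd L Q hsm).core l b‖)
    (hbd : ∀ k b, ‖(hd L Q hsm).core k b‖ + r < R) (hR : 0 < R)
    (hFL : FLOut G (hd L Q hsm) Q.e κ2 ε r) :
    IsLink {z : Sph (Fin (n + 3)) | G z = 0} (toSys (hd L Q hsm) r R hr hsep hbd) := by
  obtain ⟨f, hf1, hf2⟩ := hFL
  obtain ⟨g, hg⟩ := exists_sph (n := n)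
  set P := e2 L Q hsm F hr hr2 hε hSg hVm hSg0 hVm0 hκ2 hκ21 hκ1 with hP
  refine End2c_864.isLink P R hR hsep hbd (f.trans g) fun x => ?_
  obtain ⟨l, hl, hgx⟩ := hg (f x)
  have h1 : ((f.trans g) x : W n × W n) = l • (sv (f x).1, tv (f x).1) := hgx
  rw [h1, ZZ_smul P hl]
  have h2 : ZZ P (sv (f x).1, tv (f x).1) ↔
      (G (zc (sv (f x).1) (tv (f x).1))).im = 0 ∧ Bd (hd L Q hsm) Q.e κ2 ε r (f x).1 := Iff.rfl
  rw [h2, zc_sv, hf1 x]
  constructor
  · intro h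
    have h3 : G x = 0 := h
    have h4 : (G x).im = 0 := by rw [h3]; rfl
    exact ⟨h4, (hf2 x h4).1 (by rw [h3]; rfl)⟩
  · rintro ⟨h3, h4⟩
    show G x = 0
    exact Complex.ext ((hf2 x h3).2 h4) h3

end Crest.Agent.R267.EndH_864
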