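import Crest.Agent.R267.Carve2_363
import Crest.Agent.R267.CarvePsi_363
import Crest.Agent.R267.EndH_864

/-!
# Row 267 (helper363): the carve for the literal plate, tubes and cut-offs of `EndG_864`
-/

set_option autoImplicit false
set_option linter.unusedSectionVars false
set_option linter.unusedVariables false

noncomputable section

open Set Filter Topology Metric
open scoped NNReal ContDiff RealInnerProductSpace
open Crest.Agent.R267.Cone_808 Crest.Agent.R267.SphReg_808 Crest.Agent.R267.Carve2_363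
open Crest.Agent.R267.GS_808 Crest.Agent.R267.EndDef_864 Crest.Agent.R267.EndBas_864
  Crest.Agent.R267.EndG_864 Crest.Agent.R267.Calc_957
open Crest.Agent.R267.T3aDefs_957 (st chi)
open Crest.Agent.R267.T3aDefs_957.LD (vt vs)
open Crest.Agent.R267.CarvePsi_363 (psi)
open Crest.Agent.R267.EndH_864 (zc FLOut Bd)

namespace Crest.Agent.R267.Carve3_363

variable {n m : ℕ}

/-! ### regularity of the literal data -/

theorem cd_coord (j : Fin (n + 3)) {k : WithTop ℕ∞} : ContDiff ℝ k fun s : W n => s j :=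
  (EuclideanSpace.proj (𝕜 := ℝ) j).contDiff

theorem cd_norm {s : W n} (hs : s ≠ 0) {k : WithTop ℕ∞} : ContDiffAt ℝ k (fun s : W n => ‖s‖) s :=
  contDiffAt_norm ℝ hs

theorem cd_rat (j : Fin (n + 3)) {s : W n} (hs : s ≠ 0) {k : WithTop ℕ∞} :
    ContDiffAt ℝ k (fun s : W n => s j / ‖s‖) s :=
  (cd_coord j).contDiffAt.div (cd_norm hs) (norm_ne_zero_iff.2 hs)

theorem cd_st {E : Type*} [NormedAddCommGroup E] [NormedSpace ℝ E] {f : E → ℝ} {x : E}
    (hf : ContDiffAt ℝ 1 f x) : ContDiffAt ℝ 1 (fun x => st (f x)) x :=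
  ContDiffAt.comp (g := st) x ((contDiff_st.of_le one_le_two).contDiffAt) hf

theorem cd_chi (d : ℝ) {E : Type*} [NormedAddCommGroup E] [NormedSpace ℝ E] {f : E → ℝ} {x : E}
    (hf : ContDiffAt ℝ 1 f x) : ContDiffAt ℝ 1 (fun x => chi d (f x)) x :=
  cd_st ((hf.sub contDiffAt_const).div_const d)

theorem cd_vec {E : Type*} [NormedAddCommGroup E] [NormedSpace ℝ E] {f : E → Fin (n + 3) → ℝ}
    {x : E} (hf : ∀ j, ContDiffAt ℝ 1 (fun x => f x j) x) :
    ContDiffAt ℝ 1 (fun x => (vec (f x) : W n)) x :=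
  contDiffAt_euclidean.2 hf

section lit

variable (L : LS n m) (Q : Par n) (hsm : ∀ k l j, L.sg k j ≠ L.sg l j →
    Q.ep * (‖vec (n := n) (L.V k)‖ + ‖vec (n := n) (L.V l)‖) < Q.d * |L.sg k j - L.sg l j|)

theorem cd_nz {s : W n} (hs : s ≠ 0) : ContDiffAt ℝ 1 (hd L Q hsm).nz s := by
  refine cd_vec fun j => ?_
  show ContDiffAt ℝ 1 (fun s : W n => chi Q.d (s j / ‖s‖) - chi Q.d (-(s j / ‖s‖))) s
  exact (cd_chi _ (cd_rat j hs)).sub (cd_chi _ (cd_rat j hs).neg)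

theorem cd_nrm (k : Fin m) {s : W n} (hs : s ≠ 0) : ContDiffAt ℝ 1 ((hd L Q hsm).nrm k) s := by
  refine cd_vec fun j => ?_
  have h1 := cd_chi Q.d (cd_rat j hs)
  have h2 := cd_chi Q.d (cd_rat (n := n) j hs).neg
  cases h : L.neg k j
  · have e : (fun s : W n => if (hd L Q hsm).neg k j then (hd L Q hsm).Ym (s j / ‖s‖) else
        (hd L Q hsm).Yp (s j / ‖s‖)) = fun s => chi Q.d (s j / ‖s‖) - chi Q.d (-(s j / ‖s‖)) := by
      funext s
      have : (hd L Q hsm).neg k j = false := h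
      rw [this]
      rfl
    rw [e]
    exact h1.sub h2
  · have e : (fun s : W n => if (hd L Q hsm).neg k j then (hd L Q hsm).Ym (s j / ‖s‖) else
        (hd L Q hsm).Yp (s j / ‖s‖)) = fun s => -chi Q.d (s j / ‖s‖) - chi Q.d (-(s j / ‖s‖)) := by
      funext s
      have : (hd L Q hsm).neg k j = true := h
      rw [this]
      rfl
    rw [e]
    exact h1.neg.sub h2

theorem cd_inner {E : Type*} [NormedAddCommGroup E] [NormedSpace ℝ E] {f g : E → W n} {x : E}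
    (hf : ContDiffAt ℝ 1 f x) (hg : ContDiffAt ℝ 1 g x) :
    ContDiffAt ℝ 1 (fun x => (⟪f x, g x⟫ : ℝ)) x := hf.inner ℝ hg

theorem ppf_nonneg {d : ℝ} (hd : 0 < d) (x : ℝ) : 0 ≤ ppf d x := by
  unfold ppf
  rcases le_total x 0 with h | h
  · rw [st_of_le (div_nonpos_of_nonpos_of_nonneg h hd.le), mul_zero]
  · exact mul_nonneg h (st_nonneg _)

theorem cd_eta (k : Fin m) {s : W n} (hs : s ≠ 0) : ContDiffAt ℝ 1 ((hd L Q hsm).eta k) s := by
  have h1 : ContDiffAt ℝ 1 (fun s : W n =>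
      (vec (fun j => max ((hd L Q hsm).hs s j) 0 * (hd L Q hsm).sg k j) : W n)) s := by
    refine cd_vec fun j => ?_
    have e : (fun s : W n => max ((hd L Q hsm).hs s j) 0 * (hd L Q hsm).sg k j) =
        fun s => ‖s‖ * ((s j / ‖s‖) * st ((s j / ‖s‖) / Q.d)) * L.sg k j := by
      funext s
      have e1 : (hd L Q hsm).hs s j = ‖s‖ * ppf Q.d (s j / ‖s‖) := rfl
      rw [e1, max_eq_left (mul_nonneg (norm_nonneg _) (ppf_nonneg Q.hd _))]
      rfl
    rw [e]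
    exact ((cd_norm hs).mul ((cd_rat j hs).mul (cd_st ((cd_rat j hs).div_const _)))).mul
      contDiffAt_const
  have h2 : ContDiffAt ℝ 1 (fun s : W n => thf Q.ω s) s := by
    unfold thf
    refine cd_st (((contDiffAt_const.sub ((cd_inner contDiffAt_const contDiffAt_id).div
      (cd_norm hs) (norm_ne_zero_iff.2 hs))).div_const _).sub contDiffAt_const)
  have h3 := cd_nrm L Q hsm k hs
  have h4 : ContDiffAt ℝ 1 (fun s : W n => proj ((hd L Q hsm).nrm k s) (vec (L.V k))) s := by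
    unfold proj
    have h5 : (hd L Q hsm).nrm k s ≠ 0 := nrm_ne _ hs
    refine contDiffAt_const.sub (((cd_inner h3 contDiffAt_const).div ((h3.norm ℝ h5).pow 2)
      (pow_ne_zero 2 (norm_ne_zero_iff.2 h5))).smul h3)
  exact h1.add (((contDiffAt_const.mul (cd_norm hs)).mul h2).smul h4)

theorem cd_ka {s : W n} (hs : s ≠ 0) : ContDiffAt ℝ 1 (fun s : W n => kaf Q.e s) s := by
  unfold kaf
  refine contDiffAt_prod fun j _ => contDiffAt_const.sub (cd_st ?_)
  exact ((cd_coord j).contDiffAt.div (contDiffAt_const.mul (cd_norm hs))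
    (mul_ne_zero Q.he.ne' (norm_ne_zero_iff.2 hs))).add contDiffAt_const

theorem cd_hor {E : Type*} [NormedAddCommGroup E] [NormedSpace ℝ E] {f : E → W n} {x : E}
    (hf : ContDiffAt ℝ 1 f x) : ContDiffAt ℝ 1 (fun x => hor (f x)) x := by
  unfold hor
  exact hf.sub ((cd_inner contDiffAt_const hf).smul contDiffAt_const)

theorem cd_A {s v : W n} (hs : s ≠ 0) :
    ContDiffAt ℝ 1 (fun p : W n × W n => (hd L Q hsm).A p.1 p.2) (s, v) := by
  by_cases h : ∀ j, s j ≤ Q.d * ‖s‖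
  · have h1 := inner_nz_u1_neg (hd L Q hsm) hs h
    have k1 : ContDiffAt ℝ 1 (fun p : W n × W n => (hd L Q hsm).nz p.1) (s, v) :=
      ContDiffAt.comp (g := (hd L Q hsm).nz) (s, v) (cd_nz L Q hsm hs) contDiffAt_fst
    have k2 : ContDiffAt ℝ 1 (fun p : W n × W n => (hd L Q hsm).ka p.1) (s, v) :=
      ContDiffAt.comp (g := fun s : W n => kaf Q.e s) (s, v) (cd_ka Q hs) contDiffAt_fst
    unfold HD.A
    exact contDiffAt_snd.add ((k2.mul ((cd_inner k1 (cd_hor contDiffAt_snd)).div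
      (cd_inner k1 contDiffAt_const) h1.ne)).smul contDiffAt_const)
  · push Not at h
    obtain ⟨j, hj⟩ := h
    have c1 : Continuous fun p : W n × W n => Q.d * ‖p.1‖ := continuous_const.mul continuous_fst.norm
    have c2 : Continuous fun p : W n × W n => p.1 j := (apply_continuous j).comp continuous_fst
    have h2 : {p : W n × W n | Q.d * ‖p.1‖ < p.1 j} ∈ 𝓝 (s, v) := (isOpen_lt c1 c2).mem_nhds hj
    have h3 : (fun p : W n × W n => (hd L Q hsm).A p.1 p.2) =ᶠ[𝓝 (s, v)] fun p => p.2 := by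
      filter_upwards [h2] with p hp
      have hp : Q.d * ‖p.1‖ < p.1 j := hp
      have hp0 : p.1 ≠ 0 := by
        intro h
        rw [h, norm_zero, mul_zero] at hp
        exact lt_irrefl _ hp
      have : (hd L Q hsm).ka p.1 = 0 := by
        by_contra hk
        exact absurd ((hd L Q hsm).kap p.1 hp0 hk j) (not_lt.2 hp.le)
      rw [HD.A, this, zero_mul, zero_smul, add_zero]
    exact contDiffAt_snd.congr_of_eventuallyEq h3

theorem exists_lA : ∃ c > 0, ∀ s v, c * ‖v‖ ≤ ‖(hd L Q hsm).A s v‖ := by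
  set D := hd L Q hsm with hD
  obtain ⟨C, hC, hb⟩ := cone_upper (f := fun s : W n => ‖s‖ * (|q D s| * ‖D.nz s‖))
    (continuous_norm.continuousOn.mul ((q_continuousOn D).abs.mul (nz_continuousOn D).norm))
    (fun c s hc => by
      have e1 : q D (c • s) = q D s := by
        unfold q
        rw [D.kah c s hc, nz_smul D hc]
      rw [e1, nz_smul D hc, norm_smul, Real.norm_of_nonneg hc.le]
      ring)
  have hb' : ∀ s, |q D s| * ‖D.nz s‖ ≤ C := by
    intro s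
    by_cases hs : s = 0
    · have : D.nz s = 0 := by
        rw [hs]
        ext j
        rw [nz_apply]
        simp only [PiLp.zero_apply, norm_zero, div_zero]
        exact D.Yp0 0 (by rw [abs_zero]; exact D.hd.le)
      rw [this, norm_zero, mul_zero]
      exact hC.le
    · have h1 : 0 < ‖s‖ := norm_pos_iff.2 hs
      have h2 : ‖s‖ * (|q D s| * ‖D.nz s‖) ≤ C * ‖s‖ := hb s hs
      rw [mul_comm C] at h2
      exact le_of_mul_le_mul_left h2 h1
  refine ⟨(2 + C)⁻¹, by positivity, fun s v => ?_⟩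
  rw [inv_mul_le_iff₀ (by positivity)]
  have h1 : hor (D.A s v) = hor v := hor_A D s v
  have h2 := inner_u1_A D s v
  have h3 : v = hor (D.A s v) + (⟪u1 n, D.A s v⟫ - q D s * ⟪D.nz s, hor (D.A s v)⟫) • u1 n := by
    rw [h1, h2, add_sub_cancel_right, hor_add_u1]
  have h4 : ‖hor (D.A s v)‖ ≤ ‖D.A s v‖ := CD.norm_hor_le _
  have h5 : |⟪u1 n, D.A s v⟫| ≤ ‖D.A s v‖ := by
    have := abs_real_inner_le_norm (u1 n) (D.A s v)
    rwa [norm_u1, one_mul] at this
  have h6 : |q D s * ⟪D.nz s, hor (D.A s v)⟫| ≤ C * ‖D.A s v‖ := by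
    rw [abs_mul]
    calc |q D s| * |⟪D.nz s, hor (D.A s v)⟫| ≤ |q D s| * (‖D.nz s‖ * ‖hor (D.A s v)‖) :=
          mul_le_mul_of_nonneg_left (abs_real_inner_le_norm _ _) (abs_nonneg _)
      _ = (|q D s| * ‖D.nz s‖) * ‖hor (D.A s v)‖ := by ring
      _ ≤ C * ‖D.A s v‖ := mul_le_mul (hb' s) h4 (norm_nonneg _) hC.le
  calc ‖v‖ = ‖hor (D.A s v) + (⟪u1 n, D.A s v⟫ - q D s * ⟪D.nz s, hor (D.A s v)⟫) • u1 n‖ := by
        rw [← h3]
    _ ≤ ‖hor (D.A s v)‖ + ‖(⟪u1 n, D.A s v⟫ - q D s * ⟪D.nz s, hor (D.A s v)⟫) • u1 n‖ :=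
        norm_add_le _ _
    _ ≤ ‖D.A s v‖ + (‖D.A s v‖ + C * ‖D.A s v‖) := by
        refine add_le_add h4 ?_
        rw [norm_smul, norm_u1, mul_one, Real.norm_eq_abs]
        exact (abs_sub _ _).trans (add_le_add h5 h6)
    _ = (2 + C) * ‖D.A s v‖ := by ring

end lit

/-! ### the plate function -/

theorem cd_a00 (e : ℝ) {s : W n} (hs : s ≠ 0) : ContDiffAt ℝ 1 (a00 e : W n → ℝ) s := by
  unfold a00
  have h1 : ContDiff ℝ 1 (tp 3) := contDiff_tp 1 3 (by norm_num)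
  refine (contDiffAt_const.mul (cd_norm hs)).sub (ContDiffAt.div ?_ ((cd_norm hs).pow 2)
    (pow_ne_zero 2 (norm_ne_zero_iff.2 hs)))
  refine ContDiffAt.sum fun j _ => ?_
  exact ContDiffAt.comp (g := tp 3) s h1.contDiffAt
    ((cd_coord j).contDiffAt.add (contDiffAt_const.mul (cd_norm hs)))

theorem one_eq : one n = √(n + 3 : ℝ) • u1 n := by
  ext j
  have := sqrt_pos n
  simp [u1, one, this.ne']

theorem norm_one' : ‖one n‖ = √(n + 3 : ℝ) := by
  rw [one_eq, norm_smul, norm_u1, mul_one, Real.norm_of_nonneg (Real.sqrt_nonneg _)]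

theorem one_ne : one n ≠ 0 := by
  intro h
  have h1 := norm_one' (n := n)
  rw [h, norm_zero] at h1
  exact (sqrt_pos n).ne h1

/-- quantitative monotonicity -/
theorem a00_ge {e : ℝ} (he : 0 < e) (heN : 2 * e * √(n + 3 : ℝ) < 1) {s : W n} (hs : s ≠ 0)
    (h : 0 ≤ a00 e s) {l : ℝ} (hl : 0 < l) :
    a00 e s + e ^ 3 * (‖s - l • u1 n‖ - ‖s‖) ≤ a00 e (s - l • u1 n) := by
  have hN := sqrt_pos n
  have he2 : 2 * e < 1 / √(n + 3 : ℝ) := by rwa [lt_div_iff₀ hN]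
  have h0 : 0 < ‖s‖ := norm_pos_iff.2 hs
  have hu := inner_u1_neg fun j => neg_of_a00 he hs h j
  have h1 := norm_lt_sub hl hu.le
  have h2 := norm_sub_le' s hl
  set s' := s - l • u1 n with hs'
  have h3 : ∀ j, tp 3 (s' j + 2 * e * ‖s'‖) ≤ tp 3 (s j + 2 * e * ‖s‖) := by
    intro j
    refine tp3_mono ?_
    rw [hs', PiLp.sub_apply, PiLp.smul_apply, u1_apply, smul_eq_mul, ← hs']
    nlinarith
  have h4 : ∑ j, tp 3 (s' j + 2 * e * ‖s'‖) ≤ ∑ j, tp 3 (s j + 2 * e * ‖s‖) :=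
    Finset.sum_le_sum fun j _ => h3 j
  have h5 : 0 ≤ ∑ j, tp 3 (s j + 2 * e * ‖s‖) := Finset.sum_nonneg fun j _ => tp3_nonneg _
  have h6 : (∑ j, tp 3 (s' j + 2 * e * ‖s'‖)) / ‖s'‖ ^ 2 ≤
      (∑ j, tp 3 (s j + 2 * e * ‖s‖)) / ‖s‖ ^ 2 := by
    gcongr
  rw [a00, a00]
  linarith

theorem nonneg_of_right {F : ℝ → ℝ} {d : ℝ} (hF : HasDerivAt F d 0) (h : ∀ l, 0 < l → F 0 ≤ F l) :
    0 ≤ d := by
  have h1 := hF.tendsto_slope
  have h2 : Tendsto (slope F 0) (𝓝[>] 0) (𝓝 d) :=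
    h1.mono_left (nhdsWithin_mono 0 (fun l (hl : 0 < l) => hl.ne'))
  refine ge_of_tendsto h2 ?_
  filter_upwards [self_mem_nhdsWithin] with l hl
  rw [slope_def_field, sub_zero]
  exact div_nonneg (sub_nonneg.2 (h l hl)) (le_of_lt hl)

theorem fderiv_a00 {e : ℝ} (he : 0 < e) (heN : 2 * e * √(n + 3 : ℝ) < 1) {s : W n} (hs : s ≠ 0)
    (h : 0 ≤ a00 e s) : e ^ 3 ≤ fderiv ℝ (a00 e) s (-one n) := by
  have hN := sqrt_pos n
  have hNsq : √(n + 3 : ℝ) ^ 2 = n + 3 := Real.sq_sqrt (by positivity)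
  have h0 : 0 < ‖s‖ := norm_pos_iff.2 hs
  have hneg : ∀ j, s j < 0 := fun j => neg_of_a00 he hs h j
  -- derivative along the line `l ↦ s - l • u1`
  have hline : HasDerivAt (fun l : ℝ => s - l • u1 n) (-u1 n) 0 := by
    have := ((hasDerivAt_id (0 : ℝ)).smul_const (u1 n)).const_sub s
    simpa using this
  have h1 : HasDerivAt (fun l : ℝ => a00 e (s - l • u1 n)) (fderiv ℝ (a00 e) s (-u1 n)) 0 := by
    have h6 : HasFDerivAt (a00 e) (fderiv ℝ (a00 e) s) (s - (0 : ℝ) • u1 n) := by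
      rw [zero_smul, sub_zero]
      exact ((cd_a00 e hs).differentiableAt one_ne_zero).hasFDerivAt
    exact h6.comp_hasDerivAt 0 hline
  have h2 : HasDerivAt (fun l : ℝ => ‖s - l • u1 n‖) (-(⟪s, u1 n⟫ / ‖s‖)) 0 := by
    have h3 := hasDerivAt_norm_line (u := s) (v := -u1 n) hs
    have e1 : (fun l : ℝ => ‖s + l • -u1 n‖) = fun l => ‖s - l • u1 n‖ := by
      funext l
      rw [smul_neg, ← sub_eq_add_neg]
    rw [e1, inner_neg_right, neg_div] at h3
    exact h3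
  have h3 : HasDerivAt (fun l : ℝ => a00 e (s - l • u1 n) - e ^ 3 * ‖s - l • u1 n‖)
      (fderiv ℝ (a00 e) s (-u1 n) - e ^ 3 * (-(⟪s, u1 n⟫ / ‖s‖))) 0 :=
    h1.sub (h2.const_mul (e ^ 3))
  have h4 := nonneg_of_right h3 (by
    intro l hl
    simp only [zero_smul, sub_zero]
    have := a00_ge he heN hs h hl
    linarith)
  -- lower bound of `-⟪s, u1⟫ / ‖s‖`
  have h5 : ‖s‖ ≤ -(√(n + 3 : ℝ) * ⟪s, u1 n⟫) := by
    have h6 : √(n + 3 : ℝ) * ⟪s, u1 n⟫ = ∑ j, s j := by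
      rw [real_inner_comm, inner_u1]
      field_simp
    rw [h6, ← Finset.sum_neg_distrib]
    have h7 : ‖s‖ ^ 2 ≤ (∑ j, -s j) ^ 2 := by
      rw [norm_sq_def]
      have h8 : ∑ j, s j ^ 2 = ∑ j, (-s j) ^ 2 := Finset.sum_congr rfl fun j _ => by ring
      rw [h8]
      exact Finset.sum_sq_le_sq_sum_of_nonneg fun j _ => (neg_pos.2 (hneg j)).le
    exact le_of_sq_le_sq h7 (Finset.sum_nonneg fun j _ => (neg_pos.2 (hneg j)).le)
  have h6 : fderiv ℝ (a00 e) s (-one n) = √(n + 3 : ℝ) * fderiv ℝ (a00 e) s (-u1 n) := by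
    rw [one_eq, ← smul_neg, map_smul, smul_eq_mul]
  rw [h6]
  have h7 : 1 ≤ √(n + 3 : ℝ) * (-(⟪s, u1 n⟫ / ‖s‖)) := by
    rw [show √(n + 3 : ℝ) * (-(⟪s, u1 n⟫ / ‖s‖)) = -(√(n + 3 : ℝ) * ⟪s, u1 n⟫) / ‖s‖ by ring,
      one_le_div h0]
    exact h5
  have h8 : 0 < e ^ 3 := pow_pos he 3
  nlinarith [mul_le_mul_of_nonneg_left h4 hN.le, mul_le_mul_of_nonneg_left h7 h8.le]

/-! ### the penalty -/

theorem lip_aux {u u' ρ ρ' : ℝ} (hu : 0 ≤ u) (hu' : 0 ≤ u') (h : u ≤ ρ) (h' : u' ≤ ρ')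
    (hρ : 0 < ρ) (hρ' : 0 < ρ') : |u ^ 2 / ρ - u' ^ 2 / ρ'| ≤ 2 * |u - u'| + |ρ - ρ'| := by
  wlog hle : ρ' ≤ ρ generalizing u u' ρ ρ'
  · have := this hu' hu h' h hρ' hρ (le_of_lt (not_le.1 hle))
    rw [abs_sub_comm, abs_sub_comm u u', abs_sub_comm ρ ρ']
    exact this
  have e : u ^ 2 / ρ - u' ^ 2 / ρ' = (u - u') * ((u + u') / ρ) - u' ^ 2 / (ρ * ρ') * (ρ - ρ') := by
    field_simp
    ring
  rw [e]
  refine (abs_sub _ _).trans (add_le_add ?_ ?_)
  · rw [abs_mul, mul_comm]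
    refine mul_le_mul_of_nonneg_right ?_ (abs_nonneg _)
    rw [abs_of_nonneg (by positivity), div_le_iff₀ hρ]
    linarith
  · rw [abs_mul]
    refine mul_le_of_le_one_left (abs_nonneg _) ?_
    rw [abs_of_nonneg (by positivity), div_le_one (by positivity)]
    nlinarith

theorem sqrt_lip (a b a' b' : ℝ) : |√(a ^ 2 + b ^ 2) - √(a' ^ 2 + b' ^ 2)| ≤ |a - a'| + |b - b'| := by
  have key : ∀ a b a' b' : ℝ, √(a ^ 2 + b ^ 2) ≤ √(a' ^ 2 + b' ^ 2) + (|a - a'| + |b - b'|) := by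
    intro a b a' b'
    have h0 : 0 ≤ √(a' ^ 2 + b' ^ 2) := Real.sqrt_nonneg _
    have h1 : |a'| ≤ √(a' ^ 2 + b' ^ 2) := Real.abs_le_sqrt (by nlinarith [sq_nonneg b'])
    have h2 : |b'| ≤ √(a' ^ 2 + b' ^ 2) := Real.abs_le_sqrt (by nlinarith [sq_nonneg a'])
    have h3 : √(a' ^ 2 + b' ^ 2) ^ 2 = a' ^ 2 + b' ^ 2 := Real.sq_sqrt (by positivity)
    have h4 := abs_nonneg (a - a')
    have h5 := abs_nonneg (b - b')
    rw [Real.sqrt_le_left (by positivity)]
    have h6 : a ^ 2 ≤ (|a'| + |a - a'|) ^ 2 := by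
      rw [← sq_abs a]
      refine pow_le_pow_left₀ (abs_nonneg a) ?_ 2
      have := abs_add_le a' (a - a')
      rwa [add_sub_cancel] at this
    have h7 : b ^ 2 ≤ (|b'| + |b - b'|) ^ 2 := by
      rw [← sq_abs b]
      refine pow_le_pow_left₀ (abs_nonneg b) ?_ 2
      have := abs_add_le b' (b - b')
      rwa [add_sub_cancel] at this
    have h8 := sq_abs a'
    have h9 := sq_abs b'
    nlinarith [mul_le_mul_of_nonneg_right h1 h4, mul_le_mul_of_nonneg_right h2 h5,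
      mul_nonneg h4 h5]
  rw [abs_le]
  have h1 := key a b a' b'
  have h2 := key a' b' a b
  rw [abs_sub_comm a' a, abs_sub_comm b' b] at h2
  constructor <;> linarith

theorem pen_lip {κ : ℝ} (hκ : 0 ≤ κ) (p p' : W n × W n) :
    |pen κ p - pen κ p'| ≤ (4 + 2 * κ) * ‖p - p'‖ := by
  have a1 : |‖p.1‖ - ‖p'.1‖| ≤ ‖p - p'‖ :=
    (abs_norm_sub_norm_le _ _).trans (norm_fst_le (p - p'))
  have a2 : |‖p.2‖ - ‖p'.2‖| ≤ ‖p - p'‖ :=
    (abs_norm_sub_norm_le _ _).trans (norm_snd_le (p - p'))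
  have hu : ∀ p : W n × W n, max (‖p.2‖ - κ * ‖p.1‖) 0 ≤ √(‖p.1‖ ^ 2 + ‖p.2‖ ^ 2) := by
    intro p
    refine max_le ?_ (Real.sqrt_nonneg _)
    have h1 : ‖p.2‖ ≤ √(‖p.1‖ ^ 2 + ‖p.2‖ ^ 2) := by
      refine Real.le_sqrt_of_sq_le ?_
      nlinarith [sq_nonneg ‖p.1‖]
    have h2 := mul_nonneg hκ (norm_nonneg p.1)
    linarith
  by_cases hp : p = 0
  · rw [hp]
    have h1 : pen κ (0 : W n × W n) = 0 := by unfold pen; simp
    rw [h1, zero_sub, abs_neg, zero_sub, norm_neg, abs_of_nonneg (pen_nonneg κ p')]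
    by_cases hp' : p' = 0
    · rw [hp', h1, norm_zero, mul_zero]
    · have h2 := hu p'
      have h3 : 0 < √(‖p'.1‖ ^ 2 + ‖p'.2‖ ^ 2) := Real.sqrt_pos.2 (sq_pos_of_ne hp')
      have h4 : pen κ p' ≤ √(‖p'.1‖ ^ 2 + ‖p'.2‖ ^ 2) := by
        unfold pen
        rw [div_le_iff₀ h3]
        have h5 : 0 ≤ max (‖p'.2‖ - κ * ‖p'.1‖) 0 := le_max_right _ _
        nlinarith
      have h5 := sqrt_lip ‖p'.1‖ ‖p'.2‖ 0 0
      simp only [ne_eq, OfNat.ofNat_ne_zero, not_false_eq_true, zero_pow, add_zero, Real.sqrt_zero,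
        sub_zero, abs_norm] at h5
      rw [abs_of_pos h3] at h5
      have h6 := norm_fst_le p'
      have h7 := norm_snd_le p'
      have h8 := norm_nonneg p'
      nlinarith [mul_nonneg hκ h8]
  · by_cases hp' : p' = 0
    · rw [hp']
      have h1 : pen κ (0 : W n × W n) = 0 := by unfold pen; simp
      rw [h1, sub_zero, sub_zero, abs_of_nonneg (pen_nonneg κ p)]
      have h2 := hu p
      have h3 : 0 < √(‖p.1‖ ^ 2 + ‖p.2‖ ^ 2) := Real.sqrt_pos.2 (sq_pos_of_ne hp)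
      have h4 : pen κ p ≤ √(‖p.1‖ ^ 2 + ‖p.2‖ ^ 2) := by
        unfold pen
        rw [div_le_iff₀ h3]
        have h5 : 0 ≤ max (‖p.2‖ - κ * ‖p.1‖) 0 := le_max_right _ _
        nlinarith
      have h5 := sqrt_lip ‖p.1‖ ‖p.2‖ 0 0
      simp only [ne_eq, OfNat.ofNat_ne_zero, not_false_eq_true, zero_pow, add_zero, Real.sqrt_zero,
        sub_zero, abs_norm] at h5
      rw [abs_of_pos h3] at h5
      have h6 := norm_fst_le p
      have h7 := norm_snd_le p
      have h8 := norm_nonneg p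
      nlinarith [mul_nonneg hκ h8]
    · have h3 : 0 < √(‖p.1‖ ^ 2 + ‖p.2‖ ^ 2) := Real.sqrt_pos.2 (sq_pos_of_ne hp)
      have h3' : 0 < √(‖p'.1‖ ^ 2 + ‖p'.2‖ ^ 2) := Real.sqrt_pos.2 (sq_pos_of_ne hp')
      have h4 := lip_aux (le_max_right (‖p.2‖ - κ * ‖p.1‖) 0)
        (le_max_right (‖p'.2‖ - κ * ‖p'.1‖) 0) (hu p) (hu p') h3 h3'
      have h5 := sqrt_lip ‖p.1‖ ‖p.2‖ ‖p'.1‖ ‖p'.2‖
      have h6 : |max (‖p.2‖ - κ * ‖p.1‖) 0 - max (‖p'.2‖ - κ * ‖p'.1‖) 0| ≤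
          (1 + κ) * ‖p - p'‖ := by
        refine (abs_max_sub_max_le_abs _ _ _).trans ?_
        have e : ‖p.2‖ - κ * ‖p.1‖ - (‖p'.2‖ - κ * ‖p'.1‖) =
            (‖p.2‖ - ‖p'.2‖) - κ * (‖p.1‖ - ‖p'.1‖) := by ring
        rw [e]
        refine (abs_sub _ _).trans ?_
        rw [abs_mul, abs_of_nonneg hκ]
        have := mul_le_mul_of_nonneg_left a1 hκ
        linarith
      unfold pen
      linarith

theorem cd_pen {κ : ℝ} (hκ : 0 < κ) {s y : W n} (hs : s ≠ 0) :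
    ContDiffAt ℝ 1 (pen κ : W n × W n → ℝ) (s, y) := by
  have hns : 0 < ‖s‖ := norm_pos_iff.2 hs
  have h1 : ContDiffAt ℝ 1 (fun p : W n × W n => ‖p.1‖) (s, y) :=
    ContDiffAt.comp (g := fun s : W n => ‖s‖) (s, y) (cd_norm hs) contDiffAt_fst
  rcases lt_or_ge ‖y‖ (κ * ‖s‖) with h | h
  · have c1 : Continuous fun p : W n × W n => κ * ‖p.1‖ := continuous_const.mul continuous_fst.norm
    have c2 : Continuous fun p : W n × W n => ‖p.2‖ := continuous_snd.norm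
    have h2 : {p : W n × W n | ‖p.2‖ < κ * ‖p.1‖} ∈ 𝓝 (s, y) := (isOpen_lt c2 c1).mem_nhds h
    have h3 : (pen κ : W n × W n → ℝ) =ᶠ[𝓝 (s, y)] fun _ => 0 := by
      filter_upwards [h2] with p hp
      exact pen_of_le (le_of_lt hp)
    exact contDiffAt_const.congr_of_eventuallyEq h3
  · have hy : y ≠ 0 := by
      intro hy
      rw [hy, norm_zero] at h
      have := mul_pos hκ hns
      linarith
    have h2 : ContDiffAt ℝ 1 (fun p : W n × W n => ‖p.2‖) (s, y) :=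
      ContDiffAt.comp (g := fun s : W n => ‖s‖) (s, y) (cd_norm hy) contDiffAt_snd
    have h3 : ContDiff ℝ 1 (tp 2) := contDiff_tp 1 2 (by norm_num)
    have h4 : ContDiffAt ℝ 1 (fun p : W n × W n => tp 2 (‖p.2‖ - κ * ‖p.1‖)) (s, y) :=
      ContDiffAt.comp (g := tp 2) (s, y) h3.contDiffAt (h2.sub (contDiffAt_const.mul h1))
    have h5 : (pen κ : W n × W n → ℝ) = fun p => tp 2 (‖p.2‖ - κ * ‖p.1‖) /
        √(‖p.1‖ ^ 2 + ‖p.2‖ ^ 2) := by
      funext p
      unfold pen tp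
      rw [max_comm]
    rw [h5]
    have h6 : 0 < ‖s‖ ^ 2 + ‖y‖ ^ 2 := by positivity
    refine h4.div (((h1.pow 2).add (h2.pow 2)).sqrt ?_) ?_
    · exact h6.ne'
    · exact (Real.sqrt_pos.2 h6).ne'

theorem pen_pos {κ : ℝ} {y : W n} (hy : y ≠ 0) : 0 < pen κ ((0 : W n), y) := by
  have h0 : 0 < ‖y‖ := norm_pos_iff.2 hy
  unfold pen
  simp only [norm_zero, mul_zero, sub_zero]
  rw [max_eq_left h0.le]
  positivity

/-! ### over the ray `s = l (1, …, 1)` -/

section ray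

variable (L : LS n m) (Q : Par n) (hsm : ∀ k l j, L.sg k j ≠ L.sg l j →
    Q.ep * (‖vec (n := n) (L.V k)‖ + ‖vec (n := n) (L.V l)‖) < Q.d * |L.sg k j - L.sg l j|)

theorem dN (Q : Par n) : Q.d * √(n + 3 : ℝ) < 1 := by
  have hN := sqrt_pos n
  have hNsq : √(n + 3 : ℝ) ^ 2 = n + 3 := Real.sq_sqrt (by positivity)
  have h1 := Q.hdN
  have h3 : (Q.d * √(n + 3 : ℝ)) ^ 2 < 1 ^ 2 := by
    rw [mul_pow, hNsq]
    linarith
  exact lt_of_pow_lt_pow_left₀ 2 zero_le_one h3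

theorem norm_ray {l : ℝ} (hl : 0 < l) : ‖l • one n‖ = l * √(n + 3 : ℝ) := by
  rw [norm_smul, norm_one', Real.norm_of_nonneg hl.le]

theorem thf_ray {l : ℝ} (hl : 0 < l) : thf Q.ω (l • one n) = 0 := by
  have hN := sqrt_pos n
  have h1 : ⟪u1 n, l • one n⟫ / ‖l • one n‖ = 1 := by
    rw [norm_ray hl, one_eq, inner_smul_right, inner_smul_right, inner_u1_u1, mul_one]
    exact div_self (mul_pos hl hN).ne'
  unfold thf
  rw [h1, sub_self, zero_div, zero_sub]
  exact st_of_le (by norm_num)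

theorem eta_ray (k : Fin m) {l : ℝ} (hl : 0 < l) :
    (hd L Q hsm).eta k (l • one n) = vec fun j => L.sg k j * l := by
  have hN := sqrt_pos n
  have h0 : l • one n ≠ 0 := smul_ne_zero hl.ne' one_ne
  ext j
  rw [eta_apply]
  have h1 : (hd L Q hsm).th (l • one n) = 0 := thf_ray Q hl
  have h2 : (hd L Q hsm).hs (l • one n) j = (l • one n) j := by
    refine hs_of_large _ h0 ?_
    have h3 := dN Q
    show Q.d * ‖l • one n‖ ≤ (l • one n) j
    rw [norm_ray hl, PiLp.smul_apply, one_apply, smul_eq_mul, mul_one]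
    nlinarith
  rw [h1, h2, PiLp.smul_apply, one_apply, smul_eq_mul, mul_one, max_eq_left hl.le, vec_apply]
  show l * L.sg k j + _ = _
  ring

theorem A_ray {l : ℝ} (hl : 0 < l) (v : W n) : (hd L Q hsm).A (l • one n) v = v := by
  have h0 : l • one n ≠ 0 := smul_ne_zero hl.ne' one_ne
  have h1 : (hd L Q hsm).ka (l • one n) = 0 := by
    by_contra h
    have := neg_of_kaf Q.he h0 h 0
    rw [PiLp.smul_apply, one_apply, smul_eq_mul, mul_one] at this
    linarith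
  rw [HD.A, h1, zero_mul, zero_smul, add_zero]

end ray

/-! ### the facts about `G` -/

/-- everything the carve needs from the function `G` (`p` = half distance of the rays) -/
structure CF (L : LS n m) (Q : Par n) (hsm : ∀ k l j, L.sg k j ≠ L.sg l j →
    Q.ep * (‖vec (n := n) (L.V k)‖ + ‖vec (n := n) (L.V l)‖) < Q.d * |L.sg k j - L.sg l j|)
    (p r2 κ2 : ℝ) (G : (Fin (n + 3) → ℂ) → ℂ) : Prop where
  hp : 2 < p
  rays : ∀ k j, ∃ a : ℕ, L.sg k j = p * (2 * a + 1)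
  hr2 : 0 < r2
  hκ2 : 0 < κ2
  T1 : ∀ k s, s ≠ 0 → ‖hor ((hd L Q hsm).eta k s)‖ < κ2 * ‖s‖
  sm : ContDiffOn ℝ 2 G {0}ᶜ
  hom : ∀ (r : ℝ) x, 0 < r → G (r • x) = r • G x
  S0 : ∀ x : Fin (n + 3) → ℂ, (∀ j, (x j).re = 0) → (G x).re = 0
  K1 : ∀ x, x ≠ 0 → (G x).im = 0 → 0 ≤ (G x).re →
    ∃ V : Fin (n + 3) → ℝ, (fderiv ℝ G x (vt V)).im ≠ 0
  K2 : ∀ x, x ≠ 0 → G x = 0 → ∃ (b : ℝ) (Y : Fin (n + 3) → ℝ), 0 ≤ b ∧
    (fderiv ℝ G x (vs b Y)).im = 0 ∧ 0 < (fderiv ℝ G x (vs b Y)).re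
  c00 : ∀ h : ℝ, (G fun _ => Complex.I * (h : ℂ)).im = 0 → h = 0
  low : ∀ x : Fin (n + 3) → ℂ, (∀ j, (x j).re < 0) → 0 < (G x).re
  tube : ∀ (s t : W n) k, s ≠ 0 → ‖t - (hd L Q hsm).eta k s‖ ≤ r2 * ‖s‖ →
    (G (zc s t)).im = ⟪(hd L Q hsm).nrm k s, t - (hd L Q hsm).eta k s⟫ ∧ 0 < (G (zc s t)).re
  R4 : ∀ (l : ℝ) x, 0 < l → (∀ j, (x j).re = l) → (G x).im = 0 → 0 ≤ (G x).re →
    ∃ (k : Fin m) (Y : Fin (n + 3) → ℝ), (fderiv ℝ G x (vt Y)).im = 0 ∧
      (fderiv ℝ G x (vt Y)).re ≤ 0 ∧ ((G x).re = 0 → (fderiv ℝ G x (vt Y)).re < 0) ∧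
      ∀ j, ((x j).im - L.sg k j * l) ^ 2 ≤ ((x j).im - L.sg k j * l) * Y j ∧
        |(x j).im - L.sg k j * l| < 2 * l

theorem sv_of_re {x : Fin (n + 3) → ℂ} {l : ℝ} (h : sv x = l • one n) (j : Fin (n + 3)) :
    (x j).re = l := by
  have := congrArg (fun v : W n => v j) h
  simpa using this

variable {L : LS n m} {Q : Par n} {hsm : ∀ k l j, L.sg k j ≠ L.sg l j →
    Q.ep * (‖vec (n := n) (L.V k)‖ + ‖vec (n := n) (L.V l)‖) < Q.d * |L.sg k j - L.sg l j|}
    {p r2 κ2 : ℝ} {G : (Fin (n + 3) → ℂ) → ℂ}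

/-- a sufficient condition for `T1` -/
theorem T1_of (L : LS n m) (Q : Par n) (hsm : ∀ k l j, L.sg k j ≠ L.sg l j →
    Q.ep * (‖vec (n := n) (L.V k)‖ + ‖vec (n := n) (L.V l)‖) < Q.d * |L.sg k j - L.sg l j|)
    {Sg Vm κ2 : ℝ} (hSg : ∀ k j, |L.sg k j| ≤ Sg) (hVm : ∀ k, ‖vec (n := n) (L.V k)‖ ≤ Vm)
    (hSg0 : 0 ≤ Sg) (h : Sg + Q.ep * Vm < κ2) (k : Fin m) (s : W n) (hs : s ≠ 0) :
    ‖hor ((hd L Q hsm).eta k s)‖ < κ2 * ‖s‖ :=
  ((CD.norm_hor_le _).trans (EndH_864.norm_eta_le L Q hsm hSg hVm hSg0 k s)).trans_lt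
    (mul_lt_mul_of_pos_right h (norm_pos_iff.2 hs))

/-- the slope of the gauge `ψ` -/
theorem exists_K (L : LS n m) : ∃ K : ℝ, ∀ k j, |L.sg k j| + 2 ≤ K := by
  refine ⟨(∑ k, ∑ j, |L.sg k j|) + 2, fun k j => ?_⟩
  have h1 : |L.sg k j| ≤ ∑ j, |L.sg k j| :=
    Finset.single_le_sum (f := fun j => |L.sg k j|) (fun j _ => abs_nonneg _) (Finset.mem_univ j)
  have h2 : ∑ j, |L.sg k j| ≤ ∑ k, ∑ j, |L.sg k j| :=
    Finset.single_le_sum (f := fun k => ∑ j, |L.sg k j|)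
      (fun k _ => Finset.sum_nonneg fun j _ => abs_nonneg _) (Finset.mem_univ k)
  linarith

/-- the property over the ray in the form of `CD` -/
theorem R4' (H : CF L Q hsm p r2 κ2 G) {K : ℝ} (hK : ∀ k j, |L.sg k j| + 2 ≤ K) (l : ℝ)
    (x : Fin (n + 3) → ℂ) (hl : 0 < l) (hs : sv x = l • one n) (hc : (G x).im = 0)
    (hg : 0 ≤ (G x).re) :
    ∃ (k : Fin m) (Y : Fin (n + 3) → ℝ), (fderiv ℝ G x (vt Y)).im = 0 ∧
      (fderiv ℝ G x (vt Y)).re ≤ 0 ∧ ((G x).re = 0 → (fderiv ℝ G x (vt Y)).re < 0) ∧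
      (tv x ≠ (hd L Q hsm).eta k (sv x) → 0 < fderiv ℝ (psi p K) x (vt Y) ∧
        0 < (⟪tv x - (hd L Q hsm).eta k (sv x), vec Y⟫ : ℝ)) ∧
      ∀ k', k' ≠ k → 1 / √(n + 3 : ℝ) * ‖sv x‖ ≤ ‖tv x - (hd L Q hsm).eta k' (sv x)‖ := by
  have hN := sqrt_pos n
  have hre := sv_of_re hs
  obtain ⟨k, Y, h1, h2, h3, h4⟩ := H.R4 l x hl hre hc hg
  have hx0 : x ≠ 0 := by
    intro h
    have := hre 0
    rw [h] at this
    simp at this
    exact hl.ne this
  have hp := H.hp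
  have hv : ∀ j, (tv x - (hd L Q hsm).eta k (sv x)) j = (x j).im - L.sg k j * l := by
    intro j
    rw [hs, eta_ray L Q hsm k hl]
    rfl
  refine ⟨k, Y, h1, h2, h3, fun hne => ?_, fun k' hk' => ?_⟩
  · obtain ⟨i, hi⟩ : ∃ i, (x i).im - L.sg k i * l ≠ 0 := by
      by_contra h
      push Not at h
      apply hne
      rw [← sub_eq_zero]
      ext j
      rw [hv j, h j]
      rfl
    constructor
    · have hBB : Calc3_957.BB x < K ^ 2 * Calc3_957.AA x := by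
        unfold Calc3_957.BB Calc3_957.AA
        rw [Finset.mul_sum]
        refine Finset.sum_lt_sum_of_nonempty ⟨0, Finset.mem_univ _⟩ fun j _ => ?_
        rw [hre j, ← mul_pow]
        have h5 : |(x j).im| < K * l := by
          have h6 : (x j).im = ((x j).im - L.sg k j * l) + L.sg k j * l := by ring
          rw [h6]
          refine (abs_add_le _ _).trans_lt ?_
          rw [abs_mul, abs_of_pos hl]
          have h7 := (h4 j).2
          have h8 := mul_le_mul_of_nonneg_right (hK k j) hl.le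
          nlinarith
        have := pow_lt_pow_left₀ h5 (abs_nonneg _) two_ne_zero
        rwa [sq_abs] at this
      rw [CarvePsi_363.fderiv_psi hx0 hl hre hBB]
      have hAA : 0 < Calc3_957.AA x := by
        unfold Calc3_957.AA
        refine Finset.sum_pos (fun j _ => ?_) ⟨0, Finset.mem_univ _⟩
        rw [hre j]
        exact pow_pos hl 2
      refine div_pos (Finset.sum_pos' (fun j _ => ?_) ⟨i, Finset.mem_univ _, ?_⟩) hAA
      · obtain ⟨a, ha⟩ := H.rays k j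
        exact (CarvePsi_363.radt_mul hp hl ha (hre j) (h4 j).2 (h4 j).1).1
      · obtain ⟨a, ha⟩ := H.rays k i
        exact (CarvePsi_363.radt_mul hp hl ha (hre i) (h4 i).2 (h4 i).1).2 hi
    · rw [inner_def]
      refine Finset.sum_pos' (fun j _ => ?_) ⟨i, Finset.mem_univ _, ?_⟩
      · rw [hv j, vec_apply]
        exact (sq_nonneg _).trans (h4 j).1
      · rw [hv i, vec_apply]
        exact lt_of_lt_of_le (by positivity) (h4 i).1
  · obtain ⟨i, hi⟩ := exists_sg_ne (hd L Q hsm) hk'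
    have hi' : L.sg k' i ≠ L.sg k i := hi
    obtain ⟨a, ha⟩ := H.rays k' i
    obtain ⟨b, hb⟩ := H.rays k i
    have hab : (a : ℤ) ≠ b := by
      intro h
      apply hi'
      have : a = b := by exact_mod_cast h
      rw [ha, hb, this]
    have hab' : (1 : ℝ) ≤ |(a : ℝ) - b| := by
      have h5 : (1 : ℤ) ≤ |(a : ℤ) - b| := Int.one_le_abs (sub_ne_zero.2 hab)
      exact_mod_cast h5
    have h5 : 2 * p ≤ |L.sg k' i - L.sg k i| := by
      rw [ha, hb, show p * (2 * (a : ℝ) + 1) - p * (2 * b + 1) = 2 * p * (a - b) by ring, abs_mul,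
        abs_of_pos (by linarith : 0 < 2 * p)]
      nlinarith
    have hv' : (tv x - (hd L Q hsm).eta k' (sv x)) i = (x i).im - L.sg k' i * l := by
      rw [hs, eta_ray L Q hsm k' hl]
      rfl
    have h6 : l ≤ |(tv x - (hd L Q hsm).eta k' (sv x)) i| := by
      rw [hv']
      have h7 : (L.sg k' i - L.sg k i) * l =
          ((x i).im - L.sg k i * l) - ((x i).im - L.sg k' i * l) := by ring
      have h8 : |(L.sg k' i - L.sg k i) * l| ≤
          |(x i).im - L.sg k i * l| + |(x i).im - L.sg k' i * l| := by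
        rw [h7]
        exact abs_sub _ _
      rw [abs_mul, abs_of_pos hl] at h8
      have h9 := (h4 i).2
      nlinarith
    rw [hs, norm_ray hl, ← hs]
    refine le_trans ?_ (h6.trans (abs_apply_le _ i))
    rw [one_div, mul_comm l, inv_mul_cancel_left₀ hN.ne']

/-- **THE CARVE FOR THE LITERAL DATA** -/
theorem carve3 (H : CF L Q hsm p r2 κ2 G) :
    ∃ r0 > 0, ∀ r, 0 < r → r < r0 → ∃ ε0 > 0, ∀ ε, 0 < ε → ε ≤ ε0 →
      FLOut G (hd L Q hsm) Q.e κ2 ε r := by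
  obtain ⟨K, hK⟩ := exists_K L
  obtain ⟨c, hc, hcA⟩ := exists_lA L Q hsm
  have hN := sqrt_pos n
  have hne : -one n ≠ 0 := neg_ne_zero.2 one_ne
  let P : CD n m :=
    { G := G
      ψ := psi p K
      eta := (hd L Q hsm).eta
      A := (hd L Q hsm).A
      nrm := (hd L Q hsm).nrm
      a00 := a00 Q.e
      ww := fun s t => pen κ2 (s, hor t)
      κ2 := κ2
      r2 := r2
      r3 := 1 / √(n + 3 : ℝ)
      lA := c
      c1 := Q.e ^ 3
      sm := H.sm
      hom := H.hom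
      S0 := H.S0
      K1 := H.K1
      K2 := H.K2
      c00 := H.c00
      sψ := CarvePsi_363.contDiffOn_psi p K
      ψ0 := fun x hx => CarvePsi_363.psi_pos p K hx
      hψ := fun r x hr => CarvePsi_363.psi_smul p K hr x
      low := fun x hx h => H.low x fun j => neg_of_a00 Q.he hx h j
      hr2 := H.hr2
      tube := fun k x hx h => H.tube (sv x) (tv x) k hx h
      hr3 := one_div_pos.2 hN
      R4 := R4' H hK
      ceta := fun k s hs => (cd_eta L Q hsm k hs).contDiffWithinAt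
      heta := fun k c s hc => eta_smul _ hc k s
      cA := fun s v hs => cd_A L Q hsm hs
      hA := fun c s v hc => A_homog _ hc s v
      Aadd := A_add _
      Asmul := A_smul _
      hlA := hc
      Alow := hcA
      A1 := fun l v hl => A_ray L Q hsm hl v
      ca00 := fun s hs => (cd_a00 Q.e hs).contDiffWithinAt
      h00 := fun c s hc => a00_smul Q.e hc s
      hc1 := pow_pos Q.he 3
      m00 := fun s hs h => fderiv_a00 Q.he Q.heN hs h
      neg1 := a00_pos Q.he hne fun j => by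
        rw [norm_neg, norm_one', PiLp.neg_apply, one_apply]
        have := Q.heN
        linarith
      pos1 := by
        by_contra h
        push Not at h
        have := neg_of_a00 Q.he one_ne h 0
        rw [one_apply] at this
        linarith
      ww_nonneg := fun s t => pen_nonneg _ _
      hww := fun c s t hc => by
        have h1 : ((c • s, hor (c • t)) : W n × W n) = c • (s, hor t) := by rw [hor_smul]; rfl
        show pen κ2 (c • s, hor (c • t)) = _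
        rw [h1, pen_smul κ2 hc]
      cww := fun s t hs => ContDiffAt.comp (g := (pen κ2 : W n × W n → ℝ))
        (f := fun p : W n × W n => (p.1, hor p.2)) (s, t) (cd_pen H.hκ2 hs)
        (contDiffAt_fst.prodMk (cd_hor contDiffAt_snd))
      lww := by
        refine ⟨4 + 2 * κ2, fun q q' => ?_⟩
        refine (pen_lip H.hκ2.le (q.1, hor q.2) (q'.1, hor q'.2)).trans ?_
        refine mul_le_mul_of_nonneg_left ?_ (by have := H.hκ2; positivity)
        have e : ((q.1, hor q.2) : W n × W n) - (q'.1, hor q'.2) =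
            (q.1 - q'.1, hor (q.2 - q'.2)) := by rw [hor_sub]; rfl
        rw [e]
        refine max_le (norm_fst_le (q - q')) ?_
        exact (CD.norm_hor_le _).trans (norm_snd_le (q - q'))
      ww_c := (pen_continuous κ2).comp (f := fun p : W n × W n => (p.1, hor p.2))
        (continuous_fst.prodMk (continuous_hor.comp continuous_snd))
      ww_zero := fun s t h => pen_of_le (p := (s, hor t)) h
      ww_pos := fun t h => pen_pos h
      T1 := H.T1
      dis := fun s hs h k l hkl => by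
        refine eta_ne _ hkl hs ?_
        by_contra hh
        push Not at hh
        refine absurd h (not_le.2 (a00_pos Q.he hs fun j => ?_))
        have h1 := (hh j).le
        have h2 := Q.hed
        have h3 := norm_nonneg s
        have h4 : s j ≤ -(Q.d * ‖s‖) := h1
        nlinarith }
  obtain ⟨r0, hr0, h⟩ := P.flout
  refine ⟨r0, hr0, fun r hr hrr => ?_⟩
  obtain ⟨ε0, hε0, h'⟩ := h r hr hrr
  refine ⟨ε0, hε0, fun ε hε hεε => ?_⟩
  obtain ⟨F, hF1, hF2⟩ := h' ε hε hεε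
  refine ⟨F, hF1, fun x hx => ?_⟩
  have h1 := hF2 x
  have h2 : G x = 0 ↔ (G x).re = 0 := ⟨fun h => by rw [h]; rfl, fun h => Complex.ext h hx⟩
  rw [← h2]
  refine h1.trans ?_
  have h3 : (G (F x)).im = 0 := by
    have := hF1 x
    rw [show (G (F x)).im = (G x).im from this, hx]
  exact ⟨fun h => h.2, fun h => ⟨h3, h⟩⟩

end Crest.Agent.R267.Carve3_363
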