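import Crest.Agent.R267.MnegC_951
import Crest.Agent.R267.SphReg_808

/-!
# Row 267 (helper951): the class `Hm` of #1973/#2154, part 1

* `hom2 F (t, x) = |x|² F (t, x / |x|)` (`|x|² = nsq x`): the standard form of a path of functions;
* `HPath F`: paths of weighted homogeneous functions (weights may depend on time);
* `HPath.mp`: the standard form of an `HPath` is a path in the class `MP`.
-/

set_option autoImplicit false
set_option linter.unusedSectionVars false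

noncomputable section

open Set Filter Topology Metric
open scoped NNReal ContDiff
open Crest.Agent.R267.Reg_808 Crest.Agent.R267.FlowG_951 Crest.Agent.R267.Mneg_951
open Crest.Agent.R267.Cone_808 Crest.Agent.R267.SphReg_808

namespace Crest.Agent.R267.Hm_951

variable {ι : Type*} [Fintype ι]

/-! ### the standard form -/

theorem nsq_smul (r : ℝ) (x : ι → ℂ) : nsq (r • x) = r ^ 2 * nsq x := by
  unfold nsq
  rw [Finset.mul_sum]
  refine Finset.sum_congr rfl fun i _ => ?_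
  rw [Pi.smul_apply, norm_smul, mul_pow, Real.norm_eq_abs, sq_abs]

theorem nsq_unit {x : ι → ℂ} (hx : x ≠ 0) : nsq ((Real.sqrt (nsq x))⁻¹ • x) = 1 := by
  have h := nsq_pos hx
  rw [nsq_smul, inv_pow, Real.sq_sqrt h.le, inv_mul_cancel₀ h.ne']

theorem ip_add_right (x y z : ι → ℂ) : ip x (y + z) = ip x y + ip x z := by
  unfold ip
  rw [← Finset.sum_add_distrib]
  exact Finset.sum_congr rfl fun i _ => by rw [Pi.add_apply, inner_add_right]

theorem ip_smul_right (x y : ι → ℂ) (r : ℝ) : ip x (r • y) = r * ip x y := by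
  unfold ip
  rw [Finset.mul_sum]
  exact Finset.sum_congr rfl fun i _ => by rw [Pi.smul_apply, inner_smul_right]

/-- the standard form: homogeneous of degree `2` for the standard dilations, equal to `F` on the
unit sphere -/
def hom2 (F : ℝ × (ι → ℂ) → ℂ) (p : ℝ × (ι → ℂ)) : ℂ :=
  nsq p.2 • F (p.1, (Real.sqrt (nsq p.2))⁻¹ • p.2)

theorem hom2_unit (F : ℝ × (ι → ℂ) → ℂ) {p : ℝ × (ι → ℂ)} (hp : nsq p.2 = 1) :
    hom2 F p = F p := by
  unfold hom2
  rw [hp, Real.sqrt_one, inv_one, one_smul, one_smul]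

theorem hom2_hom (F : ℝ × (ι → ℂ) → ℂ) (t : ℝ) {r : ℝ} (hr : 0 < r) (x : ι → ℂ) :
    hom2 F (t, r • x) = (r ^ 2) • hom2 F (t, x) := by
  unfold hom2
  show nsq (r • x) • F (t, (Real.sqrt (nsq (r • x)))⁻¹ • (r • x)) =
    (r ^ 2) • (nsq x • F (t, (Real.sqrt (nsq x))⁻¹ • x))
  rw [nsq_smul, Real.sqrt_mul (by positivity), Real.sqrt_sq hr.le, smul_smul, smul_smul]
  congr 3
  rw [mul_inv, mul_comm r⁻¹, mul_assoc, inv_mul_cancel₀ hr.ne', mul_one]

theorem contDiffOn_hom2 {T : Set ℝ} {F : ℝ × (ι → ℂ) → ℂ}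
    (hF : ContDiffOn ℝ 2 F (T ×ˢ {0}ᶜ)) : ContDiffOn ℝ 2 (hom2 F) (T ×ˢ {0}ᶜ) := by
  have h1 : ContDiff ℝ 2 fun p : ℝ × (ι → ℂ) => nsq p.2 := contDiff_nsq.comp contDiff_snd
  have h2 : ContDiffOn ℝ 2 (fun p : ℝ × (ι → ℂ) => (Real.sqrt (nsq p.2))⁻¹) (T ×ˢ {0}ᶜ) := by
    intro p hp
    have hpos := nsq_pos (show p.2 ≠ 0 from hp.2)
    exact ((h1.contDiffAt.sqrt hpos.ne').inv (Real.sqrt_pos.2 hpos).ne').contDiffWithinAt
  have h3 : ContDiffOn ℝ 2 (fun p : ℝ × (ι → ℂ) => (p.1, (Real.sqrt (nsq p.2))⁻¹ • p.2))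
      (T ×ˢ {0}ᶜ) := contDiff_fst.contDiffOn.prodMk (h2.smul contDiff_snd.contDiffOn)
  refine h1.contDiffOn.smul (hF.comp h3 fun p hp => ⟨hp.1, ?_⟩)
  exact smul_ne_zero (inv_ne_zero (Real.sqrt_pos.2 (nsq_pos (show p.2 ≠ 0 from hp.2))).ne') hp.2

theorem hasDerivAt_nsq_line (x v : ι → ℂ) :
    HasDerivAt (fun s : ℝ => nsq (x + s • v)) (2 * ip x v) 0 := by
  have h1 : HasFDerivAt (nsq (ι := ι)) (fderiv ℝ nsq x) (x + (0 : ℝ) • v) := by
    rw [zero_smul, add_zero]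
    exact (contDiff_nsq (n := 1)).differentiable (by norm_num) x |>.hasFDerivAt
  have h2 : HasDerivAt (fun s : ℝ => x + s • v) v 0 := by
    simpa using ((hasDerivAt_id (0 : ℝ)).smul_const v).const_add x
  have h3 := h1.comp_hasDerivAt 0 h2
  rwa [fderiv_nsq] at h3

/-- the derivative of the standard form at a point of the unit sphere -/
theorem fderiv_hom2 {F : ℝ × (ι → ℂ) → ℂ} {t : ℝ} {x : ι → ℂ} (hx : nsq x = 1)
    (hF : DifferentiableAt ℝ F (t, x)) (hH : DifferentiableAt ℝ (hom2 F) (t, x)) (v : ι → ℂ) :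
    fderiv ℝ (hom2 F) (t, x) (0, v) =
      (2 * ip x v) • F (t, x) + fderiv ℝ F (t, x) (0, v - ip x v • x) := by
  have hn := hasDerivAt_nsq_line x v
  have hn0 : nsq (x + (0 : ℝ) • v) = 1 := by rw [zero_smul, add_zero, hx]
  have hl : HasDerivAt (fun s : ℝ => x + s • v) v 0 := by
    simpa using ((hasDerivAt_id (0 : ℝ)).smul_const v).const_add x
  have hm : HasDerivAt (fun s : ℝ => (Real.sqrt (nsq (x + s • v)))⁻¹) (-ip x v) 0 := by
    have h1 := (hn.sqrt (by rw [hn0]; exact one_ne_zero)).fun_inv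
      (by rw [hn0, Real.sqrt_one]; exact one_ne_zero)
    rw [hn0, Real.sqrt_one] at h1
    refine h1.congr_deriv ?_
    ring
  have hc : HasDerivAt (fun s : ℝ => (t, (Real.sqrt (nsq (x + s • v)))⁻¹ • (x + s • v)))
      ((0 : ℝ), v - ip x v • x) 0 := by
    have h1 := hm.fun_smul hl
    rw [hn0, Real.sqrt_one, inv_one, one_smul, zero_smul, add_zero] at h1
    refine (hasDerivAt_const (0 : ℝ) t).prodMk (h1.congr_deriv ?_)
    rw [neg_smul, sub_eq_add_neg]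
  have hF' : HasFDerivAt F (fderiv ℝ F (t, x))
      (t, (Real.sqrt (nsq (x + (0 : ℝ) • v)))⁻¹ • (x + (0 : ℝ) • v)) := by
    rw [hn0, Real.sqrt_one, inv_one, one_smul, zero_smul, add_zero]
    exact hF.hasFDerivAt
  have h1 := hF'.comp_hasDerivAt (0 : ℝ) hc
  have h2 := hn.fun_smul h1
  rw [hn0] at h2
  have hH' : HasFDerivAt (hom2 F) (fderiv ℝ (hom2 F) (t, x)) (t, x + (0 : ℝ) • v) := by
    rw [zero_smul, add_zero]
    exact hH.hasFDerivAt
  have h3 := hH'.comp_hasDerivAt (0 : ℝ) ((hasDerivAt_const (0 : ℝ) t).prodMk hl)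
  have h4 := h3.unique h2
  rw [h4]
  simp only [Function.comp_apply, hx, Real.sqrt_one, inv_one, one_smul, zero_smul, add_zero]
  exact add_comm _ _

/-- paths of weighted homogeneous functions in the class `Hm` -/
structure HPath (F : ℝ × (ι → ℂ) → ℂ) : Prop where
  smooth : ∃ T : Set ℝ, IsOpen T ∧ Icc (0 : ℝ) 1 ⊆ T ∧ ContDiffOn ℝ 2 F (T ×ˢ {0}ᶜ)
  wh : ∀ t ∈ Icc (0 : ℝ) 1, ∃ w : ι → ℝ, (∀ i, 0 < w i) ∧
    ∀ (s : ℝ) (x : ι → ℂ), F (t, act w s x) = Real.exp s • F (t, x)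
  reg : ∀ t ∈ Icc (0 : ℝ) 1, ∀ x : ι → ℂ, x ≠ 0 → 0 ≤ (F (t, x)).re →
    ∀ b : ℂ, ∃ y : ι → ℂ, fderiv ℝ F (t, x) (0, y) = b

/-- Euler's identity -/
theorem euler {w : ι → ℝ} {F : ℝ × (ι → ℂ) → ℂ} {t : ℝ}
    (hwh : ∀ (s : ℝ) (x : ι → ℂ), F (t, act w s x) = Real.exp s • F (t, x)) {x : ι → ℂ}
    (hF : DifferentiableAt ℝ F (t, x)) : fderiv ℝ F (t, x) (0, eul w x) = F (t, x) := by
  have h1 : HasFDerivAt F (fderiv ℝ F (t, x)) (t, act w 0 x) := by
    rw [act_zero_time]; exact hF.hasFDerivAt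
  have h2 := h1.comp_hasDerivAt (0 : ℝ) ((hasDerivAt_const (0 : ℝ) t).prodMk (hasDerivAt_act w x))
  have h3 : HasDerivAt (fun s : ℝ => Real.exp s • F (t, x)) (F (t, x)) 0 := by
    have := (Real.hasDerivAt_exp 0).smul_const (F (t, x))
    rwa [Real.exp_zero, one_smul] at this
  have h4 : (F ∘ fun s : ℝ => (t, act w s x)) = fun s : ℝ => Real.exp s • F (t, x) :=
    funext fun s => hwh s x
  rw [h4] at h2
  exact h2.unique h3

/-- **the standard form of a path of weighted homogeneous functions is in the class `MP`** -/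
theorem HPath.mp {F : ℝ × (ι → ℂ) → ℂ} (h : HPath F) : MP (hom2 F) := by
  obtain ⟨T, hT, hsub, hC⟩ := h.smooth
  have hop := isOpen_dom (E := ι → ℂ) hT
  have hC2 := contDiffOn_hom2 hC
  have hhom : ∀ t ∈ T, ∀ r : ℝ, 0 < r → ∀ x, hom2 F (t, r • x) = (r ^ 2) • hom2 F (t, x) :=
    fun t _ r hr x => hom2_hom F t hr x
  refine (C11.of_contDiffOn hT hsub hC2 hhom).mp fun t ht x hx => ?_
  have hpos := nsq_pos hx
  set c : ℝ := Real.sqrt (nsq x) with hc
  have hcpos : 0 < c := Real.sqrt_pos.2 hpos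
  set x₁ : ι → ℂ := c⁻¹ • x with hx₁
  have hx₁n : nsq x₁ = 1 := nsq_unit hx
  have hx₁0 : x₁ ≠ 0 := smul_ne_zero (inv_ne_zero hcpos.ne') hx
  have hxc : dil c (t, x₁) = (t, x) := by
    rw [dil_apply, hx₁, smul_smul, mul_inv_cancel₀ hcpos.ne', one_smul]
  have hmem : (t, x₁) ∈ T ×ˢ ({0}ᶜ : Set (ι → ℂ)) := ⟨hsub ht, hx₁0⟩
  have hFd : DifferentiableAt ℝ F (t, x₁) :=
    ((hC _ hmem).contDiffAt (hop.mem_nhds hmem)).differentiableAt (by norm_num)
  have hHd : DifferentiableAt ℝ (hom2 F) (t, x₁) :=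
    ((hC2 _ hmem).contDiffAt (hop.mem_nhds hmem)).differentiableAt (by norm_num)
  have hval : hom2 F (t, x) = (c ^ 2) • F (t, x₁) := by
    have h1 := hom2_hom F t hcpos x₁
    rw [hom2_unit F (p := (t, x₁)) hx₁n] at h1
    rw [← h1, hx₁, smul_smul, mul_inv_cancel₀ hcpos.ne', one_smul]
  by_cases hre : 0 ≤ (F (t, x₁)).re
  · left
    obtain ⟨w, hw, hwh⟩ := h.wh t ht
    have hsur := h.reg t ht x₁ hx₁0 hre
    have heul := euler hwh hFd
    have hip := ip_eul_pos hw hx₁0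
    intro b
    obtain ⟨u, hu⟩ := hsur ((c ^ 2)⁻¹ • b)
    set α : ℝ := ip x₁ u / ip x₁ (eul w x₁) with hα
    set z : ι → ℂ := u + (-α) • eul w x₁ with hz
    have hipz : ip x₁ z = 0 := by
      rw [hz, ip_add_right, ip_smul_right, hα]
      field_simp
      ring
    have hipv : ip x₁ (z + (α / 2) • x₁) = α / 2 := by
      rw [ip_add_right, hipz, ip_smul_right, ip_self, hx₁n, zero_add, mul_one]
    have hkey : fderiv ℝ (hom2 F) (t, x₁) (0, z + (α / 2) • x₁) = (c ^ 2)⁻¹ • b := by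
      rw [fderiv_hom2 hx₁n hFd hHd, hipv, add_sub_cancel_right]
      have h1 : ((0 : ℝ), z) = (0, u) + (-α) • ((0 : ℝ), eul w x₁) := by
        rw [Prod.smul_mk, Prod.mk_add_mk, smul_zero, add_zero]
      rw [h1, map_add, map_smul, heul, hu, mul_div_cancel₀ α (two_ne_zero)]
      rw [neg_smul]
      abel
    refine ⟨c • (z + (α / 2) • x₁), ?_⟩
    rw [← hxc, fderiv_dil hT hC2 hhom hmem hcpos]
    show (c ^ 2) • fderiv ℝ (hom2 F) (t, x₁) (0, c⁻¹ • (c • (z + (α / 2) • x₁))) = b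
    rw [smul_smul c⁻¹, inv_mul_cancel₀ hcpos.ne', one_smul, hkey, smul_smul,
      mul_inv_cancel₀ (by positivity), one_smul]
  · right
    rw [hval, Neg_smul (by positivity)]
    show (F (t, x₁)).re < 0
    exact lt_of_not_ge hre

end Crest.Agent.R267.Hm_951
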