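import Crest.Agent.R267.EndDef_864

/-!
# Row 267, T3a: the lobed function `G` on `ℂ^N` (degree 1, with cut-offs) and the pointwise facts

Coordinates `z j = s j + i t j`.  Planar function `pl ga M` (homogeneous of degree 1):
for `s ≤ 0` it is `-(2-ga) s - i t`; for `s > 0` it is `s * p (t / s)` where `p` comes down the
vertical line `Re = -(2-ga)`, runs `M` times counterclockwise around the closed convex curve
`-(1-ga) + (Af v + i Bf v)` (period 8 in `v`), and leaves down the same vertical line.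
The curve is piecewise polynomial, `C²`, centrally symmetric (`v ↦ v ± 4`), and has vertical flat
sides: `Af = 1, Bf v = v` for `|v| ≤ 1` (right side, value `ga + i v`), `Af = -1` for `|v| ≥ 3`.
So near the positive ray `t = sg l * s`, `sg l = 8 l + 4` (`l < M`), the planar function is exactly
`ga * s + i (t - sg l * s)` (for `|t - sg l * s| ≤ s`).
-/

set_option autoImplicit false

noncomputable section

namespace Crest.Agent.R267.T3aDefs_957

open Finset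

/-! ### one variable functions -/

/-- clamp to `[0,1]`. -/
def c01 (x : ℝ) : ℝ := max 0 (min 1 x)

/-- `C²` step: `0` for `x ≤ 0`, `1` for `x ≥ 1`, `10 x³ - 15 x⁴ + 6 x⁵` between. -/
def st (x : ℝ) : ℝ := c01 x ^ 3 * (10 - 15 * c01 x + 6 * c01 x ^ 2)

/-- horizontal coordinate of the loop: `1` for `|v| ≤ 1`, `-1` for `|v| ≥ 3`. -/
def Af (v : ℝ) : ℝ := 1 - 2 * st ((|v| - 1) / 2)

/-- even primitive of the odd `C¹` function which is `(3 x - x³)/2` on `[-1,1]` and `±1` outside. -/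
def Q1 (x : ℝ) : ℝ := if |x| ≤ 1 then 3 * x ^ 2 / 4 - x ^ 4 / 8 else |x| - 3 / 8

/-- vertical coordinate of the loop (one period `|v| ≤ 4`): `v` for `|v| ≤ 1`, concave on `[1,3]`,
symmetric with respect to `v = 2`, `4 - v` for `v ≥ 3`; odd. -/
def Bf (v : ℝ) : ℝ := Real.sign v * (13 / 8 - Q1 (2 - |v|))

/-- position of the ray `l`. -/
def sg (l : ℕ) : ℝ := 8 * l + 4

/-- the loops: `0` for `τ ≤ 1` and for `τ ≥ 8 M + 1`. -/
def Fl (M : ℕ) (τ : ℝ) : ℂ :=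
  (∑ l ∈ range M, ((1 + Af (τ - sg l) : ℝ) : ℂ)) +
    Complex.I * (((∑ l ∈ range M, (4 + (τ - sg l) + Bf (τ - sg l)) : ℝ) -
      8 * M * st (τ - 8 * M) : ℝ) : ℂ)

/-- value of the planar function on the line `s = 1`. -/
def pv (ga : ℝ) (M : ℕ) (τ : ℝ) : ℂ := -((2 - ga : ℝ) : ℂ) - Complex.I * (τ : ℂ) + Fl M τ

/-- **the planar function** with `M + 1` positive rays. -/
def pl (ga : ℝ) (M : ℕ) (z : ℂ) : ℂ :=
  -((2 - ga : ℝ) : ℂ) * z.re - Complex.I * z.im +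
    if 0 < z.re then (z.re : ℂ) * Fl M (z.im / z.re) else 0

/-- angular window: `1` on the lobes `m ≤ l < M`, `0` on the lobes `l < m`; it varies only on
`[8m-1, 8m+1]` and `[8M-1, 8M+1]`, where the loop is on the left flat side. -/
def win (m M : ℕ) (τ : ℝ) : ℝ :=
  st ((τ - (8 * m - 1)) / 2) * (1 - st ((τ - (8 * M - 1)) / 2))

/-! ### gauges -/

/-- `gq K A B` with `A = a²`, `B = b²`: square of a gauge which is `a` for `b ≤ K a`. -/
def gq (K A B : ℝ) : ℝ := A + (max 0 (B - K ^ 2 * A)) ^ 3 / ((3 * K ^ 2 + 3) * (A + B) ^ 2)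

/-- planar gauge: `|s|` for `|t| ≤ K |s|`. -/
def pg (K : ℝ) (z : ℂ) : ℝ := √(gq K (z.re ^ 2) (z.im ^ 2))

section space

variable {N : ℕ}

/-- total gauge: Euclidean norm of `s` for `|t| ≤ K |s|`. -/
def NN (K : ℝ) (z : Fin N → ℂ) : ℝ := √(gq K (∑ j, (z j).re ^ 2) (∑ j, (z j).im ^ 2))

/-- cut-off profile: `0` for `x ≤ d`, `1` for `x ≥ 2 d`. -/
def chi (d x : ℝ) : ℝ := st ((x - d) / d)

/-- combinatorial data: `M j + 1` positive rays in the variable `j`; a coupling `(i, j, m)`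
deletes the last lobe of the variable `j` over the lobes `l ≥ m` of the variable `i`. -/
structure LD (N : ℕ) where
  M : Fin N → ℕ
  hM : ∀ j, 1 ≤ M j
  C : Finset (Fin N × Fin N × ℕ)
  hC : ∀ e ∈ C, e.1 ≠ e.2.1

namespace LD

variable (D : LD N)

/-- maximal number of lobes. -/
def Mx : ℕ := ∑ j, D.M j

/-- slope up to which the total gauge is `|s|`. -/
def K1 : ℝ := (8 * D.Mx + 2) * N

/-- slope up to which the planar gauges are `|s|`. -/
def K : ℝ := D.K1 * N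

/-- relative size of the variable `j`. -/
def xr (z : Fin N → ℂ) (j : Fin N) : ℝ := pg D.K (z j) / NN D.K1 z

/-- cut-off of the variable `j`. -/
def ch (d : ℝ) (z : Fin N → ℂ) (j : Fin N) : ℝ := chi d (D.xr z j)

/-- cut-off positive part `χ s⁺`. -/
def R (d : ℝ) (z : Fin N → ℂ) (j : Fin N) : ℝ := D.ch d z j * max 0 (z j).re

/-- deletion of one coupling (`0` unless both variables are in the windows). -/
def Be (d : ℝ) (e : Fin N × Fin N × ℕ) (z : Fin N → ℂ) : ℝ :=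
  D.R d z e.1 * D.R d z e.2.1 / (D.R d z e.1 + D.R d z e.2.1) *
    (win e.2.2 (D.M e.1) ((z e.1).im / (z e.1).re) *
      win (D.M e.2.1 - 1) (D.M e.2.1) ((z e.2.1).im / (z e.2.1).re))

/-- **the lobed function** of T3a. Parameters in the order of choice: `cB` large, `ga` small,
`d` small. -/
def G (cB ga d : ℝ) (z : Fin N → ℂ) : ℂ :=
  ∑ j, (D.ch d z j : ℂ) * pl ga (D.M j) (z j) - ((cB * ga * ∑ e ∈ D.C, D.Be d e z : ℝ) : ℂ)

/-- letters (strands): positive lobes which are not deleted. -/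
def Let (k : Fin N → ℕ) : Prop :=
  (∀ j, k j < D.M j) ∧ ∀ e ∈ D.C, ¬ (e.2.2 ≤ k e.1 ∧ k e.2.1 + 1 = D.M e.2.1)

/-! ### the facts -/

/-- "for `cB` large, then `ga` small, then `d` small". -/
def Ev (P : ℝ → ℝ → ℝ → Prop) : Prop :=
  ∃ c0 : ℝ, 0 < c0 ∧ ∀ c, c0 ≤ c → ∃ g0 : ℝ, 0 < g0 ∧ ∀ g, 0 < g → g ≤ g0 →
    ∃ d0 : ℝ, 0 < d0 ∧ ∀ d, 0 < d → d ≤ d0 → P c g d

theorem Ev.and {P Q : ℝ → ℝ → ℝ → Prop} (hP : Ev P) (hQ : Ev Q) :
    Ev (fun c g d => P c g d ∧ Q c g d) := by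
  obtain ⟨c0, hc0, h⟩ := hP
  obtain ⟨c1, hc1, h'⟩ := hQ
  refine ⟨max c0 c1, lt_max_of_lt_left hc0, fun c hc => ?_⟩
  obtain ⟨g0, hg0, h⟩ := h c (le_trans (le_max_left _ _) hc)
  obtain ⟨g1, hg1, h'⟩ := h' c (le_trans (le_max_right _ _) hc)
  refine ⟨min g0 g1, lt_min hg0 hg1, fun g hg hg' => ?_⟩
  obtain ⟨d0, hd0, h⟩ := h g hg (hg'.trans (min_le_left _ _))
  obtain ⟨d1, hd1, h'⟩ := h' g hg (hg'.trans (min_le_right _ _))
  exact ⟨min d0 d1, lt_min hd0 hd1, fun d hd hd' =>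
    ⟨h d hd (hd'.trans (min_le_left _ _)), h' d hd (hd'.trans (min_le_right _ _))⟩⟩

theorem Ev.mono {P Q : ℝ → ℝ → ℝ → Prop} (hP : Ev P) (h : ∀ c g d, 0 < c → 0 < g → 0 < d →
    P c g d → Q c g d) : Ev Q := by
  obtain ⟨c0, hc0, h0⟩ := hP
  refine ⟨c0, hc0, fun c hc => ?_⟩
  obtain ⟨g0, hg0, h1⟩ := h0 c hc
  refine ⟨g0, hg0, fun g hg hg' => ?_⟩
  obtain ⟨d0, hd0, h2⟩ := h1 g hg hg'
  exact ⟨d0, hd0, fun d hd hd' => h c g d (hc0.trans_le hc) hg hd (h2 d hd hd')⟩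

/-- vertical (fibre) vector with components `Y`. -/
def vt (Y : Fin N → ℝ) : Fin N → ℂ := fun j => Complex.I * (Y j : ℂ)

/-- the vector `(-a·1, Y)`. -/
def vs (a : ℝ) (Y : Fin N → ℝ) : Fin N → ℂ := fun j => -(a : ℂ) + Complex.I * (Y j : ℂ)

/-- smoothness. -/
def Smooth : Prop := Ev fun c g d => ContDiffOn ℝ 2 (D.G c g d) {0}ᶜ

/-- **K1**: `Im G = 0`, `Re G ≥ 0` implies `d_t Im G ≠ 0`. -/
def K1Prop : Prop := Ev fun c g d => ∀ z : Fin N → ℂ, z ≠ 0 → (D.G c g d z).im = 0 →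
  0 ≤ (D.G c g d z).re → ∃ Y : Fin N → ℝ, (fderiv ℝ (D.G c g d) z (vt Y)).im ≠ 0

/-- **K2**: at a zero there is a vector `(-a·1, Y)`, `a ≥ 0`, pushing into the page. -/
def K2Prop : Prop := Ev fun c g d => ∀ z : Fin N → ℂ, z ≠ 0 → D.G c g d z = 0 →
  ∃ (a : ℝ) (Y : Fin N → ℝ), 0 ≤ a ∧ (fderiv ℝ (D.G c g d) z (vs a Y)).im = 0 ∧
    0 < (fderiv ℝ (D.G c g d) z (vs a Y)).re

/-- the centre of the cube: all `s j > 0` and `s j ≥ |s| / (2 N)`. -/
def Cen (z : Fin N → ℂ) : Prop :=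
  ∀ j, 0 < (z j).re ∧ √(∑ i, (z i).re ^ 2) ≤ 2 * N * (z j).re

/-- **R4**: over the centre the page is radial around the positive rays of the letters. -/
def R4Prop : Prop := Ev fun c g d => ∀ z : Fin N → ℂ, z ≠ 0 → Cen z → (D.G c g d z).im = 0 →
  0 ≤ (D.G c g d z).re → ∃ (k : Fin N → ℕ) (Y : Fin N → ℝ), D.Let k ∧
    (fderiv ℝ (D.G c g d) z (vt Y)).im = 0 ∧ (fderiv ℝ (D.G c g d) z (vt Y)).re ≤ 0 ∧
    (D.G c g d z = 0 → (fderiv ℝ (D.G c g d) z (vt Y)).re < 0) ∧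
    ∀ j, ((z j).im - sg (k j) * (z j).re) ^ 2 ≤ Y j * ((z j).im - sg (k j) * (z j).re)

end LD

end space

end Crest.Agent.R267.T3aDefs_957
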