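import Crest.Agent.R267.FlowLine_363
import Crest.Agent.R267.SphReg_808
import Crest.Agent.R267.Hm_951
import Crest.Agent.R267.T3aDefs_957

/-!
# Row 267 (helper363): the abstract carve theorem

`G : ℂ^N → ℂ` homogeneous of degree one, `z j = s j + i t j`.  The flow-line theorem is applied to
`φ = ψ · exp (Λ h)`, `h = (∑ s j) / √(|s|² + κ |z|²)`, `κ = Λ⁻⁴`, `Λ` large.
-/

set_option autoImplicit false
set_option linter.unusedSectionVars false
set_option linter.unusedVariables false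

noncomputable section

open Set Filter Topology Metric
open scoped NNReal ContDiff InnerProductSpace
open Crest.Agent.R267.Cone_808 Crest.Agent.R267.SphReg_808 Crest.Agent.R267.Hm_951
open Crest.Agent.R267.FlowLine_363
open Crest.Agent.R267.T3aDefs_957.LD (vt vs)

namespace Crest.Agent.R267.Carve_363

variable {N : ℕ}

/-- `|s|²` -/
def S2 (x : Fin N → ℂ) : ℝ := ∑ j, (x j).re ^ 2

/-- `∑ s j` -/
def re1 (x : Fin N → ℂ) : ℝ := ∑ j, (x j).re

/-- the square of the gauge -/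
def qq (κ : ℝ) (x : Fin N → ℂ) : ℝ := S2 x + κ * nsq x

/-- the Lyapunov function -/
def hh (κ : ℝ) (x : Fin N → ℂ) : ℝ := re1 x / √(qq κ x)

theorem S2_nonneg (x : Fin N → ℂ) : 0 ≤ S2 x := Finset.sum_nonneg fun _ _ => sq_nonneg _

theorem re1_sq_le (x : Fin N → ℂ) : re1 x ^ 2 ≤ N * S2 x := by
  have := sq_sum_le_card_mul_sum_sq (s := (Finset.univ : Finset (Fin N))) (f := fun j => (x j).re)
  simpa [re1, S2] using this

theorem qq_pos {κ : ℝ} (hκ : 0 < κ) {x : Fin N → ℂ} (hx : x ≠ 0) : 0 < qq κ x :=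
  add_pos_of_nonneg_of_pos (S2_nonneg x) (mul_pos hκ (nsq_pos hx))

theorem contDiff_S2 {n : WithTop ℕ∞} : ContDiff ℝ n (S2 (N := N)) := by
  unfold S2
  refine ContDiff.sum fun j _ => ?_
  exact (Complex.reCLM.contDiff.comp (contDiff_apply ℝ ℂ j)).pow 2

theorem contDiff_re1 {n : WithTop ℕ∞} : ContDiff ℝ n (re1 (N := N)) := by
  unfold re1
  refine ContDiff.sum fun j _ => ?_
  exact Complex.reCLM.contDiff.comp (contDiff_apply ℝ ℂ j)

theorem contDiff_qq {n : WithTop ℕ∞} (κ : ℝ) : ContDiff ℝ n (qq (N := N) κ) := by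
  unfold qq
  exact contDiff_S2.add (contDiff_const.mul contDiff_nsq)

theorem contDiffAt_hh {n : WithTop ℕ∞} {κ : ℝ} (hκ : 0 < κ) {x : Fin N → ℂ} (hx : x ≠ 0) :
    ContDiffAt ℝ n (hh κ) x := by
  unfold hh
  have h := qq_pos hκ hx
  exact contDiff_re1.contDiffAt.div ((contDiff_qq κ).contDiffAt.sqrt h.ne')
    (Real.sqrt_ne_zero'.2 h)

theorem ip_expand (x y : Fin N → ℂ) (τ : ℝ) :
    nsq (x + τ • y) = nsq x + 2 * τ * ip x y + τ ^ 2 * nsq y := by
  rw [← ip_self (x + τ • y), ip_add_right, ip_smul_right]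
  have hc : ∀ u v : Fin N → ℂ, ip u v = ip v u := fun u v => by
    unfold ip
    exact Finset.sum_congr rfl fun i _ => real_inner_comm _ _
  rw [hc (x + τ • y) x, hc (x + τ • y) y, ip_add_right, ip_add_right, ip_smul_right,
    ip_smul_right, ip_self, ip_self, hc y x]
  ring

theorem S2_line (x y : Fin N → ℂ) (τ : ℝ) :
    S2 (x + τ • y) = S2 x + 2 * τ * (∑ j, (x j).re * (y j).re) + τ ^ 2 * S2 y := by
  unfold S2
  rw [Finset.mul_sum, Finset.mul_sum, ← Finset.sum_add_distrib, ← Finset.sum_add_distrib]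
  refine Finset.sum_congr rfl fun j _ => ?_
  simp
  ring

theorem re1_line (x y : Fin N → ℂ) (τ : ℝ) : re1 (x + τ • y) = re1 x + τ * re1 y := by
  unfold re1
  rw [Finset.mul_sum, ← Finset.sum_add_distrib]
  exact Finset.sum_congr rfl fun j _ => by simp

/-- derivative of `hh` -/
theorem fderiv_hh {κ : ℝ} (hκ : 0 < κ) {x : Fin N → ℂ} (hx : x ≠ 0) (y : Fin N → ℂ) :
    fderiv ℝ (hh κ) x y = (re1 y * qq κ x -
      re1 x * ((∑ j, (x j).re * (y j).re) + κ * ip x y)) / (qq κ x * √(qq κ x)) := by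
  have hq := qq_pos hκ hx
  have hs := Real.sqrt_pos.2 hq
  have h1 : HasDerivAt (fun τ : ℝ => re1 (x + τ • y)) (re1 y) 0 := by
    have : (fun τ : ℝ => re1 (x + τ • y)) = fun τ => re1 x + τ * re1 y := by
      funext τ; exact re1_line x y τ
    rw [this]
    simpa using ((hasDerivAt_id (0 : ℝ)).mul_const (re1 y)).const_add (re1 x)
  have h2 : HasDerivAt (fun τ : ℝ => qq κ (x + τ • y))
      (2 * ((∑ j, (x j).re * (y j).re) + κ * ip x y)) 0 := by
    have : (fun τ : ℝ => qq κ (x + τ • y)) = fun τ =>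
        qq κ x + τ * (2 * ((∑ j, (x j).re * (y j).re) + κ * ip x y)) + τ ^ 2 * qq κ y := by
      funext τ
      unfold qq
      rw [ip_expand, S2_line]
      ring
    rw [this]
    have h3 := ((hasDerivAt_id (0 : ℝ)).mul_const
      (2 * ((∑ j, (x j).re * (y j).re) + κ * ip x y))).const_add (qq κ x)
    have h4 := ((hasDerivAt_id (0 : ℝ)).pow 2).mul_const (qq κ y)
    have h5 := h3.fun_add h4
    simpa using h5
  have h0 : qq κ (x + (0 : ℝ) • y) = qq κ x := by rw [zero_smul, add_zero]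
  have h3 := h2.sqrt (by rw [h0]; exact hq.ne')
  have h4 := h1.div h3 (by rw [h0]; exact hs.ne')
  have h5 : HasDerivAt (fun τ : ℝ => hh κ (x + τ • y)) (fderiv ℝ (hh κ) x y) 0 := by
    have h6 : HasFDerivAt (hh κ) (fderiv ℝ (hh κ) x) (x + (0 : ℝ) • y) := by
      rw [zero_smul, add_zero]
      exact ((contDiffAt_hh (n := 1) hκ hx).differentiableAt one_ne_zero).hasFDerivAt
    have h7 : HasDerivAt (fun τ : ℝ => x + τ • y) y 0 := by
      simpa using ((hasDerivAt_id (0 : ℝ)).smul_const y).const_add x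
    exact h6.comp_hasDerivAt 0 h7
  have h6 := h5.unique h4
  rw [h6]
  simp only [zero_smul, add_zero]
  rw [Real.sq_sqrt hq.le]
  field_simp
  rw [Real.sq_sqrt hq.le]

theorem re1_vs (b : ℝ) (Y : Fin N → ℝ) : re1 (vs b Y) = -(b * N) := by
  unfold re1 vs
  simp [mul_comm]

theorem sum_vs (x : Fin N → ℂ) (b : ℝ) (Y : Fin N → ℝ) :
    (∑ j, (x j).re * (vs b Y j).re) = -(b * re1 x) := by
  unfold re1 vs
  rw [Finset.mul_sum, ← Finset.sum_neg_distrib]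
  refine Finset.sum_congr rfl fun j _ => ?_
  simp
  ring

theorem fderiv_hh_vs {κ : ℝ} (hκ : 0 < κ) {x : Fin N → ℂ} (hx : x ≠ 0) (b : ℝ) (Y : Fin N → ℝ) :
    fderiv ℝ (hh κ) x (vs b Y) = -((b * (N * qq κ x - re1 x ^ 2) + κ * re1 x * ip x (vs b Y)) /
      (qq κ x * √(qq κ x))) := by
  rw [fderiv_hh hκ hx, re1_vs, sum_vs, ← neg_div]
  congr 1
  ring

/-! ### Euler -/

theorem euler1 {f : (Fin N → ℂ) → ℝ} (hom : ∀ (r : ℝ) x, 0 < r → f (r • x) = r * f x)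
    {x : Fin N → ℂ} (hf : DifferentiableAt ℝ f x) : fderiv ℝ f x x = f x := by
  have h1 : HasDerivAt (fun r : ℝ => r • x) x 1 := by
    simpa using (hasDerivAt_id (1 : ℝ)).smul_const x
  have h2 : HasFDerivAt f (fderiv ℝ f x) ((1 : ℝ) • x) := by
    rw [one_smul]; exact hf.hasFDerivAt
  have h3 : HasDerivAt (fun r : ℝ => f (r • x)) (fderiv ℝ f x x) 1 := h2.comp_hasDerivAt 1 h1
  have h4 : HasDerivAt (fun r : ℝ => r * f x) (f x) 1 := by
    simpa using (hasDerivAt_id (1 : ℝ)).mul_const (f x)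
  have h5 : (fun r : ℝ => f (r • x)) =ᶠ[𝓝 1] fun r => r * f x := by
    filter_upwards [lt_mem_nhds (zero_lt_one' ℝ)] with r hr using hom r x hr
  exact h3.unique (h4.congr_of_eventuallyEq h5)

theorem fderiv_re {G : (Fin N → ℂ) → ℂ} {x : Fin N → ℂ} (h : DifferentiableAt ℝ G x)
    (y : Fin N → ℂ) : fderiv ℝ (fun x => (G x).re) x y = (fderiv ℝ G x y).re := by
  have h1 : HasFDerivAt (fun x => (G x).re) (Complex.reCLM.comp (fderiv ℝ G x)) x :=
    Complex.reCLM.hasFDerivAt.comp x h.hasFDerivAt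
  rw [h1.fderiv]
  rfl

theorem fderiv_im {G : (Fin N → ℂ) → ℂ} {x : Fin N → ℂ} (h : DifferentiableAt ℝ G x)
    (y : Fin N → ℂ) : fderiv ℝ (fun x => (G x).im) x y = (fderiv ℝ G x y).im := by
  have h1 : HasFDerivAt (fun x => (G x).im) (Complex.imCLM.comp (fderiv ℝ G x)) x :=
    Complex.imCLM.hasFDerivAt.comp x h.hasFDerivAt
  rw [h1.fderiv]
  rfl

/-! ### the expression -/

/-- `exp(-Λ h) (φ dg(y) - g dφ(y))` for `y = vs b Y`, `Λ = δ⁻¹`, `κ = δ⁴` -/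
def Ex (G : (Fin N → ℂ) → ℂ) (ψ : (Fin N → ℂ) → ℝ) (δ : ℝ) (x : Fin N → ℂ) (b : ℝ)
    (y : Fin N → ℂ) : ℝ :=
  ψ x * (fderiv ℝ G x y).re - (G x).re * fderiv ℝ ψ x y +
    ψ x * (G x).re * δ⁻¹ * ((b * (N * qq (δ ^ 4) x - re1 x ^ 2) + δ ^ 4 * re1 x * ip x y) /
      (qq (δ ^ 4) x * √(qq (δ ^ 4) x)))

theorem Ex_ge {G : (Fin N → ℂ) → ℂ} {ψ : (Fin N → ℂ) → ℝ} {δ : ℝ} {x : Fin N → ℂ} {b K : ℝ}
    {y : Fin N → ℂ} (hδ : 0 < δ) (hx : nsq x = 1) (hb : 0 ≤ b) (hg : 0 ≤ (G x).re)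
    (hK0 : 0 ≤ K) (hK : (G x).re ≤ K * √(S2 x)) (hψ : 0 ≤ ψ x) :
    ψ x * (fderiv ℝ G x y).re - (G x).re * fderiv ℝ ψ x y -
      ψ x * (K * √N * |ip x y| * δ / 2) ≤ Ex G ψ δ x b y := by
  have hx0 : x ≠ 0 := fun h => by rw [h] at hx; simp [nsq] at hx
  have hq := qq_pos (pow_pos hδ 4) hx0
  have hs := Real.sqrt_pos.2 hq
  have hqe : qq (δ ^ 4) x = S2 x + δ ^ 4 := by unfold qq; rw [hx, mul_one]
  have hS := S2_nonneg x
  have hsS := Real.sqrt_nonneg (S2 x)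
  have h2 : 2 * (G x).re * δ ^ 2 ≤ K * qq (δ ^ 4) x := by
    have h3 : 2 * δ ^ 2 * √(S2 x) ≤ qq (δ ^ 4) x := by
      rw [hqe]
      nlinarith [sq_nonneg (√(S2 x) - δ ^ 2), Real.sq_sqrt hS]
    calc 2 * (G x).re * δ ^ 2 ≤ 2 * (K * √(S2 x)) * δ ^ 2 := by gcongr
      _ = K * (2 * δ ^ 2 * √(S2 x)) := by ring
      _ ≤ K * qq (δ ^ 4) x := by gcongr
  have h1 : |re1 x| ≤ √N * √(qq (δ ^ 4) x) := by
    rw [← Real.sqrt_mul (Nat.cast_nonneg N)]
    apply Real.abs_le_sqrt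
    refine (re1_sq_le x).trans ?_
    rw [hqe]
    have : (0 : ℝ) ≤ N := Nat.cast_nonneg N
    nlinarith [pow_pos hδ 4]
  have h3 : -(δ ^ 4 * √N * |ip x y| / qq (δ ^ 4) x) ≤
      (b * (N * qq (δ ^ 4) x - re1 x ^ 2) + δ ^ 4 * re1 x * ip x y) /
      (qq (δ ^ 4) x * √(qq (δ ^ 4) x)) := by
    rw [le_div_iff₀ (by positivity)]
    have e : -(δ ^ 4 * √N * |ip x y| / qq (δ ^ 4) x) * (qq (δ ^ 4) x * √(qq (δ ^ 4) x)) =
        -(δ ^ 4 * (√N * √(qq (δ ^ 4) x) * |ip x y|)) := by field_simp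
    rw [e]
    have h4 : |re1 x * ip x y| ≤ √N * √(qq (δ ^ 4) x) * |ip x y| := by
      rw [abs_mul]; gcongr
    have h5 := neg_abs_le (re1 x * ip x y)
    have h6 : 0 ≤ b * (N * qq (δ ^ 4) x - re1 x ^ 2) := by
      refine mul_nonneg hb ?_
      have h7 := re1_sq_le x
      have : (0 : ℝ) ≤ N := Nat.cast_nonneg N
      rw [hqe]
      nlinarith [pow_pos hδ 4]
    have h7 := pow_pos hδ 4
    nlinarith
  have h4 : 0 ≤ ψ x * (G x).re * δ⁻¹ := by positivity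
  have h5 := mul_le_mul_of_nonneg_left h3 h4
  have h6 : -(ψ x * (K * √N * |ip x y| * δ / 2)) ≤
      ψ x * (G x).re * δ⁻¹ * -(δ ^ 4 * √N * |ip x y| / qq (δ ^ 4) x) := by
    have e : ψ x * (G x).re * δ⁻¹ * -(δ ^ 4 * √N * |ip x y| / qq (δ ^ 4) x) =
        -(ψ x * (√N * |ip x y| * δ / 2) * (2 * (G x).re * δ ^ 2 / qq (δ ^ 4) x)) := by
      field_simp
    rw [e]
    have h7 : 2 * (G x).re * δ ^ 2 / qq (δ ^ 4) x ≤ K := by rwa [div_le_iff₀ hq]
    have h8 : 0 ≤ ψ x * (√N * |ip x y| * δ / 2) := by positivity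
    nlinarith [mul_le_mul_of_nonneg_left h7 h8]
  unfold Ex
  linarith

/-! ### linear bound for the real part -/

theorem exists_K {g : (Fin N → ℂ) → ℝ} {x₀ : Fin N → ℂ} (hg : ContDiffAt ℝ 1 g x₀)
    (S0 : ∀ x : Fin N → ℂ, (∀ j, (x j).re = 0) → g x = 0) :
    ∃ K : ℝ, 0 ≤ K ∧ ∀ᶠ x in 𝓝 x₀, g x ≤ K * √(S2 x) := by
  rcases (S2_nonneg x₀).eq_or_lt with h | h
  · have hre : ∀ j, (x₀ j).re = 0 := by
      intro j
      have h1 := (Finset.sum_eq_zero_iff_of_nonneg (fun j _ => sq_nonneg ((x₀ j).re))).1 h.symm j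
        (Finset.mem_univ j)
      exact pow_eq_zero_iff (two_ne_zero) |>.1 h1
    obtain ⟨K, t, ht, hK⟩ := hg.exists_lipschitzOnWith
    obtain ⟨r, hr, hrt⟩ := Metric.mem_nhds_iff.1 ht
    refine ⟨K, K.2, ?_⟩
    filter_upwards [Metric.ball_mem_nhds x₀ hr] with x hx
    let x' : Fin N → ℂ := fun j => Complex.I * ((x j).im : ℂ)
    have hx' : x' ∈ ball x₀ r := by
      rw [mem_ball_iff_norm] at hx ⊢
      refine lt_of_le_of_lt ?_ hx
      rw [pi_norm_le_iff_of_nonneg (norm_nonneg _)]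
      intro j
      have e : (x' - x₀) j = Complex.I * (((x - x₀) j).im : ℂ) := by
        apply Complex.ext <;> simp [x', hre j]
      rw [e, norm_mul, Complex.norm_I, one_mul, Complex.norm_real]
      exact (Complex.abs_im_le_norm _).trans (norm_le_pi_norm (x - x₀) j)
    have h1 := hK.dist_le_mul x (hrt hx) x' (hrt hx')
    have h2 : g x' = 0 := S0 x' fun j => by simp [x']
    rw [h2, Real.dist_eq, sub_zero, dist_eq_norm] at h1
    refine (le_abs_self _).trans (h1.trans ?_)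
    refine mul_le_mul_of_nonneg_left ?_ K.2
    rw [pi_norm_le_iff_of_nonneg (Real.sqrt_nonneg _)]
    intro j
    have e : (x - x') j = ((x j).re : ℂ) := by
      apply Complex.ext <;> simp [x']
    rw [e, Complex.norm_real]
    apply Real.abs_le_sqrt
    exact Finset.single_le_sum (f := fun j => (x j).re ^ 2) (fun j _ => sq_nonneg _)
      (Finset.mem_univ j)
  · have hs := Real.sqrt_pos.2 h
    refine ⟨2 * (|g x₀| + 1) / √(S2 x₀), by positivity, ?_⟩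
    have e1 : ∀ᶠ x in 𝓝 x₀, g x < |g x₀| + 1 :=
      hg.continuousAt.eventually_lt continuousAt_const (by linarith [le_abs_self (g x₀)])
    have e2 : ∀ᶠ x in 𝓝 x₀, √(S2 x₀) / 2 < √(S2 x) := by
      refine continuousAt_const.eventually_lt
        ((contDiff_S2 (n := 0)).continuous.sqrt.continuousAt) (by linarith)
    filter_upwards [e1, e2] with x h1 h2
    rw [div_mul_eq_mul_div, le_div_iff₀ hs]
    nlinarith [abs_nonneg (g x₀)]

/-! ### the local claims -/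

section loc

variable {κ : Type*} [Fintype κ] [Nonempty κ]
variable {G : (Fin N → ℂ) → ℂ} {ψ : (Fin N → ℂ) → ℝ} {a : κ → (Fin N → ℂ) → ℝ}

/-- a good vector at `x` -/
def Good (G : (Fin N → ℂ) → ℂ) (ψ : (Fin N → ℂ) → ℝ) (a : κ → (Fin N → ℂ) → ℝ) (δ : ℝ)
    (x : Fin N → ℂ) : Prop :=
  ∃ (b : ℝ) (Y : Fin N → ℝ), (fderiv ℝ G x (vs b Y)).im = 0 ∧ 0 < Ex G ψ δ x b (vs b Y) ∧
    ∀ i, a i x = 0 → ContDiffAt ℝ 1 (a i) x ∧ 0 < fderiv ℝ (a i) x (vs b Y)

/-- the relevant points -/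
def C0 (G : (Fin N → ℂ) → ℂ) (a : κ → (Fin N → ℂ) → ℝ) (x : Fin N → ℂ) : Prop :=
  nsq x = 1 ∧ (G x).im = 0 ∧ 0 ≤ (G x).re ∧ ∀ i, a i x ≤ 0

/-- corrected vector -/
def cor (G : (Fin N → ℂ) → ℂ) (b : ℝ) (Y V : Fin N → ℝ) (x : Fin N → ℂ) : Fin N → ℂ :=
  vs b Y - ((fderiv ℝ G x (vs b Y)).im / (fderiv ℝ G x (vt V)).im) • vt V

theorem cor_eq (b : ℝ) (Y V : Fin N → ℝ) (x : Fin N → ℂ) : ∃ Y', cor G b Y V x = vs b Y' := by
  refine ⟨fun j => Y j - (fderiv ℝ G x (vs b Y)).im / (fderiv ℝ G x (vt V)).im * V j, ?_⟩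
  funext j
  unfold cor vs vt
  simp only [Pi.sub_apply, Pi.smul_apply, Complex.real_smul]
  push_cast
  ring

theorem im_cor {b : ℝ} {Y V : Fin N → ℝ} {x : Fin N → ℂ} (h : (fderiv ℝ G x (vt V)).im ≠ 0) :
    (fderiv ℝ G x (cor G b Y V x)).im = 0 := by
  unfold cor
  rw [map_sub, map_smul, Complex.sub_im, Complex.smul_im, smul_eq_mul, div_mul_cancel₀ _ h,
    sub_self]

theorem cor_self {b : ℝ} {Y V : Fin N → ℝ} {x : Fin N → ℂ} (h : (fderiv ℝ G x (vs b Y)).im = 0) :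
    cor G b Y V x = vs b Y := by
  unfold cor
  rw [h, zero_div, zero_smul, sub_zero]

theorem continuousAt_fd {F : Type*} [NormedAddCommGroup F] [NormedSpace ℝ F]
    {f : (Fin N → ℂ) → F} {x : Fin N → ℂ} (h : ContDiffAt ℝ 1 f x) :
    ContinuousAt (fderiv ℝ f) x := h.continuousAt_fderiv one_ne_zero

theorem continuousAt_cor {b : ℝ} {Y V : Fin N → ℝ} {x : Fin N → ℂ} (hG : ContDiffAt ℝ 1 G x)
    (h : (fderiv ℝ G x (vt V)).im ≠ 0) : ContinuousAt (cor G b Y V) x := by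
  have h1 : ∀ y : Fin N → ℂ, ContinuousAt (fun x => (fderiv ℝ G x y).im) x := fun y =>
    Complex.continuous_im.continuousAt.comp ((continuousAt_fd hG).clm_apply continuousAt_const)
  unfold cor
  exact continuousAt_const.sub (((h1 _).div (h1 _) h).smul continuousAt_const)

theorem continuous_ip : Continuous fun p : (Fin N → ℂ) × (Fin N → ℂ) => ip p.1 p.2 := by
  unfold ip
  refine continuous_finsetSum _ fun i _ => ?_
  exact ((continuous_apply i).comp continuous_fst).inner ((continuous_apply i).comp continuous_snd)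

/-- the part of the expression without `Λ` -/
def Dx (G : (Fin N → ℂ) → ℂ) (ψ : (Fin N → ℂ) → ℝ) (x y : Fin N → ℂ) : ℝ :=
  ψ x * (fderiv ℝ G x y).re - (G x).re * fderiv ℝ ψ x y

theorem continuousAt_Dx {b : ℝ} {Y V : Fin N → ℝ} {x : Fin N → ℂ} (hG : ContDiffAt ℝ 1 G x)
    (hψ : ContDiffAt ℝ 1 ψ x) (h : (fderiv ℝ G x (vt V)).im ≠ 0) :
    ContinuousAt (fun x => Dx G ψ x (cor G b Y V x)) x := by
  unfold Dx
  have h1 := continuousAt_cor (b := b) (Y := Y) hG h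
  refine (hψ.continuousAt.mul (Complex.continuous_re.continuousAt.comp
    ((continuousAt_fd hG).clm_apply h1))).sub ?_
  exact (Complex.continuous_re.continuousAt.comp hG.continuousAt).mul
    ((continuousAt_fd hψ).clm_apply h1)

/-- the active constraints persist -/
theorem ev_active (ca : ∀ i, ContinuousOn (a i) {0}ᶜ) {b : ℝ} {Y V : Fin N → ℝ} {x₀ : Fin N → ℂ}
    (hx₀ : x₀ ≠ 0) (hG : ContDiffAt ℝ 1 G x₀) (hV : (fderiv ℝ G x₀ (vt V)).im ≠ 0)
    (h0 : (fderiv ℝ G x₀ (vs b Y)).im = 0) (ha : ∀ i, a i x₀ ≤ 0)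
    (hA : ∀ i, a i x₀ = 0 → ContDiffAt ℝ 1 (a i) x₀ ∧ 0 < fderiv ℝ (a i) x₀ (vs b Y)) :
    ∀ᶠ x in 𝓝 x₀, ∀ i, a i x = 0 →
      ContDiffAt ℝ 1 (a i) x ∧ 0 < fderiv ℝ (a i) x (cor G b Y V x) := by
  rw [eventually_all]
  intro i
  have hc := continuousAt_cor (b := b) (Y := Y) hG hV
  rcases eq_or_lt_of_le (ha i) with h | h
  · obtain ⟨k1, k2⟩ := hA i h
    have h1 : ContinuousAt (fun x => fderiv ℝ (a i) x (cor G b Y V x)) x₀ :=
      (continuousAt_fd k1).clm_apply hc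
    have h2 := continuousAt_const.eventually_lt h1 (by rw [cor_self h0]; exact k2)
    have h3 : ∀ᶠ x in 𝓝 x₀, ContDiffAt ℝ 1 (a i) x := k1.eventually (by simp)
    filter_upwards [h2, h3] with x h4 h5 _
    exact ⟨h5, h4⟩
  · have h1 : ContinuousAt (a i) x₀ := (ca i x₀ hx₀).continuousAt (isOpen_compl_singleton.mem_nhds hx₀)
    filter_upwards [h1.eventually_lt continuousAt_const h] with x h2 h3
    exact absurd h3 h2.ne

theorem local_alpha (sm : ContDiffOn ℝ 2 G {0}ᶜ)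
    (S0 : ∀ x : Fin N → ℂ, (∀ j, (x j).re = 0) → (G x).re = 0)
    (sψ : ContDiffOn ℝ 1 ψ {0}ᶜ) (ψ0 : ∀ x, x ≠ 0 → 0 < ψ x)
    (ca : ∀ i, ContinuousOn (a i) {0}ᶜ) {x₀ : Fin N → ℂ} (hx₀ : x₀ ≠ 0) {V : Fin N → ℝ}
    (hV : (fderiv ℝ G x₀ (vt V)).im ≠ 0) (ha : ∀ i, a i x₀ ≤ 0) {b : ℝ} {Y : Fin N → ℝ}
    (hb : 0 ≤ b) (h0 : (fderiv ℝ G x₀ (vs b Y)).im = 0) (hD : 0 < Dx G ψ x₀ (vs b Y))
    (hA : ∀ i, a i x₀ = 0 → ContDiffAt ℝ 1 (a i) x₀ ∧ 0 < fderiv ℝ (a i) x₀ (vs b Y)) :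
    ∀ᶠ p in 𝓝 x₀ ×ˢ 𝓝[>] (0 : ℝ), C0 G a p.1 → Good G ψ a p.2 p.1 := by
  have hn : ({0}ᶜ : Set (Fin N → ℂ)) ∈ 𝓝 x₀ := isOpen_compl_singleton.mem_nhds hx₀
  have hG2 : ContDiffAt ℝ 2 G x₀ := sm.contDiffAt hn
  have hG : ContDiffAt ℝ 1 G x₀ := hG2.of_le one_le_two
  have hψ : ContDiffAt ℝ 1 ψ x₀ := sψ.contDiffAt hn
  have hg : ContDiffAt ℝ 1 (fun x => (G x).re) x₀ :=
    Complex.reCLM.contDiff.contDiffAt.comp x₀ hG
  obtain ⟨K, hK0, hK⟩ := exists_K hg S0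
  have hc := continuousAt_cor (b := b) (Y := Y) hG hV
  have hF : ContinuousAt (fun p : (Fin N → ℂ) × ℝ => Dx G ψ p.1 (cor G b Y V p.1) -
      ψ p.1 * (K * √N * |ip p.1 (cor G b Y V p.1)| * p.2 / 2)) (x₀, 0) := by
    have h1 : ContinuousAt (fun p : (Fin N → ℂ) × ℝ => Dx G ψ p.1 (cor G b Y V p.1)) (x₀, 0) :=
      ContinuousAt.comp (g := fun x => Dx G ψ x (cor G b Y V x))
        (f := fun p : (Fin N → ℂ) × ℝ => p.1) (continuousAt_Dx hG hψ hV) continuousAt_fst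
    have h2 : ContinuousAt (fun p : (Fin N → ℂ) × ℝ => ψ p.1) (x₀, 0) :=
      ContinuousAt.comp (g := ψ) (f := fun p : (Fin N → ℂ) × ℝ => p.1) hψ.continuousAt
        continuousAt_fst
    have h3 : ContinuousAt (fun p : (Fin N → ℂ) × ℝ => cor G b Y V p.1) (x₀, 0) :=
      ContinuousAt.comp (g := cor G b Y V) (f := fun p : (Fin N → ℂ) × ℝ => p.1) hc
        continuousAt_fst
    have h4 : ContinuousAt (fun p : (Fin N → ℂ) × ℝ => ip p.1 (cor G b Y V p.1)) (x₀, 0) :=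
      ContinuousAt.comp (g := fun p : (Fin N → ℂ) × (Fin N → ℂ) => ip p.1 p.2)
        (f := fun p : (Fin N → ℂ) × ℝ => (p.1, cor G b Y V p.1)) continuous_ip.continuousAt
        (continuousAt_fst.prodMk h3)
    exact h1.sub (h2.mul (((continuousAt_const.mul h4.abs).mul continuousAt_snd).div_const 2))
  have e1 : ∀ᶠ p in 𝓝 x₀ ×ˢ 𝓝[>] (0 : ℝ), 0 < Dx G ψ p.1 (cor G b Y V p.1) -
      ψ p.1 * (K * √N * |ip p.1 (cor G b Y V p.1)| * p.2 / 2) := by
    have h1 := continuousAt_const.eventually_lt hF (by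
      simp only [mul_zero, zero_div, sub_zero]
      rw [cor_self h0]; exact hD)
    rw [nhds_prod_eq] at h1
    exact h1.filter_mono (Filter.prod_mono le_rfl nhdsWithin_le_nhds)
  have e2 : ∀ᶠ x in 𝓝 x₀, (fderiv ℝ G x (vt V)).im ≠ 0 :=
    (Complex.continuous_im.continuousAt.comp
      ((continuousAt_fd hG).clm_apply continuousAt_const)).eventually_ne hV
  have e3 := ev_active (b := b) (Y := Y) ca hx₀ hG hV h0 ha hA
  have e4 := (((hK.and e2).and e3).and hn).prod_inl (𝓝[>] (0 : ℝ))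
  have e5 : ∀ᶠ p in 𝓝 x₀ ×ˢ 𝓝[>] (0 : ℝ), 0 < p.2 :=
    Eventually.prod_inr self_mem_nhdsWithin _
  filter_upwards [e1, e4, e5] with p h1 h2 h3 hp
  obtain ⟨⟨⟨k1, k2⟩, k3⟩, k4⟩ := h2
  obtain ⟨Y', hY'⟩ := cor_eq (G := G) b Y V p.1
  refine ⟨b, Y', ?_, ?_, ?_⟩
  · rw [← hY']; exact im_cor k2
  · rw [← hY']
    refine lt_of_lt_of_le h1 (Ex_ge h3 hp.1 hb hp.2.2.1 hK0 k1 (ψ0 _ k4).le)
  · rw [← hY']; exact k3

theorem local_beta (sm : ContDiffOn ℝ 2 G {0}ᶜ)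
    (sψ : ContDiffOn ℝ 1 ψ {0}ᶜ) (ψ0 : ∀ x, x ≠ 0 → 0 < ψ x)
    (ca : ∀ i, ContinuousOn (a i) {0}ᶜ) {x₀ : Fin N → ℂ} (hx₀ : x₀ ≠ 0) {V : Fin N → ℝ}
    (hV : (fderiv ℝ G x₀ (vt V)).im ≠ 0) (ha : ∀ i, a i x₀ ≤ 0) {Y : Fin N → ℝ}
    (h0 : (fderiv ℝ G x₀ (vs 1 Y)).im = 0) (hg : 0 < (G x₀).re) (hs : re1 x₀ ^ 2 < N * S2 x₀)
    (hA : ∀ i, a i x₀ = 0 → ContDiffAt ℝ 1 (a i) x₀ ∧ 0 < fderiv ℝ (a i) x₀ (vs 1 Y)) :
    ∀ᶠ p in 𝓝 x₀ ×ˢ 𝓝[>] (0 : ℝ), C0 G a p.1 → Good G ψ a p.2 p.1 := by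
  have hn : ({0}ᶜ : Set (Fin N → ℂ)) ∈ 𝓝 x₀ := isOpen_compl_singleton.mem_nhds hx₀
  have hG2 : ContDiffAt ℝ 2 G x₀ := sm.contDiffAt hn
  have hG : ContDiffAt ℝ 1 G x₀ := hG2.of_le one_le_two
  have hψ : ContDiffAt ℝ 1 ψ x₀ := sψ.contDiffAt hn
  have hc := continuousAt_cor (b := 1) (Y := Y) hG hV
  have hS : 0 < S2 x₀ := by
    have h1 := S2_nonneg x₀
    rcases h1.eq_or_lt with h2 | h2
    · rw [← h2, mul_zero] at hs
      exact absurd hs (not_lt.2 (sq_nonneg _))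
    · exact h2
  have hF : ContinuousAt (fun p : (Fin N → ℂ) × ℝ => p.2 * Dx G ψ p.1 (cor G 1 Y V p.1) +
      ψ p.1 * (G p.1).re * ((1 * (N * qq (p.2 ^ 4) p.1 - re1 p.1 ^ 2) +
        p.2 ^ 4 * re1 p.1 * ip p.1 (cor G 1 Y V p.1)) /
      (qq (p.2 ^ 4) p.1 * √(qq (p.2 ^ 4) p.1)))) (x₀, 0) := by
    have h1 : ContinuousAt (fun p : (Fin N → ℂ) × ℝ => Dx G ψ p.1 (cor G 1 Y V p.1)) (x₀, 0) :=
      ContinuousAt.comp (g := fun x => Dx G ψ x (cor G 1 Y V x))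
        (f := fun p : (Fin N → ℂ) × ℝ => p.1) (continuousAt_Dx hG hψ hV) continuousAt_fst
    have h2 : ContinuousAt (fun p : (Fin N → ℂ) × ℝ => ψ p.1) (x₀, 0) :=
      ContinuousAt.comp (g := ψ) (f := fun p : (Fin N → ℂ) × ℝ => p.1) hψ.continuousAt
        continuousAt_fst
    have h3 : ContinuousAt (fun p : (Fin N → ℂ) × ℝ => cor G 1 Y V p.1) (x₀, 0) :=
      ContinuousAt.comp (g := cor G 1 Y V) (f := fun p : (Fin N → ℂ) × ℝ => p.1) hc
        continuousAt_fst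
    have h4 : ContinuousAt (fun p : (Fin N → ℂ) × ℝ => ip p.1 (cor G 1 Y V p.1)) (x₀, 0) :=
      ContinuousAt.comp (g := fun p : (Fin N → ℂ) × (Fin N → ℂ) => ip p.1 p.2)
        (f := fun p : (Fin N → ℂ) × ℝ => (p.1, cor G 1 Y V p.1)) continuous_ip.continuousAt
        (continuousAt_fst.prodMk h3)
    have h5 : ContinuousAt (fun p : (Fin N → ℂ) × ℝ => (G p.1).re) (x₀, 0) :=
      ContinuousAt.comp (g := fun x => (G x).re) (f := fun p : (Fin N → ℂ) × ℝ => p.1)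
        (Complex.continuous_re.continuousAt.comp hG.continuousAt) continuousAt_fst
    have h6 : ContinuousAt (fun p : (Fin N → ℂ) × ℝ => re1 p.1) (x₀, 0) :=
      ((contDiff_re1 (n := 0)).continuous.comp continuous_fst).continuousAt
    have h7 : ContinuousAt (fun p : (Fin N → ℂ) × ℝ => qq (p.2 ^ 4) p.1) (x₀, 0) := by
      unfold qq
      have : Continuous fun p : (Fin N → ℂ) × ℝ => S2 p.1 + p.2 ^ 4 * nsq p.1 :=
        ((contDiff_S2 (n := 0)).continuous.comp continuous_fst).add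
          ((continuous_snd.pow 4).mul (continuous_nsq.comp continuous_fst))
      exact this.continuousAt
    have h8 : qq ((0 : ℝ) ^ 4) x₀ = S2 x₀ := by unfold qq; simp
    refine (continuousAt_snd.mul h1).add ((h2.mul h5).mul ?_)
    refine ContinuousAt.div ?_ (h7.mul h7.sqrt) ?_
    · exact (continuousAt_const.mul ((continuousAt_const.mul h7).sub (h6.pow 2))).add
        (((continuousAt_snd.pow 4).mul h6).mul h4)
    · simp only [h8]
      exact (mul_pos hS (Real.sqrt_pos.2 hS)).ne'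
  have e1 : ∀ᶠ p in 𝓝 x₀ ×ˢ 𝓝[>] (0 : ℝ), 0 < p.2 * Dx G ψ p.1 (cor G 1 Y V p.1) +
      ψ p.1 * (G p.1).re * ((1 * (N * qq (p.2 ^ 4) p.1 - re1 p.1 ^ 2) +
        p.2 ^ 4 * re1 p.1 * ip p.1 (cor G 1 Y V p.1)) /
      (qq (p.2 ^ 4) p.1 * √(qq (p.2 ^ 4) p.1))) := by
    have h8 : qq ((0 : ℝ) ^ 4) x₀ = S2 x₀ := by unfold qq; simp
    have h1 := continuousAt_const.eventually_lt hF (by
      simp only [h8, zero_mul, zero_add]
      have h9 := ψ0 _ hx₀
      have h10 : 0 < N * S2 x₀ - re1 x₀ ^ 2 := by linarith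
      have h11 := Real.sqrt_pos.2 hS
      have h12 : (0 : ℝ) ^ 4 = 0 := by norm_num
      rw [h12]
      simp only [zero_mul, add_zero, one_mul]
      positivity)
    rw [nhds_prod_eq] at h1
    exact h1.filter_mono (Filter.prod_mono le_rfl nhdsWithin_le_nhds)
  have e2 : ∀ᶠ x in 𝓝 x₀, (fderiv ℝ G x (vt V)).im ≠ 0 :=
    (Complex.continuous_im.continuousAt.comp
      ((continuousAt_fd hG).clm_apply continuousAt_const)).eventually_ne hV
  have e3 := ev_active (b := 1) (Y := Y) ca hx₀ hG hV h0 ha hA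
  have e4 := ((e2.and e3).and hn).prod_inl (𝓝[>] (0 : ℝ))
  have e5 : ∀ᶠ p in 𝓝 x₀ ×ˢ 𝓝[>] (0 : ℝ), 0 < p.2 :=
    Eventually.prod_inr self_mem_nhdsWithin _
  filter_upwards [e1, e4, e5] with p h1 h2 h3 hp
  obtain ⟨⟨k2, k3⟩, k4⟩ := h2
  obtain ⟨Y', hY'⟩ := cor_eq (G := G) 1 Y V p.1
  refine ⟨1, Y', ?_, ?_, ?_⟩
  · rw [← hY']; exact im_cor k2
  · rw [← hY']
    have e : p.2⁻¹ * (p.2 * Dx G ψ p.1 (cor G 1 Y V p.1) +
      ψ p.1 * (G p.1).re * ((1 * (N * qq (p.2 ^ 4) p.1 - re1 p.1 ^ 2) +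
        p.2 ^ 4 * re1 p.1 * ip p.1 (cor G 1 Y V p.1)) /
      (qq (p.2 ^ 4) p.1 * √(qq (p.2 ^ 4) p.1)))) = Ex G ψ p.2 p.1 1 (cor G 1 Y V p.1) := by
      unfold Ex Dx
      rw [mul_add, inv_mul_cancel_left₀ h3.ne']
      ring
    rw [← e]
    exact mul_pos (inv_pos.2 h3) h1
  · rw [← hY']; exact k3

theorem isClosed_C0 (sm : ContDiffOn ℝ 2 G {0}ᶜ) (ca : ∀ i, ContinuousOn (a i) {0}ᶜ)
    {x₀ : Fin N → ℂ} (hx₀ : nsq x₀ = 1) (h : ¬ C0 G a x₀) :
    ∀ᶠ x in 𝓝 x₀, ¬ C0 G a x := by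
  have hx0 : x₀ ≠ 0 := fun h => by rw [h] at hx₀; simp [nsq] at hx₀
  have hn : ({0}ᶜ : Set (Fin N → ℂ)) ∈ 𝓝 x₀ := isOpen_compl_singleton.mem_nhds hx0
  have hG : ContinuousAt G x₀ := (sm.contDiffAt hn).continuousAt
  have hc : ContinuousAt (fun x => (G x).im) x₀ := Complex.continuous_im.continuousAt.comp hG
  have hg : ContinuousAt (fun x => (G x).re) x₀ := Complex.continuous_re.continuousAt.comp hG
  by_cases h1 : (G x₀).im = 0
  · by_cases h2 : 0 ≤ (G x₀).re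
    · by_cases h3 : ∀ i, a i x₀ ≤ 0
      · exact absurd ⟨hx₀, h1, h2, h3⟩ h
      · push Not at h3
        obtain ⟨i, hi⟩ := h3
        have h4 : ContinuousAt (a i) x₀ := (ca i x₀ hx0).continuousAt hn
        filter_upwards [continuousAt_const.eventually_lt h4 hi] with x hx hC
        exact absurd (hC.2.2.2 i) (not_le.2 hx)
    · filter_upwards [hg.eventually_lt continuousAt_const (not_le.1 h2)] with x hx hC
      exact absurd hC.2.2.1 (not_le.2 hx)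
  · filter_upwards [hc.eventually_ne h1] with x hx hC
    exact hx hC.2.1

theorem exists_delta (sm : ContDiffOn ℝ 2 G {0}ᶜ)
    (S0 : ∀ x : Fin N → ℂ, (∀ j, (x j).re = 0) → (G x).re = 0)
    (K1 : ∀ x, nsq x = 1 → (G x).im = 0 → 0 ≤ (G x).re →
      ∃ V : Fin N → ℝ, (fderiv ℝ G x (vt V)).im ≠ 0)
    (sψ : ContDiffOn ℝ 1 ψ {0}ᶜ) (ψ0 : ∀ x, x ≠ 0 → 0 < ψ x)
    (ca : ∀ i, ContinuousOn (a i) {0}ᶜ)
    (hp : ∀ x, nsq x = 1 → (G x).im = 0 → 0 ≤ (G x).re → (∀ i, a i x ≤ 0) →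
      (∃ (b : ℝ) (Y : Fin N → ℝ), 0 ≤ b ∧ (fderiv ℝ G x (vs b Y)).im = 0 ∧
        0 < ψ x * (fderiv ℝ G x (vs b Y)).re - (G x).re * fderiv ℝ ψ x (vs b Y) ∧
        ∀ i, a i x = 0 → ContDiffAt ℝ 1 (a i) x ∧ 0 < fderiv ℝ (a i) x (vs b Y)) ∨
      (0 < (G x).re ∧ re1 x ^ 2 < N * S2 x ∧ ∃ Y : Fin N → ℝ,
        (fderiv ℝ G x (vs 1 Y)).im = 0 ∧
        ∀ i, a i x = 0 → ContDiffAt ℝ 1 (a i) x ∧ 0 < fderiv ℝ (a i) x (vs 1 Y))) :
    ∃ δ : ℝ, 0 < δ ∧ ∀ x, C0 G a x → Good G ψ a δ x := by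
  have key : ∀ᶠ δ in 𝓝[>] (0 : ℝ), ∀ x ∈ (nsq (ι := Fin N) ⁻¹' {1}), C0 G a x → Good G ψ a δ x := by
    refine IsCompact.induction_on (p := fun s => ∀ᶠ δ in 𝓝[>] (0 : ℝ), ∀ x ∈ s, C0 G a x →
      Good G ψ a δ x) isCompact_sph ?_ ?_ ?_ ?_
    · exact Eventually.of_forall fun δ x hx => absurd hx (by simp)
    · intro s t hst ht
      filter_upwards [ht] with δ h x hx using h x (hst hx)
    · intro s t hs ht
      filter_upwards [hs, ht] with δ h1 h2 x hx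
      rcases hx with hx | hx
      · exact h1 x hx
      · exact h2 x hx
    · intro x₀ hx₀
      have hx₀' : nsq x₀ = 1 := hx₀
      have hx0 : x₀ ≠ 0 := fun h => by rw [h] at hx₀'; simp [nsq] at hx₀'
      have e : ∀ᶠ p in 𝓝 x₀ ×ˢ 𝓝[>] (0 : ℝ), C0 G a p.1 → Good G ψ a p.2 p.1 := by
        by_cases hC : C0 G a x₀
        · obtain ⟨V, hV⟩ := K1 x₀ hx₀' hC.2.1 hC.2.2.1
          rcases hp x₀ hx₀' hC.2.1 hC.2.2.1 hC.2.2.2 with
            ⟨b, Y, hb, h1, h2, h3⟩ | ⟨h1, h2, Y, h3, h4⟩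
          · exact local_alpha sm S0 sψ ψ0 ca hx0 hV hC.2.2.2 hb h1 h2 h3
          · exact local_beta sm sψ ψ0 ca hx0 hV hC.2.2.2 h3 h1 h2 h4
        · have h1 := (isClosed_C0 sm ca hx₀' hC).prod_inl (𝓝[>] (0 : ℝ))
          filter_upwards [h1] with p h2 h3
          exact absurd h3 h2
      obtain ⟨pa, hpa, pb, hpb, h⟩ := eventually_prod_iff.1 e
      refine ⟨{x | pa x}, mem_nhdsWithin_of_mem_nhds hpa, ?_⟩
      filter_upwards [hpb] with δ hδ x hx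
      exact h hx hδ
  obtain ⟨δ, h1, h2⟩ := (key.and self_mem_nhdsWithin).exists
  exact ⟨δ, h2, fun x hx => h1 x hx.1 hx⟩

/-- **THE ABSTRACT CARVE THEOREM.** -/
theorem carve (sm : ContDiffOn ℝ 2 G {0}ᶜ) (hom : ∀ (r : ℝ) x, 0 < r → G (r • x) = r • G x)
    (S0 : ∀ x : Fin N → ℂ, (∀ j, (x j).re = 0) → (G x).re = 0)
    (K1 : ∀ x, nsq x = 1 → (G x).im = 0 → 0 ≤ (G x).re →
      ∃ V : Fin N → ℝ, (fderiv ℝ G x (vt V)).im ≠ 0)
    (sψ : ContDiffOn ℝ 1 ψ {0}ᶜ) (ψ0 : ∀ x, x ≠ 0 → 0 < ψ x)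
    (hψ : ∀ (r : ℝ) x, 0 < r → ψ (r • x) = r * ψ x)
    (ca : ∀ i, ContinuousOn (a i) {0}ᶜ) (ha : ∀ i (r : ℝ) x, 0 < r → a i (r • x) = r * a i x)
    (H1 : ∀ i x, nsq x = 1 → (G x).im = 0 → 0 ≤ a i x → 0 < (G x).re)
    (hp : ∀ x, nsq x = 1 → (G x).im = 0 → 0 ≤ (G x).re → (∀ i, a i x ≤ 0) →
      (∃ (b : ℝ) (Y : Fin N → ℝ), 0 ≤ b ∧ (fderiv ℝ G x (vs b Y)).im = 0 ∧
        0 < ψ x * (fderiv ℝ G x (vs b Y)).re - (G x).re * fderiv ℝ ψ x (vs b Y) ∧
        ∀ i, a i x = 0 → ContDiffAt ℝ 1 (a i) x ∧ 0 < fderiv ℝ (a i) x (vs b Y)) ∨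
      (0 < (G x).re ∧ re1 x ^ 2 < N * S2 x ∧ ∃ Y : Fin N → ℝ,
        (fderiv ℝ G x (vs 1 Y)).im = 0 ∧
        ∀ i, a i x = 0 → ContDiffAt ℝ 1 (a i) x ∧ 0 < fderiv ℝ (a i) x (vs 1 Y))) :
    ∃ F : Sph (Fin N) ≃ₜ Sph (Fin N), (∀ x : Sph (Fin N), (G (F x)).im = (G x).im) ∧
      ∀ x : Sph (Fin N), (G x).im = 0 →
        (0 < mx a (F x) ↔ 0 < (G x).re) ∧ (mx a (F x) = 0 ↔ (G x).re = 0) := by
  obtain ⟨δ, hδ, hgood⟩ := exists_delta sm S0 K1 sψ ψ0 ca hp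
  have hn : ∀ x : Fin N → ℂ, x ≠ 0 → ({0}ᶜ : Set (Fin N → ℂ)) ∈ 𝓝 x := fun x hx =>
    isOpen_compl_singleton.mem_nhds hx
  have hne : ∀ x : Fin N → ℂ, nsq x = 1 → x ≠ 0 := fun x hx h => by rw [h] at hx; simp [nsq] at hx
  have hG : ∀ x : Fin N → ℂ, x ≠ 0 → ContDiffAt ℝ 2 G x := fun x hx => sm.contDiffAt (hn x hx)
  have hGd : ∀ x : Fin N → ℂ, x ≠ 0 → DifferentiableAt ℝ G x := fun x hx =>
    (hG x hx).differentiableAt two_ne_zero
  have hκ : 0 < δ ^ 4 := pow_pos hδ 4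
  let φ : (Fin N → ℂ) → ℝ := fun x => ψ x * Real.exp (δ⁻¹ * hh (δ ^ 4) x)
  have sφ : ∀ x, x ≠ 0 → ContDiffAt ℝ 1 φ x := fun x hx =>
    (sψ.contDiffAt (hn x hx)).mul ((contDiffAt_const.mul (contDiffAt_hh hκ hx)).exp)
  have dφ : ∀ x, x ≠ 0 → ∀ y, fderiv ℝ φ x y = Real.exp (δ⁻¹ * hh (δ ^ 4) x) *
      (fderiv ℝ ψ x y + ψ x * (δ⁻¹ * fderiv ℝ (hh (δ ^ 4)) x y)) := by
    intro x hx y
    have h1 : HasFDerivAt ψ (fderiv ℝ ψ x) x :=
      ((sψ.contDiffAt (hn x hx)).differentiableAt one_ne_zero).hasFDerivAt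
    have h2 : HasFDerivAt (hh (δ ^ 4)) (fderiv ℝ (hh (δ ^ 4)) x) x :=
      ((contDiffAt_hh (n := 1) hκ hx).differentiableAt one_ne_zero).hasFDerivAt
    have h3 := h1.mul (h2.const_mul δ⁻¹).exp
    have h4 : fderiv ℝ φ x = _ := h3.fderiv
    rw [h4]
    simp
    ring
  have cd2 : ∀ (f : ℂ →L[ℝ] ℝ), LocallyLipschitzOn {0}ᶜ (fderiv ℝ fun x => f (G x)) := by
    intro f x hx
    have h1 : ContDiffAt ℝ 2 (fun x => f (G x)) x := f.contDiff.contDiffAt.comp x (hG x hx)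
    have h2 : ContDiffAt ℝ 1 (fderiv ℝ fun x => f (G x)) x := h1.fderiv_right (by norm_num)
    obtain ⟨K, t, ht, hK⟩ := h2.exists_lipschitzOnWith
    exact ⟨K, t, mem_nhdsWithin_of_mem_nhds ht, hK⟩
  have H : Hyp (nsq (ι := Fin N)) (fun x => (G x).im) (fun x => (G x).re) φ a {0}ᶜ :=
    { cpt := isCompact_sph
      oU := isOpen_compl_singleton
      sub := fun x hx => hne x hx
      dρ := fun x _ => (contDiff_nsq (n := 1)).differentiable one_ne_zero x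
      dc := fun x hx => Complex.imCLM.differentiableAt.comp x (hGd x hx)
      lρ := by
        intro x hx
        have h2 : ContDiffAt ℝ 1 (fderiv ℝ (nsq (ι := Fin N))) x :=
          (contDiff_nsq (n := 2)).contDiffAt.fderiv_right (by norm_num)
        obtain ⟨K, t, ht, hK⟩ := h2.exists_lipschitzOnWith
        exact ⟨K, t, mem_nhdsWithin_of_mem_nhds ht, hK⟩
      lc := cd2 Complex.imCLM
      cg := fun x hx => (Complex.continuous_re.continuousAt.comp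
        (hG x (hne x hx)).continuousAt).continuousWithinAt
      ca := fun i => (ca i).mono fun x hx => hne x hx
      h1 := fun x hx hc i hi => H1 i x hx hc hi
      h2 := by
        intro x hx hc hg hai
        have hx0 := hne x hx
        have hgd : ContDiffAt ℝ 1 (fun x => (G x).re) x :=
          Complex.reCLM.contDiff.contDiffAt.comp x ((hG x hx0).of_le one_le_two)
        obtain ⟨V, hV⟩ := K1 x hx hc hg
        refine ⟨?_, hgd, sφ x hx0, mul_pos (ψ0 x hx0) (Real.exp_pos _), ?_⟩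
        · -- surjectivity
          intro p
          let v : Fin N → ℂ := vt V
          let y : Fin N → ℂ := (p.2 / (fderiv ℝ G x v).im) • (v - ip x v • x) + (p.1 / 2) • x
          have hcx : (fderiv ℝ G x x).im = 0 := by
            rw [← fderiv_im (hGd x hx0), euler1 (f := fun x => (G x).im) _
              (Complex.imCLM.differentiableAt.comp x (hGd x hx0))]
            · exact hc
            · intro r z hr
              rw [hom r z hr, Complex.smul_im, smul_eq_mul]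
          refine ⟨y, ?_⟩
          show (fderiv ℝ nsq x y, fderiv ℝ (fun x => (G x).im) x y) = p
          rw [fderiv_nsq, fderiv_im (hGd x hx0)]
          refine Prod.ext ?_ ?_
          · show 2 * ip x y = p.1
            simp only [y]
            rw [ip_add_right, ip_smul_right, ip_smul_right, sub_eq_add_neg, ip_add_right,
              ← neg_smul, ip_smul_right, ip_self, hx]
            ring
          · show (fderiv ℝ G x y).im = p.2
            simp only [y]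
            rw [map_add, map_smul, map_smul, map_sub, map_smul, Complex.add_im, Complex.smul_im,
              Complex.smul_im, Complex.sub_im, Complex.smul_im, hcx]
            simp only [smul_eq_mul, mul_zero, sub_zero, add_zero]
            exact div_mul_cancel₀ _ hV
        · obtain ⟨b, Y, g1, g2, g3⟩ := hgood x ⟨hx, hc, hg, hai⟩
          refine ⟨vs b Y - ip x (vs b Y) • x, ?_, ?_, ?_, ?_⟩
          · rw [fderiv_nsq, sub_eq_add_neg, ip_add_right, ← neg_smul, ip_smul_right, ip_self, hx]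
            ring
          · have hcx : fderiv ℝ (fun x => (G x).im) x x = 0 := by
              rw [euler1 (f := fun x => (G x).im) _
                (Complex.imCLM.differentiableAt.comp x (hGd x hx0))]
              · exact hc
              · intro r z hr
                rw [hom r z hr, Complex.smul_im, smul_eq_mul]
            rw [map_sub, map_smul, hcx, smul_zero, sub_zero, fderiv_im (hGd x hx0), g1]
          · have hgx : fderiv ℝ (fun x => (G x).re) x x = (G x).re := by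
              rw [euler1 (f := fun x => (G x).re) _
                (Complex.reCLM.differentiableAt.comp x (hGd x hx0))]
              intro r z hr
              rw [hom r z hr, Complex.smul_re, smul_eq_mul]
            have hψx : fderiv ℝ ψ x x = ψ x :=
              euler1 hψ ((sψ.contDiffAt (hn x hx0)).differentiableAt one_ne_zero)
            have hhx : fderiv ℝ (hh (δ ^ 4)) x x = 0 := by
              rw [fderiv_hh hκ hx0, ip_self]
              have : (∑ j, (x j).re * (x j).re) = S2 x := by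
                unfold S2
                exact Finset.sum_congr rfl fun j _ => by ring
              rw [this]
              unfold qq
              rw [sub_self, zero_div]
            rw [map_sub, map_sub, map_smul, map_smul, hgx, dφ x hx0 x, hψx, hhx,
              dφ x hx0 (vs b Y), fderiv_hh_vs hκ hx0, fderiv_re (hGd x hx0)]
            have e : φ x * ((fderiv ℝ G x (vs b Y)).re - ip x (vs b Y) • (G x).re) -
                (G x).re * (Real.exp (δ⁻¹ * hh (δ ^ 4) x) * (fderiv ℝ ψ x (vs b Y) +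
                  ψ x * (δ⁻¹ * -((b * (N * qq (δ ^ 4) x - re1 x ^ 2) +
                    δ ^ 4 * re1 x * ip x (vs b Y)) / (qq (δ ^ 4) x * √(qq (δ ^ 4) x))))) -
                  ip x (vs b Y) • (Real.exp (δ⁻¹ * hh (δ ^ 4) x) *
                    (ψ x + ψ x * (δ⁻¹ * 0)))) =
                Real.exp (δ⁻¹ * hh (δ ^ 4) x) * Ex G ψ δ x b (vs b Y) := by
              unfold Ex
              simp only [φ, smul_eq_mul]
              ring
            rw [e]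
            exact mul_pos (Real.exp_pos _) g2
          · intro i hi
            obtain ⟨k1, k2⟩ := g3 i hi
            refine ⟨k1, ?_⟩
            have hax : fderiv ℝ (a i) x x = 0 := by
              rw [euler1 (ha i) (k1.differentiableAt one_ne_zero), hi]
            rw [map_sub, map_smul, hax, smul_zero, sub_zero]
            exact k2 }
  exact exists_homeo H

end loc

end Crest.Agent.R267.Carve_363
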