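import Crest.Agent.R267.LightZ_667
import Crest.Agent.R267.LightR_330

/-!
# S0406: the certificate of the official pair (mu = 2049)

`LightZ_667.cert` (kernel checked data) and `LightR_330.cert_of` (reindexing) together.
-/

set_option autoImplicit false

open Matrix

namespace Crest.Agent.R267.CertFin_51

/-- **the certificate**: the two variation matrices of the official pair are congruent. -/
theorem cert : ∃ P : Matrix (Fin 2049) (Fin 2049) ℤ, Pᵀ * NLb_330.pAg * P = NLb_330.pAf :=
  LightR_330.cert_of LightZ_667.cert

end Crest.Agent.R267.CertFin_51
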