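import Crest.Agent.R267.LightR_330
import Crest.Agent.R267.LightZ_667

/-!
# The certificate for the nested-level matrices of the S0406 pair (row 267, P3.4)

helper667's isometry of the padded block matrices and the reindexing.
-/

set_option autoImplicit false

namespace Crest.Agent.R267.Cert_330

open Matrix

/-- **the certificate**: `Pᵀ A_g P = A_f` for the positional nested-level matrices. -/
theorem cert : ∃ P : Matrix (Fin 2049) (Fin 2049) ℤ, Pᵀ * NLb_330.pAg * P = NLb_330.pAf :=
  LightR_330.cert_of LightZ_667.cert

open Crest.Agent.R267.P4Defs_780 in
/-- the nested-level matrices of the pair are congruent. -/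
theorem cong : Cong ℤ NLb_330.Ag NLb_330.Af := by
  obtain ⟨P, hP⟩ := cert
  exact NLb_330.cong_of_pos' P hP

end Crest.Agent.R267.Cert_330
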