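import Mathlib

/-!
# Thom–Sebastiani sums of chain polynomials (row 267, S0407 side conditions)

`poly pred a = ∑ i, (x_{pred i} or 1) * x_i ^ (a i)` over a finite index type `ι`, where
`pred : ι → Option ι` is injective where defined and decreases a rank `rk : ι → ℕ`.
-/

set_option autoImplicit false
open Topology Filter MvPolynomial

namespace Crest.Agent.R267.ChainPoly_145

variable {ι κ : Type*} [Fintype ι] [DecidableEq ι] [Fintype κ] [DecidableEq κ]

/-- combinatorial data of a Thom–Sebastiani sum of chain polynomials. -/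
structure Chains (ι : Type*) where
  /-- predecessor -/
  pred : ι → Option ι
  /-- exponent -/
  a : ι → ℕ
  /-- rank function -/
  rk : ι → ℕ
  rk_lt : ∀ i j, pred i = some j → rk j < rk i
  inj : ∀ i i' j, pred i = some j → pred i' = some j → i = i'
  two_le : ∀ i, 2 ≤ a i

/-- coefficient monomial -/
noncomputable def coef (R : Type*) [CommSemiring R] (p : Option ι) : MvPolynomial ι R :=
  p.elim 1 X

/-- The polynomial over any commutative semiring. -/
noncomputable def poly (R : Type*) [CommSemiring R] (C : Chains ι) : MvPolynomial ι R :=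
  ∑ i, coef R (C.pred i) * X i ^ C.a i

/-- The underlying function. -/
def cz (p : Option ι) (z : ι → ℂ) : ℂ := p.elim 1 z

omit [Fintype ι] [DecidableEq ι] in
@[simp] lemma cz_none (z : ι → ℂ) : cz none z = 1 := rfl
omit [Fintype ι] [DecidableEq ι] in
@[simp] lemma cz_some (j : ι) (z : ι → ℂ) : cz (some j) z = z j := rfl

omit [DecidableEq ι] in
lemma aeval_poly (C : Chains ι) (z : ι → ℂ) :
    aeval z (poly ℝ C) = ∑ i, cz (C.pred i) z * z i ^ C.a i := by
  unfold poly coef cz
  rw [map_sum]
  refine Finset.sum_congr rfl fun i _ => ?_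
  rw [map_mul, map_pow, aeval_X]
  congr 1
  cases C.pred i with
  | none => simp
  | some j => simp

/-! ### derivatives of polynomial functions -/

/-- the gradient of a polynomial function, as a continuous linear map. -/
noncomputable def grad (p : MvPolynomial ι ℝ) (z : ι → ℂ) : (ι → ℂ) →L[ℂ] ℂ :=
  ∑ i, (aeval z (pderiv i p) : ℂ) • ContinuousLinearMap.proj (R := ℂ) (φ := fun _ : ι => ℂ) i

omit [DecidableEq ι] in
lemma grad_apply (p : MvPolynomial ι ℝ) (z v : ι → ℂ) :
    grad p z v = ∑ i, aeval z (pderiv i p) * v i := by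
  unfold grad
  simp

omit [DecidableEq ι] in
lemma hasFDerivAt_aeval (p : MvPolynomial ι ℝ) (z : ι → ℂ) :
    HasFDerivAt (fun z : ι → ℂ => (aeval z p : ℂ)) (grad p z) z := by
  classical
  induction p using MvPolynomial.induction_on with
  | C r =>
    have : grad (C r) z = 0 := by
      ext v; simp [grad_apply]
    rw [this]
    simp only [aeval_C]
    exact hasFDerivAt_const _ _
  | add p q hp hq =>
    have : grad (p + q) z = grad p z + grad q z := by
      refine ContinuousLinearMap.ext fun v => ?_
      rw [add_apply, grad_apply, grad_apply, grad_apply, ← Finset.sum_add_distrib]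
      refine Finset.sum_congr rfl fun i _ => ?_
      rw [map_add, map_add, add_mul]
    rw [this]
    simp only [map_add]
    exact hp.add hq
  | mul_X p j hp =>
    have hX : HasFDerivAt (fun z : ι → ℂ => z j)
        (ContinuousLinearMap.proj (R := ℂ) (φ := fun _ : ι => ℂ) j) z :=
      (ContinuousLinearMap.proj (R := ℂ) (φ := fun _ : ι => ℂ) j).hasFDerivAt
    have h := hp.mul hX
    simp only [map_mul, aeval_X]
    refine h.congr_fderiv ?_
    refine ContinuousLinearMap.ext fun v => ?_
    rw [add_apply, grad_apply, smul_apply, smul_apply, grad_apply]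
    simp only [Derivation.leibniz, map_add, smul_eq_mul, map_mul, aeval_X, add_mul,
      Finset.sum_add_distrib, ContinuousLinearMap.proj_apply]
    congr 1
    · rw [Finset.sum_eq_single j]
      · simp
      · intro i _ hij
        rw [pderiv_X_of_ne hij.symm]; simp
      · simp
    · rw [Finset.mul_sum]
      refine Finset.sum_congr rfl fun i _ => ?_
      ring

omit [DecidableEq ι] in
lemma fderiv_aeval (p : MvPolynomial ι ℝ) (z : ι → ℂ) :
    fderiv ℂ (fun z : ι → ℂ => (aeval z p : ℂ)) z = grad p z :=
  (hasFDerivAt_aeval p z).fderiv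

lemma grad_single (p : MvPolynomial ι ℝ) (z : ι → ℂ) (i : ι) :
    grad p z (Pi.single i 1) = aeval z (pderiv i p) := by
  rw [grad_apply, Finset.sum_eq_single i]
  · simp
  · intro j _ hji
    simp [Pi.single_eq_of_ne hji]
  · simp

omit [DecidableEq ι] in
/-- the polynomial function has vanishing derivative iff all partials vanish. -/
lemma fderiv_aeval_eq_zero_iff (p : MvPolynomial ι ℝ) (z : ι → ℂ) :
    fderiv ℂ (fun z : ι → ℂ => (aeval z p : ℂ)) z = 0 ↔ ∀ i, aeval z (pderiv i p) = 0 := by
  classical
  rw [fderiv_aeval]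
  constructor
  · intro h i
    rw [← grad_single, h]; rfl
  · intro h
    refine ContinuousLinearMap.ext fun v => ?_
    rw [grad_apply]
    exact Finset.sum_eq_zero fun i _ => by rw [h i, zero_mul]

/-! ### partial derivatives of the chain polynomial -/

omit [Fintype ι] in
lemma pderiv_coef (i : ι) (p : Option ι) :
    pderiv i (coef ℝ p) = if p = some i then 1 else 0 := by
  unfold coef
  cases p with
  | none => simp
  | some j =>
    by_cases h : j = i
    · subst h; simp
    · simp [pderiv_X_of_ne h, h]

lemma pderiv_poly (C : Chains ι) (i : ι) :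
    pderiv i (poly ℝ C) =
      coef ℝ (C.pred i) * ((C.a i : MvPolynomial ι ℝ) * X i ^ (C.a i - 1)) +
        ∑ k, (if C.pred k = some i then X k ^ C.a k else 0) := by
  unfold poly
  rw [map_sum]
  have h1 : ∀ k, pderiv i (coef ℝ (C.pred k) * X k ^ C.a k) =
      (if k = i then coef ℝ (C.pred i) * ((C.a i : MvPolynomial ι ℝ) * X i ^ (C.a i - 1)) else 0) +
      (if C.pred k = some i then X k ^ C.a k else 0) := by
    intro k
    rw [Derivation.leibniz, pderiv_coef, Derivation.leibniz_pow]
    by_cases hk : k = i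
    · subst hk
      simp only [pderiv_X_self, smul_eq_mul, nsmul_eq_mul, mul_one, if_true]
      split_ifs <;> ring
    · rw [pderiv_X_of_ne hk]
      simp only [smul_eq_mul, nsmul_eq_mul, mul_zero, if_neg hk]
      split_ifs <;> ring
  rw [Finset.sum_congr rfl fun k _ => h1 k, Finset.sum_add_distrib]
  congr 1
  rw [Finset.sum_ite_eq' Finset.univ i]
  simp

lemma aeval_pderiv_poly (C : Chains ι) (i : ι) (z : ι → ℂ) :
    aeval z (pderiv i (poly ℝ C)) =
      cz (C.pred i) z * ((C.a i : ℂ) * z i ^ (C.a i - 1)) +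
        ∑ k, (if C.pred k = some i then z k ^ C.a k else 0) := by
  rw [pderiv_poly]
  simp only [map_add, map_mul, map_pow, aeval_X, map_natCast, map_sum]
  congr 1
  · congr 1
    unfold coef cz
    cases C.pred i <;> simp
  · refine Finset.sum_congr rfl fun k _ => ?_
    split_ifs <;> simp

/-! ### the critical locus -/

/-- forward propagation of zeros -/
lemma forward (C : Chains ι) (z : ι → ℂ) (hz : ∀ i, aeval z (pderiv i (poly ℝ C)) = 0)
    (i k : ι) (hk : C.pred k = some i) (h0 : z i = 0) : z k = 0 := by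
  have h := hz i
  rw [aeval_pderiv_poly, h0, zero_pow (by have := C.two_le i; omega), mul_zero, mul_zero,
    zero_add] at h
  rw [Finset.sum_eq_single k] at h
  · rw [if_pos hk] at h
    exact pow_eq_zero_iff (by have := C.two_le k; omega) |>.mp h
  · intro b _ hb
    rw [if_neg]
    intro hb'
    exact hb (C.inj _ _ _ hb' hk)
  · simp

/-- at a critical point, if all successors vanish then the coordinate vanishes -/
lemma backward (C : Chains ι) (z : ι → ℂ) (hz : ∀ i, aeval z (pderiv i (poly ℝ C)) = 0)
    (i : ι) (hs : ∀ k, C.pred k = some i → z k = 0) : z i = 0 := by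
  have h := hz i
  rw [aeval_pderiv_poly] at h
  have hsum : (∑ k, (if C.pred k = some i then z k ^ C.a k else 0)) = 0 := by
    refine Finset.sum_eq_zero fun k _ => ?_
    split_ifs with hk
    · rw [hs k hk, zero_pow (by have := C.two_le k; omega)]
    · rfl
  rw [hsum, add_zero] at h
  have ha : (C.a i : ℂ) ≠ 0 := by
    have := C.two_le i
    exact_mod_cast (by omega : C.a i ≠ 0)
  have hne : C.a i - 1 ≠ 0 := by have := C.two_le i; omega
  cases hp : C.pred i with
  | none =>
    rw [hp, cz_none, one_mul] at h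
    rcases mul_eq_zero.mp h with h | h
    · exact absurd h ha
    · exact (pow_eq_zero_iff hne).mp h
  | some j =>
    rw [hp, cz_some] at h
    rcases mul_eq_zero.mp h with h | h
    · exact forward C z hz j i hp h
    · rcases mul_eq_zero.mp h with h | h
      · exact absurd h ha
      · exact (pow_eq_zero_iff hne).mp h

/-- The only critical point (over `ℂ`) is the origin. -/
theorem critical_eq_zero (C : Chains ι) (z : ι → ℂ)
    (hz : ∀ i, aeval z (pderiv i (poly ℝ C)) = 0) : z = 0 := by
  -- downward induction on the rank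
  have key : ∀ n : ℕ, ∀ i, (Finset.univ.sup C.rk) - C.rk i < n → z i = 0 := by
    intro n
    induction n with
    | zero => intro i h; omega
    | succ n ih =>
      intro i hi
      refine backward C z hz i fun k hk => ih k ?_
      have h1 := C.rk_lt k i hk
      have h2 : C.rk k ≤ Finset.univ.sup C.rk := Finset.le_sup (Finset.mem_univ k)
      omega
  funext i
  exact key _ i (Nat.lt_succ_self _)

theorem fderiv_ne_zero (C : Chains ι) (z : ι → ℂ) (hz : z ≠ 0) :
    fderiv ℂ (fun z : ι → ℂ => aeval z (poly ℝ C)) z ≠ 0 := by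
  intro h
  exact hz (critical_eq_zero C z ((fderiv_aeval_eq_zero_iff _ _).mp h))

theorem isolated (C : Chains ι) :
    ∀ᶠ z in 𝓝[≠] (0 : ι → ℂ), fderiv ℂ (fun z : ι → ℂ => aeval z (poly ℝ C)) z ≠ 0 := by
  filter_upwards [self_mem_nhdsWithin] with z hz using fderiv_ne_zero C z hz

theorem fderiv_zero (C : Chains ι) :
    fderiv ℂ (fun z : ι → ℂ => aeval z (poly ℝ C)) 0 = 0 := by
  rw [fderiv_aeval_eq_zero_iff]
  intro i
  rw [aeval_pderiv_poly]
  have h1 : ((0 : ι → ℂ) i) ^ (C.a i - 1) = 0 := by
    rw [Pi.zero_apply, zero_pow (by have := C.two_le i; omega)]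
  rw [h1, mul_zero, mul_zero, zero_add]
  refine Finset.sum_eq_zero fun k _ => ?_
  split_ifs
  · rw [Pi.zero_apply, zero_pow (by have := C.two_le k; omega)]
  · rfl

/-! ### squarefree -/

omit [Fintype ι] [DecidableEq ι] in
/-- value on complex lines that avoid the origin -/
lemma aeval_line (h : MvPolynomial ι ℝ) (hz : ∀ z : ι → ℂ, aeval z h = 0 → z = 0)
    (p q : ι → ℂ) (hpq : ∀ t : ℂ, p + t • q ≠ 0) :
    (aeval (p + q) h : ℂ) = aeval p h := by
  let P : Polynomial ℂ :=
    aeval (fun i => Polynomial.C (p i) + Polynomial.X * Polynomial.C (q i)) h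
  have hP : ∀ t : ℂ, P.eval t = aeval (p + t • q) h := by
    intro t
    have h1 : ((Polynomial.aeval t : Polynomial ℂ →ₐ[ℂ] ℂ).restrictScalars ℝ).comp
        (aeval (fun i => Polynomial.C (p i) + Polynomial.X * Polynomial.C (q i)) :
          MvPolynomial ι ℝ →ₐ[ℝ] Polynomial ℂ) = aeval (p + t • q) := by
      apply MvPolynomial.algHom_ext
      intro i
      simp
      ring
    have h2 := DFunLike.congr_fun h1 h
    rw [← h2]
    simp [P]
  by_contra hne
  have hdeg : P.degree ≠ 0 := by
    intro hd
    have hC := Polynomial.eq_C_of_degree_eq_zero hd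
    apply hne
    have e1 := hP 1
    have e0 := hP 0
    rw [one_smul] at e1
    rw [zero_smul, add_zero] at e0
    rw [← e1, ← e0, hC]; simp
  obtain ⟨t, ht⟩ := IsAlgClosed.exists_root P hdeg
  have h3 : aeval (p + t • q) h = (0 : ℂ) := by rw [← hP t]; exact ht
  exact hpq t (hz _ h3)

omit [Fintype ι] [DecidableEq ι] in
/-- A polynomial with no complex zeros off the origin, in at least two variables, is constant. -/
lemma eq_C_of_no_zero [Nontrivial ι] (h : MvPolynomial ι ℝ)
    (hz : ∀ z : ι → ℂ, aeval z h = 0 → z = 0) : ∃ c : ℝ, h = C c := by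
  classical
  -- equal values at linearly independent points
  have indep : ∀ p p' : ι → ℂ, (∀ t : ℂ, p + t • (p' - p) ≠ 0) →
      (aeval p' h : ℂ) = aeval p h := by
    intro p p' hp
    have := aeval_line h hz p (p' - p) hp
    rwa [add_sub_cancel] at this
  obtain ⟨i₀, i₁, hi⟩ := exists_pair_ne ι
  -- all nonzero points have the same value as `e_{i₀}`
  have nz0 : ∀ p : ι → ℂ, ∀ i j : ι, i ≠ j → p i ≠ 0 →
      (aeval p h : ℂ) = aeval (Pi.single j (1 : ℂ)) h := by
    intro p i j hij hpi
    refine indep (Pi.single j 1) p fun t ht => ?_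
    have h1 := congrFun ht i
    have h2 := congrFun ht j
    simp [Pi.single_eq_of_ne hij, hpi] at h1 h2
    subst h1
    simp at h2
  have nz : ∀ p : ι → ℂ, p ≠ 0 →
      (aeval p h : ℂ) = aeval (Pi.single i₀ (1 : ℂ)) h := by
    intro p hp
    obtain ⟨i, hpi⟩ := Function.ne_iff.mp hp
    by_cases hii : i = i₀
    · subst hii
      rw [nz0 p i i₁ hi hpi]
      exact nz0 (Pi.single i₁ 1) i₁ i hi.symm (by simp)
    · exact nz0 p i i₀ hii hpi
  -- real value
  let c : ℝ := eval (Pi.single i₀ (1 : ℝ)) h
  have hval : ∀ x : ι → ℝ, (aeval (fun i => (x i : ℂ)) h : ℂ) = ((eval x h : ℝ) : ℂ) := by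
    intro x
    have h1 : (Complex.ofRealAm.comp (aeval x) : MvPolynomial ι ℝ →ₐ[ℝ] ℂ) =
        aeval (fun i => (x i : ℂ)) := by
      apply MvPolynomial.algHom_ext
      intro i
      simp
    have h2 := DFunLike.congr_fun h1 h
    rw [← h2]
    simp
  have hreal : ∀ x : ι → ℝ, x ≠ 0 → eval x h = c := by
    intro x hx
    have hx' : (fun i => (x i : ℂ)) ≠ (0 : ι → ℂ) := by
      intro h0
      apply hx
      funext i
      have := congrFun h0 i
      simpa using this
    have h1 := nz _ hx'
    have h2 : (Pi.single i₀ (1 : ℂ) : ι → ℂ) = fun i => ((Pi.single i₀ (1 : ℝ) : ι → ℝ) i : ℂ) := by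
      funext i
      by_cases hi : i = i₀
      · subst hi; simp
      · simp [Pi.single_eq_of_ne hi]
    rw [h2, hval, hval] at h1
    exact_mod_cast h1
  refine ⟨c, ?_⟩
  have hprod : (h - C c) * X i₀ = 0 := by
    apply MvPolynomial.funext
    intro x
    by_cases hx : x = 0
    · subst hx; simp
    · rw [map_mul, map_sub, hreal x hx]; simp
  rcases mul_eq_zero.mp hprod with h0 | h0
  · exact sub_eq_zero.mp h0
  · exact absurd h0 (X_ne_zero _)

/-- the chain polynomial is non-zero. -/
lemma poly_ne_zero [Nonempty ι] (C : Chains ι) : poly ℝ C ≠ 0 := by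
  intro h0
  obtain ⟨i⟩ := ‹Nonempty ι›
  have h1 : (fun _ : ι => (1 : ℂ)) = 0 := by
    apply critical_eq_zero C
    intro i
    rw [h0]; simp
  have := congrFun h1 i
  simp at this

/-- A chain polynomial in at least two variables is squarefree. -/
theorem squarefree [Nontrivial ι] (C : Chains ι) : Squarefree (poly ℝ C) := by
  intro h hh
  obtain ⟨u, hu⟩ := hh
  have hz : ∀ z : ι → ℂ, aeval z h = 0 → z = 0 := by
    intro z hz
    apply critical_eq_zero C
    intro i
    rw [hu]
    simp only [Derivation.leibniz, map_add, smul_eq_mul, map_mul, hz]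
    ring
  obtain ⟨c, hc⟩ := eq_C_of_no_zero h hz
  have hc0 : c ≠ 0 := by
    intro hc0
    apply poly_ne_zero C
    rw [hu, hc, hc0]; simp
  rw [hc]
  exact (IsUnit.mk0 c hc0).map MvPolynomial.C

/-! ### weighted homogeneity -/

omit [DecidableEq ι] in
/-- rational weights. -/
theorem exists_ratWeights (C : Chains ι) :
    ∃ r : ι → ℚ, (∀ i, 0 < r i ∧ r i < 1) ∧
      ∀ i, (C.pred i).elim 0 r + C.a i * r i = 1 := by
  classical
  -- define by recursion on the rank
  have key : ∀ n : ℕ, ∃ r : ι → ℚ, (∀ i, 0 < r i ∧ r i < 1) ∧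
      ∀ i, C.rk i < n → (C.pred i).elim 0 r + C.a i * r i = 1 := by
    intro n
    induction n with
    | zero => exact ⟨fun _ => 1/2, fun i => by norm_num, fun i h => absurd h (Nat.not_lt_zero _)⟩
    | succ n ih =>
      obtain ⟨r, hr, hr'⟩ := ih
      refine ⟨fun i => (1 - (C.pred i).elim 0 r) / C.a i, ?_, ?_⟩
      · intro i
        have h2 : (2 : ℚ) ≤ C.a i := by exact_mod_cast C.two_le i
        have h0 : 0 ≤ (C.pred i).elim 0 r ∧ (C.pred i).elim 0 r < 1 := by
          cases C.pred i with
          | none => simp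
          | some j => exact ⟨(hr j).1.le, (hr j).2⟩
        refine ⟨by apply div_pos <;> linarith, ?_⟩
        rw [div_lt_one (by linarith)]
        linarith
      · intro i hi
        have h2 : (C.a i : ℚ) ≠ 0 := by
          have := C.two_le i
          exact_mod_cast (by omega : C.a i ≠ 0)
        have h3 : (C.pred i).elim 0 (fun i => (1 - (C.pred i).elim 0 r) / (C.a i : ℚ)) =
            (C.pred i).elim 0 r := by
          cases hp : C.pred i with
          | none => simp
          | some j =>
            have hj : C.rk j < n := by have := C.rk_lt i j hp; omega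
            have h4 := hr' j hj
            have h5 : (C.a j : ℚ) ≠ 0 := by
              have := C.two_le j
              exact_mod_cast (by omega : C.a j ≠ 0)
            simp only [Option.elim_some]
            rw [div_eq_iff h5]
            linarith
        rw [h3]
        field_simp
        ring
  obtain ⟨r, hr, hr'⟩ := key (Finset.univ.sup C.rk + 1)
  exact ⟨r, hr, fun i => hr' i (Nat.lt_succ_of_le (Finset.le_sup (Finset.mem_univ i)))⟩

omit [DecidableEq ι] in
/-- natural weights. -/
theorem exists_natWeights (C : Chains ι) :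
    ∃ (w : ι → ℕ) (d : ℕ), 0 < d ∧ (∀ i, 0 < w i ∧ w i < d) ∧
      ∀ i, (C.pred i).elim 0 w + C.a i * w i = d := by
  classical
  obtain ⟨r, hr, hr'⟩ := exists_ratWeights C
  let d : ℕ := ∏ i, (r i).den
  have hd : 0 < d := Finset.prod_pos fun i _ => (r i).pos
  have hw : ∀ i, ∃ w : ℕ, (w : ℚ) = d * r i := by
    intro i
    obtain ⟨e, he⟩ : (r i).den ∣ d := Finset.dvd_prod_of_mem _ (Finset.mem_univ i)
    refine ⟨e * (r i).num.toNat, ?_⟩
    have h1 : ((r i).num.toNat : ℚ) = (r i).num := by
      have : (((r i).num.toNat : ℕ) : ℤ) = (r i).num :=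
        Int.toNat_of_nonneg (Rat.num_nonneg.mpr (hr i).1.le)
      exact_mod_cast this
    rw [he]
    push_cast
    rw [h1]
    have h2 : ((r i).den : ℚ) * r i = (r i).num := by
      rw [mul_comm]; exact Rat.mul_den_eq_num (r i)
    calc (e : ℚ) * (r i).num = e * ((r i).den * r i) := by rw [h2]
      _ = _ := by ring
  choose w hw using hw
  have hdq : (0 : ℚ) < d := by exact_mod_cast hd
  refine ⟨w, d, hd, fun i => ⟨?_, ?_⟩, fun i => ?_⟩
  · have : (0 : ℚ) < w i := by rw [hw i]; exact mul_pos hdq (hr i).1
    exact_mod_cast this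
  · have : (w i : ℚ) < d := by
      rw [hw i]
      nlinarith [(hr i).2]
    exact_mod_cast this
  · have h1 : (((C.pred i).elim 0 w : ℕ) : ℚ) = d * (C.pred i).elim 0 r := by
      cases C.pred i with
      | none => simp
      | some j => simpa using hw j
    have h2 : (((C.pred i).elim 0 w + C.a i * w i : ℕ) : ℚ) = d := by
      push_cast
      rw [h1, hw i]
      have := hr' i
      calc (d : ℚ) * (C.pred i).elim 0 r + C.a i * (d * r i)
          = d * ((C.pred i).elim 0 r + C.a i * r i) := by ring
        _ = d := by rw [this, mul_one]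
    exact_mod_cast h2

omit [DecidableEq ι] in
theorem weightedHomogeneous (C : Chains ι) (w : ι → ℕ) (d : ℕ)
    (h : ∀ i, (C.pred i).elim 0 w + C.a i * w i = d) :
    IsWeightedHomogeneous w (poly ℝ C) d := by
  unfold poly
  have : ∀ i ∈ (Finset.univ : Finset ι), coef ℝ (C.pred i) * X i ^ C.a i ∈
      weightedHomogeneousSubmodule ℝ w d := by
    intro i _
    rw [mem_weightedHomogeneousSubmodule, ← h i]
    refine IsWeightedHomogeneous.mul ?_ ?_
    · unfold coef
      cases C.pred i with
      | none => exact isWeightedHomogeneous_one ℝ w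
      | some j => exact isWeightedHomogeneous_X ℝ w j
    · rw [← smul_eq_mul]
      exact (isWeightedHomogeneous_X ℝ w i).pow (C.a i)
  exact Submodule.sum_mem _ this

/-! ### homogeneous components -/

/-- degree of the `i`-th monomial -/
def deg (C : Chains ι) (i : ι) : ℕ := (C.pred i).elim 0 (fun _ => 1) + C.a i

omit [DecidableEq ι] in
lemma homogeneousComponent_poly (C : Chains ι) (n : ℕ) :
    homogeneousComponent n (poly ℝ C) =
      ∑ i, if deg C i = n then coef ℝ (C.pred i) * X i ^ C.a i else 0 := by
  unfold poly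
  rw [map_sum]
  refine Finset.sum_congr rfl fun i _ => ?_
  have : coef ℝ (C.pred i) * X i ^ C.a i ∈ homogeneousSubmodule ι ℝ (deg C i) := by
    rw [mem_homogeneousSubmodule]
    refine IsHomogeneous.mul ?_ ?_
    · unfold coef
      cases C.pred i with
      | none => exact isHomogeneous_one ι ℝ
      | some j => exact isHomogeneous_X ℝ j
    · simpa using (isHomogeneous_X ℝ i).pow (C.a i)
  rw [homogeneousComponent_of_mem this]
  simp [eq_comm]

omit [DecidableEq ι] in
lemma homogeneousComponent_poly_ne_zero (C : Chains ι) (n : ℕ) (h : ∃ i, deg C i = n) :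
    homogeneousComponent n (poly ℝ C) ≠ 0 := by
  classical
  intro h0
  rw [homogeneousComponent_poly] at h0
  have h1 := congrArg (eval (fun _ => (1 : ℝ))) h0
  rw [map_sum, map_zero] at h1
  have h2 : ∀ i, eval (fun _ => (1 : ℝ))
      (if deg C i = n then coef ℝ (C.pred i) * X i ^ C.a i else 0) =
      if deg C i = n then 1 else 0 := by
    intro i
    split_ifs
    · unfold coef
      cases C.pred i <;> simp
    · simp
  rw [Finset.sum_congr rfl fun i _ => h2 i, Finset.sum_boole] at h1
  have h3 : (Finset.univ.filter fun i => deg C i = n).card = 0 := by exact_mod_cast h1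
  rw [Finset.card_eq_zero, Finset.filter_eq_empty_iff] at h3
  obtain ⟨i, hi⟩ := h
  exact h3 (Finset.mem_univ i) hi

omit [DecidableEq ι] in
lemma homogeneousComponent_poly_eq_zero (C : Chains ι) (n : ℕ) (h : ∀ i, deg C i ≠ n) :
    homogeneousComponent n (poly ℝ C) = 0 := by
  rw [homogeneousComponent_poly]
  exact Finset.sum_eq_zero fun i _ => by rw [if_neg (h i)]

omit [DecidableEq ι] in
/-- Order `n` exactly. -/
theorem order_eq (C : Chains ι) (n : ℕ) (h : ∀ i, n ≤ deg C i) (h' : ∃ i, deg C i = n) :
    (∀ j < n, homogeneousComponent j (poly ℝ C) = 0) ∧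
      homogeneousComponent n (poly ℝ C) ≠ 0 :=
  ⟨fun j hj => homogeneousComponent_poly_eq_zero C j fun i hi => by have := h i; omega,
    homogeneousComponent_poly_ne_zero C n h'⟩

/-! ### transport and Thom–Sebastiani sums -/

/-- transport along an equivalence -/
def Chains.map (C : Chains ι) (e : ι ≃ κ) : Chains κ where
  pred k := (C.pred (e.symm k)).map e
  a k := C.a (e.symm k)
  rk k := C.rk (e.symm k)
  rk_lt i j h := by
    rw [Option.map_eq_some_iff] at h
    obtain ⟨j', hj', rfl⟩ := h
    rw [e.symm_apply_apply]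
    exact C.rk_lt _ _ hj'
  inj i i' j h h' := by
    rw [Option.map_eq_some_iff] at h h'
    obtain ⟨k, hk, rfl⟩ := h
    obtain ⟨k', hk', h2⟩ := h'
    have := e.injective h2
    subst this
    exact e.symm.injective (C.inj _ _ _ hk hk')
  two_le i := C.two_le _

omit [DecidableEq ι] [DecidableEq κ] in
lemma poly_map (R : Type*) [CommSemiring R] (C : Chains ι) (e : ι ≃ κ) :
    poly R (C.map e) = rename e (poly R C) := by
  unfold poly
  rw [map_sum, ← e.sum_comp]
  refine Finset.sum_congr rfl fun i _ => ?_
  rw [map_mul, map_pow, rename_X]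
  simp only [Chains.map, e.symm_apply_apply]
  congr 1
  unfold coef
  cases C.pred i <;> simp

omit [DecidableEq ι] [DecidableEq κ] in
lemma aeval_poly_map (C : Chains ι) (e : ι ≃ κ) (z : κ → ℂ) :
    aeval z (poly ℝ (C.map e)) = aeval (z ∘ e) (poly ℝ C) := by
  rw [poly_map, aeval_rename]

omit [Fintype ι] [DecidableEq ι] [Fintype κ] [DecidableEq κ] in
lemma deg_map (C : Chains ι) (e : ι ≃ κ) (k : κ) : deg (C.map e) k = deg C (e.symm k) := by
  unfold deg Chains.map
  simp only
  cases C.pred (e.symm k) <;> simp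

/-- Thom–Sebastiani sum -/
def Chains.sum (C : Chains ι) (D : Chains κ) : Chains (ι ⊕ κ) where
  pred := Sum.elim (fun i => (C.pred i).map Sum.inl) (fun k => (D.pred k).map Sum.inr)
  a := Sum.elim C.a D.a
  rk := Sum.elim C.rk D.rk
  rk_lt := by
    rintro (i | i) (j | j) h
    · simp only [Sum.elim_inl, Option.map_eq_some_iff, Sum.inl.injEq, exists_eq_right] at h
      exact C.rk_lt _ _ h
    · simp at h
    · simp at h
    · simp only [Sum.elim_inr, Option.map_eq_some_iff, Sum.inr.injEq, exists_eq_right] at h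
      exact D.rk_lt _ _ h
  inj := by
    rintro (i | i) (i' | i') (j | j) h h' <;>
      simp only [Sum.elim_inl, Sum.elim_inr, Option.map_eq_some_iff, Sum.inr.injEq,
        Sum.inl.injEq, exists_eq_right, reduceCtorEq, and_false, exists_false] at h h'
    · rw [C.inj _ _ _ h h']
    · rw [D.inj _ _ _ h h']
  two_le := by
    rintro (i | i)
    · exact C.two_le i
    · exact D.two_le i

omit [DecidableEq ι] [DecidableEq κ] in
lemma poly_sum (R : Type*) [CommSemiring R] (C : Chains ι) (D : Chains κ) :
    poly R (C.sum D) = rename Sum.inl (poly R C) + rename Sum.inr (poly R D) := by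
  unfold poly
  rw [Fintype.sum_sum_type, map_sum, map_sum]
  congr 1 <;> refine Finset.sum_congr rfl fun i _ => ?_
  · rw [map_mul, map_pow, rename_X]
    simp only [Chains.sum, Sum.elim_inl]
    congr 1
    unfold coef
    cases C.pred i <;> simp
  · rw [map_mul, map_pow, rename_X]
    simp only [Chains.sum, Sum.elim_inr]
    congr 1
    unfold coef
    cases D.pred i <;> simp

omit [DecidableEq ι] [DecidableEq κ] in
lemma aeval_poly_sum (C : Chains ι) (D : Chains κ) (z : ι ⊕ κ → ℂ) :
    (aeval z (poly ℝ (C.sum D)) : ℂ) =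
      aeval (z ∘ Sum.inl) (poly ℝ C) + aeval (z ∘ Sum.inr) (poly ℝ D) := by
  rw [poly_sum, map_add, aeval_rename, aeval_rename]

omit [Fintype ι] [DecidableEq ι] [Fintype κ] [DecidableEq κ] in
lemma deg_sum_inl (C : Chains ι) (D : Chains κ) (i : ι) :
    deg (C.sum D) (Sum.inl i) = deg C i := by
  unfold deg Chains.sum
  simp only [Sum.elim_inl]
  cases C.pred i <;> simp

omit [Fintype ι] [DecidableEq ι] [Fintype κ] [DecidableEq κ] in
lemma deg_sum_inr (C : Chains ι) (D : Chains κ) (i : κ) :
    deg (C.sum D) (Sum.inr i) = deg D i := by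
  unfold deg Chains.sum
  simp only [Sum.elim_inr]
  cases D.pred i <;> simp

/-- The single chain `x₀^{a₀} + x₀ x₁^{a₁} + ... + x_{k-1} x_k^{a_k}`. -/
def Chains.chain (n : ℕ) (a : Fin n → ℕ) (ha : ∀ i, 2 ≤ a i) : Chains (Fin n) where
  pred i := if h : i.1 = 0 then none else some ⟨i.1 - 1, by omega⟩
  a := a
  rk i := i.1
  rk_lt i j h := by
    split_ifs at h with h0
    simp only [Option.some.injEq] at h
    rw [← h]
    simp only
    omega
  inj i i' j h h' := by
    split_ifs at h h' with h0 h0'
    simp only [Option.some.injEq] at h h'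
    have h1 := congrArg Fin.val (h.trans h'.symm)
    simp only at h1
    exact Fin.ext (by omega)
  two_le := ha

/-- **All algebraic side conditions of S0407**, for an abstract Thom–Sebastiani sum of chains. -/
theorem side_conditions {N : ℕ} (hN : 2 ≤ N) (C : Chains (Fin N)) (n : ℕ)
    (h : ∀ i, n ≤ deg C i) (h' : ∃ i, deg C i = n) :
    Squarefree (poly ℝ C) ∧
    (∃ w : Fin N → ℕ, (∀ i, 0 < w i) ∧ ∃ d : ℕ, IsWeightedHomogeneous w (poly ℝ C) d) ∧
    fderiv ℂ (fun z : Fin N → ℂ => aeval z (poly ℝ C)) 0 = 0 ∧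
    (∀ᶠ z in 𝓝[≠] (0 : Fin N → ℂ), fderiv ℂ (fun z : Fin N → ℂ => aeval z (poly ℝ C)) z ≠ 0) ∧
    (∀ j < n, homogeneousComponent j (poly ℝ C) = 0) ∧
    homogeneousComponent n (poly ℝ C) ≠ 0 := by
  have : Nontrivial (Fin N) := Fin.nontrivial_iff_two_le.mpr hN
  obtain ⟨w, d, _, hw, hd⟩ := exists_natWeights C
  exact ⟨squarefree C, ⟨w, fun i => (hw i).1, d, weightedHomogeneous C w d hd⟩,
    fderiv_zero C, isolated C, (order_eq C n h h').1, (order_eq C n h h').2⟩

end Crest.Agent.R267.ChainPoly_145
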