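import Crest.Agent.R267.GS_808
import Crest.Agent.R267.T2alg1_684

/-!
# Graph systems: the Props of DRAFT B and their assembly (row 267)

`classG_of`: for `3 ≤ m` strands and base dimension `n + 2`, `1 ≤ n`, systems with congruent
matrices have equivalent links.
-/

set_option autoImplicit false

namespace Crest.Agent.R267.DraftB_808

open Set Metric
open scoped RealInnerProductSpace
open Crest.Agent.R267.GS_808
open Crest.Agent.R267

/-- systems over the cube of dimension `n + 2`. -/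
abbrev S (n m : ℕ) := Sys (Bc (n + 2)) (ec (n + 2)) m

/-- **NORM**: every system is isotopic to one in rest form with prescribed distinct horizontal
rest points. -/
def NormProp (n : ℕ) : Prop :=
  ∀ (m : ℕ) (G : S n m) (p : Fin m → Vc (n + 2)), Function.Injective p →
    (∀ k, ⟪ec (n + 2), p k⟫ = 0) →
    ∃ G' : S n m, Isot G G' ∧ (∀ k, IsRest (p k) (G'.x k)) ∧ (∀ k, IsRest (ec (n + 2)) (G'.nu k))

/-- based homotopy of admissible maps in rest form. -/
def BH (n : ℕ) (y : Vc (n + 2)) (f g : Bc (n + 2) → Vc (n + 2)) : Prop :=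
  ∃ F : ℝ × Bc (n + 2) → Vc (n + 2), Continuous F ∧ (∀ p, F p ≠ 0) ∧
    (∀ t u, 1 ≤ ‖u‖ → ⟪ec (n + 2), F (t, u)⟫ = 0) ∧ (∀ t u, RestAt u → F (t, u) = y) ∧
    (∀ u, F (0, u) = f u) ∧ (∀ u, F (1, u) = g u)

/-- **FB**: freely homotopic maps in rest form are homotopic rel rest (`n ≥ 1`: the horizontal
sphere is simply connected). -/
def FBProp (n : ℕ) : Prop :=
  ∀ (y : Vc (n + 2)) (f g : Bc (n + 2) → Vc (n + 2)), Adm (n + 2) f → Adm (n + 2) g →
    IsRest y f → IsRest y g → FH (ec (n + 2)) f g → BH n y f g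

/-- **TYP**: the integers `a, b` determine the free homotopy class. -/
def TypProp (n : ℕ) : Prop :=
  ∀ (f g : Bc (n + 2) → Vc (n + 2)) (a b : ℤ), Typ n f a b → Typ n g a b → FH (ec (n + 2)) f g

/-- **TYPN**: the same for normals. -/
def TypNProp (n : ℕ) : Prop :=
  ∀ (f g : Bc (n + 2) → Vc (n + 2)) (c : ℤ), TypN n f c → TypN n g c → FN (ec (n + 2)) f g

/-- **CLASS1** (conf_ext twice): systems in rest form with the same rest points and pairwise based
homotopic differences and homotopic normals are isotopic. -/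
def Class1Prop (n : ℕ) : Prop :=
  ∀ (m : ℕ) (G G' : S n m) (p : Fin m → Vc (n + 2)),
    (∀ k, IsRest (p k) (G.x k)) → (∀ k, IsRest (p k) (G'.x k)) →
    (∀ k l, l < k → BH n (p k - p l) (fun u => G.x k u - G.x l u) (fun u => G'.x k u - G'.x l u)) →
    (∀ k, FN (ec (n + 2)) (G.nu k) (G'.nu k)) → Isot G G'

/-- **CLASS**: same matrix implies isotopic. -/
def ClassProp (n : ℕ) : Prop :=
  ∀ (m : ℕ) (G G' : S n m) (A : Matrix (Fin m) (Fin m) ℤ), HasMat G A → HasMat G' A → Isot G G'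

/-- **T2**: the move `e_i ↦ e_j - e_i`. -/
def T2Prop (n : ℕ) : Prop :=
  ∀ (m : ℕ) (G : S n m) (A : Matrix (Fin m) (Fin m) ℤ) (i j : Fin m), HasMat G A → i ≠ j →
    ∃ G' : S n m, HasMat G' ((T2alg1_684.Rm i j).transpose * A * T2alg1_684.Rm i j) ∧
      Eqv G.K G'.K

/-- FINAL OUTPUT of draft B. -/
def ClassGProp (n : ℕ) : Prop :=
  ∀ (m : ℕ) (G G' : S n m) (A A' : Matrix (Fin m) (Fin m) ℤ) (P : (Matrix (Fin m) (Fin m) ℤ)ˣ),
    3 ≤ m → HasMat G A → HasMat G' A' → A' = P.val.transpose * A * P.val → Eqv G.K G'.K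

/-! ### assembly -/

theorem classG_of (n : ℕ) (h1 : T1Prop (Bc (n + 2)) (ec (n + 2))) (h2 : ClassProp n)
    (h3 : T2Prop n) : ClassGProp n := by
  intro m G G' A A' P hm hG hG' hA
  have key : ∀ B, Relation.ReflTransGen T2alg1_684.Move A B →
      ∃ G1 : S n m, HasMat G1 B ∧ Eqv G.K G1.K := by
    intro B hB
    induction hB with
    | refl => exact ⟨G, hG, Eqv.refl _⟩
    | tail _ h ih =>
      obtain ⟨G1, hG1, hE⟩ := ih
      obtain ⟨i, j, hij, rfl⟩ := h
      obtain ⟨G2, hG2, hE2⟩ := h3 m G1 _ i j hG1 hij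
      exact ⟨G2, hG2, hE.trans hE2⟩
  obtain ⟨G1, hG1, hE⟩ := key A' (by
    rw [hA]
    exact T2alg1_684.moves_rtg (by simpa using hm) P A)
  exact hE.trans (h1 m G1 G' (h2 m G1 G' A' hG1 hG'))

end Crest.Agent.R267.DraftB_808
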