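import Crest.Agent.R267.Class1_184
import Crest.Agent.R267.DraftB_808

/-!
# Task TB-B2 (row 267): `Class1Prop n` for `1 ≤ n`
-/

set_option autoImplicit false
set_option linter.unusedSectionVars false
open Topology Filter Set Module
open scoped RealInnerProductSpace

namespace Crest.Agent.R267.Class1P_184

open Crest.Agent.R267

/-- coordinates of the fibre: horizontal part and height. -/
noncomputable def LV (n : ℕ) : GS_808.Vc n ≃L[ℝ] (Fin n → ℝ) × ℝ :=
  LinearEquiv.toContinuousLinearEquiv
    { toFun := fun v => (fun i => v (Fin.castSucc i), v (Fin.last n))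
      map_add' := fun v w => by ext <;> simp
      map_smul' := fun c v => by ext <;> simp
      invFun := fun p => WithLp.toLp 2 (Fin.snoc (α := fun _ => ℝ) p.1 p.2)
      left_inv := fun v => by
        ext i
        refine Fin.lastCases ?_ (fun j => ?_) i <;> simp
      right_inv := fun p => by ext <;> simp }

lemma LV_apply {n : ℕ} (v : GS_808.Vc n) :
    LV n v = (fun i => v (Fin.castSucc i), v (Fin.last n)) := rfl

lemma inner_ec {n : ℕ} (v : GS_808.Vc n) : ⟪GS_808.ec n, v⟫ = (LV n v).2 := by
  rw [GS_808.ec, EuclideanSpace.inner_single_left]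
  simp [LV_apply]

lemma LV_ec (n : ℕ) : LV n (GS_808.ec n) = (0, 1) := by
  rw [LV_apply]
  ext i
  · simp [GS_808.ec, (Fin.castSucc_lt_last i).ne]
  · simp [GS_808.ec]

lemma LV_ne_zero {n : ℕ} {v : GS_808.Vc n} (h : v ≠ 0) : LV n v ≠ 0 := fun h0 =>
  h (by simpa using congrArg (LV n).symm h0)

lemma norm_ec (n : ℕ) : ‖GS_808.ec n‖ = 1 := by simp [GS_808.ec]

lemma restAt_of_off {n : ℕ} {u : Fin (n+1) → ℝ} (h : Class1_184.Off (m := n) u) :
    GS_808.RestAt u := by
  rcases h with h | h
  · exact Or.inl h.ge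
  · right
    by_contra hc
    push Not at hc
    have : ‖Fin.tail u‖ < 1 := by
      rw [pi_norm_lt_iff one_pos]
      intro i
      exact hc i.succ (Fin.succ_ne_zero i)
    rw [h] at this
    exact lt_irrefl _ this

/-- unit vector -/
noncomputable def un {V : Type*} [NormedAddCommGroup V] [NormedSpace ℝ V] (v : V) : V := ‖v‖⁻¹ • v

lemma norm_un {V : Type*} [NormedAddCommGroup V] [NormedSpace ℝ V] {v : V} (h : v ≠ 0) :
    ‖un v‖ = 1 := by
  rw [un, norm_smul, norm_inv, norm_norm, inv_mul_cancel₀ (norm_ne_zero_iff.2 h)]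

lemma un_of_norm {V : Type*} [NormedAddCommGroup V] [NormedSpace ℝ V] {v : V} (h : ‖v‖ = 1) :
    un v = v := by rw [un, h, inv_one, one_smul]

lemma continuous_un {V X : Type*} [NormedAddCommGroup V] [NormedSpace ℝ V] [TopologicalSpace X]
    {f : X → V} (hf : Continuous f) (h : ∀ x, f x ≠ 0) : Continuous fun x => un (f x) :=
  (hf.norm.inv₀ fun x => norm_ne_zero_iff.2 (h x)).smul hf

theorem class1Prop (n : ℕ) (hn : 1 ≤ n) : DraftB_808.Class1Prop n := by
  intro m G G' p hG hG' hD hN
  have pH : ∀ k, (LV (n+2) (p k)).2 = 0 := by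
    intro k
    have h1 : GS_808.RestAt (fun _ => (1:ℝ) : GS_808.Bc (n+2)) := Or.inl le_rfl
    have h2 : ‖(fun _ => (1:ℝ) : GS_808.Bc (n+2))‖ = 1 := by simp
    rw [← inner_ec, ← hG k _ h1]
    exact G.wall_x k _ h2.ge
  have pE : ∀ k, LV (n+2) (p k) = ((LV (n+2) (p k)).1, 0) := fun k => Prod.ext rfl (pH k)
  have mkSys : ∀ G : DraftB_808.S n m, (∀ k, GS_808.IsRest (p k) (G.x k)) →
      Class1_184.Sys (m := n+1) (fun k => (LV (n+2) (p k)).1) (fun k u => LV (n+2) (G.x k u))
        (fun k u => LV (n+2) (G.nu k u)) := by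
    intro G hG
    refine { off := ?_, face := ?_, nu := ?_, cx := ?_, cnu := ?_, ne := ?_, nu_ne := ?_ }
    · intro k u hu ho
      show LV (n+2) (G.x k u) = _
      rw [hG k u (restAt_of_off ho)]
      exact pE k
    · intro k u hu
      show (LV (n+2) (G.x k u)).2 = 0
      rw [← inner_ec]; exact G.wall_x k u hu.ge
    · intro k u hu
      show LV (n+2) (G.nu k u) = _
      rw [G.wall_nu k u hu.ge, LV_ec]
    · intro k
      exact ((LV (n+2)).continuous.comp (G.cx k)).continuousOn
    · intro k
      exact ((LV (n+2)).continuous.comp (G.cnu k)).continuousOn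
    · intro u hu k l hkl h
      have h1 : G.x k u = G.x l u := (LV (n+2)).injective h
      have h2 := G.sep k l u hkl
      rw [h1, sub_self, norm_zero] at h2
      linarith [G.hr]
    · intro u hu k h
      have h1 : G.nu k u = 0 := by simpa using congrArg (LV (n+2)).symm h
      have h2 := G.norm_nu k u
      rw [h1, norm_zero] at h2
      exact zero_ne_one h2
  have cτ : Continuous fun z : GS_808.Bc (n+2) × ℝ => ((1 + z.2) / 2, z.1) := by fun_prop
  have mτ : ∀ z : GS_808.Bc (n+2) × ℝ, ‖z‖ ≤ 1 →
      (((1 + z.2) / 2, z.1) : ℝ × GS_808.Bc (n+2)) ∈ Icc (0:ℝ) 1 ×ˢ Metric.closedBall 0 1 := by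
    intro z hz
    rw [Class1_184.norm_le_one_iff] at hz
    have := abs_le.1 hz.2
    exact ⟨⟨by linarith, by linarith⟩, by simpa using hz.1⟩
  -- difference homotopies
  have hDH : ∀ k l, k ≠ l → ∃ D, Class1_184.DiffHom (m := n+1)
      ((LV (n+2) (p k)).1 - (LV (n+2) (p l)).1)
      (fun u => LV (n+2) (G.x k u) - LV (n+2) (G.x l u))
      (fun u => LV (n+2) (G'.x k u) - LV (n+2) (G'.x l u)) D := by
    have main : ∀ k l, l < k → ∃ D, Class1_184.DiffHom (m := n+1)
      ((LV (n+2) (p k)).1 - (LV (n+2) (p l)).1)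
      (fun u => LV (n+2) (G.x k u) - LV (n+2) (G.x l u))
      (fun u => LV (n+2) (G'.x k u) - LV (n+2) (G'.x l u)) D := by
      intro k l hkl
      obtain ⟨E, e1, e2, e3, e4, e5, e6⟩ := hD k l hkl
      refine ⟨fun z => LV (n+2) (E ((1 + z.2) / 2, z.1)), ?_⟩
      refine { cont := ?_, ne := ?_, start := ?_, fin := ?_, off := ?_, face := ?_ }
      · exact ((LV (n+2)).continuous.comp (e1.comp cτ)).continuousOn
      · intro z hz; exact LV_ne_zero (e2 _)
      · intro u hu
        have h1 : E ((1 + -1) / 2, u) = G.x k u - G.x l u := by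
          norm_num
          exact e5 u
        show LV (n+2) (E ((1 + -1) / 2, u)) = _
        rw [h1, map_sub]
      · intro u hu
        have h1 : E ((1 + 1) / 2, u) = G'.x k u - G'.x l u := by
          norm_num
          exact e6 u
        show LV (n+2) (E ((1 + 1) / 2, u)) = _
        rw [h1, map_sub]
      · intro u s hu hs ho
        show LV (n+2) (E ((1 + s) / 2, u)) = _
        rw [e4 _ u (restAt_of_off ho), map_sub]
        refine Prod.ext rfl ?_
        rw [Prod.snd_sub, pH, pH, sub_zero]
      · intro u s hu hs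
        show (LV (n+2) (E ((1 + s) / 2, u))).2 = 0
        rw [← inner_ec]
        exact e3 _ u hu.ge
    intro k l hkl
    rcases lt_or_gt_of_ne hkl with h | h
    · obtain ⟨D, hD⟩ := main l k h
      refine ⟨fun z => - D z, ?_⟩
      refine { cont := hD.cont.neg, ne := ?_, start := ?_, fin := ?_, off := ?_, face := ?_ }
      · intro z hz h0; exact hD.ne z hz (neg_eq_zero.1 h0)
      · intro u hu; simp only [hD.start u hu]; abel
      · intro u hu; simp only [hD.fin u hu]; abel
      · intro u s hu hs ho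
        simp only [hD.off u s hu hs ho]
        ext <;> simp
      · intro u s hu hs
        simp only [Prod.snd_neg, hD.face u s hu hs, neg_zero]
    · exact main k l h
  -- normals
  have hNH : ∀ k, ∃ D, Class1_184.NuHom (m := n+1) (fun u => LV (n+2) (G.nu k u))
      (fun u => LV (n+2) (G'.nu k u)) D := by
    intro k
    obtain ⟨E, e1, e2, e3, e4, e5⟩ := hN k
    refine ⟨fun z => LV (n+2) (E ((1 + z.2) / 2, z.1)), ?_⟩
    have ht : ∀ s : ℝ, |s| ≤ 1 → (1 + s) / 2 ∈ Icc (0:ℝ) 1 := by
      intro s hs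
      have := abs_le.1 hs
      exact ⟨by linarith, by linarith⟩
    refine { cont := ?_, ne := ?_, start := ?_, fin := ?_, off := ?_ }
    · refine (LV (n+2)).continuous.comp_continuousOn (e1.comp cτ.continuousOn ?_)
      intro z hz
      exact mτ z (by simpa using hz)
    · intro z hz
      have := (Class1_184.norm_le_one_iff z).1 hz
      exact LV_ne_zero (e2 _ (ht _ this.2) _ this.1)
    · intro u hu
      simp only
      norm_num
      exact e4 u hu
    · intro u hu
      simp only
      norm_num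
      exact e5 u hu
    · intro u s hu hs
      show LV (n+2) (E ((1 + s) / 2, u)) = _
      rw [e3 _ (ht s hs) u hu, LV_ec]
  obtain ⟨X, N, hI⟩ := Class1_184.class1 (m := n+1) (by omega) (mkSys G hG) (mkSys G' hG') hDH hNH
  have cσ : Continuous fun z : ℝ × GS_808.Bc (n+2) => (z.2, 2 * z.1 - 1) := by fun_prop
  have hNne : ∀ k (z : GS_808.Bc (n+2) × ℝ), (LV (n+2)).symm (N k z) ≠ 0 := by
    intro k z h
    exact hI.N_ne z k (by simpa using congrArg (LV (n+2)) h)
  refine ⟨fun k z => (LV (n+2)).symm (X k (z.2, 2 * z.1 - 1)),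
    fun k z => un ((LV (n+2)).symm (N k (z.2, 2 * z.1 - 1))), ?_, ?_, ?_, ?_, ?_, ?_, ?_⟩
  · intro k
    exact ((LV (n+2)).symm.continuous.comp ((hI.cX k).comp cσ)).continuousOn
  · intro k
    exact (continuous_un ((LV (n+2)).symm.continuous.comp ((hI.cN k).comp cσ))
      (fun z => hNne k _)).continuousOn
  · intro k t ht u hu
    exact norm_un (hNne k _)
  · intro k l hkl t ht u hu h
    exact hI.ne (u, 2 * t - 1) k l hkl ((LV (n+2)).symm.injective h)
  · intro k t ht u hu
    have hs : |2 * t - 1| ≤ 1 := by rw [abs_le]; constructor <;> linarith [ht.1, ht.2]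
    have hb := hI.bdry (2 * t - 1) hs
    constructor
    · show ⟪GS_808.ec (n+2), (LV (n+2)).symm (X k (u, 2 * t - 1))⟫ = 0
      rw [inner_ec, ContinuousLinearEquiv.apply_symm_apply]
      exact hb.face k u hu
    · show un ((LV (n+2)).symm (N k (u, 2 * t - 1))) = _
      have h1 : N k (u, 2 * t - 1) = (0, 1) := hb.nu k u hu
      rw [h1, ← LV_ec (n+2), ContinuousLinearEquiv.symm_apply_apply, un_of_norm (norm_ec _)]
  · intro k u hu
    constructor
    · show (LV (n+2)).symm (X k (u, 2 * 0 - 1)) = _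
      have h1 : X k (u, 2 * 0 - 1) = LV (n+2) (G.x k u) := by
        norm_num
        exact hI.X_start k u hu
      rw [h1, ContinuousLinearEquiv.symm_apply_apply]
    · show un ((LV (n+2)).symm (N k (u, 2 * 0 - 1))) = _
      have h1 : N k (u, 2 * 0 - 1) = LV (n+2) (G.nu k u) := by
        norm_num
        exact hI.N_start k u hu
      rw [h1, ContinuousLinearEquiv.symm_apply_apply, un_of_norm (G.norm_nu k u)]
  · intro k u hu
    constructor
    · show (LV (n+2)).symm (X k (u, 2 * 1 - 1)) = _
      have h1 : X k (u, 2 * 1 - 1) = LV (n+2) (G'.x k u) := by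
        norm_num
        exact hI.X_fin k u hu
      rw [h1, ContinuousLinearEquiv.symm_apply_apply]
    · show un ((LV (n+2)).symm (N k (u, 2 * 1 - 1))) = _
      have h1 : N k (u, 2 * 1 - 1) = LV (n+2) (G'.nu k u) := by
        norm_num
        exact hI.N_fin k u hu
      rw [h1, ContinuousLinearEquiv.symm_apply_apply, un_of_norm (G'.norm_nu k u)]

end Crest.Agent.R267.Class1P_184
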