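import Crest.Agent.R267.ConfExt_88

/-!
# CLASS1 (row 267, D3 of #1777): systems with homotopic pairwise differences are isotopic

Base `B = Fin (m+1) → ℝ` (sup norm, cube = unit ball), fibre `F = B × ℝ`, `H = {v.2 = 0}`,
`e = (0,1)`.  Everything is at rest on the boundary of the cube except on the open face
`u 0 = -1`, where the cores are in `H`.  The normals are `e` on the whole boundary.

`class1`: if for every pair `k ≠ l` the differences `x k - x l` and `x' k - x' l` are homotopic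
(as maps to `F - 0`, constant on the boundary minus the face, in `H - 0` on the face) and the
normals are homotopic rel boundary, then the two systems are isotopic.  `m ≥ 2`.
-/

set_option autoImplicit false
set_option linter.unusedSectionVars false
open Topology Filter Set Module

namespace Crest.Agent.R267.Class1_184

open BallExt_88 ConfExt_88

/-- base -/
abbrev B (m : ℕ) := Fin (m+1) → ℝ
/-- fibre -/
abbrev F (m : ℕ) := B m × ℝ

variable {m μ : ℕ}

/-- (on the boundary of the cube) the complement of the open face `u 0 = -1`, a closed set -/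
def Off (u : B m) : Prop := u 0 = 1 ∨ ‖Fin.tail u‖ = 1

/-- a point of the closed face -/
def fc (w : Fin m → ℝ) : B m := Fin.cons (-1) w

lemma norm_eq_max (u : B m) : ‖u‖ = max |u 0| ‖Fin.tail u‖ := by
  apply le_antisymm
  · rw [pi_norm_le_iff_of_nonneg (le_max_of_le_left (abs_nonneg _))]
    intro i
    refine Fin.cases ?_ (fun j => ?_) i
    · exact le_max_left _ _
    · exact le_max_of_le_right (norm_le_pi_norm (Fin.tail u) j)
  · apply max_le
    · exact norm_le_pi_norm u 0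
    · rw [pi_norm_le_iff_of_nonneg (norm_nonneg _)]
      intro j
      exact norm_le_pi_norm u j.succ

lemma norm_fc (w : Fin m → ℝ) : ‖fc w‖ = max 1 ‖w‖ := by
  rw [norm_eq_max]; simp [fc]

lemma fc_tail {u : B m} (h : u 0 = -1) : fc (Fin.tail u) = u := by
  rw [fc, ← h, Fin.cons_self_tail]

@[simp] lemma tail_fc (w : Fin m → ℝ) : Fin.tail (fc w) = w := by simp [fc]
@[simp] lemma fc_zero (w : Fin m → ℝ) : fc w 0 = -1 := by simp [fc]

lemma continuous_fc : Continuous (fc : (Fin m → ℝ) → B m) := by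
  unfold fc
  fun_prop

lemma continuous_tail : Continuous (Fin.tail : B m → (Fin m → ℝ)) :=
  continuous_pi fun i => continuous_apply i.succ

/-- boundary conditions -/
structure Bdry (p : Fin μ → B m) (x ν : Fin μ → B m → F m) : Prop where
  off : ∀ k u, ‖u‖ = 1 → Off u → x k u = (p k, 0)
  face : ∀ k u, ‖u‖ = 1 → (x k u).2 = 0
  nu : ∀ k u, ‖u‖ = 1 → ν k u = (0, 1)

/-- systems -/
structure Sys (p : Fin μ → B m) (x ν : Fin μ → B m → F m) : Prop extends Bdry p x ν where
  cx : ∀ k, ContinuousOn (x k) (Metric.closedBall 0 1)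
  cnu : ∀ k, ContinuousOn (ν k) (Metric.closedBall 0 1)
  ne : ∀ u, ‖u‖ ≤ 1 → ∀ k l, k ≠ l → x k u ≠ x l u
  nu_ne : ∀ u, ‖u‖ ≤ 1 → ∀ k, ν k u ≠ 0

/-- homotopy between the differences (time in `[-1,1]`) -/
structure DiffHom (q : B m) (d d' : B m → F m) (D : B m × ℝ → F m) : Prop where
  cont : ContinuousOn D (Metric.closedBall 0 1)
  ne : ∀ z, ‖z‖ ≤ 1 → D z ≠ 0
  start : ∀ u, ‖u‖ ≤ 1 → D (u, -1) = d u
  fin : ∀ u, ‖u‖ ≤ 1 → D (u, 1) = d' u
  off : ∀ u s, ‖u‖ = 1 → |s| ≤ 1 → Off u → D (u, s) = (q, 0)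
  face : ∀ u s, ‖u‖ = 1 → |s| ≤ 1 → (D (u, s)).2 = 0

/-- homotopy between the normals (time in `[-1,1]`) -/
structure NuHom (d d' : B m → F m) (D : B m × ℝ → F m) : Prop where
  cont : ContinuousOn D (Metric.closedBall 0 1)
  ne : ∀ z, ‖z‖ ≤ 1 → D z ≠ 0
  start : ∀ u, ‖u‖ ≤ 1 → D (u, -1) = d u
  fin : ∀ u, ‖u‖ ≤ 1 → D (u, 1) = d' u
  off : ∀ u s, ‖u‖ = 1 → |s| ≤ 1 → D (u, s) = (0, 1)

/-- isotopy of systems (time in `[-1,1]`) -/
structure Isot (p : Fin μ → B m) (x ν x' ν' : Fin μ → B m → F m)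
    (X N : Fin μ → B m × ℝ → F m) : Prop where
  cX : ∀ k, Continuous (X k)
  cN : ∀ k, Continuous (N k)
  ne : ∀ z, ∀ k l, k ≠ l → X k z ≠ X l z
  N_ne : ∀ z, ∀ k, N k z ≠ 0
  bdry : ∀ s, |s| ≤ 1 → Bdry p (fun k u => X k (u, s)) (fun k u => N k (u, s))
  X_start : ∀ k u, ‖u‖ ≤ 1 → X k (u, -1) = x k u
  X_fin : ∀ k u, ‖u‖ ≤ 1 → X k (u, 1) = x' k u
  N_start : ∀ k u, ‖u‖ ≤ 1 → N k (u, -1) = ν k u
  N_fin : ∀ k u, ‖u‖ ≤ 1 → N k (u, 1) = ν' k u

/-! ### step 1: the face -/

/-- boundary values on the face (times `[-1,1]`) -/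
noncomputable def faceB (p : Fin μ → B m) (x x' : Fin μ → B m → F m) (k : Fin μ)
    (z : (Fin m → ℝ) × ℝ) : B m :=
  open Classical in
  if z.2 = 1 then (x' k (fc z.1)).1 else if z.2 = -1 then (x k (fc z.1)).1 else p k

lemma norm_le_one_iff {E : Type*} [NormedAddCommGroup E] (z : E × ℝ) :
    ‖z‖ ≤ 1 ↔ ‖z.1‖ ≤ 1 ∧ |z.2| ≤ 1 := by
  rw [Prod.norm_def, max_le_iff, Real.norm_eq_abs]

lemma norm_eq_one_iff {E : Type*} [NormedAddCommGroup E] (z : E × ℝ) :
    ‖z‖ = 1 ↔ ‖z.1‖ ≤ 1 ∧ |z.2| ≤ 1 ∧ (‖z.1‖ = 1 ∨ z.2 = 1 ∨ z.2 = -1) := by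
  rw [Prod.norm_def, Real.norm_eq_abs]
  constructor
  · intro h
    have h1 : ‖z.1‖ ≤ 1 := (le_max_left _ _).trans h.le
    have h2 : |z.2| ≤ 1 := (le_max_right _ _).trans h.le
    refine ⟨h1, h2, ?_⟩
    rcases max_choice ‖z.1‖ |z.2| with h3 | h3
    · left; rw [← h, h3]
    · right
      have : |z.2| = 1 := by rw [← h, h3]
      rcases (abs_eq (by norm_num : (0:ℝ) ≤ 1)).1 this with h | h
      · left; exact h
      · right; exact h
  · rintro ⟨h1, h2, h3⟩
    apply le_antisymm (max_le h1 h2)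
    rcases h3 with h | h | h
    · exact h.ge.trans (le_max_left _ _)
    · rw [h]; simp
    · rw [h]; simp

section
variable {p : Fin μ → B m} {x ν x' ν' : Fin μ → B m → F m}

lemma norm_fc_le {w : Fin m → ℝ} (h : ‖w‖ ≤ 1) : ‖fc w‖ = 1 := by
  rw [norm_fc, max_eq_left h]

lemma off_fc {w : Fin m → ℝ} (h : ‖w‖ = 1) : Off (fc w) := Or.inr (by simpa using h)

lemma faceB_top (k : Fin μ) (w : Fin m → ℝ) : faceB p x x' k (w, 1) = (x' k (fc w)).1 := by
  simp [faceB]

lemma faceB_bot (k : Fin μ) (w : Fin m → ℝ) : faceB p x x' k (w, -1) = (x k (fc w)).1 := by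
  simp only [faceB, if_true]
  rw [if_neg (by norm_num)]

lemma faceB_off (S : Bdry p x ν) (S' : Bdry p x' ν') (k : Fin μ) (w : Fin m → ℝ) (s : ℝ)
    (hw : ‖w‖ = 1) : faceB p x x' k (w, s) = p k := by
  simp only [faceB]
  split_ifs
  · rw [S'.off k _ (norm_fc_le hw.le) (off_fc hw)]
  · rw [S.off k _ (norm_fc_le hw.le) (off_fc hw)]
  · rfl

lemma continuousOn_faceB (S : Sys p x ν) (S' : Sys p x' ν') (k : Fin μ) :
    ContinuousOn (faceB p x x' k) (Metric.sphere 0 1) := by
  have e : Metric.sphere (0 : (Fin m → ℝ) × ℝ) 1 =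
      (Metric.sphere 0 1 ∩ {z | ‖z.1‖ = 1}) ∪
        ((Metric.sphere 0 1 ∩ {z | z.2 = 1}) ∪ (Metric.sphere 0 1 ∩ {z | z.2 = -1})) := by
    ext z
    simp only [mem_sphere_zero_iff_norm, mem_union, mem_inter_iff, Set.mem_ofPred_eq]
    constructor
    · intro h
      have := ((norm_eq_one_iff z).1 h).2.2
      tauto
    · tauto
  have hs : IsClosed (Metric.sphere (0 : (Fin m → ℝ) × ℝ) 1) := Metric.isClosed_sphere
  have c1 : IsClosed {z : (Fin m → ℝ) × ℝ | ‖z.1‖ = 1} :=
    isClosed_eq (by fun_prop) continuous_const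
  have c2 : IsClosed {z : (Fin m → ℝ) × ℝ | z.2 = 1} := isClosed_eq (by fun_prop) continuous_const
  have c3 : IsClosed {z : (Fin m → ℝ) × ℝ | z.2 = -1} := isClosed_eq (by fun_prop) continuous_const
  rw [e]
  refine ContinuousOn.union_of_isClosed ?_ (ContinuousOn.union_of_isClosed ?_ ?_ (hs.inter c2)
    (hs.inter c3)) (hs.inter c1) ((hs.inter c2).union (hs.inter c3))
  · refine (continuousOn_const (c := p k)).congr ?_
    rintro ⟨w, s⟩ ⟨_, hw⟩
    exact faceB_off S.toBdry S'.toBdry k w s hw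
  · have : ContinuousOn (fun z : (Fin m → ℝ) × ℝ => (x' k (fc z.1)).1)
        (Metric.sphere 0 1 ∩ {z | z.2 = 1}) := by
      refine continuous_fst.comp_continuousOn ((S'.cx k).comp
        (continuous_fc.comp continuous_fst).continuousOn ?_)
      rintro z ⟨hz, _⟩
      have := ((norm_eq_one_iff z).1 (by simpa using hz)).1
      simpa using (norm_fc_le this).le
    refine this.congr ?_
    rintro ⟨w, s⟩ ⟨_, hw⟩
    obtain rfl : s = 1 := hw
    exact faceB_top k w
  · have : ContinuousOn (fun z : (Fin m → ℝ) × ℝ => (x k (fc z.1)).1)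
        (Metric.sphere 0 1 ∩ {z | z.2 = -1}) := by
      refine continuous_fst.comp_continuousOn ((S.cx k).comp
        (continuous_fc.comp continuous_fst).continuousOn ?_)
      rintro z ⟨hz, _⟩
      have := ((norm_eq_one_iff z).1 (by simpa using hz)).1
      simpa using (norm_fc_le this).le
    refine this.congr ?_
    rintro ⟨w, s⟩ ⟨_, hw⟩
    obtain rfl : s = -1 := hw
    exact faceB_bot k w

/-- step 1. -/
lemma step1 (hm : 2 ≤ m) (S : Sys p x ν) (S' : Sys p x' ν')
    (hD : ∀ k l, k ≠ l → ∃ D, DiffHom (p k - p l) (fun u => x k u - x l u)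
      (fun u => x' k u - x' l u) D) :
    ∃ G : Fin μ → (Fin m → ℝ) × ℝ → B m, (∀ k, Continuous (G k)) ∧
      (∀ z k l, k ≠ l → G k z ≠ G l z) ∧
      (∀ k w, ‖w‖ ≤ 1 → G k (w, 1) = (x' k (fc w)).1) ∧
      (∀ k w, ‖w‖ ≤ 1 → G k (w, -1) = (x k (fc w)).1) ∧
      (∀ k w s, ‖w‖ = 1 → |s| ≤ 1 → G k (w, s) = p k) := by
  obtain ⟨G, h1, h2, h3⟩ := conf_ext (V := (Fin m → ℝ) × ℝ) (E := B m) (by simp; omega)
    (faceB p x x') (continuousOn_faceB S S') (by
    intro k l hkl
    obtain ⟨D, hD⟩ := hD k l hkl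
    refine ⟨fun z => (D (fc z.1, z.2)).1, ?_, ?_, ?_⟩
    · refine continuous_fst.comp_continuousOn (hD.cont.comp ?_ ?_)
      · exact ((continuous_fc.comp continuous_fst).prodMk continuous_snd).continuousOn
      · intro z hz
        have hz' := (norm_le_one_iff z).1 (by simpa using hz)
        rw [mem_closedBall_zero_iff, norm_le_one_iff]
        exact ⟨(norm_fc_le hz'.1).le, hz'.2⟩
    · intro z hz h0
      have hz' := (norm_le_one_iff z).1 (by simpa using hz)
      refine hD.ne (fc z.1, z.2) ((norm_le_one_iff _).2 ⟨(norm_fc_le hz'.1).le, hz'.2⟩) ?_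
      exact Prod.ext h0 (hD.face _ _ (norm_fc_le hz'.1) hz'.2)
    · rintro ⟨w, s⟩ hz
      have hz' := (norm_eq_one_iff (w, s)).1 (by simpa using hz)
      obtain ⟨hw, hs, h⟩ := hz'
      simp only at hw hs h ⊢
      rcases h with h | h | h
      · rw [faceB_off S.toBdry S'.toBdry k w s h, faceB_off S.toBdry S'.toBdry l w s h,
          hD.off _ _ (norm_fc_le hw) hs (off_fc h)]
      · subst h
        rw [faceB_top, faceB_top, hD.fin _ (norm_fc_le hw).le]; rfl
      · subst h
        rw [faceB_bot, faceB_bot, hD.start _ (norm_fc_le hw).le]; rfl)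
  refine ⟨G, h1, h2, ?_, ?_, ?_⟩
  · intro k w hw
    rw [h3 k _ (by simpa using (norm_eq_one_iff (w, (1:ℝ))).2 ⟨hw, by simp, by simp⟩), faceB_top]
  · intro k w hw
    rw [h3 k _ (by simpa using (norm_eq_one_iff (w, (-1:ℝ))).2 ⟨hw, by simp, by simp⟩), faceB_bot]
  · intro k w s hw hs
    rw [h3 k _ (by simpa using (norm_eq_one_iff (w, s)).2 ⟨hw.le, hs, by simp [hw]⟩),
      faceB_off S.toBdry S'.toBdry k w s hw]

/-! ### step 2: the cube -/

/-- boundary values on the boundary of `cube × [-1,1]`. -/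
noncomputable def cubeB (p : Fin μ → B m) (x x' : Fin μ → B m → F m)
    (G : Fin μ → (Fin m → ℝ) × ℝ → B m) (k : Fin μ) (z : B m × ℝ) : F m :=
  open Classical in
  if z.2 = 1 then x' k z.1 else if z.2 = -1 then x k z.1 else
    if z.1 0 = -1 then (G k (Fin.tail z.1, z.2), 0) else (p k, 0)

/-- the data of step 1 -/
structure FaceG (p : Fin μ → B m) (x x' : Fin μ → B m → F m)
    (G : Fin μ → (Fin m → ℝ) × ℝ → B m) : Prop where
  cont : ∀ k, Continuous (G k)
  ne : ∀ z k l, k ≠ l → G k z ≠ G l z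
  top : ∀ k w, ‖w‖ ≤ 1 → G k (w, 1) = (x' k (fc w)).1
  bot : ∀ k w, ‖w‖ ≤ 1 → G k (w, -1) = (x k (fc w)).1
  off : ∀ k w s, ‖w‖ = 1 → |s| ≤ 1 → G k (w, s) = p k

variable {G : Fin μ → (Fin m → ℝ) × ℝ → B m}

lemma norm_tail_le (u : B m) : ‖Fin.tail u‖ ≤ ‖u‖ := by
  rw [norm_eq_max u]; exact le_max_right _ _

lemma abs_zero_le (u : B m) : |u 0| ≤ ‖u‖ := by
  rw [norm_eq_max u]; exact le_max_left _ _

lemma bdry_cases {u : B m} (h : ‖u‖ = 1) : u 0 = -1 ∨ Off u := by
  rw [norm_eq_max] at h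
  rcases max_choice |u 0| ‖Fin.tail u‖ with h3 | h3
  · have : |u 0| = 1 := by rw [← h, h3]
    rcases (abs_eq (by norm_num : (0:ℝ) ≤ 1)).1 this with h | h
    · exact Or.inr (Or.inl h)
    · exact Or.inl h
  · exact Or.inr (Or.inr (by rw [← h, h3]))

lemma cubeB_top (k : Fin μ) (u : B m) : cubeB p x x' G k (u, 1) = x' k u := by
  simp [cubeB]

lemma cubeB_bot (k : Fin μ) (u : B m) : cubeB p x x' G k (u, -1) = x k u := by
  simp only [cubeB, if_true]
  rw [if_neg (by norm_num)]

lemma norm_of_zero {u : B m} (hu : ‖u‖ ≤ 1) (h : u 0 = -1) : ‖u‖ = 1 := by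
  apply le_antisymm hu
  have := abs_zero_le u
  rw [h] at this
  simpa using this

lemma cubeB_face (S : Bdry p x ν) (S' : Bdry p x' ν') (hG : FaceG p x x' G) (k : Fin μ) (u : B m)
    (s : ℝ) (hu : ‖u‖ ≤ 1) (h : u 0 = -1) :
    cubeB p x x' G k (u, s) = (G k (Fin.tail u, s), 0) := by
  have h1 := norm_of_zero hu h
  have ht := (norm_tail_le u).trans hu
  simp only [cubeB]
  split_ifs with h2 h3
  · subst h2
    rw [hG.top k _ ht, fc_tail h]
    exact Prod.ext rfl (S'.face k u h1)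
  · subst h3
    rw [hG.bot k _ ht, fc_tail h]
    exact Prod.ext rfl (S.face k u h1)
  · rfl

lemma cubeB_off (S : Bdry p x ν) (S' : Bdry p x' ν') (hG : FaceG p x x' G) (k : Fin μ) (u : B m)
    (s : ℝ) (hu : ‖u‖ = 1) (hs : |s| ≤ 1) (h : Off u) :
    cubeB p x x' G k (u, s) = (p k, 0) := by
  by_cases h1 : u 0 = -1
  · rw [cubeB_face S S' hG k u s hu.le h1]
    rcases h with h | h
    · rw [h1] at h; norm_num at h
    · rw [hG.off k _ s h hs]
  · simp only [cubeB]
    split_ifs
    · exact S'.off k u hu h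
    · exact S.off k u hu h
    · rfl

lemma continuousOn_cubeB (S : Sys p x ν) (S' : Sys p x' ν') (hG : FaceG p x x' G) (k : Fin μ) :
    ContinuousOn (cubeB p x x' G k) (Metric.sphere 0 1) := by
  have hs : IsClosed (Metric.sphere (0 : B m × ℝ) 1) := Metric.isClosed_sphere
  have ct : Continuous (fun z : B m × ℝ => Fin.tail z.1) := continuous_tail.comp continuous_fst
  have c1 : IsClosed {z : B m × ℝ | ‖z.1‖ = 1 ∧ Off z.1} := by
    have e : {z : B m × ℝ | ‖z.1‖ = 1 ∧ Off z.1} =
      {z : B m × ℝ | ‖z.1‖ = 1} ∩ ({z : B m × ℝ | z.1 0 = 1} ∪ {z : B m × ℝ | ‖Fin.tail z.1‖ = 1}) :=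
      rfl
    rw [e]
    refine IsClosed.inter (isClosed_eq (by fun_prop) continuous_const)
      (IsClosed.union (isClosed_eq (by fun_prop) continuous_const) (isClosed_eq ct.norm continuous_const))
  have c2 : IsClosed {z : B m × ℝ | z.2 = 1} := isClosed_eq (by fun_prop) continuous_const
  have c3 : IsClosed {z : B m × ℝ | z.2 = -1} := isClosed_eq (by fun_prop) continuous_const
  have c4 : IsClosed {z : B m × ℝ | z.1 0 = -1} := isClosed_eq (by fun_prop) continuous_const
  have e : Metric.sphere (0 : B m × ℝ) 1 =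
      (Metric.sphere 0 1 ∩ {z | ‖z.1‖ = 1 ∧ Off z.1}) ∪
        ((Metric.sphere 0 1 ∩ {z | z.2 = 1}) ∪ ((Metric.sphere 0 1 ∩ {z | z.2 = -1}) ∪
          (Metric.sphere 0 1 ∩ {z | z.1 0 = -1}))) := by
    ext z
    simp only [mem_sphere_zero_iff_norm, mem_union, mem_inter_iff, Set.mem_ofPred_eq]
    constructor
    · intro h
      have := ((norm_eq_one_iff z).1 h).2.2
      rcases this with h1 | h1 | h1
      · rcases bdry_cases h1 with h2 | h2
        · tauto
        · tauto
      · tauto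
      · tauto
    · tauto
  rw [e]
  refine ContinuousOn.union_of_isClosed ?_ (ContinuousOn.union_of_isClosed ?_
    (ContinuousOn.union_of_isClosed ?_ ?_ (hs.inter c3) (hs.inter c4)) (hs.inter c2)
    ((hs.inter c3).union (hs.inter c4))) (hs.inter c1)
    ((hs.inter c2).union ((hs.inter c3).union (hs.inter c4)))
  · refine (continuousOn_const (c := ((p k, 0) : F m))).congr ?_
    rintro ⟨u, s⟩ ⟨hz, hu, ho⟩
    have hz' := (norm_eq_one_iff (u, s)).1 (by simpa using hz)
    exact cubeB_off S.toBdry S'.toBdry hG k u s hu hz'.2.1 ho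
  · have : ContinuousOn (fun z : B m × ℝ => x' k z.1)
        (Metric.sphere 0 1 ∩ {z | z.2 = 1}) := by
      refine (S'.cx k).comp continuous_fst.continuousOn ?_
      rintro z ⟨hz, _⟩
      simpa using ((norm_eq_one_iff z).1 (by simpa using hz)).1
    refine this.congr ?_
    rintro ⟨w, s⟩ ⟨_, hw⟩
    obtain rfl : s = 1 := hw
    exact cubeB_top k w
  · have : ContinuousOn (fun z : B m × ℝ => x k z.1)
        (Metric.sphere 0 1 ∩ {z | z.2 = -1}) := by
      refine (S.cx k).comp continuous_fst.continuousOn ?_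
      rintro z ⟨hz, _⟩
      simpa using ((norm_eq_one_iff z).1 (by simpa using hz)).1
    refine this.congr ?_
    rintro ⟨w, s⟩ ⟨_, hw⟩
    obtain rfl : s = -1 := hw
    exact cubeB_bot k w
  · have : ContinuousOn (fun z : B m × ℝ => ((G k (Fin.tail z.1, z.2), 0) : F m))
        (Metric.sphere 0 1 ∩ {z | z.1 0 = -1}) :=
      ((((hG.cont k).comp (ct.prodMk continuous_snd)).prodMk continuous_const)).continuousOn
    refine this.congr ?_
    rintro ⟨u, s⟩ ⟨hz, hw⟩
    have hz' := (norm_eq_one_iff (u, s)).1 (by simpa using hz)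
    exact cubeB_face S.toBdry S'.toBdry hG k u s hz'.1 hw

/-- `p` is injective -/
lemma p_ne (S : Sys p x ν) {k l : Fin μ} (h : k ≠ l) : p k ≠ p l := by
  intro he
  have h1 : ‖(fun _ => 1 : B m)‖ = 1 := by simp
  have h2 := S.ne (fun _ => 1) h1.le k l h
  rw [S.off k _ h1 (Or.inl rfl), S.off l _ h1 (Or.inl rfl), he] at h2
  exact h2 rfl

lemma cubeB_ne (S : Sys p x ν) (S' : Sys p x' ν') (hG : FaceG p x x' G) {k l : Fin μ}
    (hkl : k ≠ l) (z : B m × ℝ) (hz : ‖z‖ = 1) :
    cubeB p x x' G k z ≠ cubeB p x x' G l z := by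
  obtain ⟨u, s⟩ := z
  obtain ⟨hu, hs, h⟩ := (norm_eq_one_iff (u, s)).1 hz
  simp only at hu hs h
  rcases h with h | h | h
  · rcases bdry_cases h with h1 | h1
    · rw [cubeB_face S.toBdry S'.toBdry hG k u s hu h1, cubeB_face S.toBdry S'.toBdry hG l u s hu h1]
      intro he
      exact hG.ne _ k l hkl (congrArg Prod.fst he)
    · rw [cubeB_off S.toBdry S'.toBdry hG k u s h hs h1, cubeB_off S.toBdry S'.toBdry hG l u s h hs h1]
      intro he
      exact p_ne S hkl (congrArg Prod.fst he)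
  · subst h
    rw [cubeB_top, cubeB_top]; exact S'.ne u hu k l hkl
  · subst h
    rw [cubeB_bot, cubeB_bot]; exact S.ne u hu k l hkl

/-- bump function, positive exactly on the open face -/
noncomputable def hb (z : B m × ℝ) : ℝ := max 0 (-(z.1 0) - ‖(Fin.tail z.1, z.2)‖)

lemma continuous_hb : Continuous (hb : B m × ℝ → ℝ) := by
  have ct : Continuous (fun z : B m × ℝ => Fin.tail z.1) := continuous_tail.comp continuous_fst
  unfold hb
  have := (ct.prodMk (continuous_snd (X := B m) (Y := ℝ))).norm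
  fun_prop

lemma hb_nonneg (z : B m × ℝ) : 0 ≤ hb z := le_max_left _ _

/-- on the sphere either we are on the face, or `hb = 0` and the differences are the homotopy -/
lemma hb_cases (z : B m × ℝ) (hz : ‖z‖ = 1) :
    (z.1 0 = -1 ∧ 0 < hb z) ∨
    (hb z = 0 ∧ ((‖z.1‖ = 1 ∧ Off z.1) ∨ z.2 = 1 ∨ z.2 = -1)) := by
  obtain ⟨hu, hs, h⟩ := (norm_eq_one_iff z).1 hz
  by_cases hh : 0 < hb z
  · left
    refine ⟨?_, hh⟩
    unfold hb at hh
    rw [lt_max_iff] at hh
    rcases hh with hh | hh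
    · exact absurd hh (lt_irrefl _)
    · by_contra h0
      have hu0 : -1 < z.1 0 := lt_of_le_of_ne (by
        have := (abs_le.1 ((abs_zero_le z.1).trans hu)).1; linarith) (Ne.symm h0)
      have h1 : ‖(Fin.tail z.1, z.2)‖ < 1 := by linarith
      rw [Prod.norm_def, max_lt_iff, Real.norm_eq_abs] at h1
      simp only at h1
      rcases h with h | h | h
      · rcases bdry_cases h with h2 | h2 | h2
        · exact h0 h2
        · have : (0:ℝ) ≤ ‖(Fin.tail z.1, z.2)‖ := norm_nonneg _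
          linarith
        · linarith [h1.1]
      · rw [h] at h1; simp at h1
      · rw [h] at h1; simp at h1
  · right
    have h0 : hb z = 0 := le_antisymm (not_lt.1 hh) (hb_nonneg z)
    refine ⟨h0, ?_⟩
    by_cases hs1 : z.2 = 1 ∨ z.2 = -1
    · right; exact hs1
    · left
      have hn : ‖z.1‖ = 1 := by tauto
      refine ⟨hn, ?_⟩
      rcases bdry_cases hn with h2 | h2
      · right
        unfold hb at h0
        have h3 : -(z.1 0) - ‖(Fin.tail z.1, z.2)‖ ≤ 0 := by
          rw [← h0]; exact le_max_right _ _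
        rw [h2, Prod.norm_def, Real.norm_eq_abs] at h3
        simp only at h3
        have h4 : 1 ≤ max ‖Fin.tail z.1‖ |z.2| := by linarith
        rcases le_max_iff.1 h4 with h5 | h5
        · exact le_antisymm ((norm_tail_le _).trans hu) h5
        · exfalso
          have h6 : |z.2| = 1 := le_antisymm hs h5
          rcases (abs_eq (by norm_num : (0:ℝ) ≤ 1)).1 h6 with h | h
          · exact hs1 (Or.inl h)
          · exact hs1 (Or.inr h)
      · exact h2

lemma pair_ext (S : Sys p x ν) (S' : Sys p x' ν') (hG : FaceG p x x' G) {k l : Fin μ}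
    (hkl : k ≠ l) {D : B m × ℝ → F m} (hD : DiffHom (p k - p l) (fun u => x k u - x l u)
      (fun u => x' k u - x' l u) D) :
    BallExt (fun z => cubeB p x x' G k z - cubeB p x x' G l z) {0} := by
  obtain ⟨bk, hbk, hbk'⟩ := exists_cont_ext (continuousOn_cubeB S S' hG k)
  obtain ⟨bl, hbl, hbl'⟩ := exists_cont_ext (continuousOn_cubeB S S' hG l)
  set e : F m := (0, 1) with he
  -- values of D
  have hDval : ∀ z, ‖z‖ = 1 → hb z = 0 → D z = bk z - bl z := by
    intro z hz h0
    rw [hbk' z hz, hbl' z hz]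
    have hz1 := (norm_eq_one_iff z).1 hz
    rcases hb_cases z hz with ⟨_, h⟩ | ⟨_, h⟩
    · exact absurd h0 h.ne'
    · obtain ⟨u, s⟩ := z
      simp only at h hz1
      rcases h with ⟨h1, h2⟩ | h | h
      · rw [hD.off u s h1 hz1.2.1 h2, cubeB_off S.toBdry S'.toBdry hG k u s h1 hz1.2.1 h2,
          cubeB_off S.toBdry S'.toBdry hG l u s h1 hz1.2.1 h2]
        simp
      · subst h; rw [hD.fin u hz1.1, cubeB_top, cubeB_top]
      · subst h; rw [hD.start u hz1.1, cubeB_bot, cubeB_bot]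
  have hDface : ∀ z, ‖z‖ = 1 → 0 < hb z → (D z).2 = 0 := by
    intro z hz h0
    have hz1 := (norm_eq_one_iff z).1 hz
    rcases hb_cases z hz with ⟨h, _⟩ | ⟨h, _⟩
    · exact hD.face z.1 z.2 (norm_of_zero hz1.1 h) hz1.2.1
    · exact absurd h h0.ne'
  have hbface : ∀ z, ‖z‖ = 1 → 0 < hb z → (bk z).2 = 0 ∧ (bl z).2 = 0 ∧ (bk z).1 ≠ (bl z).1 := by
    intro z hz h0
    rw [hbk' z hz, hbl' z hz]
    have hz1 := (norm_eq_one_iff z).1 hz
    rcases hb_cases z hz with ⟨h, _⟩ | ⟨h, _⟩
    · obtain ⟨u, s⟩ := z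
      simp only at h hz1
      rw [cubeB_face S.toBdry S'.toBdry hG k u s hz1.1 h,
        cubeB_face S.toBdry S'.toBdry hG l u s hz1.1 h]
      exact ⟨rfl, rfl, hG.ne _ k l hkl⟩
    · exact absurd h h0.ne'
  have cD : Continuous (fun z => D (retr z)) :=
    hD.cont.comp_continuous continuous_retr (fun x => by simpa using norm_retr_le x)
  -- segment 1
  obtain ⟨A1, cA1, nA1, eA1⟩ : BallExt (fun z => D (retr z) + hb z • e) {0} := by
    refine ballExt_of_segment (cD.add (continuous_hb.smul continuous_const)) cD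
      (fun z hz => ?_) (fun z hz t ht => ?_)
    · exact hD.ne _ (norm_retr_le z)
    · rw [AffineMap.lineMap_apply_module', retr_eq hz.le, mem_singleton_iff]
      intro h
      have h' : D z + (t * hb z) • e = 0 := by
        rw [← h]; module
      rcases (hb_nonneg z).eq_or_lt with h0 | h0
      · rw [← h0] at h'
        simp only [mul_zero, zero_smul, add_zero] at h'
        exact hD.ne z hz.le h'
      · have h1 := congrArg Prod.fst h'
        simp only [Prod.fst_add, Prod.smul_fst, he, smul_zero, add_zero, Prod.fst_zero] at h1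
        exact hD.ne z hz.le (Prod.ext h1 (hDface z hz h0))
  have eA1 : ∀ z, ‖z‖ = 1 → A1 z = D (retr z) + hb z • e := eA1
  -- segment 2
  obtain ⟨A2, cA2, nA2, eA2⟩ : BallExt (fun z => (bk z - bl z) + hb z • e) {0} := by
    refine ballExt_of_segment ((hbk.sub hbl).add (continuous_hb.smul continuous_const)) cA1
      (fun z hz => nA1 z) (fun z hz t ht => ?_)
    rw [AffineMap.lineMap_apply_module', eA1 z hz, retr_eq hz.le, mem_singleton_iff]
    intro h
    rcases (hb_nonneg z).eq_or_lt with h0 | h0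
    · rw [← h0, hDval z hz h0.symm] at h
      simp only [zero_smul, add_zero, sub_self, smul_zero, zero_add] at h
      rw [← hDval z hz h0.symm] at h
      exact hD.ne z hz.le h
    · obtain ⟨h2, h3, h4⟩ := hbface z hz h0
      have h1 := congrArg Prod.snd h
      simp only [Prod.snd_add, Prod.smul_snd, Prod.snd_sub, he, h2, h3, hDface z hz h0,
        smul_eq_mul, Prod.snd_zero] at h1
      nlinarith
  have eA2 : ∀ z, ‖z‖ = 1 → A2 z = (bk z - bl z) + hb z • e := eA2
  -- segment 3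
  obtain ⟨A3, cA3, nA3, eA3⟩ : BallExt (fun z => bk z - bl z) {0} := by
    refine ballExt_of_segment (hbk.sub hbl) cA2
      (fun z hz => nA2 z) (fun z hz t ht => ?_)
    rw [AffineMap.lineMap_apply_module', eA2 z hz, mem_singleton_iff]
    intro h
    rcases (hb_nonneg z).eq_or_lt with h0 | h0
    · rw [← h0] at h
      simp only [zero_smul, add_zero, sub_self, smul_zero, zero_add] at h
      rw [hbk' z hz, hbl' z hz] at h
      exact cubeB_ne S S' hG hkl z hz (sub_eq_zero.1 h)
    · obtain ⟨h2, h3, h4⟩ := hbface z hz h0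
      have h' : (bk z - bl z) + ((1 - t) * hb z) • e = 0 := by
        rw [← h]; module
      have h1 := congrArg Prod.fst h'
      simp only [Prod.fst_add, Prod.smul_fst, Prod.fst_sub, he, smul_zero, add_zero,
        Prod.fst_zero] at h1
      exact h4 (sub_eq_zero.1 h1)
  have eA3 : ∀ z, ‖z‖ = 1 → A3 z = bk z - bl z := eA3
  exact ⟨A3, cA3, nA3, fun z hz => by rw [eA3 z hz, hbk' z hz, hbl' z hz]⟩

/-- index of the doubled configuration -/
noncomputable def dbl (p : Fin μ → B m) (x x' : Fin μ → B m → F m)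
    (G : Fin μ → (Fin m → ℝ) × ℝ → B m) (Nh : Fin μ → B m × ℝ → F m) (δ : ℝ)
    (i : Fin μ × Fin 2) (z : B m × ℝ) : F m :=
  cubeB p x x' G i.1 z + ((i.2 : ℕ) : ℝ) • (δ • Nh i.1 z)

/-- **CLASS1** -/
theorem class1 (hm : 2 ≤ m) (S : Sys p x ν) (S' : Sys p x' ν')
    (hD : ∀ k l, k ≠ l → ∃ D, DiffHom (p k - p l) (fun u => x k u - x l u)
      (fun u => x' k u - x' l u) D)
    (hN : ∀ k, ∃ D, NuHom (ν k) (ν' k) D) :
    ∃ X N : Fin μ → B m × ℝ → F m, Isot p x ν x' ν' X N := by
  obtain ⟨G, g1, g2, g3, g4, g5⟩ := step1 hm S S' hD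
  have hG : FaceG p x x' G := ⟨g1, g2, g3, g4, g5⟩
  choose Nh hNh using hN
  -- global continuous extensions
  choose b hb1 hb2 using fun k => exists_cont_ext (continuousOn_cubeB S S' hG k)
  have cN : ∀ k, Continuous (fun z => Nh k (retr z)) := fun k =>
    (hNh k).cont.comp_continuous continuous_retr (fun x => by simpa using norm_retr_le x)
  have hcomp : IsCompact (Metric.sphere (0 : B m × ℝ) 1) := isCompact_sphere _ _
  have hne : (Metric.sphere (0 : B m × ℝ) 1).Nonempty :=
    ⟨(0, 1), by simp⟩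
  -- constants
  have hc : ∀ q : Fin μ × Fin μ, ∃ c : ℝ, 0 < c ∧ (q.1 ≠ q.2 →
      ∀ z, ‖z‖ = 1 → c ≤ ‖b q.1 z - b q.2 z‖) := by
    rintro ⟨k, l⟩
    by_cases hkl : k = l
    · exact ⟨1, one_pos, fun h => absurd hkl h⟩
    · obtain ⟨z0, hz0, hmin⟩ := hcomp.exists_isMinOn hne
        (((hb1 k).sub (hb1 l)).norm.continuousOn)
      have hz0' : ‖z0‖ = 1 := by simpa using hz0
      refine ⟨‖b k z0 - b l z0‖, ?_, fun _ z hz => hmin (by simpa using hz)⟩
      rw [norm_pos_iff, sub_ne_zero, hb2 k z0 hz0', hb2 l z0 hz0']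
      exact cubeB_ne S S' hG hkl z0 hz0'
  choose c hc0 hc1 using hc
  have hC : ∀ k, ∃ C : ℝ, ∀ z, ‖z‖ = 1 → ‖Nh k z‖ ≤ C := by
    intro k
    obtain ⟨C, hC⟩ := (hcomp.image_of_continuousOn (cN k).continuousOn).isBounded.exists_norm_le
    refine ⟨C, fun z hz => ?_⟩
    have := hC _ (mem_image_of_mem _ (show z ∈ Metric.sphere (0 : B m × ℝ) 1 by simpa using hz))
    rwa [retr_eq hz.le] at this
  choose C hC using hC
  obtain ⟨δ, hδ0, hδ⟩ : ∃ δ : ℝ, 0 < δ ∧ ∀ k l, δ * (|C k| + |C l|) < c (k, l) := by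
    have h1 : ∀ q : Fin μ × Fin μ, ∀ᶠ δ in 𝓝[>] (0:ℝ), δ * (|C q.1| + |C q.2|) < c q := by
      intro q
      have h2 : Tendsto (fun δ : ℝ => δ * (|C q.1| + |C q.2|)) (𝓝[>] 0) (𝓝 (0 * (|C q.1| + |C q.2|))) :=
        (Continuous.tendsto (by fun_prop) 0).mono_left nhdsWithin_le_nhds
      rw [zero_mul] at h2
      exact h2.eventually_lt_const (hc0 q)
    have h3 := (eventually_all.2 h1).and (self_mem_nhdsWithin (a := (0:ℝ)) (s := Ioi 0))
    obtain ⟨δ, h4, h5⟩ := h3.exists
    exact ⟨δ, h5, fun k l => h4 (k, l)⟩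
  -- the doubled configuration
  have hcont : ∀ i, ContinuousOn (dbl p x x' G Nh δ i) (Metric.sphere 0 1) := by
    intro i
    refine (continuousOn_cubeB S S' hG i.1).add ?_
    exact (((hNh i.1).cont.mono Metric.sphere_subset_closedBall).const_smul δ).const_smul
      (((i.2 : ℕ) : ℝ))
  have hpair : ∀ i j : Fin μ × Fin 2, i ≠ j →
      BallExt (fun z => dbl p x x' G Nh δ i z - dbl p x x' G Nh δ j z) {0} := by
    rintro ⟨k, i⟩ ⟨l, j⟩ hij
    by_cases hkl : k = l
    · subst hkl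
      have hij' : i ≠ j := fun h => hij (by rw [h])
      set a : ℝ := ((i : ℕ) : ℝ) - ((j : ℕ) : ℝ) with ha
      have ha0 : a ≠ 0 := by
        rw [ha, sub_ne_zero]
        intro h
        exact hij' (Fin.ext (by exact_mod_cast h))
      refine ⟨fun z => a • (δ • Nh k (retr z)), ((cN k).const_smul δ).const_smul a, ?_, ?_⟩
      · intro z hz
        rw [mem_singleton_iff, smul_eq_zero, smul_eq_zero] at hz
        rcases hz with h | h | h
        · exact ha0 h
        · exact hδ0.ne' h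
        · exact (hNh k).ne _ (norm_retr_le z) h
      · intro z hz
        simp only [dbl, retr_eq hz.le, ha]
        module
    · obtain ⟨D, hD'⟩ := hD k l hkl
      obtain ⟨A, cA, nA, eA⟩ := pair_ext S S' hG hkl hD'
      have hh : BallExt (fun z => (b k z + ((i : ℕ) : ℝ) • (δ • Nh k (retr z))) -
          (b l z + ((j : ℕ) : ℝ) • (δ • Nh l (retr z)))) {0} := by
        refine ballExt_of_segment ?_ cA (fun z _ => nA z) (fun z hz t ht => ?_)
        · exact Continuous.sub
            (f := fun z => b k z + ((i : ℕ) : ℝ) • (δ • Nh k (retr z)))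
            (g := fun z => b l z + ((j : ℕ) : ℝ) • (δ • Nh l (retr z)))
            ((hb1 k).add (((cN k).const_smul δ).const_smul (((i : ℕ) : ℝ))))
            ((hb1 l).add (((cN l).const_smul δ).const_smul (((j : ℕ) : ℝ))))
        · rw [AffineMap.lineMap_apply_module', mem_singleton_iff]
          have e1 : A z = b k z - b l z := by
            rw [eA z hz, hb2 k z hz, hb2 l z hz]
          rw [e1, retr_eq hz.le]
          intro h
          have h1 : b k z - b l z = -(t • (δ • ((((i : ℕ) : ℝ)) • Nh k z - (((j : ℕ) : ℝ)) • Nh l z))) := by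
            rw [eq_neg_iff_add_eq_zero, ← h]; module
          have hi : |((i : ℕ) : ℝ)| ≤ 1 := by
            rw [abs_of_nonneg (Nat.cast_nonneg _)]
            exact_mod_cast Nat.lt_succ_iff.1 i.2
          have hj : |((j : ℕ) : ℝ)| ≤ 1 := by
            rw [abs_of_nonneg (Nat.cast_nonneg _)]
            exact_mod_cast Nat.lt_succ_iff.1 j.2
          have h2 : ‖b k z - b l z‖ ≤ δ * (|C k| + |C l|) := by
            rw [h1, norm_neg, norm_smul, norm_smul, Real.norm_of_nonneg ht.1,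
              Real.norm_of_nonneg hδ0.le]
            have h3 : ‖(((i : ℕ) : ℝ)) • Nh k z - (((j : ℕ) : ℝ)) • Nh l z‖ ≤ |C k| + |C l| := by
              refine (norm_sub_le _ _).trans (add_le_add ?_ ?_)
              · rw [norm_smul, Real.norm_eq_abs]
                calc |((i : ℕ) : ℝ)| * ‖Nh k z‖ ≤ 1 * |C k| :=
                      mul_le_mul hi ((hC k z hz).trans (le_abs_self _)) (norm_nonneg _) zero_le_one
                  _ = |C k| := one_mul _
              · rw [norm_smul, Real.norm_eq_abs]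
                calc |((j : ℕ) : ℝ)| * ‖Nh l z‖ ≤ 1 * |C l| :=
                      mul_le_mul hj ((hC l z hz).trans (le_abs_self _)) (norm_nonneg _) zero_le_one
                  _ = |C l| := one_mul _
            calc t * (δ * ‖(((i : ℕ) : ℝ)) • Nh k z - (((j : ℕ) : ℝ)) • Nh l z‖)
                ≤ 1 * (δ * (|C k| + |C l|)) := by
                  refine mul_le_mul ht.2 (mul_le_mul_of_nonneg_left h3 hδ0.le)
                    (mul_nonneg hδ0.le (norm_nonneg _)) zero_le_one
              _ = _ := one_mul _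
          have h4 := hc1 (k, l) hkl z hz
          have h5 := hδ k l
          exact absurd (h4.trans h2) (not_le.2 h5)
      refine hh.congr fun z hz => ?_
      simp only [dbl, retr_eq hz.le, hb2 k z hz, hb2 l z hz]
  obtain ⟨W, w1, w2, w3⟩ := conf_ext (V := B m × ℝ) (E := F m) (by simp; omega)
    (fun i : Fin (μ * 2) => dbl p x x' G Nh δ (finProdFinEquiv.symm i)) (fun i => hcont _) (by
      intro i j hij
      obtain ⟨A, cA, nA, eA⟩ := hpair (finProdFinEquiv.symm i) (finProdFinEquiv.symm j)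
        (fun h => hij (finProdFinEquiv.symm.injective h))
      exact ⟨A, cA.continuousOn, fun z _ => nA z, fun z hz => eA z (by simpa using hz)⟩)
  -- clamp
  let cl : B m × ℝ → B m × ℝ := fun z => (retr z.1, max (-1) (min 1 z.2))
  have ccl : Continuous cl := by
    refine (continuous_retr.comp continuous_fst).prodMk ?_
    fun_prop
  have hcl : ∀ (u : B m) (s : ℝ), ‖u‖ ≤ 1 → |s| ≤ 1 → cl (u, s) = (u, s) := by
    intro u s hu hs
    have := abs_le.1 hs
    simp only [cl, retr_eq hu, min_eq_right this.2, max_eq_right this.1]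
  let X : Fin μ → B m × ℝ → F m := fun k z => W (finProdFinEquiv (k, 0)) (cl z)
  let Y : Fin μ → B m × ℝ → F m := fun k z => W (finProdFinEquiv (k, 1)) (cl z)
  have hne2 : ∀ k z, Y k z - X k z ≠ 0 := by
    intro k z h
    refine w2 (cl z) _ _ ?_ (sub_eq_zero.1 h)
    intro h
    have := finProdFinEquiv.injective h
    simp at this
  have eX : ∀ k u s, ‖(u, s)‖ = 1 → X k (u, s) = cubeB p x x' G k (u, s) := by
    intro k u s hz
    have hz' := (norm_eq_one_iff (u, s)).1 hz
    simp only [X]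
    rw [hcl u s hz'.1 hz'.2.1, w3 _ _ (by simpa using hz)]
    simp [dbl]
  have eY : ∀ k u s, ‖(u, s)‖ = 1 → Y k (u, s) = cubeB p x x' G k (u, s) + δ • Nh k (u, s) := by
    intro k u s hz
    have hz' := (norm_eq_one_iff (u, s)).1 hz
    simp only [Y]
    rw [hcl u s hz'.1 hz'.2.1, w3 _ _ (by simpa using hz)]
    simp [dbl]
  have eN : ∀ k u s, ‖(u, s)‖ = 1 → δ⁻¹ • (Y k (u, s) - X k (u, s)) = Nh k (u, s) := by
    intro k u s hz
    rw [eX k u s hz, eY k u s hz, add_sub_cancel_left, inv_smul_smul₀ hδ0.ne']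
  refine ⟨X, fun k z => δ⁻¹ • (Y k z - X k z), ?_⟩
  constructor
  · exact fun k => (w1 _).comp ccl
  · exact fun k => Continuous.const_smul (g := fun z => Y k z - X k z)
      (((w1 _).comp ccl).sub ((w1 _).comp ccl)) δ⁻¹
  · intro z k l hkl
    refine w2 (cl z) _ _ ?_
    intro h
    have := finProdFinEquiv.injective h
    simp at this
    exact hkl this
  · intro z k h
    rw [smul_eq_zero] at h
    rcases h with h | h
    · exact (inv_ne_zero hδ0.ne') h
    · exact hne2 k z h
  · intro s hs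
    have hz : ∀ u : B m, ‖u‖ = 1 → ‖(u, s)‖ = 1 := fun u hu =>
      (norm_eq_one_iff (u, s)).2 ⟨hu.le, hs, Or.inl hu⟩
    constructor
    · intro k u hu ho
      show X k (u, s) = _
      rw [eX k u s (hz u hu), cubeB_off S.toBdry S'.toBdry hG k u s hu hs ho]
    · intro k u hu
      show (X k (u, s)).2 = 0
      rw [eX k u s (hz u hu)]
      rcases bdry_cases hu with h | h
      · rw [cubeB_face S.toBdry S'.toBdry hG k u s hu.le h]
      · rw [cubeB_off S.toBdry S'.toBdry hG k u s hu hs h]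
    · intro k u hu
      show δ⁻¹ • (Y k (u, s) - X k (u, s)) = _
      rw [eN k u s (hz u hu), (hNh k).off u s hu hs]
  · intro k u hu
    rw [eX k u (-1) ((norm_eq_one_iff (u, (-1:ℝ))).2 ⟨hu, by simp, by simp⟩), cubeB_bot]
  · intro k u hu
    rw [eX k u 1 ((norm_eq_one_iff (u, (1:ℝ))).2 ⟨hu, by simp, by simp⟩), cubeB_top]
  · intro k u hu
    show δ⁻¹ • (Y k (u, -1) - X k (u, -1)) = _
    rw [eN k u (-1) ((norm_eq_one_iff (u, (-1:ℝ))).2 ⟨hu, by simp, by simp⟩), (hNh k).start u hu]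
  · intro k u hu
    show δ⁻¹ • (Y k (u, 1) - X k (u, 1)) = _
    rw [eN k u 1 ((norm_eq_one_iff (u, (1:ℝ))).2 ⟨hu, by simp, by simp⟩), (hNh k).fin u hu]

end

end Crest.Agent.R267.Class1_184
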