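import Crest.Agent.R267.DraftB_808

/-!
# TB-B6: `ClassProp n` from NORM, FB, TYP, TYPN and CLASS1 (helper484)
-/

set_option autoImplicit false
set_option linter.unusedSectionVars false

noncomputable section

namespace Crest.Agent.R267.ClassAsm_484

open Set Metric
open scoped RealInnerProductSpace
open Crest.Agent.R267.GS_808 Crest.Agent.R267.DraftB_808

variable {B V : Type*} [NormedAddCommGroup B] [NormedSpace ℝ B]
  [NormedAddCommGroup V] [InnerProductSpace ℝ V] {e : V} {m : ℕ}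

theorem isot_symm {G G' : Sys B e m} (h : Isot G G') : Isot G' G := by
  obtain ⟨X, N, h1, h2, h3, h4, h5, h6, h7⟩ := h
  have hr : MapsTo (fun p : ℝ × B => (1 - p.1, p.2)) (Icc (0 : ℝ) 1 ×ˢ closedBall 0 1)
      (Icc (0 : ℝ) 1 ×ˢ closedBall 0 1) := fun p hp =>
    ⟨⟨by linarith [hp.1.2], by linarith [hp.1.1]⟩, hp.2⟩
  have hc : Continuous fun p : ℝ × B => (1 - p.1, p.2) := by fun_prop
  have ht : ∀ t ∈ Icc (0 : ℝ) 1, 1 - t ∈ Icc (0 : ℝ) 1 := fun t ht =>
    ⟨by linarith [ht.2], by linarith [ht.1]⟩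
  refine ⟨fun k p => X k (1 - p.1, p.2), fun k p => N k (1 - p.1, p.2),
    fun k => (h1 k).comp hc.continuousOn hr, fun k => (h2 k).comp hc.continuousOn hr,
    fun k t h u hu => h3 k _ (ht t h) u hu, fun k l hkl t h u hu => h4 k l hkl _ (ht t h) u hu,
    fun k t h u hu => h5 k _ (ht t h) u hu, fun k u hu => ?_, fun k u hu => ?_⟩
  · simpa using h7 k u hu
  · simpa using h6 k u hu

/-- gluing in time. -/
def glue {Y : Type*} (F F' : ℝ × B → Y) (p : ℝ × B) : Y :=
  if p.1 ≤ 1 / 2 then F (2 * p.1, p.2) else F' (2 * p.1 - 1, p.2)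

theorem glue_left {Y : Type*} {F F' : ℝ × B → Y} {t : ℝ} (h : t ≤ 1 / 2) (u : B) :
    glue F F' (t, u) = F (2 * t, u) := by
  unfold glue; rw [if_pos h]

theorem glue_right {Y : Type*} {F F' : ℝ × B → Y} {t : ℝ} (h : ¬ t ≤ 1 / 2) (u : B) :
    glue F F' (t, u) = F' (2 * t - 1, u) := by
  unfold glue; rw [if_neg h]

theorem continuousOn_glue {Y : Type*} [TopologicalSpace Y] {F F' : ℝ × B → Y}
    (hF : ContinuousOn F (Icc 0 1 ×ˢ closedBall 0 1))
    (hF' : ContinuousOn F' (Icc 0 1 ×ˢ closedBall 0 1))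
    (h : ∀ u, ‖u‖ ≤ 1 → F (1, u) = F' (0, u)) :
    ContinuousOn (glue F F') (Icc 0 1 ×ˢ closedBall 0 1) := by
  have hs : (Icc (0 : ℝ) 1 ×ˢ closedBall (0 : B) 1) =
      (Icc (0 : ℝ) (1 / 2) ×ˢ closedBall 0 1) ∪ (Icc (1 / 2 : ℝ) 1 ×ˢ closedBall 0 1) := by
    rw [← union_prod, Icc_union_Icc_eq_Icc (by norm_num) (by norm_num)]
  rw [hs]
  refine ContinuousOn.union_of_isClosed ?_ ?_ (isClosed_Icc.prod isClosed_closedBall)
    (isClosed_Icc.prod isClosed_closedBall)
  · have h1 : ContinuousOn (fun p : ℝ × B => F (2 * p.1, p.2))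
        (Icc (0 : ℝ) (1 / 2) ×ˢ closedBall 0 1) :=
      hF.comp (by fun_prop) fun p hp => ⟨⟨by linarith [hp.1.1], by linarith [hp.1.2]⟩, hp.2⟩
    refine h1.congr fun p hp => ?_
    unfold glue
    rw [if_pos hp.1.2]
  · have h1 : ContinuousOn (fun p : ℝ × B => F' (2 * p.1 - 1, p.2))
        (Icc (1 / 2 : ℝ) 1 ×ˢ closedBall 0 1) :=
      hF'.comp (by fun_prop) fun p hp => ⟨⟨by linarith [hp.1.1], by linarith [hp.1.2]⟩, hp.2⟩
    refine h1.congr fun p hp => ?_
    unfold glue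
    split_ifs with h2
    · have h3 : p.1 = 1 / 2 := le_antisymm h2 hp.1.1
      have h4 : ‖p.2‖ ≤ 1 := by simpa using hp.2
      have h5 : 2 * p.1 = 1 := by rw [h3]; norm_num
      have h6 : 2 * p.1 - 1 = 0 := by rw [h3]; norm_num
      change F (2 * p.1, p.2) = F' (2 * p.1 - 1, p.2)
      rw [h6, h5]
      exact h _ h4
    · rfl

theorem isot_trans {G G' G'' : Sys B e m} (h : Isot G G') (h' : Isot G' G'') : Isot G G'' := by
  obtain ⟨X, N, h1, h2, h3, h4, h5, h6, h7⟩ := h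
  obtain ⟨X', N', h1', h2', h3', h4', h5', h6', h7'⟩ := h'
  have hL : ∀ t ∈ Icc (0 : ℝ) 1, t ≤ 1 / 2 → 2 * t ∈ Icc (0 : ℝ) 1 := fun t ht h =>
    ⟨by linarith [ht.1], by linarith⟩
  have hR : ∀ t ∈ Icc (0 : ℝ) 1, ¬ t ≤ 1 / 2 → 2 * t - 1 ∈ Icc (0 : ℝ) 1 := fun t ht h =>
    ⟨by linarith [not_le.1 h], by linarith [ht.2]⟩
  refine ⟨fun k => glue (X k) (X' k), fun k => glue (N k) (N' k),
    fun k => continuousOn_glue (h1 k) (h1' k) fun u hu => by rw [(h7 k u hu).1, (h6' k u hu).1],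
    fun k => continuousOn_glue (h2 k) (h2' k) fun u hu => by rw [(h7 k u hu).2, (h6' k u hu).2],
    fun k t ht u hu => ?_, fun k l hkl t ht u hu => ?_, fun k t ht u hu => ?_,
    fun k u hu => ?_, fun k u hu => ?_⟩
  · beta_reduce
    by_cases hc : t ≤ 1 / 2
    · rw [glue_left hc]; exact h3 k _ (hL t ht hc) u hu
    · rw [glue_right hc]; exact h3' k _ (hR t ht hc) u hu
  · beta_reduce
    by_cases hc : t ≤ 1 / 2
    · rw [glue_left hc, glue_left hc]; exact h4 k l hkl _ (hL t ht hc) u hu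
    · rw [glue_right hc, glue_right hc]; exact h4' k l hkl _ (hR t ht hc) u hu
  · beta_reduce
    by_cases hc : t ≤ 1 / 2
    · rw [glue_left hc, glue_left hc]; exact h5 k _ (hL t ht hc) u hu
    · rw [glue_right hc, glue_right hc]; exact h5' k _ (hR t ht hc) u hu
  · beta_reduce
    rw [glue_left (by norm_num), glue_left (by norm_num), mul_zero]
    exact h6 k u hu
  · beta_reduce
    rw [glue_right (by norm_num), glue_right (by norm_num)]
    have : (2 : ℝ) * 1 - 1 = 1 := by norm_num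
    rw [this]
    exact h7' k u hu

/-- isotopic systems have freely homotopic differences. -/
theorem fh_of_isot {G G' : Sys B e m} (h : Isot G G') {k l : Fin m} (hkl : k ≠ l) :
    FH e (fun u => G.x k u - G.x l u) (fun u => G'.x k u - G'.x l u) := by
  obtain ⟨X, N, h1, h2, h3, h4, h5, h6, h7⟩ := h
  refine ⟨fun p => X k p - X l p, (h1 k).sub (h1 l), fun t ht u hu => ?_, fun t ht u hu => ?_,
    fun u hu => ?_, fun u hu => ?_⟩
  · exact sub_ne_zero.2 (h4 k l hkl t ht u hu)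
  · rw [inner_sub_right, (h5 k t ht u hu).1, (h5 l t ht u hu).1, sub_zero]
  · simp only [(h6 k u hu).1, (h6 l u hu).1]
  · simp only [(h7 k u hu).1, (h7 l u hu).1]

/-- isotopic systems have homotopic normals. -/
theorem fn_of_isot {G G' : Sys B e m} (h : Isot G G') (k : Fin m) :
    FN e (G.nu k) (G'.nu k) := by
  obtain ⟨X, N, h1, h2, h3, h4, h5, h6, h7⟩ := h
  refine ⟨N k, h2 k, fun t ht u hu => ?_, fun t ht u hu => (h5 k t ht u hu).2,
    fun u hu => (h6 k u hu).2, fun u hu => (h7 k u hu).2⟩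
  intro h0
  have := h3 k t ht u hu
  rw [h0, norm_zero] at this
  norm_num at this

/-- differences of a system are admissible. -/
theorem adm_sub {n m : ℕ} (G : S n m) {k l : Fin m} (hkl : k ≠ l) :
    Adm (n + 2) (fun u => G.x k u - G.x l u) where
  cont := (G.cx k).sub (G.cx l)
  ne u := by
    intro h0
    have h1 := G.sep k l u hkl
    rw [h0, norm_zero] at h1
    linarith [G.hr]
  hor u hu := by rw [inner_sub_right, G.wall_x k u hu, G.wall_x l u hu, sub_zero]

/-- **B6.** -/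
theorem class_of (n : ℕ) (hNorm : NormProp n) (hFB : FBProp n) (hTyp : TypProp n)
    (hTypN : TypNProp n) (hC : Class1Prop n) : ClassProp n := by
  intro m G G' A hG hG'
  set p : Fin m → Vc (n + 2) := fun k => ((k : ℕ) : ℝ) • (EuclideanSpace.single 0 1 : Vc (n + 2))
    with hp
  have hinj : Function.Injective p := by
    intro a b hab
    have h1 := congrFun (congrArg (fun v : Vc (n + 2) => v.ofLp) hab) 0
    simp only [hp, PiLp.smul_apply, PiLp.single_apply, if_true, smul_eq_mul,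
      mul_one] at h1
    exact Fin.ext (by exact_mod_cast h1)
  have hpe : ∀ k, ⟪ec (n + 2), p k⟫ = 0 := by
    intro k
    rw [hp]
    simp only [inner_smul_right]
    have : ⟪ec (n + 2), (EuclideanSpace.single 0 1 : Vc (n + 2))⟫ = 0 := by
      unfold ec
      rw [EuclideanSpace.inner_single_left, PiLp.single_apply, if_neg]
      · simp
      · intro h
        have := congrArg Fin.val h
        simp at this
    rw [this, mul_zero]
  obtain ⟨G1, hI, hx, hnu⟩ := hNorm m G p hinj hpe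
  obtain ⟨G2, hI', hx', hnu'⟩ := hNorm m G' p hinj hpe
  refine isot_trans hI (isot_trans ?_ (isot_symm hI'))
  refine hC m G1 G2 p hx hx' (fun k l hlk => ?_) (fun k => ?_)
  · have h1 := (hG.1 k l hlk).congr (fh_of_isot hI hlk.ne')
    have h2 := (hG'.1 k l hlk).congr (fh_of_isot hI' hlk.ne')
    exact hFB _ _ _ (adm_sub G1 hlk.ne') (adm_sub G2 hlk.ne')
      (fun u hu => by rw [hx k u hu, hx l u hu]) (fun u hu => by rw [hx' k u hu, hx' l u hu])
      (hTyp _ _ _ _ h1 h2)
  · exact hTypN _ _ _ ((hG.2 k).congr (fn_of_isot hI k)) ((hG'.2 k).congr (fn_of_isot hI' k))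

end Crest.Agent.R267.ClassAsm_484
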