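import Mathlib

/-!
# The complement of the origin is simply connected in dimension `≥ 3` (row 267, leaf B4)
-/

set_option autoImplicit false

namespace Crest.Agent.R267.FBa_118

open Set Metric Topology

variable {E : Type*} [NormedAddCommGroup E] [NormedSpace ℝ E]

/-- the clamp to `[0,1]` -/
noncomputable def k (t : ℝ) : ℝ := max 0 (min 1 t)

theorem continuous_k : Continuous k := by unfold k; fun_prop
theorem k_mem (t : ℝ) : 0 ≤ k t ∧ k t ≤ 1 :=
  ⟨le_max_left _ _, max_le zero_le_one (min_le_left _ _)⟩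
theorem k_of_mem {t : ℝ} (h0 : 0 ≤ t) (h1 : t ≤ 1) : k t = t := by
  unfold k
  rw [min_eq_right h1, max_eq_right h0]
theorem k_of_nonpos {t : ℝ} (h : t ≤ 0) : k t = 0 := by
  unfold k
  rw [min_eq_right (by linarith), max_eq_left h]
theorem k_of_one_le {t : ℝ} (h : 1 ≤ t) : k t = 1 := by
  unfold k
  rw [min_eq_left h, max_eq_right zero_le_one]

/-- homotopy of loops at `y` in `E \ 0` -/
def NH (y : E) (a b : ℝ → E) : Prop :=
  ∃ A : ℝ × ℝ → E, Continuous A ∧ (∀ p, A p ≠ 0) ∧ (∀ t, A (t, 0) = a t) ∧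
    (∀ t, A (t, 1) = b t) ∧ (∀ s, A (0, s) = y) ∧ ∀ s, A (1, s) = y

theorem NH.trans {y : E} {a b c : ℝ → E} (h : NH y a b) (h' : NH y b c) : NH y a c := by
  obtain ⟨A, cA, nA, A0, A1, Al, Ar⟩ := h
  obtain ⟨B, cB, nB, B0, B1, Bl, Br⟩ := h'
  refine ⟨fun p => if p.2 ≤ 1 / 2 then A (p.1, 2 * p.2) else B (p.1, 2 * p.2 - 1), ?_, ?_, ?_,
    ?_, ?_, ?_⟩
  · refine Continuous.if_le (cA.comp (by fun_prop)) (cB.comp (by fun_prop)) continuous_snd
      continuous_const fun p hp => ?_
    have : 2 * p.2 = 1 := by linarith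
    rw [this, A1, sub_self, B0]
  · intro p
    simp only
    split_ifs
    · exact nA _
    · exact nB _
  · intro t
    simp only
    rw [if_pos (by norm_num), mul_zero, A0]
  · intro t
    simp only
    rw [if_neg (by norm_num)]
    norm_num
    exact B1 t
  · intro s
    simp only
    split_ifs
    · exact Al _
    · exact Bl _
  · intro s
    simp only
    split_ifs
    · exact Ar _
    · exact Br _

/-- **simply connected** -/
theorem sc [FiniteDimensional ℝ E] (h3 : 3 ≤ Module.finrank ℝ E) {y : E} (α : ℝ → E)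
    (hα : Continuous α) (hne : ∀ t, α t ≠ 0) (hk : ∀ t, α t = α (k t)) (h0 : α 0 = y)
    (h1 : α 1 = y) : NH y α fun _ => y := by
  have hy : y ≠ 0 := h0 ▸ hne 0
  -- stage 1: constant near the end points
  set α1 : ℝ → E := fun t => α (k (2 * t - 1 / 2)) with hα1
  have s1 : NH y α α1 := by
    refine ⟨fun p => α ((1 - k p.2) * k p.1 + k p.2 * k (2 * p.1 - 1 / 2)), ?_, fun p => hne _,
      ?_, ?_, ?_, ?_⟩
    · have := continuous_k
      exact hα.comp (by fun_prop)
    · intro t
      simp only [k_of_nonpos le_rfl, sub_zero, one_mul, zero_mul, add_zero]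
      exact (hk t).symm
    · intro t
      simp only [k_of_one_le le_rfl, sub_self, one_mul, zero_mul, zero_add, hα1]
    · intro s
      simp only
      have e1 : k (0 : ℝ) = 0 := k_of_nonpos le_rfl
      have e2 : k (2 * 0 - 1 / 2 : ℝ) = 0 := k_of_nonpos (by norm_num)
      rw [e1, e2, mul_zero, mul_zero, add_zero, h0]
    · intro s
      simp only
      have e1 : k (1 : ℝ) = 1 := k_of_one_le le_rfl
      have e2 : k (2 * 1 - 1 / 2 : ℝ) = 1 := k_of_one_le (by norm_num)
      rw [e1, e2, mul_one, mul_one, sub_add_cancel, h1]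
  have c1 : Continuous α1 := hα.comp (by have := continuous_k; fun_prop)
  have n1 : ∀ t, α1 t ≠ 0 := fun t => hne _
  have l1 : ∀ t, t ≤ 1 / 4 → α1 t = y := fun t ht => by
    simp only [hα1]
    rw [k_of_nonpos (by linarith), h0]
  have r1 : ∀ t, 3 / 4 ≤ t → α1 t = y := fun t ht => by
    simp only [hα1]
    rw [k_of_one_le (by linarith), h1]
  -- stage 2: smooth
  obtain ⟨g, cg, ag, eg, -⟩ := c1.exists_contDiff_approx_and_eqOn 1 (ε := fun t => ‖α1 t‖)
    c1.norm (fun t => norm_pos_iff.2 (n1 t)) (S := Iic (1 / 8) ∪ Ici (7 / 8))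
    (U := Iio (1 / 4) ∪ Ioi (3 / 4)) (isClosed_Iic.union isClosed_Ici)
    ((isOpen_Iio.union isOpen_Ioi).mem_nhdsSet.2 (by
      rintro t (ht | ht)
      · exact Or.inl (lt_of_le_of_lt (mem_Iic.1 ht) (by norm_num))
      · exact Or.inr (lt_of_lt_of_le (by norm_num) (mem_Ici.1 ht))))
    (contDiffOn_const (c := y) |>.congr (by
      rintro t (ht | ht)
      · exact l1 t (le_of_lt ht)
      · exact r1 t (le_of_lt ht)))
  have gy : ∀ t, t ≤ 1 / 8 ∨ 7 / 8 ≤ t → g t = y := by
    rintro t (ht | ht)
    · rw [eg (Or.inl ht), l1 t (by linarith)]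
    · rw [eg (Or.inr ht), r1 t (by linarith)]
  have ng : ∀ t s : ℝ, 0 ≤ s → s ≤ 1 → (1 - s) • α1 t + s • g t ≠ 0 := by
    intro t s hs hs' he
    have h2 := ag t
    rw [dist_eq_norm] at h2
    have h4 : α1 t = -(s • (g t - α1 t)) := by
      have : (1 - s) • α1 t + s • g t = α1 t + s • (g t - α1 t) := by
        rw [sub_smul, one_smul, smul_sub]; abel
      rw [this] at he
      exact eq_neg_of_add_eq_zero_left he
    have h5 : ‖α1 t‖ ≤ 1 * ‖g t - α1 t‖ := by
      rw [h4, norm_neg, norm_smul, Real.norm_of_nonneg hs]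
      rw [← h4]
      gcongr
    linarith
  have s2 : NH y α1 g := by
    refine ⟨fun p => (1 - k p.2) • α1 p.1 + k p.2 • g p.1, ?_, ?_, ?_, ?_, ?_, ?_⟩
    · have := continuous_k
      have hg := cg.continuous
      exact ((continuous_const.sub (by fun_prop)).smul (c1.comp continuous_fst)).add
        (Continuous.smul (by fun_prop) (hg.comp continuous_fst))
    · exact fun p => ng _ _ (k_mem _).1 (k_mem _).2
    · intro t; simp [k_of_nonpos le_rfl]
    · intro t; simp [k_of_one_le le_rfl]
    · intro s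
      simp only
      rw [l1 0 (by norm_num), gy 0 (by norm_num), ← add_smul, sub_add_cancel, one_smul]
    · intro s
      simp only
      rw [r1 1 (by norm_num), gy 1 (by norm_num), ← add_smul, sub_add_cancel, one_smul]
  have ng' : ∀ t, g t ≠ 0 := fun t => by simpa using ng t 1 zero_le_one le_rfl
  -- the direction
  obtain ⟨p, hp⟩ : ∃ p : E, ∀ t l : ℝ, (-l) • g t ≠ p := by
    have hF : ContDiff ℝ 1 fun q : ℝ × ℝ => (-q.2) • g q.1 :=
      (contDiff_snd.neg).smul (cg.comp contDiff_fst)
    have hd := hF.dense_compl_range_of_finrank_lt_finrank (by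
      rw [Module.finrank_prod, Module.finrank_self]; omega)
    obtain ⟨p, hp⟩ := hd.nonempty
    exact ⟨p, fun t l h => hp ⟨(t, l), h⟩⟩
  have np : ∀ t a : ℝ, 0 ≤ a → a ≤ 1 → (1 - a) • g t + a • p ≠ 0 := by
    intro t a ha ha' he
    rcases ha.eq_or_lt with rfl | h
    · simp only [sub_zero, one_smul, zero_smul, add_zero] at he
      exact ng' t he
    · refine hp t ((1 - a) / a) ?_
      have h6 : a • p = -((1 - a) • g t) := eq_neg_of_add_eq_zero_right he
      have h7 : p = a⁻¹ • (a • p) := by rw [smul_smul, inv_mul_cancel₀ h.ne', one_smul]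
      rw [h7, h6, smul_neg, smul_smul, neg_smul]
      congr 2
      field_simp
  -- the cone
  set φ : ℝ → ℝ := fun t => k (min (8 * t) (8 * (1 - t))) with hφ
  have cφ : Continuous φ := by have := continuous_k; fun_prop
  have φm : ∀ t, 0 ≤ φ t ∧ φ t ≤ 1 := fun t => k_mem _
  have φ0 : φ 0 = 0 := by
    simp only [hφ]
    exact k_of_nonpos ((min_le_left _ _).trans (by norm_num))
  have φ1 : φ 1 = 0 := by
    simp only [hφ]
    exact k_of_nonpos ((min_le_right _ _).trans (by norm_num))
  have φg : ∀ t, (1 - φ t) • g t = (1 - φ t) • y := by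
    intro t
    by_cases ht : t ≤ 1 / 8 ∨ 7 / 8 ≤ t
    · rw [gy t ht]
    · push Not at ht
      have : φ t = 1 := by
        simp only [hφ]
        exact k_of_one_le (le_min (by linarith) (by linarith))
      rw [this, sub_self, zero_smul, zero_smul]
  have s3 : NH y g fun t => (1 - φ t) • g t + φ t • p := by
    refine ⟨fun q => (1 - k q.2 * φ q.1) • g q.1 + (k q.2 * φ q.1) • p, ?_, ?_, ?_, ?_, ?_, ?_⟩
    · have := continuous_k
      have hg := cg.continuous
      have h8 : Continuous fun q : ℝ × ℝ => k q.2 * φ q.1 :=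
        (by fun_prop : Continuous fun q : ℝ × ℝ => k q.2).mul (cφ.comp continuous_fst)
      exact ((continuous_const.sub h8).smul (hg.comp continuous_fst)).add
        (h8.smul continuous_const)
    · intro q
      refine np _ _ (mul_nonneg (k_mem _).1 (φm _).1) ?_
      exact mul_le_one₀ (k_mem _).2 (φm _).1 (φm _).2
    · intro t; simp [k_of_nonpos le_rfl]
    · intro t; simp [k_of_one_le le_rfl]
    · intro s
      simp only
      rw [φ0, mul_zero, sub_zero, one_smul, zero_smul, add_zero, gy 0 (by norm_num)]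
    · intro s
      simp only
      rw [φ1, mul_zero, sub_zero, one_smul, zero_smul, add_zero, gy 1 (by norm_num)]
  have s4 : NH y (fun t => (1 - φ t) • g t + φ t • p) fun _ => y := by
    refine ⟨fun q => (1 - k (1 - q.2) * φ q.1) • y + (k (1 - q.2) * φ q.1) • p, ?_, ?_, ?_, ?_,
      ?_, ?_⟩
    · have := continuous_k
      have h8 : Continuous fun q : ℝ × ℝ => k (1 - q.2) * φ q.1 :=
        (by fun_prop : Continuous fun q : ℝ × ℝ => k (1 - q.2)).mul (cφ.comp continuous_fst)
      exact ((continuous_const.sub h8).smul continuous_const).add (h8.smul continuous_const)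
    · intro q
      have := np 0 (k (1 - q.2) * φ q.1) (mul_nonneg (k_mem _).1 (φm _).1)
        (mul_le_one₀ (k_mem _).2 (φm _).1 (φm _).2)
      rwa [gy 0 (by norm_num)] at this
    · intro t
      simp only [sub_zero, k_of_one_le le_rfl, one_mul]
      rw [φg]
    · intro t; simp [k_of_nonpos le_rfl]
    · intro s
      simp only
      rw [φ0, mul_zero, sub_zero, one_smul, zero_smul, add_zero]
    · intro s
      simp only
      rw [φ1, mul_zero, sub_zero, one_smul, zero_smul, add_zero]
  exact ((s1.trans s2).trans s3).trans s4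

end Crest.Agent.R267.FBa_118
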