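import Crest.Agent.R267.DraftB_808

/-!
# NORM (row 267, leaf B3 of DRAFT B)

Every graph system over the cube is isotopic to one in rest form with prescribed distinct
horizontal rest points.

* `cn t` : a norm preserving contraction of the cube; `cn 1` maps the rest part of the boundary to
  the point `e₀`.
* `shear`: two shears of the fibre move any injective horizontal configuration to any other one.
-/

set_option autoImplicit false

namespace Crest.Agent.R267.Norm_855

open Set Metric Filter Topology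
open scoped RealInnerProductSpace
open Crest.Agent.R267.GS_808 Crest.Agent.R267.DraftB_808

noncomputable section

/-! ### the contraction of the cube -/

section cube

variable {n : ℕ}

/-- the first basis vector -/
def e0 : Bc (n + 1) := Pi.single 0 1

lemma e0_zero : (e0 : Bc (n + 1)) 0 = 1 := by simp [e0]

lemma e0_ne {i : Fin (n + 1)} (hi : i ≠ 0) : (e0 : Bc (n + 1)) i = 0 := by simp [e0, hi]

lemma norm_e0 : ‖(e0 : Bc (n + 1))‖ = 1 := by
  refine le_antisymm ((pi_norm_le_iff_of_nonneg zero_le_one).2 fun i => ?_) ?_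
  · by_cases hi : i = 0
    · rw [hi, e0_zero]; simp
    · rw [e0_ne hi]; simp
  · have := norm_le_pi_norm (e0 : Bc (n + 1)) 0
    rw [e0_zero] at this
    simpa using this

/-- the distance from the axis of the wall, `max (‖tail‖) u₀`. -/
def rho (u : Bc (n + 1)) : ℝ := max ‖fun i : Fin n => u i.succ‖ (u 0)

lemma continuous_rho : Continuous (rho (n := n)) := by
  unfold rho; fun_prop

lemma tail_le (u : Bc (n + 1)) : ‖fun i : Fin n => u i.succ‖ ≤ ‖u‖ :=
  (pi_norm_le_iff_of_nonneg (norm_nonneg _)).2 fun i => norm_le_pi_norm u i.succ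

lemma rho_le (u : Bc (n + 1)) : rho u ≤ ‖u‖ :=
  max_le (tail_le u) ((le_abs_self _).trans (norm_le_pi_norm u 0))

lemma rho_nonneg (u : Bc (n + 1)) : 0 ≤ rho u := (norm_nonneg _).trans (le_max_left _ _)

/-- unnormalised contraction -/
def cw (t : ℝ) (u : Bc (n + 1)) : Bc (n + 1) := (‖u‖ - t * rho u) • u + (t * rho u * ‖u‖) • e0

lemma continuous_cw : Continuous fun p : ℝ × Bc (n + 1) => cw p.1 p.2 := by
  unfold cw
  have := continuous_rho (n := n)
  fun_prop

lemma cw_ne {t : ℝ} (ht : t ∈ Icc (0 : ℝ) 1) {u : Bc (n + 1)} (hu : u ≠ 0) : cw t u ≠ 0 := by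
  intro h
  have hr : 0 < ‖u‖ := norm_pos_iff.2 hu
  have h0 := congrFun h 0
  simp only [cw, Pi.add_apply, Pi.smul_apply, smul_eq_mul, e0_zero, mul_one, Pi.zero_apply] at h0
  have hi : ∀ i, i ≠ 0 → (‖u‖ - t * rho u) * u i = 0 := by
    intro i hi
    have := congrFun h i
    simpa only [cw, Pi.add_apply, Pi.smul_apply, smul_eq_mul, e0_ne hi, mul_zero, add_zero,
      Pi.zero_apply] using this
  have h1 := rho_nonneg u
  by_cases hz : ‖u‖ - t * rho u = 0
  · rw [hz, zero_mul, zero_add] at h0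
    rcases mul_eq_zero.1 h0 with h2 | h2
    · rw [h2, sub_zero] at hz; exact hr.ne' hz
    · exact hr.ne' h2
  · have h2 : ∀ i, i ≠ 0 → u i = 0 := fun i h => (mul_eq_zero.1 (hi i h)).resolve_left hz
    have h3 : (fun i : Fin n => u i.succ) = 0 := by
      funext i; exact h2 _ (Fin.succ_ne_zero i)
    have h4 : ‖u‖ = |u 0| := by
      refine le_antisymm ((pi_norm_le_iff_of_nonneg (abs_nonneg _)).2 fun i => ?_)
        (norm_le_pi_norm u 0)
      by_cases hi : i = 0
      · rw [hi]; rfl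
      · rw [h2 i hi]; simp
    have h5 : rho u = max 0 (u 0) := by rw [rho, h3, norm_zero]
    rcases le_or_gt (u 0) 0 with h6 | h6
    · rw [h5, max_eq_left h6, mul_zero, sub_zero, zero_mul, add_zero] at h0
      rcases mul_eq_zero.1 h0 with h7 | h7
      · exact hr.ne' h7
      · rw [h7, abs_zero] at h4; exact hr.ne' h4
    · have h7 : ‖u‖ = u 0 := by rw [h4, abs_of_pos h6]
      have h8 : 0 ≤ ‖u‖ - t * rho u := by
        have : t * rho u ≤ 1 * ‖u‖ := mul_le_mul ht.2 (rho_le u) h1 zero_le_one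
        linarith
      have h9 : 0 < ‖u‖ - t * rho u := lt_of_le_of_ne h8 (Ne.symm hz)
      have h10 : 0 ≤ t * rho u * ‖u‖ := mul_nonneg (mul_nonneg ht.1 h1) hr.le
      nlinarith [mul_pos h9 h6]

/-- the norm preserving contraction -/
def cn (t : ℝ) (u : Bc (n + 1)) : Bc (n + 1) := (‖u‖ / ‖cw t u‖) • cw t u

lemma norm_cn_le (t : ℝ) (u : Bc (n + 1)) : ‖cn t u‖ ≤ ‖u‖ := by
  rw [cn, norm_smul, norm_div, norm_norm, norm_norm]
  rcases eq_or_ne ‖cw t u‖ 0 with h | h
  · rw [h, mul_zero]; exact norm_nonneg _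
  · rw [div_mul_cancel₀ _ h]

lemma norm_cn {t : ℝ} (ht : t ∈ Icc (0 : ℝ) 1) (u : Bc (n + 1)) : ‖cn t u‖ = ‖u‖ := by
  by_cases hu : u = 0
  · subst hu
    exact le_antisymm (norm_cn_le t 0) (by simp)
  · have h := norm_pos_iff.2 (cw_ne ht hu)
    rw [cn, norm_smul, norm_div, norm_norm, norm_norm, div_mul_cancel₀ _ h.ne']

lemma continuousOn_cn :
    ContinuousOn (fun p : ℝ × Bc (n + 1) => cn p.1 p.2) (Icc (0 : ℝ) 1 ×ˢ univ) := by
  intro p hp
  by_cases h : p.2 = 0
  · have h0 : cn p.1 p.2 = 0 := by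
      have := norm_cn_le p.1 p.2
      rw [h, norm_zero] at this
      rw [h]; exact norm_le_zero_iff.1 this
    have h1 : Tendsto (fun q : ℝ × Bc (n + 1) => cn q.1 q.2) (𝓝 p) (𝓝 0) := by
      refine squeeze_zero_norm (fun q => norm_cn_le q.1 q.2) ?_
      have : Tendsto (fun q : ℝ × Bc (n + 1) => ‖q.2‖) (𝓝 p) (𝓝 ‖p.2‖) :=
        (continuous_snd.norm).tendsto p
      rwa [h, norm_zero] at this
    have h2 : ContinuousAt (fun q : ℝ × Bc (n + 1) => cn q.1 q.2) p := by
      rw [ContinuousAt, h0]; exact h1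
    exact h2.continuousWithinAt
  · have hne : ‖cw p.1 p.2‖ ≠ 0 := (norm_pos_iff.2 (cw_ne hp.1 h)).ne'
    have h1 : ContinuousAt (fun q : ℝ × Bc (n + 1) => cn q.1 q.2) p := by
      have hc := (continuous_cw (n := n)).continuousAt (x := p)
      exact ((continuous_snd.norm.continuousAt).div hc.norm hne).smul hc
    exact h1.continuousWithinAt

lemma cn_zero (u : Bc (n + 1)) : cn 0 u = u := by
  by_cases hu : u = 0
  · subst hu
    exact norm_le_zero_iff.1 (by simpa using norm_cn_le 0 (0 : Bc (n + 1)))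
  · have hr : ‖u‖ ≠ 0 := (norm_pos_iff.2 hu).ne'
    have h1 : cw 0 u = ‖u‖ • u := by simp [cw]
    rw [cn, h1, norm_smul, norm_norm, smul_smul]
    have : ‖u‖ / (‖u‖ * ‖u‖) * ‖u‖ = 1 := by field_simp
    rw [this, one_smul]

lemma cn_one {u : Bc (n + 1)} (hu : ‖u‖ = 1) (hr : rho u = 1) : cn 1 u = e0 := by
  have h1 : cw 1 u = e0 := by simp [cw, hu, hr]
  rw [cn, h1, hu, norm_e0, div_one, one_smul]

/-- the coordinatewise clamp -/
def cl (u : Bc (n + 1)) : Bc (n + 1) := fun i => max (-1) (min 1 (u i))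

lemma continuous_cl : Continuous (cl (n := n)) := by
  unfold cl; fun_prop

lemma norm_cl_le (u : Bc (n + 1)) : ‖cl u‖ ≤ 1 := by
  refine (pi_norm_le_iff_of_nonneg zero_le_one).2 fun i => ?_
  rw [Real.norm_eq_abs, abs_le]
  exact ⟨le_max_left _ _, max_le (by norm_num) (min_le_left _ _)⟩

lemma cl_of_le {u : Bc (n + 1)} (hu : ‖u‖ ≤ 1) : cl u = u := by
  funext i
  have h := (norm_le_pi_norm u i).trans hu
  rw [Real.norm_eq_abs, abs_le] at h
  rw [cl, min_eq_right h.2, max_eq_right h.1]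

lemma abs_cl {u : Bc (n + 1)} {i : Fin (n + 1)} (hi : 1 ≤ |u i|) : |cl u i| = 1 := by
  rw [cl]
  rcases le_abs.1 hi with h | h
  · rw [min_eq_left h, max_eq_right (by norm_num), abs_one]
  · rw [min_eq_right (by linarith), max_eq_left (by linarith)]
    norm_num

lemma cl_zero {u : Bc (n + 1)} (h : 1 ≤ u 0) : cl u 0 = 1 := by
  rw [cl, min_eq_left h, max_eq_right (by norm_num)]

lemma norm_cl {u : Bc (n + 1)} (hu : 1 ≤ ‖u‖) : ‖cl u‖ = 1 := by
  refine le_antisymm (norm_cl_le u) ?_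
  obtain ⟨i, hi⟩ : ∃ i, 1 ≤ |u i| := by
    by_contra hc
    push Not at hc
    have : ‖u‖ < 1 := (pi_norm_lt_iff zero_lt_one).2 fun i => by
      rw [Real.norm_eq_abs]; exact hc i
    linarith
  have := norm_le_pi_norm (cl u) i
  rwa [Real.norm_eq_abs, abs_cl hi] at this

lemma rest_norm {u : Bc (n + 1)} (h : RestAt u) : 1 ≤ ‖u‖ := by
  rcases h with h | ⟨i, -, h⟩
  · exact h.trans ((le_abs_self _).trans (norm_le_pi_norm u 0))
  · exact h.trans (norm_le_pi_norm u i)

lemma rest_rho {u : Bc (n + 1)} (h : RestAt u) : rho (cl u) = 1 := by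
  refine le_antisymm ((rho_le _).trans (norm_cl_le u)) ?_
  rcases h with h | ⟨i, hi, h⟩
  · exact (cl_zero h).symm.le.trans (le_max_right _ _)
  · obtain ⟨j, rfl⟩ := Fin.exists_succ_eq.2 hi
    have h1 := norm_le_pi_norm (fun i : Fin n => cl u i.succ) j
    rw [Real.norm_eq_abs, abs_cl h] at h1
    exact h1.trans (le_max_left _ _)

/-- clamp, then contract -/
def cc (u : Bc (n + 1)) : Bc (n + 1) := cn 1 (cl u)

lemma continuous_cc : Continuous (cc (n := n)) := by
  have h : Continuous fun u : Bc (n + 1) => ((1 : ℝ), cl u) :=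
    continuous_const.prodMk continuous_cl
  exact (continuousOn_cn (n := n)).comp_continuous h fun u =>
    ⟨⟨zero_le_one, le_rfl⟩, mem_univ _⟩

lemma norm_cc_le (u : Bc (n + 1)) : ‖cc u‖ ≤ 1 := (norm_cn_le _ _).trans (norm_cl_le u)

lemma norm_cc {u : Bc (n + 1)} (hu : 1 ≤ ‖u‖) : ‖cc u‖ = 1 := by
  rw [cc, norm_cn ⟨zero_le_one, le_rfl⟩, norm_cl hu]

lemma cc_rest {u : Bc (n + 1)} (h : RestAt u) : cc u = e0 :=
  cn_one (norm_cl (rest_norm h)) (rest_rho h)

end cube

/-! ### moving horizontal configurations by two shears -/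

section shear

variable {V : Type*} [NormedAddCommGroup V] [InnerProductSpace ℝ V]

/-- interpolation: a continuous curve in a submodule with prescribed values. -/
lemma exists_interp [FiniteDimensional ℝ V] {m : ℕ} (W : Submodule ℝ V) (s : Fin m → ℝ)
    (hs : Function.Injective s) (c : Fin m → V) (hc : ∀ k, c k ∈ W) :
    ∃ f : ℝ → V, Continuous f ∧ (∀ t, f t ∈ W) ∧ ∀ k, f (s k) = c k := by
  classical
  refine ⟨fun t => ∑ k, (Lagrange.basis Finset.univ s k).eval t • c k, ?_, fun t => ?_, fun k => ?_⟩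
  · exact continuous_finsetSum _ fun k _ =>
      ((Lagrange.basis Finset.univ s k).continuous).smul continuous_const
  · exact W.sum_mem fun k _ => W.smul_mem _ (hc k)
  · show ∑ j, (Lagrange.basis Finset.univ s j).eval (s k) • c j = c k
    rw [Finset.sum_eq_single k]
    · rw [Lagrange.eval_basis_self (hs.injOn) (Finset.mem_univ k), one_smul]
    · intro j _ hj
      rw [Lagrange.eval_basis_of_ne hj (Finset.mem_univ k), zero_smul]
    · intro h; exact absurd (Finset.mem_univ k) h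

/-- functionals separating the points of a configuration and nonzero at a given vector. -/
lemma exists_sep {m : ℕ} (q : Fin m → V) (hq : Function.Injective q) (v : V) (hv : v ≠ 0) :
    ∃ a : Module.Dual ℝ V, Function.Injective (fun k => a (q k)) ∧ a v ≠ 0 := by
  classical
  let ι := Option {p : Fin m × Fin m // p.1 ≠ p.2}
  let w : ι → V := fun i => i.elim v fun p => q p.1.1 - q p.1.2
  obtain ⟨a, ha⟩ := Module.exists_dual_forall_apply_ne_zero (K := ℝ) w (by
    intro i
    rcases i with _ | p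
    · exact hv
    · exact sub_ne_zero.2 fun h => p.2 (hq h))
  refine ⟨a, fun k l h => ?_, ha none⟩
  by_contra hkl
  have := ha (some ⟨(k, l), hkl⟩)
  apply this
  show a (q k - q l) = 0
  rw [map_sub]
  exact sub_eq_zero.2 h

/-- **two shears.** -/
theorem exists_move [FiniteDimensional ℝ V] (H : Submodule ℝ V) (b0 b1 : V) (hb0 : b0 ∈ H)
    (hb1 : b1 ∈ H) (hb : ∀ x y : ℝ, x • b0 + y • b1 = 0 → y = 0) (hb' : b0 ≠ 0)
    {m : ℕ} (q p : Fin m → V) (hq : Function.Injective q) (hp : Function.Injective p)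
    (hqH : ∀ k, q k ∈ H) (hpH : ∀ k, p k ∈ H) :
    ∃ Φ : ℝ → V → V, (Continuous fun x : ℝ × V => Φ x.1 x.2) ∧ (∀ t, Function.Injective (Φ t)) ∧
      (∀ v, Φ 0 v = v) ∧ (∀ t v, Φ t v - v ∈ H) ∧ ∀ k, Φ 1 (q k) = p k := by
  classical
  obtain ⟨a, ha, hab⟩ := exists_sep q hq b0 hb'
  set v0 : V := a b1 • b0 - a b0 • b1 with hv0
  have hv0H : v0 ∈ H := H.sub_mem (H.smul_mem _ hb0) (H.smul_mem _ hb1)
  have hv0a : a v0 = 0 := by rw [hv0, map_sub, map_smul, map_smul, smul_eq_mul, smul_eq_mul]; ring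
  have hv0ne : v0 ≠ 0 := by
    intro h
    have := hb (a b1) (-(a b0)) (by rw [neg_smul, ← sub_eq_add_neg, ← hv0, h])
    exact hab (neg_eq_zero.1 this)
  obtain ⟨b, hb1', hbv⟩ := exists_sep p hp v0 hv0ne
  set c : Fin m → ℝ := fun k => (b (p k) - b (q k)) / b v0 with hc
  set z : Fin m → V := fun k => q k + c k • v0 with hz
  have hza : ∀ k, a (z k) = a (q k) := fun k => by
    rw [hz]; simp only [map_add, map_smul, hv0a, smul_zero, add_zero]
  have hzb : ∀ k, b (z k) = b (p k) := fun k => by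
    rw [hz, hc]; simp only [map_add, map_smul, smul_eq_mul]
    rw [div_mul_cancel₀ _ hbv]; ring
  have hzH : ∀ k, z k ∈ H := fun k => H.add_mem (hqH k) (H.smul_mem _ hv0H)
  have hac : Continuous a := a.continuous_of_finiteDimensional
  have hbc : Continuous b := b.continuous_of_finiteDimensional
  obtain ⟨f, hf, hfW, hfv⟩ := exists_interp (H ⊓ LinearMap.ker a) (fun k => a (q k)) ha
    (fun k => z k - q k) fun k => by
      refine ⟨H.sub_mem (hzH k) (hqH k), ?_⟩
      rw [SetLike.mem_coe, LinearMap.mem_ker, map_sub, hza, sub_self]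
  obtain ⟨g, hg, hgW, hgv⟩ := exists_interp (H ⊓ LinearMap.ker b) (fun k => b (p k)) hb1'
    (fun k => p k - z k) fun k => by
      refine ⟨H.sub_mem (hpH k) (hzH k), ?_⟩
      rw [SetLike.mem_coe, LinearMap.mem_ker, map_sub, hzb, sub_self]
  have hfa : ∀ t, a (f t) = 0 := fun t => (hfW t).2
  have hgb : ∀ t, b (g t) = 0 := fun t => (hgW t).2
  refine ⟨fun t v => (v + t • f (a v)) + t • g (b (v + t • f (a v))), ?_, ?_, ?_, ?_, ?_⟩
  · fun_prop
  · intro t v v' h
    have h1 : v + t • f (a v) = v' + t • f (a v') := by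
      have h2 : b (v + t • f (a v)) = b (v' + t • f (a v')) := by
        have := congrArg b h
        simpa only [map_add, map_smul, hgb, smul_zero, add_zero] using this
      simp only [h2] at h
      exact add_right_cancel h
    have h3 : a v = a v' := by
      have := congrArg a h1
      simpa only [map_add, map_smul, hfa, smul_zero, add_zero] using this
    rw [h3] at h1
    exact add_right_cancel h1
  · intro v; simp
  · intro t v
    have : (v + t • f (a v)) + t • g (b (v + t • f (a v))) - v =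
        t • f (a v) + t • g (b (v + t • f (a v))) := by abel
    rw [this]
    exact H.add_mem (H.smul_mem _ (hfW _).1) (H.smul_mem _ (hgW _).1)
  · intro k
    have h1 : q k + (1 : ℝ) • f (a (q k)) = z k := by
      rw [hfv, one_smul]; abel
    show (q k + (1 : ℝ) • f (a (q k))) + (1 : ℝ) • g (b (q k + (1 : ℝ) • f (a (q k)))) = p k
    rw [h1, hzb, hgv, one_smul]
    abel

end shear

/-! ### systems from data -/

/-- continuous data which factor through the clamp give a system. -/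
theorem exists_sys {n m : ℕ} (X N : Fin m → Bc (n + 2) → Vc (n + 2))
    (cX : ∀ k, Continuous (X k)) (cN : ∀ k, Continuous (N k)) (nN : ∀ k u, ‖N k u‖ = 1)
    (hd : ∀ k l, k ≠ l → ∀ u, X k u ≠ X l u) (hcl : ∀ k u, X k (cl u) = X k u)
    (wx : ∀ k u, 1 ≤ ‖u‖ → ⟪ec (n + 2), X k u⟫ = 0)
    (wn : ∀ k u, 1 ≤ ‖u‖ → N k u = ec (n + 2)) :
    ∃ G : S n m, (∀ k, G.x k = X k) ∧ ∀ k, G.nu k = N k := by
  have hK : IsCompact (closedBall (0 : Bc (n + 2)) 1) := isCompact_closedBall _ _
  have hmem : ∀ u : Bc (n + 2), cl u ∈ closedBall (0 : Bc (n + 2)) 1 := fun u =>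
    mem_closedBall_zero_iff.2 (norm_cl_le u)
  have h1 : ∀ k l, ∀ᶠ r in 𝓝[>] (0 : ℝ), k ≠ l → ∀ u, 2 * r < ‖X k u - X l u‖ := by
    intro k l
    by_cases hkl : k = l
    · exact Eventually.of_forall fun r h => absurd hkl h
    obtain ⟨a, ha, hle⟩ := hK.exists_forall_le' (f := fun u => ‖X k u - X l u‖) (a := 0)
      ((cX k).sub (cX l)).norm.continuousOn fun u _ => norm_pos_iff.2 (sub_ne_zero.2 (hd k l hkl u))
    have h2 : ∀ᶠ r in 𝓝[>] (0 : ℝ), r < a / 2 := by
      filter_upwards [Ioo_mem_nhdsGT (half_pos ha)] with r hr using hr.2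
    filter_upwards [h2] with r hr _ u
    have h3 := hle (cl u) (hmem u)
    simp only [hcl] at h3
    linarith
  obtain ⟨r, hr, hr0⟩ := ((eventually_all.2 fun k => eventually_all.2 fun l => h1 k l).and
    self_mem_nhdsWithin).exists
  have h2 : ∀ k, ∀ᶠ R in atTop, ∀ u, ‖X k u‖ + r < R := by
    intro k
    obtain ⟨C, hC⟩ := hK.exists_bound_of_continuousOn (cX k).continuousOn
    filter_upwards [eventually_gt_atTop (C + r)] with R hR u
    have h3 := hC (cl u) (hmem u)
    rw [hcl] at h3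
    linarith
  obtain ⟨R, hR⟩ := (eventually_all.2 h2).exists
  exact ⟨⟨X, N, r, R, hr0, cX, cN, nN, fun k l u hkl => hr k l hkl u, fun k u => hR k u, wx, wn⟩,
    fun _ => rfl, fun _ => rfl⟩

/-! ### the theorem -/

theorem inner_ec {n : ℕ} (v : Vc n) : ⟪ec n, v⟫ = v (Fin.last n) := by
  rw [ec, EuclideanSpace.inner_single_left]; simp

/-- **NORM** (leaf B3). -/
theorem normProp (n : ℕ) : NormProp n := by
  intro m G p hp hpe
  -- the horizontal space
  set H : Submodule ℝ (Vc (n + 2)) := (ℝ ∙ ec (n + 2))ᗮ with hH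
  have memH : ∀ v, v ∈ H ↔ ⟪ec (n + 2), v⟫ = 0 := fun v =>
    Submodule.mem_orthogonal_singleton_iff_inner_right
  set b0 : Vc (n + 2) := EuclideanSpace.single 0 1 with hb0
  set b1 : Vc (n + 2) := EuclideanSpace.single 1 1 with hb1
  have h0l : (0 : Fin (n + 2 + 1)) ≠ Fin.last (n + 2) := by
    intro h; have := congrArg Fin.val h; simp at this
  have h1l : (1 : Fin (n + 2 + 1)) ≠ Fin.last (n + 2) := by
    intro h; have := congrArg Fin.val h
    simp at this
  have h10 : (1 : Fin (n + 2 + 1)) ≠ 0 := by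
    intro h; have := congrArg Fin.val h
    simp at this
  set q : Fin m → Vc (n + 2) := fun k => G.x k e0 with hq
  obtain ⟨Φ, cΦ, iΦ, Φ0, ΦH, Φ1⟩ := exists_move H b0 b1
    (by rw [memH, inner_ec, hb0]; simp [h0l.symm])
    (by rw [memH, inner_ec, hb1]; simp [h1l.symm])
    (by
      intro x y h
      have := congrArg (fun v : Vc (n + 2) => v 1) h
      simpa [hb0, hb1, h10] using this)
    (by
      intro h
      have := congrArg (fun v : Vc (n + 2) => v 0) h
      simp [hb0] at this)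
    q p
    (by
      intro k l h
      by_contra hkl
      have h1 := G.sep k l e0 hkl
      have h2 : G.x k e0 = G.x l e0 := h
      rw [h2, sub_self, norm_zero] at h1
      linarith [G.hr])
    hp (fun k => (memH _).2 (G.wall_x k e0 norm_e0.ge)) (fun k => (memH _).2 (hpe k))
  have Φe : ∀ t v, ⟪ec (n + 2), v⟫ = 0 → ⟪ec (n + 2), Φ t v⟫ = 0 := by
    intro t v h
    have h1 := (memH _).1 (ΦH t v)
    rw [inner_sub_right, h, sub_zero] at h1
    exact h1
  have hne : ∀ k l, k ≠ l → ∀ u, G.x k u ≠ G.x l u := by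
    intro k l hkl u h
    have h1 := G.sep k l u hkl
    rw [h, sub_self, norm_zero] at h1
    linarith [G.hr]
  obtain ⟨G', hx, hnu⟩ := exists_sys (n := n) (fun k u => Φ 1 (G.x k (cc u)))
    (fun k u => G.nu k (cc u))
    (fun k => cΦ.comp (continuous_const.prodMk ((G.cx k).comp continuous_cc)))
    (fun k => (G.cnu k).comp continuous_cc)
    (fun k u => G.norm_nu k _)
    (fun k l hkl u h => hne k l hkl _ (iΦ 1 h))
    (fun k u => by
      have : cc (cl u) = cc u := by rw [cc, cl_of_le (norm_cl_le u)]; rfl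
      rw [this])
    (fun k u hu => Φe _ _ (G.wall_x k _ (norm_cc hu).ge))
    (fun k u hu => G.wall_nu k _ (norm_cc hu).ge)
  refine ⟨G', ⟨fun k p => Φ p.1 (G.x k (cn p.1 p.2)), fun k p => G.nu k (cn p.1 p.2), ?_, ?_, ?_,
    ?_, ?_, ?_, ?_⟩, ?_, ?_⟩
  · intro k
    have h1 : ContinuousOn (fun p : ℝ × Bc (n + 2) => G.x k (cn p.1 p.2))
        (Icc (0 : ℝ) 1 ×ˢ closedBall 0 1) :=
      (G.cx k).comp_continuousOn (continuousOn_cn.mono (prod_mono_right (subset_univ _)))
    exact cΦ.comp_continuousOn (continuous_fst.continuousOn.prodMk h1)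
  · intro k
    exact (G.cnu k).comp_continuousOn (continuousOn_cn.mono (prod_mono_right (subset_univ _)))
  · intro k t _ u _
    exact G.norm_nu k _
  · intro k l hkl t _ u _ h
    exact hne k l hkl _ (iΦ t h)
  · intro k t ht u hu
    have h1 : ‖cn t u‖ = 1 := by rw [norm_cn ht, hu]
    exact ⟨Φe _ _ (G.wall_x k _ h1.ge), G.wall_nu k _ h1.ge⟩
  · intro k u _
    show Φ 0 (G.x k (cn 0 u)) = G.x k u ∧ G.nu k (cn 0 u) = G.nu k u
    rw [cn_zero, Φ0]
    exact ⟨rfl, rfl⟩
  · intro k u hu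
    rw [hx, hnu]
    show Φ 1 (G.x k (cn 1 u)) = Φ 1 (G.x k (cc u)) ∧ G.nu k (cn 1 u) = G.nu k (cc u)
    rw [cc, cl_of_le hu]
    exact ⟨rfl, rfl⟩
  · intro k u hu
    rw [hx]
    show Φ 1 (G.x k (cc u)) = p k
    rw [cc_rest hu]
    exact Φ1 k
  · intro k u hu
    exact G'.wall_nu k u (rest_norm hu)

end

end Crest.Agent.R267.Norm_855
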