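import Crest.Agent.R267.DraftB_808
import Crest.Agent.R267.Norm_855
import Crest.Agent.R267.FBa_118

/-!
# FB (row 267, leaf B4 of DRAFT B)

Freely homotopic admissible maps in rest form are homotopic rel the rest part, if `1 ≤ n`.
-/

set_option autoImplicit false

namespace Crest.Agent.R267.FB_118

open Set Metric
open scoped RealInnerProductSpace
open Crest.Agent.R267.GS_808 Crest.Agent.R267.DraftB_808 Crest.Agent.R267.Norm_855
open Crest.Agent.R267.FBa_118

/-! ### `BH` is an equivalence relation -/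

section BH

variable {n : ℕ} {y : Vc (n + 2)} {f g h : Bc (n + 2) → Vc (n + 2)}

theorem BH.symm' (H : BH n y f g) : BH n y g f := by
  obtain ⟨F, cF, nF, hF, rF, F0, F1⟩ := H
  refine ⟨fun p => F (1 - p.1, p.2), cF.comp (by fun_prop), fun p => nF _,
    fun t u hu => hF _ _ hu, fun t u hu => rF _ _ hu, fun u => ?_, fun u => ?_⟩
  · simp only [sub_zero]; exact F1 u
  · simp only [sub_self]; exact F0 u

theorem BH.trans' (H : BH n y f g) (H' : BH n y g h) : BH n y f h := by
  obtain ⟨F, cF, nF, hF, rF, F0, F1⟩ := H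
  obtain ⟨G, cG, nG, hG, rG, G0, G1⟩ := H'
  refine ⟨fun p => if p.1 ≤ 1 / 2 then F (2 * p.1, p.2) else G (2 * p.1 - 1, p.2), ?_, ?_, ?_,
    ?_, ?_, ?_⟩
  · refine Continuous.if_le (cF.comp (by fun_prop)) (cG.comp (by fun_prop)) continuous_fst
      continuous_const fun p hp => ?_
    have : 2 * p.1 = 1 := by linarith
    rw [this, F1, sub_self, G0]
  · intro p
    simp only
    split_ifs
    · exact nF _
    · exact nG _
  · intro t u hu
    simp only
    split_ifs
    · exact hF _ _ hu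
    · exact hG _ _ hu
  · intro t u hu
    simp only
    split_ifs
    · exact rF _ _ hu
    · exact rG _ _ hu
  · intro u
    simp only
    rw [if_pos (by norm_num), mul_zero, F0]
  · intro u
    simp only
    rw [if_neg (by norm_num)]
    norm_num
    exact G1 u

end BH

/-! ### the enlargement of the cube -/

section kap

variable {n : ℕ}

/-- clamp to `[-1,1]` -/
noncomputable def c1 (t : ℝ) : ℝ := max (-1) (min 1 t)

theorem continuous_c1 : Continuous c1 := by unfold c1; fun_prop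

theorem abs_c1_le (t : ℝ) : |c1 t| ≤ 1 := by
  rw [c1, abs_le]
  exact ⟨le_max_left _ _, max_le (by norm_num) (min_le_left _ _)⟩

theorem c1_of_ge {t : ℝ} (h : 1 ≤ t) : c1 t = 1 := by
  rw [c1, min_eq_left h, max_eq_right (by norm_num)]

theorem c1_of_le {t : ℝ} (h : t ≤ -1) : c1 t = -1 := by
  rw [c1, min_eq_right (by linarith), max_eq_left h]

/-- the enlargement -/
noncomputable def kap (u : Bc (n + 1)) : Bc (n + 1) :=
  fun i => if i = 0 then c1 ((4 * u 0 + 1) / 3) else c1 (2 * u i)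

theorem continuous_kap : Continuous (kap (n := n)) := by
  have := continuous_c1
  refine continuous_pi fun i => ?_
  by_cases hi : i = 0
  · simp only [kap, if_pos hi]; fun_prop
  · simp only [kap, if_neg hi]; fun_prop

theorem kap_zero (u : Bc (n + 1)) : kap u 0 = c1 ((4 * u 0 + 1) / 3) := if_pos rfl
theorem kap_ne (u : Bc (n + 1)) {i : Fin (n + 1)} (hi : i ≠ 0) : kap u i = c1 (2 * u i) :=
  if_neg hi

theorem norm_kap_le (u : Bc (n + 1)) : ‖kap u‖ ≤ 1 := by
  refine (pi_norm_le_iff_of_nonneg zero_le_one).2 fun i => ?_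
  by_cases hi : i = 0
  · rw [hi, kap_zero]; exact abs_c1_le _
  · rw [kap_ne u hi]; exact abs_c1_le _

theorem exists_coord {u : Bc (n + 1)} (hu : 1 ≤ ‖u‖) : ∃ i, 1 ≤ |u i| := by
  by_contra hc
  push Not at hc
  have : ‖u‖ < 1 := (pi_norm_lt_iff zero_lt_one).2 fun i => by
    rw [Real.norm_eq_abs]; exact hc i
  linarith

theorem rest_iff {u : Bc (n + 1)} : RestAt u ↔ 1 ≤ rho u := by
  constructor
  · rintro (h | ⟨i, hi, h⟩)
    · exact h.trans (le_max_right _ _)
    · obtain ⟨j, rfl⟩ := Fin.exists_succ_eq.2 hi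
      exact (h.trans (norm_le_pi_norm (fun i : Fin n => u i.succ) j)).trans (le_max_left _ _)
  · intro h
    rcases le_max_iff.1 h with h | h
    · have : ∃ i : Fin n, 1 ≤ |u i.succ| := by
        by_contra hc
        push Not at hc
        have : ‖fun i : Fin n => u i.succ‖ < 1 := (pi_norm_lt_iff zero_lt_one).2 fun i => by
          rw [Real.norm_eq_abs]; exact hc i
        linarith
      obtain ⟨i, hi⟩ := this
      exact Or.inr ⟨i.succ, Fin.succ_ne_zero i, hi⟩
    · exact Or.inl h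

theorem rest_of_half {u : Bc (n + 1)} (h : 1 / 2 < rho u) : RestAt (kap u) := by
  rcases lt_max_iff.1 h with h | h
  · have : ∃ i : Fin n, 1 / 2 < |u i.succ| := by
      by_contra hc
      push Not at hc
      have : ‖fun i : Fin n => u i.succ‖ ≤ 1 / 2 :=
        (pi_norm_le_iff_of_nonneg (by norm_num)).2 fun i => by
          rw [Real.norm_eq_abs]; exact hc i
      linarith
    obtain ⟨i, hi⟩ := this
    refine Or.inr ⟨i.succ, Fin.succ_ne_zero i, ?_⟩
    rw [kap_ne u (Fin.succ_ne_zero i)]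
    rcases lt_abs.1 hi with h | h
    · rw [c1_of_ge (by linarith), abs_one]
    · rw [c1_of_le (by linarith), abs_neg, abs_one]
  · left
    rw [kap_zero, c1_of_ge (by linarith)]

/-- straight line homotopy from the identity to `kap` -/
noncomputable def lin (t : ℝ) (u : Bc (n + 1)) : Bc (n + 1) := (1 - k t) • u + k t • kap u

theorem continuous_lin : Continuous fun p : ℝ × Bc (n + 1) => lin p.1 p.2 := by
  have h1 := continuous_k
  have h2 := continuous_kap (n := n)
  unfold lin
  have h3 : Continuous fun p : ℝ × Bc (n + 1) => k p.1 := h1.comp continuous_fst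
  exact ((continuous_const.sub h3).smul continuous_snd).add
    (h3.smul (h2.comp continuous_snd))

theorem lin_apply (t : ℝ) (u : Bc (n + 1)) (i : Fin (n + 1)) :
    lin t u i = (1 - k t) * u i + k t * kap u i := rfl

theorem lin_ge {t : ℝ} {u : Bc (n + 1)} {i : Fin (n + 1)} (h : 1 ≤ u i) (h' : kap u i = 1) :
    1 ≤ lin t u i := by
  have h1 := k_mem t
  rw [lin_apply, h']
  nlinarith [mul_nonneg (sub_nonneg.2 h1.2) (sub_nonneg.2 h)]

theorem lin_le {t : ℝ} {u : Bc (n + 1)} {i : Fin (n + 1)} (h : u i ≤ -1) (h' : kap u i = -1) :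
    lin t u i ≤ -1 := by
  have h1 := k_mem t
  rw [lin_apply, h']
  nlinarith [mul_nonneg (sub_nonneg.2 h1.2) (sub_nonneg.2 h)]

theorem lin_abs {t : ℝ} {u : Bc (n + 1)} {i : Fin (n + 1)} (h : 1 ≤ |u i|) : 1 ≤ |lin t u i| := by
  rcases le_abs.1 h with h | h
  · refine (lin_ge h ?_).trans (le_abs_self _)
    by_cases hi : i = 0
    · rw [hi] at h ⊢
      rw [kap_zero, c1_of_ge (by linarith)]
    · rw [kap_ne u hi, c1_of_ge (by linarith)]
  · have : lin t u i ≤ -1 := by
      refine lin_le (by linarith) ?_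
      by_cases hi : i = 0
      · rw [hi] at h ⊢
        rw [kap_zero, c1_of_le (by linarith)]
      · rw [kap_ne u hi, c1_of_le (by linarith)]
    have := neg_le_abs (lin t u i)
    linarith

theorem lin_rest {t : ℝ} {u : Bc (n + 1)} (h : RestAt u) : RestAt (lin t u) := by
  rcases h with h | ⟨i, hi, h⟩
  · left
    refine lin_ge h ?_
    rw [kap_zero, c1_of_ge (by linarith)]
  · exact Or.inr ⟨i, hi, lin_abs h⟩

theorem lin_norm {t : ℝ} {u : Bc (n + 1)} (h : 1 ≤ ‖u‖) : 1 ≤ ‖lin t u‖ := by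
  obtain ⟨i, hi⟩ := exists_coord h
  exact (lin_abs hi).trans (norm_le_pi_norm (lin t u) i)

theorem norm_kap {u : Bc (n + 1)} (h : 1 ≤ ‖u‖) : ‖kap u‖ = 1 := by
  refine le_antisymm (norm_kap_le u) ?_
  have := lin_norm (t := 1) h
  rwa [lin, k_of_one_le le_rfl, sub_self, zero_smul, zero_add, one_smul] at this

/-- `cn` preserves the rest part of the unit sphere -/
theorem cn_rest {t : ℝ} (ht : t ∈ Icc (0 : ℝ) 1) {u : Bc (n + 1)} (hu : ‖u‖ = 1)
    (hr : rho u = 1) : RestAt (cn t u) := by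
  have hw0 : cw t u = (1 - t) • u + t • e0 := by simp [cw, hu, hr]
  have hne : cw t u ≠ 0 := cw_ne ht (norm_pos_iff.1 (by rw [hu]; norm_num))
  set w := cw t u with hw
  have w0 : w 0 = (1 - t) * u 0 + t := by
    rw [hw0]; simp [e0_zero]
  have ws : ∀ i : Fin n, w i.succ = (1 - t) * u i.succ := by
    intro i; rw [hw0]; simp [e0_ne (Fin.succ_ne_zero i)]
  have ht0 := ht.1
  have ht1 : 0 ≤ 1 - t := sub_nonneg.2 ht.2
  have key : ‖w‖ ≤ rho w := by
    refine (pi_norm_le_iff_of_nonneg (rho_nonneg w)).2 fun i => ?_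
    refine Fin.cases ?_ (fun i => ?_) i
    · rw [Real.norm_eq_abs, abs_le]
      refine ⟨?_, le_max_right _ _⟩
      by_cases h0 : 0 ≤ w 0
      · have := rho_nonneg w; linarith
      · push Not at h0
        have hu0 : u 0 < 0 := by
          by_contra hc
          push Not at hc
          have := mul_nonneg ht1 hc
          linarith
        have hb : -1 ≤ u 0 := by
          have := norm_le_pi_norm u 0
          rw [hu, Real.norm_eq_abs, abs_le] at this
          exact this.1
        have htl : ‖fun i : Fin n => u i.succ‖ = 1 := by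
          have : rho u = ‖fun i : Fin n => u i.succ‖ :=
            max_eq_left (hu0.le.trans (norm_nonneg _))
          rw [← this, hr]
        have htw : (fun i : Fin n => w i.succ) = (1 - t) • fun i : Fin n => u i.succ := by
          funext i; exact ws i
        have h1 : 1 - t ≤ rho w := by
          have : ‖fun i : Fin n => w i.succ‖ = 1 - t := by
            rw [htw, norm_smul, htl, mul_one, Real.norm_of_nonneg ht1]
          rw [← this]
          exact le_max_left _ _
        nlinarith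
    · exact (norm_le_pi_norm (fun i : Fin n => w i.succ) i).trans (le_max_left _ _)
  have hpos : 0 < ‖w‖ := norm_pos_iff.2 hne
  rw [rest_iff]
  have h2 : cn t u = (1 / ‖w‖) • w := by rw [cn, hu]
  have h3 : rho (cn t u) = (1 / ‖w‖) * rho w := by
    rw [h2]
    have hc : 0 ≤ 1 / ‖w‖ := by positivity
    unfold rho
    rw [mul_max_of_nonneg _ _ hc]
    congr 1
    have : (fun i : Fin n => ((1 / ‖w‖) • w) i.succ) = (1 / ‖w‖) • fun i : Fin n => w i.succ := rfl
    rw [this, norm_smul, Real.norm_of_nonneg hc]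
  rw [h3, one_div, ← div_eq_inv_mul, le_div_iff₀ hpos, one_mul]
  exact key

end kap

/-! ### the theorem -/

variable {n : ℕ}

theorem bh_kap {y : Vc (n + 2)} {f : Bc (n + 2) → Vc (n + 2)} (hf : Adm (n + 2) f)
    (rf : IsRest y f) : BH n y f fun u => f (kap u) := by
  refine ⟨fun p => f (lin p.1 p.2), hf.cont.comp continuous_lin, fun p => hf.ne _,
    fun t u hu => hf.hor _ (lin_norm hu), fun t u hu => rf _ (lin_rest hu), fun u => ?_,
    fun u => ?_⟩
  · show f (lin 0 u) = f u
    rw [lin, k_of_nonpos le_rfl, sub_zero, one_smul, zero_smul, add_zero]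
  · show f (lin 1 u) = f (kap u)
    rw [lin, k_of_one_le le_rfl, sub_self, zero_smul, zero_add, one_smul]

/-- the parameter of the collar -/
noncomputable def sp (u : Bc (n + 2)) : ℝ := k (2 * rho u - 1)

theorem continuous_sp : Continuous (sp (n := n)) := by
  have h1 := continuous_k
  have h2 := continuous_rho (n := n + 1)
  unfold sp
  exact h1.comp ((continuous_const.mul h2).sub continuous_const)

theorem sp_pos {u : Bc (n + 2)} (h : 0 < sp u) : RestAt (kap u) := by
  refine rest_of_half ?_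
  by_contra hc
  push Not at hc
  rw [sp, k_of_nonpos (by linarith)] at h
  exact lt_irrefl _ h

theorem sp_rest {u : Bc (n + 2)} (h : RestAt u) : sp u = 1 :=
  k_of_one_le (by have := rest_iff.1 h; linarith)

theorem rho_of_rest {u : Bc (n + 2)} (h : RestAt u) (hu : ‖u‖ ≤ 1) : rho u = 1 :=
  le_antisymm ((rho_le u).trans hu) (rest_iff.1 h)

/-- the loop of values at `e0` is contractible in `H \ 0` -/
theorem loop (hn : 1 ≤ n) {y : Vc (n + 2)} (a : ℝ → Vc (n + 2)) (ca : Continuous a)
    (na : ∀ t, a t ≠ 0) (ha : ∀ t, ⟪ec (n + 2), a t⟫ = 0) (ka : ∀ t, a t = a (k t))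
    (a0 : a 0 = y) (a1 : a 1 = y) :
    ∃ A : ℝ × ℝ → Vc (n + 2), Continuous A ∧ (∀ p, A p ≠ 0) ∧
      (∀ p, ⟪ec (n + 2), A p⟫ = 0) ∧ (∀ t, A (t, 0) = a t) ∧ (∀ t, A (t, 1) = y) ∧
      (∀ s, A (0, s) = y) ∧ ∀ s, A (1, s) = y := by
  let E : Submodule ℝ (Vc (n + 2)) := (ℝ ∙ ec (n + 2))ᗮ
  have memE : ∀ v, v ∈ E ↔ ⟪ec (n + 2), v⟫ = 0 := fun v =>
    Submodule.mem_orthogonal_singleton_iff_inner_right
  have hE3 : 3 ≤ Module.finrank ℝ E := by
    have : Fact (Module.finrank ℝ (Vc (n + 2)) = (n + 2) + 1) := ⟨by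
      rw [finrank_euclideanSpace, Fintype.card_fin]⟩
    have h := Submodule.finrank_orthogonal_span_singleton (𝕜 := ℝ) (n := n + 2)
      (v := ec (n + 2)) (by
        intro h
        have := congrArg norm h
        simp [ec] at this)
    show 3 ≤ Module.finrank ℝ (ℝ ∙ ec (n + 2))ᗮ
    rw [h]
    omega
  have hαm : ∀ t, a t ∈ E := fun t => (memE _).2 (ha t)
  have hym : y ∈ E := a0 ▸ hαm 0
  have hA : NH (⟨y, hym⟩ : E) (fun t => (⟨a t, hαm t⟩ : E)) fun _ => ⟨y, hym⟩ := by
    refine sc hE3 _ (ca.subtype_mk _) ?_ ?_ ?_ ?_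
    · intro t h
      exact na _ (congrArg Subtype.val h)
    · intro t
      exact Subtype.ext (ka t)
    · exact Subtype.ext a0
    · exact Subtype.ext a1
  obtain ⟨A, cA, nA, A0, A1, Al, Ar⟩ := hA
  refine ⟨fun p => (A p : Vc (n + 2)), continuous_subtype_val.comp cA,
    fun p h => nA _ (Subtype.ext h), fun p => (memE _).1 (A p).2, fun t => ?_, fun t => ?_,
    fun s => ?_, fun s => ?_⟩
  · simp only [A0]
  · simp only [A1]
  · simp only [Al]
  · simp only [Ar]

/-- the contraction of the enlarged collar -/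
noncomputable def cs (u : Bc (n + 2)) : Bc (n + 2) := cn (k (2 * sp u)) (kap u)

theorem continuous_cs : Continuous (cs (n := n)) := by
  have h1 : Continuous fun u : Bc (n + 2) => (k (2 * sp u), kap u) :=
    (continuous_k.comp (continuous_const.mul continuous_sp)).prodMk continuous_kap
  have h2 : ∀ u : Bc (n + 2), (k (2 * sp u), kap u) ∈ Icc (0 : ℝ) 1 ×ˢ (univ : Set (Bc (n + 2))) :=
    fun u => mk_mem_prod (k_mem (2 * sp u)) (mem_univ (kap u))
  have h3 := ContinuousOn.comp_continuous (continuousOn_cn (n := n + 1)) h1 h2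
  exact h3

theorem norm_cs (u : Bc (n + 2)) : ‖cs u‖ = ‖kap u‖ := norm_cn (k_mem (2 * sp u)) _

theorem cs_zero {u : Bc (n + 2)} (hu : sp u = 0) : cs u = kap u := by
  rw [cs, hu, mul_zero, k_of_nonpos le_rfl, cn_zero]

theorem cs_half {u : Bc (n + 2)} (hu : sp u = 1 / 2) : cs u = e0 := by
  have h3 : 0 < sp u := by rw [hu]; norm_num
  rw [cs, hu, k_of_one_le (by norm_num)]
  exact cn_one (le_antisymm (norm_kap_le _) (rest_norm (sp_pos h3)))
    (rho_of_rest (sp_pos h3) (norm_kap_le _))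

theorem cs_rest {u : Bc (n + 2)} (hu : 0 < sp u) : RestAt (cs u) :=
  cn_rest (k_mem _) (le_antisymm (norm_kap_le u) (rest_norm (sp_pos hu)))
    (rho_of_rest (sp_pos hu) (norm_kap_le u))

theorem cl_cs (u : Bc (n + 2)) : cl (cs u) = cs u := cl_of_le ((norm_cs u).le.trans (norm_kap_le u))

theorem rest_cs {y : Vc (n + 2)} {q : Bc (n + 2) → Vc (n + 2)} (rq : IsRest y q)
    (u : Bc (n + 2)) : q (cs u) = q (kap u) := by
  rcases ((k_mem (2 * rho u - 1)).1.eq_or_lt : 0 = sp u ∨ 0 < sp u) with h | h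
  · rw [cs_zero h.symm]
  · rw [rq _ (cs_rest h), rq _ (sp_pos h)]

/-- the middle homotopy -/
theorem mid {y : Vc (n + 2)} {f g : Bc (n + 2) → Vc (n + 2)} (rf : IsRest y f) (rg : IsRest y g)
    (F : ℝ × Bc (n + 2) → Vc (n + 2)) (cF : Continuous F) (nF : ∀ p, F p ≠ 0)
    (hF : ∀ t u, 1 ≤ ‖u‖ → ⟪ec (n + 2), F (t, u)⟫ = 0) (F0 : ∀ u, F (0, u) = f (cl u))
    (F1 : ∀ u, F (1, u) = g (cl u)) (A : ℝ × ℝ → Vc (n + 2)) (cA : Continuous A)
    (nA : ∀ p, A p ≠ 0) (hA : ∀ p, ⟪ec (n + 2), A p⟫ = 0) (A0 : ∀ t, A (t, 0) = F (t, e0))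
    (A1 : ∀ t, A (t, 1) = y) (Al : ∀ s, A (0, s) = y) (Ar : ∀ s, A (1, s) = y) :
    BH n y (fun u => f (kap u)) fun u => g (kap u) := by
  refine ⟨fun p => if sp p.2 ≤ 1 / 2 then F (p.1, cs p.2) else A (p.1, 2 * sp p.2 - 1),
    ?_, ?_, ?_, ?_, ?_, ?_⟩
  · have h1 : Continuous fun p : ℝ × Bc (n + 2) => F (p.1, cs p.2) :=
      cF.comp (continuous_fst.prodMk (continuous_cs.comp continuous_snd))
    have h2 : Continuous fun p : ℝ × Bc (n + 2) => sp p.2 := continuous_sp.comp continuous_snd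
    have h3 : Continuous fun p : ℝ × Bc (n + 2) => A (p.1, 2 * sp p.2 - 1) :=
      cA.comp (continuous_fst.prodMk ((continuous_const.mul h2).sub continuous_const))
    refine Continuous.if_le h1 h3 h2 continuous_const fun p hp => ?_
    rw [cs_half hp, hp, ← A0]
    norm_num
  · intro p
    simp only
    split_ifs
    · exact nF _
    · exact nA _
  · intro t u hu
    simp only
    split_ifs
    · exact hF _ _ (by rw [norm_cs, norm_kap hu])
    · exact hA _
  · intro t u hu
    simp only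
    rw [sp_rest hu, if_neg (by norm_num)]
    norm_num
    exact A1 t
  · intro u
    simp only
    split_ifs with h
    · rw [F0, cl_cs, rest_cs rf]
    · rw [Al]
      exact (rf _ (sp_pos (by push Not at h; linarith))).symm
  · intro u
    simp only
    split_ifs with h
    · rw [F1, cl_cs, rest_cs rg]
    · rw [Ar]
      exact (rg _ (sp_pos (by push Not at h; linarith))).symm

/-- **FB** (leaf B4): freely homotopic maps in rest form are homotopic rel rest. -/
theorem fbProp (hn : 1 ≤ n) : FBProp n := by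
  intro y f g hf hg rf rg hFH
  obtain ⟨F0, cF0, nF0, hF0, F00, F01⟩ := hFH
  set F : ℝ × Bc (n + 2) → Vc (n + 2) := fun p => F0 (k p.1, cl p.2) with hF
  have mem : ∀ p : ℝ × Bc (n + 2),
      (k p.1, cl p.2) ∈ Icc (0 : ℝ) 1 ×ˢ closedBall (0 : Bc (n + 2)) 1 :=
    fun p => ⟨k_mem _, mem_closedBall_zero_iff.2 (norm_cl_le _)⟩
  have cF : Continuous F := cF0.comp_continuous
    ((continuous_k.comp continuous_fst).prodMk (continuous_cl.comp continuous_snd)) mem
  have nF : ∀ p, F p ≠ 0 := fun p => nF0 _ (k_mem _) _ (norm_cl_le _)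
  have hhF : ∀ t u, 1 ≤ ‖u‖ → ⟪ec (n + 2), F (t, u)⟫ = 0 := fun t u hu =>
    hF0 _ (k_mem _) _ (norm_cl hu)
  have F0f : ∀ u, F (0, u) = f (cl u) := fun u => by
    show F0 (k 0, cl u) = _
    rw [k_of_nonpos le_rfl, F00 _ (norm_cl_le _)]
  have F1g : ∀ u, F (1, u) = g (cl u) := fun u => by
    show F0 (k 1, cl u) = _
    rw [k_of_one_le le_rfl, F01 _ (norm_cl_le _)]
  have re0 : RestAt (e0 : Bc (n + 2)) := Or.inl e0_zero.ge
  have cle0 : cl (e0 : Bc (n + 2)) = e0 := cl_of_le norm_e0.le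
  obtain ⟨A, cA, nA, hA, A0, A1, Al, Ar⟩ := loop hn (y := y) (fun t => F (t, e0))
    (cF.comp (continuous_id.prodMk continuous_const)) (fun t => nF _)
    (fun t => hhF t e0 norm_e0.ge) (fun t => by
      show F0 (k t, cl e0) = F0 (k (k t), cl e0)
      rw [k_of_mem (k_mem t).1 (k_mem t).2])
    (by
      show F (0, e0) = y
      rw [F0f, cle0, rf _ re0])
    (by
      show F (1, e0) = y
      rw [F1g, cle0, rg _ re0])
  exact BH.trans' (BH.trans' (bh_kap hf rf)
    (mid rf rg F cF nF hhF F0f F1g A cA nA hA A0 A1 Al Ar)) (BH.symm' (bh_kap hg rg))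

end Crest.Agent.R267.FB_118
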