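import Crest.Agent.R267.ClassAsm_484
import Crest.Agent.R267.BallExt_88

/-!
# Calculus of `Isot`, `FH`, `FN` (row 267, leaf B1i of DRAFT B)

`isot_refl`, `FH`/`FN`: refl, symm, trans, congr, negation, straight segments, reparametrisation;
`exists_sys`: every data set on the closed ball gives a system; `isot_end`: every isotopy of the
data of a system ends at a system.
-/

set_option autoImplicit false
set_option linter.unusedSectionVars false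

namespace Crest.Agent.R267.IsotB_92

open Set Metric Filter Topology
open scoped RealInnerProductSpace
open Crest.Agent.R267.GS_808 Crest.Agent.R267.ClassAsm_484 Crest.Agent.R267.BallExt_88

variable {B V : Type*} [NormedAddCommGroup B] [NormedSpace ℝ B]
  [NormedAddCommGroup V] [InnerProductSpace ℝ V] {e : V} {m : ℕ}

lemma snd_mapsTo : MapsTo (Prod.snd : ℝ × B → B) (Icc (0 : ℝ) 1 ×ˢ closedBall 0 1)
    (closedBall 0 1) := fun _ hp => hp.2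

lemma mem_ball {u : B} (hu : ‖u‖ ≤ 1) : u ∈ closedBall (0 : B) 1 := mem_closedBall_zero_iff.2 hu

lemma norm_le_of_mem {u : B} (hu : u ∈ closedBall (0 : B) 1) : ‖u‖ ≤ 1 :=
  mem_closedBall_zero_iff.1 hu

lemma ends_mapsTo (t : ℝ) (ht : t ∈ Icc (0 : ℝ) 1) :
    MapsTo (fun u : B => (t, u)) (closedBall 0 1) (Icc (0 : ℝ) 1 ×ˢ closedBall 0 1) :=
  fun _ hu => ⟨ht, hu⟩

/-- **isotopy is reflexive.** -/
theorem isot_refl (G : Sys B e m) : Isot G G := by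
  refine ⟨fun k p => G.x k p.2, fun k p => G.nu k p.2,
    fun k => ((G.cx k).comp continuous_snd).continuousOn,
    fun k => ((G.cnu k).comp continuous_snd).continuousOn, fun k t _ u _ => G.norm_nu k u,
    fun k l hkl t _ u _ => ?_, fun k t _ u hu => ⟨G.wall_x k u hu.ge, G.wall_nu k u hu.ge⟩,
    fun _ _ _ => ⟨rfl, rfl⟩, fun _ _ _ => ⟨rfl, rfl⟩⟩
  intro h
  have h1 := G.sep k l u hkl
  rw [sub_eq_zero.2 h, norm_zero] at h1
  linarith [G.hr]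

/-- systems with the same data on the ball are isotopic. -/
theorem isot_of_eq {G G' : Sys B e m} (h : ∀ k u, ‖u‖ ≤ 1 → G.x k u = G'.x k u ∧
    G.nu k u = G'.nu k u) : Isot G G' := by
  obtain ⟨X, N, h1, h2, h3, h4, h5, h6, h7⟩ := isot_refl G
  refine ⟨X, N, h1, h2, h3, h4, h5, h6, fun k u hu => ?_⟩
  rw [← (h k u hu).1, ← (h k u hu).2]
  exact h7 k u hu

/-! ### free homotopy -/

section FH

variable {f g f' g' : B → V}

theorem fh_refl (c : ContinuousOn f (closedBall 0 1)) (h0 : ∀ u, ‖u‖ ≤ 1 → f u ≠ 0)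
    (h1 : ∀ u, ‖u‖ = 1 → ⟪e, f u⟫ = 0) : FH e f f :=
  ⟨fun p => f p.2, c.comp continuous_snd.continuousOn snd_mapsTo, fun _ _ u hu => h0 u hu,
    fun _ _ u hu => h1 u hu, fun _ _ => rfl, fun _ _ => rfl⟩

theorem FH.symm (h : FH e f g) : FH e g f := by
  obtain ⟨F, c, h0, h1, h2, h3⟩ := h
  have hr : MapsTo (fun p : ℝ × B => (1 - p.1, p.2)) (Icc (0 : ℝ) 1 ×ˢ closedBall 0 1)
      (Icc (0 : ℝ) 1 ×ˢ closedBall 0 1) := fun p hp =>
    ⟨⟨by linarith [hp.1.2], by linarith [hp.1.1]⟩, hp.2⟩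
  have ht : ∀ t ∈ Icc (0 : ℝ) 1, 1 - t ∈ Icc (0 : ℝ) 1 := fun t ht =>
    ⟨by linarith [ht.2], by linarith [ht.1]⟩
  refine ⟨fun p => F (1 - p.1, p.2), c.comp (by fun_prop) hr, fun t h u hu => h0 _ (ht t h) u hu,
    fun t h u hu => h1 _ (ht t h) u hu, fun u hu => ?_, fun u hu => ?_⟩
  · simpa using h3 u hu
  · simpa using h2 u hu

theorem FH.trans {k : B → V} (h : FH e f g) (h' : FH e g k) : FH e f k := by
  obtain ⟨F, c, h0, h1, h2, h3⟩ := h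
  obtain ⟨F', c', h0', h1', h2', h3'⟩ := h'
  have hL : ∀ t ∈ Icc (0 : ℝ) 1, t ≤ 1 / 2 → 2 * t ∈ Icc (0 : ℝ) 1 := fun t ht h =>
    ⟨by linarith [ht.1], by linarith⟩
  have hR : ∀ t ∈ Icc (0 : ℝ) 1, ¬ t ≤ 1 / 2 → 2 * t - 1 ∈ Icc (0 : ℝ) 1 := fun t ht h =>
    ⟨by linarith [not_le.1 h], by linarith [ht.2]⟩
  refine ⟨glue F F', continuousOn_glue c c' fun u hu => by rw [h3 u hu, h2' u hu],
    fun t ht u hu => ?_, fun t ht u hu => ?_, fun u hu => ?_, fun u hu => ?_⟩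
  · by_cases hc : t ≤ 1 / 2
    · rw [glue_left hc]; exact h0 _ (hL t ht hc) u hu
    · rw [glue_right hc]; exact h0' _ (hR t ht hc) u hu
  · by_cases hc : t ≤ 1 / 2
    · rw [glue_left hc]; exact h1 _ (hL t ht hc) u hu
    · rw [glue_right hc]; exact h1' _ (hR t ht hc) u hu
  · rw [glue_left (by norm_num), mul_zero]; exact h2 u hu
  · rw [glue_right (by norm_num)]
    have : (2 : ℝ) * 1 - 1 = 1 := by norm_num
    rw [this]
    exact h3' u hu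

theorem FH.congr (h : FH e f g) (hf : ∀ u, ‖u‖ ≤ 1 → f u = f' u)
    (hg : ∀ u, ‖u‖ ≤ 1 → g u = g' u) : FH e f' g' := by
  obtain ⟨F, c, h0, h1, h2, h3⟩ := h
  exact ⟨F, c, h0, h1, fun u hu => (h2 u hu).trans (hf u hu), fun u hu => (h3 u hu).trans (hg u hu)⟩

theorem FH.contL (h : FH e f g) : ContinuousOn f (closedBall 0 1) := by
  obtain ⟨F, c, h0, h1, h2, h3⟩ := h
  refine (c.comp (f := fun u : B => ((0 : ℝ), u)) (by fun_prop)
    (ends_mapsTo 0 ⟨le_refl _, zero_le_one⟩)).congr fun u hu => ?_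
  exact (h2 u (norm_le_of_mem hu)).symm

theorem FH.neL (h : FH e f g) (u : B) (hu : ‖u‖ ≤ 1) : f u ≠ 0 := by
  obtain ⟨F, c, h0, h1, h2, h3⟩ := h
  rw [← h2 u hu]
  exact h0 0 ⟨le_refl _, zero_le_one⟩ u hu

theorem FH.horL (h : FH e f g) (u : B) (hu : ‖u‖ = 1) : ⟪e, f u⟫ = 0 := by
  obtain ⟨F, c, h0, h1, h2, h3⟩ := h
  rw [← h2 u hu.le]
  exact h1 0 ⟨le_refl _, zero_le_one⟩ u hu

/-- negation of a free homotopy. -/
theorem FH.neg (h : FH e f g) : FH e (fun u => -f u) (fun u => -g u) := by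
  obtain ⟨F, c, h0, h1, h2, h3⟩ := h
  exact ⟨fun p => -F p, c.neg, fun t ht u hu => neg_ne_zero.2 (h0 t ht u hu),
    fun t ht u hu => by rw [inner_neg_right, h1 t ht u hu, neg_zero],
    fun u hu => by simp only [h2 u hu], fun u hu => by simp only [h3 u hu]⟩

/-- reparametrisation of the base by a homotopy of maps of pairs. -/
theorem FH.comp {Φ : ℝ × B → B} (h : FH e f g)
    (cΦ : ContinuousOn Φ (Icc 0 1 ×ˢ closedBall 0 1))
    (hb : ∀ t ∈ Icc (0 : ℝ) 1, ∀ u, ‖u‖ ≤ 1 → ‖Φ (t, u)‖ ≤ 1)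
    (hs : ∀ t ∈ Icc (0 : ℝ) 1, ∀ u, ‖u‖ = 1 → ‖Φ (t, u)‖ = 1) :
    FH e (fun u => f (Φ (0, u))) (fun u => g (Φ (1, u))) := by
  obtain ⟨F, c, h0, h1, h2, h3⟩ := h
  refine ⟨fun p => F (p.1, Φ p), c.comp (continuousOn_fst.prodMk cΦ) fun p hp =>
    ⟨hp.1, mem_ball (hb p.1 hp.1 p.2 (norm_le_of_mem hp.2))⟩,
    fun t ht u hu => h0 t ht _ (hb t ht u hu), fun t ht u hu => h1 t ht _ (hs t ht u hu),
    fun u hu => h2 _ (hb 0 ⟨le_refl _, zero_le_one⟩ u hu),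
    fun u hu => h3 _ (hb 1 ⟨zero_le_one, le_refl _⟩ u hu)⟩

/-- straight segments. -/
theorem fh_of_segment (cf : ContinuousOn f (closedBall 0 1)) (cg : ContinuousOn g (closedBall 0 1))
    (hf : ∀ u, ‖u‖ = 1 → ⟪e, f u⟫ = 0) (hg : ∀ u, ‖u‖ = 1 → ⟪e, g u⟫ = 0)
    (h : ∀ u, ‖u‖ ≤ 1 → ∀ t ∈ Icc (0 : ℝ) 1, (1 - t) • f u + t • g u ≠ 0) : FH e f g := by
  refine ⟨fun p => (1 - p.1) • f p.2 + p.1 • g p.2, ?_, fun t ht u hu => h u hu t ht,
    fun t ht u hu => ?_, fun u _ => by simp, fun u _ => by simp⟩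
  · exact ((continuousOn_const.sub continuousOn_fst).smul
      (cf.comp continuousOn_snd snd_mapsTo)).add
      (continuousOn_fst.smul (cg.comp continuousOn_snd snd_mapsTo))
  · rw [inner_add_right, inner_smul_right, inner_smul_right, hf u hu, hg u hu]; simp

/-- the segment between `f u` and `g u` misses `0` if some functional is positive on both. -/
theorem seg_ne {v w a : V} (hv : 0 < ⟪a, v⟫) (hw : 0 < ⟪a, w⟫) {t : ℝ} (ht : t ∈ Icc (0 : ℝ) 1) :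
    (1 - t) • v + t • w ≠ 0 := by
  intro h
  have h1 : ⟪a, (1 - t) • v + t • w⟫ = 0 := by rw [h, inner_zero_right]
  rw [inner_add_right, inner_smul_right, inner_smul_right] at h1
  rcases lt_or_ge t (1 / 2) with h2 | h2
  · nlinarith [mul_pos (by linarith : (0 : ℝ) < 1 - t) hv, mul_nonneg ht.1 hw.le]
  · nlinarith [mul_nonneg (by linarith [ht.2] : (0 : ℝ) ≤ 1 - t) hv.le,
      mul_pos (by linarith : (0 : ℝ) < t) hw]

/-- maps with positive inner product at every point are freely homotopic. -/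
theorem fh_of_inner_pos (cf : ContinuousOn f (closedBall 0 1))
    (cg : ContinuousOn g (closedBall 0 1))
    (hf : ∀ u, ‖u‖ = 1 → ⟪e, f u⟫ = 0) (hg : ∀ u, ‖u‖ = 1 → ⟪e, g u⟫ = 0)
    (h : ∀ u, ‖u‖ ≤ 1 → 0 < ⟪f u, g u⟫) : FH e f g := by
  refine fh_of_segment cf cg hf hg fun u hu t ht => ?_
  have h1 := h u hu
  have h2 : 0 < ⟪f u, f u⟫ := by
    rw [real_inner_self_eq_norm_sq]
    have : f u ≠ 0 := by
      intro h0
      rw [h0, inner_zero_left] at h1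
      exact lt_irrefl _ h1
    have := norm_pos_iff.2 this
    positivity
  exact seg_ne h2 h1 ht

/-- positive rescaling. -/
theorem fh_smul {c : B → ℝ} (cc : ContinuousOn c (closedBall 0 1)) (hc : ∀ u, ‖u‖ ≤ 1 → 0 < c u)
    (cf : ContinuousOn f (closedBall 0 1)) (h0 : ∀ u, ‖u‖ ≤ 1 → f u ≠ 0)
    (hf : ∀ u, ‖u‖ = 1 → ⟪e, f u⟫ = 0) : FH e f (fun u => c u • f u) := by
  refine fh_of_inner_pos cf (cc.smul cf) hf (fun u hu => by rw [inner_smul_right, hf u hu, mul_zero])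
    fun u hu => ?_
  rw [inner_smul_right, real_inner_self_eq_norm_sq]
  have := norm_pos_iff.2 (h0 u hu)
  have := hc u hu
  positivity

end FH

/-! ### homotopy of normals -/

section FN

variable {f g f' g' : B → V}

theorem fn_refl (c : ContinuousOn f (closedBall 0 1)) (h0 : ∀ u, ‖u‖ ≤ 1 → f u ≠ 0)
    (h1 : ∀ u, ‖u‖ = 1 → f u = e) : FN e f f :=
  ⟨fun p => f p.2, c.comp continuous_snd.continuousOn snd_mapsTo, fun _ _ u hu => h0 u hu,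
    fun _ _ u hu => h1 u hu, fun _ _ => rfl, fun _ _ => rfl⟩

theorem FN.symm (h : FN e f g) : FN e g f := by
  obtain ⟨F, c, h0, h1, h2, h3⟩ := h
  have hr : MapsTo (fun p : ℝ × B => (1 - p.1, p.2)) (Icc (0 : ℝ) 1 ×ˢ closedBall 0 1)
      (Icc (0 : ℝ) 1 ×ˢ closedBall 0 1) := fun p hp =>
    ⟨⟨by linarith [hp.1.2], by linarith [hp.1.1]⟩, hp.2⟩
  have ht : ∀ t ∈ Icc (0 : ℝ) 1, 1 - t ∈ Icc (0 : ℝ) 1 := fun t ht =>
    ⟨by linarith [ht.2], by linarith [ht.1]⟩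
  refine ⟨fun p => F (1 - p.1, p.2), c.comp (by fun_prop) hr, fun t h u hu => h0 _ (ht t h) u hu,
    fun t h u hu => h1 _ (ht t h) u hu, fun u hu => ?_, fun u hu => ?_⟩
  · simpa using h3 u hu
  · simpa using h2 u hu

theorem FN.trans {k : B → V} (h : FN e f g) (h' : FN e g k) : FN e f k := by
  obtain ⟨F, c, h0, h1, h2, h3⟩ := h
  obtain ⟨F', c', h0', h1', h2', h3'⟩ := h'
  have hL : ∀ t ∈ Icc (0 : ℝ) 1, t ≤ 1 / 2 → 2 * t ∈ Icc (0 : ℝ) 1 := fun t ht h =>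
    ⟨by linarith [ht.1], by linarith⟩
  have hR : ∀ t ∈ Icc (0 : ℝ) 1, ¬ t ≤ 1 / 2 → 2 * t - 1 ∈ Icc (0 : ℝ) 1 := fun t ht h =>
    ⟨by linarith [not_le.1 h], by linarith [ht.2]⟩
  refine ⟨glue F F', continuousOn_glue c c' fun u hu => by rw [h3 u hu, h2' u hu],
    fun t ht u hu => ?_, fun t ht u hu => ?_, fun u hu => ?_, fun u hu => ?_⟩
  · by_cases hc : t ≤ 1 / 2
    · rw [glue_left hc]; exact h0 _ (hL t ht hc) u hu
    · rw [glue_right hc]; exact h0' _ (hR t ht hc) u hu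
  · by_cases hc : t ≤ 1 / 2
    · rw [glue_left hc]; exact h1 _ (hL t ht hc) u hu
    · rw [glue_right hc]; exact h1' _ (hR t ht hc) u hu
  · rw [glue_left (by norm_num), mul_zero]; exact h2 u hu
  · rw [glue_right (by norm_num)]
    have : (2 : ℝ) * 1 - 1 = 1 := by norm_num
    rw [this]
    exact h3' u hu

theorem FN.congr (h : FN e f g) (hf : ∀ u, ‖u‖ ≤ 1 → f u = f' u)
    (hg : ∀ u, ‖u‖ ≤ 1 → g u = g' u) : FN e f' g' := by
  obtain ⟨F, c, h0, h1, h2, h3⟩ := h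
  exact ⟨F, c, h0, h1, fun u hu => (h2 u hu).trans (hf u hu), fun u hu => (h3 u hu).trans (hg u hu)⟩

theorem FN.contL (h : FN e f g) : ContinuousOn f (closedBall 0 1) := by
  obtain ⟨F, c, h0, h1, h2, h3⟩ := h
  refine (c.comp (f := fun u : B => ((0 : ℝ), u)) (by fun_prop)
    (ends_mapsTo 0 ⟨le_refl _, zero_le_one⟩)).congr fun u hu => ?_
  exact (h2 u (norm_le_of_mem hu)).symm

theorem FN.neL (h : FN e f g) (u : B) (hu : ‖u‖ ≤ 1) : f u ≠ 0 := by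
  obtain ⟨F, c, h0, h1, h2, h3⟩ := h
  rw [← h2 u hu]
  exact h0 0 ⟨le_refl _, zero_le_one⟩ u hu

theorem FN.comp {Φ : ℝ × B → B} (h : FN e f g)
    (cΦ : ContinuousOn Φ (Icc 0 1 ×ˢ closedBall 0 1))
    (hb : ∀ t ∈ Icc (0 : ℝ) 1, ∀ u, ‖u‖ ≤ 1 → ‖Φ (t, u)‖ ≤ 1)
    (hs : ∀ t ∈ Icc (0 : ℝ) 1, ∀ u, ‖u‖ = 1 → ‖Φ (t, u)‖ = 1) :
    FN e (fun u => f (Φ (0, u))) (fun u => g (Φ (1, u))) := by
  obtain ⟨F, c, h0, h1, h2, h3⟩ := h
  refine ⟨fun p => F (p.1, Φ p), c.comp (continuousOn_fst.prodMk cΦ) fun p hp =>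
    ⟨hp.1, mem_ball (hb p.1 hp.1 p.2 (norm_le_of_mem hp.2))⟩,
    fun t ht u hu => h0 t ht _ (hb t ht u hu), fun t ht u hu => h1 t ht _ (hs t ht u hu),
    fun u hu => h2 _ (hb 0 ⟨le_refl _, zero_le_one⟩ u hu),
    fun u hu => h3 _ (hb 1 ⟨zero_le_one, le_refl _⟩ u hu)⟩

/-- straight segments. -/
theorem fn_of_segment (cf : ContinuousOn f (closedBall 0 1)) (cg : ContinuousOn g (closedBall 0 1))
    (hf : ∀ u, ‖u‖ = 1 → f u = e) (hg : ∀ u, ‖u‖ = 1 → g u = e)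
    (h : ∀ u, ‖u‖ ≤ 1 → ∀ t ∈ Icc (0 : ℝ) 1, (1 - t) • f u + t • g u ≠ 0) : FN e f g := by
  refine ⟨fun p => (1 - p.1) • f p.2 + p.1 • g p.2, ?_, fun t ht u hu => h u hu t ht,
    fun t ht u hu => ?_, fun u _ => by simp, fun u _ => by simp⟩
  · exact ((continuousOn_const.sub continuousOn_fst).smul
      (cf.comp continuousOn_snd snd_mapsTo)).add
      (continuousOn_fst.smul (cg.comp continuousOn_snd snd_mapsTo))
  · show (1 - t) • f u + t • g u = e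
    rw [hf u hu, hg u hu, ← add_smul, sub_add_cancel, one_smul]

theorem fn_of_inner_pos (cf : ContinuousOn f (closedBall 0 1))
    (cg : ContinuousOn g (closedBall 0 1))
    (hf : ∀ u, ‖u‖ = 1 → f u = e) (hg : ∀ u, ‖u‖ = 1 → g u = e)
    (h : ∀ u, ‖u‖ ≤ 1 → 0 < ⟪f u, g u⟫) : FN e f g := by
  refine fn_of_segment cf cg hf hg fun u hu t ht => ?_
  have h1 := h u hu
  have h2 : 0 < ⟪f u, f u⟫ := by
    rw [real_inner_self_eq_norm_sq]
    have : f u ≠ 0 := by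
      intro h0
      rw [h0, inner_zero_left] at h1
      exact lt_irrefl _ h1
    have := norm_pos_iff.2 this
    positivity
  exact seg_ne h2 h1 ht

/-- normalisation of a normal field. -/
theorem fn_normalize (he : ‖e‖ = 1) (cf : ContinuousOn f (closedBall 0 1))
    (h0 : ∀ u, ‖u‖ ≤ 1 → f u ≠ 0) (hf : ∀ u, ‖u‖ = 1 → f u = e) :
    FN e f (fun u => ‖f u‖⁻¹ • f u) := by
  have hne : ∀ u ∈ closedBall (0 : B) 1, ‖f u‖ ≠ 0 := fun u hu =>
    norm_ne_zero_iff.2 (h0 u (norm_le_of_mem hu))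
  refine fn_of_inner_pos cf ((cf.norm.inv₀ hne).smul cf) hf (fun u hu => ?_) fun u hu => ?_
  · rw [hf u hu, he]; simp
  · rw [inner_smul_right, real_inner_self_eq_norm_sq]
    have := norm_pos_iff.2 (h0 u hu)
    positivity

end FN

/-! ### systems from data on the ball -/

/-- **every data set on the closed ball gives a system** (`ρ` = any retraction onto the ball, e.g.
`retr`, which also maps the complement of the open ball to the sphere). -/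
theorem exists_sys_of [FiniteDimensional ℝ B] (he : ‖e‖ = 1) (ρ : B → B) (cρ : Continuous ρ)
    (hρ : ∀ u, ‖ρ u‖ ≤ 1) (hρ1 : ∀ u, 1 ≤ ‖u‖ → ‖ρ u‖ = 1) (hρi : ∀ u, ‖u‖ ≤ 1 → ρ u = u)
    (x nu : Fin m → B → V)
    (cx : ∀ k, ContinuousOn (x k) (closedBall 0 1))
    (cnu : ∀ k, ContinuousOn (nu k) (closedBall 0 1))
    (hne : ∀ k u, ‖u‖ ≤ 1 → nu k u ≠ 0)
    (hd : ∀ k l, k ≠ l → ∀ u, ‖u‖ ≤ 1 → x k u ≠ x l u)
    (wx : ∀ k u, ‖u‖ = 1 → ⟪e, x k u⟫ = 0) (wn : ∀ k u, ‖u‖ = 1 → nu k u = e) :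
    ∃ G : Sys B e m, (∀ k u, G.x k u = x k (ρ u)) ∧
      (∀ k u, G.nu k u = ‖nu k (ρ u)‖⁻¹ • nu k (ρ u)) ∧
      (∀ k u, ‖u‖ ≤ 1 → G.x k u = x k u) ∧ (∀ k u, ‖u‖ ≤ 1 → G.nu k u = ‖nu k u‖⁻¹ • nu k u) := by
  have hK : IsCompact (closedBall (0 : B) 1) := isCompact_closedBall _ _
  have hm : ∀ u, ρ u ∈ closedBall (0 : B) 1 := fun u => mem_ball (hρ u)
  have h1 : ∀ k l, ∀ᶠ r in 𝓝[>] (0 : ℝ), k ≠ l → ∀ u, 2 * r < ‖x k (ρ u) - x l (ρ u)‖ := by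
    intro k l
    by_cases hkl : k = l
    · exact Eventually.of_forall fun r h => absurd hkl h
    obtain ⟨a, ha, hle⟩ := hK.exists_forall_le' (f := fun u => ‖x k u - x l u‖) (a := 0)
      ((cx k).sub (cx l)).norm
      fun u hu => norm_pos_iff.2 (sub_ne_zero.2 (hd k l hkl u (norm_le_of_mem hu)))
    filter_upwards [Ioo_mem_nhdsGT (half_pos ha)] with r hr _ u
    have h3 : a ≤ ‖x k (ρ u) - x l (ρ u)‖ := hle _ (hm u)
    linarith [hr.2]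
  obtain ⟨r, hr, hr0⟩ := ((eventually_all.2 fun k => eventually_all.2 fun l => h1 k l).and
    self_mem_nhdsWithin).exists
  have h2 : ∀ k, ∀ᶠ R in atTop, ∀ u, ‖x k (ρ u)‖ + r < R := by
    intro k
    obtain ⟨C, hC⟩ := hK.exists_bound_of_continuousOn (cx k)
    filter_upwards [eventually_gt_atTop (C + r)] with R hR u
    linarith [hC _ (hm u)]
  obtain ⟨R, hR⟩ := (eventually_all.2 h2).exists
  have hnn : ∀ k u, ‖nu k (ρ u)‖ ≠ 0 := fun k u => norm_ne_zero_iff.2 (hne k _ (hρ u))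
  refine ⟨⟨fun k u => x k (ρ u), fun k u => ‖nu k (ρ u)‖⁻¹ • nu k (ρ u), r, R, hr0, fun k => ?_,
    fun k => ?_, fun k u => ?_, fun k l u hkl => hr k l hkl u, fun k u => hR k u,
    fun k u hu => wx k _ (hρ1 u hu), fun k u hu => ?_⟩, fun k u => rfl, fun k u => rfl,
    fun k u hu => ?_, fun k u hu => ?_⟩
  · exact (cx k).comp_continuous cρ hm
  · have h3 : Continuous fun u => nu k (ρ u) := (cnu k).comp_continuous cρ hm
    exact (h3.norm.inv₀ (hnn k)).smul h3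
  · rw [norm_smul, norm_inv, norm_norm, inv_mul_cancel₀ (hnn k u)]
  · simp only [wn k _ (hρ1 u hu), he]
    simp
  · simp only [hρi u hu]
  · simp only [hρi u hu]

/-- radial version. -/
theorem exists_sys [FiniteDimensional ℝ B] (he : ‖e‖ = 1) (x nu : Fin m → B → V)
    (cx : ∀ k, ContinuousOn (x k) (closedBall 0 1))
    (cnu : ∀ k, ContinuousOn (nu k) (closedBall 0 1))
    (hne : ∀ k u, ‖u‖ ≤ 1 → nu k u ≠ 0)
    (hd : ∀ k l, k ≠ l → ∀ u, ‖u‖ ≤ 1 → x k u ≠ x l u)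
    (wx : ∀ k u, ‖u‖ = 1 → ⟪e, x k u⟫ = 0) (wn : ∀ k u, ‖u‖ = 1 → nu k u = e) :
    ∃ G : Sys B e m, (∀ k u, ‖u‖ ≤ 1 → G.x k u = x k u) ∧
      (∀ k u, ‖u‖ ≤ 1 → G.nu k u = ‖nu k u‖⁻¹ • nu k u) := by
  obtain ⟨G, _, _, h3, h4⟩ := exists_sys_of he retr continuous_retr norm_retr_le
    (fun u hu => norm_retr_eq hu) (fun u hu => retr_eq hu) x nu cx cnu hne hd wx wn
  exact ⟨G, h3, h4⟩

/-- **every isotopy of the data of a system ends at a system** (normals need not be unit). -/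
theorem isot_end [FiniteDimensional ℝ B] (he : ‖e‖ = 1) (G : Sys B e m)
    (X N : Fin m → ℝ × B → V)
    (cX : ∀ k, ContinuousOn (X k) (Icc 0 1 ×ˢ closedBall 0 1))
    (cN : ∀ k, ContinuousOn (N k) (Icc 0 1 ×ˢ closedBall 0 1))
    (hN : ∀ k, ∀ t ∈ Icc (0 : ℝ) 1, ∀ u, ‖u‖ ≤ 1 → N k (t, u) ≠ 0)
    (hX : ∀ k l, k ≠ l → ∀ t ∈ Icc (0 : ℝ) 1, ∀ u, ‖u‖ ≤ 1 → X k (t, u) ≠ X l (t, u))
    (hw : ∀ k, ∀ t ∈ Icc (0 : ℝ) 1, ∀ u, ‖u‖ = 1 → ⟪e, X k (t, u)⟫ = 0 ∧ N k (t, u) = e)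
    (h0 : ∀ k u, ‖u‖ ≤ 1 → X k (0, u) = G.x k u ∧ N k (0, u) = G.nu k u) :
    ∃ G' : Sys B e m, Isot G G' ∧ (∀ k u, ‖u‖ ≤ 1 → G'.x k u = X k (1, u)) ∧
      (∀ k u, ‖u‖ ≤ 1 → G'.nu k u = ‖N k (1, u)‖⁻¹ • N k (1, u)) := by
  have h1m : (1 : ℝ) ∈ Icc (0 : ℝ) 1 := ⟨zero_le_one, le_refl _⟩
  obtain ⟨G', hx, hn⟩ := exists_sys he (fun k u => X k (1, u)) (fun k u => N k (1, u))
    (fun k => (cX k).comp (f := fun u : B => ((1 : ℝ), u)) (by fun_prop) (ends_mapsTo 1 h1m))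
    (fun k => (cN k).comp (f := fun u : B => ((1 : ℝ), u)) (by fun_prop) (ends_mapsTo 1 h1m))
    (fun k u hu => hN k 1 h1m u hu) (fun k l hkl u hu => hX k l hkl 1 h1m u hu)
    (fun k u hu => (hw k 1 h1m u hu).1) (fun k u hu => (hw k 1 h1m u hu).2)
  have hnz : ∀ k, ∀ p ∈ (Icc (0 : ℝ) 1 ×ˢ closedBall (0 : B) 1), ‖N k p‖ ≠ 0 := fun k p hp =>
    norm_ne_zero_iff.2 (hN k p.1 hp.1 p.2 (norm_le_of_mem hp.2))
  refine ⟨G', ⟨X, fun k p => ‖N k p‖⁻¹ • N k p, cX, fun k => ((cN k).norm.inv₀ (hnz k)).smul (cN k),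
    fun k t ht u hu => ?_, hX, fun k t ht u hu => ⟨(hw k t ht u hu).1, ?_⟩,
    fun k u hu => ⟨(h0 k u hu).1, ?_⟩, fun k u hu => ⟨(hx k u hu).symm, (hn k u hu).symm⟩⟩, hx, hn⟩
  · rw [norm_smul, norm_inv, norm_norm, inv_mul_cancel₀ (hnz k (t, u) ⟨ht, mem_ball hu⟩)]
  · simp only [(hw k t ht u hu).2, he]; simp
  · simp only [(h0 k u hu).2, G.norm_nu]; simp

end Crest.Agent.R267.IsotB_92
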