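import Crest.Agent.R267.LemR_224
import Crest.Agent.R267.IsotB_92
import Crest.Agent.R267.DraftB_808

/-!
# `TypProp n` from `FBProp n` (row 267, TB-B5)

Rest forms with rest value `hc` are elements of `π_{n+1}` of the space of paths in `V \ 0` from
the horizontal hyperplane to `hc`; `cat`, `rev` are the product and the inverse.
-/

set_option autoImplicit false

namespace Crest.Agent.R267.TypG_527

open Set Metric
open scoped RealInnerProductSpace unitInterval Topology
open Crest.Agent.R267.GS_808 Crest.Agent.R267.DraftB_808 Crest.Agent.R267.LemR_224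

noncomputable section

/-! ### changing the rest value -/

section lin

variable {n : ℕ}

/-- the linear map `c Rf b Rf y`. -/
def Li (y b : Vc (n + 2)) (c : ℝ) (v : Vc (n + 2)) : Vc (n + 2) := c • Rf b (Rf y v)

lemma rf_rf {V : Type*} [NormedAddCommGroup V] [InnerProductSpace ℝ V] {w v : V} (hw : w ≠ 0) :
    Rf w (Rf w v) = v := by
  have h : ‖w‖ ^ 2 ≠ 0 := pow_ne_zero 2 (norm_ne_zero_iff.2 hw)
  have h1 : ⟪Rf w v, w⟫ = -⟪v, w⟫ := by
    rw [Rf, inner_sub_left, inner_smul_left, real_inner_self_eq_norm_sq]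
    simp only [conj_trivial]
    field_simp
    ring
  rw [Rf, h1, Rf]
  module

lemma rf_self {V : Type*} [NormedAddCommGroup V] [InnerProductSpace ℝ V] {w : V} (hw : w ≠ 0) :
    Rf w w = -w := by
  have h : ‖w‖ ^ 2 ≠ 0 := pow_ne_zero 2 (norm_ne_zero_iff.2 hw)
  rw [Rf, real_inner_self_eq_norm_sq, mul_div_assoc, div_self h]
  module

lemma rf_hor {w v : Vc (n + 2)} (hw : ⟪ec (n + 2), w⟫ = 0) (hv : ⟪ec (n + 2), v⟫ = 0) :
    ⟪ec (n + 2), Rf w v⟫ = 0 := by
  rw [Rf, inner_sub_right, inner_smul_right, hw, hv, mul_zero, sub_zero]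

lemma li_ne {y b : Vc (n + 2)} {c : ℝ} (hc : c ≠ 0) {v : Vc (n + 2)} (hv : v ≠ 0) :
    Li y b c v ≠ 0 := smul_ne_zero hc (rf_ne (rf_ne hv))

lemma li_hor {y b : Vc (n + 2)} {c : ℝ} (hy : ⟪ec (n + 2), y⟫ = 0) (hb : ⟪ec (n + 2), b⟫ = 0)
    {v : Vc (n + 2)} (hv : ⟪ec (n + 2), v⟫ = 0) : ⟪ec (n + 2), Li y b c v⟫ = 0 := by
  rw [Li, inner_smul_right, rf_hor hb (rf_hor hy hv), mul_zero]

lemma continuous_li {y b : Vc (n + 2)} {c : ℝ} (hy : y ≠ 0) (hb : b ≠ 0) :
    Continuous (Li y b c) :=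
  (continuous_rf (f := fun _ => b) continuous_const
    (continuous_rf (f := fun _ => y) continuous_const continuous_id fun _ => hy)
      fun _ => hb).const_smul c

lemma fh_li {y b : Vc (n + 2)} {c : ℝ} (hc : 0 < c) (hy : ⟪ec (n + 2), y⟫ = 0) (hy0 : y ≠ 0)
    (hb : ⟪ec (n + 2), b⟫ = 0) (hseg : ∀ t ∈ Icc (0 : ℝ) 1, (1 - t) • y + t • b ≠ 0)
    {f : Bc (n + 2) → Vc (n + 2)} (cf : ContinuousOn f (closedBall 0 1))
    (nf : ∀ u, ‖u‖ ≤ 1 → f u ≠ 0) (hf : ∀ u, ‖u‖ = 1 → ⟪ec (n + 2), f u⟫ = 0) :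
    FH (ec (n + 2)) f (fun u => Li y b c (f u)) := by
  have hpos : ∀ t ∈ Icc (0 : ℝ) 1, 0 < 1 - t + t * c := by
    intro t ht
    rcases eq_or_lt_of_le ht.1 with h | h
    · rw [← h]; norm_num
    · have := mul_pos h hc
      linarith [ht.2]
  refine ⟨fun p => (1 - p.1 + p.1 * c) • Rf ((1 - p.1) • y + p.1 • b) (Rf y (f p.2)),
    ?_, ?_, ?_, ?_, ?_⟩
  · refine ContinuousOn.smul (f := fun p : ℝ × Bc (n + 2) => 1 - p.1 + p.1 * c)
      (Continuous.continuousOn (by fun_prop)) ?_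
    refine continuousOn_rf (f := fun p : ℝ × Bc (n + 2) => (1 - p.1) • y + p.1 • b)
      (Continuous.continuousOn (by fun_prop)) ?_ ?_
    · refine continuousOn_rf continuousOn_const ?_ fun _ _ => hy0
      exact cf.comp continuousOn_snd fun p hp => hp.2
    · rintro ⟨t, u⟩ ⟨ht, -⟩
      exact hseg t ht
  · intro t ht u hu
    exact smul_ne_zero (hpos t ht).ne' (rf_ne (rf_ne (nf u hu)))
  · intro t ht u hu
    have h1 : ⟪ec (n + 2), (1 - t) • y + t • b⟫ = 0 := by
      rw [inner_add_right, inner_smul_right, inner_smul_right, hy, hb]; simp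
    show ⟪ec (n + 2), (1 - t + t * c) • Rf ((1 - t) • y + t • b) (Rf y (f u))⟫ = 0
    rw [inner_smul_right, rf_hor h1 (rf_hor hy (hf u hu)), mul_zero]
  · intro u _
    simp only [sub_zero, zero_mul, add_zero, one_smul, zero_smul]
    exact rf_rf hy0
  · intro u _
    simp only [sub_self, one_mul, zero_add, one_smul, zero_smul]
    rfl

lemma hc_zero' : (hc (n + 1) : Vc (n + 2)) 0 = 1 := by simp [hc]

lemma norm_hc : ‖(hc (n + 1) : Vc (n + 2))‖ = 1 := by simp [hc]

lemma sc_zero : (sc n : Vc (n + 2)) 0 = 0 := by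
  have : (sc n : Vc (n + 2)) (Fin.castSucc 0) = 0 := sc_castSucc (by simp)
  simpa using this

/-- a linear map moving `y` to `hc`, homotopic to the identity. -/
theorem exists_li {y : Vc (n + 2)} (hy : ⟪ec (n + 2), y⟫ = 0) (hy0 : y ≠ 0) :
    ∃ (b : Vc (n + 2)) (c : ℝ), 0 < c ∧ ⟪ec (n + 2), b⟫ = 0 ∧ b ≠ 0 ∧
      (∀ t ∈ Icc (0 : ℝ) 1, (1 - t) • y + t • b ≠ 0) ∧ Li y b c y = hc (n + 1) := by
  have hyn : 0 < ‖y‖ := norm_pos_iff.2 hy0
  have hhc : ⟪ec (n + 2), hc (n + 1)⟫ = 0 := ec_hc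
  have hns : ‖(hc (n + 1) : Vc (n + 2))‖ = 1 := norm_hc
  by_cases h : y + ‖y‖ • hc (n + 1) = 0
  · have hy' : y = -(‖y‖ • hc (n + 1)) := eq_neg_of_add_eq_zero_left h
    refine ⟨sc n, ‖y‖⁻¹, inv_pos.2 hyn, ec_sc, sc_ne, ?_, ?_⟩
    · intro t ht h0
      have h1 := congrArg (fun v : Vc (n + 2) => v 0) h0
      simp only [PiLp.add_apply, PiLp.smul_apply, sc_zero, PiLp.zero_apply, smul_eq_mul,
        mul_zero, add_zero] at h1
      have h2 : y 0 = -‖y‖ := by
        rw [hy']
        simp [hc_zero', hns, norm_smul]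
      rw [h2] at h1
      have h3 : t = 1 := by
        rcases mul_eq_zero.1 h1 with h4 | h4
        · linarith
        · linarith
      rw [h3] at h0
      simp only [sub_self, zero_smul, one_smul, zero_add] at h0
      exact sc_ne h0
    · have h1 : ⟪(-y : Vc (n + 2)), sc n⟫ = 0 := by
        rw [hy', neg_neg, inner_smul_left, sc, EuclideanSpace.inner_single_right]
        simp [hc]
      rw [Li, rf_self hy0, rf_of_orth h1]
      have h2 : -y = ‖y‖ • hc (n + 1) := by rw [eq_comm]; exact (neg_eq_of_add_eq_zero_right h).symm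
      rw [h2, smul_smul, inv_mul_cancel₀ hyn.ne', one_smul]
  · refine ⟨y + ‖y‖ • hc (n + 1), ‖y‖⁻¹, inv_pos.2 hyn, ?_, h, ?_, ?_⟩
    · rw [inner_add_right, inner_smul_right, hy, hhc, mul_zero, add_zero]
    · intro t ht h0
      have h1 : y + (t * ‖y‖) • hc (n + 1) = 0 := by
        rw [← h0]; module
      have h2 : ‖y‖ = t * ‖y‖ := by
        have h3 : y = -((t * ‖y‖) • hc (n + 1)) := eq_neg_of_add_eq_zero_left h1
        conv_lhs => rw [h3]
        rw [norm_neg, norm_smul, hns, mul_one, Real.norm_eq_abs,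
          abs_of_nonneg (mul_nonneg ht.1 hyn.le)]
      have h4 : t = 1 := by
        have := mul_right_cancel₀ hyn.ne' (h2.symm.trans (one_mul _).symm)
        exact this
      rw [h4, one_mul] at h1
      exact h h1
    · set z : Vc (n + 2) := hc (n + 1) with hz
      have e1 : ⟪y, y⟫ = ‖y‖ ^ 2 := real_inner_self_eq_norm_sq y
      have e2 : ⟪z, z⟫ = 1 := by rw [real_inner_self_eq_norm_sq, hns]; norm_num
      have e3 : ‖y + ‖y‖ • z‖ ^ 2 = 2 * ‖y‖ * (‖y‖ + ⟪y, z⟫) := by
        rw [← real_inner_self_eq_norm_sq, inner_add_left, inner_add_right, inner_add_right,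
          inner_smul_left, inner_smul_left, inner_smul_right, inner_smul_right, e1, e2,
          real_inner_comm y z]
        simp only [conj_trivial]
        ring
      have e4 : ⟪y, y + ‖y‖ • z⟫ = ‖y‖ * (‖y‖ + ⟪y, z⟫) := by
        rw [inner_add_right, inner_smul_right, e1]; ring
      have e5 : ‖y + ‖y‖ • z‖ ^ 2 ≠ 0 := pow_ne_zero 2 (norm_ne_zero_iff.2 h)
      have e6 : ‖y‖ + ⟪y, z⟫ ≠ 0 := by
        intro h6
        rw [e3, h6, mul_zero] at e5
        exact e5 rfl
      rw [Li, rf_self hy0, Rf, inner_neg_left, e4, e3]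
      have e7 : 2 * -(‖y‖ * (‖y‖ + ⟪y, z⟫)) / (2 * ‖y‖ * (‖y‖ + ⟪y, z⟫)) = -1 := by
        have := hyn.ne'
        field_simp
      rw [e7]
      have e8 : -y - (-1 : ℝ) • (y + ‖y‖ • z) = ‖y‖ • z := by module
      rw [e8, smul_smul, inv_mul_cancel₀ hyn.ne', one_smul]

end lin

/-! ### the path space -/

section paths

variable (n : ℕ)

/-- paths in `V \ 0` from the horizontal hyperplane to `hc`. -/
def XP : Type :=
  {γ : C(I, Vc (n + 2)) // (∀ t, γ t ≠ 0) ∧ ⟪ec (n + 2), γ 0⟫ = 0 ∧ γ 1 = hc (n + 1)}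

instance : TopologicalSpace (XP n) := instTopologicalSpaceSubtype

/-- the constant path. -/
def bp : XP n := ⟨ContinuousMap.const I (hc (n + 1)), fun _ => hc_ne, ec_hc, rfl⟩

variable {n}

/-- maps in rest form with rest value `hc`. -/
def RF (n : ℕ) : Type := {f : Bc (n + 2) → Vc (n + 2) // Adm (n + 2) f ∧ IsRest (hc (n + 1)) f}

/-- the point of the base with coordinates `2 t - 1`, `2 w - 1`. -/
def emb (t : I) (w : Fin (n + 1) → I) : Bc (n + 2) :=
  Fin.cons (α := fun _ => ℝ) (2 * (t : ℝ) - 1) (fun i => 2 * (w i : ℝ) - 1)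

@[simp] lemma emb_zero (t : I) (w : Fin (n + 1) → I) : emb t w 0 = 2 * (t : ℝ) - 1 := rfl

@[simp] lemma emb_succ (t : I) (w : Fin (n + 1) → I) (i : Fin (n + 1)) :
    emb t w i.succ = 2 * (w i : ℝ) - 1 := rfl

lemma continuous_emb : Continuous fun p : (Fin (n + 1) → I) × I => emb p.2 p.1 := by
  refine continuous_pi fun i => ?_
  refine Fin.cases ?_ (fun i => ?_) i
  · simp only [emb_zero]; fun_prop
  · simp only [emb_succ]; fun_prop

lemma norm_emb (t : I) (w : Fin (n + 1) → I) : ‖emb t w‖ ≤ 1 := by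
  rw [pi_norm_le_iff_of_nonneg zero_le_one]
  intro i
  refine Fin.cases ?_ (fun i => ?_) i
  · rw [emb_zero, Real.norm_eq_abs, abs_le]
    constructor <;> linarith [t.2.1, t.2.2]
  · rw [emb_succ, Real.norm_eq_abs, abs_le]
    constructor <;> linarith [(w i).2.1, (w i).2.2]

lemma rest_bd {t : I} {w : Fin (n + 1) → I} (hw : w ∈ Cube.boundary (Fin (n + 1))) :
    RestAt (emb t w) := by
  obtain ⟨i, hi⟩ := hw
  right
  refine ⟨i.succ, Fin.succ_ne_zero i, ?_⟩
  rw [emb_succ]
  rcases hi with h | h <;> rw [h] <;> norm_num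

lemma rest_t1 (w : Fin (n + 1) → I) : RestAt (emb 1 w) := by
  left
  rw [emb_zero]; norm_num

lemma sph_t0 (w : Fin (n + 1) → I) : 1 ≤ ‖emb 0 w‖ := by
  have := norm_le_pi_norm (emb 0 w) 0
  rw [emb_zero, Real.norm_eq_abs] at this
  refine le_trans ?_ this
  norm_num

/-- the generalized loop of a rest form. -/
def th (f : RF n) : GenLoop (Fin (n + 1)) (XP n) (bp n) :=
  ⟨⟨fun w => ⟨⟨fun t => f.1 (emb t w), f.2.1.cont.comp (continuous_emb.comp
      (Continuous.prodMk continuous_const continuous_id))⟩, fun t => f.2.1.ne _,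
      f.2.1.hor _ (sph_t0 w), f.2.2 _ (rest_t1 w)⟩, by
        refine Continuous.subtype_mk ?_ _
        exact ContinuousMap.curry (⟨fun p : (Fin (n + 1) → I) × I => f.1 (emb p.2 p.1),
          f.2.1.cont.comp continuous_emb⟩ : C((Fin (n + 1) → I) × I, Vc (n + 2))) |>.continuous⟩,
    fun w hw => Subtype.ext (ContinuousMap.ext fun t => f.2.2 _ (rest_bd hw))⟩

@[simp] lemma th_apply (f : RF n) (w : Fin (n + 1) → I) (t : I) :
    (th f w).1 t = f.1 (emb t w) := rfl

/-- the class of a rest form. -/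
def cls (f : RF n) : HomotopyGroup (Fin (n + 1)) (XP n) (bp n) := Quotient.mk _ (th f)

lemma cls_eq_of_bh {f g : RF n} (h : BH n (hc (n + 1)) f.1 g.1) : cls f = cls g := by
  apply Quotient.sound
  obtain ⟨F, hF, h0, h1, h2, h3, h4⟩ := h
  have hce : Continuous fun p : (I × (Fin (n + 1) → I)) × I =>
      F ((p.1.1 : ℝ), emb p.2 p.1.2) := by
    refine hF.comp (Continuous.prodMk (by fun_prop) ?_)
    exact continuous_emb.comp (Continuous.prodMk (by fun_prop) (by fun_prop))
  refine ⟨⟨⟨⟨fun p => ⟨⟨fun t => F ((p.1 : ℝ), emb t p.2), hce.comp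
      (Continuous.prodMk continuous_const continuous_id)⟩, fun t => h0 _,
      h1 _ _ (sph_t0 _), h2 _ _ (rest_t1 _)⟩, ?_⟩, ?_, ?_⟩, ?_⟩⟩
  · refine Continuous.subtype_mk ?_ _
    exact ContinuousMap.curry (⟨fun p : (I × (Fin (n + 1) → I)) × I =>
      F ((p.1.1 : ℝ), emb p.2 p.1.2), hce⟩ :
        C((I × (Fin (n + 1) → I)) × I, Vc (n + 2))) |>.continuous
  · intro w
    exact Subtype.ext (ContinuousMap.ext fun t => h3 _)
  · intro w
    exact Subtype.ext (ContinuousMap.ext fun t => h4 _)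
  · intro s w hw
    exact Subtype.ext (ContinuousMap.ext fun t =>
      (h2 _ _ (rest_bd hw)).trans (f.2.2 _ (rest_bd hw)).symm)

/-- the cube coordinate of a real number. -/
def pr (x : ℝ) : I := projIcc 0 1 zero_le_one ((x + 1) / 2)

lemma continuous_pr : Continuous pr := continuous_projIcc.comp (by fun_prop)

lemma pr_coe {x : ℝ} (hx : |x| ≤ 1) : (pr x : ℝ) = (x + 1) / 2 := by
  rw [abs_le] at hx
  rw [pr, projIcc_of_mem zero_le_one ⟨by linarith [hx.1], by linarith [hx.2]⟩]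

lemma pr_one : pr 1 = 1 := by
  apply Subtype.ext
  rw [pr_coe (by norm_num)]; norm_num

lemma pr_neg_one : pr (-1) = 0 := by
  apply Subtype.ext
  rw [pr_coe (by norm_num)]; norm_num

/-- cube coordinates of a point of the base. -/
def wc (u : Bc (n + 2)) : Fin (n + 1) → I := fun i => pr (u i.succ)

lemma continuous_wc : Continuous (wc (n := n)) :=
  continuous_pi fun _ => continuous_pr.comp (continuous_apply _)

lemma emb_wc {u : Bc (n + 2)} (hu : ‖u‖ ≤ 1) : emb (pr (u 0)) (wc u) = u := by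
  have h : ∀ i, |u i| ≤ 1 := fun i => (norm_le_pi_norm u i).trans hu
  funext i
  refine Fin.cases ?_ (fun i => ?_) i
  · rw [emb_zero, pr_coe (h 0)]; ring
  · rw [emb_succ, wc, pr_coe (h _)]; ring

lemma fh_of_cls {f g : RF n} (h : cls f = cls g) : FH (ec (n + 2)) f.1 g.1 := by
  obtain ⟨H⟩ : GenLoop.Homotopic (th f) (th g) := Quotient.exact h
  have cH : Continuous fun q : ℝ × Bc (n + 2) =>
      (H (projIcc 0 1 zero_le_one q.1, wc q.2)).1 (pr (q.2 0)) := by
    have c1 : Continuous fun q : ℝ × Bc (n + 2) =>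
        (H (projIcc 0 1 zero_le_one q.1, wc q.2)).1 := by
      refine continuous_subtype_val.comp (H.continuous.comp ?_)
      exact Continuous.prodMk (continuous_projIcc.comp continuous_fst)
        (continuous_wc.comp continuous_snd)
    have c2 : Continuous fun q : ℝ × Bc (n + 2) => pr (q.2 0) :=
      continuous_pr.comp ((continuous_apply 0).comp continuous_snd)
    exact c1.eval c2
  refine ⟨fun q => (H (projIcc 0 1 zero_le_one q.1, wc q.2)).1 (pr (q.2 0)), cH.continuousOn,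
    ?_, ?_, ?_, ?_⟩
  · intro t _ u _
    exact (H (projIcc 0 1 zero_le_one t, wc u)).2.1 _
  · intro t ht u hu
    obtain ⟨i, hi⟩ : ∃ i, 1 ≤ |u i| := by
      by_contra hn
      push Not at hn
      have : ‖u‖ < 1 := (pi_norm_lt_iff one_pos).2 fun i => hn i
      linarith
    have hle : |u i| ≤ 1 := (norm_le_pi_norm u i).trans hu.le
    have he : |u i| = 1 := le_antisymm hle hi
    revert he
    refine Fin.cases ?_ (fun j => ?_) i
    · intro he
      rcases eq_or_eq_neg_of_abs_eq he with h1 | h1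
      · simp only [h1, pr_one]
        rw [(H (projIcc 0 1 zero_le_one t, wc u)).2.2.2]
        exact ec_hc
      · simp only [h1, pr_neg_one]
        exact (H (projIcc 0 1 zero_le_one t, wc u)).2.2.1
    · intro he
      have hb : wc u ∈ Cube.boundary (Fin (n + 1)) := by
        refine ⟨j, ?_⟩
        rcases eq_or_eq_neg_of_abs_eq he with h1 | h1
        · right; rw [wc, h1, pr_one]
        · left; rw [wc, h1, pr_neg_one]
      have h2 := H.eq_fst (projIcc 0 1 zero_le_one t) hb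
      simp only
      rw [h2]
      show ⟪ec (n + 2), (th f (wc u)).1 (pr (u 0))⟫ = 0
      rw [GenLoop.boundary (th f) _ hb]
      exact ec_hc
  · intro u hu
    simp only [projIcc_left]
    have h2 : H (0, wc u) = (th f).1 (wc u) := H.map_zero_left (wc u)
    have h3 : (H (0, wc u)).1 (pr (u 0)) = (th f (wc u)).1 (pr (u 0)) :=
      congrArg (fun γ : XP n => γ.1 (pr (u 0))) h2
    refine h3.trans ?_
    rw [th_apply, emb_wc hu]
  · intro u hu
    simp only [projIcc_right]
    have h2 : H (1, wc u) = (th g).1 (wc u) := H.map_one_left (wc u)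
    have h3 : (H (1, wc u)).1 (pr (u 0)) = (th g (wc u)).1 (pr (u 0)) :=
      congrArg (fun γ : XP n => γ.1 (pr (u 0))) h2
    refine h3.trans ?_
    rw [th_apply, emb_wc hu]

/-- the product of rest forms. -/
def catR (f g : RF n) : RF n :=
  ⟨cat f.1 g.1, adm_cat f.2.1 g.2.1 f.2.2 g.2.2, rest_cat f.2.2 g.2.2⟩

/-- the reverse of a rest form. -/
def revR (f : RF n) : RF n := ⟨rev f.1, adm_rev f.2.1, fun u hu => f.2.2 _ (by
  rcases hu with h | ⟨i, hi, h⟩
  · left
    rw [flip_ne u (by simp)]; exact h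
  · right
    refine ⟨i, hi, ?_⟩
    by_cases h1 : i = 1
    · subst h1; exact flip_abs h
    · rw [flip_ne u h1]; exact h)⟩

/-- the constant rest form. -/
def oneR : RF n := ⟨fun _ => hc (n + 1), ⟨continuous_const, fun _ => hc_ne, fun _ _ => ec_hc⟩,
  fun _ _ => rfl⟩

lemma emb_update (t : I) (w : Fin (n + 1) → I) (x : I) :
    emb t (Function.update w 0 x) = Function.update (emb t w) 1 (2 * (x : ℝ) - 1) := by
  funext i
  refine Fin.cases ?_ (fun i => ?_) i
  · rw [Function.update_of_ne (by simp), emb_zero, emb_zero]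
  · rw [emb_succ]
    by_cases hi : i = 0
    · subst hi
      rw [Function.update_self]
      exact (Function.update_self (f := emb t w) (1 : Fin (n + 2)) _).symm
    · rw [Function.update_of_ne hi, Function.update_of_ne, emb_succ]
      intro h
      apply hi
      have : (1 : Fin (n + 2)) = Fin.succ 0 := rfl
      rw [this] at h
      exact Fin.succ_injective _ h

lemma emb_one (t : I) (w : Fin (n + 1) → I) : emb t w 1 = 2 * (w 0 : ℝ) - 1 := rfl

lemma cls_cat (f g : RF n) : cls (catR f g) = cls g * cls f := by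
  rw [cls, cls, cls]
  have h : th (catR f g) = GenLoop.transAt 0 (th f) (th g) := by
    apply GenLoop.ext
    intro w
    rw [GenLoop.transAt, GenLoop.coe_copy]
    apply Subtype.ext
    apply ContinuousMap.ext
    intro t
    rw [th_apply]
    show cat f.1 g.1 (emb t w) = _
    rw [cat, emb_one]
    by_cases hw : ((w 0 : I) : ℝ) ≤ 1 / 2
    · have hm : 2 * ((w 0 : I) : ℝ) ∈ Icc (0 : ℝ) 1 := ⟨by linarith [(w 0).2.1], by linarith⟩
      have he : 2 * (2 * ((w 0 : I) : ℝ) - 1) + 1 = 2 * (2 * ((w 0 : I) : ℝ)) - 1 := by ring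
      rw [if_pos (by linarith), if_pos hw, th_apply, emb_update, blowL, emb_one,
        projIcc_of_mem zero_le_one hm, he]
    · have hw' := not_le.1 hw
      have hm : 2 * ((w 0 : I) : ℝ) - 1 ∈ Icc (0 : ℝ) 1 :=
        ⟨by linarith, by linarith [(w 0).2.2]⟩
      rw [if_neg (by linarith), if_neg hw, th_apply, emb_update, blowR, emb_one,
        projIcc_of_mem zero_le_one hm]
  rw [h]
  exact (HomotopyGroup.mul_spec (i := (0 : Fin (n + 1)))).symm

lemma cls_rev (f : RF n) : cls (revR f) = (cls f)⁻¹ := by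
  rw [cls, cls]
  have h : th (revR f) = GenLoop.symmAt 0 (th f) := by
    apply GenLoop.ext
    intro w
    rw [GenLoop.symmAt, GenLoop.coe_copy]
    apply Subtype.ext
    apply ContinuousMap.ext
    intro t
    rw [th_apply, th_apply]
    show f.1 (Function.update (emb t w) 1 (-(emb t w 1))) = _
    have h1 : (fun j => if j = 0 then σ (w 0) else w j) = Function.update w 0 (σ (w 0)) := by
      funext j
      by_cases hj : j = 0
      · subst hj; simp
      · simp [hj]
    have he : -(2 * ((w 0 : I) : ℝ) - 1) = 2 * ((σ (w 0) : I) : ℝ) - 1 := by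
      rw [unitInterval.coe_symm_eq]; ring
    rw [h1, emb_update, emb_one, he]
  rw [h]
  exact (HomotopyGroup.inv_spec (i := (0 : Fin (n + 1)))).symm

lemma cls_one : cls (oneR (n := n)) = 1 := by
  rw [HomotopyGroup.one_def, cls]
  congr 1

end paths

/-! ### the class of a typed map -/

section final

variable {n : ℕ}

theorem FB (hFB : FBProp n) {f g : RF n} (h : FH (ec (n + 2)) f.1 g.1) : cls f = cls g :=
  cls_eq_of_bh (hFB (hc (n + 1)) f.1 g.1 f.2.1 g.2.1 f.2.2 g.2.2 h)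

open Classical in
/-- the class of any rest form of `f`. -/
def clF (f : Bc (n + 2) → Vc (n + 2)) : HomotopyGroup (Fin (n + 1)) (XP n) (bp n) :=
  if h : ∃ f' : RF n, FH (ec (n + 2)) f f'.1 then cls h.choose else 1

theorem clF_eq (hFB : FBProp n) {f : Bc (n + 2) → Vc (n + 2)} {f' : RF n}
    (h : FH (ec (n + 2)) f f'.1) : clF f = cls f' := by
  have h1 : ∃ f' : RF n, FH (ec (n + 2)) f f'.1 := ⟨f', h⟩
  rw [clF, dif_pos h1]
  exact FB hFB (IsotB_92.FH.trans (IsotB_92.FH.symm h1.choose_spec) h)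

/-- the transported map is a rest form. -/
def liR {y b : Vc (n + 2)} {c : ℝ} (hc0 : 0 < c) (hy : ⟪ec (n + 2), y⟫ = 0) (hy0 : y ≠ 0)
    (hb : ⟪ec (n + 2), b⟫ = 0) (hb0 : b ≠ 0) (hL : Li y b c y = hc (n + 1))
    {f : Bc (n + 2) → Vc (n + 2)} (hf : Adm (n + 2) f) (rf : IsRest y f) : RF n :=
  ⟨fun u => Li y b c (f u), ⟨(continuous_li hy0 hb0).comp hf.cont, fun u => li_ne hc0.ne' (hf.ne u),
    fun u hu => li_hor hy hb (hf.hor u hu)⟩, fun u hu => by
      show Li y b c (f u) = _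
      rw [rf u hu, hL]⟩

/-- every typed map has a rest form with rest value `hc`. -/
theorem exists_RF {f : Bc (n + 2) → Vc (n + 2)} {a b : ℤ} (h : Typ n f a b) :
    ∃ f' : RF n, FH (ec (n + 2)) f f'.1 := by
  obtain ⟨T', y, hA, hR, hH, hy0, hy⟩ := typ_rest h
  obtain ⟨b, c, hc0, hb, hb0, hseg, hL⟩ := exists_li hy hy0
  exact ⟨liR hc0 hy hy0 hb hb0 hL hA hR, IsotB_92.FH.trans hH
    (fh_li hc0 hy hy0 hb hseg hA.cont.continuousOn (fun u _ => hA.ne u)
      fun u hu => hA.hor u hu.ge)⟩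

lemma rest_pt : RestAt (emb (1 : I) (fun _ : Fin (n + 1) => (1 : I))) := rest_t1 _

lemma rest_val {y : Vc (n + 2)} {f : Bc (n + 2) → Vc (n + 2)} (hf : Adm (n + 2) f)
    (rf : IsRest y f) : y ≠ 0 ∧ ⟪ec (n + 2), y⟫ = 0 := by
  have h1 := rf _ (rest_pt (n := n))
  constructor
  · rw [← h1]; exact hf.ne _
  · rw [← h1]
    refine hf.hor _ ?_
    have := norm_le_pi_norm (emb (1 : I) (fun _ : Fin (n + 1) => (1 : I))) 0
    rw [emb_zero, Real.norm_eq_abs] at this
    refine le_trans ?_ this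
    norm_num

/-- class of a concatenation of rest forms. -/
theorem clF_cat (hFB : FBProp n) {y : Vc (n + 2)} {f g : Bc (n + 2) → Vc (n + 2)}
    (hf : Adm (n + 2) f) (hg : Adm (n + 2) g) (rf : IsRest y f) (rg : IsRest y g) :
    clF (cat f g) = clF g * clF f := by
  obtain ⟨hy0, hy⟩ := rest_val hf rf
  obtain ⟨b, c, hc0, hb, hb0, hseg, hL⟩ := exists_li hy hy0
  have kf : FH (ec (n + 2)) f (liR hc0 hy hy0 hb hb0 hL hf rf).1 :=
    fh_li hc0 hy hy0 hb hseg hf.cont.continuousOn (fun u _ => hf.ne u) fun u hu => hf.hor u hu.ge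
  have kg : FH (ec (n + 2)) g (liR hc0 hy hy0 hb hb0 hL hg rg).1 :=
    fh_li hc0 hy hy0 hb hseg hg.cont.continuousOn (fun u _ => hg.ne u) fun u hu => hg.hor u hu.ge
  have hA := adm_cat hf hg rf rg
  have kc : FH (ec (n + 2)) (cat f g)
      (catR (liR hc0 hy hy0 hb hb0 hL hf rf) (liR hc0 hy hy0 hb hb0 hL hg rg)).1 := by
    have h1 := fh_li (c := c) hc0 hy hy0 hb hseg hA.cont.continuousOn (fun u _ => hA.ne u)
      fun u hu => hA.hor u hu.ge
    have h2 : (catR (liR hc0 hy hy0 hb hb0 hL hf rf) (liR hc0 hy hy0 hb hb0 hL hg rg)).1 =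
        fun u => Li y b c (cat f g u) := by
      funext u
      show cat (fun u => Li y b c (f u)) (fun u => Li y b c (g u)) u = _
      rw [cat, cat]
      split_ifs <;> rfl
    rw [h2]
    exact h1
  rw [clF_eq hFB kc, cls_cat, clF_eq hFB kf, clF_eq hFB kg]

/-- class of the reverse of a rest form. -/
theorem clF_rev (hFB : FBProp n) {y : Vc (n + 2)} {f : Bc (n + 2) → Vc (n + 2)}
    (hf : Adm (n + 2) f) (rf : IsRest y f) :
    clF (rev f) = (clF f)⁻¹ := by
  obtain ⟨hy0, hy⟩ := rest_val hf rf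
  obtain ⟨b, c, hc0, hb, hb0, hseg, hL⟩ := exists_li hy hy0
  have kf : FH (ec (n + 2)) f (liR hc0 hy hy0 hb hb0 hL hf rf).1 :=
    fh_li hc0 hy hy0 hb hseg hf.cont.continuousOn (fun u _ => hf.ne u) fun u hu => hf.hor u hu.ge
  have hA := adm_rev hf
  have kc : FH (ec (n + 2)) (rev f) (revR (liR hc0 hy hy0 hb hb0 hL hf rf)).1 :=
    fh_li (c := c) hc0 hy hy0 hb hseg hA.cont.continuousOn (fun u _ => hA.ne u)
      fun u hu => hA.hor u hu.ge
  rw [clF_eq hFB kc, cls_rev, clF_eq hFB kf]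

/-- the class is `α ^ a * β ^ b`. -/
theorem clF_typ (hn : 1 ≤ n) (hFB : FBProp n) {f : Bc (n + 2) → Vc (n + 2)} {a b : ℤ}
    (h : Typ n f a b) :
    clF f = clF (n := n) al ^ a * clF (n := n) (fun u => -al u) ^ b := by
  have : Nontrivial (Fin (n + 1)) := Fin.nontrivial_iff_two_le.2 (by omega)
  have hcomm : ∀ x y : HomotopyGroup (Fin (n + 1)) (XP n) (bp n), x * y = y * x := by
    intro x y
    have h1 := (HomotopyGroup.commGroup (N := Fin (n + 1)) (X := XP n) (x := bp n)).mul_comm x y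
    exact h1
  induction h with
  | zero =>
    have k : FH (ec (n + 2)) (fun _ : Bc (n + 2) => hc (n + 1)) (oneR (n := n)).1 :=
      IsotB_92.fh_refl continuousOn_const (fun _ _ => hc_ne) fun _ _ => ec_hc
    rw [clF_eq hFB k, cls_one]
    simp
  | al => simp
  | be => simp
  | congr h H ih =>
    obtain ⟨f', hf'⟩ := exists_RF h
    rw [← ih, clF_eq hFB hf', clF_eq hFB (IsotB_92.FH.trans (IsotB_92.FH.symm H) hf')]
  | @cat f g a b a' b' y hf hg rf rg h h' ih ih' =>
    rw [clF_cat hFB hf hg rf rg, ih, ih', zpow_add, zpow_add]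
    generalize clF (n := n) al ^ a = A
    generalize clF (n := n) al ^ a' = A'
    generalize clF (n := n) (fun u => -al u) ^ b = B
    generalize clF (n := n) (fun u => -al u) ^ b' = B'
    rw [hcomm (A' * B') (A * B), mul_assoc, mul_assoc, ← mul_assoc B, hcomm B A', mul_assoc]
  | rev y hf rf h ih =>
    rw [clF_rev hFB hf rf, ih, mul_inv_rev, zpow_neg, zpow_neg, hcomm]

/-- **TYP** from **FB**. -/
theorem typProp (n : ℕ) (hn : 1 ≤ n) (hFB : FBProp n) : TypProp n := by
  intro f g a b hf hg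
  obtain ⟨f', kf⟩ := exists_RF hf
  obtain ⟨g', kg⟩ := exists_RF hg
  have h1 : cls f' = cls g' := by
    rw [← clF_eq hFB kf, ← clF_eq hFB kg, clF_typ hn hFB hf, clF_typ hn hFB hg]
  exact IsotB_92.FH.trans kf (IsotB_92.FH.trans (fh_of_cls h1) (IsotB_92.FH.symm kg))

end final

end

end Crest.Agent.R267.TypG_527
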