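import Crest.Agent.R267.Norm_855

/-!
# LEMMA R (row 267, leaf B7c of DRAFT B)

`typN_rf`: if `T` has class `α^a β^b` and `nu` has class `γ^c`, then the reflected normal
`nu - 2 ⟪nu, T⟫ / ‖T‖² T` has class `γ^(a + b - c)`.
-/

set_option autoImplicit false
set_option linter.unusedSectionVars false
set_option linter.unusedVariables false

namespace Crest.Agent.R267.LemR_224

open Set Metric
open scoped RealInnerProductSpace
open Crest.Agent.R267.GS_808 Crest.Agent.R267.Norm_855

noncomputable section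

/-! ### reflections -/

section refl

variable {V : Type*} [NormedAddCommGroup V] [InnerProductSpace ℝ V]

/-- reflection of `v` in the hyperplane orthogonal to `w` -/
def Rf (w v : V) : V := v - (2 * ⟪v, w⟫ / ‖w‖ ^ 2) • w

lemma rf_neg (w v : V) : Rf (-w) v = Rf w v := by
  simp only [Rf, inner_neg_right, norm_neg, smul_neg, ← neg_smul]
  congr 2
  ring

lemma rf_of_orth {w v : V} (h : ⟪v, w⟫ = 0) : Rf w v = v := by
  simp [Rf, h]

lemma rf_of_orth' {w v : V} (h : ⟪w, v⟫ = 0) : Rf w v = v :=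
  rf_of_orth (by rw [real_inner_comm]; exact h)

lemma norm_rf_sq (w v : V) : ‖Rf w v‖ ^ 2 = ‖v‖ ^ 2 := by
  by_cases hw : w = 0
  · simp [Rf, hw]
  · have h : ‖w‖ ^ 2 ≠ 0 := by positivity
    rw [Rf, norm_sub_sq_real, norm_smul, mul_pow, Real.norm_eq_abs, sq_abs, inner_smul_right]
    field_simp
    ring

lemma norm_rf (w v : V) : ‖Rf w v‖ = ‖v‖ := by
  have := norm_rf_sq w v
  exact (sq_eq_sq₀ (norm_nonneg _) (norm_nonneg _)).1 this

lemma rf_ne {w v : V} (hv : v ≠ 0) : Rf w v ≠ 0 := by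
  rw [← norm_pos_iff, norm_rf]
  exact norm_pos_iff.2 hv

lemma continuousOn_rf {X : Type*} [TopologicalSpace X] {s : Set X} {f g : X → V}
    (hf : ContinuousOn f s) (hg : ContinuousOn g s) (h0 : ∀ x ∈ s, f x ≠ 0) :
    ContinuousOn (fun x => Rf (f x) (g x)) s := by
  unfold Rf
  refine hg.sub (ContinuousOn.smul ?_ hf)
  exact (continuousOn_const.mul (hg.inner hf)).div (hf.norm.pow 2) fun x hx => by
    have := norm_pos_iff.2 (h0 x hx)
    positivity

lemma continuous_rf {X : Type*} [TopologicalSpace X] {f g : X → V}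
    (hf : Continuous f) (hg : Continuous g) (h0 : ∀ x, f x ≠ 0) :
    Continuous (fun x => Rf (f x) (g x)) := by
  rw [← continuousOn_univ]
  exact continuousOn_rf hf.continuousOn hg.continuousOn fun x _ => h0 x

/-- homotopic data give homotopic reflected normals. -/
lemma FN_rf {B : Type*} [NormedAddCommGroup B] [NormedSpace ℝ B] {e : V} {T T' nu nu' : B → V}
    (hT : FH e T T') (hn : FN e nu nu') :
    FN e (fun u => Rf (T u) (nu u)) (fun u => Rf (T' u) (nu' u)) := by
  obtain ⟨F, hF, h0, h1, h2, h3⟩ := hT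
  obtain ⟨G, hG, g0, g1, g2, g3⟩ := hn
  refine ⟨fun p => Rf (F p) (G p), continuousOn_rf hF hG ?_, ?_, ?_, ?_, ?_⟩
  · rintro ⟨t, u⟩ ⟨ht, hu⟩
    exact h0 t ht u (by simpa using hu)
  · intro t ht u hu
    exact rf_ne (g0 t ht u hu)
  · intro t ht u hu
    show Rf (F (t, u)) (G (t, u)) = e
    rw [g1 t ht u hu]
    exact rf_of_orth (h1 t ht u hu)
  · intro u hu
    show Rf (F (0, u)) (G (0, u)) = _
    rw [h2 u hu, g2 u hu]
  · intro u hu
    show Rf (F (1, u)) (G (1, u)) = _
    rw [h3 u hu, g3 u hu]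

end refl

/-! ### free homotopies -/

section homotopy

variable {B V : Type*} [NormedAddCommGroup B] [NormedSpace ℝ B]
  [NormedAddCommGroup V] [InnerProductSpace ℝ V] {e : V}

lemma FH_symm {f g : B → V} (h : FH e f g) : FH e g f := by
  obtain ⟨F, hF, h0, h1, h2, h3⟩ := h
  have hm : ∀ t ∈ Icc (0 : ℝ) 1, 1 - t ∈ Icc (0 : ℝ) 1 := fun t ht =>
    ⟨by linarith [ht.2], by linarith [ht.1]⟩
  refine ⟨fun p => F (1 - p.1, p.2), ?_, ?_, ?_, ?_, ?_⟩
  · refine hF.comp (by fun_prop) ?_
    rintro ⟨t, u⟩ ⟨ht, hu⟩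
    exact ⟨hm t ht, hu⟩
  · intro t ht u hu
    exact h0 _ (hm t ht) u hu
  · intro t ht u hu
    exact h1 _ (hm t ht) u hu
  · intro u hu
    simpa using h3 u hu
  · intro u hu
    simpa using h2 u hu

lemma FN_symm {f g : B → V} (h : FN e f g) : FN e g f := by
  obtain ⟨F, hF, h0, h1, h2, h3⟩ := h
  have hm : ∀ t ∈ Icc (0 : ℝ) 1, 1 - t ∈ Icc (0 : ℝ) 1 := fun t ht =>
    ⟨by linarith [ht.2], by linarith [ht.1]⟩
  refine ⟨fun p => F (1 - p.1, p.2), ?_, ?_, ?_, ?_, ?_⟩
  · refine hF.comp (by fun_prop) ?_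
    rintro ⟨t, u⟩ ⟨ht, hu⟩
    exact ⟨hm t ht, hu⟩
  · intro t ht u hu
    exact h0 _ (hm t ht) u hu
  · intro t ht u hu
    exact h1 _ (hm t ht) u hu
  · intro u hu
    simpa using h3 u hu
  · intro u hu
    simpa using h2 u hu

/-- equality on the closed ball. -/
lemma FH_of_eq {f g : B → V} (hc : ContinuousOn f (closedBall 0 1))
    (h0 : ∀ u, ‖u‖ ≤ 1 → f u ≠ 0) (h1 : ∀ u, ‖u‖ = 1 → ⟪e, f u⟫ = 0)
    (h : ∀ u, ‖u‖ ≤ 1 → f u = g u) : FH e f g := by
  refine ⟨fun p => f p.2, hc.comp continuousOn_snd fun p hp => hp.2, ?_, ?_, ?_, ?_⟩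
  · exact fun t _ u hu => h0 u hu
  · exact fun t _ u hu => h1 u hu
  · exact fun u hu => rfl
  · exact h

/-- equality on the closed ball. -/
lemma FN_of_eq {f g : B → V} (hc : ContinuousOn f (closedBall 0 1))
    (h0 : ∀ u, ‖u‖ ≤ 1 → f u ≠ 0) (h1 : ∀ u, ‖u‖ = 1 → f u = e)
    (h : ∀ u, ‖u‖ ≤ 1 → f u = g u) : FN e f g := by
  refine ⟨fun p => f p.2, hc.comp continuousOn_snd fun p hp => hp.2, ?_, ?_, ?_, ?_⟩
  · exact fun t _ u hu => h0 u hu
  · exact fun t _ u hu => h1 u hu
  · exact fun u hu => rfl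
  · exact h

lemma FH_right {f g : B → V} (h : FH e f g) : ContinuousOn g (closedBall 0 1) ∧
    (∀ u, ‖u‖ ≤ 1 → g u ≠ 0) ∧ ∀ u, ‖u‖ = 1 → ⟪e, g u⟫ = 0 := by
  obtain ⟨F, hF, h0, h1, h2, h3⟩ := h
  have h1m : (1 : ℝ) ∈ Icc (0 : ℝ) 1 := ⟨zero_le_one, le_rfl⟩
  refine ⟨?_, ?_, ?_⟩
  · have : ContinuousOn (fun u : B => F (1, u)) (closedBall 0 1) :=
      hF.comp (by fun_prop) fun u hu => ⟨h1m, hu⟩
    refine this.congr fun u hu => ?_
    exact (h3 u (by simpa using hu)).symm
  · intro u hu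
    rw [← h3 u hu]
    exact h0 1 h1m u hu
  · intro u hu
    rw [← h3 u hu.le]
    exact h1 1 h1m u hu

lemma FN_right {f g : B → V} (h : FN e f g) : ContinuousOn g (closedBall 0 1) ∧
    (∀ u, ‖u‖ ≤ 1 → g u ≠ 0) ∧ ∀ u, ‖u‖ = 1 → g u = e := by
  obtain ⟨F, hF, h0, h1, h2, h3⟩ := h
  have h1m : (1 : ℝ) ∈ Icc (0 : ℝ) 1 := ⟨zero_le_one, le_rfl⟩
  refine ⟨?_, ?_, ?_⟩
  · have : ContinuousOn (fun u : B => F (1, u)) (closedBall 0 1) :=
      hF.comp (by fun_prop) fun u hu => ⟨h1m, hu⟩
    refine this.congr fun u hu => ?_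
    exact (h3 u (by simpa using hu)).symm
  · intro u hu
    rw [← h3 u hu]
    exact h0 1 h1m u hu
  · intro u hu
    rw [← h3 u hu.le]
    exact h1 1 h1m u hu

end homotopy

/-! ### standard maps -/

section std

variable {n : ℕ}

lemma pt_last (u : Bc n) (z : ℝ) : pt u z (Fin.last n) = z := by
  simp [pt]

lemma pt_castSucc (u : Bc n) (z : ℝ) (i : Fin n) : pt u z i.castSucc = u i := by
  simp [pt]

lemma ec_last : ec n (Fin.last n) = 1 := by simp [ec]

lemma ec_castSucc (i : Fin n) : ec n i.castSucc = 0 := by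
  simp [ec, (Fin.castSucc_lt_last i).ne]

lemma ext_pt {v w : Vc n} (h : ∀ i : Fin n, v i.castSucc = w i.castSucc)
    (h' : v (Fin.last n) = w (Fin.last n)) : v = w := by
  ext i
  refine Fin.lastCases ?_ (fun i => ?_) i
  · exact h'
  · exact h i

lemma continuous_pt : Continuous fun p : Bc n × ℝ => pt p.1 p.2 := by
  unfold pt
  refine (PiLp.continuous_toLp 2 _).comp ?_
  refine continuous_pi fun i => ?_
  refine Fin.lastCases ?_ (fun i => ?_) i
  · simpa using continuous_snd
  · have h : Continuous fun p : Bc n × ℝ => p.1 i := (continuous_apply i).comp continuous_fst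
    simpa using h

lemma continuous_al : Continuous (al (n := n)) := by
  have h : Continuous fun u : Bc n => (u, 1 - ‖u‖) := by fun_prop
  exact continuous_pt.comp h

lemma continuous_ga : Continuous (ga (n := n)) := by
  have h : Continuous fun u : Bc n => (-(4 * (1 - ‖u‖)) • u, 2 * ‖u‖ - 1) := by fun_prop
  exact continuous_pt.comp h

lemma ec_ne : ec n ≠ 0 := by
  intro h
  have := ec_last (n := n)
  rw [h] at this
  simp at this

lemma al_ne (u : Bc n) : al u ≠ 0 := by
  intro h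
  have h1 : (0 : ℝ) = 1 - ‖u‖ := by
    rw [← pt_last u (1 - ‖u‖)]
    show _ = al u _
    rw [h]; rfl
  have h2 : u = 0 := by
    funext i
    rw [← pt_castSucc u (1 - ‖u‖) i]
    show al u _ = _
    rw [h]; rfl
  rw [h2] at h1
  simp at h1

lemma al_hor {u : Bc n} (hu : ‖u‖ = 1) : ⟪ec n, al u⟫ = 0 := by
  rw [inner_ec, al, pt_last, hu, sub_self]

lemma ga_ne (u : Bc n) : ga u ≠ 0 := by
  intro h
  have h1 : (0 : ℝ) = 2 * ‖u‖ - 1 := by
    rw [← pt_last (-(4 * (1 - ‖u‖)) • u) (2 * ‖u‖ - 1)]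
    show _ = ga u _
    rw [h]; rfl
  have h2 : ∀ i, u i = 0 := by
    intro i
    have h3 : (0 : ℝ) = (-(4 * (1 - ‖u‖)) • u) i := by
      rw [← pt_castSucc (-(4 * (1 - ‖u‖)) • u) (2 * ‖u‖ - 1) i]
      show _ = ga u _
      rw [h]; rfl
    rw [Pi.smul_apply, smul_eq_mul] at h3
    have h4 : ‖u‖ = 1 / 2 := by linarith
    rw [h4] at h3
    linarith
  have h5 : u = 0 := funext h2
  rw [h5] at h1
  simp at h1

lemma ga_sph {u : Bc n} (hu : ‖u‖ = 1) : ga u = ec n := by
  refine ext_pt (fun i => ?_) ?_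
  · rw [ga, pt_castSucc, ec_castSucc, hu]; simp
  · rw [ga, pt_last, ec_last, hu]; norm_num

/-- the reflected vertical normal of `al` is `ga` up to homotopy. -/
lemma FN_ga_al : FN (ec n) ga (fun u => Rf (al u) (ec n)) := by
  have key : ∀ t ∈ Icc (0 : ℝ) 1, ∀ u : Bc n, ‖u‖ ≤ 1 →
      (1 - t) • ga u + t • Rf (al u) (ec n) ≠ 0 := by
    intro t ht u hu h
    have hal : 0 < ‖al u‖ ^ 2 := by
      have := norm_pos_iff.2 (al_ne u)
      positivity
    set c : ℝ := 2 * ⟪ec n, al u⟫ / ‖al u‖ ^ 2 with hc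
    have hz : ⟪ec n, al u⟫ = 1 - ‖u‖ := by rw [inner_ec, al, pt_last]
    have hco : ∀ i : Fin n, ((1 - t) * (4 * (1 - ‖u‖)) + t * c) * u i = 0 := by
      intro i
      have h1 : ((1 - t) • ga u + t • Rf (al u) (ec n)) i.castSucc = 0 := by rw [h]; rfl
      rw [PiLp.add_apply, PiLp.smul_apply, PiLp.smul_apply, ga, pt_castSucc, Rf, PiLp.sub_apply,
        PiLp.smul_apply, ec_castSucc, ← hc] at h1
      simp only [al, pt_castSucc, Pi.smul_apply, smul_eq_mul] at h1
      linarith
    have hla : (1 - t) * (2 * ‖u‖ - 1) + t * (1 - c * (1 - ‖u‖)) = 0 := by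
      have h1 : ((1 - t) • ga u + t • Rf (al u) (ec n)) (Fin.last n) = 0 := by rw [h]; rfl
      rw [PiLp.add_apply, PiLp.smul_apply, PiLp.smul_apply, ga, pt_last, Rf, PiLp.sub_apply,
        PiLp.smul_apply, ec_last, ← hc] at h1
      simp only [al, pt_last, smul_eq_mul] at h1
      linarith
    rcases eq_or_lt_of_le hu with hu1 | hu1
    · rw [hu1] at hla
      have : (1 - t) * (2 * 1 - 1) + t * (1 - c * (1 - 1)) = 1 := by ring
      rw [this] at hla
      exact one_ne_zero hla
    · have hc0 : 0 < c := by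
        rw [hc, hz]
        have : 0 < 1 - ‖u‖ := by linarith
        positivity
      have hp : 0 < (1 - t) * (4 * (1 - ‖u‖)) + t * c := by
        rcases eq_or_lt_of_le ht.1 with h0 | h0
        · rw [← h0]; nlinarith
        · have h2 : 0 ≤ (1 - t) * (4 * (1 - ‖u‖)) :=
            mul_nonneg (by linarith [ht.2]) (by linarith)
          have h3 : 0 < t * c := mul_pos h0 hc0
          linarith
      have hu0 : u = 0 := by
        funext i
        rcases mul_eq_zero.1 (hco i) with h4 | h4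
        · exact absurd h4 hp.ne'
        · exact h4
      have hal1 : ‖al u‖ ^ 2 = 1 := by
        rw [hu0]
        have : al (0 : Bc n) = ec n := by
          refine ext_pt (fun i => ?_) ?_
          · rw [al, pt_castSucc, ec_castSucc]; rfl
          · rw [al, pt_last, ec_last]; simp
        rw [this]
        simp [ec]
      have hc2 : c = 2 := by
        rw [hc, hz, hal1, hu0]; simp
      rw [hc2, hu0, norm_zero] at hla
      linarith
  refine ⟨fun p => (1 - p.1) • ga p.2 + p.1 • Rf (al p.2) (ec n), ?_, key, ?_, ?_, ?_⟩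
  · have h1 : ContinuousOn (fun p : ℝ × Bc n => Rf (al p.2) (ec n))
        (Icc 0 1 ×ˢ closedBall 0 1) := by
      refine continuousOn_rf (continuous_al.comp continuous_snd).continuousOn
        continuousOn_const ?_
      exact fun p _ => al_ne p.2
    have h2 : Continuous fun p : ℝ × Bc n => (1 - p.1) • ga p.2 :=
      (continuous_const.sub continuous_fst).smul (continuous_ga.comp continuous_snd)
    exact h2.continuousOn.add (continuousOn_fst.smul h1)
  · intro t ht u hu
    show (1 - t) • ga u + t • Rf (al u) (ec n) = ec n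
    rw [ga_sph hu, rf_of_orth (al_hor hu), ← add_smul]
    simp
  · intro u hu
    simp
  · intro u hu
    simp

end std

/-! ### regularity of typed maps -/

section typ

variable {n : ℕ}

lemma ec_hc : ⟪ec (n + 1), hc n⟫ = 0 := by
  rw [inner_ec, hc]
  simp [Fin.last]

lemma hc_ne : hc n ≠ 0 := by
  intro h
  have : hc n 0 = 1 := by simp [hc]
  rw [h] at this
  simp at this

lemma restAt_one {u : Bc (n + 2)} (h : 1 ≤ |u 1|) : RestAt u :=
  Or.inr ⟨1, by simp, h⟩

lemma blowL_one (u : Bc (n + 2)) : blowL u 1 = 2 * u 1 + 1 := by simp [blowL]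

lemma blowR_one (u : Bc (n + 2)) : blowR u 1 = 2 * u 1 - 1 := by simp [blowR]

lemma blowL_ne (u : Bc (n + 2)) {i : Fin (n + 2)} (hi : i ≠ 1) : blowL u i = u i := by
  simp [blowL, hi]

lemma blowR_ne (u : Bc (n + 2)) {i : Fin (n + 2)} (hi : i ≠ 1) : blowR u i = u i := by
  simp [blowR, hi]

lemma continuous_blowL : Continuous (blowL (n := n)) := by
  unfold blowL
  fun_prop

lemma continuous_blowR : Continuous (blowR (n := n)) := by
  unfold blowR
  fun_prop

/-- concatenations of maps agreeing at the middle are continuous. -/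
lemma continuous_cat {X : Type*} [TopologicalSpace X] {y : X} {f g : Bc (n + 2) → X}
    (hf : Continuous f) (hg : Continuous g) (rf : ∀ u, 1 ≤ |u 1| → f u = y)
    (rg : ∀ u, 1 ≤ |u 1| → g u = y) : Continuous (cat f g) := by
  unfold cat
  refine Continuous.if_le (hf.comp continuous_blowL) (hg.comp continuous_blowR)
    (continuous_apply 1) continuous_const ?_
  intro u hu
  show f (blowL u) = g (blowR u)
  rw [rf, rg]
  · rw [blowR_one, hu]; norm_num
  · rw [blowL_one, hu]; norm_num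

/-- a norm of a blow-up at least one on the sphere. -/
lemma one_le_of {u v : Bc (n + 2)} (h : ∀ i, i ≠ 1 → v i = u i) (hu : 1 ≤ ‖u‖)
    (h1 : 1 ≤ |u 1| → 1 ≤ |v 1|) : 1 ≤ ‖v‖ := by
  obtain ⟨i, hi⟩ : ∃ i, 1 ≤ |u i| := by
    by_contra hc
    push Not at hc
    have : ‖u‖ < 1 := (pi_norm_lt_iff zero_lt_one).2 fun i => by
      rw [Real.norm_eq_abs]; exact hc i
    linarith
  by_cases h2 : i = 1
  · subst h2
    exact (h1 hi).trans (norm_le_pi_norm v 1)
  · have := norm_le_pi_norm v i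
    rw [h i h2] at this
    exact hi.trans this

lemma rest_of {u v : Bc (n + 2)} (h : ∀ i, i ≠ 1 → v i = u i) (hu : RestAt u)
    (h1 : 1 ≤ |u 1| → 1 ≤ |v 1|) : RestAt v := by
  rcases hu with hu | ⟨i, hi, hu⟩
  · exact Or.inl (by rw [h 0 (by simp)]; exact hu)
  · by_cases h2 : i = 1
    · subst h2
      exact Or.inr ⟨1, hi, h1 hu⟩
    · exact Or.inr ⟨i, hi, by rw [h i h2]; exact hu⟩

lemma blowL_abs {u : Bc (n + 2)} (h0 : u 1 ≤ 0) (h : 1 ≤ |u 1|) : 1 ≤ |blowL u 1| := by
  rw [blowL_one]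
  rw [abs_of_nonpos h0] at h
  rw [abs_of_nonpos (by linarith)]
  linarith

lemma blowR_abs {u : Bc (n + 2)} (h0 : ¬ u 1 ≤ 0) (h : 1 ≤ |u 1|) : 1 ≤ |blowR u 1| := by
  push Not at h0
  rw [blowR_one]
  rw [abs_of_pos h0] at h
  rw [abs_of_nonneg (by linarith)]
  linarith

lemma adm_cat {y : Vc (n + 2)} {f g : Bc (n + 2) → Vc (n + 2)} (hf : Adm (n + 2) f)
    (hg : Adm (n + 2) g) (rf : IsRest y f) (rg : IsRest y g) : Adm (n + 2) (cat f g) := by
  refine ⟨continuous_cat hf.cont hg.cont (fun u hu => rf u (restAt_one hu))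
    fun u hu => rg u (restAt_one hu), fun u => ?_, fun u hu => ?_⟩
  · unfold cat
    split_ifs with h
    · exact hf.ne _
    · exact hg.ne _
  · unfold cat
    split_ifs with h
    · exact hf.hor _ (one_le_of (fun i hi => blowL_ne u hi) hu (blowL_abs h))
    · exact hg.hor _ (one_le_of (fun i hi => blowR_ne u hi) hu (blowR_abs h))

lemma rest_cat {X : Type*} {y : X} {f g : Bc (n + 2) → X} (rf : IsRest y f) (rg : IsRest y g) :
    IsRest y (cat f g) := by
  intro u hu
  unfold cat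
  split_ifs with h
  · exact rf _ (rest_of (fun i hi => blowL_ne u hi) hu (blowL_abs h))
  · exact rg _ (rest_of (fun i hi => blowR_ne u hi) hu (blowR_abs h))

lemma flip_ne (u : Bc (n + 2)) {i : Fin (n + 2)} (hi : i ≠ 1) :
    Function.update u 1 (-(u 1)) i = u i := by simp [hi]

lemma flip_abs {u : Bc (n + 2)} (h : 1 ≤ |u 1|) :
    1 ≤ |Function.update u 1 (-(u 1)) 1| := by simpa using h

lemma continuous_flip : Continuous fun u : Bc (n + 2) => Function.update u 1 (-(u 1)) := by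
  fun_prop

lemma adm_rev {f : Bc (n + 2) → Vc (n + 2)} (hf : Adm (n + 2) f) : Adm (n + 2) (rev f) := by
  refine ⟨hf.cont.comp continuous_flip, fun u => hf.ne _, fun u hu => ?_⟩
  exact hf.hor _ (one_le_of (fun i hi => flip_ne u hi) hu flip_abs)

lemma norm_flip (u : Bc (n + 2)) : ‖Function.update u 1 (-(u 1))‖ = ‖u‖ := by
  have key : ∀ v : Bc (n + 2), ‖Function.update v 1 (-(v 1))‖ ≤ ‖v‖ := by
    intro v
    refine (pi_norm_le_iff_of_nonneg (norm_nonneg _)).2 fun i => ?_
    by_cases hi : i = 1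
    · subst hi
      simpa using norm_le_pi_norm v 1
    · rw [flip_ne v hi]
      exact norm_le_pi_norm v i
  refine le_antisymm (key u) ?_
  have := key (Function.update u 1 (-(u 1)))
  simpa using this

/-- maps of a type are maps of pairs. -/
lemma typ_reg {f : Bc (n + 2) → Vc (n + 2)} {a b : ℤ} (h : Typ n f a b) :
    ContinuousOn f (closedBall 0 1) ∧ (∀ u, ‖u‖ ≤ 1 → f u ≠ 0) ∧
      ∀ u, ‖u‖ = 1 → ⟪ec (n + 2), f u⟫ = 0 := by
  cases h with
  | zero => exact ⟨continuousOn_const, fun _ _ => hc_ne, fun _ _ => ec_hc⟩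
  | al => exact ⟨continuous_al.continuousOn, fun u _ => al_ne u, fun u hu => al_hor hu⟩
  | be =>
    exact ⟨continuous_al.neg.continuousOn, fun u _ => neg_ne_zero.2 (al_ne u), fun u hu => by
      rw [inner_neg_right, al_hor hu, neg_zero]⟩
  | congr h H => exact FH_right H
  | cat y hf hg rf rg h h' =>
    have := adm_cat hf hg rf rg
    exact ⟨this.cont.continuousOn, fun u _ => this.ne u, fun u hu => this.hor u hu.ge⟩
  | rev y hf rf h =>
    have := adm_rev hf
    exact ⟨this.cont.continuousOn, fun u _ => this.ne u, fun u hu => this.hor u hu.ge⟩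

lemma typN_reg {f : Bc (n + 2) → Vc (n + 2)} {c : ℤ} (h : TypN n f c) :
    ContinuousOn f (closedBall 0 1) ∧ (∀ u, ‖u‖ ≤ 1 → f u ≠ 0) ∧
      ∀ u, ‖u‖ = 1 → f u = ec (n + 2) := by
  cases h with
  | zero => exact ⟨continuousOn_const, fun _ _ => ec_ne, fun _ _ => rfl⟩
  | ga => exact ⟨continuous_ga.continuousOn, fun u _ => ga_ne u, fun u hu => ga_sph hu⟩
  | congr h H => exact FN_right H
  | @cat f g c c' cf cg nf ng rf rg h h' =>
    have hs : ∀ u : Bc (n + 2), 1 ≤ |u 1| → 1 ≤ ‖u‖ := fun u hu =>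
      hu.trans (norm_le_pi_norm u 1)
    refine ⟨(continuous_cat cf cg (fun u hu => rf u (hs u hu))
      fun u hu => rg u (hs u hu)).continuousOn, fun u _ => ?_, fun u hu => ?_⟩
    · unfold cat
      split_ifs with h
      · exact nf _
      · exact ng _
    · unfold cat
      split_ifs with h
      · exact rf _ (one_le_of (fun i hi => blowL_ne u hi) hu.ge (blowL_abs h))
      · exact rg _ (one_le_of (fun i hi => blowR_ne u hi) hu.ge (blowR_abs h))
  | rev cf nf rf h =>
    refine ⟨(cf.comp continuous_flip).continuousOn, fun u _ => nf _, fun u hu => ?_⟩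
    exact rf _ (one_le_of (fun i hi => flip_ne u hi) hu.ge flip_abs)

/-! ### the two special cases -/

lemma cat_rf (f g : Bc (n + 2) → Vc (n + 2)) (p q : Bc (n + 2) → Vc (n + 2)) :
    cat (fun u => Rf (f u) (p u)) (fun u => Rf (g u) (q u)) =
      fun u => Rf (cat f g u) (cat p q u) := by
  funext u
  unfold cat
  split_ifs <;> rfl

lemma cat_const {X : Type*} (x : X) : cat (fun _ : Bc (n + 2) => x) (fun _ => x) = fun _ => x := by
  funext u
  unfold cat
  split_ifs <;> rfl

/-- reflecting the vertical normal in a map of class `(a, b)`. -/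
theorem typN_rf_ec {T : Bc (n + 2) → Vc (n + 2)} {a b : ℤ} (h : Typ n T a b) :
    TypN n (fun u => Rf (T u) (ec (n + 2))) (a + b) := by
  have hrefl : FN (ec (n + 2)) (fun _ : Bc (n + 2) => ec (n + 2)) (fun _ => ec (n + 2)) :=
    FN_of_eq continuousOn_const (fun _ _ => ec_ne) (fun _ _ => rfl) fun _ _ => rfl
  induction h with
  | zero =>
    have : (fun _ : Bc (n + 2) => Rf (hc (n + 1)) (ec (n + 2))) = fun _ => ec (n + 2) := by
      funext u
      exact rf_of_orth ec_hc
    rw [this]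
    exact TypN.zero
  | al => simpa using TypN.ga.congr FN_ga_al
  | be =>
    have : (fun u : Bc (n + 2) => Rf (-al u) (ec (n + 2))) = fun u => Rf (al u) (ec (n + 2)) := by
      funext u
      exact rf_neg _ _
    rw [this]
    simpa using TypN.ga.congr FN_ga_al
  | congr h H ih => exact ih.congr (FN_rf H hrefl)
  | @cat f g a b a' b' y hf hg rf rg h h' ih ih' =>
    have h1 := TypN.cat (continuous_rf hf.cont continuous_const hf.ne)
      (continuous_rf hg.cont continuous_const hg.ne) (fun u => rf_ne ec_ne) (fun u => rf_ne ec_ne)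
      (fun u hu => rf_of_orth (hf.hor u hu)) (fun u hu => rf_of_orth (hg.hor u hu)) ih ih'
    rw [cat_rf, cat_const] at h1
    convert h1 using 1
    ring
  | @rev f a b y hf rf h ih =>
    have h1 := TypN.rev (continuous_rf hf.cont continuous_const hf.ne) (fun u => rf_ne ec_ne)
      (fun u hu => rf_of_orth (hf.hor u hu)) ih
    have h2 : -a + -b = -(a + b) := by ring
    rw [h2]
    exact h1

/-- the unit vector in the direction of `s`. -/
def sc (n : ℕ) : Vc (n + 2) := EuclideanSpace.single (Fin.castSucc 1) 1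

lemma sc_last : sc n (Fin.last (n + 2)) = 0 := by
  rw [sc]
  exact Pi.single_eq_of_ne (Fin.castSucc_lt_last (1 : Fin (n + 2))).ne' 1

lemma sc_one : sc n (Fin.castSucc 1) = 1 := by
  simp [sc]

lemma sc_castSucc {i : Fin (n + 2)} (hi : i ≠ 1) : sc n (Fin.castSucc i) = 0 := by
  rw [sc]
  exact Pi.single_eq_of_ne (fun h => hi (Fin.castSucc_injective _ h)) 1

lemma ec_sc : ⟪ec (n + 2), sc n⟫ = 0 := by
  rw [inner_ec, sc_last]

lemma norm_sc : ‖sc n‖ = 1 := by simp [sc]

lemma sc_ne : sc n ≠ 0 := by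
  rw [← norm_pos_iff, norm_sc]
  exact one_pos

/-- reflecting `ga` in the direction `s` is reversing it. -/
lemma rf_sc_ga (u : Bc (n + 2)) : Rf (sc n) (ga u) = rev ga u := by
  have hin : ⟪ga u, sc n⟫ = ga u (Fin.castSucc 1) := by
    rw [sc, EuclideanSpace.inner_single_right]
    simp
  have hnu := norm_flip u
  refine ext_pt (fun i => ?_) ?_
  · rw [Rf, PiLp.sub_apply, PiLp.smul_apply, hin, norm_sc, rev, ga, ga, pt_castSucc, pt_castSucc,
      pt_castSucc, hnu]
    by_cases hi : i = 1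
    · subst hi
      rw [sc_one]
      simp
      ring
    · rw [sc_castSucc hi]
      simp [hi]
  · rw [Rf, PiLp.sub_apply, PiLp.smul_apply, hin, norm_sc, rev, ga, ga, pt_last, pt_castSucc,
      pt_last, hnu, sc_last]
    simp

lemma FH_const {y z : Vc (n + 2)} (hy : ⟪ec (n + 2), y⟫ = 0) (hz : ⟪ec (n + 2), z⟫ = 0)
    (h : ∀ t ∈ Icc (0 : ℝ) 1, (1 - t) • y + t • z ≠ 0) :
    FH (B := Bc (n + 2)) (ec (n + 2)) (fun _ => y) (fun _ => z) := by
  refine ⟨fun p => (1 - p.1) • y + p.1 • z, by fun_prop, fun t ht u _ => h t ht, ?_, ?_, ?_⟩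
  · intro t _ u _
    rw [inner_add_right, inner_smul_right, inner_smul_right, hy, hz]
    simp
  · intro u _
    simp
  · intro u _
    simp

/-- reflecting a normal in a constant horizontal direction. -/
theorem typN_rf_const {y : Vc (n + 2)} (hy : ⟪ec (n + 2), y⟫ = 0) (hy0 : y ≠ 0)
    {nu : Bc (n + 2) → Vc (n + 2)} {c : ℤ} (h : TypN n nu c) :
    TypN n (fun u => Rf y (nu u)) (-c) := by
  have hrefl : FH (B := Bc (n + 2)) (ec (n + 2)) (fun _ => y) (fun _ => y) :=
    FH_of_eq continuousOn_const (fun _ _ => hy0) (fun _ _ => hy) fun _ _ => rfl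
  induction h with
  | zero =>
    have : (fun _ : Bc (n + 2) => Rf y (ec (n + 2))) = fun _ => ec (n + 2) := by
      funext u
      exact rf_of_orth hy
    rw [this, neg_zero]
    exact TypN.zero
  | ga =>
    have hgr : FN (ec (n + 2)) (ga (n := n + 2)) ga :=
      FN_of_eq continuous_ga.continuousOn (fun u _ => ga_ne u) (fun u hu => ga_sph hu)
        fun _ _ => rfl
    -- the class of `rev ga`
    have h1 : TypN n (fun u => ga (cl u)) 1 :=
      TypN.ga.congr (FN_of_eq continuous_ga.continuousOn (fun u _ => ga_ne u)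
        (fun u hu => ga_sph hu) fun u hu => by rw [cl_of_le hu])
    have h2 := TypN.rev (continuous_ga.comp continuous_cl) (fun u => ga_ne _)
      (fun u hu => ga_sph (norm_cl hu)) h1
    have h3 : TypN n (fun u => Rf (sc n) (ga u)) (-1) := by
      refine h2.congr (FN_symm (FN_of_eq ?_ ?_ ?_ ?_))
      · exact continuousOn_rf continuousOn_const continuous_ga.continuousOn fun _ _ => sc_ne
      · exact fun u _ => rf_ne (ga_ne u)
      · intro u hu
        rw [ga_sph hu]
        exact rf_of_orth ec_sc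
      · intro u hu
        rw [rf_sc_ga]
        show ga _ = ga (cl _)
        rw [cl_of_le]
        rw [norm_flip]
        exact hu
    by_cases hA : ∀ t ∈ Icc (0 : ℝ) 1, (1 - t) • sc n + t • y ≠ 0
    · exact h3.congr (FN_rf (FH_const ec_sc hy hA) hgr)
    · have hB : ∀ t ∈ Icc (0 : ℝ) 1, (1 - t) • sc n + t • (-y) ≠ 0 := by
        push Not at hA
        obtain ⟨s, hs, hs0⟩ := hA
        intro t ht ht0
        have h4 : (s * (1 - t) + t * (1 - s)) • sc n = 0 := by
          have h5 : s • ((1 - t) • sc n + t • (-y)) + t • ((1 - s) • sc n + s • y) = 0 := by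
            rw [ht0, hs0]; simp
          rw [← h5]
          module
        rcases smul_eq_zero.1 h4 with h5 | h5
        · have h6 : 0 ≤ s * (1 - t) := mul_nonneg hs.1 (by linarith [ht.2])
          have h7 : 0 ≤ t * (1 - s) := mul_nonneg ht.1 (by linarith [hs.2])
          have h8 : s * (1 - t) = 0 := by linarith
          have h9 : t * (1 - s) = 0 := by linarith
          rcases mul_eq_zero.1 h8 with h | h
          · rw [h] at hs0
            simp only [sub_zero, one_smul, zero_smul, add_zero] at hs0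
            exact sc_ne hs0
          · rcases mul_eq_zero.1 h9 with h' | h'
            · rw [h'] at h
              norm_num at h
            · rw [h'] at hs0
              have : s = 1 := by linarith
              rw [this] at hs0
              simp only [zero_smul, one_smul, zero_add] at hs0
              exact hy0 hs0
        · exact sc_ne h5
      have h4 : (fun u : Bc (n + 2) => Rf y (ga u)) = fun u => Rf (-y) (ga u) := by
        funext u
        rw [rf_neg]
      rw [h4]
      exact h3.congr (FN_rf (FH_const ec_sc (by rw [inner_neg_right, hy, neg_zero]) hB) hgr)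
  | congr h H ih => exact ih.congr (FN_rf hrefl H)
  | @cat f g c c' cf cg nf ng rf rg h h' ih ih' =>
    have h1 := TypN.cat (continuous_rf continuous_const cf fun _ => hy0)
      (continuous_rf continuous_const cg fun _ => hy0) (fun u => rf_ne (nf u))
      (fun u => rf_ne (ng u)) (fun u hu => by rw [rf u hu]; exact rf_of_orth hy)
      (fun u hu => by rw [rg u hu]; exact rf_of_orth hy) ih ih'
    rw [cat_rf, cat_const] at h1
    convert h1 using 1
    ring
  | @rev f c cf nf rf h ih =>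
    exact TypN.rev (continuous_rf continuous_const cf fun _ => hy0) (fun u => rf_ne (nf u))
      (fun u hu => by rw [rf u hu]; exact rf_of_orth hy) ih

/-! ### unit laws -/

/-- slide in the direction `s`. -/
def sl (t : ℝ) (u : Bc (n + 2)) : Bc (n + 2) := Function.update u 1 ((1 + t) * u 1 + t)

lemma sl_one' (t : ℝ) (u : Bc (n + 2)) : sl t u 1 = (1 + t) * u 1 + t := by simp [sl]

lemma sl_ne (t : ℝ) (u : Bc (n + 2)) {i : Fin (n + 2)} (hi : i ≠ 1) : sl t u i = u i := by
  simp [sl, hi]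

lemma sl_zero (u : Bc (n + 2)) : sl 0 u = u := by
  funext i
  by_cases hi : i = 1
  · subst hi; rw [sl_one']; ring
  · exact sl_ne 0 u hi

lemma sl_abs {t : ℝ} (ht : 0 ≤ t) {u : Bc (n + 2)} (h : 1 ≤ |u 1|) : 1 ≤ |sl t u 1| := by
  rw [sl_one']
  rcases le_abs.1 h with h | h
  · exact le_abs.2 (Or.inl (by nlinarith))
  · exact le_abs.2 (Or.inr (by nlinarith))

lemma continuous_sl : Continuous fun p : ℝ × Bc (n + 2) => sl p.1 p.2 := by
  unfold sl
  fun_prop

/-- `f` is homotopic to `f` followed by a rest. -/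
lemma FH_cat_rest {y : Vc (n + 2)} {f : Bc (n + 2) → Vc (n + 2)} (hf : Adm (n + 2) f)
    (rf : IsRest y f) : FH (ec (n + 2)) f (cat f fun _ => y) := by
  refine ⟨fun p => f (sl p.1 p.2), (hf.cont.comp continuous_sl).continuousOn,
    fun t _ u _ => hf.ne _, ?_, ?_, ?_⟩
  · intro t ht u hu
    exact hf.hor _ (one_le_of (fun i hi => sl_ne t u hi) hu.ge (sl_abs ht.1))
  · intro u _
    show f (sl 0 u) = f u
    rw [sl_zero]
  · intro u _
    show f (sl 1 u) = _
    unfold cat
    split_ifs with h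
    · congr 1
      funext i
      by_cases hi : i = 1
      · subst hi; rw [sl_one', blowL_one]; ring
      · rw [sl_ne 1 u hi, blowL_ne u hi]
    · push Not at h
      refine rf _ (restAt_one ?_)
      rw [sl_one']
      exact le_abs.2 (Or.inl (by linarith))

/-- the other slide. -/
def sr (t : ℝ) (u : Bc (n + 2)) : Bc (n + 2) := Function.update u 1 ((1 + t) * u 1 - t)

lemma sr_one' (t : ℝ) (u : Bc (n + 2)) : sr t u 1 = (1 + t) * u 1 - t := by simp [sr]

lemma sr_ne (t : ℝ) (u : Bc (n + 2)) {i : Fin (n + 2)} (hi : i ≠ 1) : sr t u i = u i := by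
  simp [sr, hi]

lemma sr_zero (u : Bc (n + 2)) : sr 0 u = u := by
  funext i
  by_cases hi : i = 1
  · subst hi; rw [sr_one']; ring
  · exact sr_ne 0 u hi

lemma sr_abs {t : ℝ} (ht : 0 ≤ t) {u : Bc (n + 2)} (h : 1 ≤ |u 1|) : 1 ≤ |sr t u 1| := by
  rw [sr_one']
  rcases le_abs.1 h with h | h
  · exact le_abs.2 (Or.inl (by nlinarith))
  · exact le_abs.2 (Or.inr (by nlinarith))

lemma continuous_sr : Continuous fun p : ℝ × Bc (n + 2) => sr p.1 p.2 := by
  unfold sr
  fun_prop

/-- `f` is homotopic to a rest followed by `f` (normals). -/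
lemma FN_rest_cat {e : Vc (n + 2)} {f : Bc (n + 2) → Vc (n + 2)} (cf : Continuous f)
    (nf : ∀ u, f u ≠ 0) (rf : ∀ u, 1 ≤ ‖u‖ → f u = e) : FN e f (cat (fun _ => e) f) := by
  refine ⟨fun p => f (sr p.1 p.2), (cf.comp continuous_sr).continuousOn,
    fun t _ u _ => nf _, ?_, ?_, ?_⟩
  · intro t ht u hu
    exact rf _ (one_le_of (fun i hi => sr_ne t u hi) hu.ge (sr_abs ht.1))
  · intro u _
    show f (sr 0 u) = f u
    rw [sr_zero]
  · intro u _
    show f (sr 1 u) = _
    unfold cat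
    split_ifs with h
    · refine rf _ ?_
      have h1 : 1 ≤ |sr 1 u 1| := by
        rw [sr_one']
        exact le_abs.2 (Or.inr (by linarith))
      exact h1.trans (norm_le_pi_norm (sr 1 u) 1)
    · congr 1
      funext i
      by_cases hi : i = 1
      · subst hi; rw [sr_one', blowR_one]; ring
      · rw [sr_ne 1 u hi, blowR_ne u hi]

/-! ### rest forms -/

/-- a map of pairs is homotopic to its contraction, which is in rest form. -/
lemma FH_cc {T : Bc (n + 2) → Vc (n + 2)} (hc : ContinuousOn T (closedBall 0 1))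
    (h0 : ∀ u, ‖u‖ ≤ 1 → T u ≠ 0) (h1 : ∀ u, ‖u‖ = 1 → ⟪ec (n + 2), T u⟫ = 0) :
    FH (ec (n + 2)) T (fun u => T (cc u)) := by
  refine ⟨fun p => T (cn p.1 p.2), ?_, ?_, ?_, ?_, ?_⟩
  · refine hc.comp (continuousOn_cn.mono (prod_mono le_rfl (subset_univ _))) ?_
    rintro ⟨t, u⟩ ⟨ht, hu⟩
    rw [mem_closedBall_zero_iff] at hu ⊢
    rw [norm_cn ht]
    exact hu
  · intro t ht u hu
    exact h0 _ ((norm_cn_le t u).trans hu)
  · intro t ht u hu
    exact h1 _ (by rw [norm_cn ht, hu])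
  · intro u _
    show T (cn 0 u) = T u
    rw [cn_zero]
  · intro u hu
    show T (cn 1 u) = T (cc u)
    rw [cc, cl_of_le hu]

lemma adm_cc {T : Bc (n + 2) → Vc (n + 2)} (hc : ContinuousOn T (closedBall 0 1))
    (h0 : ∀ u, ‖u‖ ≤ 1 → T u ≠ 0) (h1 : ∀ u, ‖u‖ = 1 → ⟪ec (n + 2), T u⟫ = 0) :
    Adm (n + 2) (fun u => T (cc u)) := by
  refine ⟨hc.comp_continuous continuous_cc fun u => ?_, fun u => h0 _ (norm_cc_le u),
    fun u hu => h1 _ (norm_cc hu)⟩
  rw [mem_closedBall_zero_iff]
  exact norm_cc_le u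

/-- every typed map is homotopic to an admissible one in rest form. -/
theorem typ_rest {T : Bc (n + 2) → Vc (n + 2)} {a b : ℤ} (h : Typ n T a b) :
    ∃ T' : Bc (n + 2) → Vc (n + 2), ∃ y : Vc (n + 2), Adm (n + 2) T' ∧ IsRest y T' ∧
      FH (ec (n + 2)) T T' ∧ y ≠ 0 ∧ ⟪ec (n + 2), y⟫ = 0 := by
  obtain ⟨hc, h0, h1⟩ := typ_reg h
  refine ⟨fun u => T (cc u), T e0, adm_cc hc h0 h1, fun u hu => ?_, FH_cc hc h0 h1,
    h0 _ norm_e0.le, h1 _ norm_e0⟩
  show T (cc u) = T e0
  rw [cc_rest hu]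

/-! ### LEMMA R -/

/-- **LEMMA R**. -/
theorem typN_rf {T nu : Bc (n + 2) → Vc (n + 2)} {a b c : ℤ} (hT : Typ n T a b)
    (hn : TypN n nu c) : TypN n (fun u => Rf (T u) (nu u)) (a + b - c) := by
  obtain ⟨T', y, hA, hR, hH, hy0, hy⟩ := typ_rest hT
  obtain ⟨hc, h0, h1⟩ := typN_reg hn
  have hcl : ∀ u : Bc (n + 2), cl u ∈ closedBall (0 : Bc (n + 2)) 1 := fun u => by
    rw [mem_closedBall_zero_iff]
    exact norm_cl_le u
  have c1 : Continuous fun u => nu (cl u) := hc.comp_continuous continuous_cl hcl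
  have n1 : ∀ u, nu (cl u) ≠ 0 := fun u => h0 _ (norm_cl_le u)
  have r1 : ∀ u, 1 ≤ ‖u‖ → nu (cl u) = ec (n + 2) := fun u hu => h1 _ (norm_cl hu)
  have hN : FN (ec (n + 2)) nu fun u => nu (cl u) := FN_of_eq hc h0 h1 fun u hu => by
    rw [cl_of_le hu]
  have t1 : TypN n (fun u => Rf (T' u) (ec (n + 2))) (a + b) := typN_rf_ec (hT.congr hH)
  have t2 : TypN n (fun u => Rf y (nu (cl u))) (-c) := typN_rf_const hy hy0 (hn.congr hN)
  have t3 := TypN.cat (continuous_rf hA.cont continuous_const hA.ne)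
    (continuous_rf continuous_const c1 fun _ => hy0) (fun u => rf_ne ec_ne)
    (fun u => rf_ne (n1 u)) (fun u hu => rf_of_orth (hA.hor u hu))
    (fun u hu => by rw [r1 u hu]; exact rf_of_orth hy) t1 t2
  rw [cat_rf] at t3
  have t4 := t3.congr (FN_rf (FH_symm (FH_cat_rest hA hR)) (FN_symm (FN_rest_cat c1 n1 r1)))
  have t5 := t4.congr (FN_rf (FH_symm hH) (FN_symm hN))
  rw [← sub_eq_add_neg] at t5
  exact t5

/-- LEMMA R, spelled out. -/
theorem typN_reflect {T nu : Bc (n + 2) → Vc (n + 2)} {a b c : ℤ} (hT : Typ n T a b)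
    (hn : TypN n nu c) :
    TypN n (fun u => nu u - (2 * ⟪nu u, T u⟫ / ‖T u‖ ^ 2) • T u) (a + b - c) :=
  typN_rf hT hn

end typ

end

end Crest.Agent.R267.LemR_224
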