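import Mathlib
import Crest.Agent.R267.DraftB_808
import Crest.Agent.R267.LemR_224

/-!
# TYPN (row 267, leaf B5 of DRAFT B)

`typN (n) : TypNProp n`: the integer of a normal determines its homotopy class. The class of a
good map (continuous and nonzero on the closed cube, `e` on its boundary) lives in Mathlib's
`HomotopyGroup (Fin (n + 2)) (V \ 0) e`; `cat` is the product, `rev` the inverse, `FN` is the
equality of classes, so every `TypN f c` has class `γ ^ c`.
-/

set_option autoImplicit false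
set_option linter.unusedSectionVars false

namespace Crest.Agent.R267.TypN_52

open Set Metric
open scoped RealInnerProductSpace unitInterval Topology.Homotopy
open Crest.Agent.R267.GS_808 Crest.Agent.R267.DraftB_808 Crest.Agent.R267.LemR_224

noncomputable section

variable {n : ℕ}

/-- the target. -/
abbrev Xs (n : ℕ) : Type := {v : Vc (n + 2) // v ≠ 0}

/-- its base point. -/
def x0 : Xs n := ⟨ec (n + 2), ec_ne⟩

/-- from the unit cube to the ball. -/
def ph (t : Fin (n + 2) → I) : Bc (n + 2) := fun i => 2 * (t i : ℝ) - 1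

lemma continuous_ph : Continuous (ph (n := n)) := by
  unfold ph
  fun_prop

lemma ph_le (t : Fin (n + 2) → I) : ‖ph t‖ ≤ 1 := by
  rw [pi_norm_le_iff_of_nonneg zero_le_one]
  intro i
  have h1 := (t i).2.1
  have h2 := (t i).2.2
  rw [ph, Real.norm_eq_abs, abs_le]
  constructor <;> linarith

lemma one_le_of {u : Bc (n + 2)} {i : Fin (n + 2)} (h : 1 ≤ |u i|) : 1 ≤ ‖u‖ :=
  h.trans (norm_le_pi_norm u i)

lemma ph_bd {t : Fin (n + 2) → I} (ht : t ∈ Cube.boundary (Fin (n + 2))) : ‖ph t‖ = 1 := by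
  obtain ⟨i, hi⟩ := ht
  refine le_antisymm (ph_le t) (one_le_of (i := i) ?_)
  rcases hi with hi | hi
  · rw [ph, hi]; norm_num
  · rw [ph, hi]; norm_num

/-- from the ball to the unit cube. -/
def ps (u : Bc (n + 2)) : Fin (n + 2) → I := fun i => projIcc 0 1 zero_le_one ((u i + 1) / 2)

lemma continuous_ps : Continuous (ps (n := n)) := by
  unfold ps
  refine continuous_pi fun i => continuous_projIcc.comp ?_
  fun_prop

lemma abs_le_of {u : Bc (n + 2)} (hu : ‖u‖ ≤ 1) (i : Fin (n + 2)) : |u i| ≤ 1 :=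
  (norm_le_pi_norm u i).trans hu

lemma ps_coe {u : Bc (n + 2)} (hu : ‖u‖ ≤ 1) (i : Fin (n + 2)) :
    ((ps u i : I) : ℝ) = (u i + 1) / 2 := by
  have h := abs_le.1 (abs_le_of hu i)
  rw [ps, projIcc_of_mem zero_le_one (show (u i + 1) / 2 ∈ Icc (0 : ℝ) 1 from
    ⟨by linarith, by linarith⟩)]

lemma ph_ps {u : Bc (n + 2)} (hu : ‖u‖ ≤ 1) : ph (ps u) = u := by
  funext i
  rw [ph, ps_coe hu]
  ring

lemma ps_bd {u : Bc (n + 2)} (hu : ‖u‖ = 1) : ps u ∈ Cube.boundary (Fin (n + 2)) := by
  by_contra hn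
  have h1 : ∀ i, |u i| < 1 := by
    intro i
    refine lt_of_le_of_ne (abs_le_of hu.le i) fun h => hn ⟨i, ?_⟩
    rcases eq_or_eq_neg_of_abs_eq h with h | h
    · right
      apply Subtype.ext
      rw [ps_coe hu.le, h]; norm_num
    · left
      apply Subtype.ext
      rw [ps_coe hu.le, h]; norm_num
  have h2 : ‖u‖ < 1 := (pi_norm_lt_iff one_pos).2 fun i => by rw [Real.norm_eq_abs]; exact h1 i
  linarith

/-- good maps. -/
structure Good (f : Bc (n + 2) → Vc (n + 2)) : Prop where
  cont : ContinuousOn f (closedBall 0 1)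
  ne : ∀ u, ‖u‖ ≤ 1 → f u ≠ 0
  sph : ∀ u, ‖u‖ = 1 → f u = ec (n + 2)

/-- the generalised loop of a good map. -/
def gl (f : Bc (n + 2) → Vc (n + 2)) (h : Good f) : Ω^ (Fin (n + 2)) (Xs n) x0 :=
  ⟨⟨fun t => ⟨f (ph t), h.ne _ (ph_le t)⟩, by
    refine Continuous.subtype_mk ?_ _
    refine h.cont.comp_continuous continuous_ph fun t => ?_
    rw [mem_closedBall_zero_iff]
    exact ph_le t⟩,
    fun t ht => Subtype.ext (h.sph _ (ph_bd ht))⟩

lemma gl_apply (f : Bc (n + 2) → Vc (n + 2)) (h : Good f) (t : Fin (n + 2) → I) :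
    ((gl f h t : Xs n) : Vc (n + 2)) = f (ph t) := rfl

/-- the class. -/
def cl (f : Bc (n + 2) → Vc (n + 2)) (h : Good f) : HomotopyGroup (Fin (n + 2)) (Xs n) x0 :=
  (⟦gl f h⟧ : Quotient (GenLoop.Homotopic.setoid (Fin (n + 2)) (x0 : Xs n)))

lemma Good.of_FN {f g : Bc (n + 2) → Vc (n + 2)} (H : FN (ec (n + 2)) f g) : Good g := by
  obtain ⟨F, hc, hne, hs, -, h1⟩ := H
  have m1 : (1 : ℝ) ∈ Icc (0 : ℝ) 1 := ⟨zero_le_one, le_rfl⟩
  refine ⟨?_, fun u hu => by rw [← h1 u hu]; exact hne 1 m1 u hu,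
    fun u hu => by rw [← h1 u hu.le]; exact hs 1 m1 u hu⟩
  have h2 : ContinuousOn (fun u => F (1, u)) (closedBall (0 : Bc (n + 2)) 1) :=
    hc.comp (by fun_prop) fun u hu => ⟨m1, hu⟩
  exact h2.congr fun u hu => (h1 u (mem_closedBall_zero_iff.1 hu)).symm

lemma cl_eq_of_FN {f g : Bc (n + 2) → Vc (n + 2)} (hf : Good f) (hg : Good g)
    (H : FN (ec (n + 2)) f g) : cl f hf = cl g hg := by
  obtain ⟨F, hc, hne, hs, h0, h1⟩ := H
  refine Quotient.sound ?_
  have hcont : Continuous fun p : I × (Fin (n + 2) → I) => F ((p.1 : ℝ), ph p.2) := by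
    refine hc.comp_continuous ?_ fun p => ⟨p.1.2, ?_⟩
    · exact (continuous_subtype_val.comp continuous_fst).prodMk
        (continuous_ph.comp continuous_snd)
    · exact mem_closedBall_zero_iff.2 (ph_le p.2)
  refine ⟨⟨⟨⟨fun p => ⟨F ((p.1 : ℝ), ph p.2), hne _ p.1.2 _ (ph_le p.2)⟩,
    Continuous.subtype_mk hcont _⟩, fun t => ?_, fun t => ?_⟩, ?_⟩⟩
  · exact Subtype.ext (h0 _ (ph_le t))
  · exact Subtype.ext (h1 _ (ph_le t))
  · intro s t ht
    apply Subtype.ext
    change F ((s : ℝ), ph t) = f (ph t)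
    rw [hs _ s.2 _ (ph_bd ht), hf.sph _ (ph_bd ht)]

lemma FN_of_cl_eq {f g : Bc (n + 2) → Vc (n + 2)} (hf : Good f) (hg : Good g)
    (H : cl f hf = cl g hg) : FN (ec (n + 2)) f g := by
  obtain ⟨K⟩ : GenLoop.Homotopic (gl f hf) (gl g hg) := Quotient.exact H
  let F : ℝ × Bc (n + 2) → Vc (n + 2) := fun p =>
    ((K (projIcc 0 1 zero_le_one p.1, ps p.2) : Xs n) : Vc (n + 2))
  have hF : Continuous F := by
    have h1 : Continuous fun p : ℝ × Bc (n + 2) =>
        ((projIcc (0 : ℝ) 1 zero_le_one p.1, ps p.2) : I × (Fin (n + 2) → I)) :=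
      (continuous_projIcc.comp continuous_fst).prodMk (continuous_ps.comp continuous_snd)
    exact continuous_subtype_val.comp (K.continuous.comp h1)
  refine ⟨F, hF.continuousOn, fun t _ u _ => (K (projIcc 0 1 zero_le_one t, ps u)).2,
    fun t _ u hu => ?_, fun u hu => ?_, fun u hu => ?_⟩
  · have h2 := K.eq_fst (projIcc 0 1 zero_le_one t) (ps_bd hu)
    change ((K (projIcc 0 1 zero_le_one t, ps u) : Xs n) : Vc (n + 2)) = _
    rw [h2]
    change f (ph (ps u)) = _
    rw [ph_ps hu.le, hf.sph u hu]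
  · change ((K (projIcc 0 1 zero_le_one (0 : ℝ), ps u) : Xs n) : Vc (n + 2)) = _
    rw [projIcc_left]
    have h2 := K.apply_zero (ps u)
    change ((K (0, ps u) : Xs n) : Vc (n + 2)) = _
    rw [h2]
    change f (ph (ps u)) = _
    rw [ph_ps hu]
  · change ((K (projIcc 0 1 zero_le_one (1 : ℝ), ps u) : Xs n) : Vc (n + 2)) = _
    rw [projIcc_right]
    have h2 := K.apply_one (ps u)
    change ((K (1, ps u) : Xs n) : Vc (n + 2)) = _
    rw [h2]
    change g (ph (ps u)) = _
    rw [ph_ps hu]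

/-! ### constructors -/

lemma good_const : Good (n := n) fun _ => ec (n + 2) :=
  ⟨continuousOn_const, fun _ _ => ec_ne, fun _ _ => rfl⟩

lemma good_ga : Good (n := n) ga :=
  ⟨continuous_ga.continuousOn, fun u _ => ga_ne u, fun _ hu => ga_sph hu⟩

lemma cl_const : cl (n := n) (fun _ => ec (n + 2)) good_const = 1 := by
  rw [HomotopyGroup.one_def]
  exact congrArg (fun q => (⟦q⟧ : Quotient (GenLoop.Homotopic.setoid (Fin (n + 2)) (x0 : Xs n))))
    (GenLoop.ext _ _ fun t => Subtype.ext rfl)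

lemma blowL_one (u : Bc (n + 2)) : blowL u 1 = 2 * u 1 + 1 := by simp [blowL]
lemma blowR_one (u : Bc (n + 2)) : blowR u 1 = 2 * u 1 - 1 := by simp [blowR]
lemma blowL_ne (u : Bc (n + 2)) {i : Fin (n + 2)} (hi : i ≠ 1) : blowL u i = u i := by
  simp [blowL, hi]
lemma blowR_ne (u : Bc (n + 2)) {i : Fin (n + 2)} (hi : i ≠ 1) : blowR u i = u i := by
  simp [blowR, hi]

lemma continuous_blowL : Continuous (blowL (n := n)) := by
  unfold blowL
  refine continuous_pi fun i => ?_
  by_cases hi : i = 1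
  · subst hi; simp only [Function.update_self]; fun_prop
  · simp only [Function.update_of_ne hi]; fun_prop

lemma continuous_blowR : Continuous (blowR (n := n)) := by
  unfold blowR
  refine continuous_pi fun i => ?_
  by_cases hi : i = 1
  · subst hi; simp only [Function.update_self]; fun_prop
  · simp only [Function.update_of_ne hi]; fun_prop

lemma exists_one {u : Bc (n + 2)} (hu : ‖u‖ = 1) : ∃ i, |u i| = 1 := by
  by_contra hn
  push Not at hn
  have h2 : ‖u‖ < 1 := (pi_norm_lt_iff one_pos).2 fun i => by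
    rw [Real.norm_eq_abs]; exact lt_of_le_of_ne (abs_le_of hu.le i) (hn i)
  linarith

lemma good_cat {f g : Bc (n + 2) → Vc (n + 2)} (cf : Continuous f) (cg : Continuous g)
    (nf : ∀ u, f u ≠ 0) (ng : ∀ u, g u ≠ 0)
    (rf : ∀ u, 1 ≤ ‖u‖ → f u = ec (n + 2)) (rg : ∀ u, 1 ≤ ‖u‖ → g u = ec (n + 2)) :
    Good (cat f g) := by
  refine ⟨Continuous.continuousOn ?_, fun u _ => ?_, fun u hu => ?_⟩
  · unfold cat
    refine Continuous.if_le (cf.comp continuous_blowL) (cg.comp continuous_blowR) (by fun_prop)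
      continuous_const fun u hu => ?_
    have h1 : f (blowL u) = ec (n + 2) := rf _ (one_le_of (i := 1) (by
      rw [blowL_one, hu]; norm_num))
    have h2 : g (blowR u) = ec (n + 2) := rg _ (one_le_of (i := 1) (by
      rw [blowR_one, hu]; norm_num))
    rw [h1, h2]
  · unfold cat
    split_ifs
    · exact nf _
    · exact ng _
  · obtain ⟨i, hi⟩ := exists_one hu
    unfold cat
    split_ifs with h
    · apply rf
      by_cases h1 : i = 1
      · subst h1
        have h3 : u 1 = -1 := by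
          rcases eq_or_eq_neg_of_abs_eq hi with h4 | h4
          · linarith
          · exact h4
        exact one_le_of (i := 1) (by rw [blowL_one, h3]; norm_num)
      · exact one_le_of (i := i) (by rw [blowL_ne _ h1, hi])
    · apply rg
      push Not at h
      by_cases h1 : i = 1
      · subst h1
        have h3 : u 1 = 1 := by
          rcases eq_or_eq_neg_of_abs_eq hi with h4 | h4
          · exact h4
          · linarith
        exact one_le_of (i := 1) (by rw [blowR_one, h3]; norm_num)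
      · exact one_le_of (i := i) (by rw [blowR_ne _ h1, hi])

lemma good_of {f : Bc (n + 2) → Vc (n + 2)} (cf : Continuous f)
    (nf : ∀ u, f u ≠ 0) (rf : ∀ u, 1 ≤ ‖u‖ → f u = ec (n + 2)) : Good f :=
  ⟨cf.continuousOn, fun u _ => nf u, fun u hu => rf u hu.ge⟩

lemma continuous_flip : Continuous fun u : Bc (n + 2) => Function.update u 1 (-(u 1)) := by
  refine continuous_pi fun i => ?_
  by_cases hi : i = 1
  · subst hi; simp only [Function.update_self]; fun_prop
  · simp only [Function.update_of_ne hi]; fun_prop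

lemma norm_flip (u : Bc (n + 2)) : ‖Function.update u 1 (-(u 1))‖ = ‖u‖ := by
  have h : ∀ i, ‖(Function.update u 1 (-(u 1)) : Bc (n + 2)) i‖ = ‖u i‖ := by
    intro i
    by_cases hi : i = 1
    · subst hi; rw [Function.update_self, norm_neg]
    · rw [Function.update_of_ne hi]
  refine le_antisymm ?_ ?_
  · rw [pi_norm_le_iff_of_nonneg (norm_nonneg _)]
    intro i
    rw [h]
    exact norm_le_pi_norm u i
  · rw [pi_norm_le_iff_of_nonneg (norm_nonneg _)]
    intro i
    rw [← h]
    exact norm_le_pi_norm _ i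

lemma good_rev {f : Bc (n + 2) → Vc (n + 2)} (cf : Continuous f)
    (nf : ∀ u, f u ≠ 0) (rf : ∀ u, 1 ≤ ‖u‖ → f u = ec (n + 2)) : Good (rev f) :=
  ⟨(cf.comp continuous_flip).continuousOn, fun u _ => nf _,
    fun u hu => rf _ (by rw [norm_flip]; exact hu.ge)⟩

lemma gl_cat {f g : Bc (n + 2) → Vc (n + 2)} (hf : Good f) (hg : Good g)
    (h : Good (cat f g)) : gl (cat f g) h = GenLoop.transAt 1 (gl f hf) (gl g hg) := by
  refine GenLoop.ext _ _ fun t => ?_
  apply Subtype.ext
  rw [gl_apply]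
  change cat f g (ph t) = ((if (t 1 : ℝ) ≤ 1 / 2
      then gl f hf (Function.update t 1 <| Set.projIcc 0 1 zero_le_one (2 * t 1))
      else gl g hg (Function.update t 1 <| Set.projIcc 0 1 zero_le_one (2 * t 1 - 1)) : Xs n) :
      Vc (n + 2))
  have h0 := (t 1).2.1
  have h1 := (t 1).2.2
  unfold cat
  by_cases hc : (t 1 : ℝ) ≤ 1 / 2
  · have hc' : ph t 1 ≤ 0 := by rw [ph]; linarith
    rw [if_pos hc, if_pos hc', gl_apply]
    congr 1
    funext i
    by_cases hi : i = 1
    · subst hi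
      rw [blowL_one, ph, ph, Function.update_self,
        projIcc_of_mem zero_le_one (show 2 * (t 1 : ℝ) ∈ Icc (0 : ℝ) 1 from
          ⟨by linarith, by linarith⟩)]
      ring
    · rw [blowL_ne _ hi, ph, ph, Function.update_of_ne hi]
  · have hc' : ¬ ph t 1 ≤ 0 := by rw [ph]; linarith
    rw [if_neg hc, if_neg hc', gl_apply]
    push Not at hc
    congr 1
    funext i
    by_cases hi : i = 1
    · subst hi
      rw [blowR_one, ph, ph, Function.update_self,
        projIcc_of_mem zero_le_one (show 2 * (t 1 : ℝ) - 1 ∈ Icc (0 : ℝ) 1 from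
          ⟨by linarith, by linarith⟩)]
    · rw [blowR_ne _ hi, ph, ph, Function.update_of_ne hi]

lemma gl_rev {f : Bc (n + 2) → Vc (n + 2)} (hf : Good f) (h : Good (rev f)) :
    gl (rev f) h = GenLoop.symmAt 1 (gl f hf) := by
  refine GenLoop.ext _ _ fun t => ?_
  apply Subtype.ext
  rw [gl_apply]
  change rev f (ph t) = f (ph fun j => if j = 1 then unitInterval.symm (t 1) else t j)
  unfold rev
  congr 1
  funext i
  by_cases hi : i = 1
  · subst hi
    rw [Function.update_self, ph, ph, if_pos rfl, unitInterval.coe_symm_eq]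
    ring
  · rw [Function.update_of_ne hi, ph, ph, if_neg hi]

/-- **the class of `TypN`.** -/
theorem cl_typN {f : Bc (n + 2) → Vc (n + 2)} {c : ℤ} (h : TypN n f c) :
    ∃ hf : Good f, cl f hf = cl (n := n) ga good_ga ^ c := by
  induction h with
  | zero => exact ⟨good_const, by rw [cl_const, zpow_zero]⟩
  | ga => exact ⟨good_ga, by rw [zpow_one]⟩
  | congr h H ih =>
    obtain ⟨hf, e⟩ := ih
    exact ⟨Good.of_FN H, by rw [← e, cl_eq_of_FN hf (Good.of_FN H) H]⟩
  | @cat f g c c' cf cg nf ng rf rg h h' ih ih' =>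
    obtain ⟨hf, e⟩ := ih
    obtain ⟨hg, e'⟩ := ih'
    refine ⟨good_cat cf cg nf ng rf rg, ?_⟩
    rw [add_comm c c', zpow_add, ← e, ← e']
    have h1 : cl (cat f g) (good_cat cf cg nf ng rf rg) =
        (⟦GenLoop.transAt 1 (gl f hf) (gl g hg)⟧ :
          Quotient (GenLoop.Homotopic.setoid (Fin (n + 2)) (x0 : Xs n))) := by
      unfold cl
      rw [gl_cat hf hg]
    rw [h1]
    exact (HomotopyGroup.mul_spec (i := (1 : Fin (n + 2)))).symm
  | @rev f c cf nf rf h ih =>
    obtain ⟨hf, e⟩ := ih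
    refine ⟨good_rev cf nf rf, ?_⟩
    rw [zpow_neg, ← e]
    have h1 : cl (rev f) (good_rev cf nf rf) =
        (⟦GenLoop.symmAt 1 (gl f hf)⟧ :
          Quotient (GenLoop.Homotopic.setoid (Fin (n + 2)) (x0 : Xs n))) := by
      unfold cl
      rw [gl_rev hf]
    rw [h1]
    exact (HomotopyGroup.inv_spec (i := (1 : Fin (n + 2)))).symm

/-- **TYPN.** -/
theorem typN (n : ℕ) : TypNProp n := by
  intro f g c hf hg
  obtain ⟨h1, e1⟩ := cl_typN hf
  obtain ⟨h2, e2⟩ := cl_typN hg
  exact FN_of_cl_eq h1 h2 (e1.trans e2.symm)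

end

end Crest.Agent.R267.TypN_52
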