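import Crest.Agent.R267.ClassG_808
import Crest.Agent.R267.TypN_52
import Crest.Agent.R267.FB_118
import Crest.Agent.R267.TypG_527

/-!
# Row 267: the class theorem for graph systems, final form

`classG n (hn : 1 ≤ n) : ClassGProp n`: graph systems whose matrices are congruent by an
elementary (T1, T2) sequence have homeomorphic pairs; together with `ClassProp n` and `T2Prop n`
without hypotheses.
-/

set_option autoImplicit false

namespace Crest.Agent.R267.ClassGF_808

open Crest.Agent.R267.GS_808 Crest.Agent.R267.DraftB_808 Crest.Agent.R267.ClassG_808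

/-- the class theorem (TB), no hypotheses. -/
theorem classP (n : ℕ) (hn : 1 ≤ n) : ClassProp n :=
  class_fin n hn (FB_118.fbProp hn) (TypG_527.typProp n hn (FB_118.fbProp hn)) (TypN_52.typN n)

/-- **T2**, no hypotheses. -/
theorem t2 (n : ℕ) (hn : 1 ≤ n) : T2Prop n := t2_fin n hn (classP n hn)

/-- **`ClassGProp n` for every `n ≥ 1`.** -/
theorem classG (n : ℕ) (hn : 1 ≤ n) : ClassGProp n :=
  classG_fin n hn (FB_118.fbProp hn) (TypG_527.typProp n hn (FB_118.fbProp hn)) (TypN_52.typN n)

end Crest.Agent.R267.ClassGF_808
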