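import Crest.Agent.R267.ClsD_253

/-!
# T2-4: the matrices of `G₊` and `G₋` (row 267, DRAFT B part 3, task 439)

`cls_of : ClsOfProp n`.
-/

set_option autoImplicit false

namespace Crest.Agent.R267.Cls_253

open Set Metric
open scoped RealInnerProductSpace
open Crest.Agent.R267.GS_808 Crest.Agent.R267.DraftB_808 Crest.Agent.R267.NF_808
open Crest.Agent.R267.IsotB_92 Crest.Agent.R267.ClsA_253 Crest.Agent.R267.ClsB_253
open Crest.Agent.R267.ClsC_253 Crest.Agent.R267.ClsD_253

variable {n m : ℕ} {i j : Fin m}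

/-- one strand of `P` against the central one. -/
theorem typ_side (P : OthD n m j) {k : Fin m} (hk : k ≠ j) {a b : ℝ} (ok : Ok2 a b 1 0) {α β : ℤ}
    (h : Typ n (fun u => P.y j u - P.y k u) α β) :
    Typ n (fun u => -(P.y k (us u (a * u 1 + b)))) α β := by
  have h1 : (fun u => P.y j u - P.y k u) = fun u => -(P.y k u) := by
    funext u; rw [P.yj, zero_sub]
  have h2 : Adm (n + 2) fun u => -(P.y k u) := by
    rw [← h1]; exact adm_oth P hk.symm
  rw [h1] at h
  refine h.congr (IsotB_92.FH.symm ?_)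
  have := fh_lin h2 ok
  simpa only [one_mul, add_zero, us_self] using this

section main

variable {P Q : OthD n m j} (hpp : Q.p = P.p) (D : PathD n) (F : FrameD n) (hij : i ≠ j)
  {rho R1 : ℝ} (h0 : 0 < rho) (h1 : rho < 1 / 4) (h2 : 1 < R1) (h3 : rho * R1 < 1 / 16)
  (h4 : ∀ k u, k ≠ i → ‖u‖ ≤ 1 → ‖(nfd P Q hpp D F hij).y k u‖ < R1)

include h4 in
lemma p_lt {k : Fin m} (hk : k ≠ i) : ‖P.p k‖ < R1 := by
  have h5 := h4 k (us 0 0) hk (by
    rw [pi_norm_le_iff_of_nonneg zero_le_one]
    intro l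
    by_cases hl : l = 1
    · subst hl; rw [us_apply]; simp
    · rw [us_ne _ _ hl]; simp)
  have h6 : (nfd P Q hpp D F hij).y k (us 0 0) = P.p k :=
    (nfd P Q hpp D F hij).mid_y k (us 0 0) (by rw [us_apply]; norm_num)
  rwa [h6] at h5

/-- core of the moving strand of `G₊`. -/
lemma xp_i (u : Bc (n + 2)) : xp (nfd P Q hpp D F hij) rho R1 i u
    = rp rho R1 (u 1) • D.om (us u (16 * u 1 + -1)) := by
  unfold xp
  rw [if_pos rfl, fr_eq, ← sub_eq_add_neg]; rfl

lemma xp_k {k : Fin m} (hk : k ≠ i) (u : Bc (n + 2)) :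
    xp (nfd P Q hpp D F hij) rho R1 k u = yy P Q k u := by
  unfold xp
  rw [if_neg hk]; rfl

/-- core of the moving strand of `G₋`. -/
lemma xm_i (u : Bc (n + 2)) : xm (nfd P Q hpp D F hij) rho R1 i u
    = rp rho R1 (-(u 1)) • F.Rf (us u (4 * u 1 + 3)) (D.om (us u (-16 * u 1 + -1))) := by
  unfold xm
  rw [if_pos rfl, fl_eq, neg_mul, ← sub_eq_add_neg]; rfl

lemma xm_k {k : Fin m} (hk : k ≠ i) (u : Bc (n + 2)) :
    xm (nfd P Q hpp D F hij) rho R1 k u = yy P Q k u := by
  unfold xm
  rw [if_neg hk]; rfl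

include h0 h1 h2 h3 h4 in
/-- the moving strand of `G₊` against strand `k`. -/
theorem pair_p (G : S n m) (hG : Has G (xp (nfd P Q hpp D F hij) rho R1) (nup (nfd P Q hpp D F hij)))
    {k : Fin m} (hk : k ≠ j) (hki : k ≠ i) :
    FH (ec (n + 2)) (fun u => G.x i u - G.x k u) (fun u => -(P.y k (us u (4 * u 1 + -3)))) := by
  have hpl := p_lt hpp D F hij h4 hki
  have ei : ∀ u, ‖u‖ ≤ 1 → G.x i u = rp rho R1 (u 1) • D.om (us u (16 * u 1 + -1)) :=
    fun u hu => (hG i u hu).1.trans (xp_i hpp D F hij u)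
  have ek : ∀ u, ‖u‖ ≤ 1 → G.x k u = yy P Q k u := fun u hu =>
    (hG k u hu).1.trans (xp_k hpp D F hij hki u)
  refine fh_pair P hk G hki (R1 := R1) h2 ((P.c_y k).comp (cont_us
    ((continuous_const.mul cont1).add continuous_const))) (fun u hu => P.wall_y k _
      (norm_us u hu.ge fun h => by rw [← sub_eq_add_neg]; exact absR h)) (fun u hu => ?_)
      fun u hu => ?_
  · by_cases hc : -(1 / 2) ≤ u 1
    · left
      rw [ek u hu, yy_right P Q hpp k hc, ← sub_eq_add_neg]
    · right
      push Not at hc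
      refine ⟨?_, ?_, ?_⟩
      · rw [ei u hu, rp_eq h2 (by linarith),
          D.rest_om _ (rest_us u (le_abs_of_le_neg (by linarith)))]
      · rw [ek u hu]; exact h4 k u hki hu
      · rw [P.rest_y k _ (rest_us u (le_abs_of_le_neg (by linarith)))]; exact hpl
  · rcases le_total 0 (u 1) with hc | hc
    · left
      refine ⟨?_, P.far k _ hk⟩
      rw [ei u hu, norm_smul, D.n_om, mul_one, Real.norm_of_nonneg (rp_pos _ _ _).le]
      exact rp_le h0 h1 h2 h3 hc
    · right
      refine ⟨⟨rp rho R1 (u 1), ?_⟩, ?_⟩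
      · rw [ei u hu, D.rest_om _ (rest_us u (le_abs_of_le_neg (by linarith)))]
      · exact P.rest_y k _ (rest_us u (le_abs_of_le_neg (by linarith)))

include h0 h1 h2 h3 h4 in
/-- the moving strand of `G₋` against strand `k`. -/
theorem pair_m (G : S n m) (hG : Has G (xm (nfd P Q hpp D F hij) rho R1) (num (nfd P Q hpp D F hij)))
    {k : Fin m} (hk : k ≠ j) (hki : k ≠ i) :
    FH (ec (n + 2)) (fun u => G.x i u - G.x k u) (fun u => -(Q.y k (us u (4 * u 1 + 3)))) := by
  have hpl := p_lt hpp D F hij h4 hki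
  have ei : ∀ u, ‖u‖ ≤ 1 → G.x i u
      = rp rho R1 (-(u 1)) • F.Rf (us u (4 * u 1 + 3)) (D.om (us u (-16 * u 1 + -1))) :=
    fun u hu => (hG i u hu).1.trans (xm_i hpp D F hij u)
  have ek : ∀ u, ‖u‖ ≤ 1 → G.x k u = yy P Q k u := fun u hu =>
    (hG k u hu).1.trans (xm_k hpp D F hij hki u)
  have er : ∀ u : Bc (n + 2), 0 ≤ u 1 → F.Rf (us u (4 * u 1 + 3)) (D.om (us u (-16 * u 1 + -1)))
      = hc (n + 1) := fun u hu => by
    rw [D.rest_om _ (rest_us u (le_abs_of_le_neg (by linarith))),
      F.rest _ (rest_us u (le_abs_of_le (by linarith)))]; rfl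
  refine fh_pair P hk G hki (R1 := R1) h2 ((Q.c_y k).comp (cont_us
    ((continuous_const.mul cont1).add continuous_const))) (fun u hu => Q.wall_y k _
      (norm_us u hu.ge absL)) (fun u hu => ?_) fun u hu => ?_
  · by_cases hc : u 1 ≤ 1 / 2
    · left
      rw [ek u hu, yy_left P Q k hc]
    · right
      push Not at hc
      refine ⟨?_, ?_, ?_⟩
      · rw [ei u hu, rp_eq h2 (by linarith), er u (by linarith)]
      · rw [ek u hu]; exact h4 k u hki hu
      · rw [Q.rest_y k _ (rest_us u (le_abs_of_le (by linarith))), hpp]; exact hpl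
  · rcases le_total 0 (u 1) with hc | hc
    · right
      refine ⟨⟨rp rho R1 (-(u 1)), ?_⟩, ?_⟩
      · rw [ei u hu, er u hc]
      · rw [← hpp]; exact Q.rest_y k _ (rest_us u (le_abs_of_le (by linarith)))
    · left
      refine ⟨?_, Q.far k _ hk⟩
      rw [ei u hu, norm_smul, LinearIsometryEquiv.norm_map, D.n_om, mul_one,
        Real.norm_of_nonneg (rp_pos _ _ _).le]
      exact rp_le h0 h1 h2 h3 (by linarith)

end main

lemma fh_scale {f : Bc (n + 2) → Vc (n + 2)} (hf : ContinuousOn f (closedBall 0 1))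
    (h0 : ∀ u, ‖u‖ ≤ 1 → f u ≠ 0) (h1 : ∀ u, ‖u‖ = 1 → ⟪ec (n + 2), f u⟫ = 0)
    {c : Bc (n + 2) → ℝ} (cc : Continuous c) (hc : ∀ u, 0 < c u) :
    FH (ec (n + 2)) f (fun u => c u • f u) :=
  fh_smul cc.continuousOn (fun u _ => hc u) hf h0 h1

lemma typ_smul {f g : Bc (n + 2) → Vc (n + 2)} {a b : ℤ} (h : Typ n f a b) (hf : Adm (n + 2) f)
    (hg : Adm (n + 2) g) {c : Bc (n + 2) → ℝ} (cc : Continuous c) (hc : ∀ u, 0 < c u)
    (he : ∀ u, ‖u‖ ≤ 1 → g u = c u • f u) : Typ n g a b :=
  typ_of_eq hg (h.congr (fh_scale hf.cont.continuousOn (fun u _ => hf.ne u)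
    (fun u hu => hf.hor u hu.ge) cc hc)) he

lemma abs16 {s : ℝ} (h : 1 ≤ |s|) : 1 ≤ |16 * s + -1| := by
  rcases le_total 0 s with h0 | h0
  · rw [abs_of_nonneg h0] at h; exact le_abs_of_le (by linarith)
  · rw [abs_of_nonpos h0] at h; exact le_abs_of_le_neg (by linarith)

lemma abs16' {s : ℝ} (h : 1 ≤ |s|) : 1 ≤ |-16 * s + -1| := by
  rcases le_total 0 s with h0 | h0
  · rw [abs_of_nonneg h0] at h; exact le_abs_of_le_neg (by linarith)
  · rw [abs_of_nonpos h0] at h; exact le_abs_of_le (by linarith)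

lemma refl_cont (D : PathD n) : Continuous fun u => NF_808.refl (D.om u) (D.M u) := by
  unfold NF_808.refl
  have h : Continuous fun u => (2 : ℝ) * ⟪D.M u, D.om u⟫ :=
    continuous_const.mul (D.c_M.inner D.c_om)
  exact D.c_M.sub (h.smul D.c_om)

lemma refl_wall (D : PathD n) (u : Bc (n + 2)) (hu : 1 ≤ ‖u‖) :
    NF_808.refl (D.om u) (D.M u) = ec (n + 2) := by
  unfold NF_808.refl
  rw [D.wall_M u hu, D.wall_om u hu]
  simp

/-! ### the theorem -/

/-- the matrix of the part over `s ≥ 1/2`. -/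
def A1 (A : Matrix (Fin m) (Fin m) ℤ) (i j : Fin m) : Matrix (Fin m) (Fin m) ℤ := fun k l =>
  if k = j then (if l = j then 0 else A i l) else if l = j then A k i else 0

theorem cls_of (n : ℕ) : ClsOfProp n := by
  intro hReal hFrame hPath m A i j hij
  obtain ⟨p, hp⟩ := hReal m j
  obtain ⟨P, hPp, hP, hPN⟩ := hp (A1 A i j)
  obtain ⟨Q, hQp, hQ, hQN⟩ := hp (A - A1 A i j)
  obtain ⟨F, hF1, hF2⟩ := hFrame (A j j)
  obtain ⟨D, hD1, hD2, hD3⟩ := hPath (A i j) (A j i) (A i i)
  have hpp : Q.p = P.p := hQp.trans hPp.symm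
  refine ⟨nfd P Q hpp D F hij, ?_⟩
  intro rho R1 G G' h0 h1 h2 h3 h4 hG hG'
  -- pairs away from `i`
  have far : ∀ (G : S n m), (∀ k u, k ≠ i → ‖u‖ ≤ 1 → G.x k u = yy P Q k u) →
      ∀ k l, k ≠ i → l ≠ i → k ≠ l → Typ n (fun u => G.x k u - G.x l u) (A k l) (A l k) := by
    intro G hG k l hk hl hkl
    have := typ_yy hpp hP hQ hkl
    rw [Matrix.sub_apply, Matrix.sub_apply, sub_add_cancel, sub_add_cancel] at this
    exact typ_of_eq (adm_sub G hkl) this fun u hu => by rw [hG k u hk hu, hG l u hl hu]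
  -- normals away from `i`
  have nor : ∀ (G : S n m), (∀ k u, k ≠ i → k ≠ j → ‖u‖ ≤ 1 → G.nu k u = NN P Q k u) →
      (∀ u, ‖u‖ ≤ 1 → G.nu j u = F.Rf (us u (4 * u 1 + 3)) (ec (n + 2))) →
      ∀ k, k ≠ i → TypN n (G.nu k) (A k k) := by
    intro G hG1 hG2 k hk
    by_cases hkj : k = j
    · subst hkj
      refine typN_sys G k (hF1.congr (IsotB_92.FN.symm ?_)) hG2
      have := fn_lin (f := fun u => F.Rf u (ec (n + 2)))
        (F.c_Rf.comp (continuous_id.prodMk continuous_const))
        (fun u => by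
          rw [← norm_ne_zero_iff, LinearIsometryEquiv.norm_map, norm_e]; exact one_ne_zero)
        F.wall okL1
      simpa only [one_mul, add_zero, us_self] using this
    · have := typN_NN (hPN k) (hQN k)
      rw [Matrix.sub_apply, sub_add_cancel] at this
      exact typN_sys G k this fun u hu => hG1 k u hk hkj hu
  -- the path at the right half
  have oka : Adm (n + 2) fun u => D.om (us u (16 * u 1 + -1)) :=
    ⟨D.c_om.comp (cont_us ((continuous_const.mul cont1).add continuous_const)),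
      fun u => by rw [← norm_ne_zero_iff, D.n_om]; exact one_ne_zero,
      fun u hu => D.wall_om _ (norm_us u hu abs16)⟩
  have okb : Adm (n + 2) fun u => F.Rf (us u (4 * u 1 + 3)) (D.om (us u (-16 * u 1 + -1))) := by
    refine ⟨?_, fun u => ?_, fun u hu => frame_e F (norm_us u hu absL)
      (D.wall_om _ (norm_us u hu abs16'))⟩
    · have e1 : Continuous fun u : Bc (n + 2) => us u (4 * u 1 + 3) :=
        cont_us ((continuous_const.mul cont1).add continuous_const)
      have e2 : Continuous fun u : Bc (n + 2) => us u (-16 * u 1 + -1) :=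
        cont_us ((continuous_const.mul cont1).add continuous_const)
      exact F.c_Rf.comp (e1.prodMk (D.c_om.comp e2))
    · rw [← norm_ne_zero_iff, LinearIsometryEquiv.norm_map, D.n_om]; exact one_ne_zero
  have a1 : ∀ k, k ≠ j → A1 A i j j k = A i k := fun k hk => by
    unfold A1; rw [if_pos rfl, if_neg hk]
  have a2 : ∀ k, k ≠ j → A1 A i j k j = A k i := fun k hk => by
    unfold A1; rw [if_neg hk, if_pos rfl]
  constructor
  · refine hasMat_of G A i (far G fun k u hk hu => (hG k u hu).1.trans (xp_k hpp D F hij hk u))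
      (fun k hk => ?_) fun k => ?_
    · by_cases hkj : k = j
      · subst hkj
        have e : Typ n (fun u => D.om (us u (16 * u 1 + -1))) (A i k) (A k i) := by
          refine hD1.congr (IsotB_92.FH.symm ?_)
          have := fh_lin (adm_path D) okP
          simpa only [one_mul, add_zero, us_self] using this
        refine typ_smul (c := fun u => rp rho R1 (u 1)) e oka (adm_sub G hk.symm)
          ((continuous_rp _ _).comp cont1) (fun u => rp_pos _ _ _) fun u hu => ?_
        rw [(hG i u hu).1, (hG k u hu).1, xp_i hpp D F hij u, xp_k hpp D F hij hk u]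
        have : yy P Q k u = 0 := (nfd P Q hpp D F hij).yj u
        rw [this, sub_zero]
      · have e := typ_side P hkj okR1 (typ_all hP (Ne.symm hkj))
        rw [a1 k hkj, a2 k hkj] at e
        exact e.congr (IsotB_92.FH.symm (pair_p hpp D F hij h0 h1 h2 h3 h4 G hG hkj hk))
    · by_cases hk : k = i
      · subst hk
        have e : TypN n (fun u => D.M (us u (16 * u 1 + -1))) (A k k) := by
          refine hD2.congr (IsotB_92.FN.symm ?_)
          have := fn_lin D.c_M (fun u => by
            rw [← norm_ne_zero_iff, D.n_M]; exact one_ne_zero) D.wall_M okP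
          simpa only [one_mul, add_zero, us_self] using this
        refine typN_sys G k e fun u hu => ?_
        rw [(hG k u hu).2]
        unfold nup
        rw [if_pos rfl, fr_eq, ← sub_eq_add_neg]; rfl
      · refine nor G (fun k u hk hkj hu => ?_) (fun u hu => ?_) k hk
        · rw [(hG k u hu).2]
          unfold nup
          rw [if_neg hk, if_neg hkj]; rfl
        · rw [(hG j u hu).2]
          unfold nup
          rw [if_neg hij.symm, if_pos rfl]; rfl
  · have c1 : ∀ k l, k ≠ i → l ≠ i → ((T2alg1_684.Rm i j).transpose * A * T2alg1_684.Rm i j) k l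
        = A k l := fun k l hk hl => by rw [mul_Rm, if_neg hl, RmT_mul, if_neg hk]
    have c2 : ∀ k, k ≠ i → ((T2alg1_684.Rm i j).transpose * A * T2alg1_684.Rm i j) i k
        = A j k - A i k := fun k hk => by rw [mul_Rm, if_neg hk, RmT_mul, if_pos rfl]
    have c3 : ∀ k, k ≠ i → ((T2alg1_684.Rm i j).transpose * A * T2alg1_684.Rm i j) k i
        = A k j - A k i := fun k hk => by
      rw [mul_Rm, if_pos rfl, RmT_mul, RmT_mul, if_neg hk, if_neg hk]
    have c4 : ((T2alg1_684.Rm i j).transpose * A * T2alg1_684.Rm i j) i i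
        = A j j - (A i j + A j i - A i i) := by
      rw [mul_Rm, if_pos rfl, RmT_mul, RmT_mul, if_pos rfl, if_pos rfl]; ring
    refine hasMat_of G' _ i (fun k l hk hl hkl => ?_) (fun k hk => ?_) fun k => ?_
    · rw [c1 k l hk hl, c1 l k hl hk]
      exact far G' (fun k u hk hu => (hG' k u hu).1.trans (xm_k hpp D F hij hk u)) k l hk hl hkl
    · rw [c2 k hk, c3 k hk]
      by_cases hkj : k = j
      · subst hkj
        have e := typ_frame F (adm_path D) D.rest_om hF2 hD1
        refine typ_smul (c := fun u => rp rho R1 (-(u 1))) e okb (adm_sub G' hk.symm)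
          ((continuous_rp _ _).comp cont1.neg) (fun u => rp_pos _ _ _) fun u hu => ?_
        rw [(hG' i u hu).1, (hG' k u hu).1, xm_i hpp D F hij u, xm_k hpp D F hij hk u]
        have : yy P Q k u = 0 := (nfd P Q hpp D F hij).yj u
        rw [this, sub_zero]
      · have e := typ_side Q hkj okL1 (typ_all hQ (Ne.symm hkj))
        rw [Matrix.sub_apply, Matrix.sub_apply, a1 k hkj, a2 k hkj] at e
        exact e.congr (IsotB_92.FH.symm (pair_m hpp D F hij h0 h1 h2 h3 h4 G' hG' hkj hk))
    · by_cases hk : k = i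
      · subst hk
        rw [c4]
        have e := typN_frame F (refl_cont D) (fun u => by
          rw [← norm_ne_zero_iff, norm_refl (D.n_om u), D.n_M]; exact one_ne_zero)
          (refl_wall D) hF1 hD3
        refine typN_sys G' k e fun u hu => ?_
        rw [(hG' k u hu).2]
        unfold num
        rw [if_pos rfl, fl_eq, neg_mul, ← sub_eq_add_neg]; rfl
      · rw [c1 k k hk hk]
        refine nor G' (fun k u hk hkj hu => ?_) (fun u hu => ?_) k hk
        · rw [(hG' k u hu).2]
          unfold num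
          rw [if_neg hk, if_neg hkj]; rfl
        · rw [(hG' j u hu).2]
          unfold num
          rw [if_neg hij.symm, if_pos rfl]; rfl

end Crest.Agent.R267.Cls_253
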