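import Crest.Agent.R267.LemDA_527

/-!
# Row 267, TB-B7c-D (helper527): LEMMA D

If `ν` has class `γ^d` and `δ` is a nonvanishing section of `ν⊥` over the cube, then `δ` has class
`α^d β^d`.
-/

set_option autoImplicit false
set_option linter.unusedSectionVars false

namespace Crest.Agent.R267.LemD_527

open Set Metric
open scoped RealInnerProductSpace
open Crest.Agent.R267.GS_808 Crest.Agent.R267.LemDA_527

/-! ### the cube -/

/-- coordinatewise retraction to the cube. -/
def clamp {N : ℕ} (u : Bc N) : Bc N := fun i => max (-1) (min 1 (u i))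

lemma continuous_clamp {N : ℕ} : Continuous (clamp (N := N)) :=
  continuous_pi fun i => continuous_const.max (continuous_const.min (continuous_apply i))

lemma norm_clamp {N : ℕ} (u : Bc N) : ‖clamp u‖ ≤ 1 := by
  rw [pi_norm_le_iff_of_nonneg zero_le_one]
  intro i
  rw [Real.norm_eq_abs, abs_le]
  exact ⟨le_max_left _ _, max_le (by norm_num) (min_le_left _ _)⟩

lemma abs_le_of_norm {N : ℕ} {u : Bc N} (h : ‖u‖ ≤ 1) (i : Fin N) : |u i| ≤ 1 :=
  (norm_le_pi_norm u i).trans h

lemma clamp_eq {N : ℕ} {u : Bc N} (h : ‖u‖ ≤ 1) : clamp u = u := by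
  funext i
  have := abs_le.1 (abs_le_of_norm h i)
  show max (-1) (min 1 (u i)) = u i
  rw [min_eq_right this.2, max_eq_right this.1]

lemma exists_abs_of_norm {N : ℕ} {u : Bc N} (h : 1 ≤ ‖u‖) : ∃ i, 1 ≤ |u i| := by
  by_contra hn
  push Not at hn
  exact absurd ((pi_norm_lt_iff zero_lt_one).2 hn) (not_lt.2 h)

lemma one_le_norm {N : ℕ} {u : Bc N} {i : Fin N} (h : 1 ≤ |u i|) : 1 ≤ ‖u‖ :=
  h.trans (norm_le_pi_norm u i)

lemma abs_clamp_of {N : ℕ} {u : Bc N} {i : Fin N} (h : 1 ≤ |u i|) : |clamp u i| = 1 := by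
  show |max (-1) (min 1 (u i))| = 1
  rcases le_abs.1 h with h1 | h1
  · rw [min_eq_left h1, max_eq_right (by norm_num), abs_one]
  · rw [min_eq_right (by linarith), max_eq_left (by linarith), abs_neg, abs_one]

lemma norm_clamp_of {N : ℕ} {u : Bc N} (h : 1 ≤ ‖u‖) : ‖clamp u‖ = 1 := by
  obtain ⟨i, hi⟩ := exists_abs_of_norm h
  exact le_antisymm (norm_clamp u) (one_le_norm (i := i) (abs_clamp_of hi).ge)

lemma rest_clamp {N : ℕ} {u : Bc (N + 1)} (h : RestAt u) : RestAt (clamp u) := by
  rcases h with h | ⟨i, hi, h⟩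
  · left
    show 1 ≤ max (-1) (min 1 (u 0))
    rw [min_eq_left h]
    exact le_max_right _ _
  · exact Or.inr ⟨i, hi, (abs_clamp_of h).ge⟩

lemma rest_norm {N : ℕ} {u : Bc (N + 1)} (h : RestAt u) : 1 ≤ ‖u‖ := by
  rcases h with h | ⟨i, -, h⟩
  · exact one_le_norm (i := 0) (h.trans (le_abs_self _))
  · exact one_le_norm h

/-- the norm of an update. -/
lemma norm_update_le {N : ℕ} {u : Bc N} (hu : ‖u‖ ≤ 1) (i : Fin N) {x : ℝ} (hx : |x| ≤ 1) :
    ‖Function.update u i x‖ ≤ 1 := by
  rw [pi_norm_le_iff_of_nonneg zero_le_one]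
  intro j
  by_cases h : j = i
  · rw [h, Function.update_self]
    exact hx
  · rw [Function.update_of_ne h]
    exact abs_le_of_norm hu j

lemma abs_update_self {N : ℕ} {u : Bc N} (i : Fin N) (x : ℝ) :
    |(Function.update u i x) i| = |x| := by rw [Function.update_self]

lemma norm_update_neg {N : ℕ} (u : Bc N) (i : Fin N) : ‖Function.update u i (-(u i))‖ = ‖u‖ := by
  have h : ∀ v : Bc N, ‖Function.update v i (-(v i))‖ ≤ ‖v‖ := by
    intro v
    rw [pi_norm_le_iff_of_nonneg (norm_nonneg _)]
    intro j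
    by_cases h : j = i
    · rw [h, Function.update_self, norm_neg]
      exact norm_le_pi_norm v i
    · rw [Function.update_of_ne h]
      exact norm_le_pi_norm v j
  refine le_antisymm (h u) ?_
  have := h (Function.update u i (-(u i)))
  simpa using this

/-! ### the fibre -/

section fibre
variable {n : ℕ}

@[simp] lemma pt_castSucc (u : Bc n) (z : ℝ) (i : Fin n) : pt u z (Fin.castSucc i) = u i := by
  simp [pt]

@[simp] lemma pt_last (u : Bc n) (z : ℝ) : pt u z (Fin.last n) = z := by
  simp [pt]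

lemma inner_ec (x : Vc n) : ⟪ec n, x⟫ = x (Fin.last n) := by
  simp [ec, EuclideanSpace.inner_single_left]

lemma inner_ec' (x : Vc n) : ⟪x, ec n⟫ = x (Fin.last n) := by
  rw [real_inner_comm, inner_ec]

lemma ec_ne : ec n ≠ 0 := by
  intro h
  have := congrArg (fun x : Vc n => x (Fin.last n)) h
  simp [ec] at this

lemma continuous_pt {X : Type*} [TopologicalSpace X] {u : X → Bc n} {z : X → ℝ}
    (hu : Continuous u) (hz : Continuous z) : Continuous fun p => pt (u p) (z p) := by
  unfold pt
  refine (PiLp.continuous_toLp 2 _).comp (continuous_pi fun i => ?_)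
  refine Fin.lastCases ?_ (fun j => ?_) i
  · simpa using hz
  · simp only [Fin.snoc_castSucc]
    exact (continuous_apply j).comp hu

lemma hc_ne : hc n ≠ 0 := by
  intro h
  have := congrArg (fun x : Vc (n + 1) => x 0) h
  simp [hc] at this

lemma hc_last : hc n (Fin.last (n + 1)) = 0 := by
  simp [hc, Fin.last_eq_zero_iff]

lemma finrank_Vc : 3 ≤ Module.finrank ℝ (Vc (n + 2)) := by
  rw [finrank_euclideanSpace_fin]
  omega

end fibre

/-! ### sections with rest value -/

section rest
variable {n : ℕ}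

/-- pushing in the direction of the first coordinate. -/
def push (p : ℝ × Bc (n + 2)) : Bc (n + 2) :=
  Function.update p.2 0 (min 1 (p.2 0 + 2 * (1 - p.1)))

lemma continuous_push : Continuous (push (n := n)) := by
  refine continuous_snd.update 0 ?_
  exact continuous_const.min (((continuous_apply 0).comp continuous_snd).add
    (continuous_const.mul (continuous_const.sub continuous_fst)))

lemma push_mem {t : ℝ} (ht : t ∈ Icc (0 : ℝ) 1) {u : Bc (n + 2)} (hu : ‖u‖ ≤ 1) :
    ‖push (t, u)‖ ≤ 1 := by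
  refine norm_update_le hu 0 ?_
  have h1 := abs_le.1 (abs_le_of_norm hu 0)
  rw [abs_le]
  refine ⟨le_min (by norm_num) ?_, min_le_left _ _⟩
  simp only
  linarith [ht.2]

lemma push_rest {t : ℝ} (ht : t ∈ Icc (0 : ℝ) 1) {u : Bc (n + 2)} (h : RestAt u) :
    RestAt (push (t, u)) := by
  rcases h with h | ⟨i, hi, h⟩
  · left
    unfold push
    rw [Function.update_self]
    refine le_min le_rfl ?_
    simp only
    linarith [ht.2]
  · right
    refine ⟨i, hi, ?_⟩
    unfold push
    rwa [Function.update_of_ne hi]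

lemma push_zero {u : Bc (n + 2)} (hu : ‖u‖ ≤ 1) : RestAt (push (0, u)) := by
  left
  unfold push
  rw [Function.update_self]
  have h1 := abs_le.1 (abs_le_of_norm hu 0)
  refine le_min le_rfl ?_
  simp only
  linarith [h1.1]

lemma push_one {u : Bc (n + 2)} (hu : ‖u‖ ≤ 1) : push (1, u) = u := by
  unfold push
  have h1 := abs_le.1 (abs_le_of_norm hu 0)
  simp only [sub_self, mul_zero, add_zero]
  rw [min_eq_right h1.2, Function.update_eq_self]

/-- **existence of a section with rest value `h`.** -/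
theorem exists_rest {ν : Bc (n + 2) → Vc (n + 2)} (hν : NzE (ec (n + 2)) ν) :
    ∃ δ, Adm (n + 2) δ ∧ IsRest (hc (n + 1)) δ ∧ Sec ν δ := by
  have hrestν : ∀ u : Bc (n + 2), ‖u‖ ≤ 1 → RestAt u → ν u = ec (n + 2) := fun u hu h =>
    hν.sph u (le_antisymm hu (rest_norm h))
  have hmaps : MapsTo (push (n := n)) (Icc 0 1 ×ˢ closedBall 0 1) (closedBall 0 1) := by
    rintro ⟨t, u⟩ ⟨ht, hu⟩
    simpa using push_mem ht (by simpa using hu)
  have hc1 : ContinuousOn (fun p : ℝ × Bc (n + 2) => ν (push p)) (Icc 0 1 ×ˢ closedBall 0 1) :=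
    hν.cont.comp continuous_push.continuousOn hmaps
  have hne : ∀ t ∈ Icc (0 : ℝ) 1, ∀ u : Bc (n + 2), ‖u‖ ≤ 1 → ν (push (t, u)) ≠ 0 :=
    fun t ht u hu => hν.ne _ (push_mem ht hu)
  have heh : ⟪ec (n + 2), hc (n + 1)⟫ = 0 := by
    rw [inner_ec]
    exact hc_last
  have key := chain hc1 hne
    (fun μ => ∃ δ, Sec μ δ ∧ ∀ u, ‖u‖ ≤ 1 → RestAt u → δ u = hc (n + 1))
    (fun t ht t' ht' hpos hδ => by
      obtain ⟨δ, hδ, hr⟩ := hδ
      have hNz : Nz (fun u : Bc (n + 2) => ν (push (t', u))) :=
        ⟨hc1.comp (Continuous.prodMk_right t').continuousOn fun u hu => ⟨ht', hu⟩, hne t' ht'⟩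
      refine ⟨_, Sec.proj hNz (fun u hu => ?_) hδ, fun u hu hru => ?_⟩
      · rw [real_inner_comm]
        exact hpos u hu
      · show P (ν (push (t', u))) (δ u) = _
        rw [hrestν _ (push_mem ht' hu) (push_rest ht' hru), hr u hu hru]
        exact P_self heh)
    (by
      refine ⟨fun _ => hc (n + 1), ⟨continuousOn_const, fun _ _ => hc_ne, fun u hu => ?_⟩,
        fun _ _ _ => rfl⟩
      show ⟪ν (push (0, u)), hc (n + 1)⟫ = 0
      rw [hrestν _ (push_mem ⟨le_rfl, zero_le_one⟩ hu) (push_zero hu)]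
      exact heh)
  obtain ⟨δ, hδ, hr⟩ := key
  have horth : ∀ u, ‖u‖ ≤ 1 → ⟪ν u, δ u⟫ = 0 := by
    intro u hu
    have := hδ.orth u hu
    simp only [push_one hu] at this
    exact this
  refine ⟨fun u => δ (clamp u), ⟨?_, fun u => hδ.ne _ (norm_clamp u), fun u hu => ?_⟩,
    fun u hu => hr _ (norm_clamp u) (rest_clamp hu), ?_, fun u _ => hδ.ne _ (norm_clamp u),
    fun u hu => ?_⟩
  · exact hδ.cont.comp_continuous continuous_clamp fun u => by simpa using norm_clamp u
  · have := horth _ (norm_clamp u)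
    rwa [hν.sph _ (norm_clamp_of hu)] at this
  · exact (hδ.cont.comp_continuous continuous_clamp
      fun u => by simpa using norm_clamp u).continuousOn
  · rw [clamp_eq hu]
    exact horth u hu

end rest

/-! ### concatenation and reversal -/

section cat
variable {n : ℕ} {X : Type*}

lemma continuous_blowL : Continuous (blowL (n := n)) :=
  continuous_id.update 1 ((continuous_const.mul (continuous_apply 1)).add continuous_const)

lemma continuous_blowR : Continuous (blowR (n := n)) :=
  continuous_id.update 1 ((continuous_const.mul (continuous_apply 1)).sub continuous_const)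

lemma continuous_cat [TopologicalSpace X] {f g : Bc (n + 2) → X} (cf : Continuous f)
    (cg : Continuous g) (h : ∀ u, u 1 = 0 → f (blowL u) = g (blowR u)) :
    Continuous (cat f g) :=
  Continuous.if_le (cf.comp continuous_blowL) (cg.comp continuous_blowR) (continuous_apply 1)
    continuous_const h

lemma blowL_one (u : Bc (n + 2)) : blowL u 1 = 2 * u 1 + 1 := Function.update_self _ _ _

lemma blowR_one (u : Bc (n + 2)) : blowR u 1 = 2 * u 1 - 1 := Function.update_self _ _ _

lemma restL {u : Bc (n + 2)} (h : u 1 = 0) : RestAt (blowL u) := by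
  right
  refine ⟨1, by simp, ?_⟩
  rw [blowL_one, h]
  norm_num

lemma restR {u : Bc (n + 2)} (h : u 1 = 0) : RestAt (blowR u) := by
  right
  refine ⟨1, by simp, ?_⟩
  rw [blowR_one, h]
  norm_num

lemma norm_blowL {u : Bc (n + 2)} (hu : ‖u‖ ≤ 1) (h : u 1 ≤ 0) : ‖blowL u‖ ≤ 1 := by
  refine norm_update_le hu 1 ?_
  have := abs_le.1 (abs_le_of_norm hu 1)
  rw [abs_le]
  constructor <;> linarith [this.1]

lemma norm_blowR {u : Bc (n + 2)} (hu : ‖u‖ ≤ 1) (h : 0 < u 1) : ‖blowR u‖ ≤ 1 := by
  refine norm_update_le hu 1 ?_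
  have := abs_le.1 (abs_le_of_norm hu 1)
  rw [abs_le]
  constructor <;> linarith [this.2]

lemma blowL_sph {u : Bc (n + 2)} (hu : 1 ≤ ‖u‖) (h : u 1 ≤ 0) : 1 ≤ ‖blowL u‖ := by
  obtain ⟨i, hi⟩ := exists_abs_of_norm hu
  by_cases h1 : i = 1
  · subst h1
    refine one_le_norm (i := 1) ?_
    rw [blowL_one]
    rw [abs_of_nonpos h] at hi
    rw [abs_of_nonpos (by linarith)]
    linarith
  · refine one_le_norm (i := i) ?_
    rw [blowL, Function.update_of_ne h1]
    exact hi

lemma blowR_sph {u : Bc (n + 2)} (hu : 1 ≤ ‖u‖) (h : 0 < u 1) : 1 ≤ ‖blowR u‖ := by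
  obtain ⟨i, hi⟩ := exists_abs_of_norm hu
  by_cases h1 : i = 1
  · subst h1
    refine one_le_norm (i := 1) ?_
    rw [blowR_one]
    rw [abs_of_pos h] at hi
    rw [abs_of_nonneg (by linarith)]
    linarith
  · refine one_le_norm (i := i) ?_
    rw [blowR, Function.update_of_ne h1]
    exact hi

/-- sections of `cat`. -/
lemma Sec.cat {f g δ δ' : Bc (n + 2) → Vc (n + 2)} (hc : Continuous (cat δ δ'))
    (hδ : Sec f δ) (hδ' : Sec g δ') : Sec (cat f g) (cat δ δ') := by
  refine ⟨hc.continuousOn, fun u hu => ?_, fun u hu => ?_⟩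
  · by_cases h : u 1 ≤ 0
    · simp only [GS_808.cat, if_pos h]
      exact hδ.ne _ (norm_blowL hu h)
    · simp only [GS_808.cat, if_neg h]
      exact hδ'.ne _ (norm_blowR hu (not_le.1 h))
  · by_cases h : u 1 ≤ 0
    · simp only [GS_808.cat, if_pos h]
      exact hδ.orth _ (norm_blowL hu h)
    · simp only [GS_808.cat, if_neg h]
      exact hδ'.orth _ (norm_blowR hu (not_le.1 h))

/-- the class of sections. -/
def TT (n : ℕ) (ν : Bc (n + 2) → Vc (n + 2)) (c : ℤ) : Prop :=
  T (ec (n + 2)) (fun δ => Typ n δ c c) ν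

lemma hQ (c : ℤ) : ∀ f g : Bc (n + 2) → Vc (n + 2), Typ n f c c → FH (ec (n + 2)) f g →
    Typ n g c c := fun _ _ h H => h.congr H

lemma TT_zero : TT n (fun _ => ec (n + 2)) 0 := by
  refine T_of_one finrank_Vc (hQ 0) (δ := fun _ => hc (n + 1))
    { cont := continuousOn_const, ne := fun _ _ => ec_ne, sph := fun _ _ => rfl }
    ⟨continuousOn_const, fun _ _ => hc_ne, fun _ _ => ?_⟩ Typ.zero
  rw [inner_ec]
  exact hc_last

lemma TT_cat {f g : Bc (n + 2) → Vc (n + 2)} {c c' : ℤ}
    (cf : Continuous f) (cg : Continuous g) (nf : ∀ u, f u ≠ 0) (ng : ∀ u, g u ≠ 0)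
    (rf : ∀ u, 1 ≤ ‖u‖ → f u = ec (n + 2)) (rg : ∀ u, 1 ≤ ‖u‖ → g u = ec (n + 2))
    (h : TT n f c) (h' : TT n g c') : TT n (cat f g) (c + c') := by
  obtain ⟨δ, a1, r1, s1⟩ := exists_rest h.1
  obtain ⟨δ', a2, r2, s2⟩ := exists_rest h'.1
  have hcd : Continuous (cat δ δ') := continuous_cat a1.cont a2.cont fun u hu => by
    rw [r1 _ (restL hu), r2 _ (restR hu)]
  refine T_of_one finrank_Vc (hQ (c + c')) (δ := cat δ δ') ?_ (Sec.cat hcd s1 s2)
    (Typ.cat (hc (n + 1)) a1 a2 r1 r2 (h.2 δ s1) (h'.2 δ' s2))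
  have hcf : Continuous (cat f g) := continuous_cat cf cg fun u hu => by
    rw [rf _ (rest_norm (restL hu)), rg _ (rest_norm (restR hu))]
  refine { cont := hcf.continuousOn, ne := fun u _ => ?_, sph := fun u hu => ?_ }
  · unfold GS_808.cat
    split_ifs
    · exact nf _
    · exact ng _
  · by_cases h : u 1 ≤ 0
    · simp only [GS_808.cat, if_pos h]
      exact rf _ (blowL_sph hu.ge h)
    · simp only [GS_808.cat, if_neg h]
      exact rg _ (blowR_sph hu.ge (not_le.1 h))

lemma TT_rev {f : Bc (n + 2) → Vc (n + 2)} {c : ℤ} (cf : Continuous f) (nf : ∀ u, f u ≠ 0)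
    (rf : ∀ u, 1 ≤ ‖u‖ → f u = ec (n + 2)) (h : TT n f c) : TT n (rev f) (-c) := by
  obtain ⟨δ, a1, r1, s1⟩ := exists_rest h.1
  have hr : Continuous fun u : Bc (n + 2) => Function.update u 1 (-(u 1)) :=
    continuous_id.update 1 (continuous_apply 1).neg
  refine T_of_one finrank_Vc (hQ (-c)) (δ := rev δ) ?_ ⟨(a1.cont.comp hr).continuousOn,
    fun u _ => a1.ne _, fun u hu => s1.orth _ (by rw [norm_update_neg]; exact hu)⟩
    (Typ.rev (hc (n + 1)) a1 r1 (h.2 δ s1))
  exact { cont := (cf.comp hr).continuousOn, ne := fun u _ => nf _,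
          sph := fun u hu => rf _ (by rw [norm_update_neg]; exact hu.ge) }

end cat

/-! ### reflections -/

section refl
variable {V : Type*} [NormedAddCommGroup V] [InnerProductSpace ℝ V]

/-- reflection in `a⊥`. -/
noncomputable def R (a x : V) : V := x - (2 * ⟪a, x⟫ / ⟪a, a⟫) • a

lemma inner_R {a : V} (ha : a ≠ 0) (x y : V) : ⟪R a x, R a y⟫ = ⟪x, y⟫ := by
  have h := inner_self_ne ha
  unfold R
  rw [inner_sub_left, inner_sub_right, inner_sub_right, inner_smul_left, inner_smul_left,
    inner_smul_right, inner_smul_right, real_inner_comm a x]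
  simp only [conj_trivial]
  rw [real_inner_comm x a]
  field_simp
  ring

lemma R_ne {a x : V} (ha : a ≠ 0) (hx : x ≠ 0) : R a x ≠ 0 := by
  intro h
  have := inner_R ha x x
  rw [h, inner_zero_left] at this
  exact inner_self_ne hx this.symm

lemma R_of_orth {a x : V} (h : ⟪a, x⟫ = 0) : R a x = x := by
  rw [R, h, mul_zero, zero_div, zero_smul, sub_zero]

lemma continuousOn_R {X : Type*} [TopologicalSpace X] {s : Set X} {a : X → V} {x : V}
    (ha : ContinuousOn a s) (h0 : ∀ p ∈ s, a p ≠ 0) :
    ContinuousOn (fun p => R (a p) x) s := by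
  unfold R
  exact continuousOn_const.sub (((continuousOn_const.mul (ha.inner continuousOn_const)).div
    (ha.inner ha) fun p hp => inner_self_ne (h0 p hp)).smul ha)

lemma continuous_R {X : Type*} [TopologicalSpace X] {a : X → V} {x : V}
    (ha : Continuous a) (h0 : ∀ p, a p ≠ 0) : Continuous fun p => R (a p) x := by
  rw [← continuousOn_univ]
  exact continuousOn_R ha.continuousOn fun p _ => h0 p

/-- reflections of the height in a homotopy of maps of pairs. -/
lemma FN_R {B : Type*} [NormedAddCommGroup B] [NormedSpace ℝ B] {e : V} (he : e ≠ 0)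
    {a b : B → V} (h : FH e a b) : FN e (fun u => R (a u) e) (fun u => R (b u) e) := by
  obtain ⟨F, h1, h2, h3, h4, h5⟩ := h
  refine ⟨fun p => R (F p) e, continuousOn_R h1 ?_, fun t ht u hu => R_ne (h2 t ht u hu) he,
    fun t ht u hu => R_of_orth ?_, fun u hu => ?_, fun u hu => ?_⟩
  · rintro ⟨t, u⟩ ⟨ht, hu⟩
    exact h2 t ht u (by simpa using hu)
  · rw [real_inner_comm]
    exact h3 t ht u hu
  · simp only [h4 u hu]
  · simp only [h5 u hu]

/-- straight line homotopy of maps of pairs. -/
lemma FH_line {B : Type*} [NormedAddCommGroup B] [NormedSpace ℝ B] {e : V} {a b : B → V}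
    (ca : ContinuousOn a (closedBall 0 1)) (cb : ContinuousOn b (closedBall 0 1))
    (hne : ∀ t ∈ Icc (0 : ℝ) 1, ∀ u, ‖u‖ ≤ 1 → (1 - t) • a u + t • b u ≠ 0)
    (ha : ∀ u, ‖u‖ = 1 → ⟪e, a u⟫ = 0) (hb : ∀ u, ‖u‖ = 1 → ⟪e, b u⟫ = 0) : FH e a b := by
  have hs2 : MapsTo (fun p : ℝ × B => p.2) (Icc (0 : ℝ) 1 ×ˢ closedBall (0 : B) 1)
      (closedBall 0 1) := fun p hp => hp.2
  refine ⟨fun p => (1 - p.1) • a p.2 + p.1 • b p.2, ?_, hne, fun t _ u hu => ?_,
    fun u _ => by simp, fun u _ => by simp⟩
  · exact ((continuousOn_const.sub continuousOn_fst).smul (ca.comp continuousOn_snd hs2)).add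
      (continuousOn_fst.smul (cb.comp continuousOn_snd hs2))
  · simp only
    rw [inner_add_right, inner_smul_right, inner_smul_right, ha u hu, hb u hu]
    simp

end refl

/-! ### the base case -/

section base
variable {n : ℕ}

/-- the direction of the second coordinate. -/
noncomputable def kc (n : ℕ) : Vc (n + 2) := EuclideanSpace.single 1 1

lemma inner_kc (x : Vc (n + 2)) : ⟪x, kc n⟫ = x 1 := by
  simp [kc, EuclideanSpace.inner_single_right]

/-- `max` of the other coordinates and `(u 0 + 1) / 2`. -/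
noncomputable def mm (u : Bc (n + 2)) : ℝ := max ‖Function.update u 0 0‖ ((u 0 + 1) / 2)

/-- horizontal part of `aa`. -/
noncomputable def av (u : Bc (n + 2)) : Bc (n + 2) :=
  Function.update ((4 * (1 - mm u)) • u) 0 (2 * mm u - 1)

/-- the class `α` in rest form. -/
noncomputable def aa (u : Bc (n + 2)) : Vc (n + 2) := pt (av u) (1 - ‖u‖)

lemma continuous_mm : Continuous (mm (n := n)) :=
  ((continuous_id.update 0 continuous_const).norm).max
    (((continuous_apply 0).add continuous_const).div_const 2)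

lemma continuous_aa : Continuous (aa (n := n)) := by
  refine continuous_pt ?_ (continuous_const.sub continuous_norm)
  exact ((continuous_const.mul (continuous_const.sub continuous_mm)).smul continuous_id).update 0
    ((continuous_const.mul continuous_mm).sub continuous_const)

lemma mm_le {u : Bc (n + 2)} (hu : ‖u‖ ≤ 1) : mm u ≤ 1 := by
  refine max_le (norm_update_le hu 0 (by simp)) ?_
  have := (abs_le.1 (abs_le_of_norm hu 0)).2
  linarith

lemma mm_nonneg (u : Bc (n + 2)) : 0 ≤ mm u := (norm_nonneg _).trans (le_max_left _ _)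

lemma mm_one_of {u : Bc (n + 2)} (hu : ‖u‖ ≤ 1) (h : RestAt u) : mm u = 1 := by
  refine le_antisymm (mm_le hu) ?_
  rcases h with h | ⟨i, hi, h⟩
  · refine le_trans ?_ (le_max_right _ _)
    linarith
  · refine le_trans ?_ (le_max_left _ _)
    refine one_le_norm (i := i) ?_
    rwa [Function.update_of_ne hi]

lemma aa_zero (u : Bc (n + 2)) : aa u 0 = 2 * mm u - 1 := by
  have : (0 : Fin (n + 2 + 1)) = Fin.castSucc 0 := by simp
  rw [aa, this, pt_castSucc, av, Function.update_self]

lemma aa_succ (u : Bc (n + 2)) {i : Fin (n + 2)} (hi : i ≠ 0) :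
    aa u (Fin.castSucc i) = 4 * (1 - mm u) * u i := by
  rw [aa, pt_castSucc, av, Function.update_of_ne hi]
  rfl

lemma aa_one (u : Bc (n + 2)) : aa u 1 = 4 * (1 - mm u) * u 1 := by
  have : (1 : Fin (n + 2 + 1)) = Fin.castSucc 1 := by simp
  rw [this, aa_succ u (by simp)]

lemma aa_last (u : Bc (n + 2)) : aa u (Fin.last (n + 2)) = 1 - ‖u‖ := by
  rw [aa, pt_last]

lemma al_succ (u : Bc (n + 2)) (i : Fin (n + 2)) : al u (Fin.castSucc i) = u i := by
  rw [al, pt_castSucc]

lemma al_zero (u : Bc (n + 2)) : al u 0 = u 0 := by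
  have : (0 : Fin (n + 2 + 1)) = Fin.castSucc 0 := by simp
  rw [this, al_succ]

lemma al_last (u : Bc (n + 2)) : al u (Fin.last (n + 2)) = 1 - ‖u‖ := by
  rw [al, pt_last]

lemma continuous_al : Continuous (al (n := n)) :=
  continuous_pt continuous_id (continuous_const.sub continuous_norm)

/-- the segments from `aa` to `al` avoid `0`. -/
lemma seg_aa_al {t : ℝ} (ht : t ∈ Icc (0 : ℝ) 1) {u : Bc (n + 2)} (hu : ‖u‖ ≤ 1) :
    (1 - t) • aa u + t • al u ≠ 0 := by
  intro h
  have hcoord : ∀ j, (1 - t) * aa u j + t * al u j = 0 := fun j => by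
    have := congrArg (fun x : Vc (n + 2) => x j) h
    simpa using this
  have hl := hcoord (Fin.last (n + 2))
  rw [aa_last, al_last] at hl
  have hu1 : ‖u‖ = 1 := by linarith
  have h0 := hcoord 0
  rw [aa_zero, al_zero] at h0
  have hm1 := mm_le hu
  have hm0 := mm_nonneg u
  have hi : ∀ i : Fin (n + 2), i ≠ 0 → u i = 0 := by
    intro i hi
    have h1 := hcoord (Fin.castSucc i)
    rw [aa_succ u hi, al_succ] at h1
    have h2 : ((1 - t) * (4 * (1 - mm u)) + t) * u i = 0 := by linarith
    rcases mul_eq_zero.1 h2 with h3 | h3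
    · exfalso
      have p1 : 0 ≤ (1 - t) * (4 * (1 - mm u)) :=
        mul_nonneg (by linarith [ht.2]) (by linarith)
      have p2 : t = 0 := by linarith [ht.1]
      subst p2
      have p3 : mm u = 1 := by linarith
      rw [p3] at h0
      linarith
    · exact h3
  have hW : ‖Function.update u 0 0‖ = 0 := by
    rw [norm_eq_zero]
    funext i
    by_cases h1 : i = 0
    · subst h1
      simp
    · rw [Function.update_of_ne h1, hi i h1]
      rfl
  have habs : |u 0| = 1 := by
    refine le_antisymm (abs_le_of_norm hu 0) ?_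
    obtain ⟨i, h1⟩ := exists_abs_of_norm hu1.ge
    by_cases h2 : i = 0
    · rwa [h2] at h1
    · rw [hi i h2] at h1
      norm_num at h1
  rcases (abs_eq zero_le_one).1 habs with h1 | h1
  · have : mm u = 1 := by
      rw [mm, hW, h1]
      norm_num
    rw [this, h1] at h0
    linarith
  · have : mm u = 0 := by
      rw [mm, hW, h1]
      norm_num
    rw [this, h1] at h0
    linarith

lemma FH_aa_al : FH (ec (n + 2)) (aa (n := n)) al := by
  refine FH_line continuous_aa.continuousOn continuous_al.continuousOn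
    (fun t ht u hu => seg_aa_al ht hu) (fun u hu => ?_) (fun u hu => ?_)
  · rw [inner_ec, aa_last, hu, sub_self]
  · rw [inner_ec, al_last, hu, sub_self]

lemma aa_ne (u : Bc (n + 2)) : aa u ≠ 0 := by
  by_cases h : ‖u‖ = 1
  · have := seg_aa_al (t := 0) ⟨le_rfl, zero_le_one⟩ h.le
    simpa using this
  · intro h1
    have := congrArg (fun x : Vc (n + 2) => x (Fin.last (n + 2))) h1
    simp only [aa_last] at this
    apply h
    simp at this
    linarith

lemma al_ne (u : Bc (n + 2)) : al u ≠ 0 := by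
  by_cases h : ‖u‖ = 1
  · have := seg_aa_al (t := 1) ⟨zero_le_one, le_rfl⟩ h.le
    simpa using this
  · intro h1
    have := congrArg (fun x : Vc (n + 2) => x (Fin.last (n + 2))) h1
    simp only [al_last] at this
    apply h
    simp at this
    linarith

/-! #### the normal -/

/-- the normal attached to `aa`. -/
noncomputable def na (u : Bc (n + 2)) : Vc (n + 2) := R (aa u) (ec (n + 2))

/-- the section attached to `aa`. -/
noncomputable def da (u : Bc (n + 2)) : Vc (n + 2) := -R (aa u) (kc n)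

lemma kc_ne : kc n ≠ 0 := by
  intro h
  have := congrArg (fun x : Vc (n + 2) => x 1) h
  simp [kc] at this

lemma kc_last : kc n (Fin.last (n + 2)) = 0 := by
  have h : Fin.last (n + 2) ≠ 1 := by
    intro h
    have := congrArg Fin.val h
    simp at this
  simp [kc, h]

lemma continuous_na : Continuous (na (n := n)) := continuous_R continuous_aa aa_ne

lemma continuous_da : Continuous (da (n := n)) := (continuous_R continuous_aa aa_ne).neg

lemma da_ne (u : Bc (n + 2)) : da u ≠ 0 := neg_ne_zero.2 (R_ne (aa_ne u) kc_ne)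

lemma na_da (u : Bc (n + 2)) : ⟪na u, da u⟫ = 0 := by
  rw [na, da, inner_neg_right, inner_R (aa_ne u), inner_ec, kc_last, neg_zero]

lemma NzE_na : NzE (ec (n + 2)) (na (n := n)) :=
  { cont := continuous_na.continuousOn
    ne := fun u _ => R_ne (aa_ne u) ec_ne
    sph := fun u hu => R_of_orth (by rw [inner_ec', aa_last, hu, sub_self]) }

lemma inner_al (u : Bc (n + 2)) : ⟪al u, al u⟫ = (∑ i, u i ^ 2) + (1 - ‖u‖) ^ 2 := by
  rw [PiLp.inner_apply, Fin.sum_univ_castSucc]
  simp only [al_succ, al_last]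
  simp [sq]

lemma FN_al_ga : FN (ec (n + 2)) (fun u : Bc (n + 2) => R (al u) (ec (n + 2))) ga := by
  have cR : Continuous fun u : Bc (n + 2) => R (al u) (ec (n + 2)) :=
    continuous_R continuous_al al_ne
  have cga : Continuous (ga : Bc (n + 2) → Vc (n + 2)) :=
    continuous_pt (((continuous_const.mul (continuous_const.sub continuous_norm)).neg).smul
      continuous_id) ((continuous_const.mul continuous_norm).sub continuous_const)
  have gl : ∀ u : Bc (n + 2), (ga u : Vc (n + 2)) (Fin.last (n + 2)) = 2 * ‖u‖ - 1 := by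
    intro u
    rw [ga, pt_last]
  have gs : ∀ (u : Bc (n + 2)) (i : Fin (n + 2)), (ga u : Vc (n + 2)) (Fin.castSucc i) =
      -(4 * (1 - ‖u‖)) * u i := by
    intro u i
    rw [ga, pt_castSucc]
    rfl
  have hel : (ec (n + 2)) (Fin.last (n + 2)) = 1 := by simp [ec]
  have hes : ∀ i : Fin (n + 2), (ec (n + 2)) (Fin.castSucc i) = 0 := by
    intro i
    have : Fin.castSucc i ≠ Fin.last (n + 2) := (Fin.castSucc_lt_last i).ne
    simp [ec, this]
  have Rl : ∀ u : Bc (n + 2), (R (al u) (ec (n + 2))) (Fin.last (n + 2)) =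
      1 - 2 * (1 - ‖u‖) / ⟪al u, al u⟫ * (1 - ‖u‖) := by
    intro u
    unfold R
    rw [PiLp.sub_apply, PiLp.smul_apply, hel, al_last, inner_ec', al_last, smul_eq_mul]
  have Rs : ∀ (u : Bc (n + 2)) (i : Fin (n + 2)), (R (al u) (ec (n + 2))) (Fin.castSucc i) =
      -(2 * (1 - ‖u‖) / ⟪al u, al u⟫ * u i) := by
    intro u i
    unfold R
    rw [PiLp.sub_apply, PiLp.smul_apply, hes, al_succ, inner_ec', al_last, smul_eq_mul, zero_sub]
  refine ⟨fun p => (1 - p.1) • R (al p.2) (ec (n + 2)) + p.1 • ga p.2, ?_, fun t ht u hu => ?_,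
    fun t ht u hu => ?_, fun u _ => by simp, fun u _ => by simp⟩
  · exact (((continuous_const.sub continuous_fst).smul (cR.comp continuous_snd)).add
      (continuous_fst.smul (cga.comp continuous_snd))).continuousOn
  · intro h
    have hcoord : ∀ j, (1 - t) * (R (al u) (ec (n + 2))) j + t * (ga u : Vc (n + 2)) j = 0 :=
      fun j => by
        have := congrArg (fun x : Vc (n + 2) => x j) h
        simpa using this
    have hl := hcoord (Fin.last (n + 2))
    rw [Rl, gl] at hl
    have hs : 0 < ⟪al u, al u⟫ := real_inner_self_pos.2 (al_ne u)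
    by_cases hu1 : ‖u‖ = 1
    · rw [hu1] at hl
      simp at hl
      linarith
    · have hlt : ‖u‖ < 1 := lt_of_le_of_ne hu hu1
      have hi : ∀ i, u i = 0 := by
        intro i
        have h1 := hcoord (Fin.castSucc i)
        rw [Rs, gs] at h1
        have h2 : ((1 - t) * (2 * (1 - ‖u‖) / ⟪al u, al u⟫) + t * (4 * (1 - ‖u‖))) * u i = 0 := by
          linarith
        rcases mul_eq_zero.1 h2 with h3 | h3
        · exfalso
          have q1 : 0 < 2 * (1 - ‖u‖) / ⟪al u, al u⟫ := by
            apply div_pos _ hs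
            linarith
          have q2 : 0 < 4 * (1 - ‖u‖) := by linarith
          rcases eq_or_lt_of_le ht.1 with h4 | h4
          · rw [← h4] at h3
            simp only [sub_zero, one_mul, zero_mul, add_zero] at h3
            exact q1.ne' h3
          · have q3 : 0 ≤ (1 - t) * (2 * (1 - ‖u‖) / ⟪al u, al u⟫) :=
              mul_nonneg (by linarith [ht.2]) q1.le
            have q4 := mul_pos h4 q2
            linarith
        · exact h3
      have hu0 : u = 0 := by
        funext i
        exact hi i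
      rw [inner_al] at hl
      subst hu0
      simp at hl
      linarith
  · simp only
    have h1 : R (al u) (ec (n + 2)) = ec (n + 2) :=
      R_of_orth (by rw [inner_ec', al_last, hu, sub_self])
    have h2 : (ga u : Vc (n + 2)) = ec (n + 2) := by
      ext j
      refine Fin.lastCases ?_ (fun i => ?_) j
      · rw [gl, hel, hu]
        norm_num
      · rw [gs, hes, hu]
        simp
    rw [h1, h2, ← add_smul]
    simp

lemma FN_na_ga : FN (ec (n + 2)) (na (n := n)) (fun u => R (al u) (ec (n + 2))) :=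
  FN_R ec_ne FH_aa_al

/-! #### the right half of the section -/

/-- `blowR⁻¹`. -/
noncomputable def half (v : Bc (n + 2)) : Bc (n + 2) := Function.update v 1 ((v 1 + 1) / 2)

lemma continuous_half : Continuous (half (n := n)) :=
  continuous_id.update 1 (((continuous_apply 1).add continuous_const).div_const 2)

lemma half_one (v : Bc (n + 2)) : half v 1 = (v 1 + 1) / 2 := Function.update_self _ _ _

lemma half_of_ne (v : Bc (n + 2)) {i : Fin (n + 2)} (hi : i ≠ 1) : half v i = v i :=
  Function.update_of_ne hi _ _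

lemma norm_half {v : Bc (n + 2)} (hv : ‖v‖ ≤ 1) : ‖half v‖ ≤ 1 := by
  refine norm_update_le hv 1 ?_
  have := abs_le.1 (abs_le_of_norm hv 1)
  rw [abs_le]
  constructor <;> linarith [this.1, this.2]

lemma a1_zero {v : Bc (n + 2)} (hv : ‖v‖ ≤ 1) (h : RestAt v) : aa (half v) 1 = 0 := by
  have h10 : (0 : Fin (n + 2)) ≠ 1 := by simp
  rw [aa_one]
  have key : RestAt (half v) ∨ half v 1 = 0 := by
    rcases h with h | ⟨i, hi, h⟩
    · left; left
      rwa [half_of_ne v h10]
    · by_cases h1 : i = 1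
      · subst h1
        have h2 : |v 1| = 1 := le_antisymm (abs_le_of_norm hv 1) h
        rcases (abs_eq zero_le_one).1 h2 with h3 | h3
        · left; right
          refine ⟨1, hi, ?_⟩
          rw [half_one, h3]
          norm_num
        · right
          rw [half_one, h3]
          norm_num
      · left; right
        exact ⟨i, hi, by rwa [half_of_ne v h1]⟩
  rcases key with h1 | h1
  · rw [mm_one_of (norm_half hv) h1]
    ring
  · rw [h1, mul_zero]

lemma da_apply (u : Bc (n + 2)) (j : Fin (n + 2 + 1)) :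
    da u j = 2 * aa u 1 / ⟪aa u, aa u⟫ * aa u j - kc n j := by
  unfold da R
  rw [PiLp.neg_apply, PiLp.sub_apply, PiLp.smul_apply, inner_kc, smul_eq_mul]
  ring

lemma da_of {u : Bc (n + 2)} (h : aa u 1 = 0) : da u = -kc n := by
  rw [da, R_of_orth (by rw [inner_kc, h])]

/-- the last coordinate of `da (half v)` vanishes on the sphere. -/
lemma da_half_last {v : Bc (n + 2)} (hv : ‖v‖ = 1) : da (half v) (Fin.last (n + 2)) = 0 := by
  rw [da_apply, aa_last, kc_last, sub_zero]
  obtain ⟨i, hi⟩ := exists_abs_of_norm hv.ge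
  by_cases h1 : i = 1
  · subst h1
    have : aa (half v) 1 = 0 := a1_zero hv.le (Or.inr ⟨1, by simp, hi⟩)
    rw [this]
    simp
  · have : ‖half v‖ = 1 := by
      refine le_antisymm (norm_half hv.le) (one_le_norm (i := i) ?_)
      rwa [half_of_ne v h1]
    rw [this]
    simp

/-- rotation in the plane of the first two coordinates. -/
noncomputable def rot (t : ℝ) (x : Vc (n + 2)) : Vc (n + 2) :=
  x + t • ((-(x 1) - x 0) • hc (n + 1) + (x 0 - x 1) • kc n)

lemma hk_zero : (hc (n + 1)) 0 = 1 ∧ kc n 0 = 0 ∧ (hc (n + 1)) 1 = 0 ∧ kc n 1 = 1 := by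
  refine ⟨by simp [hc], by simp [kc], by simp [hc], by simp [kc]⟩

lemma rot_zero (t : ℝ) (x : Vc (n + 2)) : rot t x 0 = (1 - t) * x 0 - t * x 1 := by
  obtain ⟨a, b, c, d⟩ := hk_zero (n := n)
  unfold rot
  simp only [PiLp.add_apply, PiLp.smul_apply, smul_eq_mul, a, b]
  ring

lemma rot_one (t : ℝ) (x : Vc (n + 2)) : rot t x 1 = (1 - t) * x 1 + t * x 0 := by
  obtain ⟨a, b, c, d⟩ := hk_zero (n := n)
  unfold rot
  simp only [PiLp.add_apply, PiLp.smul_apply, smul_eq_mul, c, d]
  ring

lemma rot_of_ne (t : ℝ) (x : Vc (n + 2)) {j : Fin (n + 2 + 1)} (h0 : j ≠ 0) (h1 : j ≠ 1) :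
    rot t x j = x j := by
  unfold rot
  simp only [PiLp.add_apply, PiLp.smul_apply, smul_eq_mul, hc, kc]
  simp [h0, h1]

lemma last_ne_zero : Fin.last (n + 2) ≠ 0 := by
  intro h
  have := congrArg Fin.val h
  simp at this

lemma last_ne_one : Fin.last (n + 2) ≠ 1 := by
  intro h
  have := congrArg Fin.val h
  simp at this

lemma rot_ne (t : ℝ) {x : Vc (n + 2)} (hx : x ≠ 0) : rot t x ≠ 0 := by
  intro h
  apply hx
  have e0 : (1 - t) * x 0 - t * x 1 = 0 := by rw [← rot_zero, h]; rfl
  have e1 : (1 - t) * x 1 + t * x 0 = 0 := by rw [← rot_one, h]; rfl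
  have hD : (1 - t) ^ 2 + t ^ 2 ≠ 0 := by nlinarith [sq_nonneg (1 - t), sq_nonneg t]
  have x0 : x 0 = 0 := by
    have : ((1 - t) ^ 2 + t ^ 2) * x 0 = 0 := by linear_combination (1 - t) * e0 + t * e1
    exact (mul_eq_zero.1 this).resolve_left hD
  have x1 : x 1 = 0 := by
    have : ((1 - t) ^ 2 + t ^ 2) * x 1 = 0 := by linear_combination (1 - t) * e1 - t * e0
    exact (mul_eq_zero.1 this).resolve_left hD
  ext j
  by_cases h0 : j = 0
  · rw [h0, x0]; rfl
  · by_cases h1 : j = 1
    · rw [h1, x1]; rfl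
    · rw [← rot_of_ne t x h0 h1, h]

lemma continuous_rot {X : Type*} [TopologicalSpace X] {t : X → ℝ} {x : X → Vc (n + 2)}
    (ht : Continuous t) (hx : Continuous x) : Continuous fun p => rot (t p) (x p) := by
  unfold rot
  have c : ∀ j, Continuous fun p => x p j := fun j => (PiLp.continuous_apply 2 _ j).comp hx
  exact hx.add (ht.smul ((((c 1).neg.sub (c 0)).smul continuous_const).add
    (((c 0).sub (c 1)).smul continuous_const)))

/-- the segments from `al` to the rotated half section avoid `0`. -/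
lemma seg_al_rot {t : ℝ} (ht : t ∈ Icc (0 : ℝ) 1) {v : Bc (n + 2)} (hv : ‖v‖ ≤ 1) :
    (1 - t) • al v + t • rot 1 (da (half v)) ≠ 0 := by
  rcases eq_or_lt_of_le ht.1 with t0 | t0
  · rw [← t0]
    simpa using al_ne v
  rcases eq_or_lt_of_le ht.2 with t1 | t1
  · rw [t1]
    simpa using rot_ne 1 (da_ne (half v))
  intro h
  have h10 : (0 : Fin (n + 2)) ≠ 1 := by simp
  obtain ⟨q, hq⟩ : ∃ q : ℝ, q = 2 * aa (half v) 1 / ⟪aa (half v), aa (half v)⟫ := ⟨_, rfl⟩
  have hD : ∀ j, da (half v) j = q * aa (half v) j - kc n j := fun j => by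
    rw [da_apply, hq]
  have hs : 0 < ⟪aa (half v), aa (half v)⟫ := real_inner_self_pos.2 (aa_ne _)
  have hm1 := mm_le (norm_half hv)
  have hu1 : 0 ≤ half v 1 := by
    rw [half_one]
    have := (abs_le.1 (abs_le_of_norm hv 1)).1
    linarith
  have ha1 : 0 ≤ aa (half v) 1 := by
    rw [aa_one]
    exact mul_nonneg (by linarith) hu1
  have hq0 : 0 ≤ q := by
    rw [hq]
    positivity
  have hcoord : ∀ j, (1 - t) * al v j + t * rot 1 (da (half v)) j = 0 := fun j => by
    have := congrArg (fun x : Vc (n + 2) => x j) h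
    simpa using this
  obtain ⟨k1, k2, k3, k4⟩ := hk_zero (n := n)
  have hv1 : ‖v‖ = 1 := by
    have := hcoord (Fin.last (n + 2))
    rw [al_last, rot_of_ne _ _ last_ne_zero last_ne_one, hD, aa_last, kc_last, sub_zero] at this
    have p1 : 0 ≤ q * (1 - ‖half v‖) := mul_nonneg hq0 (by linarith [norm_half hv])
    have p2 : 0 ≤ t * (q * (1 - ‖half v‖)) := mul_nonneg t0.le p1
    have p3 : 0 ≤ (1 - t) * (1 - ‖v‖) := mul_nonneg (by linarith) (by linarith)
    have p4 : (1 - t) * (1 - ‖v‖) = 0 := by linarith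
    rcases mul_eq_zero.1 p4 with p5 | p5 <;> linarith
  have c0 : (1 - t) * v 0 + t * (1 - q * aa (half v) 1) = 0 := by
    have := hcoord 0
    rw [al_zero, rot_zero, hD, hD, k2, k4] at this
    linarith
  have c1 : (1 - t) * v 1 + t * (q * (2 * mm (half v) - 1)) = 0 := by
    have := hcoord 1
    have h1 : (1 : Fin (n + 2 + 1)) = Fin.castSucc 1 := by simp
    rw [rot_one, hD, hD, k2, k4, aa_zero] at this
    rw [h1, al_succ] at this
    linarith
  have ci : ∀ i : Fin (n + 2), i ≠ 0 → i ≠ 1 → v i = 0 := by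
    intro i hi0 hi1
    have := hcoord (Fin.castSucc i)
    have n0 : Fin.castSucc i ≠ 0 := by simpa using hi0
    have n1 : Fin.castSucc i ≠ 1 := by
      intro h
      apply hi1
      have h1 : (1 : Fin (n + 2 + 1)) = Fin.castSucc 1 := by simp
      rw [h1] at h
      exact Fin.castSucc_injective _ h
    have hk : kc n (Fin.castSucc i) = 0 := by simp [kc, n1]
    rw [al_succ, rot_of_ne _ _ n0 n1, hD, aa_succ _ hi0, half_of_ne v hi1, hk, sub_zero] at this
    have h2 : ((1 - t) + t * (q * (4 * (1 - mm (half v))))) * v i = 0 := by linarith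
    rcases mul_eq_zero.1 h2 with h3 | h3
    · exfalso
      have p1 : 0 ≤ t * (q * (4 * (1 - mm (half v)))) :=
        mul_nonneg t0.le (mul_nonneg hq0 (by linarith))
      linarith
    · exact h3
  -- the first coordinate is `-1`
  have hrest : RestAt v → False := by
    intro hr
    have h0 := a1_zero hv1.le hr
    have hq' : q = 0 := by rw [hq, h0]; simp
    rw [hq'] at c0 c1
    simp only [zero_mul, sub_zero, mul_zero, add_zero, mul_one] at c0 c1
    have hv1' : v 1 = 0 := (mul_eq_zero.1 c1).resolve_left (by linarith)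
    rcases hr with hr | ⟨i, hi, hr⟩
    · nlinarith
    · by_cases h1 : i = 1
      · rw [h1, hv1'] at hr
        norm_num at hr
      · rw [ci i hi h1] at hr
        norm_num at hr
  have hv0 : v 0 = -1 := by
    obtain ⟨i, hi⟩ := exists_abs_of_norm hv1.ge
    by_cases h0 : i = 0
    · subst h0
      have h2 : |v 0| = 1 := le_antisymm (abs_le_of_norm hv1.le 0) hi
      rcases (abs_eq zero_le_one).1 h2 with h3 | h3
      · exact (hrest (Or.inl h3.ge)).elim
      · exact h3
    · exact (hrest (Or.inr ⟨i, h0, hi⟩)).elim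
  have hmm : mm (half v) = half v 1 := by
    have hW : ‖Function.update (half v) 0 0‖ = half v 1 := by
      refine le_antisymm ?_ ?_
      · rw [pi_norm_le_iff_of_nonneg hu1]
        intro j
        by_cases h0 : j = 0
        · rw [h0, Function.update_self, norm_zero]
          exact hu1
        · rw [Function.update_of_ne h0]
          by_cases h1 : j = 1
          · rw [h1, Real.norm_eq_abs, abs_of_nonneg hu1]
          · rw [half_of_ne v h1, ci j h0 h1, norm_zero]
            exact hu1
      · have := norm_le_pi_norm (Function.update (half v) 0 0) 1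
        rw [Function.update_of_ne (by simp), Real.norm_eq_abs, abs_of_nonneg hu1] at this
        exact this
    rw [mm, hW, half_of_ne v h10, hv0]
    norm_num
    exact hu1
  have hv1' : v 1 = 0 := by
    rw [hmm, half_one] at c1
    have h2 : ((1 - t) + t * q) * v 1 = 0 := by linarith
    rcases mul_eq_zero.1 h2 with h3 | h3
    · exfalso
      have := mul_nonneg t0.le hq0
      linarith
    · exact h3
  have haa : aa (half v) = kc n := by
    have hh : half v 1 = 1 / 2 := by rw [half_one, hv1']; norm_num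
    have hnh : ‖half v‖ = 1 := by
      refine le_antisymm (norm_half hv1.le) (one_le_norm (i := 0) ?_)
      rw [half_of_ne v h10, hv0]
      norm_num
    ext j
    refine Fin.lastCases ?_ (fun i => ?_) j
    · rw [aa_last, hnh, kc_last, sub_self]
    · by_cases h0 : i = 0
      · subst h0
        have h1 : Fin.castSucc (0 : Fin (n + 2)) = 0 := by simp
        rw [h1, aa_zero, k2, hmm, hh]
        norm_num
      · by_cases h1 : i = 1
        · subst h1
          have h2 : Fin.castSucc (1 : Fin (n + 2)) = 1 := by simp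
          rw [h2, aa_one, k4, hmm, hh]
          norm_num
        · have n1 : Fin.castSucc i ≠ 1 := by
            intro h
            apply h1
            have h3 : (1 : Fin (n + 2 + 1)) = Fin.castSucc 1 := by simp
            rw [h3] at h
            exact Fin.castSucc_injective _ h
          rw [aa_succ _ h0, half_of_ne v h1, ci i h0 h1, mul_zero]
          simp [kc, n1]
  have hkk : ⟪kc n, kc n⟫ = 1 := by rw [inner_kc, k4]
  have hq2 : q = 2 := by rw [hq, haa, hkk, k4]; norm_num
  rw [haa, k4, hq2, hv0] at c0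
  linarith

/-- the right half, in rest form. -/
noncomputable def gg (v : Bc (n + 2)) : Vc (n + 2) := da (half (clamp v))

lemma continuous_gg : Continuous (gg (n := n)) :=
  continuous_da.comp (continuous_half.comp continuous_clamp)

lemma adm_gg : Adm (n + 2) (gg (n := n)) :=
  ⟨continuous_gg, fun _ => da_ne _, fun v hv => by
    rw [inner_ec]
    exact da_half_last (norm_clamp_of hv)⟩

lemma rest_gg : IsRest (-kc n) (gg (n := n)) := fun v hv =>
  da_of (a1_zero (norm_clamp v) (rest_clamp hv))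

lemma FH_al_rot : FH (ec (n + 2)) (al (n := n + 2)) (fun v => rot 1 (gg v)) := by
  refine FH_line continuous_al.continuousOn
    (continuous_rot continuous_const continuous_gg).continuousOn (fun t ht u hu => ?_)
    (fun u hu => ?_) (fun u hu => ?_)
  · rw [gg, clamp_eq hu]
    exact seg_al_rot ht hu
  · rw [inner_ec, al_last, hu, sub_self]
  · rw [inner_ec, rot_of_ne _ _ last_ne_zero last_ne_one, gg, clamp_eq hu.le]
    exact da_half_last hu

lemma FH_rot_gg : FH (ec (n + 2)) (fun v => rot 1 (gg v)) (gg (n := n)) := by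
  refine ⟨fun p => rot (1 - p.1) (gg p.2), ?_, fun t _ u _ => rot_ne _ (da_ne _),
    fun t _ u hu => ?_, fun u _ => by simp, fun u _ => ?_⟩
  · exact (continuous_rot (continuous_const.sub continuous_fst)
      (continuous_gg.comp continuous_snd)).continuousOn
  · rw [inner_ec, rot_of_ne _ _ last_ne_zero last_ne_one, gg, clamp_eq hu.le]
    exact da_half_last hu
  · simp [rot]

lemma Typ_gg : Typ n gg 1 0 := (Typ.al.congr FH_al_rot).congr FH_rot_gg

/-! #### the left half -/

/-- `x ↦ -refl_k x`. -/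
noncomputable def sk (x : Vc (n + 2)) : Vc (n + 2) := -R (kc n) x

lemma hkk : ⟪kc n, kc n⟫ = 1 := by rw [inner_kc, hk_zero.2.2.2]

lemma R_kc (x : Vc (n + 2)) : R (kc n) x = x - (2 * x 1) • kc n := by
  unfold R
  rw [hkk, real_inner_comm, inner_kc, div_one]

lemma sk_apply (x : Vc (n + 2)) (j : Fin (n + 2 + 1)) : sk x j = 2 * x 1 * kc n j - x j := by
  unfold sk
  rw [R_kc]
  simp

lemma continuous_sk : Continuous (sk (n := n)) := by
  have : (sk : Vc (n + 2) → Vc (n + 2)) = fun x => -(x - (2 * x 1) • kc n) := by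
    funext x
    rw [sk, R_kc]
  rw [this]
  have c : Continuous fun x : Vc (n + 2) => x 1 := PiLp.continuous_apply 2 _ 1
  exact (continuous_id.sub ((continuous_const.mul c).smul continuous_const)).neg

lemma sk_ne {x : Vc (n + 2)} (hx : x ≠ 0) : sk x ≠ 0 := neg_ne_zero.2 (R_ne kc_ne hx)

lemma sk_last (x : Vc (n + 2)) : sk x (Fin.last (n + 2)) = -x (Fin.last (n + 2)) := by
  rw [sk_apply, kc_last, mul_zero, zero_sub]

lemma FH_sk {a b : Bc (n + 2) → Vc (n + 2)} (h : FH (ec (n + 2)) a b) :
    FH (ec (n + 2)) (fun u => sk (rev a u)) (fun u => sk (rev b u)) := by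
  obtain ⟨F, h1, h2, h3, h4, h5⟩ := h
  have hn : ∀ u : Bc (n + 2), ‖Function.update u 1 (-(u 1))‖ = ‖u‖ := fun u =>
    norm_update_neg u 1
  have hr : Continuous fun p : ℝ × Bc (n + 2) =>
      ((p.1, Function.update p.2 1 (-(p.2 1))) : ℝ × Bc (n + 2)) :=
    continuous_fst.prodMk (continuous_snd.update 1 ((continuous_apply 1).comp continuous_snd).neg)
  refine ⟨fun p => sk (F (p.1, Function.update p.2 1 (-(p.2 1)))), ?_,
    fun t ht u hu => sk_ne (h2 t ht _ (by rw [hn]; exact hu)), fun t ht u hu => ?_,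
    fun u hu => ?_, fun u hu => ?_⟩
  · refine continuous_sk.comp_continuousOn (h1.comp hr.continuousOn ?_)
    rintro ⟨t, u⟩ ⟨ht, hu⟩
    refine ⟨ht, ?_⟩
    simp only [mem_closedBall, dist_zero_right] at hu ⊢
    rw [hn]
    exact hu
  · have := h3 t ht (Function.update u 1 (-(u 1))) (by rw [hn]; exact hu)
    rw [inner_ec] at this ⊢
    rw [sk_last, this, neg_zero]
  · show sk (F (0, _)) = sk (a _)
    rw [h4 _ (by rw [hn]; exact hu)]
  · show sk (F (1, _)) = sk (b _)
    rw [h5 _ (by rw [hn]; exact hu)]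

lemma sk_al : (fun u : Bc (n + 2) => sk (rev al u)) = fun u => -al u := by
  funext u
  ext j
  show sk (al (Function.update u 1 (-(u 1)))) j = (-al u) j
  have h1 : (1 : Fin (n + 2 + 1)) = Fin.castSucc 1 := by simp
  have e1 : al (Function.update u 1 (-(u 1))) 1 = -(u 1) := by
    rw [h1, al_succ, Function.update_self]
  rw [sk_apply, e1, PiLp.neg_apply]
  refine Fin.lastCases ?_ (fun i => ?_) j
  · rw [kc_last, al_last, al_last, norm_update_neg]
    ring
  · rw [al_succ, al_succ]
    by_cases hi : i = 1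
    · subst hi
      rw [← h1, hk_zero.2.2.2, Function.update_self]
      ring
    · have n1 : Fin.castSucc i ≠ 1 := by
        intro h
        rw [h1] at h
        exact hi (Fin.castSucc_injective _ h)
      have hk : kc n (Fin.castSucc i) = 0 := by simp [kc, n1]
      rw [hk, Function.update_of_ne hi]
      ring

/-- the left half, in rest form. -/
noncomputable def ff (u : Bc (n + 2)) : Vc (n + 2) := sk (rev gg u)

lemma Typ_ff : Typ n ff 0 1 := by
  have h := Typ.be (n := n)
  rw [← sk_al] at h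
  exact (h.congr (FH_sk FH_al_rot)).congr (FH_sk FH_rot_gg)

lemma continuous_flip : Continuous fun u : Bc (n + 2) => Function.update u 1 (-(u 1)) :=
  continuous_id.update 1 (continuous_apply 1).neg

lemma adm_ff : Adm (n + 2) (ff (n := n)) :=
  ⟨continuous_sk.comp (continuous_gg.comp continuous_flip), fun _ => sk_ne (da_ne _),
    fun v hv => by
      have := adm_gg.hor (Function.update v 1 (-(v 1))) (by rw [norm_update_neg]; exact hv)
      rw [inner_ec] at this ⊢
      show sk (gg (Function.update v 1 (-(v 1)))) _ = 0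
      rw [sk_last, this, neg_zero]⟩

lemma rest_flip {v : Bc (n + 2)} (h : RestAt v) : RestAt (Function.update v 1 (-(v 1))) := by
  rcases h with h | ⟨i, hi, h⟩
  · left
    rwa [Function.update_of_ne (by simp)]
  · right
    refine ⟨i, hi, ?_⟩
    by_cases h1 : i = 1
    · subst h1
      rwa [Function.update_self, abs_neg]
    · rwa [Function.update_of_ne h1]

lemma sk_kc : sk (-kc n) = -kc n := by
  ext j
  rw [sk_apply, PiLp.neg_apply, PiLp.neg_apply, hk_zero.2.2.2]
  ring

lemma rest_ff : IsRest (-kc n) (ff (n := n)) := fun v hv => by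
  show sk (gg (Function.update v 1 (-(v 1)))) = _
  rw [rest_gg _ (rest_flip hv), sk_kc]

/-! #### `cat ff gg` is a section of `na⊥` -/

lemma R_sub (a x y : Vc (n + 2)) : R a (x - y) = R a x - R a y := by
  unfold R
  rw [inner_sub_right, mul_sub, sub_div, sub_smul]
  abel

lemma R_smul (a : Vc (n + 2)) (c : ℝ) (x : Vc (n + 2)) : R a (c • x) = c • R a x := by
  unfold R
  rw [inner_smul_right, smul_sub, smul_smul]
  congr 2
  ring

lemma R_R {a : Vc (n + 2)} (ha : a ≠ 0) (x : Vc (n + 2)) : R a (R a x) = x := by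
  have h := inner_self_ne ha
  have h1 : R a a = -a := by
    unfold R
    rw [mul_div_assoc, div_self h, mul_one, two_smul]
    abel
  conv_lhs => rw [show R a x = x - (2 * ⟪a, x⟫ / ⟪a, a⟫) • a from rfl]
  rw [R_sub, R_smul, h1]
  unfold R
  rw [smul_neg]
  abel

lemma R_conj {b a : Vc (n + 2)} (hb : b ≠ 0) (x : Vc (n + 2)) :
    R (R b a) (R b x) = R b (R a x) := by
  conv_lhs => unfold R
  rw [show (b : Vc (n + 2)) = b from rfl]
  have e1 : ⟪R b a, R b x⟫ = ⟪a, x⟫ := inner_R hb a x
  have e2 : ⟪R b a, R b a⟫ = ⟪a, a⟫ := inner_R hb a a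
  change R b x - (2 * ⟪R b a, R b x⟫ / ⟪R b a, R b a⟫) • R b a = _
  rw [e1, e2, show R a x = x - (2 * ⟪a, x⟫ / ⟪a, a⟫) • a from rfl, R_sub, R_smul]

lemma aa_flip (u : Bc (n + 2)) : aa (Function.update u 1 (-(u 1))) = R (kc n) (aa u) := by
  have h10 : (0 : Fin (n + 2)) ≠ 1 := by simp
  have hm : mm (Function.update u 1 (-(u 1))) = mm u := by
    unfold mm
    rw [Function.update_of_ne h10, Function.update_comm h10.symm]
    have := norm_update_neg (Function.update u 0 0) 1
    rw [Function.update_of_ne h10.symm] at this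
    rw [this]
  rw [R_kc]
  ext j
  rw [PiLp.sub_apply, PiLp.smul_apply, smul_eq_mul]
  have h1 : (1 : Fin (n + 2 + 1)) = Fin.castSucc 1 := by simp
  refine Fin.lastCases ?_ (fun i => ?_) j
  · rw [aa_last, aa_last, norm_update_neg, kc_last]
    ring
  · by_cases h0 : i = 0
    · subst h0
      have h2 : Fin.castSucc (0 : Fin (n + 2)) = 0 := by simp
      rw [h2, aa_zero, aa_zero, hm, hk_zero.2.1]
      ring
    · by_cases hi : i = 1
      · subst hi
        rw [← h1, aa_one, aa_one, hm, Function.update_self, hk_zero.2.2.2]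
        ring
      · have n1 : Fin.castSucc i ≠ 1 := by
          intro h
          rw [h1] at h
          exact hi (Fin.castSucc_injective _ h)
        have hk : kc n (Fin.castSucc i) = 0 := by simp [kc, n1]
        rw [aa_succ _ h0, aa_succ _ h0, hm, Function.update_of_ne hi, hk]
        ring

lemma sk_da (u : Bc (n + 2)) : sk (da (Function.update u 1 (-(u 1)))) = da u := by
  have h1 : R (kc n) (kc n) = -kc n := by
    rw [R_kc, hk_zero.2.2.2, mul_one, two_smul]
    abel
  have hneg : ∀ a x : Vc (n + 2), R a (-x) = -R a x := by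
    intro a x
    have := R_smul a (-1) x
    simpa using this
  unfold da sk
  rw [aa_flip, hneg, neg_neg]
  have h2 : R (R (kc n) (aa u)) (kc n) = -R (kc n) (R (aa u) (kc n)) := by
    rw [← R_conj kc_ne, h1, hneg, neg_neg]
  rw [h2, hneg, R_R kc_ne]

lemma cat_eq {u : Bc (n + 2)} (hu : ‖u‖ ≤ 1) : cat ff gg u = da u := by
  by_cases h : u 1 ≤ 0
  · simp only [GS_808.cat, if_pos h]
    show sk (gg (Function.update (blowL u) 1 (-(blowL u 1)))) = _
    have h1 : Function.update (blowL u) 1 (-(blowL u 1)) =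
        Function.update u 1 (-(2 * u 1 + 1)) := by
      rw [blowL_one, blowL, Function.update_idem]
    have h2 : ‖Function.update u 1 (-(2 * u 1 + 1))‖ ≤ 1 := by
      refine norm_update_le hu 1 ?_
      have := abs_le.1 (abs_le_of_norm hu 1)
      rw [abs_le]
      constructor <;> linarith [this.1]
    have h3 : half (Function.update u 1 (-(2 * u 1 + 1))) = Function.update u 1 (-(u 1)) := by
      rw [half, Function.update_self, Function.update_idem]
      congr 1
      ring
    rw [h1, gg, clamp_eq h2, h3, sk_da]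
  · simp only [GS_808.cat, if_neg h]
    have h2 := norm_blowR hu (not_le.1 h)
    have h3 : half (blowR u) = u := by
      rw [half, blowR_one, blowR, Function.update_idem]
      have : (2 * u 1 - 1 + 1) / 2 = u 1 := by ring
      rw [this, Function.update_eq_self]
    rw [gg, clamp_eq h2, h3]

lemma TT_na : TT n na 1 := by
  refine T_of_one finrank_Vc (hQ 1) (δ := cat ff gg) NzE_na ⟨?_, fun u hu => ?_, fun u hu => ?_⟩
    (Typ.cat (-kc n) adm_ff adm_gg rest_ff rest_gg Typ_ff Typ_gg)
  · exact continuous_da.continuousOn.congr fun u hu => cat_eq (by simpa using hu)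
  · rw [cat_eq hu]
    exact da_ne u
  · rw [cat_eq hu]
    exact na_da u

lemma TT_ga : TT n ga 1 := T_congr (hQ 1) (T_congr (hQ 1) TT_na FN_na_ga) FN_al_ga

end base

/-- **LEMMA D**, all sections. -/
theorem TT_of_typN {n : ℕ} {ν : Bc (n + 2) → Vc (n + 2)} {c : ℤ} (h : TypN n ν c) :
    TT n ν c := by
  induction h with
  | zero => exact TT_zero
  | ga => exact TT_ga
  | congr _ H ih => exact T_congr (hQ _) ih H
  | cat cf cg nf ng rf rg _ _ ih ih' => exact TT_cat cf cg nf ng rf rg ih ih'
  | rev cf nf rf _ ih => exact TT_rev cf nf rf ih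

/-- **LEMMA D**: a nonvanishing section of `ν⊥`, `ν` of class `γ^d`, has class `α^d β^d`. -/
theorem lemD {n : ℕ} {ν δ : Bc (n + 2) → Vc (n + 2)} {d : ℤ} (h : TypN n ν d)
    (hc : ContinuousOn δ (closedBall 0 1)) (hne : ∀ u, ‖u‖ ≤ 1 → δ u ≠ 0)
    (horth : ∀ u, ‖u‖ ≤ 1 → ⟪ν u, δ u⟫ = 0) : Typ n δ d d :=
  (TT_of_typN h).2 δ ⟨hc, hne, horth⟩

end Crest.Agent.R267.LemD_527
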