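import Crest.Agent.R267.NF_808
import Crest.Agent.R267.LemD_527

/-!
# Row 267, TB-T2-2 (helper527): FrameProp

For every `d` a frame field `Rf` with `Rf e` of class `γ^d` and `Rf h` of class `α^d β^d`.
-/

set_option autoImplicit false
set_option linter.unusedSectionVars false

namespace Crest.Agent.R267.Frame_527

open Set Metric
open scoped RealInnerProductSpace
open Crest.Agent.R267.GS_808 Crest.Agent.R267.NF_808
open Crest.Agent.R267.LemDA_527 Crest.Agent.R267.LemD_527

/-- free homotopies of normals can be reversed. -/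
lemma FN.symm {B V : Type*} [NormedAddCommGroup B] [NormedSpace ℝ B] [NormedAddCommGroup V]
    [InnerProductSpace ℝ V] {e : V} {f g : B → V} (h : FN e f g) : FN e g f := by
  obtain ⟨F, h1, h2, h3, h4, h5⟩ := h
  have hm : ∀ t ∈ Icc (0 : ℝ) 1, 1 - t ∈ Icc (0 : ℝ) 1 := fun t ht =>
    ⟨by linarith [ht.2], by linarith [ht.1]⟩
  refine ⟨fun p => F (1 - p.1, p.2), ?_, fun t ht u hu => h2 _ (hm t ht) u hu,
    fun t ht u hu => h3 _ (hm t ht) u hu, fun u hu => ?_, fun u hu => ?_⟩
  · exact h1.comp ((continuous_const.sub continuous_fst).prodMk continuous_snd).continuousOn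
      fun p hp => ⟨hm _ hp.1, hp.2⟩
  · simpa using h5 u hu
  · simpa using h4 u hu

/-- constant homotopy. -/
lemma FN.of_eq {B V : Type*} [NormedAddCommGroup B] [NormedSpace ℝ B] [NormedAddCommGroup V]
    [InnerProductSpace ℝ V] {e : V} {f g : B → V} (hf : NzE e f)
    (h : ∀ u, ‖u‖ ≤ 1 → f u = g u) : FN e f g := by
  refine ⟨fun p => f p.2, hf.cont.comp continuousOn_snd fun p hp => hp.2, fun t _ u hu =>
    hf.ne u hu, fun t _ u hu => hf.sph u hu, fun u _ => rfl, fun u hu => h u hu⟩

variable {n : ℕ}

/-! ### reflections as isometries -/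

lemma R_add (a x y : Vc (n + 2)) : R a (x + y) = R a x + R a y := by
  unfold R
  rw [inner_add_right, mul_add, add_div, add_smul]
  abel

/-- the reflection as a linear isometry equivalence. -/
noncomputable def RL (a : Vc (n + 2)) (ha : a ≠ 0) : Vc (n + 2) ≃ₗᵢ[ℝ] Vc (n + 2) where
  toFun := R a
  map_add' := R_add a
  map_smul' := fun c x => R_smul a c x
  invFun := R a
  left_inv := R_R ha
  right_inv := R_R ha
  norm_map' := fun x => by
    have h := inner_R ha x x
    rw [real_inner_self_eq_norm_sq, real_inner_self_eq_norm_sq] at h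
    exact (sq_eq_sq₀ (norm_nonneg _) (norm_nonneg _)).1 h

lemma RL_apply (a : Vc (n + 2)) (ha : a ≠ 0) (x : Vc (n + 2)) : RL a ha x = R a x := rfl

lemma RL_symm_apply (a : Vc (n + 2)) (ha : a ≠ 0) (x : Vc (n + 2)) :
    (RL a ha).symm x = R a x := rfl

lemma continuous_R2 {X : Type*} [TopologicalSpace X] {a x : X → Vc (n + 2)}
    (ha : Continuous a) (hx : Continuous x) (h0 : ∀ p, a p ≠ 0) :
    Continuous fun p => R (a p) (x p) := by
  unfold R
  exact hx.sub (((continuous_const.mul (ha.inner hx)).div
    (ha.inner ha) fun p => inner_self_ne (h0 p)).smul ha)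

/-! ### frame fields -/

/-- the identity frame. -/
noncomputable def idF (n : ℕ) : FrameD n where
  Rf := fun _ => LinearIsometryEquiv.refl ℝ _
  c_Rf := continuous_snd
  c_Rf' := continuous_snd
  rest := fun _ _ => rfl
  wall := fun _ _ => rfl

lemma aa_rest {u : Bc (n + 2)} (hu : ‖u‖ ≤ 1) (h : RestAt u) : aa u = hc (n + 1) := by
  have hm := mm_one_of hu h
  have hn : ‖u‖ = 1 := le_antisymm hu (rest_norm h)
  ext j
  refine Fin.lastCases ?_ (fun i => ?_) j
  · rw [aa_last, hn, sub_self]
    exact hc_last.symm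
  · by_cases h0 : i = 0
    · subst h0
      have h1 : Fin.castSucc (0 : Fin (n + 2)) = 0 := by simp
      rw [h1, aa_zero, hm, hk_zero.1]
      norm_num
    · have n0 : Fin.castSucc i ≠ 0 := by simpa using h0
      rw [aa_succ _ h0, hm]
      simp [hc, n0]

/-- the frame of class one: `refl_{aa} ∘ refl_h`. -/
noncomputable def oneF (n : ℕ) : FrameD n where
  Rf := fun u => (RL (hc (n + 1)) hc_ne).trans (RL (aa (clamp u)) (aa_ne _))
  c_Rf := by
    have h1 : Continuous fun p : Bc (n + 2) × Vc (n + 2) => R (hc (n + 1)) p.2 :=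
      continuous_R2 continuous_const continuous_snd fun _ => hc_ne
    exact continuous_R2 (continuous_aa.comp (continuous_clamp.comp continuous_fst)) h1
      fun _ => aa_ne _
  c_Rf' := by
    have h1 : Continuous fun p : Bc (n + 2) × Vc (n + 2) => R (aa (clamp p.1)) p.2 :=
      continuous_R2 (continuous_aa.comp (continuous_clamp.comp continuous_fst)) continuous_snd
        fun _ => aa_ne _
    exact continuous_R2 continuous_const h1 fun _ => hc_ne
  rest := fun u hu => by
    apply LinearIsometryEquiv.ext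
    intro x
    show R (aa (clamp u)) (R (hc (n + 1)) x) = x
    rw [aa_rest (norm_clamp u) (rest_clamp hu), R_R hc_ne]
  wall := fun u hu => by
    show R (aa (clamp u)) (R (hc (n + 1)) (ec (n + 2))) = _
    rw [R_of_orth (a := hc (n + 1)) (by rw [inner_ec']; exact hc_last), R_of_orth]
    rw [inner_ec', aa_last, norm_clamp_of hu, sub_self]

lemma rest_blowL {u : Bc (n + 2)} (h : RestAt u) (h1 : u 1 ≤ 0) : RestAt (blowL u) := by
  rcases h with h | ⟨i, hi, h⟩
  · left
    rwa [blowL, Function.update_of_ne (by simp)]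
  · right
    refine ⟨i, hi, ?_⟩
    by_cases h2 : i = 1
    · subst h2
      rw [blowL_one]
      rw [abs_of_nonpos h1] at h
      rw [abs_of_nonpos (by linarith)]
      linarith
    · rwa [blowL, Function.update_of_ne h2]

lemma rest_blowR {u : Bc (n + 2)} (h : RestAt u) (h1 : 0 < u 1) : RestAt (blowR u) := by
  rcases h with h | ⟨i, hi, h⟩
  · left
    rwa [blowR, Function.update_of_ne (by simp)]
  · right
    refine ⟨i, hi, ?_⟩
    by_cases h2 : i = 1
    · subst h2
      rw [blowR_one]
      rw [abs_of_pos h1] at h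
      rw [abs_of_nonneg (by linarith)]
      linarith
    · rwa [blowR, Function.update_of_ne h2]

open Classical in
/-- concatenation of frames. -/
noncomputable def catF (F G : FrameD n) : FrameD n where
  Rf := fun u => if u 1 ≤ 0 then F.Rf (blowL u) else G.Rf (blowR u)
  c_Rf := by
    have e : (fun p : Bc (n + 2) × Vc (n + 2) =>
        (if p.1 1 ≤ 0 then F.Rf (blowL p.1) else G.Rf (blowR p.1)) p.2) =
        fun p => if p.1 1 ≤ 0 then F.Rf (blowL p.1) p.2 else G.Rf (blowR p.1) p.2 := by
      funext p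
      split_ifs <;> rfl
    rw [e]
    refine Continuous.if_le
      (F.c_Rf.comp ((continuous_blowL.comp continuous_fst).prodMk continuous_snd))
      (G.c_Rf.comp ((continuous_blowR.comp continuous_fst).prodMk continuous_snd))
      ((continuous_apply 1).comp continuous_fst) continuous_const fun p hp => ?_
    rw [F.rest _ (restL hp), G.rest _ (restR hp)]
  c_Rf' := by
    have e : (fun p : Bc (n + 2) × Vc (n + 2) =>
        (if p.1 1 ≤ 0 then F.Rf (blowL p.1) else G.Rf (blowR p.1)).symm p.2) =
        fun p => if p.1 1 ≤ 0 then (F.Rf (blowL p.1)).symm p.2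
          else (G.Rf (blowR p.1)).symm p.2 := by
      funext p
      split_ifs <;> rfl
    rw [e]
    refine Continuous.if_le
      (F.c_Rf'.comp ((continuous_blowL.comp continuous_fst).prodMk continuous_snd))
      (G.c_Rf'.comp ((continuous_blowR.comp continuous_fst).prodMk continuous_snd))
      ((continuous_apply 1).comp continuous_fst) continuous_const fun p hp => ?_
    rw [F.rest _ (restL hp), G.rest _ (restR hp)]
  rest := fun u hu => by
    by_cases h : u 1 ≤ 0
    · rw [if_pos h, F.rest _ (rest_blowL hu h)]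
    · rw [if_neg h, G.rest _ (rest_blowR hu (not_le.1 h))]
  wall := fun u hu => by
    by_cases h : u 1 ≤ 0
    · rw [if_pos h, F.wall _ (blowL_sph hu h)]
    · rw [if_neg h, G.wall _ (blowR_sph hu (not_le.1 h))]

/-- reversal of a frame. -/
noncomputable def revF (F : FrameD n) : FrameD n where
  Rf := fun u => F.Rf (Function.update u 1 (-(u 1)))
  c_Rf := F.c_Rf.comp ((continuous_flip.comp continuous_fst).prodMk continuous_snd)
  c_Rf' := F.c_Rf'.comp ((continuous_flip.comp continuous_fst).prodMk continuous_snd)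
  rest := fun u hu => F.rest _ (rest_flip hu)
  wall := fun u hu => F.wall _ (by rw [norm_update_neg]; exact hu)

/-- the normal of a frame. -/
noncomputable def nrm (F : FrameD n) (u : Bc (n + 2)) : Vc (n + 2) := F.Rf u (ec (n + 2))

lemma continuous_nrm (F : FrameD n) : Continuous (nrm F) :=
  F.c_Rf.comp (continuous_id.prodMk continuous_const)

lemma nrm_ne (F : FrameD n) (u : Bc (n + 2)) : nrm F u ≠ 0 := by
  unfold nrm
  intro h
  exact ec_ne ((F.Rf u).injective (by rw [h, map_zero]))

lemma TypN_idF : TypN n (nrm (idF n)) 0 := TypN.zero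

lemma TypN_oneF : TypN n (nrm (oneF n)) 1 := by
  have h1 : TypN n na 1 := (TypN.ga.congr (FN.symm FN_al_ga)).congr (FN.symm FN_na_ga)
  refine h1.congr (FN.of_eq NzE_na fun u hu => ?_)
  show R (aa u) (ec (n + 2)) = R (aa (clamp u)) (R (hc (n + 1)) (ec (n + 2)))
  rw [clamp_eq hu, R_of_orth (a := hc (n + 1)) (by rw [inner_ec']; exact hc_last)]

lemma TypN_catF {F G : FrameD n} {c c' : ℤ} (h : TypN n (nrm F) c) (h' : TypN n (nrm G) c') :
    TypN n (nrm (catF F G)) (c + c') := by
  have := TypN.cat (continuous_nrm F) (continuous_nrm G) (nrm_ne F) (nrm_ne G) F.wall G.wall h h'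
  have e : nrm (catF F G) = cat (nrm F) (nrm G) := by
    funext u
    unfold nrm catF GS_808.cat
    simp only
    split_ifs <;> rfl
  rw [e]
  exact this

lemma TypN_revF {F : FrameD n} {c : ℤ} (h : TypN n (nrm F) c) : TypN n (nrm (revF F)) (-c) :=
  TypN.rev (continuous_nrm F) (nrm_ne F) F.wall h

lemma exists_nat (d : ℕ) : ∃ F : FrameD n, TypN n (nrm F) d := by
  induction d with
  | zero => exact ⟨idF n, TypN_idF⟩
  | succ d ih =>
    obtain ⟨F, hF⟩ := ih
    refine ⟨catF F (oneF n), ?_⟩
    have := TypN_catF hF (TypN_oneF (n := n))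
    simpa using this

/-- **T2-2: FrameProp.** -/
theorem frameProp (n : ℕ) : FrameProp n := by
  intro d
  have key : ∃ F : FrameD n, TypN n (nrm F) d := by
    obtain ⟨k, rfl | rfl⟩ := Int.eq_nat_or_neg d
    · exact exists_nat k
    · obtain ⟨F, hF⟩ := exists_nat (n := n) k
      exact ⟨revF F, TypN_revF hF⟩
  obtain ⟨F, hF⟩ := key
  refine ⟨F, hF, lemD hF ?_ (fun u _ h => ?_) fun u _ => ?_⟩
  · exact (F.c_Rf.comp (continuous_id.prodMk continuous_const)).continuousOn
  · exact hc_ne ((F.Rf u).injective (by rw [h, map_zero]))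
  · show ⟪F.Rf u (ec (n + 2)), F.Rf u (hc (n + 1))⟫ = 0
    rw [LinearIsometryEquiv.inner_map_map, inner_ec]
    exact hc_last

end Crest.Agent.R267.Frame_527
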