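import Crest.Agent.R267.LemR_224
import Crest.Agent.R267.NF_808

/-!
# T2-3 PATH (row 267, DRAFT B): path data of every class

`pathProp n : PathProp n`: for all integers `a b c` there are unit maps `om`, `M` in rest form,
`om` of class `α^a β^b`, `M` of class `γ^c`, the reflected normal of class `γ^(a + b - c)`.
(They are moreover Lipschitz in the variable `u 1`, see `exists_avg`.)
-/

set_option autoImplicit false
set_option linter.unusedSectionVars false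
set_option linter.unusedVariables false

namespace Crest.Agent.R267.Path_224

open Set Metric
open scoped RealInnerProductSpace
open Crest.Agent.R267.GS_808 Crest.Agent.R267.Norm_855 Crest.Agent.R267.LemR_224
open Crest.Agent.R267.NF_808

noncomputable section

variable {n : ℕ}

/-! ### averaging in the variable `u 1` -/

section avg

lemma us_one (u : Bc (n + 2)) (s : ℝ) : us u s 1 = s := by simp [us]

lemma us_ne (u : Bc (n + 2)) (s : ℝ) {i : Fin (n + 2)} (hi : i ≠ 1) : us u s i = u i := by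
  simp [us, hi]

lemma us_us (u : Bc (n + 2)) (s s' : ℝ) : us (us u s) s' = us u s' := by
  simp [us]

lemma us_self (u : Bc (n + 2)) : us u (u 1) = u := by
  simp [us]

lemma continuous_us : Continuous fun p : Bc (n + 2) × ℝ => us p.1 p.2 := by
  unfold us
  fun_prop

/-- the point of evaluation -/
def qp (ε t τ : ℝ) (u : Bc (n + 2)) : Bc (n + 2) := cl (us u ((1 + t) * u 1 + 2 * t * ε * τ))

lemma continuous_qp (ε : ℝ) :
    Continuous fun p : (ℝ × Bc (n + 2)) × ℝ => qp ε p.1.1 p.2 p.1.2 := by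
  have h1 : Continuous fun p : (ℝ × Bc (n + 2)) × ℝ =>
      (p.1.2, (1 + p.1.1) * p.1.2 1 + 2 * p.1.1 * ε * p.2) := by fun_prop
  exact continuous_cl.comp (continuous_us.comp h1)

lemma arg_abs {ε t τ s : ℝ} (hε : 0 ≤ ε) (hε' : ε ≤ 1 / 2) (ht : 0 ≤ t) (hτ : τ ∈ Icc (0 : ℝ) 1)
    (h : 1 ≤ |s|) : 1 ≤ |(1 + t) * s + 2 * t * ε * τ| := by
  have h1 : 0 ≤ t * ε * τ := mul_nonneg (mul_nonneg ht hε) hτ.1
  have h2 : t * ε * τ ≤ t * (1 / 2) * 1 := by
    refine mul_le_mul (mul_le_mul_of_nonneg_left hε' ht) hτ.2 hτ.1 (by positivity)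
  rcases le_abs.1 h with h | h
  · exact le_abs.2 (Or.inl (by nlinarith))
  · exact le_abs.2 (Or.inr (by nlinarith))

lemma qp_norm {ε t τ : ℝ} (hε : 0 ≤ ε) (hε' : ε ≤ 1 / 2) (ht : 0 ≤ t) (hτ : τ ∈ Icc (0 : ℝ) 1)
    {u : Bc (n + 2)} (hu : 1 ≤ ‖u‖) : ‖qp ε t τ u‖ = 1 := by
  refine norm_cl (one_le_of (fun i hi => us_ne u _ hi) hu fun h => ?_)
  rw [us_one]
  exact arg_abs hε hε' ht hτ h

lemma rest_cl {u : Bc (n + 2)} (h : RestAt u) : RestAt (cl u) := by
  rcases h with h | ⟨i, hi, h⟩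
  · exact Or.inl (cl_zero h).ge
  · exact Or.inr ⟨i, hi, (abs_cl h).ge⟩

lemma qp_rest {ε t τ : ℝ} (hε : 0 ≤ ε) (hε' : ε ≤ 1 / 2) (ht : 0 ≤ t) (hτ : τ ∈ Icc (0 : ℝ) 1)
    {u : Bc (n + 2)} (hu : RestAt u) : RestAt (qp ε t τ u) := by
  refine rest_cl (rest_of (fun i hi => us_ne u _ hi) hu fun h => ?_)
  rw [us_one]
  exact arg_abs hε hε' ht hτ h

lemma qp_zero (ε τ : ℝ) {u : Bc (n + 2)} (hu : ‖u‖ ≤ 1) : qp ε 0 τ u = u := by
  unfold qp
  have : (1 + 0) * u 1 + 2 * 0 * ε * τ = u 1 := by ring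
  rw [this, us_self, cl_of_le hu]

/-- the average -/
def av (ε : ℝ) (f : Bc (n + 2) → Vc (n + 2)) (p : ℝ × Bc (n + 2)) : Vc (n + 2) :=
  ∫ τ in (0 : ℝ)..1, f (qp ε p.1 τ p.2)

variable {f : Bc (n + 2) → Vc (n + 2)}

lemma continuous_av (ε : ℝ) (hf : Continuous f) : Continuous (av ε f) := by
  unfold av
  exact intervalIntegral.continuous_parametric_intervalIntegral_of_continuous'
    (f := fun (p : ℝ × Bc (n + 2)) (τ : ℝ) => f (qp ε p.1 τ p.2))
    (hf.comp (continuous_qp ε)) 0 1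

lemma continuous_slice (ε : ℝ) (hf : Continuous f) (p : ℝ × Bc (n + 2)) :
    Continuous fun τ => f (qp ε p.1 τ p.2) := by
  have h : Continuous fun τ : ℝ => ((p.1, p.2), τ) := by fun_prop
  exact hf.comp ((continuous_qp ε).comp h)

/-- if all values are `c`, so is the average. -/
lemma av_const {ε : ℝ} {p : ℝ × Bc (n + 2)} {c : Vc (n + 2)}
    (h : ∀ τ ∈ Icc (0 : ℝ) 1, f (qp ε p.1 τ p.2) = c) : av ε f p = c := by
  have h1 : av ε f p = ∫ τ in (0 : ℝ)..1, c := by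
    refine intervalIntegral.integral_congr fun τ hτ => h τ ?_
    rwa [uIcc_of_le zero_le_one] at hτ
  rw [h1]
  simp

/-- if all values are horizontal, so is the average. -/
lemma av_hor {ε : ℝ} (hf : Continuous f) {p : ℝ × Bc (n + 2)} {e : Vc (n + 2)}
    (h : ∀ τ ∈ Icc (0 : ℝ) 1, ⟪e, f (qp ε p.1 τ p.2)⟫ = 0) : ⟪e, av ε f p⟫ = 0 := by
  have h1 : innerSL ℝ e (av ε f p) = ∫ τ in (0 : ℝ)..1, innerSL ℝ e (f (qp ε p.1 τ p.2)) :=
    ((innerSL ℝ e).intervalIntegral_comp_comm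
      ((continuous_slice ε hf p).intervalIntegrable 0 1)).symm
  have h2 : innerSL ℝ e (av ε f p) = ⟪e, av ε f p⟫ := rfl
  rw [← h2, h1]
  have h3 : (∫ τ in (0 : ℝ)..1, innerSL ℝ e (f (qp ε p.1 τ p.2))) = ∫ τ in (0 : ℝ)..1, (0 : ℝ) := by
    refine intervalIntegral.integral_congr fun τ hτ => h τ ?_
    rwa [uIcc_of_le zero_le_one] at hτ
  rw [h3]
  simp

/-- the average is close to the values. -/
lemma av_near {ε : ℝ} (hf : Continuous f) {p : ℝ × Bc (n + 2)} {c : Vc (n + 2)} {r : ℝ}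
    (h : ∀ τ ∈ Icc (0 : ℝ) 1, ‖f (qp ε p.1 τ p.2) - c‖ ≤ r) : ‖av ε f p - c‖ ≤ r := by
  have h1 : av ε f p - c = ∫ τ in (0 : ℝ)..1, (f (qp ε p.1 τ p.2) - c) := by
    rw [intervalIntegral.integral_sub ((continuous_slice ε hf p).intervalIntegrable 0 1)
      (continuous_const.intervalIntegrable 0 1)]
    simp [av]
  rw [h1]
  have h2 : ∀ τ ∈ uIoc (0 : ℝ) 1, ‖f (qp ε p.1 τ p.2) - c‖ ≤ r := by
    intro τ hτ
    rw [uIoc_of_le zero_le_one] at hτ
    exact h τ ⟨hτ.1.le, hτ.2⟩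
  simpa using intervalIntegral.norm_integral_le_of_norm_le_const h2

lemma dist_cl_us (u : Bc (n + 2)) (s s' : ℝ) : dist (cl (us u s)) (cl (us u s')) ≤ |s - s'| := by
  refine (dist_pi_le_iff (abs_nonneg _)).2 fun i => ?_
  by_cases hi : i = 1
  · subst hi
    rw [Real.dist_eq, cl, cl, us_one, us_one]
    refine (abs_max_sub_max_le_max _ _ _ _).trans (max_le (by simp) ?_)
    exact (abs_min_sub_min_le_max _ _ _ _).trans (max_le (by simp) le_rfl)
  · rw [cl, cl, us_ne u s hi, us_ne u s' hi, dist_self]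
    exact abs_nonneg _

/-- a good averaging length -/
lemma exists_eps (hf : Continuous f) : ∃ ε : ℝ, 0 < ε ∧ ε ≤ 1 / 2 ∧
    ∀ t ∈ Icc (0 : ℝ) 1, ∀ τ ∈ Icc (0 : ℝ) 1, ∀ u : Bc (n + 2),
      ‖f (qp ε t τ u) - f (qp ε t 0 u)‖ ≤ 1 / 2 := by
  have h1 : UniformContinuousOn f (closedBall 0 1) :=
    (isCompact_closedBall 0 1).uniformContinuousOn_of_continuous hf.continuousOn
  obtain ⟨δ, hδ, h⟩ := Metric.uniformContinuousOn_iff.1 h1 (1 / 2) (by norm_num)
  refine ⟨min (1 / 2) (δ / 4), lt_min (by norm_num) (by linarith), min_le_left _ _, ?_⟩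
  intro t ht τ hτ u
  have hm : ∀ v : Bc (n + 2), cl v ∈ closedBall (0 : Bc (n + 2)) 1 := fun v => by
    rw [mem_closedBall_zero_iff]
    exact norm_cl_le v
  have h2 := h (qp (min (1 / 2) (δ / 4)) t τ u) (hm _) (qp (min (1 / 2) (δ / 4)) t 0 u) (hm _) ?_
  · rw [dist_eq_norm] at h2
    exact h2.le
  · refine (dist_cl_us u _ _).trans_lt ?_
    set ε := min (1 / 2) (δ / 4)
    have h3 : ε ≤ δ / 4 := min_le_right _ _
    have h4 : 0 ≤ ε := (lt_min (by norm_num) (by linarith)).le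
    have h5 : (1 + t) * u 1 + 2 * t * ε * τ - ((1 + t) * u 1 + 2 * t * ε * 0) =
        2 * (t * τ) * ε := by ring
    rw [h5, abs_of_nonneg (mul_nonneg (mul_nonneg (by norm_num) (mul_nonneg ht.1 hτ.1)) h4)]
    have h6 : t * τ ≤ 1 := mul_le_one₀ ht.2 hτ.1 hτ.2
    nlinarith [mul_nonneg ht.1 hτ.1]

/-- the average is Lipschitz in `u 1`. -/
lemma av_lip {ε : ℝ} (hε : 0 < ε) (hf : Continuous f) (h1 : ∀ u, ‖f u‖ ≤ 1) (u : Bc (n + 2))
    (s s' : ℝ) : ‖av ε f (1, us u s) - av ε f (1, us u s')‖ ≤ 2 / ε * |s - s'| := by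
  have hφ : Continuous fun x : ℝ => f (cl (us u x)) := by
    have h : Continuous fun x : ℝ => (u, x) := by fun_prop
    exact hf.comp (continuous_cl.comp (continuous_us.comp h))
  have hi : ∀ a b : ℝ, IntervalIntegrable (fun x : ℝ => f (cl (us u x))) MeasureTheory.volume a b :=
    fun a b => hφ.intervalIntegrable a b
  have key : ∀ s : ℝ, av ε f (1, us u s) =
      (2 * ε)⁻¹ • ∫ x in (2 * s)..(2 * s + 2 * ε), f (cl (us u x)) := by
    intro s
    have h2 : av ε f (1, us u s) = ∫ τ in (0 : ℝ)..1, f (cl (us u (2 * s + 2 * ε * τ))) := by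
      unfold av qp
      simp only [us_us, us_one]
      refine intervalIntegral.integral_congr fun τ _ => ?_
      show f (cl (us u _)) = f (cl (us u _))
      congr 3
      ring
    rw [h2, intervalIntegral.integral_comp_add_mul (fun x => f (cl (us u x)))
      (by positivity : (2 * ε) ≠ 0) (2 * s)]
    simp
  have hb : ∀ a b : ℝ, ‖∫ x in a..b, f (cl (us u x))‖ ≤ |b - a| := by
    intro a b
    simpa using intervalIntegral.norm_integral_le_of_norm_le_const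
      (C := 1) (a := a) (b := b) fun x _ => h1 (cl (us u x))
  rw [key, key, ← smul_sub, norm_smul, Real.norm_eq_abs, abs_of_pos (by positivity),
    intervalIntegral.integral_interval_sub_interval_comm (hi _ _) (hi _ _) (hi _ _)]
  have h3 := (norm_sub_le (∫ x in (2 * s)..(2 * s'), f (cl (us u x)))
    (∫ x in (2 * s + 2 * ε)..(2 * s' + 2 * ε), f (cl (us u x)))).trans
      (add_le_add (hb _ _) (hb _ _))
  have h4 : |2 * s' - 2 * s| = 2 * |s - s'| := by
    rw [← mul_sub, abs_mul, abs_sub_comm s' s]; norm_num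
  have h5 : |2 * s' + 2 * ε - (2 * s + 2 * ε)| = 2 * |s - s'| := by
    rw [← h4]; congr 1; ring
  rw [h4, h5] at h3
  calc (2 * ε)⁻¹ * _ ≤ (2 * ε)⁻¹ * (2 * |s - s'| + 2 * |s - s'|) :=
        mul_le_mul_of_nonneg_left h3 (by positivity)
    _ = 2 / ε * |s - s'| := by field_simp; ring

attribute [local irreducible] av qp

/-- normalisation is Lipschitz away from zero. -/
lemma normalize_lip {V : Type*} [NormedAddCommGroup V] [NormedSpace ℝ V] {x y : V}
    (hx : 1 / 2 ≤ ‖x‖) (hy : 1 / 2 ≤ ‖y‖) : ‖‖x‖⁻¹ • x - ‖y‖⁻¹ • y‖ ≤ 4 * ‖x - y‖ := by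
  have hx0 : 0 < ‖x‖ := by linarith
  have hy0 : 0 < ‖y‖ := by linarith
  have h1 : ‖x‖⁻¹ • x - ‖y‖⁻¹ • y = ‖x‖⁻¹ • (x - y) + (‖x‖⁻¹ - ‖y‖⁻¹) • y := by module
  have h2 : |‖x‖⁻¹ - ‖y‖⁻¹| * ‖y‖ = ‖x‖⁻¹ * |‖y‖ - ‖x‖| := by
    have : ‖x‖⁻¹ - ‖y‖⁻¹ = ‖x‖⁻¹ * ‖y‖⁻¹ * (‖y‖ - ‖x‖) := by field_simp
    rw [this, abs_mul, abs_mul, abs_of_pos (inv_pos.2 hx0), abs_of_pos (inv_pos.2 hy0)]
    field_simp
  have h3 : |‖y‖ - ‖x‖| ≤ ‖x - y‖ := by
    rw [abs_sub_comm]; exact abs_norm_sub_norm_le x y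
  have h4 : ‖x‖⁻¹ ≤ 2 := by
    rw [inv_le_comm₀ hx0 (by norm_num)]
    linarith
  rw [h1]
  refine (norm_add_le _ _).trans ?_
  rw [norm_smul, norm_smul, Real.norm_eq_abs, Real.norm_eq_abs, h2, abs_of_pos (inv_pos.2 hx0)]
  have h5 : ‖x‖⁻¹ * ‖x - y‖ ≤ 2 * ‖x - y‖ := mul_le_mul_of_nonneg_right h4 (norm_nonneg _)
  have h6 : ‖x‖⁻¹ * |‖y‖ - ‖x‖| ≤ 2 * ‖x - y‖ :=
    mul_le_mul h4 h3 (abs_nonneg _) (by norm_num)
  linarith

/-- **averaging**: a continuous unit map is homotopic to one which is Lipschitz in `u 1`; the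
homotopy `H` takes, at the point `u`, the values of normalised averages of `f` over points which
are on the sphere (at rest) when `u` is outside the open ball (at rest). -/
theorem exists_avg (hf : Continuous f) (hn : ∀ u, ‖f u‖ = 1) :
    ∃ (H : ℝ × Bc (n + 2) → Vc (n + 2)) (L : ℝ),
      ContinuousOn H (Icc 0 1 ×ˢ univ) ∧
      (∀ t ∈ Icc (0 : ℝ) 1, ∀ u, ‖H (t, u)‖ = 1) ∧
      (∀ t ∈ Icc (0 : ℝ) 1, ∀ e : Vc (n + 2), (∀ v, ‖v‖ = 1 → ⟪e, f v⟫ = 0) →
        ∀ u, 1 ≤ ‖u‖ → ⟪e, H (t, u)⟫ = 0) ∧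
      (∀ t ∈ Icc (0 : ℝ) 1, ∀ c : Vc (n + 2), (∀ v, ‖v‖ = 1 → f v = c) →
        ∀ u, 1 ≤ ‖u‖ → H (t, u) = c) ∧
      (∀ t ∈ Icc (0 : ℝ) 1, ∀ c : Vc (n + 2), (∀ v, RestAt v → f v = c) →
        ∀ u, RestAt u → H (t, u) = c) ∧
      (∀ u, ‖u‖ ≤ 1 → H (0, u) = f u) ∧
      (∀ u s s', ‖H (1, us u s) - H (1, us u s')‖ ≤ L * |s - s'|) := by
  obtain ⟨ε, hε, hε', hE⟩ := exists_eps hf
  have hav : ∀ t ∈ Icc (0 : ℝ) 1, ∀ u : Bc (n + 2), 1 / 2 ≤ ‖av ε f (t, u)‖ := by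
    intro t ht u
    have h1 := av_near hf (p := (t, u)) (c := f (qp ε t 0 u)) (r := 1 / 2) fun τ hτ =>
      hE t ht τ hτ u
    have h2 := norm_sub_norm_le (f (qp ε t 0 u)) (av ε f (t, u))
    rw [hn, norm_sub_rev] at h2
    linarith
  have hpos : ∀ t ∈ Icc (0 : ℝ) 1, ∀ u : Bc (n + 2), 0 < ‖av ε f (t, u)‖ := fun t ht u => by
    linarith [hav t ht u]
  have hone : ∀ {t : ℝ} {u : Bc (n + 2)} {c : Vc (n + 2)}, av ε f (t, u) = c → ‖c‖ = 1 →
      ‖av ε f (t, u)‖⁻¹ • av ε f (t, u) = c := by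
    intro t u c h hc
    rw [h, hc, inv_one, one_smul]
  refine ⟨fun p => ‖av ε f p‖⁻¹ • av ε f p, 4 * (2 / ε), ?_, ?_, ?_, ?_, ?_, ?_, ?_⟩
  · have h1 := continuous_av ε hf
    refine ContinuousOn.smul (h1.norm.continuousOn.inv₀ ?_) h1.continuousOn
    rintro ⟨t, u⟩ ⟨ht, -⟩
    exact (hpos t ht u).ne'
  · intro t ht u
    show ‖‖av ε f (t, u)‖⁻¹ • av ε f (t, u)‖ = 1
    rw [norm_smul, norm_inv, norm_norm, inv_mul_cancel₀ (hpos t ht u).ne']
  · intro t ht e he u hu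
    show ⟪e, ‖av ε f (t, u)‖⁻¹ • av ε f (t, u)⟫ = 0
    rw [inner_smul_right, av_hor hf fun τ hτ => he _ (qp_norm hε.le hε' ht.1 hτ hu), mul_zero]
  · intro t ht c hc u hu
    have h1 : av ε f (t, u) = c := av_const fun τ hτ => hc _ (qp_norm hε.le hε' ht.1 hτ hu)
    refine hone h1 ?_
    rw [← hc _ (qp_norm hε.le hε' ht.1 (left_mem_Icc.2 zero_le_one) hu)]
    exact hn _
  · intro t ht c hc u hu
    have h1 : av ε f (t, u) = c := av_const fun τ hτ => hc _ (qp_rest hε.le hε' ht.1 hτ hu)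
    refine hone h1 ?_
    rw [← hc _ (qp_rest hε.le hε' ht.1 (left_mem_Icc.2 zero_le_one) hu)]
    exact hn _
  · intro u hu
    exact hone (av_const fun τ _ => by rw [qp_zero ε τ hu]) (hn u)
  · intro u s s'
    have h1 : (1 : ℝ) ∈ Icc (0 : ℝ) 1 := right_mem_Icc.2 zero_le_one
    refine (normalize_lip (hav 1 h1 _) (hav 1 h1 _)).trans ?_
    rw [mul_assoc]
    exact mul_le_mul_of_nonneg_left (av_lip hε hf (fun u => (hn u).le) u s s') (by norm_num)

end avg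

/-! ### maps of every class with rest value `h` -/

section gen

/-- `f` is admissible, in rest form with rest value `h`, of class `(a, b)`. -/
def PP (n : ℕ) (a b : ℤ) : Prop :=
  ∃ f : Bc (n + 2) → Vc (n + 2), Adm (n + 2) f ∧ IsRest (hc (n + 1)) f ∧ Typ n f a b

lemma pp_zero : PP n 0 0 :=
  ⟨fun _ => hc (n + 1), ⟨continuous_const, fun _ => hc_ne, fun _ _ => ec_hc⟩, fun _ _ => rfl,
    Typ.zero⟩

lemma pp_add {a b a' b' : ℤ} (h : PP n a b) (h' : PP n a' b') : PP n (a + a') (b + b') := by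
  obtain ⟨f, hf, rf, tf⟩ := h
  obtain ⟨g, hg, rg, tg⟩ := h'
  exact ⟨cat f g, adm_cat hf hg rf rg, rest_cat rf rg, Typ.cat _ hf hg rf rg tf tg⟩

lemma rest_rev {X : Type*} {y : X} {f : Bc (n + 2) → X} (rf : IsRest y f) : IsRest y (rev f) :=
  fun u hu => rf _ (rest_of (fun i hi => flip_ne u hi) hu flip_abs)

lemma pp_neg {a b : ℤ} (h : PP n a b) : PP n (-a) (-b) := by
  obtain ⟨f, hf, rf, tf⟩ := h
  exact ⟨rev f, adm_rev hf, rest_rev rf, Typ.rev _ hf rf tf⟩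

lemma al_e0 : al (e0 : Bc (n + 2)) = hc (n + 1) := by
  refine ext_pt (fun i => ?_) ?_
  · rw [al, pt_castSucc, hc]
    by_cases hi : i = 0
    · subst hi
      rw [e0_zero]
      simp
    · rw [e0_ne hi]
      simp [hi]
  · rw [al, pt_last, norm_e0, hc]
    simp [Fin.last]

lemma al_cc_adm : Adm (n + 2) fun u => al (cc u) :=
  adm_cc continuous_al.continuousOn (fun u _ => al_ne u) fun u hu => al_hor hu

lemma al_cc_rest : IsRest (hc (n + 1)) fun u : Bc (n + 2) => al (cc u) := by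
  intro u hu
  show al (cc u) = _
  rw [cc_rest hu, al_e0]

lemma pp_al : PP n 1 0 :=
  ⟨fun u => al (cc u), al_cc_adm, al_cc_rest,
    Typ.al.congr (FH_cc continuous_al.continuousOn (fun u _ => al_ne u) fun u hu => al_hor hu)⟩

section refl2

variable {V : Type*} [NormedAddCommGroup V] [InnerProductSpace ℝ V]

lemma rf_self {w : V} : Rf w w = -w := by
  by_cases hw : w = 0
  · simp [Rf, hw]
  · have h : ‖w‖ ≠ 0 := norm_ne_zero_iff.2 hw
    rw [Rf, real_inner_self_eq_norm_sq]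
    have : 2 * ‖w‖ ^ 2 / ‖w‖ ^ 2 = 2 := by field_simp
    rw [this]
    module

lemma rf_rf (w v : V) : Rf w (Rf w v) = v := by
  by_cases hw : w = 0
  · simp [Rf, hw]
  · have h : ‖w‖ ≠ 0 := norm_ne_zero_iff.2 hw
    have h1 : ⟪Rf w v, w⟫ = -⟪v, w⟫ := by
      rw [Rf, inner_sub_left, inner_smul_left, real_inner_self_eq_norm_sq]
      simp only [conj_trivial]
      field_simp
      ring
    conv_lhs => rw [Rf]
    rw [h1, Rf]
    module

lemma inner_rf {e w : V} (hw : ⟪e, w⟫ = 0) (v : V) : ⟪e, Rf w v⟫ = ⟪e, v⟫ := by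
  rw [Rf, inner_sub_right, inner_smul_right, hw]
  simp

end refl2

lemma hc_sc : ⟪hc (n + 1), sc n⟫ = 0 := by
  rw [hc, EuclideanSpace.inner_single_left, sc]
  have : (0 : Fin (n + 3)) ≠ Fin.castSucc 1 := by
    intro h
    have := congrArg Fin.val h
    simp at this
  simp [this]

lemma hc_sc_ne {t : ℝ} (ht : t ∈ Icc (0 : ℝ) 1) : (1 - t) • hc (n + 1) + t • sc n ≠ 0 := by
  intro h
  have h1 : ⟪hc (n + 1), (1 - t) • hc (n + 1) + t • sc n⟫ = 0 := by rw [h, inner_zero_right]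
  have h2 : ⟪sc n, (1 - t) • hc (n + 1) + t • sc n⟫ = 0 := by rw [h, inner_zero_right]
  rw [inner_add_right, inner_smul_right, inner_smul_right, hc_sc, real_inner_self_eq_norm_sq]
    at h1
  rw [inner_add_right, inner_smul_right, inner_smul_right, real_inner_comm, hc_sc,
    real_inner_self_eq_norm_sq, norm_sc] at h2
  have h3 : ‖hc (n + 1)‖ = 1 := by simp [hc]
  rw [h3] at h1
  linarith

lemma pp_be : PP n 0 1 := by
  have hA : Adm (n + 2) fun u => -al (cc u) :=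
    ⟨al_cc_adm.cont.neg, fun u => neg_ne_zero.2 (al_cc_adm.ne u), fun u hu => by
      rw [inner_neg_right, al_cc_adm.hor u hu, neg_zero]⟩
  have hT : Typ n (fun u => -al (cc u)) 0 1 := by
    refine Typ.be.congr ?_
    exact FH_cc continuous_al.neg.continuousOn (fun u _ => neg_ne_zero.2 (al_ne u)) fun u hu => by
      rw [inner_neg_right, al_hor hu, neg_zero]
  have hpath : ∀ t : ℝ, ⟪ec (n + 2), (1 - t) • hc (n + 1) + t • sc n⟫ = 0 := by
    intro t
    rw [inner_add_right, inner_smul_right, inner_smul_right, ec_hc, ec_sc]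
    simp
  refine ⟨fun u => Rf (sc n) (Rf (hc (n + 1)) (-al (cc u))), ⟨?_, ?_, ?_⟩, ?_, ?_⟩
  · exact continuous_rf continuous_const
      (continuous_rf continuous_const hA.cont fun _ => hc_ne) fun _ => sc_ne
  · exact fun u => rf_ne (rf_ne (hA.ne u))
  · intro u hu
    rw [inner_rf ec_sc, inner_rf ec_hc]
    exact hA.hor u hu
  · intro u hu
    show Rf (sc n) (Rf (hc (n + 1)) (-al (cc u))) = _
    have h1 : al (cc u) = hc (n + 1) := al_cc_rest u hu
    have h2 : Rf (hc (n + 1)) (-hc (n + 1)) = hc (n + 1) := by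
      have := rf_rf (hc (n + 1)) (hc (n + 1))
      rwa [rf_self] at this
    rw [h1, h2]
    exact rf_of_orth hc_sc
  · refine hT.congr ⟨fun p => Rf ((1 - p.1) • hc (n + 1) + p.1 • sc n)
      (Rf (hc (n + 1)) (-al (cc p.2))), ?_, ?_, ?_, ?_, ?_⟩
    · refine continuousOn_rf (by fun_prop) ?_ ?_
      · exact (continuous_rf continuous_const (hA.cont.comp continuous_snd)
          fun _ => hc_ne).continuousOn
      · rintro ⟨t, u⟩ ⟨ht, -⟩
        exact hc_sc_ne ht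
    · exact fun t _ u _ => rf_ne (rf_ne (hA.ne u))
    · intro t _ u hu
      show ⟪ec (n + 2), Rf ((1 - t) • hc (n + 1) + t • sc n) (Rf (hc (n + 1)) (-al (cc u)))⟫ = 0
      rw [inner_rf (hpath t), inner_rf ec_hc]
      exact hA.hor u hu.ge
    · intro u _
      show Rf ((1 - (0 : ℝ)) • hc (n + 1) + (0 : ℝ) • sc n) (Rf (hc (n + 1)) (-al (cc u))) = _
      rw [sub_zero, one_smul, zero_smul, add_zero, rf_rf]
    · intro u _
      show Rf ((1 - (1 : ℝ)) • hc (n + 1) + (1 : ℝ) • sc n) (Rf (hc (n + 1)) (-al (cc u))) = _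
      rw [sub_self, one_smul, zero_smul, zero_add]

lemma pp_left (a : ℤ) : PP n a 0 := by
  induction a with
  | zero => exact pp_zero
  | succ k ih => simpa using pp_add ih pp_al
  | pred k ih => simpa [sub_eq_add_neg] using pp_add ih (pp_neg pp_al)

lemma pp_right (b : ℤ) : PP n 0 b := by
  induction b with
  | zero => exact pp_zero
  | succ k ih => simpa using pp_add ih pp_be
  | pred k ih => simpa [sub_eq_add_neg] using pp_add ih (pp_neg pp_be)

theorem pp_all (a b : ℤ) : PP n a b := by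
  simpa using pp_add (pp_left a) (pp_right b)

/-- continuous nonzero normals, vertical outside the open ball, of class `c`. -/
def QQ (n : ℕ) (c : ℤ) : Prop :=
  ∃ f : Bc (n + 2) → Vc (n + 2), Continuous f ∧ (∀ u, f u ≠ 0) ∧
    (∀ u, 1 ≤ ‖u‖ → f u = ec (n + 2)) ∧ TypN n f c

lemma qq_zero : QQ n 0 :=
  ⟨fun _ => ec (n + 2), continuous_const, fun _ => ec_ne, fun _ _ => rfl, TypN.zero⟩

lemma qq_add {c c' : ℤ} (h : QQ n c) (h' : QQ n c') : QQ n (c + c') := by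
  obtain ⟨f, cf, nf, rf, tf⟩ := h
  obtain ⟨g, cg, ng, rg, tg⟩ := h'
  have hs : ∀ u : Bc (n + 2), 1 ≤ |u 1| → 1 ≤ ‖u‖ := fun u hu =>
    hu.trans (norm_le_pi_norm u 1)
  refine ⟨cat f g, continuous_cat cf cg (fun u hu => rf u (hs u hu)) fun u hu => rg u (hs u hu),
    fun u => ?_, fun u hu => ?_, TypN.cat cf cg nf ng rf rg tf tg⟩
  · unfold cat
    split_ifs with h
    · exact nf _
    · exact ng _
  · unfold cat
    split_ifs with h
    · exact rf _ (one_le_of (fun i hi => blowL_ne u hi) hu (blowL_abs h))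
    · exact rg _ (one_le_of (fun i hi => blowR_ne u hi) hu (blowR_abs h))

lemma qq_neg {c : ℤ} (h : QQ n c) : QQ n (-c) := by
  obtain ⟨f, cf, nf, rf, tf⟩ := h
  exact ⟨rev f, cf.comp continuous_flip, fun u => nf _, fun u hu =>
    rf _ (one_le_of (fun i hi => flip_ne u hi) hu flip_abs), TypN.rev cf nf rf tf⟩

lemma qq_one : QQ n 1 :=
  ⟨fun u => ga (cl u), continuous_ga.comp continuous_cl, fun u => ga_ne _,
    fun u hu => ga_sph (norm_cl hu),
    TypN.ga.congr (FN_of_eq continuous_ga.continuousOn (fun u _ => ga_ne u)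
      (fun u hu => ga_sph hu) fun u hu => by rw [cl_of_le hu])⟩

theorem qq_all (c : ℤ) : QQ n c := by
  induction c with
  | zero => exact qq_zero
  | succ k ih => exact qq_add ih qq_one
  | pred k ih => simpa [sub_eq_add_neg] using qq_add ih (qq_neg qq_one)

end gen

/-! ### the theorem -/

lemma norm_ec : ‖ec n‖ = 1 := by simp [ec]

lemma norm_hc : ‖hc n‖ = 1 := by simp [hc]

lemma FH_normalize {f : Bc (n + 2) → Vc (n + 2)} (hf : Adm (n + 2) f) :
    FH (ec (n + 2)) f (fun u => ‖f u‖⁻¹ • f u) := by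
  have hp : ∀ u, 0 < ‖f u‖⁻¹ := fun u => inv_pos.2 (norm_pos_iff.2 (hf.ne u))
  have hc : Continuous fun u => ‖f u‖⁻¹ :=
    hf.cont.norm.inv₀ fun u => (norm_pos_iff.2 (hf.ne u)).ne'
  refine ⟨fun p => ((1 - p.1) + p.1 * ‖f p.2‖⁻¹) • f p.2, ?_, ?_, ?_, ?_, ?_⟩
  · have h1 : Continuous fun p : ℝ × Bc (n + 2) => ‖f p.2‖⁻¹ := hc.comp continuous_snd
    have h2 : Continuous fun p : ℝ × Bc (n + 2) => f p.2 := hf.cont.comp continuous_snd
    exact (((continuous_const.sub continuous_fst).add (continuous_fst.mul h1)).smul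
      h2).continuousOn
  · intro t ht u _
    refine smul_ne_zero ?_ (hf.ne u)
    have h1 : 0 < (1 - t) + t * ‖f u‖⁻¹ := by
      rcases eq_or_lt_of_le ht.1 with h0 | h0
      · rw [← h0]; norm_num
      · have := mul_pos h0 (hp u)
        linarith [ht.2]
    exact h1.ne'
  · intro t _ u hu
    rw [inner_smul_right, hf.hor u hu.ge, mul_zero]
  · intro u _
    simp
  · intro u _
    simp

lemma FN_normalize {f : Bc (n + 2) → Vc (n + 2)} (cf : Continuous f) (nf : ∀ u, f u ≠ 0)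
    (rf : ∀ u, 1 ≤ ‖u‖ → f u = ec (n + 2)) :
    FN (ec (n + 2)) f (fun u => ‖f u‖⁻¹ • f u) := by
  have hp : ∀ u, 0 < ‖f u‖⁻¹ := fun u => inv_pos.2 (norm_pos_iff.2 (nf u))
  have hc : Continuous fun u => ‖f u‖⁻¹ :=
    cf.norm.inv₀ fun u => (norm_pos_iff.2 (nf u)).ne'
  refine ⟨fun p => ((1 - p.1) + p.1 * ‖f p.2‖⁻¹) • f p.2, ?_, ?_, ?_, ?_, ?_⟩
  · have h1 : Continuous fun p : ℝ × Bc (n + 2) => ‖f p.2‖⁻¹ := hc.comp continuous_snd
    have h2 : Continuous fun p : ℝ × Bc (n + 2) => f p.2 := cf.comp continuous_snd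
    exact (((continuous_const.sub continuous_fst).add (continuous_fst.mul h1)).smul
      h2).continuousOn
  · intro t ht u _
    refine smul_ne_zero ?_ (nf u)
    have h1 : 0 < (1 - t) + t * ‖f u‖⁻¹ := by
      rcases eq_or_lt_of_le ht.1 with h0 | h0
      · rw [← h0]; norm_num
      · have := mul_pos h0 (hp u)
        linarith [ht.2]
    exact h1.ne'
  · intro t _ u hu
    show ((1 - t) + t * ‖f u‖⁻¹) • f u = _
    rw [rf u hu.ge, norm_ec]
    simp
  · intro u _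
    simp
  · intro u _
    simp

lemma refl_eq_rf {V : Type*} [NormedAddCommGroup V] [InnerProductSpace ℝ V] {w : V}
    (hw : ‖w‖ = 1) (v : V) : NF_808.refl w v = Rf w v := by
  rw [NF_808.refl, Rf, hw, one_pow, div_one]

/-- **T2-3**. -/
theorem pathProp (n : ℕ) : PathProp n := by
  intro a b c
  obtain ⟨f, hf, rf, tf⟩ := pp_all (n := n) a b
  obtain ⟨g, cg, ng, rg, tg⟩ := qq_all (n := n) c
  have h1 : (1 : ℝ) ∈ Icc (0 : ℝ) 1 := right_mem_Icc.2 zero_le_one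
  -- normalise
  have cf1 : Continuous fun u => ‖f u‖⁻¹ • f u :=
    (hf.cont.norm.inv₀ fun u => (norm_pos_iff.2 (hf.ne u)).ne').smul hf.cont
  have nf1 : ∀ u, ‖‖f u‖⁻¹ • f u‖ = 1 := fun u => by
    rw [norm_smul, norm_inv, norm_norm, inv_mul_cancel₀ (norm_ne_zero_iff.2 (hf.ne u))]
  have cg1 : Continuous fun u => ‖g u‖⁻¹ • g u :=
    (cg.norm.inv₀ fun u => (norm_pos_iff.2 (ng u)).ne').smul cg
  have ng1 : ∀ u, ‖‖g u‖⁻¹ • g u‖ = 1 := fun u => by
    rw [norm_smul, norm_inv, norm_norm, inv_mul_cancel₀ (norm_ne_zero_iff.2 (ng u))]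
  have wf1 : ∀ v : Bc (n + 2), ‖v‖ = 1 → ⟪ec (n + 2), ‖f v‖⁻¹ • f v⟫ = 0 := fun v hv => by
    rw [inner_smul_right, hf.hor v hv.ge, mul_zero]
  have rf1 : ∀ v : Bc (n + 2), RestAt v → ‖f v‖⁻¹ • f v = hc (n + 1) := fun v hv => by
    rw [rf v hv, norm_hc, inv_one, one_smul]
  have wg1 : ∀ v : Bc (n + 2), ‖v‖ = 1 → ‖g v‖⁻¹ • g v = ec (n + 2) := fun v hv => by
    rw [rg v hv.ge, norm_ec, inv_one, one_smul]
  obtain ⟨H, L, a1, a2, a3, a4, a5, a6, a7⟩ := exists_avg cf1 nf1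
  obtain ⟨J, L', b1, b2, b3, b4, b5, b6, b7⟩ := exists_avg cg1 ng1
  have emb : Continuous fun u : Bc (n + 2) => ((1 : ℝ), u) := by fun_prop
  have tH : Typ n (fun u => H (1, u)) a b := by
    refine (tf.congr (FH_normalize hf)).congr ⟨H, a1.mono (prod_mono le_rfl (subset_univ _)),
      ?_, ?_, a6, fun u _ => rfl⟩
    · intro t ht u _ h0
      have := a2 t ht u
      rw [h0, norm_zero] at this
      exact zero_ne_one this
    · exact fun t ht u hu => a3 t ht _ wf1 u hu.ge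
  have tJ : TypN n (fun u => J (1, u)) c := by
    refine (tg.congr (FN_normalize cg ng rg)).congr
      ⟨J, b1.mono (prod_mono le_rfl (subset_univ _)), ?_, ?_, b6, fun u _ => rfl⟩
    · intro t ht u _ h0
      have := b2 t ht u
      rw [h0, norm_zero] at this
      exact zero_ne_one this
    · exact fun t ht u hu => b4 t ht _ wg1 u hu.ge
  refine ⟨⟨fun u => H (1, u), fun u => J (1, u),
    a1.comp_continuous emb fun u => ⟨h1, mem_univ _⟩,
    b1.comp_continuous emb fun u => ⟨h1, mem_univ _⟩,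
    fun u => a2 1 h1 u, fun u => b2 1 h1 u, fun u hu => a5 1 h1 _ rf1 u hu,
    fun u hu => b4 1 h1 _ wg1 u (rest_norm hu), fun u hu => a3 1 h1 _ wf1 u hu,
    fun u hu => b4 1 h1 _ wg1 u hu⟩, tH, tJ, ?_⟩
  have h2 := typN_rf tH tJ
  have h3 : (fun u => NF_808.refl (H (1, u)) (J (1, u))) = fun u : Bc (n + 2) =>
      Rf (H (1, u)) (J (1, u)) := by
    funext u
    exact refl_eq_rf (a2 1 h1 u) _
  show TypN n (fun u => NF_808.refl (H (1, u)) (J (1, u))) (a + b - c)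
  rw [h3]
  exact h2

end

end Crest.Agent.R267.Path_224
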