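import Crest.Agent.R267.PeelC_966

/-!
# PeelJ and Peel0 of LM_808 (row 267, LEMMA M): proofs
-/

set_option autoImplicit false

namespace Crest.Agent.R267.Peel_966

open Set Metric
open scoped RealInnerProductSpace
open Crest.Agent.R267.GS_808 Crest.Agent.R267.DraftB_808 Crest.Agent.R267.NF_808
open Crest.Agent.R267.LM_808
open Crest.Agent.R267 Crest.Agent.R267.PeelA_966 Crest.Agent.R267.PeelB_966
open Crest.Agent.R267.PeelC_966

variable {n m : ℕ} {i j : Fin m}

/-! ### constants -/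

section const

variable {D : NFD n m i j} {q : Rad}

/-- scale. -/
noncomputable def CK (q : Rad) : ℝ := 32 / kap q

lemma kap_pos (hP : Par D q) : 0 < kap q := by have := hP.kap_gt; linarith

lemma CK_pos (hP : Par D q) : 0 < CK q := div_pos (by norm_num) (kap_pos hP)

lemma CK_mul (hP : Par D q) : CK q * kap q = 32 := by
  unfold CK; rw [div_mul_cancel₀ _ (kap_pos hP).ne']

lemma CK_lt (hP : Par D q) : CK q < 1 / 1000 := by
  unfold CK
  rw [div_lt_div_iff₀ (kap_pos hP) (by norm_num)]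
  have := hP.kap_gt
  linarith

lemma log_rho_lt (hP : Par D q) : Real.log q.rho + 1 / 5 < Real.log (1 / 4) := by
  have h1 : Real.log q.rho < Real.log (1 / 1000) := Real.log_lt_log hP.rho_pos hP.rho_lt
  have h2 : Real.log (1 / 4) - Real.log (1 / 1000) = Real.log 250 := by
    rw [← Real.log_div (by norm_num) (by norm_num)]; norm_num
  have h3 : 1 - (250 : ℝ)⁻¹ ≤ Real.log 250 := Real.one_sub_inv_le_log_of_pos (by norm_num)
  norm_num at h3
  linarith

lemma R1_pos (hP : Par D q) : 0 < q.R1 := by have := hP.R1_gt; linarith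

lemma R_gt (hP : Par D q) : q.R1 < q.R := by
  rw [← Real.log_lt_log_iff (R1_pos hP) hP.R_pos, hP.log_R]
  have := kap_pos hP
  linarith

lemma log_45 (hP : Par D q) : Real.log (4 / 5 * q.R1) ≤ Real.log q.R1 - 1 / 5 := by
  rw [Real.log_mul (by norm_num) (R1_pos hP).ne']
  have := Real.log_le_sub_one_of_pos (show (0 : ℝ) < 4 / 5 by norm_num)
  linarith

lemma lam_eq (q : Rad) (s : ℝ) : lam q.rho q.R1 s = Real.log q.rho - kap q * (s - 1 / 4) := by
  unfold lam kap; ring

lemma lam_eq' (q : Rad) (s : ℝ) : lam q.rho q.R1 s = Real.log q.R1 - kap q * (s + 1 / 4) := by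
  unfold lam kap; ring

end const

/-! ### the link in the quadrants -/

section quadrant

variable {D : NFD n m i j} {q : Rad}

lemma inD_iff (D : NFD n m i j) (q : Rad) (ell : ℝ → ℝ) {u : Bc (n + 2)} (v : Vc (n + 2))
    (h : 1 ≤ |16 * u 1 - 1|) :
    inD D q ell (u, v) ↔ In q (Real.log ‖v‖ - ell (u 1)) ((fr D u).symm v) := by
  unfold inD In
  rw [w1_eq D h, LinearIsometryEquiv.norm_map]
  have : ⟪v, fr D u (hc (n + 1))⟫ = ⟪(fr D u).symm v, hc (n + 1)⟫ := by
    rw [← (fr D u).inner_map_map ((fr D u).symm v), LinearIsometryEquiv.apply_symm_apply]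
  rw [this]

lemma inner_fr (D : NFD n m i j) (u : Bc (n + 2)) (v : Vc (n + 2)) :
    ⟪fr D u (ec (n + 2)), v⟫ = ⟪ec (n + 2), (fr D u).symm v⟫ := by
  rw [← (fr D u).inner_map_map (ec (n + 2)), LinearIsometryEquiv.apply_symm_apply]

lemma onD_iff (D : NFD n m i j) (q : Rad) (ell : ℝ → ℝ) {u : Bc (n + 2)} (v : Vc (n + 2))
    (h : 1 ≤ |16 * u 1 - 1|) :
    onD D q ell (u, v) ↔ On q (Real.log ‖v‖ - ell (u 1)) ((fr D u).symm v) := by
  unfold onD On
  rw [w1_eq D h, M1_eq D h, LinearIsometryEquiv.norm_map]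
  have h1 : ⟪v, fr D u (hc (n + 1))⟫ = ⟪(fr D u).symm v, hc (n + 1)⟫ := by
    rw [← (fr D u).inner_map_map ((fr D u).symm v), LinearIsometryEquiv.apply_symm_apply]
  have h2 : ⟪fr D u (ec (n + 2)), fr D u (hc (n + 1))⟫ = 0 := by
    rw [(fr D u).inner_map_map, inner_ec_hc]
  rw [h1, h2, mul_zero]
  show _ ∧ ⟪fr D u (ec (n + 2)), v⟫ = 0 ↔ _
  rw [inner_fr]

/-- the link near the strand `j` over the right half. -/
lemma KE_J (hP : Par D q) (ell : ℝ → ℝ) {u : Bc (n + 2)} {v : Vc (n + 2)} (hs : 1 / 4 < u 1)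
    (hv : v ≠ 0) (hv4 : ‖v‖ < 1 / 4) :
    (u, v) ∈ KE D q ell ↔
      CC q ‖us u 0‖ (mc (zc 1 (CK q) (Real.log q.r) (u 1, Real.log ‖v‖)))
        (Real.log ‖v‖ - ell (u 1)) ((fr D u).symm v) := by
  have hv' : 0 < ‖v‖ := norm_pos_iff.2 hv
  have hC := CK_pos hP
  have h16 : 1 ≤ |16 * u 1 - 1| := by
    rw [abs_of_pos (by linarith)]; linarith
  have hin := inD_iff D q ell v h16
  have hon := onD_iff D q ell v h16
  have hr := hP.r_pos
  have hR : ‖v‖ < q.R := by
    have := R_gt hP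
    have := hP.R1_gt
    linarith
  have hY : q.r ≤ ‖v‖ ↔ 0 ≤ 1 * CK q * (Real.log ‖v‖ - Real.log q.r) := by
    rw [one_mul, mul_nonneg_iff_of_pos_left hC, sub_nonneg, Real.log_le_log_iff hr hv']
  have hY0 : ‖v‖ = q.r ↔ 1 * CK q * (Real.log ‖v‖ - Real.log q.r) = 0 := by
    rw [one_mul, mul_eq_zero, or_iff_right hC.ne', sub_eq_zero]
    exact ⟨fun h => by rw [h], fun h => Real.log_injOn_pos hv' hr h⟩
  have hN : ‖u‖ = max ‖us u 0‖ (u 1) := by
    rw [norm_eq_max, abs_of_pos (by linarith)]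
  have hfar : ∀ k, k ≠ j → q.r < ‖v - D.y k u‖ := by
    intro k hk
    have h1 := D.far k u hk
    have h2 := norm_sub_norm_le (D.y k u) v
    rw [norm_sub_rev] at h2
    have h3 := hP.r_lt
    linarith
  have he : ‖u‖ = 1 → (⟪ec (n + 2), v⟫ = 0 ↔ ⟪ec (n + 2), (fr D u).symm v⟫ = 0) := by
    intro h
    rw [← inner_fr, fr_wall D h.ge]
  have hRf : ⟪D.F.Rf u (ec (n + 2)), v⟫ = ⟪ec (n + 2), (fr D u).symm v⟫ := by
    rw [← inner_fr, fr_nonneg D (by linarith)]
  have hM : 0 ≤ mc (zc 1 (CK q) (Real.log q.r) (u 1, Real.log ‖v‖)) ↔ u 1 ≤ 1 ∧ q.r ≤ ‖v‖ := by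
    unfold mc zc
    rw [le_min_iff, ← hY]
    simp only [one_mul, sub_nonneg]
  unfold CC
  rw [hM]
  constructor
  · rintro (h | h | h | ⟨k, h⟩ | h)
    · obtain ⟨a1, a2, a3, a4, a5, a6⟩ := h
      simp only at a1 a2 a3 a4 a6
      have hN1 : ‖us u 0‖ ≤ 1 := by rw [← a2, hN]; exact le_max_left _ _
      have hs1 : u 1 ≤ 1 := by rw [← a2, hN]; exact le_max_right _ _
      refine ⟨hN1, ⟨hs1, a3⟩, Or.inl ⟨(he a2).1 a1, fun h => a6 (hin.2 h), ?_⟩⟩
      rcases hN1.lt_or_eq with h | h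
      · right
        have : u 1 = 1 := by
          by_contra hne
          have : u 1 < 1 := lt_of_le_of_ne hs1 hne
          have : ‖u‖ < 1 := by rw [hN]; exact max_lt h this
          linarith
        unfold mc zc
        simp only [this]
        rw [min_eq_left]
        · ring
        · rw [← sub_nonneg]
          have := hY.1 a3
          linarith
      · exact Or.inl h
    · exact absurd h.2.2.1 hR.ne
    · obtain ⟨a1, a2, a3, a4⟩ := h
      simp only at a1 a2 a3
      have hN1 : ‖us u 0‖ ≤ 1 := (le_max_left _ _).trans (hN ▸ a1)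
      have hs1 : u 1 ≤ 1 := (le_max_right _ _).trans (hN ▸ a1)
      refine ⟨hN1, ⟨hs1, a2.ge⟩, Or.inl ⟨hRf ▸ a3, fun h => a4 (hin.2 h), Or.inr ?_⟩⟩
      unfold mc zc
      simp only
      rw [hY0.1 a2, min_eq_right]
      linarith
    · exact absurd h.2.2.2.1 (hfar k h.2.1).ne'
    · obtain ⟨a1, a2, a3, a4⟩ := h
      simp only at a1 a2 a3
      exact ⟨(le_max_left _ _).trans (hN ▸ a1), ⟨(le_max_right _ _).trans (hN ▸ a1), a2⟩,
        Or.inr (hon.1 a4)⟩
  · rintro ⟨a1, ⟨a2, a3⟩, h⟩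
    have hu : ‖u‖ ≤ 1 := by rw [hN]; exact max_le a1 a2
    rcases h with ⟨b1, b2, b3⟩ | h
    · have hwall : ‖u‖ = 1 → (u, v) ∈ KE D q ell := fun h => by
        refine Or.inl ⟨(he h).2 b1, h, a3, hR.le, fun k _ hk => (hfar k hk).le, ?_⟩
        exact fun h => b2 (hin.1 h)
      rcases b3 with b3 | b3
      · exact hwall (le_antisymm hu (by rw [hN, b3]; exact le_max_left _ _))
      · unfold mc zc at b3
        rcases min_choice (1 - 1 * u 1) (1 * CK q * (Real.log ‖v‖ - Real.log q.r)) with h | h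
        · rw [h] at b3
          have : u 1 = 1 := by linarith
          exact hwall (le_antisymm hu (by rw [hN, this]; exact le_max_right _ _))
        · rw [h] at b3
          refine Or.inr (Or.inr (Or.inl ⟨hu, hY0.2 b3, ?_, fun h => b2 (hin.1 h)⟩))
          show ⟪D.F.Rf u (ec (n + 2)), v⟫ = 0
          rw [hRf, b1]
    · exact Or.inr (Or.inr (Or.inr (Or.inr ⟨hu, a3, hR.le, hon.2 h⟩)))

/-- the link near the plate over the left half. -/
lemma KE_0 (hP : Par D q) (ell : ℝ → ℝ) {u : Bc (n + 2)} {v : Vc (n + 2)} (hs : u 1 < -(1 / 4))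
    (hv4 : 4 / 5 * q.R1 < ‖v‖) :
    (u, v) ∈ KE D q ell ↔
      CC q ‖us u 0‖ (mc (zc (-1) (CK q) (Real.log q.R) (u 1, Real.log ‖v‖)))
        (Real.log ‖v‖ - ell (u 1)) ((fr D u).symm v) := by
  have hR1 := hP.R1_gt
  have hv' : 0 < ‖v‖ := by linarith
  have hC := CK_pos hP
  have h16 : 1 ≤ |16 * u 1 - 1| := by
    rw [abs_of_neg (by linarith)]; linarith
  have hin := inD_iff D q ell v h16
  have hon := onD_iff D q ell v h16
  have hr := hP.r_pos
  have hRp := hP.R_pos
  have hrv : q.r < ‖v‖ := by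
    have := hP.r_lt
    linarith
  have hY : ‖v‖ ≤ q.R ↔ 0 ≤ -1 * CK q * (Real.log ‖v‖ - Real.log q.R) := by
    rw [show -1 * CK q * (Real.log ‖v‖ - Real.log q.R) =
      CK q * (Real.log q.R - Real.log ‖v‖) by ring, mul_nonneg_iff_of_pos_left hC, sub_nonneg,
      Real.log_le_log_iff hv' hRp]
  have hY0 : ‖v‖ = q.R ↔ -1 * CK q * (Real.log ‖v‖ - Real.log q.R) = 0 := by
    rw [show -1 * CK q * (Real.log ‖v‖ - Real.log q.R) =
      -CK q * (Real.log ‖v‖ - Real.log q.R) by ring, mul_eq_zero, or_iff_right (by linarith),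
      sub_eq_zero]
    exact ⟨fun h => by rw [h], fun h => Real.log_injOn_pos hv' hRp h⟩
  have hN : ‖u‖ = max ‖us u 0‖ (-(u 1)) := by
    rw [norm_eq_max, abs_of_neg (by linarith)]
  have hfar : ‖u‖ ≤ 1 → ∀ k, k ≠ i → q.r < ‖v - D.y k u‖ := by
    intro hu k hk
    have h1 := hP.y_lt k u hk hu
    have h2 := norm_sub_norm_le v (D.y k u)
    have h3 := hP.r_lt
    linarith
  have he : ⟪ec (n + 2), v⟫ = ⟪ec (n + 2), (fr D u).symm v⟫ := by
    rw [fr_neg D (by linarith)]; rfl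
  have hM : 0 ≤ mc (zc (-1) (CK q) (Real.log q.R) (u 1, Real.log ‖v‖)) ↔
      -(u 1) ≤ 1 ∧ ‖v‖ ≤ q.R := by
    unfold mc zc
    rw [le_min_iff, ← hY]
    simp only [neg_mul, one_mul, sub_neg_eq_add]
    constructor
    · rintro ⟨a, b⟩; exact ⟨by linarith, b⟩
    · rintro ⟨a, b⟩; exact ⟨by linarith, b⟩
  unfold CC
  rw [hM]
  constructor
  · rintro (h | h | h | ⟨k, h⟩ | h)
    · obtain ⟨a1, a2, a3, a4, a5, a6⟩ := h
      simp only at a1 a2 a3 a4 a6
      have hN1 : ‖us u 0‖ ≤ 1 := by rw [← a2, hN]; exact le_max_left _ _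
      have hs1 : -(u 1) ≤ 1 := by rw [← a2, hN]; exact le_max_right _ _
      refine ⟨hN1, ⟨hs1, a4⟩, Or.inl ⟨he ▸ a1, fun h => a6 (hin.2 h), ?_⟩⟩
      rcases hN1.lt_or_eq with h | h
      · right
        have : u 1 = -1 := by
          by_contra hne
          have : -(u 1) < 1 := lt_of_le_of_ne hs1 (fun h => hne (by linarith))
          have : ‖u‖ < 1 := by rw [hN]; exact max_lt h this
          linarith
        unfold mc zc
        simp only [this]
        rw [min_eq_left]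
        · ring
        · rw [← sub_nonneg]
          have := hY.1 a4
          linarith
      · exact Or.inl h
    · obtain ⟨a1, a2, a3, a4⟩ := h
      simp only at a1 a2 a3
      have hN1 : ‖us u 0‖ ≤ 1 := (le_max_left _ _).trans (hN ▸ a2)
      have hs1 : -(u 1) ≤ 1 := (le_max_right _ _).trans (hN ▸ a2)
      refine ⟨hN1, ⟨hs1, a3.le⟩, Or.inl ⟨he ▸ a1, fun h => a4 (hin.2 h), Or.inr ?_⟩⟩
      unfold mc zc
      simp only
      rw [hY0.1 a3, min_eq_right]
      linarith
    · exact absurd h.2.1 hrv.ne'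
    · exact absurd h.2.2.2.1 (hfar h.2.2.1 k h.1).ne'
    · obtain ⟨a1, a2, a3, a4⟩ := h
      simp only at a1 a2 a3
      exact ⟨(le_max_left _ _).trans (hN ▸ a1), ⟨(le_max_right _ _).trans (hN ▸ a1), a3⟩,
        Or.inr (hon.1 a4)⟩
  · rintro ⟨a1, ⟨a2, a3⟩, h⟩
    have hu : ‖u‖ ≤ 1 := by rw [hN]; exact max_le a1 a2
    rcases h with ⟨b1, b2, b3⟩ | h
    · have hwall : ‖u‖ = 1 → (u, v) ∈ KE D q ell := fun h => by
        refine Or.inl ⟨he ▸ b1, h, hrv.le, a3, fun k hk _ => (hfar hu k hk).le, ?_⟩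
        exact fun h => b2 (hin.1 h)
      rcases b3 with b3 | b3
      · exact hwall (le_antisymm hu (by rw [hN, b3]; exact le_max_left _ _))
      · unfold mc zc at b3
        rcases min_choice (1 - -1 * u 1) (-1 * CK q * (Real.log ‖v‖ - Real.log q.R)) with h | h
        · rw [h] at b3
          have : -(u 1) = 1 := by linarith
          exact hwall (le_antisymm hu (by rw [hN, this]; exact le_max_right _ _))
        · rw [h] at b3
          refine Or.inr (Or.inl ⟨?_, hu, hY0.2 b3, fun h => b2 (hin.1 h)⟩)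
          show ⟪ec (n + 2), v⟫ = 0
          rw [he, b1]
    · exact Or.inr (Or.inr (Or.inr (Or.inr ⟨hu, hrv.le, a3, hon.2 h⟩)))

end quadrant

/-! ### PeelJ -/

section peelJ

variable {D : NFD n m i j} {q : Rad}

/-- strip half width. -/
noncomputable def wK (q : Rad) : ℝ := CK q / 10

lemma wK_pos (hP : Par D q) : 0 < wK q := div_pos (CK_pos hP) (by norm_num)

lemma wK_le (hP : Par D q) : wK q ≤ 1 / 8 := by
  unfold wK; have := CK_lt hP; linarith

/-- `σ C (t - a) ≤ -1/8` for `t ≤ a - 1 / (8 C)` etc. -/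
lemma J_t0 (hP : Par D q) (a t : ℝ) (h : t ≤ a - kap q / 256) :
    2 + 2 * wK q ≤ 1 * CK q * (t - a) ∨ 1 * CK q * (t - a) ≤ -(1 / 8) := by
  right
  have h1 := CK_mul hP
  have h2 := CK_pos hP
  have h3 : CK q * (t - a) ≤ CK q * (-(kap q / 256)) :=
    mul_le_mul_of_nonneg_left (by linarith) h2.le
  nlinarith

lemma J_t1 (hP : Par D q) (a t : ℝ) (h : a + (kap q / 16 + 1 / 5) ≤ t) :
    2 + 2 * wK q ≤ 1 * CK q * (t - a) ∨ 1 * CK q * (t - a) ≤ -(1 / 8) := by
  left
  have h1 := CK_mul hP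
  have h2 := CK_pos hP
  have h3 : CK q * (kap q / 16 + 1 / 5) ≤ CK q * (t - a) :=
    mul_le_mul_of_nonneg_left (by linarith) h2.le
  unfold wK
  nlinarith

lemma O_t0 (hP : Par D q) (a t : ℝ) (h : t ≤ a - (kap q / 16 + 1 / 5)) :
    2 + 2 * wK q ≤ -1 * CK q * (t - a) ∨ -1 * CK q * (t - a) ≤ -(1 / 8) := by
  left
  have h1 := CK_mul hP
  have h2 := CK_pos hP
  have h3 : CK q * (kap q / 16 + 1 / 5) ≤ CK q * (a - t) :=
    mul_le_mul_of_nonneg_left (by linarith) h2.le
  unfold wK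
  nlinarith

lemma O_t1 (hP : Par D q) (a t : ℝ) (h : a + kap q / 256 ≤ t) :
    2 + 2 * wK q ≤ -1 * CK q * (t - a) ∨ -1 * CK q * (t - a) ≤ -(1 / 8) := by
  right
  have h1 := CK_mul hP
  have h2 := CK_pos hP
  have h3 : CK q * (kap q / 256) ≤ CK q * (t - a) :=
    mul_le_mul_of_nonneg_left (by linarith) h2.le
  nlinarith

/-- planar family near the strand `j`. -/
noncomputable def PJ (hP : Par D q) : PlH :=
  mkP 1 (CK q) (Real.log q.r) (wK q) (Real.log q.r - kap q / 256)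
    (Real.log q.r + (kap q / 16 + 1 / 5)) (by norm_num) (CK_pos hP).ne' (wK_pos hP) (wK_le hP)
    (fun t h => J_t0 hP _ t h) (fun t h => J_t1 hP _ t h)

/-- planar family near the plate. -/
noncomputable def P0 (hP : Par D q) : PlH :=
  mkP (-1) (CK q) (Real.log q.R) (wK q) (Real.log q.R - (kap q / 16 + 1 / 5))
    (Real.log q.R + kap q / 256) (by norm_num) (CK_pos hP).ne' (wK_pos hP) (wK_le hP)
    (fun t h => O_t0 hP _ t h) (fun t h => O_t1 hP _ t h)

lemma PJ_f (hP : Par D q) (l : ℝ) (z : ℝ × ℝ) : (PJ hP).f l z =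
    zi 1 (CK q) (Real.log q.r) (Phi (wK q) l (zc 1 (CK q) (Real.log q.r) z)) := rfl

lemma P0_f (hP : Par D q) (l : ℝ) (z : ℝ × ℝ) : (P0 hP).f l z =
    zi (-1) (CK q) (Real.log q.R) (Phi (wK q) l (zc (-1) (CK q) (Real.log q.R) z)) := rfl

lemma zc_PJ (hP : Par D q) (l : ℝ) (z : ℝ × ℝ) :
    zc 1 (CK q) (Real.log q.r) ((PJ hP).f l z) =
      Phi (wK q) l (zc 1 (CK q) (Real.log q.r) z) := by
  rw [PJ_f, zc_zi (by norm_num) (CK_pos hP).ne']

lemma zc_P0 (hP : Par D q) (l : ℝ) (z : ℝ × ℝ) :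
    zc (-1) (CK q) (Real.log q.R) ((P0 hP).f l z) =
      Phi (wK q) l (zc (-1) (CK q) (Real.log q.R) z) := by
  rw [P0_f, zc_zi (by norm_num) (CK_pos hP).ne']

lemma PJ_out (hP : Par D q) {l : ℝ} {z : ℝ × ℝ} (h : z.1 ≤ 1 / 4) : (PJ hP).f l z = z := by
  rw [PJ_f, Phi_out (wK_pos hP) (wK_le hP) (Or.inr (Or.inl ?_)),
    zi_zc (by norm_num) (CK_pos hP).ne']
  unfold zc; simp only; linarith

lemma P0_out (hP : Par D q) {l : ℝ} {z : ℝ × ℝ} (h : -(1 / 4) ≤ z.1) : (P0 hP).f l z = z := by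
  rw [P0_f, Phi_out (wK_pos hP) (wK_le hP) (Or.inr (Or.inl ?_)),
    zi_zc (by norm_num) (CK_pos hP).ne']
  unfold zc; simp only; linarith

lemma PJ_out_t (hP : Par D q) {l : ℝ} {z : ℝ × ℝ} (h : Real.log (1 / 4) ≤ z.2) :
    (PJ hP).f l z = z := by
  apply (PJ hP).out
  refine Or.inr (Or.inr (Or.inl ?_))
  show Real.log q.r + (kap q / 16 + 1 / 5) ≤ z.2
  have := hP.log_r
  have := log_rho_lt hP
  linarith

lemma P0_out_t (hP : Par D q) {l : ℝ} {z : ℝ × ℝ} (h : z.2 ≤ Real.log (4 / 5 * q.R1)) :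
    (P0 hP).f l z = z := by
  apply (P0 hP).out
  refine Or.inr (Or.inl ?_)
  show z.2 ≤ Real.log q.R - (kap q / 16 + 1 / 5)
  have := hP.log_R
  have := log_45 hP
  linarith

/-- an image point outside the support is fixed. -/
lemma fix_of (P : PlH) {l : ℝ} {z : ℝ × ℝ} (h : P.f l (P.f l z) = P.f l z) : P.f l z = z := by
  have := congrArg (P.g l) h
  rwa [P.gf, P.gf] at this

/-- **the strip coordinate near `j`.** -/
lemma strip_J (hP : Par D q) {z : ℝ × ℝ} (h1 : 1 / 4 < z.1)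
    (h2 : 0 ≤ mc (zc 1 (CK q) (Real.log q.r) z)) :
    (((PJ hP).f 1 z).2 - lamc q.rho q.R1 (1 / 4) (3 / 8) ((PJ hP).f 1 z).1 =
      z.2 - lamc q.rho q.R1 (1 / 4) (1 / 4) z.1) ∨
    (1 / 10 ≤ |z.2 - lamc q.rho q.R1 (1 / 4) (1 / 4) z.1| ∧
      1 / 10 ≤ |((PJ hP).f 1 z).2 - lamc q.rho q.R1 (1 / 4) (3 / 8) ((PJ hP).f 1 z).1|) := by
  set z' := (PJ hP).f 1 z with hz'
  have hk := kap_pos hP
  have hC := CK_pos hP
  have hCk := CK_mul hP
  have hlr := hP.log_r
  have hlog : lam q.rho q.R1 (1 / 4) = Real.log q.rho := by rw [lam_eq]; ring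
  have e1 : lamc q.rho q.R1 (1 / 4) (1 / 4) z.1 = Real.log q.rho := by
    unfold lamc
    rw [min_eq_left h1.le, max_eq_right (by norm_num), hlog]
  have hs' : 1 / 4 < z'.1 := by
    by_contra hc
    push Not at hc
    have h3 := PJ_out hP (l := 1) hc
    have h4 := fix_of (PJ hP) h3
    rw [← hz'] at h4
    rw [h4] at hc
    linarith
  have hm : mc (zc 1 (CK q) (Real.log q.r) z') = mc (zc 1 (CK q) (Real.log q.r) z) := by
    rw [hz', zc_PJ, mc_Phi]
  have ht' : 0 ≤ CK q * (z'.2 - Real.log q.r) := by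
    have h3 : 0 ≤ mc (zc 1 (CK q) (Real.log q.r) z') := by rw [hm]; exact h2
    have h4 := h3.trans (min_le_right _ _)
    unfold zc at h4
    simpa using h4
  have ht'' : 0 ≤ z'.2 - Real.log q.r := nonneg_of_mul_nonneg_right ht' hC
  have k1e : k1 (zc 1 (CK q) (Real.log q.r) z) = CK q * (z.2 - Real.log q.rho) := by
    unfold k1 zc
    simp only
    rw [max_eq_left (by linarith)]
    rw [hlr]
    linear_combination (1 / 16) * hCk
  have k2e : k2 (zc 1 (CK q) (Real.log q.r) z') = CK q * (z'.2 - lam q.rho q.R1 z'.1) := by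
    unfold k2 zc
    simp only
    rw [lam_eq, hlr]
    linear_combination (5 / 16 - z'.1) * hCk
  have hst := strip (w := wK q) (wK_pos hP) (wK_le hP) h2
  rw [← zc_PJ hP, ← hz', k1e, k2e, e1.symm] at hst
  have hcase : ∀ x : ℝ, |x| < 1 / 10 → |CK q * x| ≤ wK q := by
    intro x hx
    rw [abs_mul, abs_of_pos hC]
    unfold wK
    nlinarith
  rcases le_or_gt z'.1 (3 / 8) with h3 | h3
  · have e2 : lamc q.rho q.R1 (1 / 4) (3 / 8) z'.1 = lam q.rho q.R1 z'.1 := by
      unfold lamc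
      rw [min_eq_right h3, max_eq_right (by linarith)]
    rw [e2]
    by_cases h4 : |z.2 - lamc q.rho q.R1 (1 / 4) (1 / 4) z.1| < 1 / 10
    · left
      have := hst (Or.inl (hcase _ h4))
      exact mul_left_cancel₀ hC.ne' this
    · by_cases h5 : |z'.2 - lam q.rho q.R1 z'.1| < 1 / 10
      · left
        have := hst (Or.inr (hcase _ h5))
        exact mul_left_cancel₀ hC.ne' this
      · right
        exact ⟨not_lt.1 h4, not_lt.1 h5⟩
  · right
    have e2 : lamc q.rho q.R1 (1 / 4) (3 / 8) z'.1 = Real.log q.r - kap q / 16 := by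
      unfold lamc
      rw [min_eq_left h3.le, max_eq_right (by norm_num), lam_eq, hlr]
      ring
    have e3 : lam q.rho q.R1 z'.1 ≤ Real.log q.r - kap q / 16 := by
      rw [lam_eq, hlr]
      nlinarith
    have hkg := hP.kap_gt
    constructor
    · by_contra h4
      push Not at h4
      have := mul_left_cancel₀ hC.ne' (hst (Or.inl (hcase _ h4)))
      rw [← this, abs_lt] at h4
      linarith
    · rw [e2, abs_of_nonneg (by linarith)]
      linarith

/-- **the strip coordinate near the plate.** -/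
lemma strip_0 (hP : Par D q) {z : ℝ × ℝ} (h1 : z.1 < -(1 / 4))
    (h2 : 0 ≤ mc (zc (-1) (CK q) (Real.log q.R) z)) :
    (((P0 hP).f 1 z).2 - lamc q.rho q.R1 (3 / 8) (3 / 8) ((P0 hP).f 1 z).1 =
      z.2 - lamc q.rho q.R1 (1 / 4) (3 / 8) z.1) ∨
    (1 / 10 ≤ |z.2 - lamc q.rho q.R1 (1 / 4) (3 / 8) z.1| ∧
      1 / 10 ≤ |((P0 hP).f 1 z).2 - lamc q.rho q.R1 (3 / 8) (3 / 8) ((P0 hP).f 1 z).1|) := by
  set z' := (P0 hP).f 1 z with hz'
  have hk := kap_pos hP
  have hC := CK_pos hP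
  have hCk := CK_mul hP
  have hlR := hP.log_R
  have hlog : lam q.rho q.R1 (-(1 / 4)) = Real.log q.R1 := by rw [lam_eq']; ring
  have e1 : lamc q.rho q.R1 (1 / 4) (3 / 8) z.1 = Real.log q.R1 := by
    unfold lamc
    rw [min_eq_right (by linarith), max_eq_left h1.le, hlog]
  have hs' : z'.1 < -(1 / 4) := by
    by_contra hc
    push Not at hc
    have h3 := P0_out hP (l := 1) hc
    have h4 := fix_of (P0 hP) h3
    rw [← hz'] at h4
    rw [h4] at hc
    linarith
  have hm : mc (zc (-1) (CK q) (Real.log q.R) z') = mc (zc (-1) (CK q) (Real.log q.R) z) := by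
    rw [hz', zc_P0, mc_Phi]
  have ht' : 0 ≤ CK q * (Real.log q.R - z'.2) := by
    have h3 : 0 ≤ mc (zc (-1) (CK q) (Real.log q.R) z') := by rw [hm]; exact h2
    have h4 := h3.trans (min_le_right _ _)
    unfold zc at h4
    simp only at h4
    linarith
  have ht'' : 0 ≤ Real.log q.R - z'.2 := nonneg_of_mul_nonneg_right ht' hC
  have k1e : k1 (zc (-1) (CK q) (Real.log q.R) z) = -CK q * (z.2 - Real.log q.R1) := by
    unfold k1 zc
    simp only
    rw [max_eq_left (by linarith)]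
    rw [hlR]
    linear_combination (1 / 16) * hCk
  have k2e : k2 (zc (-1) (CK q) (Real.log q.R) z') = -CK q * (z'.2 - lam q.rho q.R1 z'.1) := by
    unfold k2 zc
    simp only
    rw [lam_eq', hlR]
    linear_combination (5 / 16 + z'.1) * hCk
  have hst := strip (w := wK q) (wK_pos hP) (wK_le hP) h2
  rw [← zc_P0 hP, ← hz', k1e, k2e, e1.symm] at hst
  have hC' : -CK q ≠ 0 := by linarith
  have hcase : ∀ x : ℝ, |x| < 1 / 10 → |-CK q * x| ≤ wK q := by
    intro x hx
    rw [abs_mul, abs_neg, abs_of_pos hC]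
    unfold wK
    nlinarith
  rcases le_or_gt (-(3 / 8)) z'.1 with h3 | h3
  · have e2 : lamc q.rho q.R1 (3 / 8) (3 / 8) z'.1 = lam q.rho q.R1 z'.1 := by
      unfold lamc
      rw [min_eq_right (by linarith), max_eq_right h3]
    rw [e2]
    by_cases h4 : |z.2 - lamc q.rho q.R1 (1 / 4) (3 / 8) z.1| < 1 / 10
    · left
      have := hst (Or.inl (hcase _ h4))
      exact mul_left_cancel₀ hC' this
    · by_cases h5 : |z'.2 - lam q.rho q.R1 z'.1| < 1 / 10
      · left
        have := hst (Or.inr (hcase _ h5))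
        exact mul_left_cancel₀ hC' this
      · right
        exact ⟨not_lt.1 h4, not_lt.1 h5⟩
  · right
    have e2 : lamc q.rho q.R1 (3 / 8) (3 / 8) z'.1 = Real.log q.R + kap q / 16 := by
      unfold lamc
      rw [min_eq_right (by linarith), max_eq_left h3.le, lam_eq', hlR]
      ring
    have e3 : Real.log q.R + kap q / 16 ≤ lam q.rho q.R1 z'.1 := by
      rw [lam_eq', hlR]
      nlinarith
    have hkg := hP.kap_gt
    constructor
    · by_contra h4
      push Not at h4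
      have := mul_left_cancel₀ hC' (hst (Or.inl (hcase _ h4)))
      rw [← this, abs_lt] at h4
      linarith
    · rw [e2, abs_of_nonpos (by linarith)]
      linarith

end peelJ

/-- **PEEL at the strand `j`.** -/
theorem peelJ (n : ℕ) : PeelJ n := by
  intro m i j D q hP
  refine ⟨GH (PJ hP) (frF D), GH_compact _ _, ?_⟩
  rintro ⟨u, v⟩
  rcases le_or_gt (u 1) (1 / 4) with hs | hs
  · -- nothing moves
    have h1 : GH (PJ hP) (frF D) (u, v) = (u, v) := GH_out _ _ (PJ_out hP hs)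
    rw [h1]
    apply KE_congr
    show lamc _ _ _ _ (u 1) = lamc _ _ _ _ (u 1)
    unfold lamc
    rw [min_eq_right hs, min_eq_right (by linarith)]
  by_cases hv : v = 0
  · subst hv
    rw [GH_zero]
    exact iff_of_false (KE_zero hP _ _) (KE_zero hP _ _)
  have hv' : 0 < ‖v‖ := norm_pos_iff.2 hv
  have hrho := log_rho_lt hP
  have hk := kap_pos hP
  rcases le_or_gt (1 / 4) ‖v‖ with hv4 | hv4
  · have hlog : Real.log (1 / 4) ≤ Real.log ‖v‖ := Real.log_le_log (by norm_num) hv4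
    have h1 : GH (PJ hP) (frF D) (u, v) = (u, v) := GH_out' _ _ hv (PJ_out_t hP hlog)
    rw [h1]
    apply KE_off hP hv
    · have : lamc q.rho q.R1 (1 / 4) (1 / 4) (u 1) = Real.log q.rho := by
        unfold lamc
        rw [min_eq_left hs.le, max_eq_right (by norm_num), lam_eq]; ring
      rw [this, abs_of_nonneg (by linarith)]
      linarith
    · have : lamc q.rho q.R1 (1 / 4) (3 / 8) (u 1) ≤ Real.log q.rho := by
        unfold lamc
        have h2 : 1 / 4 ≤ min (3 / 8) (u 1) := le_min (by norm_num) hs.le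
        rw [max_eq_right (by linarith), lam_eq]
        nlinarith
      rw [abs_of_nonneg (by linarith)]
      linarith
  -- the quadrant
  set l := cut u with hl
  set z : ℝ × ℝ := (u 1, Real.log ‖v‖) with hz
  set z' := (PJ hP).f l z with hz'
  have hG : GH (PJ hP) (frF D) (u, v) = (us u z'.1,
      fr D (us u z'.1) (Real.exp (z'.2 - Real.log ‖v‖) • (fr D u).symm v)) :=
    GH_apply' (PJ hP) (frF D) u hv
  have hn : ‖fr D (us u z'.1) (Real.exp (z'.2 - Real.log ‖v‖) • (fr D u).symm v)‖ =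
      Real.exp z'.2 := by
    have := norm_GH (PJ hP) (frF D) (u := u) hv
    rwa [hG] at this
  have hs' : 1 / 4 < z'.1 := by
    by_contra hc
    push Not at hc
    have h4 := fix_of (PJ hP) (PJ_out hP (l := l) hc)
    rw [← hz'] at h4
    rw [h4] at hc
    exact absurd hc (not_le.2 hs)
  have ht' : z'.2 < Real.log (1 / 4) := by
    by_contra hc
    push Not at hc
    have h4 := fix_of (PJ hP) (PJ_out_t hP (l := l) hc)
    rw [← hz'] at h4
    rw [h4] at hc
    have : Real.log ‖v‖ < Real.log (1 / 4) := Real.log_lt_log hv' hv4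
    exact absurd hc (not_le.2 this)
  rw [hG, KE_J hP _ hs hv hv4, KE_J hP _ (by rw [us_one]; exact hs')
    (by rw [← norm_pos_iff, hn]; exact Real.exp_pos _)
    (by rw [hn, ← Real.log_lt_log_iff (Real.exp_pos _) (by norm_num), Real.log_exp]; exact ht'),
    hn, Real.log_exp, us_one, us_us, LinearIsometryEquiv.symm_apply_apply]
  have hm : mc (zc 1 (CK q) (Real.log q.r) (z'.1, z'.2)) =
      mc (zc 1 (CK q) (Real.log q.r) z) := by
    show mc (zc 1 (CK q) (Real.log q.r) z') = _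
    rw [hz', zc_PJ, mc_Phi]
  rw [hm]
  have hw : (fr D u).symm v ≠ 0 := by
    rw [← norm_pos_iff, LinearIsometryEquiv.norm_map]; exact hv'
  refine CC_trans hP hw (Real.exp_pos _) fun hN hM => ?_
  have hl1 : l = 1 := cut_one hN
  have hz1 : z' = (PJ hP).f 1 z := by rw [hz', hl1]
  have := strip_J hP (z := z) hs hM
  rw [← hz1] at this
  exact this

/-- **PEEL at the plate.** -/
theorem peel0 (n : ℕ) : Peel0 n := by
  intro m i j D q hP
  refine ⟨GH (P0 hP) (frF D), GH_compact _ _, ?_⟩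
  rintro ⟨u, v⟩
  rcases le_or_gt (-(1 / 4)) (u 1) with hs | hs
  · have h1 : GH (P0 hP) (frF D) (u, v) = (u, v) := GH_out _ _ (P0_out hP hs)
    rw [h1]
    apply KE_congr
    show lamc _ _ _ _ (u 1) = lamc _ _ _ _ (u 1)
    unfold lamc
    rw [max_eq_right (le_min (by norm_num) hs),
      max_eq_right (le_min (by norm_num) (by linarith))]
  by_cases hv : v = 0
  · subst hv
    rw [GH_zero]
    exact iff_of_false (KE_zero hP _ _) (KE_zero hP _ _)
  have hv' : 0 < ‖v‖ := norm_pos_iff.2 hv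
  have hk := kap_pos hP
  have hR1 := R1_pos hP
  have h45 := log_45 hP
  rcases le_or_gt ‖v‖ (4 / 5 * q.R1) with hv4 | hv4
  · have hlog : Real.log ‖v‖ ≤ Real.log (4 / 5 * q.R1) := Real.log_le_log hv' hv4
    have h1 : GH (P0 hP) (frF D) (u, v) = (u, v) := GH_out' _ _ hv (P0_out_t hP hlog)
    rw [h1]
    apply KE_off hP hv
    · have : lamc q.rho q.R1 (1 / 4) (3 / 8) (u 1) = Real.log q.R1 := by
        unfold lamc
        rw [min_eq_right (by linarith), max_eq_left hs.le, lam_eq']; ring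
      rw [this, abs_of_nonpos (by linarith)]
      linarith
    · have : Real.log q.R1 ≤ lamc q.rho q.R1 (3 / 8) (3 / 8) (u 1) := by
        unfold lamc
        rw [min_eq_right (by linarith)]
        have h2 : max (-(3 / 8)) (u 1) ≤ -(1 / 4) := max_le (by norm_num) hs.le
        rw [lam_eq']
        nlinarith
      rw [abs_of_nonpos (by linarith)]
      linarith
  set l := cut u with hl
  set z : ℝ × ℝ := (u 1, Real.log ‖v‖) with hz
  set z' := (P0 hP).f l z with hz'
  have hG : GH (P0 hP) (frF D) (u, v) = (us u z'.1,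
      fr D (us u z'.1) (Real.exp (z'.2 - Real.log ‖v‖) • (fr D u).symm v)) :=
    GH_apply' (P0 hP) (frF D) u hv
  have hn : ‖fr D (us u z'.1) (Real.exp (z'.2 - Real.log ‖v‖) • (fr D u).symm v)‖ =
      Real.exp z'.2 := by
    have := norm_GH (P0 hP) (frF D) (u := u) hv
    rwa [hG] at this
  have hs' : z'.1 < -(1 / 4) := by
    by_contra hc
    push Not at hc
    have h4 := fix_of (P0 hP) (P0_out hP (l := l) hc)
    rw [← hz'] at h4
    rw [h4] at hc
    exact absurd hc (not_le.2 hs)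
  have ht' : Real.log (4 / 5 * q.R1) < z'.2 := by
    by_contra hc
    push Not at hc
    have h4 := fix_of (P0 hP) (P0_out_t hP (l := l) hc)
    rw [← hz'] at h4
    rw [h4] at hc
    have : Real.log (4 / 5 * q.R1) < Real.log ‖v‖ := Real.log_lt_log (by linarith) hv4
    exact absurd hc (not_le.2 this)
  rw [hG, KE_0 hP _ hs hv4, KE_0 hP _ (by rw [us_one]; exact hs')
    (by rw [hn, ← Real.log_lt_log_iff (by linarith) (Real.exp_pos _), Real.log_exp]; exact ht'),
    hn, Real.log_exp, us_one, us_us, LinearIsometryEquiv.symm_apply_apply]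
  have hm : mc (zc (-1) (CK q) (Real.log q.R) (z'.1, z'.2)) =
      mc (zc (-1) (CK q) (Real.log q.R) z) := by
    show mc (zc (-1) (CK q) (Real.log q.R) z') = _
    rw [hz', zc_P0, mc_Phi]
  rw [hm]
  have hw : (fr D u).symm v ≠ 0 := by
    rw [← norm_pos_iff, LinearIsometryEquiv.norm_map]; exact hv'
  refine CC_trans hP hw (Real.exp_pos _) fun hN hM => ?_
  have hl1 : l = 1 := cut_one hN
  have hz1 : z' = (P0 hP).f 1 z := by rw [hz', hl1]
  have := strip_0 hP (z := z) hs hM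
  rw [← hz1] at this
  exact this

end Crest.Agent.R267.Peel_966

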