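import Crest.Agent.R267.T1_118

/-!
# Change of the radii of a graph system (row 267, leaf B1)
-/

set_option autoImplicit false

namespace Crest.Agent.R267.Rad_118

open Set Metric
open scoped RealInnerProductSpace
open Crest.Agent.R267.GS_808 Crest.Agent.R267.Move_118 Crest.Agent.R267.T1_118

/-- tent function: `0` at `R0`, `1` at `a`, `0` at `ρ` -/
noncomputable def hat (R0 ρ a t : ℝ) : ℝ := max 0 (min ((t - R0) / (a - R0)) ((ρ - t) / (ρ - a)))

/-- piecewise linear homeomorphism of the line, `a ↦ b` -/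
noncomputable def phi (R0 ρ a b t : ℝ) : ℝ := t + (b - a) * hat R0 ρ a t

section phi

variable {R0 ρ a b t : ℝ}

theorem hat_nonneg : 0 ≤ hat R0 ρ a t := le_max_left _ _

theorem hat_low (ha : R0 < a) (h : t ≤ R0) : hat R0 ρ a t = 0 :=
  max_eq_left ((min_le_left _ _).trans
    (div_nonpos_of_nonpos_of_nonneg (by linarith) (by linarith)))

theorem hat_high (ha' : a < ρ) (h : ρ ≤ t) : hat R0 ρ a t = 0 :=
  max_eq_left ((min_le_right _ _).trans
    (div_nonpos_of_nonpos_of_nonneg (by linarith) (by linarith)))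

theorem hat_mid1 (ha : R0 < a) (ha' : a < ρ) (h : R0 ≤ t) (h' : t ≤ a) :
    hat R0 ρ a t = (t - R0) / (a - R0) := by
  have h1 : (t - R0) / (a - R0) ≤ 1 := by rw [div_le_one (by linarith)]; linarith
  have h2 : 1 ≤ (ρ - t) / (ρ - a) := by rw [one_le_div (by linarith)]; linarith
  unfold hat
  rw [min_eq_left (h1.trans h2), max_eq_right (div_nonneg (by linarith) (by linarith))]

theorem hat_mid2 (ha : R0 < a) (ha' : a < ρ) (h : a ≤ t) (h' : t ≤ ρ) :
    hat R0 ρ a t = (ρ - t) / (ρ - a) := by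
  have h1 : 1 ≤ (t - R0) / (a - R0) := by rw [one_le_div (by linarith)]; linarith
  have h2 : (ρ - t) / (ρ - a) ≤ 1 := by rw [div_le_one (by linarith)]; linarith
  unfold hat
  rw [min_eq_right (h2.trans h1), max_eq_right (div_nonneg (by linarith) (by linarith))]

theorem phi_low (ha : R0 < a) (h : t ≤ R0) : phi R0 ρ a b t = t := by
  unfold phi; rw [hat_low ha h]; ring

theorem phi_high (ha' : a < ρ) (h : ρ ≤ t) : phi R0 ρ a b t = t := by
  unfold phi; rw [hat_high ha' h]; ring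

theorem phi_mid1 (ha : R0 < a) (ha' : a < ρ) (h : R0 ≤ t) (h' : t ≤ a) :
    phi R0 ρ a b t = R0 + (t - R0) * (b - R0) / (a - R0) := by
  have : a - R0 ≠ 0 := by linarith
  unfold phi; rw [hat_mid1 ha ha' h h']; field_simp; ring

theorem phi_mid2 (ha : R0 < a) (ha' : a < ρ) (h : a ≤ t) (h' : t ≤ ρ) :
    phi R0 ρ a b t = ρ - (ρ - t) * (ρ - b) / (ρ - a) := by
  have : ρ - a ≠ 0 := by linarith
  unfold phi; rw [hat_mid2 ha ha' h h']; field_simp; ring

theorem phi_phi (ha : R0 < a) (ha' : a < ρ) (hb : R0 < b) (hb' : b < ρ) :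
    phi R0 ρ b a (phi R0 ρ a b t) = t := by
  have e1 : 0 < a - R0 := by linarith
  have e2 : 0 < b - R0 := by linarith
  have e3 : 0 < ρ - a := by linarith
  have e4 : 0 < ρ - b := by linarith
  rcases le_total t R0 with h | h
  · rw [phi_low ha h, phi_low hb h]
  rcases le_total ρ t with h' | h'
  · rw [phi_high ha' h', phi_high hb' h']
  rcases le_total t a with h2 | h2
  · have h3 : 0 ≤ (t - R0) * (b - R0) / (a - R0) :=
      div_nonneg (mul_nonneg (by linarith) e2.le) e1.le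
    have h4 : (t - R0) * (b - R0) / (a - R0) ≤ b - R0 := by
      rw [div_le_iff₀ e1]; nlinarith
    rw [phi_mid1 ha ha' h h2, phi_mid1 hb hb' (by linarith) (by linarith)]
    field_simp
    ring
  · have h3 : 0 ≤ (ρ - t) * (ρ - b) / (ρ - a) :=
      div_nonneg (mul_nonneg (by linarith) e4.le) e3.le
    have h4 : (ρ - t) * (ρ - b) / (ρ - a) ≤ ρ - b := by
      rw [div_le_iff₀ e3]; nlinarith
    rw [phi_mid2 ha ha' h2 h', phi_mid2 hb hb' (by linarith) (by linarith)]
    field_simp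
    ring

theorem phi_le_of_le (ha : R0 < a) (ha' : a < ρ) (hb : R0 < b) (h : t ≤ a) :
    phi R0 ρ a b t ≤ b := by
  have e1 : 0 < a - R0 := by linarith
  rcases le_total t R0 with h1 | h1
  · rw [phi_low ha h1]; linarith
  · rw [phi_mid1 ha ha' h1 h]
    have h4 : (t - R0) * (b - R0) / (a - R0) ≤ b - R0 := by
      rw [div_le_iff₀ e1]; nlinarith
    linarith

theorem phi_self (ha : R0 < a) (ha' : a < ρ) : phi R0 ρ a b a = b := by
  have : a - R0 ≠ 0 := by linarith
  rw [phi_mid1 ha ha' ha.le le_rfl]; field_simp; ring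

theorem phi_inj (ha : R0 < a) (ha' : a < ρ) (hb : R0 < b) (hb' : b < ρ) {s : ℝ}
    (h : phi R0 ρ a b s = phi R0 ρ a b t) : s = t := by
  rw [← phi_phi (t := s) ha ha' hb hb', h, phi_phi ha ha' hb hb']

theorem phi_eq_iff (ha : R0 < a) (ha' : a < ρ) (hb : R0 < b) (hb' : b < ρ) :
    phi R0 ρ a b t = b ↔ t = a := by
  constructor
  · intro h
    rw [← phi_phi (t := t) ha ha' hb hb', h, phi_self hb hb']
  · rintro rfl
    exact phi_self ha ha'

theorem phi_le_iff (ha : R0 < a) (ha' : a < ρ) (hb : R0 < b) (hb' : b < ρ) :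
    phi R0 ρ a b t ≤ b ↔ t ≤ a := by
  constructor
  · intro h
    rw [← phi_phi (t := t) ha ha' hb hb']
    exact phi_le_of_le hb hb' ha h
  · exact phi_le_of_le ha ha' hb

theorem phi_gt (ha : R0 < a) (ha' : a < ρ) (hb : R0 < b) (hb' : b < ρ) (h : R0 < t) :
    R0 < phi R0 ρ a b t := by
  by_contra hc
  have h1 := phi_low (ρ := ρ) (b := a) hb (not_lt.1 hc)
  rw [phi_phi ha ha' hb hb'] at h1
  linarith

theorem phi_lt (ha : R0 < a) (ha' : a < ρ) (hb : R0 < b) (hb' : b < ρ) (h : t < ρ) :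
    phi R0 ρ a b t < ρ := by
  by_contra hc
  have h1 := phi_high (R0 := R0) (b := a) hb' (not_lt.1 hc)
  rw [phi_phi ha ha' hb hb'] at h1
  linarith

theorem phi_of_eq (h : a = b) : phi R0 ρ a b t = t := by
  unfold phi; rw [h]; ring

end phi

variable {B V : Type*} [NormedAddCommGroup B] [NormedSpace ℝ B]
  [NormedAddCommGroup V] [InnerProductSpace ℝ V]

/-- the displacement of the radial map -/
noncomputable def rd (R0 ρ a b : ℝ) (v : V) : V :=
  ((b - a) * hat R0 ρ a ‖v‖ / max R0 ‖v‖) • v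

/-- the radial map `v + rd v` is multiplication by a positive number and acts on norms by `phi` -/
theorem rd_spec {R0 ρ a b : ℝ} (h0 : 0 < R0) (ha : R0 < a) (ha' : a < ρ) (hb : R0 < b)
    (hb' : b < ρ) (v : V) :
    ∃ c : ℝ, 0 < c ∧ v + rd R0 ρ a b v = c • v ∧ c * ‖v‖ = phi R0 ρ a b ‖v‖ := by
  rcases le_total ‖v‖ R0 with h | h
  · refine ⟨1, one_pos, ?_, ?_⟩
    · unfold rd; rw [hat_low ha h]; simp
    · rw [phi_low ha h, one_mul]
  · have hv : 0 < ‖v‖ := h0.trans_le h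
    have hp : 0 < phi R0 ρ a b ‖v‖ := by
      rcases h.eq_or_lt with h1 | h1
      · rw [phi_low ha h1.ge]; exact hv
      · exact h0.trans (phi_gt ha ha' hb hb' h1)
    refine ⟨phi R0 ρ a b ‖v‖ / ‖v‖, div_pos hp hv, ?_, by field_simp⟩
    unfold rd phi
    rw [max_eq_right h]
    nth_rewrite 1 [← one_smul ℝ v]
    rw [← add_smul]
    congr 1
    field_simp

theorem norm_rd {R0 ρ a b : ℝ} (h0 : 0 < R0) (ha : R0 < a) (ha' : a < ρ) (hb : R0 < b)
    (hb' : b < ρ) (v : V) : ‖v + rd R0 ρ a b v‖ = phi R0 ρ a b ‖v‖ := by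
  obtain ⟨c, hc, h1, h2⟩ := rd_spec h0 ha ha' hb hb' v
  rw [h1, norm_smul, Real.norm_of_nonneg hc.le, h2]

theorem rd_rd {R0 ρ a b : ℝ} (h0 : 0 < R0) (ha : R0 < a) (ha' : a < ρ) (hb : R0 < b)
    (hb' : b < ρ) (v : V) :
    (v + rd R0 ρ a b v) + rd R0 ρ b a (v + rd R0 ρ a b v) = v := by
  obtain ⟨c, hc, h1, h2⟩ := rd_spec h0 ha ha' hb hb' v
  obtain ⟨d, hd, g1, g2⟩ := rd_spec h0 hb hb' ha ha' (v + rd R0 ρ a b v)
  rw [g1]
  rw [norm_rd h0 ha ha' hb hb', phi_phi ha ha' hb hb'] at g2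
  rw [h1, smul_smul]
  rcases eq_or_ne v 0 with rfl | hv
  · simp
  · have hn : ‖v‖ ≠ 0 := norm_ne_zero_iff.2 hv
    have : d * c = 1 := by
      rw [← h2] at g2
      have : (d * c) * ‖v‖ = 1 * ‖v‖ := by rw [one_mul]; linarith
      exact mul_right_cancel₀ hn this
    rw [this, one_smul]

theorem rd_high {R0 ρ a b : ℝ} (ha' : a < ρ) {v : V} (h : ρ ≤ ‖v‖) : rd R0 ρ a b v = 0 := by
  unfold rd; rw [hat_high ha' h]; simp

theorem rd_low {R0 ρ a b : ℝ} (ha : R0 < a) {v : V} (h : ‖v‖ ≤ R0) : rd R0 ρ a b v = 0 := by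
  unfold rd; rw [hat_low ha h]; simp

theorem rd_eq {R0 ρ a b : ℝ} (h : a = b) (v : V) : rd R0 ρ a b v = 0 := by
  unfold rd; rw [h]; simp

theorem continuous_rd {X : Type*} [TopologicalSpace X] {R0 ρ : ℝ} (h0 : 0 < R0) {a b : X → ℝ}
    {v : X → V} (ha : Continuous a) (hb : Continuous b) (hv : Continuous v)
    (h1 : ∀ p, R0 < a p) (h2 : ∀ p, a p < ρ) :
    Continuous fun p => rd R0 ρ (a p) (b p) (v p) := by
  unfold rd hat
  refine Continuous.smul (Continuous.div ?_ (by fun_prop) fun p => ?_) hv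
  · refine Continuous.mul (by fun_prop) (continuous_const.max (Continuous.min ?_ ?_))
    · exact Continuous.div (by fun_prop) (by fun_prop) fun p => by linarith [h1 p]
    · exact Continuous.div (by fun_prop) (by fun_prop) fun p => by linarith [h2 p]
  · exact (h0.trans_le (le_max_left _ _)).ne'

/-- **several disjoint balls**: the fibrewise homeomorphism which changes the radius `a` to `b`
in each of the balls of radius `ρ` around the centres -/
theorem exists_radial {X ι : Type*} [TopologicalSpace X] [Fintype ι] {R0 ρ : ℝ} (h0 : 0 < R0)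
    {a b : X → ℝ} {x : ι → X → V} (ha : Continuous a) (hb : Continuous b)
    (hx : ∀ i, Continuous (x i)) (a1 : ∀ p, R0 < a p) (a2 : ∀ p, a p < ρ) (b1 : ∀ p, R0 < b p)
    (b2 : ∀ p, b p < ρ) (sep : ∀ p i j, i ≠ j → 2 * ρ ≤ ‖x i p - x j p‖) :
    ∃ Θ : FHom X V,
      (∀ p y, (∀ i, ρ ≤ ‖y - x i p‖) → Θ.fwd p y = y) ∧
      (∀ p y, a p = b p → Θ.fwd p y = y) ∧
      (∀ p y i, ‖y - x i p‖ < ρ →
        Θ.fwd p y = x i p + ((y - x i p) + rd R0 ρ (a p) (b p) (y - x i p))) := by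
  classical
  -- the general form of the map
  have form : ∀ a b : X → ℝ, (∀ p, R0 < a p) → (∀ p, a p < ρ) → (∀ p, R0 < b p) →
      (∀ p, b p < ρ) →
      ∀ p y i, ‖y - x i p‖ < ρ → y + ∑ j, rd R0 ρ (a p) (b p) (y - x j p) =
        x i p + ((y - x i p) + rd R0 ρ (a p) (b p) (y - x i p)) := by
    intro a b a1 a2 b1 b2 p y i hy
    rw [Finset.sum_eq_single i]
    · abel
    · intro j _ hji
      refine rd_high (a2 p) ?_
      have h1 := sep p i j (Ne.symm hji)
      have h2 : ‖x i p - x j p‖ ≤ ‖y - x i p‖ + ‖y - x j p‖ := by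
        have e : x i p - x j p = (y - x j p) - (y - x i p) := by abel
        rw [e]
        exact (norm_sub_le _ _).trans (by rw [add_comm])
      linarith
    · simp
  have far : ∀ a b : X → ℝ, (∀ p, R0 < a p) → (∀ p, a p < ρ) →
      ∀ p y, (∀ i, ρ ≤ ‖y - x i p‖) → y + ∑ j, rd R0 ρ (a p) (b p) (y - x j p) = y := by
    intro a b a1 a2 p y hy
    rw [Finset.sum_eq_zero fun j _ => rd_high (a2 p) (hy j), add_zero]
  have inv : ∀ a b : X → ℝ, (∀ p, R0 < a p) → (∀ p, a p < ρ) → (∀ p, R0 < b p) →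
      (∀ p, b p < ρ) → ∀ p y,
      (y + ∑ j, rd R0 ρ (a p) (b p) (y - x j p)) +
        ∑ j, rd R0 ρ (b p) (a p) ((y + ∑ j, rd R0 ρ (a p) (b p) (y - x j p)) - x j p) = y := by
    intro a b a1 a2 b1 b2 p y
    by_cases h : ∀ i, ρ ≤ ‖y - x i p‖
    · rw [far a b a1 a2 p y h, far b a b1 b2 p y h]
    · push Not at h
      obtain ⟨i, hi⟩ := h
      rw [form a b a1 a2 b1 b2 p y i hi, form b a b1 b2 a1 a2 p _ i]
      · rw [add_sub_cancel_left, rd_rd h0 (a1 p) (a2 p) (b1 p) (b2 p)]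
        abel
      · rw [add_sub_cancel_left, norm_rd h0 (a1 p) (a2 p) (b1 p) (b2 p)]
        exact phi_lt (a1 p) (a2 p) (b1 p) (b2 p) hi
  refine ⟨⟨fun p y => y + ∑ j, rd R0 ρ (a p) (b p) (y - x j p),
    fun p y => y + ∑ j, rd R0 ρ (b p) (a p) (y - x j p), ?_, ?_, inv a b a1 a2 b1 b2,
    inv b a b1 b2 a1 a2⟩, far a b a1 a2, ?_, form a b a1 a2 b1 b2⟩
  · refine continuous_snd.add (continuous_finsetSum _ fun j _ => ?_)
    exact continuous_rd h0 (ha.comp continuous_fst) (hb.comp continuous_fst)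
      (continuous_snd.sub ((hx j).comp continuous_fst)) (fun p => a1 _) (fun p => a2 _)
  · refine continuous_snd.add (continuous_finsetSum _ fun j _ => ?_)
    exact continuous_rd h0 (hb.comp continuous_fst) (ha.comp continuous_fst)
      (continuous_snd.sub ((hx j).comp continuous_fst)) (fun p => b1 _) (fun p => b2 _)
  · intro p y h
    show y + ∑ j, rd R0 ρ (a p) (b p) (y - x j p) = y
    rw [Finset.sum_eq_zero fun j _ => rd_eq h _, add_zero]

/-- **thinner tubes** -/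
theorem thin [ProperSpace B] [ProperSpace V] {e : V} {m : ℕ} (G : Sys B e m) (r : ℝ)
    (hr0 : 0 < r) (hr : r ≤ G.r) : Eqv G.K (Sys.resize G r G.R hr0 hr le_rfl).K := by
  have hK : IsCompact (closedBall (0 : B) 1) := isCompact_closedBall _ _
  obtain ⟨δ, hδ, hδ'⟩ := exists_lower (ι := {q : Fin m × Fin m // q.1 ≠ q.2}) hK
    (fun q u => ‖G.x q.1.1 u - G.x q.1.2 u‖ - 2 * G.r)
    (fun q => (((G.cx _).sub (G.cx _)).norm.sub continuous_const).continuousOn)
    (fun q u _ => by have := G.sep _ _ u q.2; linarith)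
  obtain ⟨δ1, hδ1, hδ1'⟩ := exists_lower hK (fun k u => G.R - ‖G.x k u‖ - G.r)
    (fun k => ((continuous_const.sub (G.cx k).norm).sub continuous_const).continuousOn)
    (fun k u _ => by have := G.bd k u; linarith)
  set ρ := G.r + min (δ / 2) δ1 with hρdef
  have m1 : min (δ / 2) δ1 ≤ δ / 2 := min_le_left _ _
  have m2 : min (δ / 2) δ1 ≤ δ1 := min_le_right _ _
  have m3 : 0 < min (δ / 2) δ1 := lt_min (by positivity) hδ1
  have hρ : G.r < ρ := by linarith
  have sep : ∀ k l u, k ≠ l → ‖u‖ ≤ 1 → 2 * ρ ≤ ‖G.x k u - G.x l u‖ := by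
    intro k l u hkl hu
    have := hδ' ⟨(k, l), hkl⟩ u (mem_closedBall_zero_iff.2 hu)
    simp only at this
    linarith
  have bd : ∀ k u, ‖u‖ ≤ 1 → ‖G.x k u‖ + ρ ≤ G.R := by
    intro k u hu
    have := hδ1' k u (mem_closedBall_zero_iff.2 hu)
    linarith
  -- the radii
  have hcl : ∀ u : B, 0 ≤ cl (2 - ‖u‖) ∧ cl (2 - ‖u‖) ≤ 1 := fun u => cl_mem _
  set b : B → ℝ := fun u => G.r + cl (2 - ‖u‖) * (r - G.r) with hbdef
  have b1 : ∀ u, r ≤ b u := fun u => by
    have := hcl u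
    simp only [hbdef]
    nlinarith
  have b2 : ∀ u, b u ≤ G.r := fun u => by
    have := hcl u
    simp only [hbdef]
    nlinarith
  have hb : Continuous b := by
    have : Continuous fun u : B => cl (2 - ‖u‖) := continuous_cl.comp (by fun_prop)
    exact continuous_const.add (this.mul continuous_const)
  obtain ⟨Θ, t1, t2, t3⟩ := exists_radial (V := V) (R0 := r / 2) (ρ := ρ) (by positivity)
    (a := fun _ : B => G.r) (b := b) (x := fun k u => G.x k (ret u)) continuous_const hb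
    (fun k => (G.cx k).comp continuous_ret) (fun _ => by linarith) (fun _ => hρ)
    (fun u => by have := b1 u; linarith) (fun u => by have := b2 u; linarith)
    (fun u i j hij => sep i j _ hij (norm_ret_le u))
  have hfix : ∀ u y, G.R ≤ ‖y‖ → Θ.fwd u y = y := by
    intro u y hy
    refine t1 u y fun k => ?_
    have h1 := bd k (ret u) (norm_ret_le u)
    have h3 := norm_sub_norm_le y (G.x k (ret u))
    linarith
  have hfar : ∀ u y, 2 ≤ ‖u‖ → Θ.fwd u y = y := by
    intro u y hu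
    refine t2 u y ?_
    show G.r = G.r + cl (2 - ‖u‖) * (r - G.r)
    rw [cl_of_nonpos (by linarith)]
    ring
  -- over the ball
  have key : ∀ u, ‖u‖ ≤ 1 → ∀ y, (Θ.fwd u y = y ∧ ∀ k, ρ ≤ ‖y - G.x k u‖) ∨
      ∃ k, ∃ c : ℝ, 0 < c ∧ Θ.fwd u y = G.x k u + c • (y - G.x k u) ∧
        c * ‖y - G.x k u‖ = phi (r / 2) ρ G.r r ‖y - G.x k u‖ ∧
        (∀ l, l ≠ k → ρ ≤ ‖y - G.x l u‖ ∧ ρ ≤ ‖Θ.fwd u y - G.x l u‖) := by
    intro u hu y
    by_cases h : ∀ k, ρ ≤ ‖y - G.x k u‖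
    · exact Or.inl ⟨t1 u y fun k => by simpa only [ret_of_le hu] using h k, h⟩
    · right
      push Not at h
      obtain ⟨k, hk⟩ := h
      have h1 := t3 u y k (by simpa only [ret_of_le hu] using hk)
      have hbu : b u = r := by
        simp only [hbdef]
        rw [cl_of_one_le (by linarith)]
        ring
      simp only [ret_of_le hu, hbu] at h1
      obtain ⟨c, hc, c1, c2⟩ := rd_spec (V := V) (R0 := r / 2) (ρ := ρ) (a := G.r) (b := r)
        (by positivity) (by linarith) hρ (by linarith) (by linarith) (y - G.x k u)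
      rw [c1] at h1
      refine ⟨k, c, hc, h1, c2, fun l hl => ?_⟩
      have hs := sep k l u (Ne.symm hl) hu
      have aux : ∀ z : V, ‖z - G.x k u‖ < ρ → ρ ≤ ‖z - G.x l u‖ := by
        intro z hz
        have e : G.x k u - G.x l u = (z - G.x l u) - (z - G.x k u) := by abel
        have h2 : ‖G.x k u - G.x l u‖ ≤ ‖z - G.x l u‖ + ‖z - G.x k u‖ := by
          rw [e]; exact norm_sub_le _ _
        linarith
      refine ⟨aux y hk, aux _ ?_⟩
      rw [h1, add_sub_cancel_left, norm_smul, Real.norm_of_nonneg hc.le, c2]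
      exact phi_lt (by linarith) hρ (by linarith) (by linarith) hk
  have hnorm : ∀ u, ‖u‖ ≤ 1 → ∀ y k, (r ≤ ‖Θ.fwd u y - G.x k u‖ ↔ G.r ≤ ‖y - G.x k u‖) ∧
      ((‖Θ.fwd u y - G.x k u‖ = r ∧ ⟪G.nu k u, Θ.fwd u y - G.x k u⟫ = 0) ↔
        (‖y - G.x k u‖ = G.r ∧ ⟪G.nu k u, y - G.x k u⟫ = 0)) := by
    intro u hu y k
    rcases key u hu y with ⟨h1, h2⟩ | ⟨l, c, hc, h1, h2, h3⟩
    · rw [h1]
      have := h2 k
      refine ⟨⟨fun _ => by linarith, fun _ => by linarith⟩, ⟨fun h => ?_, fun h => ?_⟩⟩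
      · linarith [h.1]
      · linarith [h.1]
    · rcases eq_or_ne k l with rfl | hkl
      · rw [h1, add_sub_cancel_left, norm_smul, Real.norm_of_nonneg hc.le, h2, inner_smul_right]
        have e1 := phi_eq_iff (R0 := r / 2) (ρ := ρ) (a := G.r) (b := r) (t := ‖y - G.x k u‖)
          (by linarith) hρ (by linarith) (by linarith)
        have e2 := phi_le_iff (R0 := r / 2) (ρ := ρ) (a := r) (b := G.r)
          (t := phi (r / 2) ρ G.r r ‖y - G.x k u‖)
          (by linarith) (by linarith) (by linarith) hρ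
        rw [phi_phi (by linarith) hρ (by linarith) (by linarith)] at e2
        have e3 := phi_le_iff (R0 := r / 2) (ρ := ρ) (a := G.r) (b := r) (t := ‖y - G.x k u‖)
          (by linarith) hρ (by linarith) (by linarith)
        refine ⟨?_, ?_⟩
        · constructor
          · intro h
            by_contra hc'
            have h4 := e3.2 (not_le.1 hc').le
            have h5 := e1.1 (le_antisymm h4 h)
            linarith [not_le.1 hc']
          · intro h
            by_contra hc'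
            have h4 := e2.1 (by
              have := e2.2 (not_le.1 hc').le
              exact this)
            have h5 := e2.2 h4
            have h6 := e1.2 (le_antisymm h5 h)
            linarith [not_le.1 hc']
        · rw [e1, mul_eq_zero, or_iff_right hc.ne']
      · have h4 := h3 k hkl
        refine ⟨⟨fun _ => by linarith [h4.1], fun _ => by linarith [h4.2]⟩,
          ⟨fun h => ?_, fun h => ?_⟩⟩
        · linarith [h.1, h4.2]
        · linarith [h.1, h4.1]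
  have hwall : ∀ u, ‖u‖ = 1 → ∀ y, ⟪e, Θ.fwd u y⟫ = 0 ↔ ⟪e, y⟫ = 0 := by
    intro u hu y
    rcases key u hu.le y with ⟨h1, _⟩ | ⟨k, c, hc, h1, _, _⟩
    · rw [h1]
    · have hx := G.wall_x k u hu.ge
      rw [h1, inner_add_right, inner_smul_right, inner_sub_right, hx, sub_zero, zero_add,
        mul_eq_zero, or_iff_right hc.ne']
  refine ⟨Θ.homeo, ⟨closedBall 0 2 ×ˢ closedBall 0 G.R,
    (isCompact_closedBall _ _).prod (isCompact_closedBall _ _), ?_⟩, ?_⟩
  · rintro ⟨u, y⟩ hp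
    show (u, Θ.fwd u y) = (u, y)
    rw [mem_prod, mem_closedBall_zero_iff, mem_closedBall_zero_iff, not_and_or, not_le,
      not_le] at hp
    rcases hp with hp | hp
    · rw [hfar u y hp.le]
    · rw [hfix u y hp.le]
  · rintro ⟨u, y⟩
    show (u, y) ∈ G.K ↔ (u, Θ.fwd u y) ∈ (Sys.resize G r G.R hr0 hr le_rfl).K
    simp only [Sys.K, mem_ofPred_eq, Sys.resize]
    have a1 := norm_le_iff Θ (hfix u) y
    have a2 := norm_eq_iff Θ (hfix u) y
    rw [a1, a2]
    refine or_congr ?_ (or_congr ?_ ?_)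
    · constructor
      · rintro ⟨c1, c2, c3, c4⟩
        exact ⟨(hwall u c2 y).2 c1, c2, c3, fun k => (hnorm u c2.le y k).1.2 (c4 k)⟩
      · rintro ⟨c1, c2, c3, c4⟩
        exact ⟨(hwall u c2 y).1 c1, c2, c3, fun k => (hnorm u c2.le y k).1.1 (c4 k)⟩
    · constructor
      · rintro ⟨c1, c2, c3⟩
        exact ⟨by rw [hfix u y c3.ge, c1], c2, c3⟩
      · rintro ⟨c1, c2, c3⟩
        exact ⟨by rw [← hfix u y c3.ge, c1], c2, c3⟩
    · refine exists_congr fun k => ?_
      constructor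
      · rintro ⟨c1, c2⟩
        exact ⟨c1, (hnorm u c1 y k).2.2 c2⟩
      · rintro ⟨c1, c2⟩
        exact ⟨c1, (hnorm u c1 y k).2.1 c2⟩

/-- **larger box** -/
theorem widen [ProperSpace B] [ProperSpace V] {e : V} {m : ℕ} (G : Sys B e m) (R : ℝ)
    (hG : 0 < G.R) (hR : G.R ≤ R) : Eqv G.K (Sys.resize G G.r R G.hr le_rfl hR).K := by
  have hK : IsCompact (closedBall (0 : B) 1) := isCompact_closedBall _ _
  obtain ⟨δ1, hδ1, hδ1'⟩ := exists_lower hK (fun k u => G.R - ‖G.x k u‖ - G.r)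
    (fun k => ((continuous_const.sub (G.cx k).norm).sub continuous_const).continuousOn)
    (fun k u _ => by have := G.bd k u; linarith)
  set R0 := max (G.R - δ1) (G.R / 2) with hR0def
  have n1 : G.R - δ1 ≤ R0 := le_max_left _ _
  have n2 : G.R / 2 ≤ R0 := le_max_right _ _
  have n3 : R0 < G.R := max_lt (by linarith) (by linarith)
  have bd : ∀ k u, ‖u‖ ≤ 1 → ‖G.x k u‖ + G.r ≤ R0 := by
    intro k u hu
    have := hδ1' k u (mem_closedBall_zero_iff.2 hu)
    linarith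
  have hcl : ∀ u : B, 0 ≤ cl (2 - ‖u‖) ∧ cl (2 - ‖u‖) ≤ 1 := fun u => cl_mem _
  set b : B → ℝ := fun u => G.R + cl (2 - ‖u‖) * (R - G.R) with hbdef
  have b1 : ∀ u, G.R ≤ b u := fun u => by
    have := hcl u
    simp only [hbdef]
    nlinarith
  have b2 : ∀ u, b u ≤ R := fun u => by
    have := hcl u
    simp only [hbdef]
    nlinarith
  have hb : Continuous b := by
    have : Continuous fun u : B => cl (2 - ‖u‖) := continuous_cl.comp (by fun_prop)
    exact continuous_const.add (this.mul continuous_const)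
  obtain ⟨Θ, t1, t2, t3⟩ := exists_radial (V := V) (ι := Unit) (R0 := R0) (ρ := R + 1)
    (by linarith) (a := fun _ : B => G.R) (b := b) (x := fun _ _ => 0) continuous_const hb
    (fun _ => continuous_const) (fun _ => n3) (fun _ => by linarith)
    (fun u => by have := b1 u; linarith) (fun u => by have := b2 u; linarith)
    (fun u i j hij => absurd (Subsingleton.elim i j) hij)
  simp only [sub_zero, zero_add] at t1 t3
  have hfix : ∀ u y, R + 1 ≤ ‖y‖ → Θ.fwd u y = y := fun u y hy => t1 u y fun _ => hy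
  have hfar : ∀ u y, 2 ≤ ‖u‖ → Θ.fwd u y = y := by
    intro u y hu
    refine t2 u y ?_
    show G.R = G.R + cl (2 - ‖u‖) * (R - G.R)
    rw [cl_of_nonpos (by linarith)]
    ring
  have hlow : ∀ u y, ‖y‖ ≤ R0 → Θ.fwd u y = y := by
    intro u y hy
    rw [t3 u y () (by linarith), rd_low n3 hy, add_zero]
  have key : ∀ u, ‖u‖ ≤ 1 → ∀ y, ∃ c : ℝ, 0 < c ∧ Θ.fwd u y = c • y ∧
      ‖Θ.fwd u y‖ = phi R0 (R + 1) G.R R ‖y‖ := by
    intro u hu y
    have hbu : b u = R := by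
      simp only [hbdef]
      rw [cl_of_one_le (by linarith)]
      ring
    rcases lt_or_ge ‖y‖ (R + 1) with h | h
    · obtain ⟨c, hc, c1, c2⟩ := rd_spec (V := V) (R0 := R0) (ρ := R + 1) (a := G.R) (b := R)
        (by linarith) n3 (by linarith) (by linarith) (by linarith) y
      have h1 := t3 u y () h
      rw [hbu, c1] at h1
      refine ⟨c, hc, h1, ?_⟩
      rw [h1, norm_smul, Real.norm_of_nonneg hc.le, c2]
    · refine ⟨1, one_pos, ?_, ?_⟩
      · rw [hfix u y h, one_smul]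
      · rw [hfix u y h, phi_high (by linarith) h]
  have hgt : ∀ u, ‖u‖ ≤ 1 → ∀ y, R0 < ‖y‖ → R0 < ‖Θ.fwd u y‖ := by
    intro u hu y hy
    obtain ⟨c, _, _, h⟩ := key u hu y
    rw [h]
    exact phi_gt n3 (by linarith) (by linarith) (by linarith) hy
  have hk : ∀ u, ‖u‖ ≤ 1 → ∀ k y, R0 < ‖y‖ → G.r < ‖y - G.x k u‖ := by
    intro u hu k y hy
    have h1 := bd k u hu
    have h2 := norm_sub_norm_le y (G.x k u)
    linarith
  have hnorm : ∀ u, ‖u‖ ≤ 1 → ∀ y k, (G.r ≤ ‖Θ.fwd u y - G.x k u‖ ↔ G.r ≤ ‖y - G.x k u‖) ∧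
      ((‖Θ.fwd u y - G.x k u‖ = G.r ∧ ⟪G.nu k u, Θ.fwd u y - G.x k u⟫ = 0) ↔
        (‖y - G.x k u‖ = G.r ∧ ⟪G.nu k u, y - G.x k u⟫ = 0)) := by
    intro u hu y k
    rcases le_or_gt ‖y‖ R0 with h | h
    · rw [hlow u y h]
      exact ⟨Iff.rfl, Iff.rfl⟩
    · have h1 := hk u hu k y h
      have h2 := hk u hu k _ (hgt u hu y h)
      exact ⟨⟨fun _ => h1.le, fun _ => h2.le⟩, ⟨fun h3 => absurd h3.1 h2.ne',
        fun h3 => absurd h3.1 h1.ne'⟩⟩
  have hin : ∀ u, ‖u‖ ≤ 1 → ∀ y, ⟪e, Θ.fwd u y⟫ = 0 ↔ ⟪e, y⟫ = 0 := by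
    intro u hu y
    obtain ⟨c, hc, h1, _⟩ := key u hu y
    rw [h1, inner_smul_right, mul_eq_zero, or_iff_right hc.ne']
  have hle : ∀ u, ‖u‖ ≤ 1 → ∀ y, (‖Θ.fwd u y‖ ≤ R ↔ ‖y‖ ≤ G.R) ∧
      (‖Θ.fwd u y‖ = R ↔ ‖y‖ = G.R) := by
    intro u hu y
    obtain ⟨c, _, _, h⟩ := key u hu y
    rw [h]
    exact ⟨phi_le_iff n3 (by linarith) (by linarith) (by linarith),
      phi_eq_iff n3 (by linarith) (by linarith) (by linarith)⟩
  refine ⟨Θ.homeo, ⟨closedBall 0 2 ×ˢ closedBall 0 (R + 1),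
    (isCompact_closedBall _ _).prod (isCompact_closedBall _ _), ?_⟩, ?_⟩
  · rintro ⟨u, y⟩ hp
    show (u, Θ.fwd u y) = (u, y)
    rw [mem_prod, mem_closedBall_zero_iff, mem_closedBall_zero_iff, not_and_or, not_le,
      not_le] at hp
    rcases hp with hp | hp
    · rw [hfar u y hp.le]
    · rw [hfix u y hp.le]
  · rintro ⟨u, y⟩
    show (u, y) ∈ G.K ↔ (u, Θ.fwd u y) ∈ (Sys.resize G G.r R G.hr le_rfl hR).K
    simp only [Sys.K, mem_ofPred_eq, Sys.resize]
    refine or_congr ?_ (or_congr ?_ ?_)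
    · constructor
      · rintro ⟨c1, c2, c3, c4⟩
        exact ⟨(hin u c2.le y).2 c1, c2, (hle u c2.le y).1.2 c3,
          fun k => (hnorm u c2.le y k).1.2 (c4 k)⟩
      · rintro ⟨c1, c2, c3, c4⟩
        exact ⟨(hin u c2.le y).1 c1, c2, (hle u c2.le y).1.1 c3,
          fun k => (hnorm u c2.le y k).1.1 (c4 k)⟩
    · constructor
      · rintro ⟨c1, c2, c3⟩
        exact ⟨(hin u c2 y).2 c1, c2, (hle u c2 y).2.2 c3⟩
      · rintro ⟨c1, c2, c3⟩
        exact ⟨(hin u c2 y).1 c1, c2, (hle u c2 y).2.1 c3⟩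
    · refine exists_congr fun k => ?_
      constructor
      · rintro ⟨c1, c2⟩
        exact ⟨c1, (hnorm u c1 y k).2.2 c2⟩
      · rintro ⟨c1, c2⟩
        exact ⟨c1, (hnorm u c1 y k).2.1 c2⟩

/-- both radii -/
theorem rad [ProperSpace B] [ProperSpace V] {e : V} {m : ℕ} (G : Sys B e m) (r R : ℝ)
    (hr0 : 0 < r) (hr : r ≤ G.r) (hG : 0 < G.R) (hR : G.R ≤ R) :
    Eqv G.K (Sys.resize G r R hr0 hr hR).K :=
  (thin G r hr0 hr).trans (widen (Sys.resize G r G.R hr0 hr le_rfl) R hG hR)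

theorem R_pos {e : V} {m : ℕ} (hm : 0 < m) (G : Sys B e m) : 0 < G.R := by
  have := G.bd ⟨0, hm⟩ 0
  have h1 := norm_nonneg (G.x ⟨0, hm⟩ 0)
  have := G.hr
  linarith

/-- **B1 = T1**: isotopic systems with at least one strand have equivalent links. -/
theorem T1 [ProperSpace B] [ProperSpace V] [CompleteSpace V] {e : V} {m : ℕ} (hm : 0 < m)
    (G G' : Sys B e m) (h : Isot G G') : Eqv G.K G'.K := by
  obtain ⟨X, N, hX, hN, nN, sep, wall, h0, h1⟩ := h
  have hK : IsCompact (Icc (0 : ℝ) 1 ×ˢ closedBall (0 : B) 1) :=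
    isCompact_Icc.prod (isCompact_closedBall _ _)
  obtain ⟨δ, hδ, hδ'⟩ := exists_lower (ι := {q : Fin m × Fin m // q.1 ≠ q.2}) hK
    (fun q p => ‖X q.1.1 p - X q.1.2 p‖) (fun q => ((hX _).sub (hX _)).norm)
    (fun q p hp => norm_pos_iff.2 (sub_ne_zero.2
      (sep _ _ q.2 p.1 hp.1 p.2 (mem_closedBall_zero_iff.1 hp.2))))
  obtain ⟨M, hM⟩ := exists_upper hK (fun k p => ‖X k p‖) (fun k => (hX k).norm)
  set r := min (min G.r G'.r) (δ / 4) with hrdef
  set R := max (max G.R G'.R) (M + 2 * r) with hRdef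
  have hr0 : 0 < r := lt_min (lt_min G.hr G'.hr) (by positivity)
  have a1 : r ≤ G.r := (min_le_left _ _).trans (min_le_left _ _)
  have a2 : r ≤ G'.r := (min_le_left _ _).trans (min_le_right _ _)
  have a3 : r ≤ δ / 4 := min_le_right _ _
  have b1 : G.R ≤ R := (le_max_left _ _).trans (le_max_left _ _)
  have b2 : G'.R ≤ R := (le_max_right _ _).trans (le_max_left _ _)
  have b3 : M + 2 * r ≤ R := le_max_right _ _
  refine ((rad G r R hr0 a1 (R_pos hm G) b1).trans ?_).trans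
    (rad G' r R hr0 a2 (R_pos hm G') b2).symm
  refine T1same _ _ rfl rfl X N hX hN nN (fun k l hkl t ht u hu => ?_) (fun k t ht u hu => ?_)
    wall h0 h1
  · have := hδ' ⟨(k, l), hkl⟩ (t, u) ⟨ht, mem_closedBall_zero_iff.2 hu⟩
    show 4 * r ≤ _
    linarith
  · have := hM k (t, u) ⟨ht, mem_closedBall_zero_iff.2 hu⟩
    show _ + 2 * r ≤ R
    linarith

end Crest.Agent.R267.Rad_118
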