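import Crest.Agent.R267.NF_808
import Crest.Agent.R267.Norm_855

/-!
# T2-1 REAL (row 267): every integer matrix is the matrix of a family of strands

`realProp (hn : 1 ≤ n) : RealProp n`.  The set of realised matrices is closed under `+` (`cat`) and
`-` (`rev`), and contains the matrix units: strand `a` runs along the segment from `p a` to the unit
ball around `p b` and does `± al` there; the points `p k` lie on a parabola, so all other
differences stay in open half spaces.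
-/

set_option autoImplicit false

namespace Crest.Agent.R267.Real_855

open Set Metric Filter Topology
open scoped RealInnerProductSpace
open Crest.Agent.R267.GS_808 Crest.Agent.R267.DraftB_808 Crest.Agent.R267.NF_808
open Crest.Agent.R267.Norm_855

noncomputable section

variable {n : ℕ}

/-! ### `cat` and `rev` -/

lemma one_ne : (1 : Fin (n + 2)) ≠ 0 := by
  intro h; have := congrArg Fin.val h; simp at this

lemma exists_coord {k : ℕ} {u : Bc k} (hu : 1 ≤ ‖u‖) : ∃ i, 1 ≤ |u i| := by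
  by_contra hc
  push Not at hc
  have : ‖u‖ < 1 := (pi_norm_lt_iff zero_lt_one).2 fun i => by
    rw [Real.norm_eq_abs]; exact hc i
  linarith

lemma norm_of_coord {k : ℕ} {u : Bc k} {i : Fin k} (hi : 1 ≤ |u i|) : 1 ≤ ‖u‖ :=
  hi.trans (norm_le_pi_norm u i)

lemma coordL {u : Bc (n + 2)} (h1 : u 1 ≤ 0) {i : Fin (n + 2)} (hi : 1 ≤ |u i|) :
    1 ≤ |blowL u i| := by
  unfold blowL
  by_cases h : i = 1
  · subst h
    rw [Function.update_self]
    rw [abs_of_nonpos h1] at hi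
    rw [abs_of_nonpos (by linarith)]
    linarith
  · rwa [Function.update_of_ne h]

lemma coordR {u : Bc (n + 2)} (h1 : 0 ≤ u 1) {i : Fin (n + 2)} (hi : 1 ≤ |u i|) :
    1 ≤ |blowR u i| := by
  unfold blowR
  by_cases h : i = 1
  · subst h
    rw [Function.update_self]
    rw [abs_of_nonneg h1] at hi
    rw [abs_of_nonneg (by linarith)]
    linarith
  · rwa [Function.update_of_ne h]

lemma restL {u : Bc (n + 2)} (h1 : u 1 ≤ 0) (h : RestAt u) : RestAt (blowL u) := by
  rcases h with h | ⟨i, hi, h⟩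
  · left
    unfold blowL
    rwa [Function.update_of_ne one_ne.symm]
  · exact Or.inr ⟨i, hi, coordL h1 h⟩

lemma restR {u : Bc (n + 2)} (h1 : 0 ≤ u 1) (h : RestAt u) : RestAt (blowR u) := by
  rcases h with h | ⟨i, hi, h⟩
  · left
    unfold blowR
    rwa [Function.update_of_ne one_ne.symm]
  · exact Or.inr ⟨i, hi, coordR h1 h⟩

lemma normL {u : Bc (n + 2)} (h1 : u 1 ≤ 0) (h : 1 ≤ ‖u‖) : 1 ≤ ‖blowL u‖ := by
  obtain ⟨i, hi⟩ := exists_coord h
  exact norm_of_coord (coordL h1 hi)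

lemma normR {u : Bc (n + 2)} (h1 : 0 ≤ u 1) (h : 1 ≤ ‖u‖) : 1 ≤ ‖blowR u‖ := by
  obtain ⟨i, hi⟩ := exists_coord h
  exact norm_of_coord (coordR h1 hi)

lemma continuous_blowL : Continuous (blowL (n := n)) := by
  unfold blowL
  exact continuous_id.update 1 (by fun_prop)

lemma continuous_blowR : Continuous (blowR (n := n)) := by
  unfold blowR
  exact continuous_id.update 1 (by fun_prop)

section

variable {X : Type*} {f g : Bc (n + 2) → X} {y : X}

lemma mid_blowL {u : Bc (n + 2)} (h : u 1 = 0) : RestAt (blowL u) := by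
  refine Or.inr ⟨1, one_ne, ?_⟩
  unfold blowL
  rw [Function.update_self, h]; norm_num

lemma mid_blowR {u : Bc (n + 2)} (h : u 1 = 0) : RestAt (blowR u) := by
  refine Or.inr ⟨1, one_ne, ?_⟩
  unfold blowR
  rw [Function.update_self, h]; norm_num

lemma continuous_cat [TopologicalSpace X] (hf : Continuous f) (hg : Continuous g)
    (rf : IsRest y f) (rg : IsRest y g) : Continuous (cat f g) := by
  unfold cat
  refine Continuous.if_le (hf.comp continuous_blowL) (hg.comp continuous_blowR)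
    (continuous_apply 1) continuous_const fun u hu => ?_
  rw [rf _ (mid_blowL hu), rg _ (mid_blowR hu)]

lemma rest_cat (rf : IsRest y f) (rg : IsRest y g) : IsRest y (cat f g) := by
  intro u hu
  unfold cat
  split_ifs with h
  · exact rf _ (restL h hu)
  · exact rg _ (restR (not_le.1 h).le hu)

lemma wall_cat (P : X → Prop) (hf : ∀ u, 1 ≤ ‖u‖ → P (f u)) (hg : ∀ u, 1 ≤ ‖u‖ → P (g u)) :
    ∀ u, 1 ≤ ‖u‖ → P (cat f g u) := by
  intro u hu
  unfold cat
  split_ifs with h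
  · exact hf _ (normL h hu)
  · exact hg _ (normR (not_le.1 h).le hu)

/-- the reversed point -/
def rv (u : Bc (n + 2)) : Bc (n + 2) := Function.update u 1 (-(u 1))

lemma rev_eq (u : Bc (n + 2)) : rev f u = f (rv u) := rfl

lemma continuous_rv : Continuous (rv (n := n)) := by
  unfold rv
  exact continuous_id.update 1 (by fun_prop)

lemma coord_rv {u : Bc (n + 2)} {i : Fin (n + 2)} (hi : 1 ≤ |u i|) : 1 ≤ |rv u i| := by
  unfold rv
  by_cases h : i = 1
  · subst h
    rwa [Function.update_self, abs_neg]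
  · rwa [Function.update_of_ne h]

lemma rest_rv {u : Bc (n + 2)} (h : RestAt u) : RestAt (rv u) := by
  rcases h with h | ⟨i, hi, h⟩
  · left
    unfold rv
    rwa [Function.update_of_ne one_ne.symm]
  · exact Or.inr ⟨i, hi, coord_rv h⟩

lemma norm_rv {u : Bc (n + 2)} (h : 1 ≤ ‖u‖) : 1 ≤ ‖rv u‖ := by
  obtain ⟨i, hi⟩ := exists_coord h
  exact norm_of_coord (coord_rv hi)

end

/-! ### realised matrices -/

/-- `A` is the matrix of a family with rest points `p`. -/
def Rl {m : ℕ} (j : Fin m) (p : Fin m → Vc (n + 2)) (A : Matrix (Fin m) (Fin m) ℤ) : Prop :=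
  ∃ O : OthD n m j, O.p = p ∧
    (∀ k l, l < k → Typ n (fun u => O.y k u - O.y l u) (A k l) (A l k)) ∧
    ∀ k, TypN n (O.N k) (A k k)

variable {m : ℕ} {j : Fin m} {p : Fin m → Vc (n + 2)}

lemma adm_of (O : OthD n m j) {k l : Fin m} (h : k ≠ l) :
    Adm (n + 2) (fun u => O.y k u - O.y l u) where
  cont := (O.c_y k).sub (O.c_y l)
  ne u := sub_ne_zero.2 (O.sep k l u h)
  hor u hu := by rw [inner_sub_right, O.wall_y k u hu, O.wall_y l u hu, sub_zero]

lemma rest_sub (O : OthD n m j) (k l : Fin m) :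
    IsRest (O.p k - O.p l) (fun u => O.y k u - O.y l u) := fun u hu => by
  show O.y k u - O.y l u = _
  rw [O.rest_y k u hu, O.rest_y l u hu]

lemma N_ne (O : OthD n m j) (k : Fin m) (u : Bc (n + 2)) : O.N k u ≠ 0 := by
  intro h
  have := O.n_N k u
  rw [h, norm_zero] at this
  exact zero_ne_one this

lemma Rl.add {A A' : Matrix (Fin m) (Fin m) ℤ} (h : Rl j p A) (h' : Rl j p A') :
    Rl j p (A + A') := by
  obtain ⟨O, hp, hT, hN⟩ := h
  obtain ⟨O', hp', hT', hN'⟩ := h'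
  have rest' : ∀ k, IsRest (O.p k) (O'.y k) := fun k => by rw [hp, ← hp']; exact O'.rest_y k
  refine ⟨{
    y := fun k => cat (O.y k) (O'.y k)
    N := fun k => cat (O.N k) (O'.N k)
    p := O.p
    c_y := fun k => continuous_cat (O.c_y k) (O'.c_y k) (O.rest_y k) (rest' k)
    c_N := fun k => continuous_cat (O.c_N k) (O'.c_N k) (O.rest_N k) (O'.rest_N k)
    n_N := fun k u => by
      unfold cat; split_ifs
      · exact O.n_N k _
      · exact O'.n_N k _
    yj := fun u => by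
      unfold cat; split_ifs
      · exact O.yj _
      · exact O'.yj _
    sep := fun k l u hkl => by
      unfold cat; split_ifs
      · exact O.sep k l _ hkl
      · exact O'.sep k l _ hkl
    far := fun k u hk => by
      unfold cat; split_ifs
      · exact O.far k _ hk
      · exact O'.far k _ hk
    p_e := O.p_e
    p_h := O.p_h
    p_norm := O.p_norm
    rest_y := fun k => rest_cat (O.rest_y k) (rest' k)
    rest_N := fun k => rest_cat (O.rest_N k) (O'.rest_N k)
    wall_y := fun k => wall_cat (fun v => ⟪ec (n + 2), v⟫ = 0) (O.wall_y k) (O'.wall_y k)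
    wall_N := fun k => wall_cat (fun v => v = ec (n + 2)) (O.wall_N k) (O'.wall_N k) }, hp,
    fun k l hlk => ?_, fun k => ?_⟩
  · have h1 := Typ.cat (O.p k - O.p l) (adm_of O hlk.ne') (adm_of O' hlk.ne') (rest_sub O k l)
      (by have := rest_sub O' k l; rw [hp', ← hp] at this; exact this)
      (hT k l hlk) (hT' k l hlk)
    have h2 : (cat (fun u => O.y k u - O.y l u) (fun u => O'.y k u - O'.y l u)) =
        fun u => cat (O.y k) (O'.y k) u - cat (O.y l) (O'.y l) u := by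
      funext u
      unfold cat
      split_ifs <;> rfl
    rw [h2] at h1
    exact h1
  · exact TypN.cat (O.c_N k) (O'.c_N k) (N_ne O k) (N_ne O' k) (O.wall_N k) (O'.wall_N k)
      (hN k) (hN' k)

lemma Rl.neg {A : Matrix (Fin m) (Fin m) ℤ} (h : Rl j p A) : Rl j p (-A) := by
  obtain ⟨O, hp, hT, hN⟩ := h
  refine ⟨{
    y := fun k => rev (O.y k)
    N := fun k => rev (O.N k)
    p := O.p
    c_y := fun k => (O.c_y k).comp continuous_rv
    c_N := fun k => (O.c_N k).comp continuous_rv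
    n_N := fun k u => O.n_N k _
    yj := fun u => O.yj _
    sep := fun k l u hkl => O.sep k l _ hkl
    far := fun k u hk => O.far k _ hk
    p_e := O.p_e
    p_h := O.p_h
    p_norm := O.p_norm
    rest_y := fun k u hu => O.rest_y k _ (rest_rv hu)
    rest_N := fun k u hu => O.rest_N k _ (rest_rv hu)
    wall_y := fun k u hu => O.wall_y k _ (norm_rv hu)
    wall_N := fun k u hu => O.wall_N k _ (norm_rv hu) }, hp,
    fun k l hlk => Typ.rev (O.p k - O.p l) (adm_of O hlk.ne') (rest_sub O k l) (hT k l hlk),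
    fun k => TypN.rev (O.c_N k) (N_ne O k) (O.wall_N k) (hN k)⟩

/-! ### the elementary loop -/

/-- blow up the complement of the collar of the rest part -/
def blw (t : ℝ) (u : Bc (n + 2)) : Bc (n + 2) := fun i =>
  if i = 0 then u 0 + t * (u 0 + 1) / 3 else (1 + t) * u i

lemma continuous_blw : Continuous fun p : ℝ × Bc (n + 2) => blw p.1 p.2 := by
  unfold blw
  refine continuous_pi fun i => ?_
  by_cases h : i = 0
  · simp only [h, if_true]; fun_prop
  · simp only [h, if_false]; fun_prop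

lemma blw_zero (u : Bc (n + 2)) : blw 0 u = u := by
  funext i
  unfold blw
  by_cases h : i = 0
  · simp [h]
  · simp [h]

lemma coord_blw {t : ℝ} (ht : 0 ≤ t) {u : Bc (n + 2)} {i : Fin (n + 2)} (hi : 1 ≤ |u i|) :
    1 ≤ |blw t u i| := by
  unfold blw
  by_cases h : i = 0
  · subst h
    rw [if_pos rfl]
    rcases le_abs.1 hi with h1 | h1
    · rw [le_abs]; left
      have : 0 ≤ t * (u 0 + 1) := mul_nonneg ht (by linarith)
      linarith
    · rw [le_abs]; right
      have : 0 ≤ t * (-(u 0) - 1) := mul_nonneg ht (by linarith)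
      linarith
  · rw [if_neg h, abs_mul, abs_of_nonneg (by linarith : (0 : ℝ) ≤ 1 + t)]
    nlinarith

lemma norm_blw {t : ℝ} (ht : 0 ≤ t) {u : Bc (n + 2)} (hu : 1 ≤ ‖u‖) : 1 ≤ ‖blw t u‖ := by
  obtain ⟨i, hi⟩ := exists_coord hu
  exact norm_of_coord (coord_blw ht hi)

lemma rest_blw {u : Bc (n + 2)} (hu : 1 / 2 < rho u) : RestAt (blw 1 u) := by
  rcases lt_max_iff.1 hu with h | h
  · obtain ⟨i, hi⟩ : ∃ i : Fin (n + 1), 1 / 2 < |u i.succ| := by
      by_contra hc
      push Not at hc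
      have : ‖fun i : Fin (n + 1) => u i.succ‖ ≤ 1 / 2 :=
        (pi_norm_le_iff_of_nonneg (by norm_num)).2 hc
      linarith
    refine Or.inr ⟨i.succ, Fin.succ_ne_zero i, ?_⟩
    unfold blw
    rw [if_neg (Fin.succ_ne_zero i), abs_mul, abs_of_pos (by norm_num : (0 : ℝ) < 1 + 1)]
    linarith
  · left
    unfold blw
    rw [if_pos rfl]
    linarith

lemma rho_ge {u : Bc (n + 2)} (h : RestAt u) : 1 ≤ rho u := by
  rcases h with h | ⟨i, hi, h⟩
  · exact h.trans (le_max_right _ _)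
  · obtain ⟨k, rfl⟩ := Fin.exists_succ_eq.2 hi
    have h1 := norm_le_pi_norm (fun i : Fin (n + 1) => u i.succ) k
    exact (h.trans h1).trans (le_max_left _ _)

/-- collar coordinate -/
def tau (u : Bc (n + 2)) : ℝ := max 0 (min 1 (2 * rho u - 1))

lemma continuous_tau : Continuous (tau (n := n)) := by
  unfold tau
  have := continuous_rho (n := n + 1)
  fun_prop

lemma tau_nonneg (u : Bc (n + 2)) : 0 ≤ tau u := le_max_left _ _

lemma tau_le (u : Bc (n + 2)) : tau u ≤ 1 := max_le zero_le_one (min_le_left _ _)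

lemma tau_rest {u : Bc (n + 2)} (h : RestAt u) : tau u = 1 := by
  have := rho_ge h
  unfold tau
  rw [min_eq_left (by linarith), max_eq_right zero_le_one]

lemma rest_of_tau {u : Bc (n + 2)} (h : tau u ≠ 0) : RestAt (blw 1 u) := by
  apply rest_blw
  by_contra hc
  push Not at hc
  apply h
  unfold tau
  exact max_eq_left ((min_le_right _ _).trans (by linarith))

/-! ### `pt`, `al` -/

lemma pt_last {k : ℕ} (u : Bc k) (z : ℝ) : (pt u z : Vc k) (Fin.last k) = z := by
  simp [pt]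

lemma pt_castSucc {k : ℕ} (u : Bc k) (z : ℝ) (i : Fin k) : (pt u z : Vc k) i.castSucc = u i := by
  simp [pt]

lemma continuous_pt {k : ℕ} : Continuous fun p : Bc k × ℝ => (pt p.1 p.2 : Vc k) := by
  unfold pt
  refine (PiLp.continuous_toLp 2 _).comp ?_
  refine continuous_pi fun i => ?_
  refine Fin.lastCases ?_ (fun i => ?_) i
  · simp only [Fin.snoc_last]; exact continuous_snd
  · simp only [Fin.snoc_castSucc]; exact (continuous_apply i).comp continuous_fst

lemma continuous_al {k : ℕ} : Continuous (al (n := k)) := by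
  unfold al
  exact continuous_pt.comp (continuous_id.prodMk (by fun_prop))

lemma al_height {k : ℕ} {u : Bc k} (hu : ‖u‖ = 1) : ⟪ec k, al u⟫ = 0 := by
  rw [inner_ec, al, pt_last, hu, sub_self]

lemma half_le_al {k : ℕ} (u : Bc k) : 1 / 2 ≤ ‖al u‖ := by
  rcases le_or_gt ‖u‖ (1 / 2) with h | h
  · have h1 := EuclideanSpace.norm_eq (al u)
    have h2 : ‖(al u : Vc k) (Fin.last k)‖ ≤ ‖al u‖ := PiLp.norm_apply_le _ _
    rw [al, pt_last, ← al, Real.norm_eq_abs] at h2
    exact le_trans (by linarith [le_abs_self (1 - ‖u‖)]) h2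
  · obtain ⟨i, hi⟩ : ∃ i, 1 / 2 ≤ |u i| := by
      by_contra hc
      push Not at hc
      have : ‖u‖ ≤ 1 / 2 := (pi_norm_le_iff_of_nonneg (by norm_num)).2 fun i => (hc i).le
      linarith
    have h2 : ‖(al u : Vc k) i.castSucc‖ ≤ ‖al u‖ := PiLp.norm_apply_le _ _
    rw [al, pt_castSucc, ← al, Real.norm_eq_abs] at h2
    exact hi.trans h2

lemma al_ne {k : ℕ} (u : Bc k) : al u ≠ 0 := by
  intro h
  have := half_le_al u
  rw [h, norm_zero] at this
  linarith

lemma al_e0 {k : ℕ} : al (e0 : Bc (k + 1)) = hc k := by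
  rw [al, norm_e0, sub_self]
  ext i
  refine Fin.lastCases ?_ (fun i => ?_) i
  · rw [pt_last, hc]
    have : (Fin.last (k + 1) : Fin (k + 1 + 1)) ≠ 0 := by
      intro h; have := congrArg Fin.val h; simp at this
    simp [this]
  · rw [pt_castSucc, hc]
    by_cases hi : i = 0
    · subst hi; simp [e0]
    · have : i.castSucc ≠ (0 : Fin (k + 1 + 1)) := by
        intro h
        apply hi
        exact Fin.castSucc_injective _ (h.trans Fin.castSucc_zero.symm)
      rw [e0_ne hi]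
      simp [this]

lemma exists_bound_al (k : ℕ) : ∃ C : ℝ, 1 ≤ C ∧ ∀ u : Bc k, ‖u‖ ≤ 1 → ‖al u‖ ≤ C := by
  obtain ⟨C, hC⟩ := (isCompact_closedBall (0 : Bc k) 1).exists_bound_of_continuousOn
    (continuous_al (k := k)).continuousOn
  refine ⟨max C 1, le_max_right _ _, fun u hu => ?_⟩
  exact (hC u (mem_closedBall_zero_iff.2 hu)).trans (le_max_left _ _)

/-! ### the elementary loop, continued -/

/-- `al` in rest form and blown up -/
def fb (u : Bc (n + 2)) : Vc (n + 2) := al (cc (blw 1 u))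

lemma continuous_fb : Continuous (fb (n := n)) := by
  unfold fb
  have h : Continuous fun u : Bc (n + 2) => ((1 : ℝ), u) := by fun_prop
  exact continuous_al.comp (continuous_cc.comp (continuous_blw.comp h))

lemma fb_of_tau {u : Bc (n + 2)} (h : tau u ≠ 0) : fb u = hc (n + 1) := by
  unfold fb
  rw [cc_rest (rest_of_tau h), al_e0]

lemma fb_ne (u : Bc (n + 2)) : fb u ≠ 0 := al_ne _

lemma fb_height {u : Bc (n + 2)} (hu : 1 ≤ ‖u‖) : ⟪ec (n + 2), fb u⟫ = 0 :=
  al_height (norm_cc (norm_blw zero_le_one hu))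

lemma inner_hc (v : Vc (n + 2)) : ⟪hc (n + 1), v⟫ = v 0 := by
  rw [hc, EuclideanSpace.inner_single_left]; simp

lemma hc_hc : ⟪hc (n + 1), hc (n + 1)⟫ = 1 := by
  rw [inner_hc, hc]; simp

lemma ec_hc : ⟪ec (n + 2), hc (n + 1)⟫ = 0 := by
  rw [inner_ec, hc]
  have : (Fin.last (n + 2) : Fin (n + 2 + 1)) ≠ 0 := by
    intro h; have := congrArg Fin.val h; simp at this
  simp [this]

lemma hc_ne : hc (n + 1) ≠ 0 := by
  intro h
  have := hc_hc (n := n)
  rw [h, inner_zero_left] at this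
  exact zero_ne_one this

/-- the elementary loop with a parameter -/
def els (s σ : ℝ) (q : Vc (n + 2)) (u : Bc (n + 2)) : Vc (n + 2) :=
  σ • fb u + (s * tau u) • (q - σ • hc (n + 1))

/-- the elementary loop: class `al` (`σ = 1`) or `-al` (`σ = -1`), rest value `q`. -/
def ell (σ : ℝ) (q : Vc (n + 2)) (u : Bc (n + 2)) : Vc (n + 2) :=
  σ • fb u + tau u • (q - σ • hc (n + 1))

lemma els_ne {s σ : ℝ} (hσ : σ ≠ 0) {q : Vc (n + 2)} (hq : q ≠ 0) (hqh : ⟪hc (n + 1), q⟫ = 0)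
    (u : Bc (n + 2)) : els s σ q u ≠ 0 := by
  unfold els
  by_cases h : tau u = 0
  · rw [h, mul_zero, zero_smul, add_zero]
    exact smul_ne_zero hσ (fb_ne u)
  · rw [fb_of_tau h]
    intro h0
    have h1 := congrArg (fun v => ⟪hc (n + 1), v⟫) h0
    simp only [inner_add_right, inner_smul_right, inner_sub_right, hc_hc, hqh, inner_zero_right]
      at h1
    have h2 : σ * (1 - s * tau u) = 0 := by linarith
    have h3 : s * tau u = 1 := by
      rcases mul_eq_zero.1 h2 with h4 | h4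
      · exact absurd h4 hσ
      · linarith
    rw [h3, one_smul, add_sub_cancel] at h0
    exact hq h0

lemma els_one (σ : ℝ) (q : Vc (n + 2)) (u : Bc (n + 2)) : els 1 σ q u = ell σ q u := by
  unfold els ell; rw [one_mul]

lemma els_zero (σ : ℝ) (q : Vc (n + 2)) (u : Bc (n + 2)) : els 0 σ q u = σ • fb u := by
  unfold els; rw [zero_mul, zero_smul, add_zero]

lemma ell_ne {σ : ℝ} (hσ : σ ≠ 0) {q : Vc (n + 2)} (hq : q ≠ 0) (hqh : ⟪hc (n + 1), q⟫ = 0)
    (u : Bc (n + 2)) : ell σ q u ≠ 0 := by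
  rw [← els_one]; exact els_ne hσ hq hqh u

lemma continuous_els (σ : ℝ) (q : Vc (n + 2)) :
    Continuous fun p : ℝ × Bc (n + 2) => els p.1 σ q p.2 := by
  unfold els
  have h1 := continuous_fb (n := n)
  have h2 := continuous_tau (n := n)
  fun_prop

lemma continuous_ell (σ : ℝ) (q : Vc (n + 2)) : Continuous (ell σ q) := by
  unfold ell
  have h1 := continuous_fb (n := n)
  have h2 := continuous_tau (n := n)
  fun_prop

lemma ell_rest (σ : ℝ) (q : Vc (n + 2)) : IsRest q (ell σ q) := by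
  intro u hu
  unfold ell
  have h := tau_rest hu
  rw [fb_of_tau (by rw [h]; exact one_ne_zero), h, one_smul, add_sub_cancel]

lemma els_height (s σ : ℝ) {q : Vc (n + 2)} (hq : ⟪ec (n + 2), q⟫ = 0) {u : Bc (n + 2)}
    (hu : 1 ≤ ‖u‖) : ⟪ec (n + 2), els s σ q u⟫ = 0 := by
  unfold els
  rw [inner_add_right, inner_smul_right, inner_smul_right, inner_sub_right, inner_smul_right,
    fb_height hu, hq, ec_hc]
  ring

lemma ell_height (σ : ℝ) {q : Vc (n + 2)} (hq : ⟪ec (n + 2), q⟫ = 0) {u : Bc (n + 2)}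
    (hu : 1 ≤ ‖u‖) : ⟪ec (n + 2), ell σ q u⟫ = 0 := by
  rw [← els_one]; exact els_height 1 σ hq hu

lemma neg_ell (σ : ℝ) (q : Vc (n + 2)) (u : Bc (n + 2)) : -(ell σ q u) = ell (-σ) (-q) u := by
  unfold ell
  module

lemma fh_fb {σ : ℝ} (hσ : σ ≠ 0) :
    FH (ec (n + 2)) (fun u : Bc (n + 2) => σ • al u) (fun u => σ • fb u) := by
  refine ⟨fun p => σ • al (cn p.1 (cl (blw p.1 p.2))), ?_, fun t ht u _ => ?_,
    fun t ht u hu => ?_, fun u hu => ?_, fun u _ => rfl⟩
  · have h1 : Continuous fun p : ℝ × Bc (n + 2) => (p.1, cl (blw p.1 p.2)) :=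
      continuous_fst.prodMk (continuous_cl.comp continuous_blw)
    have h2 := (continuousOn_cn (n := n + 1)).comp (h1.continuousOn
      (s := Icc (0 : ℝ) 1 ×ˢ closedBall (0 : Bc (n + 2)) 1)) fun p hp => ⟨hp.1, mem_univ _⟩
    exact (continuous_al.comp_continuousOn h2).const_smul σ
  · exact smul_ne_zero hσ (al_ne _)
  · show ⟪ec (n + 2), σ • al (cn t (cl (blw t u)))⟫ = 0
    rw [inner_smul_right, al_height, mul_zero]
    rw [norm_cn ht, norm_cl (norm_blw ht.1 hu.ge)]
  · show σ • al (cn 0 (cl (blw 0 u))) = σ • al u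
    rw [cn_zero, blw_zero, cl_of_le hu]

lemma fh_ell {σ : ℝ} (hσ : σ ≠ 0) {q : Vc (n + 2)} (hq : q ≠ 0) (hqh : ⟪hc (n + 1), q⟫ = 0)
    (hqe : ⟪ec (n + 2), q⟫ = 0) :
    FH (ec (n + 2)) (fun u : Bc (n + 2) => σ • fb u) (ell σ q) :=
  ⟨fun p => els p.1 σ q p.2, (continuous_els σ q).continuousOn,
    fun _ _ u _ => els_ne hσ hq hqh u, fun t _ _ hu => els_height t σ hqe hu.ge,
    fun u _ => els_zero σ q u, fun u _ => els_one σ q u⟩

lemma typ_ell_one {q : Vc (n + 2)} (hq : q ≠ 0) (hqh : ⟪hc (n + 1), q⟫ = 0)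
    (hqe : ⟪ec (n + 2), q⟫ = 0) : Typ n (ell 1 q) 1 0 := by
  have h : Typ n (fun u : Bc (n + 2) => (1 : ℝ) • al u) 1 0 := by
    simp only [one_smul]; exact Typ.al
  exact (h.congr (fh_fb one_ne_zero)).congr (fh_ell one_ne_zero hq hqh hqe)

lemma typ_ell_neg {q : Vc (n + 2)} (hq : q ≠ 0) (hqh : ⟪hc (n + 1), q⟫ = 0)
    (hqe : ⟪ec (n + 2), q⟫ = 0) : Typ n (ell (-1) q) 0 1 := by
  have h : Typ n (fun u : Bc (n + 2) => (-1 : ℝ) • al u) 0 1 := by
    simp only [neg_smul, one_smul]; exact Typ.be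
  have h1 : (-1 : ℝ) ≠ 0 := by norm_num
  exact (h.congr (fh_fb h1)).congr (fh_ell h1 hq hqh hqe)

/-- trivial differences -/
lemma typ_triv {g : Bc (n + 2) → Vc (n + 2)} (hg : Continuous g)
    (he : ∀ u, 1 ≤ ‖u‖ → ⟪ec (n + 2), g u⟫ = 0) {w : Vc (n + 2)} (hw : ⟪w, hc (n + 1)⟫ = 0)
    (h : ∀ u, ⟪w, g u⟫ ≠ 0) : Typ n g 0 0 := by
  refine Typ.zero.congr ⟨fun p => (1 - p.1) • hc (n + 1) + p.1 • g p.2, ?_, fun t _ u _ => ?_,
    fun t _ u hu => ?_, fun u _ => ?_, fun u _ => ?_⟩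
  · exact Continuous.continuousOn (by fun_prop)
  · intro h0
    have h1 := congrArg (fun v => ⟪w, v⟫) h0
    simp only [inner_add_right, inner_smul_right, hw, inner_zero_right, mul_zero, zero_add] at h1
    rcases mul_eq_zero.1 h1 with h2 | h2
    · subst h2
      simp only [sub_zero, one_smul, zero_smul, add_zero] at h0
      exact hc_ne h0
    · exact h u h2
  · show ⟪ec (n + 2), (1 - t) • hc (n + 1) + t • g u⟫ = 0
    rw [inner_add_right, inner_smul_right, inner_smul_right, ec_hc, he u hu.ge]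
    ring
  · show (1 - (0 : ℝ)) • hc (n + 1) + (0 : ℝ) • g u = hc (n + 1)
    rw [sub_zero, one_smul, zero_smul, add_zero]
  · show (1 - (1 : ℝ)) • hc (n + 1) + (1 : ℝ) • g u = g u
    rw [sub_self, one_smul, zero_smul, zero_add]

/-! ### good rest points -/

/-- rest points in convex position (with margin `C`) -/
structure Pts (C : ℝ) (j : Fin m) (p : Fin m → Vc (n + 2)) : Prop where
  pe : ∀ k, ⟪ec (n + 2), p k⟫ = 0
  ph : ∀ k, ⟪hc (n + 1), p k⟫ = 0
  sup : ∀ l, ∃ w : Vc (n + 2), ⟪w, hc (n + 1)⟫ = 0 ∧ ∀ k, k ≠ l → ‖w‖ * C < ⟪w, p k - p l⟫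
  pj : p j = 0
  nrm : ∀ k, k ≠ j → 1 ≤ ‖p k‖
  far : ∃ w : Vc (n + 2), ⟪w, hc (n + 1)⟫ = 0 ∧ ‖w‖ ≤ 1 ∧ ∀ k, k ≠ j → C + 1 / 2 ≤ ⟪w, p k⟫

lemma Pts.inj {C : ℝ} (hC : 1 ≤ C) (P : Pts C j p) {k l : Fin m} (h : k ≠ l) : p k - p l ≠ 0 := by
  obtain ⟨w, -, hw⟩ := P.sup l
  intro h0
  have := hw k h
  rw [h0, inner_zero_right] at this
  have h2 : 0 ≤ ‖w‖ * C := mul_nonneg (norm_nonneg _) (by linarith)
  linarith

/-- position of the moving strand -/
def mv (p : Fin m → Vc (n + 2)) (a b : Fin m) (σ : ℝ) (u : Bc (n + 2)) : Vc (n + 2) :=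
  p b + ell σ (p a - p b) u

lemma inner_mv (a b : Fin m) (σ : ℝ) {w : Vc (n + 2)} (hw : ⟪w, hc (n + 1)⟫ = 0)
    (u : Bc (n + 2)) :
    ⟪w, mv p a b σ u⟫ = (1 - tau u) * ⟪w, p b⟫ + tau u * ⟪w, p a⟫ + σ * ⟪w, fb u⟫ := by
  unfold mv ell
  simp only [inner_add_right, inner_smul_right, inner_sub_right, hw]
  ring

lemma inner_fb_le {C : ℝ} (hb : ∀ u : Bc (n + 2), ‖u‖ ≤ 1 → ‖al u‖ ≤ C) {σ : ℝ} (hσ : |σ| = 1)
    (w : Vc (n + 2)) (u : Bc (n + 2)) : -(‖w‖ * C) ≤ σ * ⟪w, fb u⟫ := by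
  have h1 : |σ * ⟪w, fb u⟫| ≤ ‖w‖ * C := by
    rw [abs_mul, hσ, one_mul]
    refine (abs_real_inner_le_norm _ _).trans ?_
    exact mul_le_mul_of_nonneg_left (hb _ (norm_cc_le _)) (norm_nonneg _)
  exact (abs_le.1 h1).1

lemma mv_sup {C : ℝ} (hb : ∀ u : Bc (n + 2), ‖u‖ ≤ 1 → ‖al u‖ ≤ C) {σ : ℝ} (hσ : |σ| = 1)
    {a b l : Fin m} {w : Vc (n + 2)} (hw : ⟪w, hc (n + 1)⟫ = 0)
    (ha : ‖w‖ * C < ⟪w, p a - p l⟫) (hb' : ‖w‖ * C < ⟪w, p b - p l⟫) (u : Bc (n + 2)) :
    0 < ⟪w, mv p a b σ u - p l⟫ := by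
  rw [inner_sub_right, inner_mv a b σ hw]
  rw [inner_sub_right] at ha hb'
  have h1 := inner_fb_le hb hσ w u
  have h2 := tau_nonneg u
  have h3 := tau_le u
  have h4 : 0 < (1 - tau u) * (⟪w, p b⟫ - ⟪w, p l⟫ - ‖w‖ * C) +
      tau u * (⟪w, p a⟫ - ⟪w, p l⟫ - ‖w‖ * C) := by
    rcases h2.eq_or_lt with h5 | h5
    · rw [← h5]; linarith
    · have h6 := mul_pos h5 (sub_pos.2 ha)
      have h7 := mul_nonneg (sub_nonneg.2 h3) (sub_pos.2 hb').le
      linarith
  linarith

lemma mv_far {C : ℝ} (hC : 1 ≤ C) (hb : ∀ u : Bc (n + 2), ‖u‖ ≤ 1 → ‖al u‖ ≤ C) {σ : ℝ}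
    (hσ : |σ| = 1) (P : Pts C j p) {a b : Fin m} (haj : a ≠ j) (u : Bc (n + 2)) :
    1 / 2 ≤ ‖mv p a b σ u‖ := by
  obtain ⟨w, hw, hw1, hwk⟩ := P.far
  have hle : ∀ v : Vc (n + 2), ⟪w, v⟫ ≤ ‖v‖ := fun v =>
    (real_inner_le_norm _ _).trans (by
      have := mul_le_mul_of_nonneg_right hw1 (norm_nonneg v)
      linarith)
  have h1 := inner_fb_le hb hσ w u
  have h2 := tau_nonneg u
  have h3 := tau_le u
  have h4 := hwk a haj
  have h5 : ‖w‖ * C ≤ C := by
    have := mul_le_mul_of_nonneg_right hw1 (by linarith : (0 : ℝ) ≤ C)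
    linarith
  by_cases hbj : b = j
  · by_cases ht : tau u = 0
    · unfold mv ell
      rw [hbj, P.pj, ht, zero_smul, add_zero, zero_add, norm_smul, Real.norm_eq_abs, hσ, one_mul]
      exact half_le_al _
    · rcases le_or_gt (tau u) (1 / 2) with h | h
      · have h6 : ⟪hc (n + 1), mv p a b σ u⟫ = σ * (1 - tau u) := by
          unfold mv ell
          rw [fb_of_tau ht, hbj, P.pj]
          simp only [inner_add_right, inner_smul_right, inner_sub_right, hc_hc, P.ph,
            inner_zero_right]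
          ring
        have h7 : |⟪hc (n + 1), mv p a b σ u⟫| ≤ ‖mv p a b σ u‖ := by
          have h8 : ‖hc (n + 1)‖ = 1 := by
            have := real_inner_self_eq_norm_sq (hc (n + 1))
            rw [hc_hc] at this
            nlinarith [norm_nonneg (hc (n + 1))]
          have := abs_real_inner_le_norm (hc (n + 1)) (mv p a b σ u)
          rwa [h8, one_mul] at this
        rw [h6, abs_mul, hσ, one_mul, abs_of_nonneg (by linarith)] at h7
        linarith
      · have h6 := hle (mv p a b σ u)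
        rw [inner_mv a b σ hw, fb_of_tau ht, hw, hbj, P.pj, inner_zero_right] at h6
        rw [hbj]
        nlinarith
  · have h6 := hle (mv p a b σ u)
    rw [inner_mv a b σ hw] at h6
    have h7 := hwk b hbj
    nlinarith

/-! ### the elementary families -/

lemma mv_rest (a b : Fin m) (σ : ℝ) : IsRest (p a) (mv p a b σ) := by
  intro u hu
  unfold mv
  rw [ell_rest σ _ u hu, add_sub_cancel]

lemma mv_height {C : ℝ} (P : Pts C j p) (a b : Fin m) (σ : ℝ) {u : Bc (n + 2)} (hu : 1 ≤ ‖u‖) :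
    ⟪ec (n + 2), mv p a b σ u⟫ = 0 := by
  unfold mv
  rw [inner_add_right, P.pe, ell_height σ (by rw [inner_sub_right, P.pe, P.pe, sub_zero]) hu,
    add_zero]

lemma continuous_mv (a b : Fin m) (σ : ℝ) : Continuous (mv p a b σ) :=
  continuous_const.add (continuous_ell σ _)

/-- the strands of the elementary family -/
def fy (p : Fin m → Vc (n + 2)) (a b : Fin m) (σ : ℝ) (k : Fin m) (u : Bc (n + 2)) : Vc (n + 2) :=
  if k = a then mv p a b σ u else p k

lemma norm_ec : ‖ec (n + 2)‖ = 1 := by simp [ec]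

/-- difference of two strands is nonzero, with a witness if it is trivial -/
lemma fy_sup {C : ℝ} (hC : 1 ≤ C) (hb : ∀ u : Bc (n + 2), ‖u‖ ≤ 1 → ‖al u‖ ≤ C) {σ : ℝ}
    (hσ : |σ| = 1) (P : Pts C j p) {a b k l : Fin m} (hkl : k ≠ l)
    (h1 : ¬ (k = a ∧ l = b)) (h2 : ¬ (k = b ∧ l = a)) :
    ∃ w : Vc (n + 2), ⟪w, hc (n + 1)⟫ = 0 ∧ ∀ u, ⟪w, fy p a b σ k u - fy p a b σ l u⟫ ≠ 0 := by
  have hpos : ∀ w : Vc (n + 2), 0 ≤ ‖w‖ * C := fun w =>
    mul_nonneg (norm_nonneg _) (by linarith)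
  by_cases hk : k = a
  · subst hk
    have hlb : b ≠ l := fun h => h1 ⟨rfl, h.symm⟩
    obtain ⟨w, hw, hs⟩ := P.sup l
    refine ⟨w, hw, fun u => ?_⟩
    unfold fy
    rw [if_pos rfl, if_neg hkl.symm]
    exact (mv_sup hb hσ hw (hs k hkl) (hs b hlb) u).ne'
  · by_cases hl : l = a
    · subst hl
      have hkb : b ≠ k := fun h => h2 ⟨h.symm, rfl⟩
      obtain ⟨w, hw, hs⟩ := P.sup k
      refine ⟨w, hw, fun u => ?_⟩
      unfold fy
      rw [if_pos rfl, if_neg hk]
      have := mv_sup hb hσ hw (hs l hkl.symm) (hs b hkb) u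
      rw [← neg_sub, inner_neg_right]
      exact (neg_neg_of_pos this).ne
    · obtain ⟨w, hw, hs⟩ := P.sup l
      refine ⟨w, hw, fun u => ?_⟩
      unfold fy
      rw [if_neg hk, if_neg hl]
      exact ((hpos w).trans_lt (hs k hkl)).ne'

lemma ph_sub {C : ℝ} (P : Pts C j p) (a b : Fin m) : ⟪hc (n + 1), p a - p b⟫ = 0 := by
  rw [inner_sub_right, P.ph, P.ph, sub_zero]

lemma pe_sub {C : ℝ} (P : Pts C j p) (a b : Fin m) : ⟪ec (n + 2), p a - p b⟫ = 0 := by
  rw [inner_sub_right, P.pe, P.pe, sub_zero]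

lemma fy_ab (a b : Fin m) (hab : a ≠ b) (σ : ℝ) (u : Bc (n + 2)) :
    fy p a b σ a u - fy p a b σ b u = ell σ (p a - p b) u := by
  unfold fy mv
  rw [if_pos rfl, if_neg hab.symm, add_sub_cancel_left]

lemma fy_ba (a b : Fin m) (hab : a ≠ b) (σ : ℝ) (u : Bc (n + 2)) :
    fy p a b σ b u - fy p a b σ a u = ell (-σ) (p b - p a) u := by
  rw [← neg_sub, fy_ab a b hab, neg_ell, neg_sub]

/-- the elementary family. -/
def fam {C : ℝ} (hC : 1 ≤ C) (hb : ∀ u : Bc (n + 2), ‖u‖ ≤ 1 → ‖al u‖ ≤ C) (P : Pts C j p)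
    (a b : Fin m) (hab : a ≠ b) (haj : a ≠ j) {σ : ℝ} (hσ : |σ| = 1) : OthD n m j where
  y := fy p a b σ
  N := fun _ _ => ec (n + 2)
  p := p
  c_y k := by
    unfold fy
    split_ifs
    · exact continuous_mv a b σ
    · exact continuous_const
  c_N _ := continuous_const
  n_N _ _ := norm_ec
  yj u := by
    unfold fy
    rw [if_neg haj.symm, P.pj]
  sep k l u hkl := by
    have hσ0 : σ ≠ 0 := by
      intro h; rw [h, abs_zero] at hσ; exact zero_ne_one hσ
    by_cases h1 : k = a ∧ l = b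
    · obtain ⟨rfl, rfl⟩ := h1
      exact sub_ne_zero.1 (by
        rw [fy_ab _ _ hab]; exact ell_ne hσ0 (P.inj hC hab) (ph_sub P _ _) u)
    · by_cases h2 : k = b ∧ l = a
      · obtain ⟨rfl, rfl⟩ := h2
        exact sub_ne_zero.1 (by
          rw [fy_ba _ _ hab]
          exact ell_ne (neg_ne_zero.2 hσ0) (P.inj hC hab.symm) (ph_sub P _ _) u)
      · obtain ⟨w, -, hw⟩ := fy_sup hC hb hσ P hkl h1 h2
        intro h
        apply hw u
        rw [h, sub_self, inner_zero_right]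
  far k u hk := by
    unfold fy
    split_ifs with h
    · exact mv_far hC hb hσ P haj u
    · linarith [P.nrm k hk]
  p_e := P.pe
  p_h := P.ph
  p_norm := P.nrm
  rest_y k := by
    intro u hu
    unfold fy
    split_ifs with h
    · rw [h]; exact mv_rest a b σ u hu
    · rfl
  rest_N _ _ _ := rfl
  wall_y k u hu := by
    unfold fy
    split_ifs
    · exact mv_height P a b σ hu
    · exact P.pe k
  wall_N _ _ _ := rfl

lemma rl_pos {C : ℝ} (hC : 1 ≤ C) (hb : ∀ u : Bc (n + 2), ‖u‖ ≤ 1 → ‖al u‖ ≤ C) (P : Pts C j p)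
    {a b : Fin m} (hab : a ≠ b) (haj : a ≠ j) : Rl j p (Matrix.single a b 1) := by
  have hσ : |(1 : ℝ)| = 1 := abs_one
  refine ⟨fam hC hb P a b hab haj hσ, rfl, fun k l hlk => ?_, fun k => ?_⟩
  · show Typ n (fun u => fy p a b 1 k u - fy p a b 1 l u) _ _
    by_cases h1 : k = a ∧ l = b
    · obtain ⟨rfl, rfl⟩ := h1
      rw [Matrix.single_apply_same, Matrix.single_apply_of_row_ne hab.symm.symm]
      simp only [fy_ab _ _ hab]
      exact typ_ell_one (P.inj hC hab) (ph_sub P _ _) (pe_sub P _ _)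
    · by_cases h2 : k = b ∧ l = a
      · obtain ⟨rfl, rfl⟩ := h2
        rw [Matrix.single_apply_same, Matrix.single_apply_of_row_ne hab]
        simp only [fy_ba _ _ hab]
        exact typ_ell_neg (P.inj hC hab.symm) (ph_sub P _ _) (pe_sub P _ _)
      · rw [Matrix.single_apply_of_ne _ _ _ _ _ (by rintro ⟨rfl, rfl⟩; exact h1 ⟨rfl, rfl⟩),
          Matrix.single_apply_of_ne _ _ _ _ _ (by rintro ⟨rfl, rfl⟩; exact h2 ⟨rfl, rfl⟩)]
        obtain ⟨w, hw, hne⟩ := fy_sup hC hb hσ P hlk.ne' h1 h2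
        have A := adm_of (fam hC hb P a b hab haj hσ) hlk.ne'
        exact typ_triv A.cont A.hor hw hne
  · rw [Matrix.single_apply_of_ne _ _ _ _ _ (by rintro ⟨rfl, h⟩; exact hab h.symm)]
    exact TypN.zero

lemma rl_neg' {C : ℝ} (hC : 1 ≤ C) (hb : ∀ u : Bc (n + 2), ‖u‖ ≤ 1 → ‖al u‖ ≤ C) (P : Pts C j p)
    {a b : Fin m} (hab : a ≠ b) (haj : a ≠ j) : Rl j p (Matrix.single b a 1) := by
  have hσ : |(-1 : ℝ)| = 1 := by norm_num
  refine ⟨fam hC hb P a b hab haj hσ, rfl, fun k l hlk => ?_, fun k => ?_⟩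
  · show Typ n (fun u => fy p a b (-1) k u - fy p a b (-1) l u) _ _
    by_cases h1 : k = a ∧ l = b
    · obtain ⟨rfl, rfl⟩ := h1
      rw [Matrix.single_apply_same, Matrix.single_apply_of_row_ne hab.symm]
      simp only [fy_ab _ _ hab]
      exact typ_ell_neg (P.inj hC hab) (ph_sub P _ _) (pe_sub P _ _)
    · by_cases h2 : k = b ∧ l = a
      · obtain ⟨rfl, rfl⟩ := h2
        rw [Matrix.single_apply_same, Matrix.single_apply_of_row_ne hab.symm.symm.symm]
        simp only [fy_ba _ _ hab, neg_neg]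
        exact typ_ell_one (P.inj hC hab.symm) (ph_sub P _ _) (pe_sub P _ _)
      · rw [Matrix.single_apply_of_ne _ _ _ _ _ (by rintro ⟨rfl, rfl⟩; exact h2 ⟨rfl, rfl⟩),
          Matrix.single_apply_of_ne _ _ _ _ _ (by rintro ⟨rfl, rfl⟩; exact h1 ⟨rfl, rfl⟩)]
        obtain ⟨w, hw, hne⟩ := fy_sup hC hb hσ P hlk.ne' h1 h2
        have A := adm_of (fam hC hb P a b hab haj hσ) hlk.ne'
        exact typ_triv A.cont A.hor hw hne
  · rw [Matrix.single_apply_of_ne _ _ _ _ _ (by rintro ⟨rfl, h⟩; exact hab h)]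
    exact TypN.zero

/-! ### the diagonal -/

lemma pt_zero_one {k : ℕ} : (pt 0 1 : Vc k) = ec k := by
  ext i
  refine Fin.lastCases ?_ (fun i => ?_) i
  · rw [pt_last, ec]; simp
  · rw [pt_castSucc, ec]
    have : i.castSucc ≠ Fin.last k := (Fin.castSucc_lt_last i).ne
    simp [this]

lemma ga_one {u : Bc (n + 2)} (hu : ‖u‖ = 1) : ga u = ec (n + 2) := by
  rw [ga, hu, sub_self, mul_zero, neg_zero, zero_smul, ← pt_zero_one]
  congr 1
  norm_num

lemma ga_ne (u : Bc (n + 2)) : ga u ≠ 0 := by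
  intro h
  have h1 : (ga u : Vc (n + 2)) (Fin.last _) = 0 := by rw [h]; rfl
  rw [ga, pt_last] at h1
  have h2 : u = 0 := by
    funext i
    have h3 : (ga u : Vc (n + 2)) i.castSucc = 0 := by rw [h]; rfl
    rw [ga, pt_castSucc, Pi.smul_apply, smul_eq_mul] at h3
    rcases mul_eq_zero.1 h3 with h4 | h4
    · exfalso; linarith
    · exact h4
  rw [h2, norm_zero] at h1
  norm_num at h1

lemma continuous_ga {k : ℕ} : Continuous (ga (n := k)) := by
  unfold ga
  have h : Continuous fun u : Bc k => ((-(4 * (1 - ‖u‖))) • u, 2 * ‖u‖ - 1) := by fun_prop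
  exact continuous_pt.comp h

/-- unit normal of class `γ` -/
def gn (u : Bc (n + 2)) : Vc (n + 2) := ‖ga (cl u)‖⁻¹ • ga (cl u)

lemma continuous_gn : Continuous (gn (n := n)) := by
  have h : Continuous fun u : Bc (n + 2) => ga (cl u) := continuous_ga.comp continuous_cl
  exact (h.norm.inv₀ fun u => (norm_pos_iff.2 (ga_ne _)).ne').smul h

lemma norm_gn (u : Bc (n + 2)) : ‖gn u‖ = 1 := by
  rw [gn, norm_smul, norm_inv, norm_norm, inv_mul_cancel₀ (norm_pos_iff.2 (ga_ne _)).ne']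

lemma gn_wall {u : Bc (n + 2)} (hu : 1 ≤ ‖u‖) : gn u = ec (n + 2) := by
  rw [gn, ga_one (norm_cl hu), norm_ec, inv_one, one_smul]

lemma typN_gn : TypN n (gn (n := n)) 1 := by
  refine TypN.ga.congr ⟨fun p => ((1 - p.1) + p.1 * ‖ga (cl p.2)‖⁻¹) • ga (cl p.2), ?_,
    fun t ht u _ => ?_, fun t _ u hu => ?_, fun u hu => ?_, fun u _ => ?_⟩
  · have h : Continuous fun p : ℝ × Bc (n + 2) => ga (cl p.2) :=
      continuous_ga.comp (continuous_cl.comp continuous_snd)
    have h1 : Continuous fun p : ℝ × Bc (n + 2) => ‖ga (cl p.2)‖⁻¹ :=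
      h.norm.inv₀ fun p => (norm_pos_iff.2 (ga_ne _)).ne'
    exact Continuous.continuousOn (by fun_prop)
  · refine smul_ne_zero (ne_of_gt ?_) (ga_ne _)
    have h1 : 0 < ‖ga (cl u)‖⁻¹ := inv_pos.2 (norm_pos_iff.2 (ga_ne _))
    rcases ht.2.eq_or_lt with h | h
    · rw [h]; linarith
    · have := mul_nonneg ht.1 h1.le
      linarith
  · show ((1 - t) + t * ‖ga (cl u)‖⁻¹) • ga (cl u) = ec (n + 2)
    rw [ga_one (norm_cl hu.ge), norm_ec, inv_one]
    rw [mul_one, sub_add_cancel, one_smul]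
  · show ((1 - (0 : ℝ)) + 0 * ‖ga (cl u)‖⁻¹) • ga (cl u) = ga u
    rw [zero_mul, sub_zero, add_zero, one_smul, cl_of_le hu]
  · show ((1 - (1 : ℝ)) + 1 * ‖ga (cl u)‖⁻¹) • ga (cl u) = gn u
    rw [sub_self, zero_add, one_mul, gn]

lemma const_sup {C : ℝ} (hC : 1 ≤ C) (P : Pts C j p) {k l : Fin m} (h : k ≠ l) :
    ∃ w : Vc (n + 2), ⟪w, hc (n + 1)⟫ = 0 ∧ ⟪w, p k - p l⟫ ≠ 0 := by
  obtain ⟨w, hw, hs⟩ := P.sup l
  have : 0 ≤ ‖w‖ * C := mul_nonneg (norm_nonneg _) (by linarith)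
  exact ⟨w, hw, (this.trans_lt (hs k h)).ne'⟩

lemma rl_diag {C : ℝ} (hC : 1 ≤ C) (P : Pts C j p) (a : Fin m) :
    Rl j p (Matrix.single a a 1) := by
  refine ⟨{
    y := fun k _ => p k
    N := fun k u => if k = a then gn u else ec (n + 2)
    p := p
    c_y := fun k => continuous_const
    c_N := fun k => by split_ifs; exacts [continuous_gn, continuous_const]
    n_N := fun k u => by split_ifs; exacts [norm_gn u, norm_ec]
    yj := fun u => P.pj
    sep := fun k l u hkl h => P.inj hC hkl (sub_eq_zero.2 h)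
    far := fun k u hk => by linarith [P.nrm k hk]
    p_e := P.pe
    p_h := P.ph
    p_norm := P.nrm
    rest_y := fun k u _ => rfl
    rest_N := fun k u hu => by
      show (if k = a then gn u else ec (n + 2)) = _
      split_ifs; exacts [gn_wall (rest_norm hu), rfl]
    wall_y := fun k u _ => P.pe k
    wall_N := fun k u hu => by split_ifs; exacts [gn_wall hu, rfl] }, rfl,
    fun k l hlk => ?_, fun k => ?_⟩
  · rw [Matrix.single_apply_of_ne _ _ _ _ _ (by rintro ⟨h, h'⟩; exact hlk.ne (h'.symm.trans h)),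
      Matrix.single_apply_of_ne _ _ _ _ _ (by rintro ⟨h, h'⟩; exact hlk.ne (h.symm.trans h'))]
    obtain ⟨w, hw, hne⟩ := const_sup hC P hlk.ne'
    exact typ_triv (g := fun _ => p k - p l) continuous_const (fun u _ => pe_sub P k l) hw
      fun _ => hne
  · by_cases h : k = a
    · subst h
      simp only [if_true, Matrix.single_apply_same]
      exact typN_gn
    · simp only [if_neg h]
      rw [Matrix.single_apply_of_ne _ _ _ _ _ (by rintro ⟨h', -⟩; exact h h'.symm)]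
      exact TypN.zero

/-! ### the parabola -/

lemma sq_ge_one {k l : Fin m} (h : k ≠ l) : (1 : ℝ) ≤ (((k : ℕ) : ℝ) - ((l : ℕ) : ℝ)) ^ 2 := by
  rcases lt_or_gt_of_ne (fun h' => h (Fin.ext h') : (k : ℕ) ≠ (l : ℕ)) with h1 | h1
  · have : ((k : ℕ) : ℝ) + 1 ≤ ((l : ℕ) : ℝ) := by exact_mod_cast h1
    nlinarith
  · have : ((l : ℕ) : ℝ) + 1 ≤ ((k : ℕ) : ℝ) := by exact_mod_cast h1
    nlinarith

lemma exists_pts (hn : 1 ≤ n) {C : ℝ} (hC : 1 ≤ C) (j : Fin m) :
    ∃ p : Fin m → Vc (n + 2), Pts C j p := by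
  set E1 : Vc (n + 2) := EuclideanSpace.single 1 1 with hE1
  set E2 : Vc (n + 2) := EuclideanSpace.single 2 1 with hE2
  have i1 : ∀ v : Vc (n + 2), ⟪E1, v⟫ = v 1 := fun v => by
    rw [hE1, EuclideanSpace.inner_single_left]; simp
  have i2 : ∀ v : Vc (n + 2), ⟪E2, v⟫ = v 2 := fun v => by
    rw [hE2, EuclideanSpace.inner_single_left]; simp
  have v2 : ((2 : Fin (n + 2 + 1)) : ℕ) = 2 := Fin.val_two
  have v1 : ((1 : Fin (n + 2 + 1)) : ℕ) = 1 := by simp
  have v0 : ((0 : Fin (n + 2 + 1)) : ℕ) = 0 := rfl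
  have vl : ((Fin.last (n + 2) : Fin (n + 2 + 1)) : ℕ) = n + 2 := rfl
  have h10 : (1 : Fin (n + 2 + 1)) ≠ 0 := by
    intro h; have := congrArg Fin.val h; omega
  have h20 : (2 : Fin (n + 2 + 1)) ≠ 0 := by
    intro h; have := congrArg Fin.val h; omega
  have h21 : (2 : Fin (n + 2 + 1)) ≠ 1 := by
    intro h; have := congrArg Fin.val h; omega
  have h1l : (1 : Fin (n + 2 + 1)) ≠ Fin.last _ := by
    intro h; have := congrArg Fin.val h; omega
  have h2l : (2 : Fin (n + 2 + 1)) ≠ Fin.last _ := by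
    intro h; have := congrArg Fin.val h; omega
  have e11 : ⟪E1, E1⟫ = 1 := by rw [i1, hE1]; simp
  have e12 : ⟪E1, E2⟫ = 0 := by rw [i1, hE2]; simp [h21.symm]
  have e21 : ⟪E2, E1⟫ = 0 := by rw [i2, hE1]; simp [h21]
  have e22 : ⟪E2, E2⟫ = 1 := by rw [i2, hE2]; simp
  have c1 : ⟪ec (n + 2), E1⟫ = 0 := by rw [inner_ec, hE1]; simp [h1l.symm]
  have c2 : ⟪ec (n + 2), E2⟫ = 0 := by rw [inner_ec, hE2]; simp [h2l.symm]
  have d1 : ⟪hc (n + 1), E1⟫ = 0 := by rw [inner_hc, hE1]; simp [h10.symm]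
  have d2 : ⟪hc (n + 1), E2⟫ = 0 := by rw [inner_hc, hE2]; simp [h20.symm]
  have n1 : ‖E1‖ = 1 := by simp [hE1]
  have n2 : ‖E2‖ = 1 := by simp [hE2]
  set x : Fin m → ℝ := fun k => ((k : ℕ) : ℝ) - ((j : ℕ) : ℝ) with hx
  have hxm : ∀ k, |x k| ≤ m := fun k => by
    have a1 : ((k : ℕ) : ℝ) ≤ m := by exact_mod_cast k.2.le
    have a2 : ((j : ℕ) : ℝ) ≤ m := by exact_mod_cast j.2.le
    have a3 : (0 : ℝ) ≤ ((k : ℕ) : ℝ) := Nat.cast_nonneg _
    have a4 : (0 : ℝ) ≤ ((j : ℕ) : ℝ) := Nat.cast_nonneg _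
    rw [hx, abs_le]
    constructor <;> simp only <;> linarith
  set T : ℝ := (2 * m + 1) * C + C + 1 with hT
  have hm0 : (0 : ℝ) ≤ m := Nat.cast_nonneg _
  have hT0 : 0 < T := by positivity
  have hTC : C + 1 ≤ T := by
    have : 0 ≤ (2 * (m : ℝ) + 1) * C := by positivity
    linarith
  set p : Fin m → Vc (n + 2) := fun k => T • (x k • E1 + (x k) ^ 2 • E2) with hp
  have q2 : ∀ k, ⟪E2, p k⟫ = T * (x k) ^ 2 := fun k => by
    rw [hp]; simp only [inner_smul_right, inner_add_right, e21, e22]; ring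
  have q1 : ∀ k, ⟪E1, p k⟫ = T * x k := fun k => by
    rw [hp]; simp only [inner_smul_right, inner_add_right, e11, e12]; ring
  have hxj : ∀ k, k ≠ j → 1 ≤ (x k) ^ 2 := fun k hk => sq_ge_one hk
  refine ⟨p, ⟨fun k => ?_, fun k => ?_, fun l => ?_, ?_, fun k hk => ?_, ?_⟩⟩
  · rw [hp]; simp only [inner_smul_right, inner_add_right, c1, c2]; ring
  · rw [hp]; simp only [inner_smul_right, inner_add_right, d1, d2]; ring
  · refine ⟨(-(2 * x l)) • E1 + E2, ?_, fun k hk => ?_⟩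
    · rw [real_inner_comm]
      simp only [inner_smul_right, inner_add_right, d1, d2]; ring
    · have a1 : ‖(-(2 * x l)) • E1 + E2‖ ≤ 2 * m + 1 := by
        refine (norm_add_le _ _).trans ?_
        rw [norm_smul, n1, n2, mul_one, norm_neg, norm_mul, Real.norm_two, Real.norm_eq_abs]
        linarith [hxm l]
      have a2 : ⟪(-(2 * x l)) • E1 + E2, p k - p l⟫ = T * (x k - x l) ^ 2 := by
        rw [inner_add_left, inner_smul_left, inner_sub_right, inner_sub_right, q1, q1, q2, q2]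
        simp only [conj_trivial]
        ring
      have a3 : 1 ≤ (x k - x l) ^ 2 := by
        have := sq_ge_one hk
        rw [hx]; simp only
        convert this using 2
        ring
      have a4 : ‖(-(2 * x l)) • E1 + E2‖ * C ≤ (2 * m + 1) * C :=
        mul_le_mul_of_nonneg_right a1 (by linarith)
      rw [a2]
      nlinarith
  · rw [hp, hx]; simp
  · have a1 := real_inner_le_norm E2 (p k)
    rw [n2, one_mul, q2] at a1
    have a2 := hxj k hk
    nlinarith
  · refine ⟨E2, ?_, n2.le, fun k hk => ?_⟩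
    · rw [real_inner_comm]; exact d2
    · rw [q2]
      have a2 := hxj k hk
      nlinarith

/-- **T2-1 REAL.** -/
theorem realProp (hn : 1 ≤ n) : RealProp n := by
  intro m j
  obtain ⟨C, hC, hb⟩ := exists_bound_al (n + 2)
  obtain ⟨p, P⟩ := exists_pts hn hC j
  refine ⟨p, fun A => ?_⟩
  have h1 : ∀ a b : Fin m, Rl j p (Matrix.single a b 1) := by
    intro a b
    by_cases hab : a = b
    · subst hab
      exact rl_diag hC P a
    · by_cases haj : a = j
      · exact rl_neg' hC hb P (a := b) (b := a) (Ne.symm hab) (fun h => hab (haj.trans h.symm))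
      · exact rl_pos hC hb P hab haj
  have h0 : Rl j p (0 : Matrix (Fin m) (Fin m) ℤ) := by
    have := (h1 j j).add (h1 j j).neg
    rwa [add_neg_cancel] at this
  let K : AddSubgroup (Matrix (Fin m) (Fin m) ℤ) :=
    { carrier := {A | Rl j p A}
      add_mem' := fun h h' => h.add h'
      zero_mem' := h0
      neg_mem' := fun h => h.neg }
  have h2 : A ∈ K := by
    rw [Matrix.matrix_eq_sum_single A]
    refine K.sum_mem fun a _ => K.sum_mem fun b _ => ?_
    have h3 : Matrix.single a b (A a b) = (A a b) • Matrix.single a b (1 : ℤ) := by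
      rw [Matrix.smul_single, smul_eq_mul, mul_one]
    rw [h3]
    exact K.zsmul_mem (h1 a b) _
  exact h2

end

end Crest.Agent.R267.Real_855
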