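import Mathlib

/-!
# Inversions reverse round discs (row 267, leaf M2 of LEMMA M)

`B = ball (c w) (ε c)`, `Σ(M) = {v ∈ ∂B | ⟪M, v - c w⟫ = -ε² c ⟪M, w⟫}` is the standard disc
boundary with normal `M`, core `c (w - ε² ⟪M, w⟫ M)` and radius `ε c √(1 - ε² ⟪M, w⟫²)`.
The inversion `v ↦ c² (1 - ε²) v / |v|²` preserves `∂B` (and its inside) and carries `Σ(M)` to
`Σ(M - 2 ⟪M, w⟫ w)`.
-/

set_option autoImplicit false

namespace Crest.Agent.R267.Inv_118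

open scoped RealInnerProductSpace

variable {V : Type*} [NormedAddCommGroup V] [InnerProductSpace ℝ V]

/-- the inversion -/
noncomputable def inv (c ε : ℝ) (v : V) : V := (c ^ 2 * (1 - ε ^ 2) / ‖v‖ ^ 2) • v

/-- the core -/
noncomputable def cor (c ε : ℝ) (w M : V) : V := c • (w - (ε ^ 2 * ⟪M, w⟫) • M)

/-- the radius -/
noncomputable def rds (c ε : ℝ) (w M : V) : ℝ := ε * c * √(1 - ε ^ 2 * ⟪M, w⟫ ^ 2)

/-- the reflected normal (`NF_808.refl`) -/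
theorem norm_sq_inv (c ε : ℝ) {v w : V} (hv : v ≠ 0) (hw : ‖w‖ = 1) :
    ‖inv c ε v - c • w‖ ^ 2 - (ε * c) ^ 2 =
      (c ^ 2 * (1 - ε ^ 2) / ‖v‖ ^ 2) * (‖v - c • w‖ ^ 2 - (ε * c) ^ 2) := by
  have hn : ‖v‖ ^ 2 ≠ 0 := by positivity
  unfold inv
  rw [norm_sub_sq_real, norm_sub_sq_real, norm_smul, norm_smul, hw, inner_smul_left,
    inner_smul_right, mul_pow, mul_pow, Real.norm_eq_abs, Real.norm_eq_abs,
    sq_abs, sq_abs]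
  simp only [conj_trivial]
  field_simp
  ring

theorem inner_inv (c ε : ℝ) (hc : c ≠ 0) {v w M : V} (hv : v ≠ 0) (hw : ‖w‖ = 1)
    (h : ‖v - c • w‖ = ε * c) :
    ⟪M - (2 * ⟪M, w⟫) • w, inv c ε v - c • w⟫ + ε ^ 2 * c * ⟪M - (2 * ⟪M, w⟫) • w, w⟫ =
      (c ^ 2 * (1 - ε ^ 2) / ‖v‖ ^ 2) * (⟪M, v - c • w⟫ + ε ^ 2 * c * ⟪M, w⟫) := by
  have hn : ‖v‖ ^ 2 ≠ 0 := by positivity
  have hww : ⟪w, w⟫ = 1 := by rw [real_inner_self_eq_norm_sq, hw]; norm_num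
  have h2 : ‖v‖ ^ 2 - 2 * (c * ⟪v, w⟫) + c ^ 2 = (ε * c) ^ 2 := by
    have := norm_sub_sq_real v (c • w)
    rw [h, norm_smul, hw, inner_smul_right, mul_one, Real.norm_eq_abs, sq_abs] at this
    linarith
  have h3 : ⟪w, v⟫ = ⟪v, w⟫ := real_inner_comm _ _
  unfold inv
  simp only [inner_sub_left, inner_sub_right, inner_smul_left, inner_smul_right, conj_trivial,
    hww, h3]
  have h4 : ⟪v, w⟫ = (‖v‖ ^ 2 + c ^ 2 * (1 - ε ^ 2)) / (2 * c) := by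
    field_simp
    linarith
  rw [h4]
  field_simp
  ring

theorem sq_lt_iff {a b : ℝ} (ha : 0 ≤ a) (hb : 0 ≤ b) : a ^ 2 - b ^ 2 < 0 ↔ a < b := by
  rw [sub_neg]
  exact pow_lt_pow_iff_left₀ ha hb two_ne_zero

theorem sq_eq_iff' {a b : ℝ} (ha : 0 ≤ a) (hb : 0 ≤ b) : a ^ 2 - b ^ 2 = 0 ↔ a = b := by
  rw [sub_eq_zero]
  exact pow_left_inj₀ ha hb two_ne_zero

/-- the inversion preserves the sphere -/
theorem inv_sphere {c ε : ℝ} (hc : 0 < c) (h0 : 0 < ε) (h1 : ε < 1) {v w : V} (hv : v ≠ 0)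
    (hw : ‖w‖ = 1) : ‖inv c ε v - c • w‖ = ε * c ↔ ‖v - c • w‖ = ε * c := by
  have hn : 0 < ‖v‖ := norm_pos_iff.2 hv
  have h2 : 0 < 1 - ε ^ 2 := by nlinarith
  have hk : 0 < c ^ 2 * (1 - ε ^ 2) / ‖v‖ ^ 2 := by positivity
  rw [← sq_eq_iff' (norm_nonneg _) (by positivity), norm_sq_inv c ε hv hw, mul_eq_zero,
    or_iff_right hk.ne', sq_eq_iff' (norm_nonneg _) (by positivity)]

/-- the inversion preserves the inside -/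
theorem inv_ball {c ε : ℝ} (hc : 0 < c) (h0 : 0 < ε) (h1 : ε < 1) {v w : V} (hv : v ≠ 0)
    (hw : ‖w‖ = 1) : ‖inv c ε v - c • w‖ < ε * c ↔ ‖v - c • w‖ < ε * c := by
  have hn : 0 < ‖v‖ := norm_pos_iff.2 hv
  have h2 : 0 < 1 - ε ^ 2 := by nlinarith
  have hk : 0 < c ^ 2 * (1 - ε ^ 2) / ‖v‖ ^ 2 := by positivity
  rw [← sq_lt_iff (norm_nonneg _) (by positivity), norm_sq_inv c ε hv hw,
    ← sq_lt_iff (norm_nonneg _) (by positivity)]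
  constructor
  · intro h
    by_contra hc'
    exact absurd h (not_lt.2 (mul_nonneg hk.le (not_lt.1 hc')))
  · exact fun h => mul_neg_of_pos_of_neg hk h

theorem inv_ball_le {c ε : ℝ} (hc : 0 < c) (h0 : 0 < ε) (h1 : ε < 1) {v w : V} (hv : v ≠ 0)
    (hw : ‖w‖ = 1) : ε * c ≤ ‖inv c ε v - c • w‖ ↔ ε * c ≤ ‖v - c • w‖ := by
  rw [← not_lt, ← not_lt, inv_ball hc h0 h1 hv hw]

/-- **the inversion carries `Σ(M)` to `Σ(refl M)`** -/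
theorem inv_sigma {c ε : ℝ} (hc : 0 < c) (h0 : 0 < ε) (h1 : ε < 1) {v w M : V} (hv : v ≠ 0)
    (hw : ‖w‖ = 1) :
    (‖inv c ε v - c • w‖ = ε * c ∧ ⟪M - (2 * ⟪M, w⟫) • w, inv c ε v - c • w⟫ =
        -(ε ^ 2 * c * ⟪M - (2 * ⟪M, w⟫) • w, w⟫)) ↔
      (‖v - c • w‖ = ε * c ∧ ⟪M, v - c • w⟫ = -(ε ^ 2 * c * ⟪M, w⟫)) := by
  have hn : 0 < ‖v‖ := norm_pos_iff.2 hv
  have h2 : 0 < 1 - ε ^ 2 := by nlinarith
  have hk : 0 < c ^ 2 * (1 - ε ^ 2) / ‖v‖ ^ 2 := by positivity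
  rw [inv_sphere hc h0 h1 hv hw]
  refine and_congr_right fun h => ?_
  have key := inner_inv c ε hc.ne' (M := M) hv hw h
  rw [← add_eq_zero_iff_eq_neg, ← add_eq_zero_iff_eq_neg, key, mul_eq_zero, or_iff_right hk.ne']

/-- `Σ(M)` is the standard disc boundary with core `cor` and radius `rds` -/
theorem sigma_iff {c ε : ℝ} (hc : 0 < c) (h0 : 0 < ε) (h1 : ε < 1) {w M : V} (hw : ‖w‖ = 1)
    (hM : ‖M‖ = 1) (v : V) :
    (‖v - cor c ε w M‖ = rds c ε w M ∧ ⟪M, v - cor c ε w M⟫ = 0) ↔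
      (‖v - c • w‖ = ε * c ∧ ⟪M, v - c • w⟫ = -(ε ^ 2 * c * ⟪M, w⟫)) := by
  have hMM : ⟪M, M⟫ = 1 := by rw [real_inner_self_eq_norm_sq, hM]; norm_num
  have ha : ⟪M, w⟫ ^ 2 ≤ 1 := by
    have := abs_real_inner_le_norm M w
    rw [hw, hM, one_mul] at this
    rw [← sq_abs]
    nlinarith [abs_nonneg ⟪M, w⟫]
  have e1 : v - cor c ε w M = (v - c • w) + (ε ^ 2 * c * ⟪M, w⟫) • M := by
    unfold cor
    rw [smul_sub, smul_smul]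
    have : c * (ε ^ 2 * ⟪M, w⟫) = ε ^ 2 * c * ⟪M, w⟫ := by ring
    rw [this]
    abel
  have e2 : ⟪M, v - cor c ε w M⟫ = ⟪M, v - c • w⟫ + ε ^ 2 * c * ⟪M, w⟫ := by
    rw [e1, inner_add_right, inner_smul_right, hMM, mul_one]
  rw [e2, add_eq_zero_iff_eq_neg]
  refine and_congr_left fun h => ?_
  have h3 : 0 ≤ 1 - ε ^ 2 * ⟪M, w⟫ ^ 2 := by nlinarith [sq_nonneg ⟪M, w⟫]
  rw [← sq_eq_iff' (norm_nonneg _) (by unfold rds; positivity),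
    ← sq_eq_iff' (norm_nonneg _) (by positivity)]
  have e3 : ‖v - cor c ε w M‖ ^ 2 = ‖v - c • w‖ ^ 2 - (ε ^ 2 * c * ⟪M, w⟫) ^ 2 := by
    have e5 : ⟪v - c • w, M⟫ = -(ε ^ 2 * c * ⟪M, w⟫) := by rw [real_inner_comm, h]
    rw [e1, norm_add_sq_real, inner_smul_right, e5, norm_smul, hM, mul_one,
      Real.norm_eq_abs, sq_abs]
    ring
  have e4 : rds c ε w M ^ 2 = (ε * c) ^ 2 * (1 - ε ^ 2 * ⟪M, w⟫ ^ 2) := by
    unfold rds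
    rw [mul_pow, Real.sq_sqrt h3]
  rw [e3, e4]
  have : ‖v - c • w‖ ^ 2 - (ε ^ 2 * c * ⟪M, w⟫) ^ 2 - (ε * c) ^ 2 * (1 - ε ^ 2 * ⟪M, w⟫ ^ 2) =
      ‖v - c • w‖ ^ 2 - (ε * c) ^ 2 := by ring
  rw [this]

end Crest.Agent.R267.Inv_118
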