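import Crest.Agent.R267.Rad_118

/-!
# Links with radius functions (row 267, leaf M0 of LEMMA M)

`KX R x nu rr`: the link of a system with cores `x`, normals `nu` and radius FUNCTIONS `rr`.
`change`: any two admissible radius functions give equivalent links.
-/

set_option autoImplicit false

namespace Crest.Agent.R267.KX_118

open Set Metric
open scoped RealInnerProductSpace
open Crest.Agent.R267.GS_808 Crest.Agent.R267.Move_118 Crest.Agent.R267.T1_118
open Crest.Agent.R267.Rad_118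

variable {B V : Type*} [NormedAddCommGroup B] [NormedSpace ℝ B]
  [NormedAddCommGroup V] [InnerProductSpace ℝ V]

/-- the link with radius functions -/
def KX {ι : Type*} (e : V) (R : ℝ) (x nu : ι → B → V) (rr : ι → B → ℝ) : Set (B × V) :=
  {p | (⟪e, p.2⟫ = 0 ∧ ‖p.1‖ = 1 ∧ ‖p.2‖ ≤ R ∧ ∀ k, rr k p.1 ≤ ‖p.2 - x k p.1‖) ∨
    (⟪e, p.2⟫ = 0 ∧ ‖p.1‖ ≤ 1 ∧ ‖p.2‖ = R) ∨
    ∃ k, ‖p.1‖ ≤ 1 ∧ ‖p.2 - x k p.1‖ = rr k p.1 ∧ ⟪nu k p.1, p.2 - x k p.1⟫ = 0}

theorem K_eq {e : V} {m : ℕ} (G : Sys B e m) : G.K = KX e G.R G.x G.nu (fun _ _ => G.r) := rfl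

/-- **several disjoint balls with radius functions** -/
theorem exists_radial' {X ι : Type*} [TopologicalSpace X] [Fintype ι] {R0 : ℝ} (h0 : 0 < R0)
    {a b ρ : ι → X → ℝ} {x : ι → X → V} (ha : ∀ i, Continuous (a i)) (hb : ∀ i, Continuous (b i))
    (hρ : ∀ i, Continuous (ρ i))
    (hx : ∀ i, Continuous (x i)) (a1 : ∀ i p, R0 < a i p) (a2 : ∀ i p, a i p < ρ i p)
    (b1 : ∀ i p, R0 < b i p) (b2 : ∀ i p, b i p < ρ i p)
    (sep : ∀ p i j, i ≠ j → ρ i p + ρ j p ≤ ‖x i p - x j p‖) :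
    ∃ Θ : FHom X V,
      (∀ p y, (∀ i, ρ i p ≤ ‖y - x i p‖) → Θ.fwd p y = y) ∧
      (∀ p y, (∀ i, a i p = b i p) → Θ.fwd p y = y) ∧
      (∀ p y i, ‖y - x i p‖ < ρ i p →
        Θ.fwd p y = x i p + ((y - x i p) + rd R0 (ρ i p) (a i p) (b i p) (y - x i p))) := by
  classical
  -- the general form of the map
  have form : ∀ a b : ι → X → ℝ, (∀ i p, R0 < a i p) → (∀ i p, a i p < ρ i p) →
      (∀ i p, R0 < b i p) → (∀ i p, b i p < ρ i p) →
      ∀ p y i, ‖y - x i p‖ < ρ i p → y + ∑ j, rd R0 (ρ j p) (a j p) (b j p) (y - x j p) =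
        x i p + ((y - x i p) + rd R0 (ρ i p) (a i p) (b i p) (y - x i p)) := by
    intro a b a1 a2 b1 b2 p y i hy
    rw [Finset.sum_eq_single i]
    · abel
    · intro j _ hji
      refine rd_high (a2 j p) ?_
      have h1 := sep p i j (Ne.symm hji)
      have h2 : ‖x i p - x j p‖ ≤ ‖y - x i p‖ + ‖y - x j p‖ := by
        have e : x i p - x j p = (y - x j p) - (y - x i p) := by abel
        rw [e]
        exact (norm_sub_le _ _).trans (by rw [add_comm])
      linarith
    · simp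
  have far : ∀ a b : ι → X → ℝ, (∀ i p, R0 < a i p) → (∀ i p, a i p < ρ i p) →
      ∀ p y, (∀ i, ρ i p ≤ ‖y - x i p‖) →
        y + ∑ j, rd R0 (ρ j p) (a j p) (b j p) (y - x j p) = y := by
    intro a b a1 a2 p y hy
    rw [Finset.sum_eq_zero fun j _ => rd_high (a2 j p) (hy j), add_zero]
  have inv : ∀ a b : ι → X → ℝ, (∀ i p, R0 < a i p) → (∀ i p, a i p < ρ i p) →
      (∀ i p, R0 < b i p) → (∀ i p, b i p < ρ i p) → ∀ p y,
      (y + ∑ j, rd R0 (ρ j p) (a j p) (b j p) (y - x j p)) +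
        ∑ j, rd R0 (ρ j p) (b j p) (a j p)
          ((y + ∑ j, rd R0 (ρ j p) (a j p) (b j p) (y - x j p)) - x j p) = y := by
    intro a b a1 a2 b1 b2 p y
    by_cases h : ∀ i, ρ i p ≤ ‖y - x i p‖
    · rw [far a b a1 a2 p y h, far b a b1 b2 p y h]
    · push Not at h
      obtain ⟨i, hi⟩ := h
      rw [form a b a1 a2 b1 b2 p y i hi, form b a b1 b2 a1 a2 p _ i]
      · rw [add_sub_cancel_left, rd_rd h0 (a1 i p) (a2 i p) (b1 i p) (b2 i p)]
        abel
      · rw [add_sub_cancel_left, norm_rd h0 (a1 i p) (a2 i p) (b1 i p) (b2 i p)]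
        exact phi_lt (a1 i p) (a2 i p) (b1 i p) (b2 i p) hi
  have cont : ∀ a b : ι → X → ℝ, (∀ i, Continuous (a i)) → (∀ i, Continuous (b i)) →
      (∀ i p, R0 < a i p) → (∀ i p, a i p < ρ i p) →
      Continuous fun z : X × V => z.2 + ∑ j, rd R0 (ρ j z.1) (a j z.1) (b j z.1) (z.2 - x j z.1) := by
    intro a b ha hb a1 a2
    refine continuous_snd.add (continuous_finsetSum _ fun j _ => ?_)
    unfold rd hat
    have hv : Continuous fun z : X × V => z.2 - x j z.1 :=
      continuous_snd.sub ((hx j).comp continuous_fst)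
    have ha' : Continuous fun z : X × V => a j z.1 := (ha j).comp continuous_fst
    have hb' : Continuous fun z : X × V => b j z.1 := (hb j).comp continuous_fst
    have hρ' : Continuous fun z : X × V => ρ j z.1 := (hρ j).comp continuous_fst
    refine Continuous.smul (Continuous.div ?_ (by fun_prop) fun p => ?_) hv
    · refine Continuous.mul (by fun_prop) (continuous_const.max (Continuous.min ?_ ?_))
      · exact Continuous.div (by fun_prop) (by fun_prop) fun p => by linarith [a1 j p.1]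
      · exact Continuous.div (by fun_prop) (by fun_prop) fun p => by linarith [a2 j p.1]
    · exact (h0.trans_le (le_max_left _ _)).ne'
  refine ⟨⟨fun p y => y + ∑ j, rd R0 (ρ j p) (a j p) (b j p) (y - x j p),
    fun p y => y + ∑ j, rd R0 (ρ j p) (b j p) (a j p) (y - x j p),
    cont a b ha hb a1 a2, cont b a hb ha b1 b2, inv a b a1 a2 b1 b2,
    inv b a b1 b2 a1 a2⟩, far a b a1 a2, ?_, form a b a1 a2 b1 b2⟩
  intro p y h
  show y + ∑ j, rd R0 (ρ j p) (a j p) (b j p) (y - x j p) = y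
  rw [Finset.sum_eq_zero fun j _ => rd_eq (h j) _, add_zero]

/-- admissible data over the closed unit ball -/
structure AdmX {ι : Type*} (e : V) (R : ℝ) (x : ι → B → V) (rr : ι → B → ℝ) : Prop where
  cx : ∀ k, Continuous (x k)
  cr : ∀ k, Continuous (rr k)
  pos : ∀ k u, ‖u‖ ≤ 1 → 0 < rr k u
  sep : ∀ k l u, ‖u‖ ≤ 1 → k ≠ l → rr k u + rr l u < ‖x k u - x l u‖
  bd : ∀ k u, ‖u‖ ≤ 1 → ‖x k u‖ + rr k u < R
  wall : ∀ k u, ‖u‖ = 1 → ⟪e, x k u⟫ = 0

/-- thinner radius functions -/
theorem thinner [ProperSpace B] [ProperSpace V] {ι : Type*} [Fintype ι] {e : V} {R : ℝ}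
    {x nu : ι → B → V} {rr rr' : ι → B → ℝ} (h : AdmX e R x rr) (cr' : ∀ k, Continuous (rr' k))
    (pos' : ∀ k u, ‖u‖ ≤ 1 → 0 < rr' k u) (hle : ∀ k u, ‖u‖ ≤ 1 → rr' k u ≤ rr k u) :
    Eqv (KX e R x nu rr) (KX e R x nu rr') := by
  have hK : IsCompact (closedBall (0 : B) 1) := isCompact_closedBall _ _
  obtain ⟨δ, hδ, hδ'⟩ := exists_lower (ι := {q : ι × ι // q.1 ≠ q.2}) hK
    (fun q u => ‖x q.1.1 u - x q.1.2 u‖ - (rr q.1.1 u + rr q.1.2 u))
    (fun q => (((h.cx _).sub (h.cx _)).norm.sub ((h.cr _).add (h.cr _))).continuousOn)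
    (fun q u hu => by
      have := h.sep _ _ u (mem_closedBall_zero_iff.1 hu) q.2
      linarith)
  obtain ⟨δ1, hδ1, hδ1'⟩ := exists_lower hK (fun k u => R - ‖x k u‖ - rr k u)
    (fun k => ((continuous_const.sub (h.cx k).norm).sub (h.cr k)).continuousOn)
    (fun k u hu => by have := h.bd k u (mem_closedBall_zero_iff.1 hu); linarith)
  obtain ⟨δ2, hδ2, hδ2'⟩ := exists_lower hK (fun k u => rr' k u)
    (fun k => (cr' k).continuousOn)
    (fun k u hu => pos' k u (mem_closedBall_zero_iff.1 hu))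
  set η := min (δ / 2) δ1 with hηdef
  have m1 : η ≤ δ / 2 := min_le_left _ _
  have m2 : η ≤ δ1 := min_le_right _ _
  have m3 : 0 < η := lt_min (by positivity) hδ1
  have sep : ∀ k l u, k ≠ l → ‖u‖ ≤ 1 → (rr k u + η) + (rr l u + η) ≤ ‖x k u - x l u‖ := by
    intro k l u hkl hu
    have := hδ' ⟨(k, l), hkl⟩ u (mem_closedBall_zero_iff.2 hu)
    simp only at this
    linarith
  have bd : ∀ k u, ‖u‖ ≤ 1 → ‖x k u‖ + (rr k u + η) ≤ R := by
    intro k u hu
    have := hδ1' k u (mem_closedBall_zero_iff.2 hu)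
    linarith
  have low : ∀ k u, ‖u‖ ≤ 1 → δ2 ≤ rr' k u := fun k u hu => hδ2' k u (mem_closedBall_zero_iff.2 hu)
  -- the radii
  have hcl : ∀ u : B, 0 ≤ cl (2 - ‖u‖) ∧ cl (2 - ‖u‖) ≤ 1 := fun u => cl_mem _
  set b : ι → B → ℝ := fun k u => rr k (ret u) + cl (2 - ‖u‖) * (rr' k (ret u) - rr k (ret u))
    with hbdef
  have b1 : ∀ k u, rr' k (ret u) ≤ b k u := fun k u => by
    have h1 := hcl u
    have h2 := hle k (ret u) (norm_ret_le u)
    simp only [hbdef]
    nlinarith
  have b2 : ∀ k u, b k u ≤ rr k (ret u) := fun k u => by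
    have h1 := hcl u
    have h2 := hle k (ret u) (norm_ret_le u)
    simp only [hbdef]
    nlinarith
  have hb : ∀ k, Continuous (b k) := by
    intro k
    have h1 : Continuous fun u : B => cl (2 - ‖u‖) := continuous_cl.comp (by fun_prop)
    have h2 := (h.cr k).comp continuous_ret
    have h3 := (cr' k).comp continuous_ret
    exact h2.add (h1.mul (h3.sub h2))
  obtain ⟨Θ, t1, t2, t3⟩ := exists_radial' (V := V) (R0 := δ2 / 2)
    (by positivity) (a := fun k u => rr k (ret u)) (b := b)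
    (ρ := fun k u => rr k (ret u) + η) (x := fun k u => x k (ret u))
    (fun k => (h.cr k).comp continuous_ret) hb
    (fun k => ((h.cr k).comp continuous_ret).add continuous_const)
    (fun k => (h.cx k).comp continuous_ret)
    (fun k u => by
      have h1 := low k (ret u) (norm_ret_le u)
      have h2 := hle k (ret u) (norm_ret_le u)
      linarith)
    (fun k u => by linarith)
    (fun k u => by
      have h1 := low k (ret u) (norm_ret_le u)
      have h2 := b1 k u
      linarith)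
    (fun k u => by
      have h2 := b2 k u
      linarith)
    (fun u i j hij => sep i j _ hij (norm_ret_le u))
  have hfix : ∀ u y, R ≤ ‖y‖ → Θ.fwd u y = y := by
    intro u y hy
    refine t1 u y fun k => ?_
    have h1 := bd k (ret u) (norm_ret_le u)
    have h3 := norm_sub_norm_le y (x k (ret u))
    linarith
  have hfar : ∀ u y, 2 ≤ ‖u‖ → Θ.fwd u y = y := by
    intro u y hu
    refine t2 u y fun k => ?_
    show rr k (ret u) = rr k (ret u) + cl (2 - ‖u‖) * (rr' k (ret u) - rr k (ret u))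
    rw [cl_of_nonpos (by linarith)]
    ring
  -- over the ball
  have key : ∀ u, ‖u‖ ≤ 1 → ∀ y, (Θ.fwd u y = y ∧ ∀ k, rr k u < ‖y - x k u‖) ∨
      ∃ k, ∃ c : ℝ, 0 < c ∧ Θ.fwd u y = x k u + c • (y - x k u) ∧
        c * ‖y - x k u‖ = phi (δ2 / 2) (rr k u + η) (rr k u) (rr' k u) ‖y - x k u‖ ∧
        (∀ l, l ≠ k → rr l u < ‖y - x l u‖ ∧ rr l u < ‖Θ.fwd u y - x l u‖) := by
    intro u hu y
    by_cases h1 : ∀ k, rr k u + η ≤ ‖y - x k u‖
    · exact Or.inl ⟨t1 u y fun k => by simpa only [ret_of_le hu] using h1 k,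
        fun k => by linarith [h1 k]⟩
    · right
      push Not at h1
      obtain ⟨k, hk⟩ := h1
      have h1 := t3 u y k (by simpa only [ret_of_le hu] using hk)
      have hbu : b k u = rr' k u := by
        simp only [hbdef, ret_of_le hu]
        rw [cl_of_one_le (by linarith)]
        ring
      simp only [ret_of_le hu, hbu] at h1
      have l1 := low k u hu
      have l2 := hle k u hu
      obtain ⟨c, hc, c1, c2⟩ := rd_spec (V := V) (R0 := δ2 / 2) (ρ := rr k u + η) (a := rr k u)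
        (b := rr' k u) (by positivity) (by linarith) (by linarith) (by linarith) (by linarith)
        (y - x k u)
      rw [c1] at h1
      refine ⟨k, c, hc, h1, c2, fun l hl => ?_⟩
      have hs := sep k l u (Ne.symm hl) hu
      have aux : ∀ z : V, ‖z - x k u‖ < rr k u + η → rr l u < ‖z - x l u‖ := by
        intro z hz
        have e : x k u - x l u = (z - x l u) - (z - x k u) := by abel
        have h2 : ‖x k u - x l u‖ ≤ ‖z - x l u‖ + ‖z - x k u‖ := by
          rw [e]; exact norm_sub_le _ _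
        linarith
      refine ⟨aux y hk, aux _ ?_⟩
      rw [h1, add_sub_cancel_left, norm_smul, Real.norm_of_nonneg hc.le, c2]
      exact phi_lt (by linarith) (by linarith) (by linarith) (by linarith) hk
  have hnorm : ∀ u, ‖u‖ ≤ 1 → ∀ y k,
      (rr' k u ≤ ‖Θ.fwd u y - x k u‖ ↔ rr k u ≤ ‖y - x k u‖) ∧
      ((‖Θ.fwd u y - x k u‖ = rr' k u ∧ ⟪nu k u, Θ.fwd u y - x k u⟫ = 0) ↔
        (‖y - x k u‖ = rr k u ∧ ⟪nu k u, y - x k u⟫ = 0)) := by
    intro u hu y k
    have l1 := low k u hu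
    have l2 := hle k u hu
    rcases key u hu y with ⟨h1, h2⟩ | ⟨l, c, hc, h1, h2, h3⟩
    · rw [h1]
      have := h2 k
      refine ⟨⟨fun _ => by linarith, fun _ => by linarith⟩, ⟨fun h => ?_, fun h => ?_⟩⟩
      · linarith [h.1]
      · linarith [h.1]
    · rcases eq_or_ne k l with rfl | hkl
      · rw [h1, add_sub_cancel_left, norm_smul, Real.norm_of_nonneg hc.le, h2, inner_smul_right]
        have e1 := phi_eq_iff (R0 := δ2 / 2) (ρ := rr k u + η) (a := rr k u) (b := rr' k u)
          (t := ‖y - x k u‖) (by linarith) (by linarith) (by linarith) (by linarith)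
        have e2 := phi_le_iff (R0 := δ2 / 2) (ρ := rr k u + η) (a := rr' k u) (b := rr k u)
          (t := phi (δ2 / 2) (rr k u + η) (rr k u) (rr' k u) ‖y - x k u‖)
          (by linarith) (by linarith) (by linarith) (by linarith)
        rw [phi_phi (by linarith) (by linarith) (by linarith) (by linarith)] at e2
        have e3 := phi_le_iff (R0 := δ2 / 2) (ρ := rr k u + η) (a := rr k u) (b := rr' k u)
          (t := ‖y - x k u‖) (by linarith) (by linarith) (by linarith) (by linarith)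
        refine ⟨?_, ?_⟩
        · constructor
          · intro h
            by_contra hc'
            have h4 := e3.2 (not_le.1 hc').le
            have h5 := e1.1 (le_antisymm h4 h)
            linarith [not_le.1 hc']
          · intro h
            by_contra hc'
            have h4 := e2.2 (not_le.1 hc').le
            have h6 := e1.2 (le_antisymm h4 h)
            linarith [not_le.1 hc']
        · rw [e1, mul_eq_zero, or_iff_right hc.ne']
      · have h4 := h3 k hkl
        refine ⟨⟨fun _ => by linarith [h4.1], fun _ => by linarith [h4.2]⟩,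
          ⟨fun h => ?_, fun h => ?_⟩⟩
        · linarith [h.1, h4.2]
        · linarith [h.1, h4.1]
  have hwall : ∀ u, ‖u‖ = 1 → ∀ y, ⟪e, Θ.fwd u y⟫ = 0 ↔ ⟪e, y⟫ = 0 := by
    intro u hu y
    rcases key u hu.le y with ⟨h1, _⟩ | ⟨k, c, hc, h1, _, _⟩
    · rw [h1]
    · have hx := h.wall k u hu
      rw [h1, inner_add_right, inner_smul_right, inner_sub_right, hx, sub_zero, zero_add,
        mul_eq_zero, or_iff_right hc.ne']
  refine ⟨Θ.homeo, ⟨closedBall 0 2 ×ˢ closedBall 0 R,
    (isCompact_closedBall _ _).prod (isCompact_closedBall _ _), ?_⟩, ?_⟩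
  · rintro ⟨u, y⟩ hp
    show (u, Θ.fwd u y) = (u, y)
    rw [mem_prod, mem_closedBall_zero_iff, mem_closedBall_zero_iff, not_and_or, not_le,
      not_le] at hp
    rcases hp with hp | hp
    · rw [hfar u y hp.le]
    · rw [hfix u y hp.le]
  · rintro ⟨u, y⟩
    show (u, y) ∈ KX e R x nu rr ↔ (u, Θ.fwd u y) ∈ KX e R x nu rr'
    simp only [KX, mem_ofPred_eq]
    have a1 := norm_le_iff Θ (hfix u) y
    have a2 := norm_eq_iff Θ (hfix u) y
    rw [a1, a2]
    refine or_congr ?_ (or_congr ?_ ?_)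
    · constructor
      · rintro ⟨c1, c2, c3, c4⟩
        exact ⟨(hwall u c2 y).2 c1, c2, c3, fun k => (hnorm u c2.le y k).1.2 (c4 k)⟩
      · rintro ⟨c1, c2, c3, c4⟩
        exact ⟨(hwall u c2 y).1 c1, c2, c3, fun k => (hnorm u c2.le y k).1.1 (c4 k)⟩
    · constructor
      · rintro ⟨c1, c2, c3⟩
        exact ⟨by rw [hfix u y c3.ge, c1], c2, c3⟩
      · rintro ⟨c1, c2, c3⟩
        exact ⟨by rw [← hfix u y c3.ge, c1], c2, c3⟩
    · refine exists_congr fun k => ?_
      constructor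
      · rintro ⟨c1, c2⟩
        exact ⟨c1, (hnorm u c1 y k).2.2 c2⟩
      · rintro ⟨c1, c2⟩
        exact ⟨c1, (hnorm u c1 y k).2.1 c2⟩

/-- **change of the radius functions** -/
theorem change [ProperSpace B] [ProperSpace V] {ι : Type*} [Fintype ι] {e : V} {R : ℝ}
    {x nu : ι → B → V} {rr rr' : ι → B → ℝ} (h : AdmX e R x rr) (h' : AdmX e R x rr') :
    Eqv (KX e R x nu rr) (KX e R x nu rr') := by
  have c : ∀ k, Continuous fun u => min (rr k u) (rr' k u) := fun k => (h.cr k).min (h'.cr k)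
  have p : ∀ k u, ‖u‖ ≤ 1 → 0 < min (rr k u) (rr' k u) := fun k u hu =>
    lt_min (h.pos k u hu) (h'.pos k u hu)
  exact (thinner h c p fun k u _ => min_le_left _ _).trans
    (thinner h' c p fun k u _ => min_le_right _ _).symm

end Crest.Agent.R267.KX_118
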