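import Crest.Agent.R267.LM_808
import Crest.Agent.R267.KX_118
import Crest.Agent.R267.Inv_118

/-!
# Leaf SHAPE of LEMMA M (row 267)
-/

set_option autoImplicit false

namespace Crest.Agent.R267.Shape_118

open Set Metric
open scoped RealInnerProductSpace
open Crest.Agent.R267.GS_808 Crest.Agent.R267.DraftB_808 Crest.Agent.R267.NF_808
open Crest.Agent.R267.LM_808 Crest.Agent.R267.KX_118 Crest.Agent.R267.Inv_118
open Crest.Agent.R267.T1_118 Crest.Agent.R267.Rad_118 Crest.Agent.R267.Move_118
open Crest.Agent.R267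

/-! ### the strand `i` -/

variable {n m : ℕ} {i j : Fin m}

theorem continuous_us {n : ℕ} : Continuous fun u : Bc (n + 2) => us u (16 * u 1 - 1) := by
  unfold us
  exact continuous_id.update 1 (by fun_prop)

theorem continuous_fr_aux (D : NFD n m i j) {f : Bc (n + 2) → Vc (n + 2)} (hf : Continuous f) :
    Continuous fun u => fr D u (f u) := by
  have e : (fun u => fr D u (f u)) = fun u => if 0 ≤ u 1 then D.F.Rf u (f u) else f u := by
    funext u
    unfold fr
    split_ifs <;> rfl
  rw [e]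
  refine Continuous.if_le (D.F.c_Rf.comp (continuous_id.prodMk hf)) hf continuous_const
    (continuous_apply 1) fun u hu => ?_
  rw [D.mid_F u (by rw [← hu]; norm_num)]
  rfl

theorem continuous_w1 (D : NFD n m i j) : Continuous (w1 D) :=
  continuous_fr_aux D (D.P.c_om.comp continuous_us)

theorem continuous_M1 (D : NFD n m i j) : Continuous (M1 D) :=
  continuous_fr_aux D (D.P.c_M.comp continuous_us)

theorem norm_w1 (D : NFD n m i j) (u : Bc (n + 2)) : ‖w1 D u‖ = 1 := by
  unfold w1
  rw [LinearIsometryEquiv.norm_map, D.P.n_om]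

theorem norm_M1 (D : NFD n m i j) (u : Bc (n + 2)) : ‖M1 D u‖ = 1 := by
  unfold M1
  rw [LinearIsometryEquiv.norm_map, D.P.n_M]

theorem norm_us {u : Bc (n + 2)} (h : ‖u‖ = 1) : 1 ≤ ‖us u (16 * u 1 - 1)‖ := by
  obtain ⟨k, hk⟩ : ∃ k, 1 ≤ |u k| := by
    by_contra hc
    push Not at hc
    have : ‖u‖ < 1 := (pi_norm_lt_iff one_pos).2 fun k => by simpa using hc k
    linarith
  by_cases h1 : k = 1
  · subst h1
    have h2 : |us u (16 * u 1 - 1) 1| ≤ ‖us u (16 * u 1 - 1)‖ := by
      rw [← Real.norm_eq_abs]; exact norm_le_pi_norm _ _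
    have h3 : us u (16 * u 1 - 1) 1 = 16 * u 1 - 1 := by simp [us]
    rw [h3] at h2
    refine le_trans ?_ h2
    rcases le_abs.1 hk with h4 | h4
    · exact le_abs.2 (Or.inl (by linarith))
    · exact le_abs.2 (Or.inr (by linarith))
  · have h2 : |us u (16 * u 1 - 1) k| ≤ ‖us u (16 * u 1 - 1)‖ := by
      rw [← Real.norm_eq_abs]; exact norm_le_pi_norm _ _
    have h3 : us u (16 * u 1 - 1) k = u k := by simp [us, Function.update_of_ne h1]
    rw [h3] at h2
    exact hk.trans h2

theorem fr_wall (D : NFD n m i j) {u : Bc (n + 2)} (h : 1 ≤ ‖u‖) :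
    fr D u (ec (n + 2)) = ec (n + 2) := by
  unfold fr
  split_ifs
  · exact D.F.wall u h
  · rfl

theorem M1_wall (D : NFD n m i j) {u : Bc (n + 2)} (h : ‖u‖ = 1) : M1 D u = ec (n + 2) := by
  unfold M1
  rw [D.P.wall_M _ (norm_us h), fr_wall D h.ge]

theorem w1_wall (D : NFD n m i j) {u : Bc (n + 2)} (h : ‖u‖ = 1) :
    ⟪ec (n + 2), w1 D u⟫ = 0 := by
  unfold w1
  rw [← fr_wall D h.ge, LinearIsometryEquiv.inner_map_map]
  exact D.P.wall_om _ (norm_us h)

theorem rest_us {u : Bc (n + 2)} (h : 1 ≤ |16 * u 1 - 1|) :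
    RestAt (us u (16 * u 1 - 1) : Bc (n + 1 + 1)) := by
  refine Or.inr ⟨1, by simp, ?_⟩
  simpa [us] using h

theorem w1_left (D : NFD n m i j) {u : Bc (n + 2)} (h : u 1 < 0) : w1 D u = hc (n + 1) := by
  unfold w1 fr
  rw [if_neg (by linarith), D.P.rest_om _ (rest_us (le_abs.2 (Or.inr (by linarith))))]
  rfl

theorem M1_left (D : NFD n m i j) {u : Bc (n + 2)} (h : u 1 < 0) : M1 D u = ec (n + 2) := by
  unfold M1 fr
  rw [if_neg (by linarith), D.P.rest_M _ (rest_us (le_abs.2 (Or.inr (by linarith))))]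
  rfl

theorem inner_ec_hc : ⟪ec (n + 2), hc (n + 1)⟫ = 0 := by
  unfold ec hc
  rw [EuclideanSpace.inner_single_left]
  simp [Fin.ext_iff]

/-! ### the radius profile -/

theorem rp_eq (rho R1 s : ℝ) : rp rho R1 s = Real.exp (lamc rho R1 (1 / 4) (1 / 4) s) := rfl

/-- the radius of the strand `i` of `G₊` -/
noncomputable def el (q : Rad) (s : ℝ) : ℝ := Real.exp (lamc q.rho q.R1 (1 / 4) (1 / 4) s)

theorem el_pos (q : Rad) (s : ℝ) : 0 < el q s := Real.exp_pos _

section par

variable {D : NFD n m i j} {q : Rad} (hq : Par D q)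
include hq

theorem log_lt : Real.log q.rho < Real.log q.R1 :=
  Real.log_lt_log hq.rho_pos (by linarith [hq.rho_lt, hq.R1_gt])

theorem el_ge (s : ℝ) : q.rho ≤ el q s := by
  have h := log_lt hq
  rw [← Real.exp_log hq.rho_pos]
  refine Real.exp_le_exp.2 ?_
  unfold lamc lam
  have h1 : max (-(1 / 4)) (min (1 / 4) s) ≤ 1 / 4 := max_le (by norm_num) (min_le_left _ _)
  nlinarith

theorem el_le (s : ℝ) : el q s ≤ q.R1 := by
  have h := log_lt hq
  have hR : 0 < q.R1 := by linarith [hq.R1_gt]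
  rw [← Real.exp_log hR]
  refine Real.exp_le_exp.2 ?_
  unfold lamc lam
  have h1 : -(1 / 4) ≤ max (-(1 / 4)) (min (1 / 4) s) := le_max_left _ _
  nlinarith

theorem el_left {s : ℝ} (hs : s ≤ -(1 / 4)) : el q s = q.R1 := by
  have hR : 0 < q.R1 := by linarith [hq.R1_gt]
  unfold el lamc lam
  rw [min_eq_right (by linarith), max_eq_left hs]
  have : (1 / 2 + 2 * -(1 / 4)) * Real.log q.rho + (1 / 2 - 2 * -(1 / 4)) * Real.log q.R1 =
    Real.log q.R1 := by ring
  rw [this, Real.exp_log hR]

theorem el_right {s : ℝ} (hs : 0 ≤ s) : el q s < 1 / 1000 := by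
  have h := log_lt hq
  have hR : 0 < q.R1 := by linarith [hq.R1_gt]
  have h1 : 0 ≤ max (-(1 / 4)) (min (1 / 4) s) := le_max_of_le_right (le_min (by norm_num) hs)
  have h2 : el q s ^ 2 ≤ q.rho * q.R1 := by
    have e : q.rho * q.R1 = Real.exp (Real.log q.rho + Real.log q.R1) := by
      rw [Real.exp_add, Real.exp_log hq.rho_pos, Real.exp_log hR]
    rw [e]
    unfold el
    rw [← Real.exp_nat_mul]
    refine Real.exp_le_exp.2 ?_
    unfold lamc lam
    push_cast
    nlinarith
  have h3 := hq.prod_lt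
  have h4 := el_pos q s
  nlinarith

theorem sa_pos : 0 < sa q := by
  have h1 := hq.eps_pos
  have h2 := hq.eps_lt
  unfold sa
  exact Real.sqrt_pos.2 (by nlinarith)

theorem sa_sq : sa q ^ 2 = 1 - q.eps ^ 2 := by
  have h1 := hq.eps_pos
  have h2 := hq.eps_lt
  unfold sa
  exact Real.sq_sqrt (by nlinarith)

theorem sa_le : sa q ≤ 1 := by
  have h1 := sa_sq hq
  have h2 := sa_pos hq
  have h3 := hq.eps_pos
  nlinarith

theorem sa_ge : 999 / 1000 ≤ sa q := by
  have h1 := sa_sq hq
  have h2 := sa_pos hq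
  have h3 := hq.eps_pos
  have h4 := hq.eps_lt
  nlinarith

/-- the centre radius -/
theorem c_ge (s : ℝ) : el q s ≤ el q s / sa q := by
  rw [le_div_iff₀ (sa_pos hq)]
  have := sa_le hq
  have := el_pos q s
  nlinarith

theorem c_le (s : ℝ) : el q s / sa q ≤ 101 / 100 * el q s := by
  rw [div_le_iff₀ (sa_pos hq)]
  have := sa_ge hq
  have := el_pos q s
  nlinarith

theorem r_small (s : ℝ) : q.r < el q s / 4000 := by
  have h1 := el_ge hq s
  have h2 := hq.r_eps
  have h3 := hq.eps_lt
  have h4 := hq.rho_pos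
  nlinarith

theorem R_big : 2 * q.R1 ≤ q.R := by
  have hR : 0 < q.R1 := by linarith [hq.R1_gt]
  have h1 := hq.log_R
  have h2 := hq.kap_gt
  have h3 : q.R = q.R1 * Real.exp (kap q / 16) := by
    rw [← Real.exp_log hq.R_pos, h1, Real.exp_add, Real.exp_log hR]
  have h4 := Real.add_one_le_exp (kap q / 16)
  rw [h3]
  nlinarith

/-- **the gap** between strand `i` (in all positions needed) and the others -/
theorem gap {u : Bc (n + 2)} (hu : ‖u‖ ≤ 1) {k : Fin m} (hk : k ≠ i) {κ σ : ℝ}
    (h1 : el q (u 1) ≤ κ) (h2 : κ ≤ 101 / 100 * el q (u 1)) (h3 : 0 ≤ σ)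
    (h4 : σ ≤ el q (u 1) / 1000) :
    1 / 500 * el q (u 1) + q.r < ‖(κ • w1 D u - (σ * ⟪M1 D u, w1 D u⟫) • M1 D u) - D.y k u‖ := by
  have hel := el_pos q (u 1)
  have hr := r_small hq (u 1)
  have hM : |⟪M1 D u, w1 D u⟫| ≤ 1 := by
    have := abs_real_inner_le_norm (M1 D u) (w1 D u)
    rwa [norm_M1, norm_w1, one_mul] at this
  have hκ : 0 < κ := hel.trans_le h1
  have e1 : ‖κ • w1 D u‖ = κ := by rw [norm_smul, norm_w1, Real.norm_of_nonneg hκ.le, mul_one]
  have e2 : ‖(σ * ⟪M1 D u, w1 D u⟫) • M1 D u‖ ≤ σ := by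
    rw [norm_smul, norm_M1, mul_one, norm_mul, Real.norm_of_nonneg h3, Real.norm_eq_abs]
    nlinarith
  have up : ‖κ • w1 D u - (σ * ⟪M1 D u, w1 D u⟫) • M1 D u‖ ≤ κ + σ := by
    refine (norm_sub_le _ _).trans ?_
    rw [e1]; linarith
  have low : κ - σ ≤ ‖κ • w1 D u - (σ * ⟪M1 D u, w1 D u⟫) • M1 D u‖ := by
    have := norm_sub_norm_le (κ • w1 D u) ((σ * ⟪M1 D u, w1 D u⟫) • M1 D u)
    rw [e1] at this
    linarith
  set P := κ • w1 D u - (σ * ⟪M1 D u, w1 D u⟫) • M1 D u with hP
  by_cases hkj : k = j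
  · subst hkj
    rw [D.yj, sub_zero]
    linarith
  rcases le_or_gt 0 (u 1) with hs | hs
  · have h5 := el_right hq hs
    have h6 := D.far k u hkj
    have h7 : ‖D.y k u‖ - ‖P‖ ≤ ‖P - D.y k u‖ := by
      have := norm_sub_norm_le (D.y k u) P
      rwa [norm_sub_rev (D.y k u) P] at this
    linarith
  · have hP' : P = κ • hc (n + 1) := by
      rw [hP, w1_left D hs, M1_left D hs, inner_ec_hc, mul_zero, zero_smul, sub_zero]
    rcases le_or_gt (-(1 / 2)) (u 1) with hs' | hs'
    · have hy : D.y k u = D.p k := D.mid_y k u (abs_le.2 ⟨hs', by linarith⟩)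
      have h6 := D.p_norm k hkj
      have h8 : ‖P - D.y k u‖ ^ 2 = κ ^ 2 + ‖D.p k‖ ^ 2 := by
        have hh : ‖(hc (n + 1) : Vc (n + 2))‖ = 1 := by
          rw [← w1_left D hs, norm_w1]
        rw [hP', hy, norm_sub_sq_real, inner_smul_left, D.p_h k, norm_smul, hh,
          Real.norm_of_nonneg hκ.le]
        ring
      have h9 : 0 ≤ ‖P - D.y k u‖ := norm_nonneg _
      have h10 := hq.r_pos
      by_contra hc
      have h11 : ‖P - D.y k u‖ ^ 2 ≤ (1 / 500 * el q (u 1) + q.r) ^ 2 :=
        pow_le_pow_left₀ h9 (not_lt.1 hc) 2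
      nlinarith
    · have h5 := el_left hq (s := u 1) (by linarith)
      have h6 := hq.y_lt k u hk hu
      have h7 := norm_sub_norm_le P (D.y k u)
      rw [h5] at h1 h2 h4 hel hr ⊢
      linarith

end par

/-! ### the data of the strand `i` with round discs adapted to the inversion -/

/-- cores -/
noncomputable def xs (D : NFD n m i j) (q : Rad) (k : Fin m) (u : Bc (n + 2)) : Vc (n + 2) :=
  if k = i then cor (el q (u 1) / sa q) q.eps (w1 D u) (M1 D u) else D.y k u

/-- radii -/
noncomputable def rs (D : NFD n m i j) (q : Rad) (k : Fin m) (u : Bc (n + 2)) : ℝ :=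
  if k = i then rds (el q (u 1) / sa q) q.eps (w1 D u) (M1 D u) else q.r

theorem continuous_el (q : Rad) : Continuous fun u : Bc (n + 2) => el q (u 1) := by
  unfold el lamc lam
  fun_prop

theorem continuous_xs (D : NFD n m i j) (q : Rad) (k : Fin m) : Continuous (xs D q k) := by
  unfold xs
  split_ifs with h
  · have h1 := continuous_w1 D
    have h2 := continuous_M1 D
    have h3 : Continuous fun u : Bc (n + 2) => el q (u 1) / sa q := (continuous_el q).div_const _
    have h4 : Continuous fun u => ⟪M1 D u, w1 D u⟫ := h2.inner h1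
    unfold cor
    exact h3.smul (h1.sub ((continuous_const.mul h4).smul h2))
  · exact D.c_y k

theorem continuous_rs (D : NFD n m i j) (q : Rad) (k : Fin m) : Continuous (rs D q k) := by
  unfold rs
  split_ifs with h
  · have h1 := continuous_w1 D
    have h2 := continuous_M1 D
    have h3 : Continuous fun u : Bc (n + 2) => el q (u 1) / sa q := (continuous_el q).div_const _
    have h4 : Continuous fun u => ⟪M1 D u, w1 D u⟫ := h2.inner h1
    unfold rds
    exact (continuous_const.mul h3).mul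
      (Real.continuous_sqrt.comp (continuous_const.sub (continuous_const.mul (h4.pow 2))))
  · exact continuous_const

theorem continuous_nup (D : NFD n m i j) (k : Fin m) : Continuous (nup D k) := by
  unfold nup
  split_ifs with h h'
  · exact continuous_M1 D
  · exact D.F.c_Rf.comp (continuous_id.prodMk continuous_const)
  · exact D.c_N k

theorem norm_nup (D : NFD n m i j) (k : Fin m) (u : Bc (n + 2)) : ‖nup D k u‖ = 1 := by
  unfold nup
  split_ifs with h h'
  · exact norm_M1 D u
  · rw [LinearIsometryEquiv.norm_map]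
    simp [ec]
  · exact D.n_N k u

theorem nup_wall (D : NFD n m i j) (k : Fin m) {u : Bc (n + 2)} (h : ‖u‖ = 1) :
    nup D k u = ec (n + 2) := by
  unfold nup
  split_ifs with h1 h2
  · exact M1_wall D h
  · exact D.F.wall u h.ge
  · exact D.wall_N k u h.ge

section par2

variable {D : NFD n m i j} {q : Rad} (hq : Par D q)
include hq

theorem c_pos (s : ℝ) : 0 < el q s / sa q := div_pos (el_pos q s) (sa_pos hq)

omit hq in
theorem inner_sq_le (u : Bc (n + 2)) : ⟪M1 D u, w1 D u⟫ ^ 2 ≤ 1 := by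
  have := abs_real_inner_le_norm (M1 D u) (w1 D u)
  rw [norm_M1, norm_w1, one_mul] at this
  rw [← sq_abs]
  nlinarith [abs_nonneg ⟪M1 D u, w1 D u⟫]

theorem sqrt_mem (u : Bc (n + 2)) : 0 < √(1 - q.eps ^ 2 * ⟪M1 D u, w1 D u⟫ ^ 2) ∧
    √(1 - q.eps ^ 2 * ⟪M1 D u, w1 D u⟫ ^ 2) ≤ 1 := by
  have h1 := inner_sq_le (D := D) u
  have h2 := hq.eps_pos
  have h3 := hq.eps_lt
  have h4 : q.eps ^ 2 < 1 / 2 := by nlinarith
  have h5 := sq_nonneg ⟪M1 D u, w1 D u⟫
  refine ⟨Real.sqrt_pos.2 (by nlinarith), Real.sqrt_le_one.2 ?_⟩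
  nlinarith [sq_nonneg q.eps]

theorem rs_pos (k : Fin m) (u : Bc (n + 2)) : 0 < rs D q k u := by
  unfold rs
  split_ifs with h
  · unfold rds
    exact mul_pos (mul_pos hq.eps_pos (c_pos hq _)) (sqrt_mem hq u).1
  · exact hq.r_pos

theorem rs_i_le (u : Bc (n + 2)) : rs D q i u ≤ 1 / 500 * el q (u 1) := by
  unfold rs
  rw [if_pos rfl]
  unfold rds
  have h1 := sqrt_mem hq u
  have h2 := hq.eps_pos
  have h3 := hq.eps_lt
  have h4 := c_le hq (u 1)
  have h5 := c_pos hq (u 1)
  have h6 := el_pos q (u 1)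
  calc q.eps * (el q (u 1) / sa q) * √(1 - q.eps ^ 2 * ⟪M1 D u, w1 D u⟫ ^ 2)
      ≤ q.eps * (el q (u 1) / sa q) * 1 := by
        gcongr
        exact h1.2
    _ ≤ 1 / 1000 * (101 / 100 * el q (u 1)) := by
        rw [mul_one]
        gcongr
    _ ≤ 1 / 500 * el q (u 1) := by nlinarith

omit hq in
theorem xs_i (u : Bc (n + 2)) : xs D q i u = (el q (u 1) / sa q) • w1 D u -
    ((el q (u 1) / sa q * q.eps ^ 2) * ⟪M1 D u, w1 D u⟫) • M1 D u := by
  unfold xs cor
  rw [if_pos rfl, smul_sub, smul_smul]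
  congr 2
  ring

theorem sig_le (s : ℝ) : el q s / sa q * q.eps ^ 2 ≤ el q s / 1000 := by
  have h2 := hq.eps_pos
  have h3 := hq.eps_lt
  have h4 := c_le hq s
  have h5 := c_pos hq s
  have h6 := el_pos q s
  have h7 : q.eps ^ 2 ≤ 1 / 1000 * (1 / 1000) := by nlinarith
  calc el q s / sa q * q.eps ^ 2 ≤ (101 / 100 * el q s) * (1 / 1000 * (1 / 1000)) := by gcongr
    _ ≤ el q s / 1000 := by nlinarith

theorem gap_i {u : Bc (n + 2)} (hu : ‖u‖ ≤ 1) {k : Fin m} (hk : k ≠ i) :
    1 / 500 * el q (u 1) + q.r < ‖xs D q i u - D.y k u‖ := by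
  rw [xs_i]
  exact gap hq hu hk (c_ge hq _) (c_le hq _)
    (mul_nonneg (c_pos hq _).le (sq_nonneg _)) (sig_le hq _)

theorem norm_XS_i (u : Bc (n + 2)) : ‖xs D q i u‖ ≤ 102 / 100 * el q (u 1) := by
  rw [xs_i]
  have h1 := c_le hq (u 1)
  have h2 := sig_le hq (u 1)
  have h3 := c_pos hq (u 1)
  have h4 := el_pos q (u 1)
  have hM : |⟪M1 D u, w1 D u⟫| ≤ 1 := by
    have := abs_real_inner_le_norm (M1 D u) (w1 D u)
    rwa [norm_M1, norm_w1, one_mul] at this
  refine (norm_sub_le _ _).trans ?_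
  have h5 : 0 ≤ el q (u 1) / sa q * q.eps ^ 2 := mul_nonneg h3.le (sq_nonneg _)
  rw [norm_smul, norm_smul, norm_w1, norm_M1, mul_one, mul_one, norm_mul,
    Real.norm_of_nonneg h3.le, Real.norm_of_nonneg h5, Real.norm_eq_abs]
  have h6 : el q (u 1) / sa q * q.eps ^ 2 * |⟪M1 D u, w1 D u⟫| ≤
      el q (u 1) / sa q * q.eps ^ 2 * 1 := by gcongr
  linarith

theorem xs_wall (k : Fin m) {u : Bc (n + 2)} (h : ‖u‖ = 1) : ⟪ec (n + 2), xs D q k u⟫ = 0 := by
  by_cases hk : k = i
  · subst hk
    rw [xs_i, M1_wall D h, w1_wall D h, mul_zero, zero_smul, sub_zero, inner_smul_right,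
      w1_wall D h, mul_zero]
  · unfold xs
    rw [if_neg hk]
    exact D.wall_y k u h.ge

theorem sep_two {k l : Fin m} {u : Bc (n + 2)} (hu : ‖u‖ ≤ 1) (hkl : k ≠ l) :
    rs D q k u + rs D q l u < ‖xs D q k u - xs D q l u‖ ∧
      2 * q.r < ‖xs D q k u - xs D q l u‖ := by
  have hr := r_small hq (u 1)
  have hel := el_pos q (u 1)
  by_cases hk : k = i
  · subst hk
    have hl : l ≠ k := Ne.symm hkl
    have h1 := gap_i hq hu hl
    have h2 := rs_i_le hq u
    have h3 : xs D q l u = D.y l u := by unfold xs; rw [if_neg hl]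
    have h4 : rs D q l u = q.r := by unfold rs; rw [if_neg hl]
    rw [h3, h4]
    exact ⟨by linarith, by linarith⟩
  · by_cases hl : l = i
    · subst hl
      have h1 := gap_i hq hu hk
      have h2 := rs_i_le hq u
      have h3 : xs D q k u = D.y k u := by unfold xs; rw [if_neg hk]
      have h4 : rs D q k u = q.r := by unfold rs; rw [if_neg hk]
      rw [h3, h4, norm_sub_rev]
      exact ⟨by linarith, by linarith⟩
    · have h1 := hq.sep k l u hk hl hkl hu
      have h3 : xs D q l u = D.y l u := by unfold xs; rw [if_neg hl]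
      have h4 : rs D q l u = q.r := by unfold rs; rw [if_neg hl]
      have h5 : xs D q k u = D.y k u := by unfold xs; rw [if_neg hk]
      have h6 : rs D q k u = q.r := by unfold rs; rw [if_neg hk]
      have h7 := hq.r_pos
      rw [h3, h4, h5, h6]
      exact ⟨by linarith, by linarith⟩

theorem bd_two {k : Fin m} {u : Bc (n + 2)} (hu : ‖u‖ ≤ 1) :
    ‖xs D q k u‖ + rs D q k u < q.R ∧ ‖xs D q k u‖ + q.r < q.R := by
  have hR := R_big hq
  have hR1 := hq.R1_gt
  have hr := hq.r_lt
  have h0 := el_le hq (u 1)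
  by_cases hk : k = i
  · subst hk
    have h1 := norm_XS_i hq u
    have h2 := rs_i_le hq u
    exact ⟨by linarith, by linarith⟩
  · have h1 := hq.y_lt k u hk hu
    have h3 : xs D q k u = D.y k u := by unfold xs; rw [if_neg hk]
    have h4 : rs D q k u = q.r := by unfold rs; rw [if_neg hk]
    have h5 := norm_nonneg (D.y k u)
    rw [h3, h4]
    exact ⟨by linarith, by linarith⟩

set_option linter.unusedVariables false in
/-- the system with the moved core -/
noncomputable def G1 : S n m where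
  x k u := xs D q k (ret u)
  nu k u := nup D k (ret u)
  r := q.r
  R := q.R
  hr := hq.r_pos
  cx k := (continuous_xs D q k).comp continuous_ret
  cnu k := (continuous_nup D k).comp continuous_ret
  norm_nu k u := norm_nup D k _
  sep k l u h := (sep_two hq (norm_ret_le u) h).2
  bd k u := (bd_two hq (norm_ret_le u)).2
  wall_x k u h := xs_wall hq k (norm_ret_of_ge h)
  wall_nu k u h := nup_wall D k (norm_ret_of_ge h)

set_option linter.unusedVariables false in
theorem isot (G : S n m) (hG : Has G (xp D q.rho q.R1) (nup D)) : Isot G (G1 hq) := by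
  refine ⟨fun k p => if k = i then
      ((1 - p.1) * el q (p.2 1) + p.1 * (el q (p.2 1) / sa q)) • w1 D p.2 -
        (p.1 * (el q (p.2 1) / sa q * q.eps ^ 2) * ⟪M1 D p.2, w1 D p.2⟫) • M1 D p.2
      else D.y k p.2, fun k p => nup D k p.2, ?_, ?_, ?_, ?_, ?_, ?_, ?_⟩
  · intro k
    refine Continuous.continuousOn ?_
    by_cases h : k = i
    · simp only [if_pos h]
      have h1 : Continuous fun p : ℝ × Bc (n + 2) => w1 D p.2 :=
        (continuous_w1 D).comp continuous_snd
      have h2 : Continuous fun p : ℝ × Bc (n + 2) => M1 D p.2 :=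
        (continuous_M1 D).comp continuous_snd
      have h3 : Continuous fun p : ℝ × Bc (n + 2) => el q (p.2 1) :=
        (continuous_el (n := n) q).comp continuous_snd
      have h4 : Continuous fun p : ℝ × Bc (n + 2) => ⟪M1 D p.2, w1 D p.2⟫ := h2.inner h1
      have h6 : Continuous fun p : ℝ × Bc (n + 2) =>
          (1 - p.1) * el q (p.2 1) + p.1 * (el q (p.2 1) / sa q) :=
        ((continuous_const.sub continuous_fst).mul h3).add
          (continuous_fst.mul (h3.div_const _))
      have h7 : Continuous fun p : ℝ × Bc (n + 2) =>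
          p.1 * (el q (p.2 1) / sa q * q.eps ^ 2) * ⟪M1 D p.2, w1 D p.2⟫ :=
        (continuous_fst.mul ((h3.div_const _).mul continuous_const)).mul h4
      exact (h6.smul h1).sub (h7.smul h2)
    · simp only [if_neg h]
      exact (D.c_y k).comp continuous_snd
  · intro k
    exact ((continuous_nup D k).comp continuous_snd).continuousOn
  · intro k t _ u _
    exact norm_nup D k u
  · intro k l hkl t ht u hu
    have hcm : ∀ s, el q s ≤ (1 - t) * el q s + t * (el q s / sa q) ∧
        (1 - t) * el q s + t * (el q s / sa q) ≤ 101 / 100 * el q s := by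
      intro s
      have h1 := c_ge hq s
      have h2 := c_le hq s
      have h3 := el_pos q s
      have h4 := ht.1
      have h5 := ht.2
      constructor <;> nlinarith
    have hcs : ∀ s, 0 ≤ t * (el q s / sa q * q.eps ^ 2) ∧
        t * (el q s / sa q * q.eps ^ 2) ≤ el q s / 1000 := by
      intro s
      have h1 := sig_le hq s
      have h2 : 0 ≤ el q s / sa q * q.eps ^ 2 := mul_nonneg (c_pos hq s).le (sq_nonneg _)
      have h4 := ht.1
      have h5 := ht.2
      refine ⟨mul_nonneg h4 h2, ?_⟩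
      nlinarith
    have key : ∀ l, l ≠ i → ((1 - t) * el q (u 1) + t * (el q (u 1) / sa q)) • w1 D u -
        (t * (el q (u 1) / sa q * q.eps ^ 2) * ⟪M1 D u, w1 D u⟫) • M1 D u ≠ D.y l u := by
      intro l hl he
      have h1 := gap hq hu hl (hcm _).1 (hcm _).2 (hcs _).1 (hcs _).2
      rw [he, sub_self, norm_zero] at h1
      have h2 := el_pos q (u 1)
      have h3 := hq.r_pos
      linarith
    by_cases hk : k = i
    · subst hk
      simp only [if_true, if_neg (Ne.symm hkl)]
      exact key l (Ne.symm hkl)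
    · by_cases hl : l = i
      · subst hl
        simp only [if_true, if_neg hk]
        exact (key k hk).symm
      · simp only [if_neg hk, if_neg hl]
        exact D.sep k l u hkl
  · intro k t _ u hu
    refine ⟨?_, nup_wall D k hu⟩
    by_cases hk : k = i
    · simp only [if_pos hk]
      rw [M1_wall D hu, w1_wall D hu, mul_zero, zero_smul, sub_zero, inner_smul_right,
        w1_wall D hu, mul_zero]
    · simp only [if_neg hk]
      exact D.wall_y k u hu.ge
  · intro k u hu
    obtain ⟨g1, g2⟩ := hG k u hu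
    refine ⟨?_, g2.symm⟩
    rw [g1]
    unfold xp
    by_cases hk : k = i
    · simp only [if_pos hk, sub_zero, one_mul, zero_mul, add_zero, zero_smul]
      rfl
    · simp only [if_neg hk]
  · intro k u hu
    show _ = xs D q k (ret u) ∧ _ = nup D k (ret u)
    rw [ret_of_le hu]
    refine ⟨?_, rfl⟩
    by_cases hk : k = i
    · subst hk
      rw [xs_i]
      simp only [if_true, sub_self, zero_mul, one_mul, zero_add]
    · unfold xs
      simp only [if_neg hk]

omit hq in
/-- the ball condition -/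
theorem ball_key {c a l : ℝ} (ha : 0 < a) (hc : c = Real.exp l / a) {ε : ℝ}
    (haε : a ^ 2 = 1 - ε ^ 2) {v w : Vc (n + 2)} (hv : v ≠ 0) (hw : ‖w‖ = 1) :
    ‖v - c • w‖ ^ 2 - (ε * c) ^ 2 =
      (2 * c) * (a * Real.cosh (Real.log ‖v‖ - l) * ‖v‖ - ⟪v, w⟫) := by
  have hn : 0 < ‖v‖ := norm_pos_iff.2 hv
  have hE : 0 < Real.exp l := Real.exp_pos l
  rw [Real.cosh_eq, neg_sub, Real.exp_sub, Real.exp_sub, Real.exp_log hn, norm_sub_sq_real,
    norm_smul, hw, inner_smul_right, mul_one, Real.norm_eq_abs, sq_abs, hc]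
  have h1 : (ε * (Real.exp l / a)) ^ 2 = (1 - a ^ 2) * (Real.exp l / a) ^ 2 := by
    rw [mul_pow, haε]; ring
  rw [h1]
  field_simp
  ring

theorem inD_iff {u : Bc (n + 2)} {v : Vc (n + 2)} (hv : v ≠ 0) :
    inD D q (lamc q.rho q.R1 (1 / 4) (1 / 4)) (u, v) ↔
      ‖v - (el q (u 1) / sa q) • w1 D u‖ < q.eps * (el q (u 1) / sa q) := by
  have h := ball_key (n := n) (c := el q (u 1) / sa q) (sa_pos hq) rfl (sa_sq hq) hv
    (norm_w1 D u)
  have hc := c_pos hq (u 1)
  rw [← Inv_118.sq_lt_iff (norm_nonneg _) (mul_nonneg hq.eps_pos.le hc.le), h]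
  unfold inD
  constructor
  · intro h1
    exact mul_neg_of_pos_of_neg (by linarith) (by linarith)
  · intro h1
    have := neg_of_mul_neg_right h1 (by linarith : (0:ℝ) ≤ 2 * (el q (u 1) / sa q))
    linarith

theorem onD_iff {u : Bc (n + 2)} {v : Vc (n + 2)} (hv : v ≠ 0) :
    onD D q (lamc q.rho q.R1 (1 / 4) (1 / 4)) (u, v) ↔
      (‖v - (el q (u 1) / sa q) • w1 D u‖ = q.eps * (el q (u 1) / sa q) ∧
        ⟪M1 D u, v - (el q (u 1) / sa q) • w1 D u⟫ =
          -(q.eps ^ 2 * (el q (u 1) / sa q) * ⟪M1 D u, w1 D u⟫)) := by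
  have h := ball_key (n := n) (c := el q (u 1) / sa q) (sa_pos hq) rfl (sa_sq hq) hv
    (norm_w1 D u)
  have hc := c_pos hq (u 1)
  have hs := sa_pos hq
  rw [← Inv_118.sq_eq_iff' (norm_nonneg _) (mul_nonneg hq.eps_pos.le hc.le), h]
  unfold onD
  refine and_congr ?_ ?_
  · rw [mul_eq_zero, or_iff_right (by positivity), sub_eq_zero]
  · rw [inner_sub_right, inner_smul_right]
    have e1 : sa q * Real.exp (lamc q.rho q.R1 (1 / 4) (1 / 4) (u 1)) =
        (1 - q.eps ^ 2) * (el q (u 1) / sa q) := by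
      rw [← sa_sq hq]
      unfold el
      field_simp
    show ⟪M1 D u, v⟫ = sa q * Real.exp (lamc q.rho q.R1 (1 / 4) (1 / 4) (u 1)) *
      ⟪M1 D u, w1 D u⟫ ↔ _
    rw [e1]
    constructor <;> intro h2 <;> linarith

/-- **SHAPE** -/
theorem shape (G : S n m) (hG : Has G (xp D q.rho q.R1) (nup D)) :
    Eqv G.K (KE D q (lamc q.rho q.R1 (1 / 4) (1 / 4))) := by
  have hm : 0 < m := i.pos
  have s1 : Eqv G.K (G1 hq).K := Rad_118.T1 hm G (G1 hq) (isot hq G hG)
  have a1 : AdmX (ec (n + 2)) q.R (G1 hq).x (fun _ _ => q.r) :=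
    ⟨(G1 hq).cx, fun _ => continuous_const, fun _ _ _ => hq.r_pos,
      fun k l u _ hkl => by
        have := (G1 hq).sep k l u hkl
        have h2 : (G1 hq).r = q.r := rfl
        linarith, fun k u _ => (G1 hq).bd k u, fun k u h => (G1 hq).wall_x k u h.ge⟩
  have a2 : AdmX (ec (n + 2)) q.R (G1 hq).x (fun k u => rs D q k (ret u)) :=
    ⟨(G1 hq).cx, fun k => (continuous_rs D q k).comp continuous_ret, fun k u _ => rs_pos hq k _,
      fun k l u _ hkl => (sep_two hq (norm_ret_le u) hkl).1,
      fun k u _ => (bd_two hq (norm_ret_le u)).1, fun k u h => (G1 hq).wall_x k u h.ge⟩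
  have s2 : Eqv (G1 hq).K (KX (ec (n + 2)) q.R (G1 hq).x (G1 hq).nu
      (fun k u => rs D q k (ret u))) := change a1 a2
  have s3 : KX (ec (n + 2)) q.R (G1 hq).x (G1 hq).nu (fun k u => rs D q k (ret u)) =
      KE D q (lamc q.rho q.R1 (1 / 4) (1 / 4)) := by
    ext ⟨u, v⟩
    show ((⟪ec (n + 2), v⟫ = 0 ∧ ‖u‖ = 1 ∧ ‖v‖ ≤ q.R ∧
        ∀ k, rs D q k (ret u) ≤ ‖v - xs D q k (ret u)‖) ∨
      (⟪ec (n + 2), v⟫ = 0 ∧ ‖u‖ ≤ 1 ∧ ‖v‖ = q.R) ∨
      ∃ k, ‖u‖ ≤ 1 ∧ ‖v - xs D q k (ret u)‖ = rs D q k (ret u) ∧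
        ⟪nup D k (ret u), v - xs D q k (ret u)⟫ = 0) ↔ _
    simp only [KE, mem_ofPred_eq]
    by_cases hu : ‖u‖ ≤ 1
    swap
    · have h1 : ¬ ‖u‖ = 1 := fun h => hu h.le
      simp only [hu, h1, false_and, and_false, or_false, exists_false]
    rw [ret_of_le hu]
    have hel := el_pos q (u 1)
    have hcp := c_pos hq (u 1)
    have hcge := c_ge hq (u 1)
    have hcle := c_le hq (u 1)
    have hr := r_small hq (u 1)
    have hrp := hq.r_pos
    have hRb := R_big hq
    have hle := el_le hq (u 1)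
    have hR1 := hq.R1_gt
    have hε := hq.eps_pos
    have hε' := hq.eps_lt
    have hεc : q.eps * (el q (u 1) / sa q) ≤ 1 / 500 * el q (u 1) := by
      calc q.eps * (el q (u 1) / sa q) ≤ 1 / 1000 * (101 / 100 * el q (u 1)) := by gcongr
        _ ≤ 1 / 500 * el q (u 1) := by nlinarith
    have hnw : ‖(el q (u 1) / sa q) • w1 D u‖ = el q (u 1) / sa q := by
      rw [norm_smul, norm_w1, mul_one, Real.norm_of_nonneg hcp.le]
    -- points of the closed ball have moderate norm
    have hball : ‖v - (el q (u 1) / sa q) • w1 D u‖ ≤ q.eps * (el q (u 1) / sa q) →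
        q.r < ‖v‖ ∧ ‖v‖ < q.R := by
      intro h
      have h1 := norm_sub_norm_le ((el q (u 1) / sa q) • w1 D u) v
      rw [hnw, norm_sub_rev] at h1
      have h2 := norm_sub_norm_le v ((el q (u 1) / sa q) • w1 D u)
      rw [hnw] at h2
      exact ⟨by linarith, by linarith⟩
    have hxj : xs D q j u = 0 := by
      unfold xs
      rw [if_neg (Ne.symm D.hij), D.yj]
    have hrj : rs D q j u = q.r := by
      unfold rs
      rw [if_neg (Ne.symm D.hij)]
    have hnj : nup D j u = D.F.Rf u (ec (n + 2)) := by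
      unfold nup
      rw [if_neg (Ne.symm D.hij), if_pos rfl]
    have hxk : ∀ k, k ≠ i → xs D q k u = D.y k u := fun k hk => by unfold xs; rw [if_neg hk]
    have hrk : ∀ k, k ≠ i → rs D q k u = q.r := fun k hk => by unfold rs; rw [if_neg hk]
    have hnk : ∀ k, k ≠ i → k ≠ j → nup D k u = D.N k u := fun k hk hkj => by
      unfold nup; rw [if_neg hk, if_neg hkj]
    have hi : (‖v - xs D q i u‖ = rs D q i u ∧ ⟪nup D i u, v - xs D q i u⟫ = 0) ↔
        (‖v - (el q (u 1) / sa q) • w1 D u‖ = q.eps * (el q (u 1) / sa q) ∧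
        ⟪M1 D u, v - (el q (u 1) / sa q) • w1 D u⟫ =
          -(q.eps ^ 2 * (el q (u 1) / sa q) * ⟪M1 D u, w1 D u⟫)) := by
      have := sigma_iff (c := el q (u 1) / sa q) (ε := q.eps) hcp hε (by linarith)
        (norm_w1 D u) (norm_M1 D u) v
      rw [← this]
      unfold xs rs nup
      simp only [if_true]
      rfl
    refine or_congr ?_ (or_congr ?_ ?_)
    · -- walls
      constructor
      · rintro ⟨b1, b2, b3, b4⟩
        have h1 := b4 j
        rw [hxj, hrj, sub_zero] at h1
        have hv : v ≠ 0 := by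
          rintro rfl
          rw [norm_zero] at h1
          linarith
        refine ⟨b1, b2, h1, b3, fun k hk hkj => ?_, ?_⟩
        · have h2 := b4 k
          rwa [hxk k hk, hrk k hk] at h2
        · rw [inD_iff hq hv, not_lt]
          have h2 := b4 i
          rw [xs_i, M1_wall D b2, w1_wall D b2, mul_zero, zero_smul, sub_zero] at h2
          have h3 : rs D q i u = q.eps * (el q (u 1) / sa q) := by
            unfold rs rds
            rw [if_pos rfl, M1_wall D b2, w1_wall D b2]
            simp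
          rwa [h3] at h2
      · rintro ⟨b1, b2, b3, b4, b5, b6⟩
        have hv : v ≠ 0 := by
          rintro rfl
          rw [norm_zero] at b3
          linarith
        refine ⟨b1, b2, b4, fun k => ?_⟩
        by_cases hk : k = i
        · subst hk
          rw [inD_iff hq hv, not_lt] at b6
          rw [xs_i, M1_wall D b2, w1_wall D b2, mul_zero, zero_smul, sub_zero]
          have h3 : rs D q k u = q.eps * (el q (u 1) / sa q) := by
            unfold rs rds
            rw [if_pos rfl, M1_wall D b2, w1_wall D b2]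
            simp
          rwa [h3]
        · by_cases hkj : k = j
          · subst hkj
            rw [hxj, hrj, sub_zero]
            exact b3
          · rw [hxk k hk, hrk k hk]
            exact b5 k hk hkj
    · -- outer boundary
      constructor
      · rintro ⟨b1, b2, b3⟩
        refine ⟨b1, b2, b3, ?_⟩
        have hv : v ≠ 0 := by
          rintro rfl
          rw [norm_zero] at b3
          linarith
        rw [inD_iff hq hv]
        intro h
        have := (hball h.le).2
        linarith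
      · rintro ⟨b1, b2, b3, _⟩
        exact ⟨b1, b2, b3⟩
    · constructor
      · rintro ⟨k, b1, b2, b3⟩
        by_cases hk : k = i
        · subst hk
          right; right
          have h1 := hi.1 ⟨b2, b3⟩
          have h2 := hball h1.1.le
          have hv : v ≠ 0 := by
            rintro rfl
            rw [norm_zero] at h2
            linarith [h2.1]
          exact ⟨b1, h2.1.le, h2.2.le, (onD_iff hq hv).2 h1⟩
        · by_cases hkj : k = j
          · subst hkj
            left
            rw [hxj, hrj, sub_zero] at b2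
            rw [hxj, hnj, sub_zero] at b3
            refine ⟨b1, b2, b3, ?_⟩
            have hv : v ≠ 0 := by
              rintro rfl
              rw [norm_zero] at b2
              linarith
            rw [inD_iff hq hv]
            intro h
            have := (hball h.le).1
            linarith
          · right; left
            rw [hxk k hk, hrk k hk] at b2
            rw [hxk k hk, hnk k hk hkj] at b3
            exact ⟨k, hk, hkj, b1, b2, b3⟩
      · rintro (⟨b1, b2, b3, _⟩ | ⟨k, hk, hkj, b1, b2, b3⟩ | ⟨b1, b2, b3, b4⟩)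
        · refine ⟨j, b1, ?_, ?_⟩
          · rw [hxj, hrj, sub_zero]; exact b2
          · rw [hxj, hnj, sub_zero]; exact b3
        · refine ⟨k, b1, ?_, ?_⟩
          · rw [hxk k hk, hrk k hk]; exact b2
          · rw [hxk k hk, hnk k hk hkj]; exact b3
        · have hv : v ≠ 0 := by
            rintro rfl
            rw [norm_zero] at b2
            linarith
          obtain ⟨h1, h2⟩ := hi.2 ((onD_iff hq hv).1 b4)
          exact ⟨i, b1, h1, h2⟩
  rw [← s3]
  exact s1.trans s2

end par2

/-- **leaf SHAPE of LM_808** -/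
theorem shapeP (n : ℕ) : ShapeP n := fun _ _ _ _ _ hq G hG _ _ => shape hq G hG

end Crest.Agent.R267.Shape_118
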