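import Crest.Agent.R267.LM_808
import Crest.Agent.R267.Path_224

/-!
# SYS (row 267, DRAFT B part 4): mirror data, good radii, systems

`sysP n : SysP n`.
-/

set_option autoImplicit false
set_option linter.unusedSectionVars false
set_option linter.unusedVariables false

namespace Crest.Agent.R267.SysP_224

open Set Metric Filter Topology
open scoped RealInnerProductSpace
open Crest.Agent.R267.GS_808 Crest.Agent.R267.DraftB_808 Crest.Agent.R267.NF_808
open Crest.Agent.R267.LM_808 Crest.Agent.R267.Norm_855 Crest.Agent.R267.LemR_224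
open Crest.Agent.R267.Path_224
open Crest.Agent.R267

noncomputable section

variable {n m : ℕ} {i j : Fin m}

/-! ### the mirror -/

lemma mu_one (u : Bc (n + 2)) : mu u 1 = -(u 1) := by simp [mu, us]

lemma mu_ne (u : Bc (n + 2)) {k : Fin (n + 2)} (hk : k ≠ 1) : mu u k = u k := by
  simp [mu, us, hk]

lemma norm_mu (u : Bc (n + 2)) : ‖mu u‖ = ‖u‖ := norm_flip u

lemma us_mu (u : Bc (n + 2)) (s : ℝ) : us (mu u) s = us u s := by
  unfold mu
  exact us_us u _ s

lemma rest_mu {u : Bc (n + 2)} (h : RestAt u) : RestAt (mu u) :=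
  rest_of (fun k hk => mu_ne u hk) h fun h => by rw [mu_one, abs_neg]; exact h

lemma refl_norm {V : Type*} [NormedAddCommGroup V] [InnerProductSpace ℝ V] {w : V}
    (hw : ‖w‖ = 1) (v : V) : ‖NF_808.refl w v‖ = ‖v‖ := by
  rw [refl_eq_rf hw, norm_rf]

/-- the mirror path. -/
def mirPath (P : PathD n) : PathD n where
  om := P.om
  M := fun u => NF_808.refl (P.om u) (P.M u)
  c_om := P.c_om
  c_M := by
    have h1 : Continuous fun u => 2 * ⟪P.M u, P.om u⟫ :=
      continuous_const.mul (P.c_M.inner P.c_om)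
    exact P.c_M.sub (h1.smul P.c_om)
  n_om := P.n_om
  n_M := fun u => by rw [refl_norm (P.n_om u), P.n_M]
  rest_om := P.rest_om
  rest_M := fun u hu => by
    show NF_808.refl (P.om u) (P.M u) = ec (n + 2)
    rw [P.rest_om u hu, P.rest_M u hu, NF_808.refl, ec_hc]
    simp
  wall_om := P.wall_om
  wall_M := fun u hu => by
    rw [P.wall_M u hu, NF_808.refl, P.wall_om u hu]
    simp

/-- the mirror frame. -/
def mirFrame (F : FrameD n) : FrameD n where
  Rf := fun u => F.Rf (mu u)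
  c_Rf := by
    have h : Continuous fun p : Bc (n + 2) × Vc (n + 2) => (mu p.1, p.2) :=
      (continuous_mu.comp continuous_fst).prodMk continuous_snd
    exact F.c_Rf.comp h
  c_Rf' := by
    have h : Continuous fun p : Bc (n + 2) × Vc (n + 2) => (mu p.1, p.2) :=
      (continuous_mu.comp continuous_fst).prodMk continuous_snd
    exact F.c_Rf'.comp h
  rest := fun u hu => F.rest _ (rest_mu hu)
  wall := fun u hu => F.wall _ (by rw [norm_mu]; exact hu)

/-- the mirror data. -/
def mirD (D : NFD n m i j) : NFD n m i j where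
  y := fun k u => D.y k (mu u)
  N := fun k u => D.N k (mu u)
  p := D.p
  c_y := fun k => (D.c_y k).comp continuous_mu
  c_N := fun k => (D.c_N k).comp continuous_mu
  n_N := fun k u => D.n_N k _
  yj := fun u => D.yj _
  sep := fun k l u h => D.sep k l _ h
  far := fun k u h => D.far k _ h
  p_e := D.p_e
  p_h := D.p_h
  p_norm := D.p_norm
  rest_y := fun k u hu => D.rest_y k _ (rest_mu hu)
  rest_N := fun k u hu => D.rest_N k _ (rest_mu hu)
  wall_y := fun k u hu => D.wall_y k _ (by rw [norm_mu]; exact hu)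
  wall_N := fun k u hu => D.wall_N k _ (by rw [norm_mu]; exact hu)
  P := mirPath D.P
  F := mirFrame D.F
  hij := D.hij
  mid_y := fun k u hu => D.mid_y k _ (by rw [mu_one, abs_neg]; exact hu)
  mid_N := fun k u hu => D.mid_N k _ (by rw [mu_one, abs_neg]; exact hu)
  mid_F := fun u hu => D.mid_F _ (by rw [mu_one, abs_neg]; exact hu)

lemma isMir_mirD (D : NFD n m i j) : IsMir D (mirD D) :=
  ⟨fun _ _ => rfl, fun _ _ => rfl, fun _ => rfl, fun _ => rfl, fun _ => rfl⟩

/-! ### the frame on half the cube -/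

lemma fr_eq (D : NFD n m i j) (u : Bc (n + 2)) : fr D u = D.F.Rf (us u (max 0 (u 1))) := by
  by_cases h : 0 ≤ u 1
  · rw [fr, if_pos h, max_eq_right h, us_self]
  · rw [fr, if_neg h, D.mid_F]
    rw [us_one, max_eq_left (not_le.1 h).le]
    norm_num

lemma continuous_fr (D : NFD n m i j) {f : Bc (n + 2) → Vc (n + 2)} (hf : Continuous f) :
    Continuous fun u => fr D u (f u) := by
  have h1 : Continuous fun u : Bc (n + 2) => us u (max 0 (u 1)) := by
    have h : Continuous fun u : Bc (n + 2) => (u, max 0 (u 1)) := by fun_prop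
    exact continuous_us.comp h
  have h2 := D.F.c_Rf.comp (h1.prodMk hf)
  have h3 : (fun u => fr D u (f u)) = fun u => D.F.Rf (us u (max 0 (u 1))) (f u) := by
    funext u
    rw [fr_eq]
  rw [h3]
  exact h2

lemma fr_wall (D : NFD n m i j) {u : Bc (n + 2)} (hu : 1 ≤ ‖u‖) :
    fr D u (ec (n + 2)) = ec (n + 2) := by
  unfold fr
  split_ifs with h
  · exact D.F.wall u hu
  · rfl

lemma fr_hor (D : NFD n m i j) {u : Bc (n + 2)} (hu : 1 ≤ ‖u‖) (v : Vc (n + 2)) :
    ⟪ec (n + 2), fr D u v⟫ = ⟪ec (n + 2), v⟫ := by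
  conv_lhs => rw [← fr_wall D hu]
  exact (fr D u).inner_map_map _ _

lemma path_norm {u : Bc (n + 2)} (hu : 1 ≤ ‖u‖) : 1 ≤ ‖us u (16 * u 1 - 1)‖ := by
  refine one_le_of (fun k hk => us_ne u _ hk) hu fun h => ?_
  rw [us_one]
  rcases le_abs.1 h with h | h
  · exact le_abs.2 (Or.inl (by linarith))
  · exact le_abs.2 (Or.inr (by linarith))

/-! ### the data of `G₊` -/

lemma continuous_rp (rho R1 : ℝ) : Continuous (rp rho R1) := by
  unfold rp
  fun_prop

lemma rp_pos (rho R1 s : ℝ) : 0 < rp rho R1 s := Real.exp_pos _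

lemma continuous_xp (D : NFD n m i j) (rho R1 : ℝ) (k : Fin m) : Continuous (xp D rho R1 k) := by
  unfold xp
  by_cases hk : k = i
  · simp only [hk, if_true]
    have h : Continuous fun u : Bc (n + 2) => (u, 16 * u 1 - 1) := by fun_prop
    exact ((continuous_rp rho R1).comp (continuous_apply 1)).smul
      (continuous_fr D (D.P.c_om.comp (continuous_us.comp h)))
  · simp only [hk, if_false]
    exact D.c_y k

lemma continuous_nup (D : NFD n m i j) (k : Fin m) : Continuous (nup D k) := by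
  unfold nup
  by_cases hk : k = i
  · simp only [hk, if_true]
    have h : Continuous fun u : Bc (n + 2) => (u, 16 * u 1 - 1) := by fun_prop
    exact continuous_fr D (D.P.c_M.comp (continuous_us.comp h))
  · simp only [hk, if_false]
    by_cases hj : k = j
    · simp only [hj, if_true]
      exact D.F.c_Rf.comp (continuous_id.prodMk continuous_const)
    · simp only [hj, if_false]
      exact D.c_N k

lemma norm_nup (D : NFD n m i j) (k : Fin m) (u : Bc (n + 2)) : ‖nup D k u‖ = 1 := by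
  unfold nup
  split_ifs
  · rw [LinearIsometryEquiv.norm_map, D.P.n_M]
  · rw [LinearIsometryEquiv.norm_map, norm_ec]
  · exact D.n_N k u

lemma xp_hor (D : NFD n m i j) (rho R1 : ℝ) (k : Fin m) {u : Bc (n + 2)} (hu : 1 ≤ ‖u‖) :
    ⟪ec (n + 2), xp D rho R1 k u⟫ = 0 := by
  unfold xp
  split_ifs
  · rw [inner_smul_right, fr_hor D hu, D.P.wall_om _ (path_norm hu), mul_zero]
  · exact D.wall_y k u hu

lemma nup_wall (D : NFD n m i j) (k : Fin m) {u : Bc (n + 2)} (hu : 1 ≤ ‖u‖) :
    nup D k u = ec (n + 2) := by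
  unfold nup
  split_ifs
  · rw [D.P.wall_M _ (path_norm hu)]
    exact fr_wall D hu
  · exact D.F.wall u hu
  · exact D.wall_N k u hu

lemma norm_xp_i (D : NFD n m i j) (rho R1 : ℝ) (u : Bc (n + 2)) :
    ‖xp D rho R1 i u‖ = rp rho R1 (u 1) := by
  rw [xp, if_pos rfl, norm_smul, LinearIsometryEquiv.norm_map, D.P.n_om, mul_one, Real.norm_eq_abs,
    abs_of_pos (rp_pos _ _ _)]

lemma xp_ne_aux (D : NFD n m i j) {q : Rad} (hq : Par D q) {k : Fin m} (hk : k ≠ i)
    {u : Bc (n + 2)} (hu : ‖u‖ ≤ 1) : xp D q.rho q.R1 i u ≠ xp D q.rho q.R1 k u := by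
  have hxk : xp D q.rho q.R1 k u = D.y k u := by rw [xp, if_neg hk]
  intro h
  rw [hxk] at h
  have hN := norm_xp_i D q.rho q.R1 u
  rw [h] at hN
  by_cases hj : k = j
  · subst hj
    rw [D.yj, norm_zero] at hN
    exact absurd hN.symm (rp_pos _ _ _).ne'
  have hR1 : 0 < q.R1 := by linarith [hq.R1_gt]
  rcases lt_or_ge (u 1) (-(1 / 2)) with h1 | h1
  · -- far left: the strand is outermost
    have e1 : max (-(1 / 4) : ℝ) (min (1 / 4) (u 1)) = -(1 / 4) := by
      rw [max_eq_left]
      exact (min_le_right _ _).trans (by linarith)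
    have e2 : rp q.rho q.R1 (u 1) = q.R1 := by
      rw [rp, e1]
      have : (1 / 2 + 2 * -(1 / 4 : ℝ)) * Real.log q.rho + (1 / 2 - 2 * -(1 / 4 : ℝ)) *
          Real.log q.R1 = Real.log q.R1 := by ring
      rw [this, Real.exp_log hR1]
    rw [e2] at hN
    have := hq.y_lt k u hk hu
    linarith
  rcases lt_or_ge (1 / 4) (u 1) with h2 | h2
  · -- right: the strand is near the origin
    have e1 : max (-(1 / 4) : ℝ) (min (1 / 4) (u 1)) = 1 / 4 := by
      rw [min_eq_left h2.le]
      exact max_eq_right (by norm_num)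
    have e2 : rp q.rho q.R1 (u 1) = q.rho := by
      rw [rp, e1]
      have : (1 / 2 + 2 * (1 / 4 : ℝ)) * Real.log q.rho + (1 / 2 - 2 * (1 / 4 : ℝ)) *
          Real.log q.R1 = Real.log q.rho := by ring
      rw [this, Real.exp_log hq.rho_pos]
    rw [e2] at hN
    have := D.far k u hj
    have := hq.rho_lt
    linarith
  -- the middle
  have h3 : |u 1| ≤ 1 / 2 := abs_le.2 ⟨h1, by linarith⟩
  have hy : D.y k u = D.p k := D.mid_y k u h3
  have hfr : fr D u = LinearIsometryEquiv.refl ℝ _ := by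
    unfold fr
    split_ifs
    · exact D.mid_F u h3
    · rfl
  rcases le_or_gt (u 1) 0 with h4 | h4
  · -- the direction is `h`
    have h5 : RestAt (us u (16 * u 1 - 1)) := restAt_one (by
      rw [us_one]
      exact le_abs.2 (Or.inr (by linarith)))
    rw [hy, xp, if_pos rfl, hfr, D.P.rest_om _ h5] at h
    have h6 := D.p_h k
    rw [← h] at h6
    rw [LinearIsometryEquiv.coe_refl, id_eq, inner_smul_right, real_inner_self_eq_norm_sq,
      norm_hc, one_pow, mul_one] at h6
    exact (rp_pos _ _ _).ne' h6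
  · -- the radius is small
    rw [hy] at hN
    have h5 := D.p_norm k hj
    have e1 : max (-(1 / 4) : ℝ) (min (1 / 4) (u 1)) = u 1 := by
      rw [min_eq_right h2]
      exact max_eq_right (by linarith)
    have h6 : (1 / 2 + 2 * u 1) * Real.log q.rho + (1 / 2 - 2 * u 1) * Real.log q.R1 < 0 := by
      have h7 : Real.log q.rho + Real.log q.R1 < 0 := by
        rw [← Real.log_mul hq.rho_pos.ne' hR1.ne']
        exact Real.log_neg (mul_pos hq.rho_pos hR1) (by linarith [hq.prod_lt])
      have h8 : 0 < Real.log q.R1 := Real.log_pos (by linarith [hq.R1_gt])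
      nlinarith
    have h9 : rp q.rho q.R1 (u 1) < 1 := by
      rw [rp, e1]
      have h10 := Real.exp_lt_exp.2 h6
      rwa [Real.exp_zero] at h10
    linarith

lemma rp_le {q : Rad} (h : 0 < q.rho) (h' : q.rho < q.R1) (s : ℝ) :
    rp q.rho q.R1 s ≤ q.R1 := by
  have hR1 : 0 < q.R1 := h.trans h'
  have h1 : Real.log q.rho ≤ Real.log q.R1 := Real.log_le_log h h'.le
  have h2 : -(1 / 4) ≤ max (-(1 / 4) : ℝ) (min (1 / 4) s) := le_max_left _ _
  rw [rp]
  calc Real.exp _ ≤ Real.exp (Real.log q.R1) := by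
        refine Real.exp_le_exp.2 ?_
        nlinarith
    _ = q.R1 := Real.exp_log hR1

lemma R_gt {D : NFD n m i j} {q : Rad} (hq : Par D q) : q.R1 + q.r < q.R := by
  have hR1 : 0 < q.R1 := by linarith [hq.R1_gt]
  have h1 : q.R = q.R1 * Real.exp (kap q / 16) := by
    rw [← Real.exp_log hq.R_pos, hq.log_R, Real.exp_add, Real.exp_log hR1]
  have h2 : kap q / 16 + 1 ≤ Real.exp (kap q / 16) := Real.add_one_le_exp _
  have h3 := hq.kap_gt
  have h4 := hq.r_lt
  rw [h1]
  nlinarith [hq.R1_gt]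

/-- the system `G₊`. -/
theorem exists_G (D : NFD n m i j) {q : Rad} (hq : Par D q) :
    ∃ G : S n m, Has G (xp D q.rho q.R1) (nup D) ∧ G.r ≤ q.r ∧ G.R = q.R := by
  have hd : ∀ k l, k ≠ l → ∀ u : Bc (n + 2),
      xp D q.rho q.R1 k (cl u) ≠ xp D q.rho q.R1 l (cl u) := by
    intro k l hkl u
    have hu := norm_cl_le u
    by_cases hk : k = i
    · subst hk
      exact xp_ne_aux D hq (Ne.symm hkl) hu
    · by_cases hl : l = i
      · subst hl
        exact (xp_ne_aux D hq hk hu).symm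
      · rw [xp, if_neg hk, xp, if_neg hl]
        exact D.sep k l _ hkl
  have hcl : ∀ k, ∀ u : Bc (n + 2),
      xp D q.rho q.R1 k (cl (cl u)) = xp D q.rho q.R1 k (cl u) := by
    intro k u
    rw [cl_of_le (norm_cl_le u)]
  obtain ⟨G, hx, hn⟩ := exists_sys (fun k u => xp D q.rho q.R1 k (cl u))
    (fun k u => nup D k (cl u)) (fun k => (continuous_xp D q.rho q.R1 k).comp continuous_cl)
    (fun k => (continuous_nup D k).comp continuous_cl) (fun k u => norm_nup D k _) hd hcl
    (fun k u hu => xp_hor D _ _ k (norm_cl hu).ge) (fun k u hu => nup_wall D k (norm_cl hu).ge)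
  refine ⟨⟨G.x, G.nu, min G.r q.r, q.R, lt_min G.hr hq.r_pos, G.cx, G.cnu, G.norm_nu,
    fun k l u h => ?_, fun k u => ?_, G.wall_x, G.wall_nu⟩, fun k u hu => ⟨?_, ?_⟩,
    min_le_right _ _, rfl⟩
  · have h1 := G.sep k l u h
    have h2 := min_le_left G.r q.r
    linarith
  · have h2 := min_le_right G.r q.r
    have h3 := R_gt hq
    have h4 : ‖G.x k u‖ ≤ q.R1 := by
      rw [hx]
      show ‖xp D q.rho q.R1 k (cl u)‖ ≤ q.R1
      by_cases hk : k = i
      · subst hk
        rw [norm_xp_i]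
        exact rp_le hq.rho_pos (by linarith [hq.rho_lt, hq.R1_gt]) _
      · rw [xp, if_neg hk]
        have := hq.y_lt k (cl u) hk (norm_cl_le u)
        linarith [norm_nonneg (D.y k (cl u))]
    linarith
  · show G.x k u = _
    rw [hx]
    show xp D q.rho q.R1 k (cl u) = _
    rw [cl_of_le hu]
  · show G.nu k u = _
    rw [hn]
    show nup D k (cl u) = _
    rw [cl_of_le hu]

/-- the mirror system. -/
def mirS (G : S n m) : S n m where
  x := fun k u => G.x k (mu u)
  nu := fun k u => G.nu k (mu u)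
  r := G.r
  R := G.R
  hr := G.hr
  cx := fun k => (G.cx k).comp continuous_mu
  cnu := fun k => (G.cnu k).comp continuous_mu
  norm_nu := fun k u => G.norm_nu k _
  sep := fun k l u h => G.sep k l _ h
  bd := fun k u => G.bd k _
  wall_x := fun k u hu => G.wall_x k _ (by rw [norm_mu]; exact hu)
  wall_nu := fun k u hu => G.wall_nu k _ (by rw [norm_mu]; exact hu)

lemma mirS_K (G : S n m) : (mirS G).K = mir G.K := by
  ext p
  simp only [Sys.K, mir, mirS, mem_ofPred_eq, norm_mu]

lemma fr_mir (D : NFD n m i j) (u : Bc (n + 2)) : fr (mirD D) (mu u) = fl D u := by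
  unfold fr fl
  rw [mu_one]
  have h1 : (mirD D).F.Rf (mu u) = D.F.Rf u := by
    show D.F.Rf (mu (mu u)) = _
    rw [mu_mu]
  rw [h1]
  simp only [Left.nonneg_neg_iff]

lemma has_mir (D : NFD n m i j) (rho R1 : ℝ) {G : S n m}
    (h : Has G (xp (mirD D) rho R1) (nup (mirD D))) :
    Has (mirS G) (xm D rho R1) (num D) := by
  intro k u hu
  obtain ⟨h1, h2⟩ := h k (mu u) (by rw [norm_mu]; exact hu)
  refine ⟨?_, ?_⟩
  · show G.x k (mu u) = _
    rw [h1]
    unfold xp xm
    split_ifs with hk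
    · rw [fr_mir, mu_one, us_mu]
      have : (16 * -u 1 - 1) = -(16 * u 1) - 1 := by ring
      rw [this]
      rfl
    · show D.y k (mu (mu u)) = _
      rw [mu_mu]
  · show G.nu k (mu u) = _
    rw [h2]
    unfold nup num
    split_ifs with hk hj
    · rw [fr_mir, mu_one, us_mu]
      have : (16 * -u 1 - 1) = -(16 * u 1) - 1 := by ring
      rw [this]
      rfl
    · show D.F.Rf (mu (mu u)) _ = _
      rw [mu_mu]
    · show D.N k (mu (mu u)) = _
      rw [mu_mu]

/-! ### radii -/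

lemma exists_bounds (D : NFD n m i j) : ∃ C δ : ℝ, 0 < C ∧ 0 < δ ∧
    (∀ k u, ‖u‖ ≤ 1 → ‖D.y k u‖ ≤ C) ∧
    ∀ k l u, k ≠ l → ‖u‖ ≤ 1 → δ ≤ ‖D.y k u - D.y l u‖ := by
  have hK : IsCompact (closedBall (0 : Bc (n + 2)) 1) := isCompact_closedBall _ _
  have h1 : ∀ k, ∀ᶠ C in atTop, ∀ u : Bc (n + 2), ‖u‖ ≤ 1 → ‖D.y k u‖ ≤ C := by
    intro k
    obtain ⟨C, hC⟩ := hK.exists_bound_of_continuousOn (D.c_y k).continuousOn
    filter_upwards [eventually_ge_atTop C] with R hR u hu
    exact (hC u (mem_closedBall_zero_iff.2 hu)).trans hR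
  obtain ⟨C, hC, hC0⟩ := ((eventually_all.2 h1).and (eventually_gt_atTop 0)).exists
  have h2 : ∀ k l, ∀ᶠ r in 𝓝[>] (0 : ℝ), k ≠ l → ∀ u : Bc (n + 2), ‖u‖ ≤ 1 →
      r ≤ ‖D.y k u - D.y l u‖ := by
    intro k l
    by_cases hkl : k = l
    · exact Eventually.of_forall fun r h => absurd hkl h
    obtain ⟨a, ha, hle⟩ := hK.exists_forall_le' (f := fun u => ‖D.y k u - D.y l u‖) (a := 0)
      ((D.c_y k).sub (D.c_y l)).norm.continuousOn
      fun u _ => norm_pos_iff.2 (sub_ne_zero.2 (D.sep k l u hkl))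
    filter_upwards [Ioo_mem_nhdsGT ha] with r hr _ u hu
    exact hr.2.le.trans (hle u (mem_closedBall_zero_iff.2 hu))
  obtain ⟨δ, hδ, hδ0⟩ := ((eventually_all.2 fun k => eventually_all.2 fun l => h2 k l).and
    self_mem_nhdsWithin).exists
  exact ⟨C, δ, hC0, hδ0, hC, fun k l u hkl hu => hδ k l hkl u hu⟩

/-- radii which are good for all data with the bounds `C`, `δ`. -/
theorem exists_q {C δ : ℝ} (hC : 0 < C) (hδ : 0 < δ) :
    ∃ q : Rad, ∀ (D : NFD n m i j), (∀ k u, ‖u‖ ≤ 1 → ‖D.y k u‖ ≤ C) →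
      (∀ k l u, k ≠ l → ‖u‖ ≤ 1 → δ ≤ ‖D.y k u - D.y l u‖) → Par D q := by
  set R1 : ℝ := 2 * C + 1001 with hR1
  have hR1p : 0 < R1 := by positivity
  have hR1g : 1000 < R1 := by linarith
  have e1 : ∀ᶠ rho in 𝓝[>] (0 : ℝ), rho < 1 / 1000 := by
    filter_upwards [Ioo_mem_nhdsGT (show (0 : ℝ) < 1 / 1000 by norm_num)] with r hr using hr.2
  have e2 : ∀ᶠ rho in 𝓝[>] (0 : ℝ), rho < 1 / (1000000 * R1) := by
    filter_upwards [Ioo_mem_nhdsGT (show (0 : ℝ) < 1 / (1000000 * R1) by positivity)] with r hr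
      using hr.2
  have e3 : ∀ᶠ rho in 𝓝[>] (0 : ℝ), rho < δ / 4 := by
    filter_upwards [Ioo_mem_nhdsGT (show (0 : ℝ) < δ / 4 by positivity)] with r hr using hr.2
  have e4 : ∀ᶠ rho in 𝓝[>] (0 : ℝ), Real.log rho < Real.log R1 - 1000000 :=
    Real.tendsto_log_nhdsGT_zero.eventually_lt_atBot _
  obtain ⟨rho, ⟨⟨⟨⟨h1, h2⟩, h3⟩, h4⟩, h0⟩⟩ :=
    ((((e1.and e2).and e3).and e4).and self_mem_nhdsWithin).exists
  have h0 : 0 < rho := h0
  set K : ℝ := 2 * (Real.log R1 - Real.log rho) with hK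
  have hKg : 1000000 < K := by
    rw [hK]; linarith
  have hK16 : 62500 < K / 16 := by linarith
  have hexp : Real.exp (-(K / 16)) < 1 / 10000 := by
    have h5 : K / 16 + 1 ≤ Real.exp (K / 16) := Real.add_one_le_exp _
    rw [Real.exp_neg, inv_eq_one_div]
    exact one_div_lt_one_div_of_lt (by norm_num) (by linarith)
  have hexp0 : 0 < Real.exp (-(K / 16)) := Real.exp_pos _
  have hr : Real.exp (Real.log rho - K / 16) = rho * Real.exp (-(K / 16)) := by
    rw [sub_eq_add_neg, Real.exp_add, Real.exp_log h0]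
  refine ⟨⟨rho, R1, Real.exp (Real.log rho - K / 16), Real.exp (Real.log R1 + K / 16), 1 / 2000⟩,
    fun D hyC hyδ => ?_⟩
  have hkap : kap ⟨rho, R1, Real.exp (Real.log rho - K / 16), Real.exp (Real.log R1 + K / 16),
      1 / 2000⟩ = K := rfl
  refine
    { rho_pos := h0
      rho_lt := h1
      R1_gt := hR1g
      prod_lt := ?_
      y_lt := ?_
      eps_pos := by norm_num
      eps_lt := by norm_num
      r_pos := Real.exp_pos _
      R_pos := Real.exp_pos _
      log_r := ?_
      log_R := ?_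
      kap_gt := ?_
      r_lt := ?_
      r_eps := ?_
      sep := ?_ }
  · show rho * R1 < 1 / 1000000
    have h5 : rho * R1 < 1 / (1000000 * R1) * R1 := mul_lt_mul_of_pos_right h2 hR1p
    have h6 : 1 / (1000000 * R1) * R1 = 1 / 1000000 := by field_simp
    rwa [h6] at h5
  · intro k u _ hu
    show 2 * ‖D.y k u‖ < R1
    have := hyC k u hu
    rw [hR1]
    linarith
  · rw [hkap]
    exact Real.log_exp _
  · rw [hkap]
    exact Real.log_exp _
  · rw [hkap]
    exact hKg
  · show Real.exp (Real.log rho - K / 16) < 1 / 1000000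
    rw [hr]
    nlinarith
  · show 4 * Real.exp (Real.log rho - K / 16) < rho * (1 / 2000)
    rw [hr]
    nlinarith
  · intro k l u _ _ hkl hu
    show 4 * Real.exp (Real.log rho - K / 16) < _
    have h5 := hyδ k l u hkl hu
    rw [hr]
    nlinarith

/-- **SYS**. -/
theorem sysP (n : ℕ) : SysP n := by
  intro m i j D
  obtain ⟨C, δ, hC, hδ, h1, h2⟩ := exists_bounds D
  obtain ⟨q, hq⟩ := exists_q (n := n) (m := m) (i := i) (j := j) hC hδ
  have hD : Par D q := hq D h1 h2
  have hD' : Par (mirD D) q :=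
    hq (mirD D) (fun k u hu => h1 k _ (by rw [norm_mu]; exact hu))
      (fun k l u hkl hu => h2 k l _ hkl (by rw [norm_mu]; exact hu))
  obtain ⟨G, a1, a2, a3⟩ := exists_G D hD
  obtain ⟨G', b1, b2, b3⟩ := exists_G (mirD D) hD'
  exact ⟨mirD D, q, G, G', mirS G', isMir_mirD D, hD, hD', a1, a2, a3, b1, b2, b3,
    has_mir D _ _ b1, mirS_K G'⟩

end

end Crest.Agent.R267.SysP_224
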