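import Crest.Agent.R267.Move_118
import Crest.Agent.R267.GS_808

/-!
# The tilt (row 267, T2-5 M2): SLIDE and SHIFT

Base `ι → ℝ` with a distinguished coordinate `i0` (the variable `s`), fibre `V`.
-/

set_option autoImplicit false

namespace Crest.Agent.R267.Tilt_88

open Set Topology Function Metric
open Crest.Agent.R267
open scoped RealInnerProductSpace
open Crest.Agent.R267.Move_118

/-! ### trapezoids -/

/-- `1` for `t ≤ α`, `0` for `β ≤ t`. -/
noncomputable def tz (α β t : ℝ) : ℝ := max 0 (min 1 ((β - t) / (β - α)))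

theorem tz_nonneg (α β t : ℝ) : 0 ≤ tz α β t := le_max_left _ _
theorem tz_le_one (α β t : ℝ) : tz α β t ≤ 1 := max_le zero_le_one (min_le_left _ _)

theorem tz_eq_one {α β t : ℝ} (h : α < β) (ht : t ≤ α) : tz α β t = 1 := by
  have : 1 ≤ (β - t) / (β - α) := (one_le_div (sub_pos.2 h)).2 (by linarith)
  unfold tz
  rw [min_eq_left this, max_eq_right zero_le_one]

theorem tz_eq_zero {α β t : ℝ} (h : α < β) (ht : β ≤ t) : tz α β t = 0 := by
  have : (β - t) / (β - α) ≤ 0 := div_nonpos_of_nonpos_of_nonneg (by linarith) (by linarith)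
  unfold tz
  rw [min_eq_right (by linarith), max_eq_left this]

theorem continuous_tz (α β : ℝ) : Continuous (tz α β) := by unfold tz; fun_prop

theorem abs_tz_sub {α β : ℝ} (h : α < β) (s t : ℝ) :
    |tz α β s - tz α β t| ≤ |s - t| / (β - α) := by
  unfold tz
  have h1 : |max 0 (min 1 ((β - s) / (β - α))) - max 0 (min 1 ((β - t) / (β - α)))| ≤
      |min 1 ((β - s) / (β - α)) - min 1 ((β - t) / (β - α))| := by
    refine (abs_max_sub_max_le_max (0 : ℝ) (min 1 ((β - s) / (β - α))) 0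
      (min 1 ((β - t) / (β - α)))).trans ?_
    rw [sub_self, abs_zero]
    exact max_le (abs_nonneg _) le_rfl
  refine h1.trans ((abs_min_sub_min_le_max _ _ _ _).trans ?_)
  rw [sub_self, abs_zero]
  have h0 : 0 < β - α := sub_pos.2 h
  refine max_le (by positivity) ?_
  rw [← sub_div, abs_div, abs_of_pos h0, show (β - s) - (β - t) = -(s - t) by ring, abs_neg]

theorem tz_ne_zero {α β t : ℝ} (h : α < β) (ht : tz α β t ≠ 0) : t < β := by
  by_contra hc
  exact ht (tz_eq_zero h (not_lt.1 hc))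

/-! ### one-dimensional fibrewise homeomorphisms -/

/-- `s ↦ s + φ x s` for a contraction `φ x`. -/
theorem exists_one {X : Type*} [TopologicalSpace X] (φ : X → ℝ → ℝ)
    (hφ : Continuous (Function.uncurry φ)) (hL : ∀ x s t, |φ x s - φ x t| ≤ 1 / 2 * |s - t|) :
    ∃ Θ : FHom X ℝ, ∀ x s, Θ.fwd x s = s + φ x s := by
  have hL' : ∀ x, LipschitzWith (1 / 2) (φ x) := fun x => by
    refine LipschitzWith.of_dist_le_mul fun s t => ?_
    rw [Real.dist_eq, Real.dist_eq]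
    have : ((1 / 2 : NNReal) : ℝ) = 1 / 2 := by norm_num
    rw [this]
    exact hL x s t
  obtain ⟨Ψ, h1, h2, h3⟩ := Triv_88.exists_param_inverse φ hφ hL'
  exact ⟨⟨fun x s => s + φ x s, Ψ, continuous_snd.add hφ, h1, h2, h3⟩, fun _ _ => rfl⟩

/-- powers of a fibrewise homeomorphism. -/
def pow {X W : Type*} [TopologicalSpace X] [TopologicalSpace W] (Θ : FHom X W) : ℕ → FHom X W
  | 0 => FHom.refl
  | k + 1 => (pow Θ k).trans Θ

theorem pow_succ_fwd {X W : Type*} [TopologicalSpace X] [TopologicalSpace W] (Θ : FHom X W)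
    (k : ℕ) (x : X) (y : W) : (pow Θ (k + 1)).fwd x y = Θ.fwd x ((pow Θ k).fwd x y) := rfl

/-- **the shift**: translation by `- 2 σ` near `σ` and with support in `|s| ≤ 1/2`. -/
theorem exists_shift {X : Type*} [TopologicalSpace X] (σ : X → ℝ) (hσ : Continuous σ)
    (hb : ∀ x, |σ x| ≤ 3 / 8) :
    ∃ Θ : FHom X ℝ, (∀ x s, |s - σ x| ≤ 1 / 16 → Θ.fwd x s = s - 2 * σ x) ∧
      (∀ x s, 1 / 2 ≤ |s| → Θ.fwd x s = s) ∧ (∀ x s, σ x = 0 → Θ.fwd x s = s) := by
  obtain ⟨Θ, hΘ⟩ := exists_one (fun x s => -(2 * σ x / 24) * tz (7 / 16) (1 / 2) |s|)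
    (by
      have := continuous_tz (7 / 16) (1 / 2)
      unfold Function.uncurry
      fun_prop)
    (fun x s t => by
      rw [← mul_sub, abs_mul, abs_neg]
      have h1 := abs_tz_sub (show (7 / 16 : ℝ) < 1 / 2 by norm_num) |s| |t|
      have h2 := abs_abs_sub_abs_le s t
      have h3 : |2 * σ x / 24| ≤ 1 / 32 := by
        rw [abs_div, abs_mul]
        have := hb x
        norm_num
        linarith
      calc |2 * σ x / 24| * |tz (7 / 16) (1 / 2) (|s|) - tz (7 / 16) (1 / 2) (|t|)|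
          ≤ 1 / 32 * (|(|s| - |t|)| / (1 / 2 - 7 / 16)) := by gcongr
        _ ≤ 1 / 32 * (|s - t| / (1 / 2 - 7 / 16)) := by gcongr
        _ = 1 / 2 * |s - t| := by ring)
  refine ⟨pow Θ 24, ?_, ?_, ?_⟩
  · intro x s hs
    have key : ∀ j : ℕ, j ≤ 24 → (pow Θ j).fwd x s = s - 2 * σ x * (j / 24) := by
      intro j
      induction j with
      | zero => intro _; simp [pow, FHom.refl]
      | succ j ih =>
        intro hj
        rw [pow_succ_fwd, ih (by omega), hΘ]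
        have hj' : (j : ℝ) ≤ 24 := by exact_mod_cast (by omega : j ≤ 24)
        have hj0 : (0 : ℝ) ≤ j := Nat.cast_nonneg j
        have hc : |s - 2 * σ x * (j / 24)| ≤ 7 / 16 := by
          have h1 := abs_le.1 hs
          have h2 := abs_le.1 (hb x)
          set c : ℝ := j / 24 with hcdef
          have hc0 : 0 ≤ c := by positivity
          have hc1 : c ≤ 1 := by rw [hcdef, div_le_one (by norm_num)]; exact hj'
          rw [abs_le]
          constructor <;> nlinarith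
        rw [tz_eq_one (by norm_num) hc]
        push_cast
        ring
    rw [key 24 le_rfl]
    push_cast
    ring
  · intro x s hs
    have key : ∀ j : ℕ, (pow Θ j).fwd x s = s := by
      intro j
      induction j with
      | zero => rfl
      | succ j ih => rw [pow_succ_fwd, ih, hΘ, tz_eq_zero (by norm_num) hs]; ring
    exact key 24
  · intro x s hs
    have key : ∀ j : ℕ, (pow Θ j).fwd x s = s := by
      intro j
      induction j with
      | zero => rfl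
      | succ j ih => rw [pow_succ_fwd, ih, hΘ, hs]; ring
    exact key 24

/-! ### lifting to the total space -/

variable {ι : Type*} [Fintype ι] [DecidableEq ι] {V : Type*} [NormedAddCommGroup V]
  [InnerProductSpace ℝ V]

/-- move the coordinate `i0` by `θ` and scale the fibre by `exp (-b (s' - s))`. -/
noncomputable def mv (i0 : ι) (b : ℝ) (θ : (ι → ℝ) × V → ℝ) (p : (ι → ℝ) × V) : (ι → ℝ) × V :=
  (update p.1 i0 (θ p), Real.exp (-b * (θ p - p.1 i0)) • p.2)

theorem continuous_mv (i0 : ι) (b : ℝ) {θ : (ι → ℝ) × V → ℝ} (hθ : Continuous θ) :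
    Continuous (mv (V := V) i0 b θ) := by
  unfold mv
  refine (continuous_fst.update i0 hθ).prodMk ?_
  have : Continuous fun p : (ι → ℝ) × V => p.1 i0 := (continuous_apply i0).comp continuous_fst
  fun_prop

/-- the lifted homeomorphism. -/
noncomputable def lift {X : Type*} [TopologicalSpace X] (i0 : ι) (b : ℝ) (Θ : FHom X ℝ)
    (π : (ι → ℝ) × V → X) (hπ : Continuous π)
    (h1 : ∀ p, π (mv i0 b (fun p => Θ.fwd (π p) (p.1 i0)) p) = π p)
    (h2 : ∀ p, π (mv i0 b (fun p => Θ.bwd (π p) (p.1 i0)) p) = π p) :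
    ((ι → ℝ) × V) ≃ₜ ((ι → ℝ) × V) where
  toFun := mv i0 b (fun p => Θ.fwd (π p) (p.1 i0))
  invFun := mv i0 b (fun p => Θ.bwd (π p) (p.1 i0))
  left_inv p := by
    set q := mv i0 b (fun p => Θ.fwd (π p) (p.1 i0)) p with hq
    have e1 : π q = π p := h1 p
    have e2 : q.1 i0 = Θ.fwd (π p) (p.1 i0) := by rw [hq]; simp [mv]
    have e3 : Θ.bwd (π q) (q.1 i0) = p.1 i0 := by rw [e1, e2, Θ.bwd_fwd]
    refine Prod.ext ?_ ?_
    · show update q.1 i0 (Θ.bwd (π q) (q.1 i0)) = p.1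
      rw [e3, hq]; simp [mv]
    · show Real.exp (-b * (Θ.bwd (π q) (q.1 i0) - q.1 i0)) • q.2 = p.2
      rw [e3, e2, hq]
      simp only [mv]
      rw [smul_smul, ← Real.exp_add]
      rw [show -b * (p.1 i0 - Θ.fwd (π p) (p.1 i0)) + -b * (Θ.fwd (π p) (p.1 i0) - p.1 i0) = 0
        by ring, Real.exp_zero, one_smul]
  right_inv p := by
    set q := mv i0 b (fun p => Θ.bwd (π p) (p.1 i0)) p with hq
    have e1 : π q = π p := h2 p
    have e2 : q.1 i0 = Θ.bwd (π p) (p.1 i0) := by rw [hq]; simp [mv]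
    have e3 : Θ.fwd (π q) (q.1 i0) = p.1 i0 := by rw [e1, e2, Θ.fwd_bwd]
    refine Prod.ext ?_ ?_
    · show update q.1 i0 (Θ.fwd (π q) (q.1 i0)) = p.1
      rw [e3, hq]; simp [mv]
    · show Real.exp (-b * (Θ.fwd (π q) (q.1 i0) - q.1 i0)) • q.2 = p.2
      rw [e3, e2, hq]
      simp only [mv]
      rw [smul_smul, ← Real.exp_add]
      rw [show -b * (p.1 i0 - Θ.bwd (π p) (p.1 i0)) + -b * (Θ.bwd (π p) (p.1 i0) - p.1 i0) = 0
        by ring, Real.exp_zero, one_smul]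
  continuous_toFun := continuous_mv i0 b (Θ.cont_fwd.comp
    (hπ.prodMk ((continuous_apply i0).comp continuous_fst)))
  continuous_invFun := continuous_mv i0 b (Θ.cont_bwd.comp
    (hπ.prodMk ((continuous_apply i0).comp continuous_fst)))

/-! ### parameters -/

/-- `exp (a - b s)` = radius of the sphere of inversion at time `s`, `[sa, sb]` = winding part. -/
structure Par where
  a : ℝ
  b : ℝ
  r : ℝ
  R : ℝ
  sa : ℝ
  sb : ℝ
  w : ℝ
  eps : ℝ
  hb : 0 < b
  hr : 0 < r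
  hrR : r < R
  hw : 0 < w
  hw1 : w ≤ 1 / 2
  heps : 0 < eps
  heps1 : eps < 1
  h1 : Real.log r < a - b * (sb + 3 * w)
  h2 : a - b * (sa - 3 * w) < Real.log R
  h3 : a - b * (3 / 8) ≤ Real.log r
  h4 : Real.log R ≤ a + b * (3 / 8)
  hY : Real.log ((1 + eps) / (1 - eps)) / 2 ≤ b * w / 8

namespace Par

variable (P : Par)

/-- displacement of the slide. -/
noncomputable def phi (x : ℝ × ℝ) (s : ℝ) : ℝ :=
  (2 / P.b * tz 1 2 x.2 * (tz (P.b * P.w / 8) (P.b * P.w / 4) |x.1| * x.1)) *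
    tz P.w (2 * P.w) (max (P.sa - s) (s - P.sb))

theorem abs_aux (y : ℝ) :
    |tz (P.b * P.w / 8) (P.b * P.w / 4) |y| * y| ≤ P.b * P.w / 4 := by
  have h0 : 0 < P.b * P.w := mul_pos P.hb P.hw
  by_cases h : P.b * P.w / 4 ≤ |y|
  · rw [tz_eq_zero (by linarith) h, zero_mul, abs_zero]
    positivity
  · push Not at h
    rw [abs_mul, abs_of_nonneg (tz_nonneg _ _ _)]
    calc tz (P.b * P.w / 8) (P.b * P.w / 4) |y| * |y| ≤ 1 * |y| := by
          gcongr
          exact tz_le_one _ _ _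
      _ ≤ P.b * P.w / 4 := by linarith

theorem abs_coef (x : ℝ × ℝ) :
    |2 / P.b * tz 1 2 x.2 * (tz (P.b * P.w / 8) (P.b * P.w / 4) |x.1| * x.1)| ≤ P.w / 2 := by
  have hb := P.hb
  rw [abs_mul, abs_mul, abs_of_nonneg (tz_nonneg _ _ _), abs_of_pos (by positivity : 0 < 2 / P.b)]
  calc 2 / P.b * tz 1 2 x.2 * |tz (P.b * P.w / 8) (P.b * P.w / 4) |x.1| * x.1|
      ≤ 2 / P.b * 1 * (P.b * P.w / 4) := by
        gcongr
        · exact tz_le_one _ _ _
        · exact P.abs_aux _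
    _ = P.w / 2 := by field_simp; ring

theorem abs_phi_le (x : ℝ × ℝ) (s : ℝ) : |P.phi x s| ≤ P.w / 2 := by
  unfold phi
  rw [abs_mul, abs_of_nonneg (tz_nonneg _ _ _)]
  exact (mul_le_mul (P.abs_coef x) (tz_le_one _ _ _) (tz_nonneg _ _ _)
    (by have := P.hw; positivity)).trans (mul_one _).le

theorem phi_lip (x : ℝ × ℝ) (s t : ℝ) : |P.phi x s - P.phi x t| ≤ 1 / 2 * |s - t| := by
  have hw := P.hw
  unfold phi
  rw [← mul_sub, abs_mul]
  have h2 : |max (P.sa - s) (s - P.sb) - max (P.sa - t) (t - P.sb)| ≤ |s - t| := by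
    refine (abs_max_sub_max_le_max _ _ _ _).trans ?_
    refine max_le (le_of_eq ?_) (le_of_eq ?_)
    · rw [show P.sa - s - (P.sa - t) = -(s - t) by ring, abs_neg]
    · rw [show s - P.sb - (t - P.sb) = s - t by ring]
  calc _ ≤ P.w / 2 * (|max (P.sa - s) (s - P.sb) - max (P.sa - t) (t - P.sb)| /
          (2 * P.w - P.w)) := by
        gcongr
        · exact P.abs_coef x
        · exact abs_tz_sub (by linarith) _ _
    _ ≤ P.w / 2 * (|s - t| / (2 * P.w - P.w)) := by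
        have : 0 < 2 * P.w - P.w := by linarith
        gcongr
    _ = 1 / 2 * |s - t| := by
        rw [show 2 * P.w - P.w = P.w by ring]
        field_simp

theorem continuous_phi : Continuous (Function.uncurry P.phi) := by
  unfold phi Function.uncurry
  have h1 := continuous_tz 1 2
  have h2 := continuous_tz (P.b * P.w / 8) (P.b * P.w / 4)
  have h3 := continuous_tz P.w (2 * P.w)
  fun_prop

theorem phi_ne {x : ℝ × ℝ} {s : ℝ} (h : P.phi x s ≠ 0) :
    |x.1| < P.b * P.w / 4 ∧ P.sa - 2 * P.w < s ∧ s < P.sb + 2 * P.w ∧ x.2 < 2 := by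
  have hw := P.hw
  have h0 : 0 < P.b * P.w := mul_pos P.hb P.hw
  unfold phi at h
  have h1 := tz_ne_zero (by linarith) (right_ne_zero_of_mul h)
  have h2 := tz_ne_zero (by linarith) (left_ne_zero_of_mul (right_ne_zero_of_mul
    (left_ne_zero_of_mul h)))
  have h3 := tz_ne_zero (by norm_num) (right_ne_zero_of_mul (left_ne_zero_of_mul
    (left_ne_zero_of_mul h)))
  have h4 := (le_max_left _ _).trans_lt h1
  have h5 := (le_max_right _ _).trans_lt h1
  exact ⟨h2, by linarith, by linarith, h3⟩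

/-- the logarithmic distance from the curve. -/
noncomputable def yy (i0 : ι) (p : (ι → ℝ) × V) : ℝ :=
  Real.log (max ‖p.2‖ P.r) - P.a + P.b * p.1 i0

theorem continuous_yy (i0 : ι) : Continuous (P.yy (V := V) i0) := by
  unfold yy
  have h : Continuous fun p : (ι → ℝ) × V => Real.log (max ‖p.2‖ P.r) := by
    refine Continuous.log (by fun_prop) fun p => ?_
    have := P.hr
    have h2 := le_max_right ‖p.2‖ P.r
    positivity
  have h2 : Continuous fun p : (ι → ℝ) × V => p.1 i0 := (continuous_apply i0).comp continuous_fst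
  fun_prop

theorem log_aux {v : V} {y s s' : ℝ} (h : Real.log (max ‖v‖ P.r) = y + P.a - P.b * s)
    (h1 : Real.log P.r < y + P.a - P.b * s) (h2 : Real.log P.r < y + P.a - P.b * s') :
    Real.log (max ‖Real.exp (-P.b * (s' - s)) • v‖ P.r) = y + P.a - P.b * s' ∧
      P.r < ‖v‖ ∧ P.r < ‖Real.exp (-P.b * (s' - s)) • v‖ := by
  have hr := P.hr
  have h3 : P.r < ‖v‖ := by
    by_contra hc
    rw [max_eq_right (not_lt.1 hc)] at h
    linarith
  have h4 : 0 < ‖v‖ := hr.trans h3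
  rw [max_eq_left h3.le] at h
  have h5 : Real.log ‖Real.exp (-P.b * (s' - s)) • v‖ = y + P.a - P.b * s' := by
    rw [norm_smul, Real.norm_eq_abs, Real.abs_exp, Real.log_mul (Real.exp_pos _).ne' h4.ne',
      Real.log_exp, h]
    ring
  have h6 : P.r < ‖Real.exp (-P.b * (s' - s)) • v‖ := by
    have h7 : 0 < ‖Real.exp (-P.b * (s' - s)) • v‖ := by
      rw [norm_smul, Real.norm_eq_abs, Real.abs_exp]
      exact mul_pos (Real.exp_pos _) h4
    exact (Real.log_lt_log_iff hr h7).1 (by rw [h5]; exact h2)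
  refine ⟨?_, h3, h6⟩
  rw [max_eq_left h6.le, h5]

/-- everything about a point moved by the slide. -/
theorem moved {y s s' : ℝ} (hy : |y| < P.b * P.w / 4) (hs : s < P.sb + 2 * P.w)
    (hs2 : |s' - s| ≤ P.w / 2) :
    Real.log P.r < y + P.a - P.b * s ∧ Real.log P.r < y + P.a - P.b * s' := by
  have hb := P.hb
  have hw := P.hw
  have h1 := P.h1
  have h2 := abs_lt.1 hy
  have h3 := abs_le.1 hs2
  constructor
  · have : P.b * s ≤ P.b * (P.sb + 2 * P.w) := by gcongr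
    nlinarith
  · have : P.b * s' ≤ P.b * (P.sb + 2 * P.w + P.w / 2) := by gcongr; linarith
    nlinarith

end Par

/-- the parameter of the slide -/
noncomputable def piS (P : Par) (i0 : ι) (p : (ι → ℝ) × V) : ℝ × ℝ :=
  (P.yy i0 p, ‖update p.1 i0 0‖)

theorem continuous_piS (P : Par) (i0 : ι) : Continuous (piS (V := V) P i0) :=
  (P.continuous_yy i0).prodMk ((continuous_fst.update i0 continuous_const).norm)

/-- **the slide**. -/
theorem exists_slide (P : Par) (i0 : ι) :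
    ∃ Φ : ((ι → ℝ) × V) ≃ₜ ((ι → ℝ) × V), ∀ p, ∃ δ : ℝ, δ = P.phi (piS P i0 p) (p.1 i0) ∧
      Φ p = (update p.1 i0 (p.1 i0 + δ), Real.exp (-P.b * δ) • p.2) ∧
      P.yy i0 (Φ p) = P.yy i0 p := by
  obtain ⟨Θ, hΘ⟩ := exists_one P.phi P.continuous_phi P.phi_lip
  have hup : ∀ (u : ι → ℝ) (s : ℝ), update (update u i0 s) i0 0 = update u i0 0 :=
    fun u s => update_idem _ _ _
  have k1 : ∀ p : (ι → ℝ) × V, P.yy i0 (mv i0 P.b (fun p => Θ.fwd (piS P i0 p) (p.1 i0)) p) =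
      P.yy i0 p := by
    intro p
    have hx : (mv i0 P.b (fun p => Θ.fwd (piS P i0 p) (p.1 i0)) p).1 i0 =
        Θ.fwd (piS P i0 p) (p.1 i0) := by simp [mv]
    unfold Par.yy
    rw [hx]
    show Real.log (max ‖Real.exp (-P.b * (Θ.fwd (piS P i0 p) (p.1 i0) - p.1 i0)) • p.2‖ P.r) -
      P.a + P.b * Θ.fwd (piS P i0 p) (p.1 i0) = _
    rw [hΘ]
    by_cases h0 : P.phi (piS P i0 p) (p.1 i0) = 0
    · rw [h0, add_zero, sub_self, mul_zero, Real.exp_zero, one_smul]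
    · obtain ⟨a1, a2, a3, a4⟩ := P.phi_ne h0
      have hy : Real.log (max ‖p.2‖ P.r) = P.yy i0 p + P.a - P.b * p.1 i0 := by
        unfold Par.yy; ring
      obtain ⟨b1, b2⟩ := P.moved (s := p.1 i0) (s' := p.1 i0 + P.phi (piS P i0 p) (p.1 i0)) a1 a3
        (by rw [add_sub_cancel_left]; exact P.abs_phi_le _ _)
      rw [(P.log_aux hy b1 b2).1, hy]
      ring
  have k2 : ∀ p : (ι → ℝ) × V, P.yy i0 (mv i0 P.b (fun p => Θ.bwd (piS P i0 p) (p.1 i0)) p) =
      P.yy i0 p := by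
    intro p
    have hx : (mv i0 P.b (fun p => Θ.bwd (piS P i0 p) (p.1 i0)) p).1 i0 =
        Θ.bwd (piS P i0 p) (p.1 i0) := by simp [mv]
    unfold Par.yy
    rw [hx]
    show Real.log (max ‖Real.exp (-P.b * (Θ.bwd (piS P i0 p) (p.1 i0) - p.1 i0)) • p.2‖ P.r) -
      P.a + P.b * Θ.bwd (piS P i0 p) (p.1 i0) = _
    obtain ⟨s, hs⟩ : ∃ s, s = Θ.bwd (piS P i0 p) (p.1 i0) := ⟨_, rfl⟩
    have hs' : p.1 i0 = s + P.phi (piS P i0 p) s := by
      rw [← hΘ, hs, Θ.fwd_bwd]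
    rw [← hs]
    by_cases h0 : P.phi (piS P i0 p) s = 0
    · have : s = p.1 i0 := by rw [hs', h0, add_zero]
      rw [this, sub_self, mul_zero, Real.exp_zero, one_smul]
    · obtain ⟨a1, a2, a3, a4⟩ := P.phi_ne h0
      have hy : Real.log (max ‖p.2‖ P.r) = P.yy i0 p + P.a - P.b * p.1 i0 := by
        unfold Par.yy; ring
      obtain ⟨b1, b2⟩ := P.moved (y := P.yy i0 p) (s := s) (s' := p.1 i0) a1 a3
        (by rw [hs', add_sub_cancel_left]; exact P.abs_phi_le _ _)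
      rw [(P.log_aux hy b2 b1).1, hy]
      ring
  have j1 : ∀ p : (ι → ℝ) × V, piS P i0 (mv i0 P.b (fun p => Θ.fwd (piS P i0 p) (p.1 i0)) p) =
      piS P i0 p := fun p => Prod.ext (k1 p) (by show ‖update (update _ _ _) _ _‖ = _; rw [hup]; rfl)
  have j2 : ∀ p : (ι → ℝ) × V, piS P i0 (mv i0 P.b (fun p => Θ.bwd (piS P i0 p) (p.1 i0)) p) =
      piS P i0 p := fun p => Prod.ext (k2 p) (by show ‖update (update _ _ _) _ _‖ = _; rw [hup]; rfl)
  refine ⟨lift i0 P.b Θ (piS P i0) (continuous_piS P i0) j1 j2, fun p =>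
    ⟨P.phi (piS P i0 p) (p.1 i0), rfl, ?_, k1 p⟩⟩
  show mv i0 P.b (fun p => Θ.fwd (piS P i0 p) (p.1 i0)) p = _
  unfold mv
  simp only [hΘ, add_sub_cancel_left]

/-- the radius at which the curve is at time `0`, clamped: `σ`. -/
noncomputable def sig (P : Par) (x : ℝ × ℝ) : ℝ :=
  tz 1 2 x.1 * tz P.R (2 * P.R) x.2 * ((P.a - Real.log (max P.r (min P.R x.2))) / P.b)

theorem continuous_sig (P : Par) : Continuous (sig P) := by
  unfold sig
  have h1 := continuous_tz 1 2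
  have h2 := continuous_tz P.R (2 * P.R)
  have h3 : Continuous fun x : ℝ × ℝ => Real.log (max P.r (min P.R x.2)) := by
    refine Continuous.log (by fun_prop) fun p => ?_
    have := P.hr
    have h2 := le_max_left P.r (min P.R p.2)
    exact (this.trans_le h2).ne'
  fun_prop

theorem abs_sig_le (P : Par) (x : ℝ × ℝ) : |sig P x| ≤ 3 / 8 := by
  have hr := P.hr
  have hb := P.hb
  have h1 : P.r ≤ max P.r (min P.R x.2) := le_max_left _ _
  have h2 : max P.r (min P.R x.2) ≤ P.R := max_le P.hrR.le (min_le_left _ _)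
  have h3 := Real.log_le_log hr h1
  have h4 := Real.log_le_log (hr.trans_le h1) h2
  have h5 : |(P.a - Real.log (max P.r (min P.R x.2))) / P.b| ≤ 3 / 8 := by
    rw [abs_le]
    have := P.h3
    have := P.h4
    constructor
    · rw [le_div_iff₀ hb]; linarith
    · rw [div_le_iff₀ hb]; linarith
  unfold sig
  rw [abs_mul, abs_mul, abs_of_nonneg (tz_nonneg _ _ _), abs_of_nonneg (tz_nonneg _ _ _)]
  calc _ ≤ 1 * 1 * (3 / 8 : ℝ) := by
        refine mul_le_mul ?_ h5 (abs_nonneg _) (by norm_num)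
        exact mul_le_mul (tz_le_one _ _ _) (tz_le_one _ _ _) (tz_nonneg _ _ _) zero_le_one
    _ = 3 / 8 := by norm_num

theorem sig_eq (P : Par) {t ρ : ℝ} (ht : t ≤ 1) (h1 : P.r ≤ ρ) (h2 : ρ ≤ P.R) :
    sig P (t, ρ) = (P.a - Real.log ρ) / P.b := by
  have hR : 0 < P.R := P.hr.trans P.hrR
  unfold sig
  simp only
  rw [tz_eq_one (by norm_num) ht, tz_eq_one (by linarith) h2, min_eq_right h2, max_eq_right h1]
  ring

/-- **the shift of the total space.** -/
theorem exists_shiftV (P : Par) (i0 : ι) :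
    ∃ Φ : ((ι → ℝ) × V) ≃ₜ ((ι → ℝ) × V), ∃ f : (ι → ℝ) × V → ℝ,
      (∀ p, Φ p = (update p.1 i0 (f p), p.2)) ∧
      (∀ p, |p.1 i0 - sig P (‖update p.1 i0 0‖, ‖p.2‖)| ≤ 1 / 16 →
        f p = p.1 i0 - 2 * sig P (‖update p.1 i0 0‖, ‖p.2‖)) ∧
      (∀ p, 1 / 2 ≤ |p.1 i0| → f p = p.1 i0) ∧
      (∀ p, sig P (‖update p.1 i0 0‖, ‖p.2‖) = 0 → f p = p.1 i0) := by
  obtain ⟨Θ, h1, h2, h3⟩ := exists_shift (sig P) (continuous_sig P) (abs_sig_le P)
  have hup : ∀ (u : ι → ℝ) (s : ℝ), update (update u i0 s) i0 0 = update u i0 0 :=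
    fun u s => update_idem _ _ _
  set π : (ι → ℝ) × V → ℝ × ℝ := fun p => (‖update p.1 i0 0‖, ‖p.2‖) with hπ
  have cπ : Continuous π := ((continuous_fst.update i0 continuous_const).norm).prodMk
    continuous_snd.norm
  have e : ∀ (θ : (ι → ℝ) × V → ℝ) (p), mv i0 0 θ p = (update p.1 i0 (θ p), p.2) := by
    intro θ p
    unfold mv
    rw [neg_zero, zero_mul, Real.exp_zero, one_smul]
  refine ⟨lift i0 0 Θ π cπ (fun p => ?_) (fun p => ?_), fun p => Θ.fwd (π p) (p.1 i0),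
    fun p => ?_, fun p hp => h1 _ _ hp, fun p hp => h2 _ _ hp, fun p hp => h3 _ _ hp⟩
  · rw [e, hπ]; simp only; rw [hup]
  · rw [e, hπ]; simp only; rw [hup]
  · exact e (fun p => Θ.fwd (π p) (p.1 i0)) p

/-! ### inversion -/

theorem inv_sq (ω v : V) (hω : ‖ω‖ = 1) {κ ρ ε : ℝ} (hκ : 0 < κ) (hκ2 : κ ^ 2 = 1 - ε ^ 2) :
    ‖v - (ρ / κ) • ω‖ ^ 2 - (ε * (ρ / κ)) ^ 2 = ‖v‖ ^ 2 - 2 * (ρ / κ) * ⟪v, ω⟫ + ρ ^ 2 := by
  rw [norm_sub_sq_real, norm_smul, hω, mul_one, Real.norm_eq_abs, sq_abs, inner_smul_right]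
  have h : (ρ / κ) ^ 2 - (ε * (ρ / κ)) ^ 2 = ρ ^ 2 := by
    field_simp
    rw [hκ2]
  linarith

/-- spheres are carried to spheres by the inversion. -/
theorem inv_ball (ω v : V) (hω : ‖ω‖ = 1) {κ ρ ρ' ε l : ℝ} (hκ : 0 < κ)
    (hκ2 : κ ^ 2 = 1 - ε ^ 2) (hρ : 0 < ρ) (hl : l * ‖v‖ ^ 2 = ρ * ρ') :
    ‖l • v - (ρ' / κ) • ω‖ ^ 2 - (ε * (ρ' / κ)) ^ 2 =
      (l * ρ' / ρ) * (‖v - (ρ / κ) • ω‖ ^ 2 - (ε * (ρ / κ)) ^ 2) := by
  rw [inv_sq ω _ hω hκ hκ2, inv_sq ω _ hω hκ hκ2, norm_smul, mul_pow, Real.norm_eq_abs, sq_abs,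
    inner_smul_left]
  simp only [conj_trivial]
  have h1 : l ^ 2 * ‖v‖ ^ 2 = l * (ρ * ρ') := by rw [← hl]; ring
  have h2 : l * ρ' / ρ * ‖v‖ ^ 2 = ρ' ^ 2 := by
    rw [show l * ρ' / ρ * ‖v‖ ^ 2 = (l * ‖v‖ ^ 2) * ρ' / ρ by ring, hl]
    field_simp
  rw [h1, mul_add, mul_sub, h2]
  field_simp
  ring

/-- discs are carried to discs by the inversion. -/
theorem inv_disc (ω M v : V) (hω : ‖ω‖ = 1) {κ ρ ρ' ε l : ℝ} (hκ : 0 < κ)
    (hκ2 : κ ^ 2 = 1 - ε ^ 2) (hρ : 0 < ρ) (hl0 : 0 < l) (hl : l * ‖v‖ ^ 2 = ρ * ρ')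
    (h0 : ‖v - (ρ / κ) • ω‖ ^ 2 = (ε * (ρ / κ)) ^ 2) :
    ⟪M - (2 * ⟪M, ω⟫) • ω, l • v - (ρ' / κ) • ω⟫ =
        -(ε ^ 2 * (ρ' / κ)) * ⟪M - (2 * ⟪M, ω⟫) • ω, ω⟫ ↔
      ⟪M, v - (ρ / κ) • ω⟫ = -(ε ^ 2 * (ρ / κ)) * ⟪M, ω⟫ := by
  have hn := inv_sq ω v hω hκ hκ2 (ρ := ρ)
  rw [h0, sub_self] at hn
  have hωω : ⟪ω, ω⟫ = 1 := by rw [real_inner_self_eq_norm_sq, hω, one_pow]
  have e1 : ⟪v, ω⟫ = κ * (‖v‖ ^ 2 + ρ ^ 2) / (2 * ρ) := by
    field_simp at hn ⊢
    linarith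
  have e2 : ⟪ω, v⟫ = κ * (‖v‖ ^ 2 + ρ ^ 2) / (2 * ρ) := by rw [real_inner_comm, e1]
  have A : ⟪M - (2 * ⟪M, ω⟫) • ω, ω⟫ = -⟪M, ω⟫ := by
    rw [inner_sub_left, inner_smul_left, hωω]; simp; ring
  have B : ⟪M - (2 * ⟪M, ω⟫) • ω, l • v - (ρ' / κ) • ω⟫ =
      l * (⟪M, v⟫ - 2 * ⟪M, ω⟫ * ⟪ω, v⟫) + (ρ' / κ) * ⟪M, ω⟫ := by
    rw [inner_sub_right, inner_smul_right, inner_smul_right, A, inner_sub_left, inner_smul_left]
    simp only [conj_trivial]
    ring
  have C : ⟪M, v - (ρ / κ) • ω⟫ = ⟪M, v⟫ - (ρ / κ) * ⟪M, ω⟫ := by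
    rw [inner_sub_right, inner_smul_right]
  rw [A, B, C, e2]
  have D : l * (⟪M, v⟫ - 2 * ⟪M, ω⟫ * (κ * (‖v‖ ^ 2 + ρ ^ 2) / (2 * ρ))) + ρ' / κ * ⟪M, ω⟫ -
      -(ε ^ 2 * (ρ' / κ)) * -⟪M, ω⟫ =
      l * (⟪M, v⟫ - ρ / κ * ⟪M, ω⟫ - -(ε ^ 2 * (ρ / κ)) * ⟪M, ω⟫) := by
    have h3 : ε ^ 2 = 1 - κ ^ 2 := by rw [hκ2]; ring
    have h4 : l * (2 * ⟪M, ω⟫ * (κ * (‖v‖ ^ 2 + ρ ^ 2) / (2 * ρ))) =
        ⟪M, ω⟫ * κ * (ρ' + l * ρ) := by
      have : l * (2 * ⟪M, ω⟫ * (κ * (‖v‖ ^ 2 + ρ ^ 2) / (2 * ρ))) =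
          ⟪M, ω⟫ * κ * ((l * ‖v‖ ^ 2) / ρ + l * ρ) := by field_simp
      rw [this, hl]
      field_simp
    rw [h3, mul_sub, h4]
    field_simp
    ring
  constructor
  · intro h
    have : l * (⟪M, v⟫ - ρ / κ * ⟪M, ω⟫ - -(ε ^ 2 * (ρ / κ)) * ⟪M, ω⟫) = 0 := by
      rw [← D, h, sub_self]
    have := (mul_eq_zero.1 this).resolve_left hl0.ne'
    linarith
  · intro h
    rw [h, sub_self, mul_zero] at D
    linarith

/-! ### the strand and the sets -/

namespace Par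

variable (P : Par)

noncomputable def kap : ℝ := Real.sqrt (1 - P.eps ^ 2)

/-- radius of the sphere of inversion. -/
noncomputable def rad (s : ℝ) : ℝ := Real.exp (P.a - P.b * s)

/-- radius of the centre. -/
noncomputable def cc (s : ℝ) : ℝ := P.rad s / P.kap

theorem kap_sq : P.kap ^ 2 = 1 - P.eps ^ 2 := by
  have h1 := P.heps
  have h2 := P.heps1
  exact Real.sq_sqrt (by nlinarith)

theorem kap_pos : 0 < P.kap := by
  have h1 := P.heps
  have h2 := P.heps1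
  exact Real.sqrt_pos.2 (by nlinarith)

theorem rad_pos (s : ℝ) : 0 < P.rad s := Real.exp_pos _

theorem cc_pos (s : ℝ) : 0 < P.cc s := div_pos (P.rad_pos s) P.kap_pos

/-- the open ball around the strand. -/
def Ball (s : ℝ) (ω v : V) : Prop := ‖v - P.cc s • ω‖ < P.eps * P.cc s

/-- the boundary of the thick disc. -/
def Tube (s : ℝ) (ω M v : V) : Prop :=
  ‖v - P.cc s • ω‖ = P.eps * P.cc s ∧ ⟪M, v - P.cc s • ω⟫ = -(P.eps ^ 2 * P.cc s) * ⟪M, ω⟫

theorem ball_iff (s : ℝ) (ω v : V) :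
    P.Ball s ω v ↔ ‖v - P.cc s • ω‖ ^ 2 - (P.eps * P.cc s) ^ 2 < 0 := by
  have h1 : 0 < P.eps * P.cc s := mul_pos P.heps (P.cc_pos s)
  unfold Ball
  rw [sub_neg]
  exact ⟨fun h => by gcongr, fun h => lt_of_pow_lt_pow_left₀ 2 h1.le h⟩

theorem norm_eq_iff (s : ℝ) (ω v : V) :
    ‖v - P.cc s • ω‖ = P.eps * P.cc s ↔
      ‖v - P.cc s • ω‖ ^ 2 - (P.eps * P.cc s) ^ 2 = 0 := by
  have h1 : 0 < P.eps * P.cc s := mul_pos P.heps (P.cc_pos s)
  rw [sub_eq_zero]
  exact ⟨fun h => by rw [h], fun h => by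
    rwa [pow_left_inj₀ (norm_nonneg _) h1.le two_ne_zero] at h⟩

theorem exchange {s s' : ℝ} {ω M v : V} {l : ℝ} (hω : ‖ω‖ = 1) (hl0 : 0 < l)
    (hl : l * ‖v‖ ^ 2 = P.rad s * P.rad s') :
    (P.Ball s ω v ↔ P.Ball s' ω (l • v)) ∧
      (P.Tube s ω M v ↔ P.Tube s' ω (M - (2 * ⟪M, ω⟫) • ω) (l • v)) := by
  have h1 := inv_ball ω v hω P.kap_pos P.kap_sq (P.rad_pos s) hl
  have hpos : 0 < l * P.rad s' / P.rad s := by
    have := P.rad_pos s
    have := P.rad_pos s'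
    positivity
  constructor
  · rw [ball_iff, ball_iff]
    unfold cc
    rw [h1]
    constructor
    · intro h; exact mul_neg_of_pos_of_neg hpos h
    · intro h
      by_contra hc
      have := mul_nonneg hpos.le (not_lt.1 hc)
      linarith
  · unfold Tube
    rw [norm_eq_iff, norm_eq_iff]
    unfold cc
    rw [h1, mul_eq_zero, or_iff_right hpos.ne']
    refine and_congr_right fun h0 => ?_
    exact (inv_disc ω M v hω P.kap_pos P.kap_sq (P.rad_pos s) hl0 hl (by linarith)).symm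

/-- points of the closed ball are close to the sphere of inversion. -/
theorem log_bound {s : ℝ} {ω v : V} (hω : ‖ω‖ = 1)
    (h : ‖v - P.cc s • ω‖ ≤ P.eps * P.cc s) :
    |Real.log ‖v‖ - P.a + P.b * s| ≤ P.b * P.w / 8 := by
  have he := P.heps
  have he1 := P.heps1
  have hc := P.cc_pos s
  have hn : ‖P.cc s • ω‖ = P.cc s := by
    rw [norm_smul, hω, mul_one, Real.norm_eq_abs, abs_of_pos hc]
  have h1 : ‖v‖ ≤ (1 + P.eps) * P.cc s := by
    have := norm_le_norm_add_norm_sub (P.cc s • ω) v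
    rw [norm_sub_rev] at this
    linarith
  have h2 : (1 - P.eps) * P.cc s ≤ ‖v‖ := by
    have := norm_le_norm_add_norm_sub v (P.cc s • ω)
    linarith
  have hv : 0 < ‖v‖ := (mul_pos (by linarith) hc).trans_le h2
  have hlc : Real.log (P.cc s) = P.a - P.b * s - Real.log (1 - P.eps ^ 2) / 2 := by
    have hk := P.kap_pos
    unfold cc rad
    rw [Real.log_div (Real.exp_pos _).ne' hk.ne', Real.log_exp]
    unfold kap
    rw [Real.log_sqrt (by nlinarith)]
  have hl2 : Real.log (1 - P.eps ^ 2) = Real.log (1 + P.eps) + Real.log (1 - P.eps) := by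
    rw [← Real.log_mul (by linarith) (by linarith)]
    congr 1
    ring
  have hY := P.hY
  rw [Real.log_div (by linarith) (by linarith)] at hY
  have h3 := Real.log_le_log hv h1
  have h4 := Real.log_le_log (mul_pos (by linarith) hc) h2
  rw [Real.log_mul (by linarith) hc.ne', hlc, hl2] at h3 h4
  rw [abs_le]
  constructor <;> linarith

end Par

/-! ### the composition -/

set_option maxHeartbeats 1600000 in
theorem exists_tilt (P : Par) (i0 : ι) :
    ∃ Φ : ((ι → ℝ) × V) ≃ₜ ((ι → ℝ) × V),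
      (∀ p, 1 / 2 ≤ |p.1 i0| → Φ p = p) ∧
      (∀ p, (2 ≤ ‖update p.1 i0 0‖ ∨ 2 * P.R ≤ ‖p.2‖) → Φ p = p) ∧
      (∀ p : (ι → ℝ) × V, ∃ s' l : ℝ, 0 < l ∧ Φ p = (update p.1 i0 s', l • p.2) ∧
        (l = 1 ∨ (|p.1 i0| ≤ 1 / 2 ∧
          (P.a - P.b * (P.sb + 3 * P.w) ≤ Real.log ‖p.2‖ ∧
            Real.log ‖p.2‖ ≤ P.a - P.b * (P.sa - 3 * P.w)) ∧
          (P.a - P.b * (P.sb + 3 * P.w) ≤ Real.log ‖l • p.2‖ ∧
            Real.log ‖l • p.2‖ ≤ P.a - P.b * (P.sa - 3 * P.w)))) ∧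
        (‖update p.1 i0 0‖ ≤ 1 → P.r ≤ ‖p.2‖ → ‖p.2‖ ≤ P.R →
          (|Real.log ‖p.2‖ - P.a + P.b * p.1 i0| ≤ P.b * P.w / 8 →
            l * ‖p.2‖ ^ 2 = P.rad (p.1 i0) * P.rad (-s') ∧
            ((P.sa - P.w ≤ p.1 i0 ∧ p.1 i0 ≤ P.sb + P.w) → -s' = p.1 i0) ∧
            |-s' - p.1 i0| ≤ P.w / 4) ∧
          (|Real.log ‖l • p.2‖ - P.a + P.b * (-s')| ≤ P.b * P.w / 8 →
            |Real.log ‖p.2‖ - P.a + P.b * p.1 i0| ≤ P.b * P.w / 8))) := by
  obtain ⟨S, hS⟩ := exists_slide (V := V) P i0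
  obtain ⟨T, f, hT, hf1, hf2, hf3⟩ := exists_shiftV (V := V) P i0
  have hb := P.hb
  have hw := P.hw
  have hw1 := P.hw1
  have hr := P.hr
  have hrR := P.hrR
  have hh1 := P.h1
  have hh2 := P.h2
  have hh3 := P.h3
  have hh4 := P.h4
  have hbw : 0 < P.b * P.w := mul_pos hb hw
  have hup : ∀ (u : ι → ℝ) (s : ℝ), update (update u i0 s) i0 0 = update u i0 0 :=
    fun u s => update_idem _ _ _
  -- the interval of winding lies well inside
  have hsb : P.sb + 3 * P.w < 3 / 8 := by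
    by_contra hc
    have : P.b * (3 / 8) ≤ P.b * (P.sb + 3 * P.w) := by
      have := not_lt.1 hc
      gcongr
    linarith
  have hsa : -(3 / 8) < P.sa - 3 * P.w := by
    by_contra hc
    have : P.b * (P.sa - 3 * P.w) ≤ P.b * (-(3 / 8)) := by
      have := not_lt.1 hc
      gcongr
    linarith
  -- data of the slide
  have key : ∀ p : (ι → ℝ) × V, P.phi (piS P i0 p) (p.1 i0) ≠ 0 →
      (|p.1 i0| < 1 / 2 ∧ ‖update p.1 i0 0‖ < 2) ∧ P.r < ‖p.2‖ ∧ P.r < ‖(S p).2‖ ∧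
      (P.a - P.b * (P.sb + 3 * P.w) ≤ Real.log ‖p.2‖ ∧
            Real.log ‖p.2‖ ≤ P.a - P.b * (P.sa - 3 * P.w)) ∧
          (P.a - P.b * (P.sb + 3 * P.w) ≤ Real.log ‖(S p).2‖ ∧
            Real.log ‖(S p).2‖ ≤ P.a - P.b * (P.sa - 3 * P.w)) := by
    intro p hp
    obtain ⟨a1, a2, a3, a4⟩ := P.phi_ne hp
    obtain ⟨δ, hδ, e1, e2⟩ := hS p
    have hδ2 : |δ| ≤ P.w / 2 := by rw [hδ]; exact P.abs_phi_le _ _
    have hy : Real.log (max ‖p.2‖ P.r) = P.yy i0 p + P.a - P.b * p.1 i0 := by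
      unfold Par.yy; ring
    obtain ⟨b1, b2⟩ := P.moved (y := P.yy i0 p) (s := p.1 i0) (s' := p.1 i0 + δ) a1 a3
      (by rw [add_sub_cancel_left]; exact hδ2)
    obtain ⟨c1, c2, c3⟩ := P.log_aux hy b1 b2
    rw [add_sub_cancel_left] at c1 c3
    have e3 : (S p).2 = Real.exp (-P.b * δ) • p.2 := by rw [e1]
    rw [e3]
    rw [max_eq_left c2.le] at hy
    rw [max_eq_left c3.le] at c1
    have a1' := abs_lt.1 (show |P.yy i0 p| < P.b * P.w / 4 from a1)
    have hδ3 := abs_le.1 hδ2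
    have m1 : P.b * p.1 i0 ≤ P.b * (P.sb + 2 * P.w) := by gcongr
    have m2 : P.b * (P.sa - 2 * P.w) ≤ P.b * p.1 i0 := by gcongr
    have m3 : P.b * (p.1 i0 + δ) ≤ P.b * (P.sb + 2 * P.w + P.w / 2) := by
      gcongr
      exact hδ3.2
    have m4 : P.b * (P.sa - 2 * P.w - P.w / 2) ≤ P.b * (p.1 i0 + δ) := by
      gcongr
      linarith
    refine ⟨⟨abs_lt.2 ⟨by linarith, by linarith⟩, a4⟩, c2, c3, ⟨?_, ?_⟩, ?_, ?_⟩
    · rw [hy]; nlinarith
    · rw [hy]; nlinarith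
    · rw [c1]; nlinarith
    · rw [c1]; nlinarith
  have hS0 : ∀ p : (ι → ℝ) × V, P.phi (piS P i0 p) (p.1 i0) = 0 → S p = p := by
    intro p hp
    obtain ⟨δ, hδ, e1, e2⟩ := hS p
    rw [hp] at hδ
    rw [e1, hδ, add_zero, update_eq_self, mul_zero, Real.exp_zero, one_smul]
  have hltR : ∀ v : V, P.r < ‖v‖ → Real.log ‖v‖ ≤ P.a - P.b * (P.sa - 3 * P.w) → ‖v‖ < P.R := by
    intro v hv h
    exact (Real.log_lt_log_iff (hr.trans hv) (hr.trans hrR)).1 (h.trans_lt hh2)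
  refine ⟨S.trans T, ?_, ?_, ?_⟩
  · intro p hp
    have h0 : P.phi (piS P i0 p) (p.1 i0) = 0 := by
      by_contra hc
      have := (key p hc).1.1
      linarith
    show T (S p) = p
    rw [hS0 p h0, hT, hf2 p hp, update_eq_self]
  · intro p hp
    have h0 : P.phi (piS P i0 p) (p.1 i0) = 0 := by
      by_contra hc
      obtain ⟨k1, k2, k3, k4, k5⟩ := key p hc
      rcases hp with hp | hp
      · linarith [k1.2]
      · have := hltR p.2 k2 k4.2
        linarith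
    have h1 : sig P (‖update p.1 i0 0‖, ‖p.2‖) = 0 := by
      unfold sig
      rcases hp with hp | hp
      · rw [tz_eq_zero (by norm_num) hp, zero_mul, zero_mul]
      · rw [tz_eq_zero (α := P.R) (β := 2 * P.R) (by linarith) hp, mul_zero, zero_mul]
    show T (S p) = p
    rw [hS0 p h0, hT, hf3 p h1, update_eq_self]
  · intro p
    obtain ⟨δ, hδ, e1, e2⟩ := hS p
    have hs1 : (S p).1 i0 = p.1 i0 + δ := by rw [e1]; simp
    have hv1 : (S p).2 = Real.exp (-P.b * δ) • p.2 := by rw [e1]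
    have hu1 : update (S p).1 i0 0 = update p.1 i0 0 := by rw [e1]; exact hup _ _
    refine ⟨f (S p), Real.exp (-P.b * δ), Real.exp_pos _, ?_, ?_, ?_⟩
    · show T (S p) = _
      rw [hT, hv1]
      congr 1
      rw [e1]
      simp
    · by_cases h0 : P.phi (piS P i0 p) (p.1 i0) = 0
      · left
        rw [hδ, h0, mul_zero, Real.exp_zero]
      · right
        obtain ⟨k1, k2, k3, k4, k5⟩ := key p h0
        rw [hv1] at k5
        exact ⟨k1.1.le, k4, k5⟩
    · intro hu hv hv'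
      have hn1 : P.r ≤ ‖(S p).2‖ ∧ ‖(S p).2‖ ≤ P.R := by
        by_cases h0 : P.phi (piS P i0 p) (p.1 i0) = 0
        · rw [hS0 p h0]; exact ⟨hv, hv'⟩
        · obtain ⟨k1, k2, k3, k4, k5⟩ := key p h0
          exact ⟨k3.le, (hltR _ k3 k5.2).le⟩
      have hsig : sig P (‖update (S p).1 i0 0‖, ‖(S p).2‖) = (P.a - Real.log ‖(S p).2‖) / P.b :=
        sig_eq P (by rw [hu1]; exact hu) hn1.1 hn1.2
      have hy1 : P.yy i0 (S p) = Real.log ‖(S p).2‖ - P.a + P.b * (S p).1 i0 := by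
        unfold Par.yy
        rw [max_eq_left hn1.1]
      have hy0 : P.yy i0 p = Real.log ‖p.2‖ - P.a + P.b * p.1 i0 := by
        unfold Par.yy
        rw [max_eq_left hv]
      have hv0 : 0 < ‖p.2‖ := hr.trans_le hv
      obtain ⟨y, hy⟩ : ∃ y, y = P.yy i0 p := ⟨_, rfl⟩
      have hsig' : sig P (‖update (S p).1 i0 0‖, ‖(S p).2‖) = (S p).1 i0 - y / P.b := by
        rw [hsig, hy, ← e2, hy1]
        field_simp
        ring
      constructor
      · intro hY
        rw [← hy0, ← hy] at hY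
        have hf : f (S p) = (S p).1 i0 - 2 * ((S p).1 i0 - y / P.b) := by
          rw [hf1 (S p) ?_, hsig']
          rw [hsig', sub_sub_cancel, abs_div, abs_of_pos hb, div_le_iff₀ hb]
          have : P.b * P.w ≤ P.b * (1 / 2) := by gcongr
          linarith
        have hneg : -f (S p) = p.1 i0 + δ - 2 * y / P.b := by
          rw [hf, hs1]; ring
        have hδy : δ = 2 / P.b * y * tz P.w (2 * P.w) (max (P.sa - p.1 i0) (p.1 i0 - P.sb)) := by
          rw [hδ]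
          unfold Par.phi piS
          simp only
          rw [← hy, tz_eq_one (by norm_num) hu, tz_eq_one (by linarith) hY]
          ring
        refine ⟨?_, ?_, ?_⟩
        · have h2 : ‖p.2‖ ^ 2 = Real.exp (2 * (y + P.a - P.b * p.1 i0)) := by
            rw [hy, hy0, two_mul, Real.exp_add, ← sq]
            congr 1
            rw [show Real.log ‖p.2‖ - P.a + P.b * p.1 i0 + P.a - P.b * p.1 i0 = Real.log ‖p.2‖ by
              ring, Real.exp_log hv0]
          unfold Par.rad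
          rw [h2, hneg, ← Real.exp_add, ← Real.exp_add]
          congr 1
          field_simp
          ring
        · intro hz
          have : max (P.sa - p.1 i0) (p.1 i0 - P.sb) ≤ P.w := max_le (by linarith) (by linarith)
          rw [tz_eq_one (by linarith) this] at hδy
          rw [hneg, hδy]
          ring
        · rw [hneg, hδy]
          have h3 : p.1 i0 + 2 / P.b * y * tz P.w (2 * P.w)
              (max (P.sa - p.1 i0) (p.1 i0 - P.sb)) - 2 * y / P.b - p.1 i0 =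
              2 / P.b * (y * (tz P.w (2 * P.w) (max (P.sa - p.1 i0) (p.1 i0 - P.sb)) - 1)) := by
            ring
          rw [h3, abs_mul, abs_mul, abs_of_pos (by positivity : 0 < 2 / P.b)]
          have h4 : |tz P.w (2 * P.w) (max (P.sa - p.1 i0) (p.1 i0 - P.sb)) - 1| ≤ 1 := by
            have a := tz_nonneg P.w (2 * P.w) (max (P.sa - p.1 i0) (p.1 i0 - P.sb))
            have b := tz_le_one P.w (2 * P.w) (max (P.sa - p.1 i0) (p.1 i0 - P.sb))
            rw [abs_le]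
            constructor <;> linarith
          calc 2 / P.b * (|y| * |tz P.w (2 * P.w) (max (P.sa - p.1 i0) (p.1 i0 - P.sb)) - 1|)
              ≤ 2 / P.b * (P.b * P.w / 8 * 1) := by gcongr
            _ = P.w / 4 := by field_simp; ring
      · intro hY
        rw [← hv1] at hY
        obtain ⟨σ, hσ⟩ : ∃ σ, σ = (P.a - Real.log ‖(S p).2‖) / P.b := ⟨_, rfl⟩
        have hσb : P.b * σ = P.a - Real.log ‖(S p).2‖ := by rw [hσ]; field_simp
        set p2 : (ι → ℝ) × V := (update (S p).1 i0 (f (S p) + 2 * σ), (S p).2) with hp2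
        have q1 : p2.1 i0 = f (S p) + 2 * σ := by rw [hp2]; simp
        have q2 : sig P (‖update p2.1 i0 0‖, ‖p2.2‖) = σ := by
          rw [hp2]
          simp only
          rw [hup, hsig, hσ]
        have q3 : |p2.1 i0 - sig P (‖update p2.1 i0 0‖, ‖p2.2‖)| ≤ 1 / 16 := by
          rw [q1, q2]
          have h5 : |P.b * (f (S p) + 2 * σ - σ)| ≤ P.b * P.w / 8 := by
            rw [← abs_neg]
            convert hY using 2
            rw [show Real.log ‖(S p).2‖ = P.a - P.b * σ by rw [hσb]; ring]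
            ring
          rw [abs_mul, abs_of_pos hb] at h5
          have h6 : P.b * |f (S p) + 2 * σ - σ| ≤ P.b * (1 / 16) := by
            have : P.b * P.w ≤ P.b * (1 / 2) := by gcongr
            linarith
          exact le_of_mul_le_mul_left h6 hb
        have q4 : f p2 = f (S p) := by rw [hf1 p2 q3, q2, q1]; ring
        have q5 : T p2 = T (S p) := by
          rw [hT, hT, q4, hp2]
          simp
        have q6 : p2 = S p := T.injective q5
        have q7 : (S p).1 i0 = f (S p) + 2 * σ := by rw [← q1, q6]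
        rw [← hy0, ← e2, hy1, q7]
        rw [← abs_neg]
        convert hY using 2
        rw [show Real.log ‖(S p).2‖ = P.a - P.b * σ by rw [hσb]; ring]
        ring

/-! ### the theorem -/

/-- the set of the right hand system: `K0` (all other strands) outside the ball of the strand,
and the boundary of the thick disc of the strand in `P.r ≤ ‖v‖ ≤ P.R`. -/
def KMp (P : Par) (i0 : ι) (K0 : Set ((ι → ℝ) × V)) (om M : (ι → ℝ) → V) : Set ((ι → ℝ) × V) :=
  {p | (p ∈ K0 ∧ ¬ P.Ball (p.1 i0) (om p.1) p.2) ∨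
    (‖p.1‖ ≤ 1 ∧ P.r ≤ ‖p.2‖ ∧ ‖p.2‖ ≤ P.R ∧ P.Tube (p.1 i0) (om p.1) (M p.1) p.2)}

/-- the mirror image with reflected normals. -/
def KMm (P : Par) (i0 : ι) (K0 : Set ((ι → ℝ) × V)) (om M : (ι → ℝ) → V) : Set ((ι → ℝ) × V) :=
  {p | (p ∈ K0 ∧ ¬ P.Ball (-(p.1 i0)) (om (update p.1 i0 (-(p.1 i0)))) p.2) ∨
    (‖p.1‖ ≤ 1 ∧ P.r ≤ ‖p.2‖ ∧ ‖p.2‖ ≤ P.R ∧
      P.Tube (-(p.1 i0)) (om (update p.1 i0 (-(p.1 i0))))
        (M (update p.1 i0 (-(p.1 i0))) -
          (2 * ⟪M (update p.1 i0 (-(p.1 i0))), om (update p.1 i0 (-(p.1 i0)))⟫) •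
            om (update p.1 i0 (-(p.1 i0)))) p.2)}

/-- the zone of radii in which the slide moves. -/
def Zone (P : Par) (v : V) : Prop :=
  P.a - P.b * (P.sb + 3 * P.w) ≤ Real.log ‖v‖ ∧ Real.log ‖v‖ ≤ P.a - P.b * (P.sa - 3 * P.w)

theorem Par.no_ball (P : Par) {s : ℝ} {ω v : V} (hω : ‖ω‖ = 1) (hr : P.r ≤ ‖v‖) (hR : ‖v‖ ≤ P.R)
    (hs : 1 / 2 ≤ |s|) : ¬ ‖v - P.cc s • ω‖ ≤ P.eps * P.cc s := by
  intro h
  have h1 := abs_le.1 (P.log_bound hω h)
  have h2 := Real.log_le_log P.hr hr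
  have h3 := Real.log_le_log (P.hr.trans_le hr) hR
  have h4 := P.h3
  have h5 := P.h4
  have hb := P.hb
  have hw1 : P.b * P.w ≤ P.b * (1 / 2) := by have := P.hw1; gcongr
  rcases le_abs.1 hs with h6 | h6
  · have : P.b * (1 / 2) ≤ P.b * s := by gcongr
    linarith
  · have : P.b * (1 / 2) ≤ P.b * (-s) := by gcongr
    linarith

/-- the balls and discs of the strand correspond. -/
theorem corr (P : Par) (i0 : ι) {om M : (ι → ℝ) → V} {h e : V} (n_om : ∀ u, ‖om u‖ = 1)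
    (rest : ∀ u, (u i0 ≤ P.sa ∨ P.sb ≤ u i0) → om u = h ∧ M u = e)
    {u : ι → ℝ} {v : V} {s' l : ℝ} (hl0 : 0 < l)
    (hA : |Real.log ‖v‖ - P.a + P.b * u i0| ≤ P.b * P.w / 8 →
            l * ‖v‖ ^ 2 = P.rad (u i0) * P.rad (-s') ∧
            ((P.sa - P.w ≤ u i0 ∧ u i0 ≤ P.sb + P.w) → -s' = u i0) ∧
            |-s' - u i0| ≤ P.w / 4)
    (hB : |Real.log ‖l • v‖ - P.a + P.b * (-s')| ≤ P.b * P.w / 8 →
            |Real.log ‖v‖ - P.a + P.b * u i0| ≤ P.b * P.w / 8) :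
    (P.Ball (u i0) (om u) v ↔ P.Ball (-s') (om (update u i0 (-s'))) (l • v)) ∧
    (P.Tube (u i0) (om u) (M u) v ↔ P.Tube (-s') (om (update u i0 (-s')))
        (M (update u i0 (-s')) - (2 * ⟪M (update u i0 (-s')), om (update u i0 (-s'))⟫) •
            om (update u i0 (-s'))) (l • v)) := by
  have hw := P.hw
  by_cases hy : |Real.log ‖v‖ - P.a + P.b * u i0| ≤ P.b * P.w / 8
  · obtain ⟨a1, a2, a3⟩ := hA hy
    have hom : om (update u i0 (-s')) = om u ∧ M (update u i0 (-s')) = M u := by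
      by_cases hz : P.sa - P.w ≤ u i0 ∧ u i0 ≤ P.sb + P.w
      · rw [a2 hz, update_eq_self]
        exact ⟨rfl, rfl⟩
      · have h3 := abs_le.1 a3
        have h4 : (u i0 ≤ P.sa ∧ -s' ≤ P.sa) ∨ (P.sb ≤ u i0 ∧ P.sb ≤ -s') := by
          rw [not_and_or, not_le, not_le] at hz
          rcases hz with hz | hz
          · left; constructor <;> linarith
          · right; constructor <;> linarith
        have h5 : om u = h ∧ M u = e := rest u (h4.imp And.left And.left)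
        have h6 : om (update u i0 (-s')) = h ∧ M (update u i0 (-s')) = e := by
          refine rest _ ?_
          rw [update_self]
          exact h4.imp And.right And.right
        exact ⟨h6.1.trans h5.1.symm, h6.2.trans h5.2.symm⟩
    rw [hom.1, hom.2]
    exact P.exchange (n_om u) hl0 a1
  · have n1 : ¬ ‖v - P.cc (u i0) • om u‖ ≤ P.eps * P.cc (u i0) := fun h =>
      hy (P.log_bound (n_om u) h)
    have n2 : ¬ ‖l • v - P.cc (-s') • om (update u i0 (-s'))‖ ≤ P.eps * P.cc (-s') := fun h =>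
      hy (hB (P.log_bound (n_om _) h))
    exact ⟨⟨fun h => (n1 (le_of_lt h)).elim, fun h => (n2 (le_of_lt h)).elim⟩,
      ⟨fun h => (n1 h.1.le).elim, fun h => (n2 h.1.le).elim⟩⟩

set_option maxHeartbeats 1600000 in
/-- **THE TILT.** -/
theorem tilt_eqv [ProperSpace V] (P : Par) (i0 : ι) {K0 : Set ((ι → ℝ) × V)}
    {om M : (ι → ℝ) → V} {h e : V} (n_om : ∀ u, ‖om u‖ = 1)
    (rest : ∀ u, (u i0 ≤ P.sa ∨ P.sb ≤ u i0) → om u = h ∧ M u = e)
    (hK1 : ∀ p ∈ K0, ‖p.1‖ ≤ 1 ∧ P.r ≤ ‖p.2‖ ∧ ‖p.2‖ ≤ P.R)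
    (hK2 : ∀ (u : ι → ℝ) (v : V) (s : ℝ), |u i0| ≤ 1 / 2 → |s| ≤ 1 / 2 →
      ((update u i0 s, v) ∈ K0 ↔ (u, v) ∈ K0))
    (hK3 : ∀ (u : ι → ℝ) (v : V) (l : ℝ), |u i0| ≤ 1 / 2 → 0 < l → Zone P v → Zone P (l • v) →
      ((u, l • v) ∈ K0 ↔ (u, v) ∈ K0)) :
    GS_808.Eqv (KMp P i0 K0 om M) (KMm P i0 K0 om M) := by
  obtain ⟨Φ, h1, h2, h3⟩ := exists_tilt (V := V) P i0
  have hr := P.hr
  have hrR := P.hrR
  refine ⟨Φ, ⟨closedBall 0 2 ×ˢ closedBall 0 (2 * P.R),
    (isCompact_closedBall _ _).prod (isCompact_closedBall _ _), ?_⟩, ?_⟩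
  · intro p hp
    by_cases ha : 1 / 2 ≤ |p.1 i0|
    · exact h1 p ha
    · push Not at ha
      refine h2 p ?_
      by_contra hc
      push Not at hc
      apply hp
      refine ⟨?_, ?_⟩
      · rw [mem_closedBall_zero_iff, pi_norm_le_iff_of_nonneg (by norm_num)]
        intro k
        by_cases hk : k = i0
        · rw [hk, Real.norm_eq_abs]; linarith
        · have := norm_le_pi_norm (update p.1 i0 0) k
          rw [update_of_ne hk] at this
          linarith [hc.1]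
      · rw [mem_closedBall_zero_iff]
        exact hc.2.le
  · intro p
    by_cases ha : 1 / 2 ≤ |p.1 i0|
    · -- outside of the collar
      rw [h1 p ha]
      unfold KMp KMm
      simp only [mem_setOf_eq]
      have ha' : 1 / 2 ≤ |-(p.1 i0)| := by rwa [abs_neg]
      constructor
      · rintro (⟨hp, -⟩ | ⟨-, h4, h5, h6⟩)
        · left
          refine ⟨hp, fun hb => ?_⟩
          exact P.no_ball (n_om _) (hK1 p hp).2.1 (hK1 p hp).2.2 ha' (le_of_lt hb)
        · exact (P.no_ball (n_om _) h4 h5 ha h6.1.le).elim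
      · rintro (⟨hp, -⟩ | ⟨-, h4, h5, h6⟩)
        · left
          refine ⟨hp, fun hb => ?_⟩
          exact P.no_ball (n_om _) (hK1 p hp).2.1 (hK1 p hp).2.2 ha (le_of_lt hb)
        · exact (P.no_ball (n_om _) h4 h5 ha' h6.1.le).elim
    · push Not at ha
      obtain ⟨s', l, hl0, hΦ, hl, hex⟩ := h3 p
      -- the new time
      have hs' : |s'| ≤ 1 / 2 := by
        by_contra hc
        push Not at hc
        have h4 : (Φ p).1 i0 = s' := by rw [hΦ]; simp
        have h5 : Φ (Φ p) = Φ p := h1 _ (by rw [h4]; exact hc.le)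
        have h6 : Φ p = p := Φ.injective h5
        rw [h6] at h4
        rw [h4] at ha
        linarith
      have hnorm : ‖(update p.1 i0 s' : ι → ℝ)‖ ≤ 1 ↔ ‖p.1‖ ≤ 1 := by
        rw [pi_norm_le_iff_of_nonneg zero_le_one, pi_norm_le_iff_of_nonneg zero_le_one]
        constructor
        · intro H k
          by_cases hk : k = i0
          · rw [hk, Real.norm_eq_abs]; linarith
          · have := H k
            rwa [update_of_ne hk] at this
        · intro H k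
          by_cases hk : k = i0
          · rw [hk, update_self, Real.norm_eq_abs]; linarith
          · rw [update_of_ne hk]; exact H k
      have hnorm0 : ‖p.1‖ ≤ 1 → ‖update p.1 i0 0‖ ≤ 1 := by
        intro H
        rw [pi_norm_le_iff_of_nonneg zero_le_one]
        intro k
        by_cases hk : k = i0
        · rw [hk, update_self, norm_zero]; exact zero_le_one
        · rw [update_of_ne hk]
          exact (norm_le_pi_norm _ _).trans H
      have hzR : ∀ v : V, P.r ≤ ‖v‖ ∨ 0 < ‖v‖ → Zone P v → P.r ≤ ‖v‖ ∧ ‖v‖ ≤ P.R := by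
        intro v hv0 hz
        have hv : 0 < ‖v‖ := hv0.elim (fun h => hr.trans_le h) id
        have g1 : Real.log P.r < Real.log ‖v‖ := P.h1.trans_le hz.1
        have g2 : Real.log ‖v‖ < Real.log P.R := hz.2.trans_lt P.h2
        exact ⟨((Real.log_lt_log_iff hr hv).1 g1).le,
          ((Real.log_lt_log_iff hv (hr.trans hrR)).1 g2).le⟩
      have hrange : (P.r ≤ ‖l • p.2‖ ∧ ‖l • p.2‖ ≤ P.R) ↔ (P.r ≤ ‖p.2‖ ∧ ‖p.2‖ ≤ P.R) := by
        rcases hl with hl | ⟨-, hz1, hz2⟩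
        · rw [hl, one_smul]
        · by_cases hv : ‖p.2‖ = 0
          · have : p.2 = 0 := norm_eq_zero.1 hv
            rw [this, smul_zero]
          · have hv0 : 0 < ‖p.2‖ := lt_of_le_of_ne (norm_nonneg _) (Ne.symm hv)
            have hlv : 0 < ‖l • p.2‖ := by
              rw [norm_smul, Real.norm_eq_abs, abs_of_pos hl0]
              exact mul_pos hl0 hv0
            exact ⟨fun _ => hzR _ (Or.inr hv0) hz1, fun _ => hzR _ (Or.inr hlv) hz2⟩
      have hK : (update p.1 i0 s', l • p.2) ∈ K0 ↔ p ∈ K0 := by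
        rw [hK2 p.1 (l • p.2) s' ha.le hs']
        rcases hl with hl | ⟨-, hz1, hz2⟩
        · rw [hl, one_smul]
        · exact hK3 p.1 p.2 l ha.le hl0 hz1 hz2
      -- comparison
      rw [hΦ]
      unfold KMp KMm
      simp only [mem_setOf_eq, update_self, update_idem]
      rw [hK, hnorm]
      by_cases hin : ‖p.1‖ ≤ 1 ∧ P.r ≤ ‖p.2‖ ∧ ‖p.2‖ ≤ P.R
      · obtain ⟨c1, c2⟩ := corr P i0 n_om rest hl0 (hex (hnorm0 hin.1) hin.2.1 hin.2.2).1
          (hex (hnorm0 hin.1) hin.2.1 hin.2.2).2 (M := M)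
        refine or_congr (and_congr_right' (not_congr c1)) (and_congr_right' ?_)
        rw [← and_assoc, ← and_assoc, hrange]
        exact and_congr_right' c2
      · have hnK : p ∉ K0 := fun hc => hin (hK1 p hc)
        constructor
        · rintro (⟨hc, -⟩ | ⟨g1, g2, g3, -⟩)
          · exact (hnK hc).elim
          · exact (hin ⟨g1, g2, g3⟩).elim
        · rintro (⟨hc, -⟩ | ⟨g1, g2, g3, -⟩)
          · exact (hnK hc).elim
          · exact (hin ⟨g1, hrange.1 ⟨g2, g3⟩⟩).elim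

end Crest.Agent.R267.Tilt_88
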