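import Crest.Agent.R267.LM_808
import Crest.Agent.R267.Tilt_88

/-!
# `TiltP` of LM_808 from `Tilt_88.tilt_eqv`
-/

set_option autoImplicit false

namespace Crest.Agent.R267.TiltP_88

open Set Metric
open scoped RealInnerProductSpace
open Crest.Agent.R267.GS_808 Crest.Agent.R267.DraftB_808 Crest.Agent.R267.NF_808
open Crest.Agent.R267.LM_808
open Crest.Agent.R267

variable {n m : ℕ} {i j : Fin m}

theorem cosh_aux {x l : ℝ} (hx : 0 < x) :
    Real.cosh (Real.log x - l) * x = (x ^ 2 + Real.exp l ^ 2) / (2 * Real.exp l) := by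
  have h1 : Real.exp (Real.log x - l) = x / Real.exp l := by rw [Real.exp_sub, Real.exp_log hx]
  have h2 : Real.exp (-(Real.log x - l)) = Real.exp l / x := by
    rw [neg_sub, Real.exp_sub, Real.exp_log hx]
  rw [Real.cosh_eq, h1, h2]
  have := Real.exp_pos l
  field_simp

section par

variable {D : NFD n m i j} {q : Rad}

theorem kap_pos (hq : LM_808.Par D q) : 0 < kap q := by linarith [hq.kap_gt]

/-- the parameters of the tilt. -/
noncomputable def tp (hq : LM_808.Par D q) : Tilt_88.Par where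
  a := (Real.log q.rho + Real.log q.R1) / 2
  b := kap q
  r := q.r
  R := q.R
  sa := 0
  sb := 1 / 8
  w := 1 / (3 * kap q)
  eps := q.eps
  hb := kap_pos hq
  hr := hq.r_pos
  hrR := by
    rw [← Real.log_lt_log_iff hq.r_pos hq.R_pos, hq.log_r, hq.log_R]
    have := hq.kap_gt
    have h : kap q = 2 * (Real.log q.R1 - Real.log q.rho) := rfl
    linarith
  hw := by have := kap_pos hq; positivity
  hw1 := by
    have := hq.kap_gt
    rw [div_le_div_iff₀ (by linarith) (by norm_num)]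
    linarith
  heps := hq.eps_pos
  heps1 := by linarith [hq.eps_lt]
  h1 := by
    have h0 := kap_pos hq
    have := hq.kap_gt
    have h : kap q = 2 * (Real.log q.R1 - Real.log q.rho) := rfl
    have e : kap q * (1 / 8 + 3 * (1 / (3 * kap q))) = kap q / 8 + 1 := by field_simp
    rw [e, hq.log_r]
    linarith
  h2 := by
    have h0 := kap_pos hq
    have := hq.kap_gt
    have h : kap q = 2 * (Real.log q.R1 - Real.log q.rho) := rfl
    have e : kap q * (0 - 3 * (1 / (3 * kap q))) = -1 := by field_simp; ring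
    rw [e, hq.log_R]
    linarith
  h3 := by
    have := hq.kap_gt
    have h : kap q = 2 * (Real.log q.R1 - Real.log q.rho) := rfl
    rw [hq.log_r]
    linarith
  h4 := by
    have := hq.kap_gt
    have h : kap q = 2 * (Real.log q.R1 - Real.log q.rho) := rfl
    rw [hq.log_R]
    linarith
  hY := by
    have h0 := kap_pos hq
    have h1 := hq.eps_pos
    have h2 := hq.eps_lt
    have e : kap q * (1 / (3 * kap q)) / 8 = 1 / 24 := by field_simp; norm_num
    rw [e]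
    have h3 : Real.log ((1 + q.eps) / (1 - q.eps)) ≤ (1 + q.eps) / (1 - q.eps) - 1 :=
      Real.log_le_sub_one_of_pos (div_pos (by linarith) (by linarith))
    have h4 : (1 + q.eps) / (1 - q.eps) ≤ 1 + 1 / 100 := by
      rw [div_le_iff₀ (by linarith)]
      linarith
    linarith

theorem lam_eq (hq : LM_808.Par D q) (s : ℝ) : lam q.rho q.R1 s = (tp hq).a - (tp hq).b * s := by
  show lam q.rho q.R1 s = (Real.log q.rho + Real.log q.R1) / 2 - kap q * s
  unfold lam kap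
  ring

theorem kap_eq (hq : LM_808.Par D q) : (tp hq).kap = sa q := rfl

theorem sa_pos (hq : LM_808.Par D q) : 0 < sa q := (tp hq).kap_pos

theorem sa_gt (hq : LM_808.Par D q) : 999 / 1000 < sa q := by
  have h := (tp hq).kap_sq
  rw [kap_eq] at h
  have h1 := hq.eps_lt
  have h0 := hq.eps_pos
  have h2 : (tp hq).eps = q.eps := rfl
  rw [h2] at h
  have := sa_pos hq
  by_contra hc
  push Not at hc
  nlinarith

/-- the ball condition in terms of `cosh`. -/
theorem ball_iff (hq : LM_808.Par D q) {s : ℝ} {ω v : Vc (n + 2)} (hω : ‖ω‖ = 1) (hv : 0 < ‖v‖) :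
    sa q * Real.cosh (Real.log ‖v‖ - lam q.rho q.R1 s) * ‖v‖ < ⟪v, ω⟫ ↔
      (tp hq).Ball s ω v := by
  rw [Tilt_88.Par.ball_iff]
  unfold Tilt_88.Par.cc
  rw [Tilt_88.inv_sq ω v hω (tp hq).kap_pos (tp hq).kap_sq, kap_eq, lam_eq hq]
  have hρ := (tp hq).rad_pos s
  have hk := sa_pos hq
  have e1 : Real.cosh (Real.log ‖v‖ - ((tp hq).a - (tp hq).b * s)) * ‖v‖ =
      (‖v‖ ^ 2 + (tp hq).rad s ^ 2) / (2 * (tp hq).rad s) := cosh_aux hv
  rw [mul_assoc, e1]
  constructor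
  · intro h
    have h2 : sa q * (‖v‖ ^ 2 + (tp hq).rad s ^ 2) < 2 * (tp hq).rad s * ⟪v, ω⟫ := by
      have := mul_lt_mul_of_pos_left h (by positivity : 0 < 2 * (tp hq).rad s)
      refine lt_of_eq_of_lt ?_ this
      field_simp
    have h3 : ‖v‖ ^ 2 + (tp hq).rad s ^ 2 < 2 * ((tp hq).rad s / sa q) * ⟪v, ω⟫ := by
      have := mul_lt_mul_of_pos_left h2 (inv_pos.2 hk)
      refine lt_of_eq_of_lt ?_ (this.trans_eq ?_)
      · field_simp
      · field_simp
    linarith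
  · intro h
    have h3 : ‖v‖ ^ 2 + (tp hq).rad s ^ 2 < 2 * ((tp hq).rad s / sa q) * ⟪v, ω⟫ := by linarith
    have := mul_lt_mul_of_pos_left h3 (by positivity : 0 < sa q / (2 * (tp hq).rad s))
    refine lt_of_eq_of_lt ?_ (this.trans_eq ?_)
    · field_simp
    · field_simp

theorem norm_iff (hq : LM_808.Par D q) {s : ℝ} {ω v : Vc (n + 2)} (hω : ‖ω‖ = 1) (hv : 0 < ‖v‖) :
    sa q * Real.cosh (Real.log ‖v‖ - lam q.rho q.R1 s) * ‖v‖ = ⟪v, ω⟫ ↔
      ‖v - (tp hq).cc s • ω‖ = (tp hq).eps * (tp hq).cc s := by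
  rw [Tilt_88.Par.norm_eq_iff]
  unfold Tilt_88.Par.cc
  rw [Tilt_88.inv_sq ω v hω (tp hq).kap_pos (tp hq).kap_sq, kap_eq, lam_eq hq]
  have hρ := (tp hq).rad_pos s
  have hk := sa_pos hq
  have e1 : Real.cosh (Real.log ‖v‖ - ((tp hq).a - (tp hq).b * s)) * ‖v‖ =
      (‖v‖ ^ 2 + (tp hq).rad s ^ 2) / (2 * (tp hq).rad s) := cosh_aux hv
  rw [mul_assoc, e1]
  constructor
  · intro h
    rw [← h]
    field_simp
    ring
  · intro h
    have h3 : ‖v‖ ^ 2 + (tp hq).rad s ^ 2 = 2 * ((tp hq).rad s / sa q) * ⟪v, ω⟫ := by linarith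
    rw [h3]
    field_simp

theorem tube_iff (hq : LM_808.Par D q) {s : ℝ} {ω M v : Vc (n + 2)} (hω : ‖ω‖ = 1)
    (hv : 0 < ‖v‖) :
    (sa q * Real.cosh (Real.log ‖v‖ - lam q.rho q.R1 s) * ‖v‖ = ⟪v, ω⟫ ∧
      ⟪M, v⟫ = sa q * Real.exp (lam q.rho q.R1 s) * ⟪M, ω⟫) ↔ (tp hq).Tube s ω M v := by
  unfold Tilt_88.Par.Tube
  refine and_congr (norm_iff hq hω hv) ?_
  rw [inner_sub_right, inner_smul_right, lam_eq hq]
  show _ = sa q * (tp hq).rad s * _ ↔ _
  have hk := sa_pos hq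
  have h2 : (tp hq).eps ^ 2 = 1 - sa q ^ 2 := by
    have := (tp hq).kap_sq
    rw [kap_eq] at this
    linarith
  have h3 : (tp hq).cc s = (tp hq).rad s / sa q := rfl
  rw [h2, h3]
  have h4 : (1 - sa q ^ 2) * ((tp hq).rad s / sa q) =
      (tp hq).rad s / sa q - sa q * (tp hq).rad s := by
    field_simp
  rw [h4]
  constructor
  · intro h; rw [h]; ring
  · intro h; linarith

/-- far from the curve nothing happens. -/
theorem far (hq : LM_808.Par D q) {l : ℝ} {ω v : Vc (n + 2)} (hω : ‖ω‖ = 1) (hv : 0 < ‖v‖)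
    (hy : 1 ≤ |Real.log ‖v‖ - l|) :
    ⟪v, ω⟫ < sa q * Real.cosh (Real.log ‖v‖ - l) * ‖v‖ := by
  have h1 : ⟪v, ω⟫ ≤ ‖v‖ := by
    have := real_inner_le_norm v ω
    rwa [hω, mul_one] at this
  have h2 := sa_gt hq
  have h3 : 3 / 2 ≤ Real.cosh (Real.log ‖v‖ - l) := by
    rw [← Real.cosh_abs]
    have h4 : Real.cosh 1 ≤ Real.cosh |Real.log ‖v‖ - l| := by
      rw [Real.cosh_le_cosh, abs_one, abs_abs]
      exact hy
    have h5 : (3 : ℝ) / 2 ≤ Real.cosh 1 := by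
      rw [Real.cosh_eq]
      have h6 := Real.add_one_le_exp (1 : ℝ)
      have h7 := Real.exp_one_gt_d9
      have h8 : (0.3 : ℝ) < Real.exp (-1) := by
        have := Real.exp_neg_one_gt_d9
        linarith
      linarith
    linarith
  have h4 : 1 < sa q * Real.cosh (Real.log ‖v‖ - l) := by nlinarith
  nlinarith

end par

/-! ### the collar -/

open Classical in
/-- direction, extended constantly outside of the collar. -/
noncomputable def omt (D : NFD n m i j) (u : Bc (n + 2)) : Vc (n + 2) :=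
  if |u 1| ≤ 1 / 2 then w1 D u else hc (n + 1)

open Classical in
/-- normal, extended constantly outside of the collar. -/
noncomputable def Mt (D : NFD n m i j) (u : Bc (n + 2)) : Vc (n + 2) :=
  if |u 1| ≤ 1 / 2 then M1 D u else ec (n + 2)

theorem fr_collar (D : NFD n m i j) {u : Bc (n + 2)} (hu : |u 1| ≤ 1 / 2) :
    fr D u = LinearIsometryEquiv.refl ℝ _ := by
  unfold fr
  split_ifs
  · exact D.mid_F u hu
  · rfl

theorem w1_collar (D : NFD n m i j) {u : Bc (n + 2)} (hu : |u 1| ≤ 1 / 2) :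
    w1 D u = D.P.om (us u (16 * u 1 - 1)) := by
  unfold w1
  rw [fr_collar D hu]
  rfl

theorem M1_collar (D : NFD n m i j) {u : Bc (n + 2)} (hu : |u 1| ≤ 1 / 2) :
    M1 D u = D.P.M (us u (16 * u 1 - 1)) := by
  unfold M1
  rw [fr_collar D hu]
  rfl

theorem norm_w1 (D : NFD n m i j) (u : Bc (n + 2)) : ‖w1 D u‖ = 1 := by
  unfold w1
  rw [LinearIsometryEquiv.norm_map]
  exact D.P.n_om _

theorem norm_hc : ‖hc (n + 1)‖ = 1 := by
  unfold hc
  simp

theorem norm_omt (D : NFD n m i j) (u : Bc (n + 2)) : ‖omt D u‖ = 1 := by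
  unfold omt
  split_ifs
  · exact norm_w1 D u
  · exact norm_hc

theorem restAt_us {u : Bc (n + 2)} {s : ℝ} (hs : 1 ≤ |s|) : RestAt (us u s) := by
  right
  exact ⟨1, by simp, by simpa [us] using hs⟩

theorem rest_omt (D : NFD n m i j) (u : Bc (n + 2)) (h : u 1 ≤ 0 ∨ 1 / 8 ≤ u 1) :
    omt D u = hc (n + 1) ∧ Mt D u = ec (n + 2) := by
  unfold omt Mt
  split_ifs with hu
  · have h1 : 1 ≤ |16 * u 1 - 1| := by
      rcases h with h | h
      · rw [le_abs]; right; linarith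
      · rw [le_abs]; left; linarith
    rw [w1_collar D hu, M1_collar D hu]
    exact ⟨D.P.rest_om _ (restAt_us h1), D.P.rest_M _ (restAt_us h1)⟩
  · exact ⟨rfl, rfl⟩

section par

variable {D : NFD n m i j} {q : Rad}

theorem le_of_log {x y : ℝ} (hx : 0 < x) (hy : 0 < y) (h : Real.log x < Real.log y) : x < y :=
  (Real.log_lt_log_iff hx hy).1 h

/-- the end parts of the profile are far outside. -/
theorem far_end (hq : LM_808.Par D q) {s : ℝ} (hs : 3 / 8 ≤ |s|) {v : Vc (n + 2)}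
    (h1 : q.r ≤ ‖v‖) (h2 : ‖v‖ ≤ q.R) :
    1 ≤ |Real.log ‖v‖ - lamc q.rho q.R1 (3 / 8) (3 / 8) s| ∧
      1 ≤ |Real.log ‖v‖ - lam q.rho q.R1 s| := by
  have hr := hq.r_pos
  have g1 := Real.log_le_log hr h1
  have g2 := Real.log_le_log (hr.trans_le h1) h2
  have g3 := hq.log_r
  have g4 := hq.log_R
  have g5 := hq.kap_gt
  have g6 : kap q = 2 * (Real.log q.R1 - Real.log q.rho) := rfl
  have hl : ∀ t, lam q.rho q.R1 t = (Real.log q.rho + Real.log q.R1) / 2 - kap q * t := by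
    intro t; unfold lam kap; ring
  rcases le_abs.1 hs with h | h
  · have e : lamc q.rho q.R1 (3 / 8) (3 / 8) s = lam q.rho q.R1 (3 / 8) := by
      unfold lamc
      rw [min_eq_left h, max_eq_right (by norm_num)]
    have h3 : kap q * (3 / 8) ≤ kap q * s := by
      have : 0 < kap q := by linarith
      gcongr
    rw [e, hl, hl]
    constructor
    · rw [le_abs]; left; linarith
    · rw [le_abs]; left; linarith
  · have e : lamc q.rho q.R1 (3 / 8) (3 / 8) s = lam q.rho q.R1 (-(3 / 8)) := by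
      unfold lamc
      rw [min_eq_right (by linarith), max_eq_left (by linarith)]
    have h3 : kap q * (3 / 8) ≤ kap q * (-s) := by
      have : 0 < kap q := by linarith
      gcongr
    rw [e, hl, hl]
    constructor
    · rw [le_abs]; right; linarith
    · rw [le_abs]; right; linarith

theorem lamc_eq {s : ℝ} (hs : |s| ≤ 3 / 8) :
    lamc q.rho q.R1 (3 / 8) (3 / 8) s = lam q.rho q.R1 s := by
  have := abs_le.1 hs
  unfold lamc
  rw [min_eq_right this.2, max_eq_right this.1]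

theorem not_ball_end (hq : LM_808.Par D q) {s : ℝ} (hs : 3 / 8 ≤ |s|) {ω v : Vc (n + 2)}
    (hω : ‖ω‖ = 1) (h1 : q.r ≤ ‖v‖) (h2 : ‖v‖ ≤ q.R) :
    ¬ ‖v - (tp hq).cc s • ω‖ ≤ (tp hq).eps * (tp hq).cc s := by
  intro h
  have h3 := (tp hq).log_bound hω h
  have h4 := (far_end hq hs h1 h2).2
  have h0 := kap_pos hq
  have e : (tp hq).b * (tp hq).w / 8 = 1 / 24 := by
    show kap q * (1 / (3 * kap q)) / 8 = _
    field_simp; norm_num
  rw [e] at h3
  rw [lam_eq hq, ← sub_add] at h4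
  linarith

theorem inD_iff (hq : LM_808.Par D q) {u : Bc (n + 2)} {v : Vc (n + 2)} (h1 : q.r ≤ ‖v‖)
    (h2 : ‖v‖ ≤ q.R) :
    inD D q (lamc q.rho q.R1 (3 / 8) (3 / 8)) (u, v) ↔ (tp hq).Ball (u 1) (omt D u) v := by
  have hv : 0 < ‖v‖ := hq.r_pos.trans_le h1
  by_cases hs : |u 1| ≤ 3 / 8
  · unfold inD
    simp only
    have e : omt D u = w1 D u := by
      unfold omt
      rw [if_pos (by linarith)]
    rw [lamc_eq hs, e]
    exact ball_iff hq (norm_w1 D u) hv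
  · push Not at hs
    constructor
    · intro h
      have := far hq (norm_w1 D u) hv (far_end hq hs.le h1 h2).1
      unfold inD at h
      simp only at h
      linarith
    · intro h
      exact (not_ball_end hq hs.le (norm_omt D u) h1 h2 (le_of_lt h)).elim

theorem onD_iff (hq : LM_808.Par D q) {u : Bc (n + 2)} {v : Vc (n + 2)} (h1 : q.r ≤ ‖v‖)
    (h2 : ‖v‖ ≤ q.R) :
    onD D q (lamc q.rho q.R1 (3 / 8) (3 / 8)) (u, v) ↔
      (tp hq).Tube (u 1) (omt D u) (Mt D u) v := by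
  have hv : 0 < ‖v‖ := hq.r_pos.trans_le h1
  by_cases hs : |u 1| ≤ 3 / 8
  · unfold onD
    simp only
    have e : omt D u = w1 D u := by
      unfold omt
      rw [if_pos (by linarith)]
    have e' : Mt D u = M1 D u := by
      unfold Mt
      rw [if_pos (by linarith)]
    rw [lamc_eq hs, e, e']
    exact tube_iff hq (norm_w1 D u) hv
  · push Not at hs
    constructor
    · intro h
      have := far hq (norm_w1 D u) hv (far_end hq hs.le h1 h2).1
      have h3 := h.1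
      simp only at h3
      linarith
    · intro h
      exact (not_ball_end hq hs.le (norm_omt D u) h1 h2 h.1.le).elim

theorem a_lt (hq : LM_808.Par D q) : (tp hq).a < -2 := by
  show (Real.log q.rho + Real.log q.R1) / 2 < -2
  have h1 := hq.prod_lt
  have h2 := hq.rho_pos
  have h3 : 0 < q.R1 := by linarith [hq.R1_gt]
  rw [← Real.log_mul h2.ne' h3.ne']
  have h4 : Real.log (q.rho * q.R1) < Real.log (1 / 1000000) :=
    Real.log_lt_log (mul_pos h2 h3) h1
  have h5 : Real.log (1 / 1000000) ≤ -4 := by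
    rw [Real.log_le_iff_le_exp (by norm_num), Real.exp_neg,
      show (4 : ℝ) = ((4 : ℕ) : ℝ) * 1 by norm_num, Real.exp_nat_mul]
    have h6 := Real.exp_one_lt_d9
    have h7 : Real.exp 1 ^ 4 ≤ 3 ^ 4 := by
      have := Real.exp_pos 1
      gcongr
      linarith
    rw [one_div]
    refine inv_anti₀ (by positivity) ?_
    linarith
  linarith

/-- the other discs never meet the ball of the strand. -/
theorem other (hq : LM_808.Par D q) {u : Bc (n + 2)} {v : Vc (n + 2)} {k : Fin m} (hk : k ≠ i)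
    (hkj : k ≠ j) (hu : ‖u‖ ≤ 1) (h : ‖v - D.y k u‖ = q.r) :
    (q.r ≤ ‖v‖ ∧ ‖v‖ ≤ q.R) ∧ ¬ (tp hq).Ball (u 1) (omt D u) v := by
  have hr := hq.r_pos
  have hr2 := hq.r_lt
  have hy1 := D.far k u hkj
  have hy2 := hq.y_lt k u hk hu
  have n1 : ‖D.y k u‖ ≤ ‖v‖ + q.r := by
    have := norm_sub_le v (v - D.y k u)
    rw [sub_sub_cancel, h] at this
    exact this
  have n2 : ‖v‖ ≤ ‖D.y k u‖ + q.r := by
    have := norm_add_le (D.y k u) (v - D.y k u)
    rw [add_sub_cancel, h] at this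
    exact this
  have hR : q.R1 ≤ q.R := by
    have := hq.log_R
    have := hq.kap_gt
    exact (le_of_log (by linarith [hq.R1_gt]) hq.R_pos (by linarith)).le
  have hrange : q.r ≤ ‖v‖ ∧ ‖v‖ ≤ q.R := ⟨by linarith, by linarith [hq.R1_gt]⟩
  refine ⟨hrange, fun hB => ?_⟩
  have hv : 0 < ‖v‖ := hr.trans_le hrange.1
  by_cases hs : |u 1| ≤ 1 / 2
  · rw [D.mid_y k u hs] at h n1
    have hp := D.p_norm k hkj
    have hv1 : 9 / 10 ≤ ‖v‖ := by linarith
    by_cases hz : u 1 ≤ 0 ∨ 1 / 8 ≤ u 1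
    · rw [(rest_omt D u hz).1, ← ball_iff hq norm_hc hv] at hB
      have e : ⟪v, hc (n + 1)⟫ = ⟪v - D.p k, hc (n + 1)⟫ := by
        rw [inner_sub_left, real_inner_comm (hc (n + 1)) (D.p k), D.p_h k, sub_zero]
      have h3 : ⟪v - D.p k, hc (n + 1)⟫ ≤ q.r := by
        have := real_inner_le_norm (v - D.p k) (hc (n + 1))
        rwa [h, norm_hc, mul_one] at this
      have h4 := Real.one_le_cosh (Real.log ‖v‖ - lam q.rho q.R1 (u 1))
      have h5 := sa_gt hq
      rw [e] at hB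
      have h6 : 999 / 1000 ≤ sa q * Real.cosh (Real.log ‖v‖ - lam q.rho q.R1 (u 1)) := by
        nlinarith
      nlinarith
    · push Not at hz
      rw [← ball_iff hq (norm_omt D u) hv] at hB
      have h3 : 1 ≤ |Real.log ‖v‖ - lam q.rho q.R1 (u 1)| := by
        rw [lam_eq hq, le_abs]
        left
        have h4 := a_lt hq
        have h5 : 0 < (tp hq).b * u 1 := mul_pos (tp hq).hb hz.1
        have h6 := Real.one_sub_inv_le_log_of_pos hv
        have h7 : ‖v‖⁻¹ ≤ 10 / 9 := by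
          rw [inv_le_comm₀ hv (by norm_num)]
          linarith
        linarith
      have := far hq (norm_omt D u) hv h3
      linarith
  · push Not at hs
    exact not_ball_end hq (by linarith) (norm_omt D u) hrange.1 hrange.2 (le_of_lt hB)

end par

/-- everything except the strand `i`. -/
def K0 (D : NFD n m i j) (q : Rad) : Set (Bc (n + 2) × Vc (n + 2)) :=
  {p | (⟪ec (n + 2), p.2⟫ = 0 ∧ ‖p.1‖ = 1 ∧ q.r ≤ ‖p.2‖ ∧ ‖p.2‖ ≤ q.R ∧
      (∀ k, k ≠ i → k ≠ j → q.r ≤ ‖p.2 - D.y k p.1‖)) ∨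
    (⟪ec (n + 2), p.2⟫ = 0 ∧ ‖p.1‖ ≤ 1 ∧ ‖p.2‖ = q.R) ∨
    (‖p.1‖ ≤ 1 ∧ ‖p.2‖ = q.r ∧ ⟪D.F.Rf p.1 (ec (n + 2)), p.2⟫ = 0) ∨
    (∃ k, k ≠ i ∧ k ≠ j ∧ ‖p.1‖ ≤ 1 ∧ ‖p.2 - D.y k p.1‖ = q.r ∧
      ⟪D.N k p.1, p.2 - D.y k p.1⟫ = 0)}

section par

variable {D : NFD n m i j} {q : Rad}

theorem r_le_R (hq : LM_808.Par D q) : q.r ≤ q.R := (tp hq).hrR.le

theorem K0_range (hq : LM_808.Par D q) : ∀ p ∈ K0 D q, ‖p.1‖ ≤ 1 ∧ q.r ≤ ‖p.2‖ ∧ ‖p.2‖ ≤ q.R := by
  have hrR := r_le_R hq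
  rintro p (⟨-, h2, h3, h4, -⟩ | ⟨-, h2, h3⟩ | ⟨h1, h2, -⟩ | ⟨k, h1, h2, h3, h4, -⟩)
  · exact ⟨h2.le, h3, h4⟩
  · exact ⟨h2, by rw [h3]; exact hrR, h3.le⟩
  · exact ⟨h1, h2.ge, by rw [h2]; exact hrR⟩
  · exact ⟨h3, (other hq h1 h2 h3 h4).1⟩

theorem KE_eq (hq : LM_808.Par D q) :
    KE D q (lamc q.rho q.R1 (3 / 8) (3 / 8)) =
      Tilt_88.KMp (tp hq) 1 (K0 D q) (omt D) (Mt D) := by
  ext ⟨u, v⟩
  by_cases hin : q.r ≤ ‖v‖ ∧ ‖v‖ ≤ q.R
  · have e1 := inD_iff hq (u := u) hin.1 hin.2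
    have e2 := onD_iff hq (u := u) hin.1 hin.2
    have e3 : ∀ k, k ≠ i → k ≠ j → ‖u‖ ≤ 1 → ‖v - D.y k u‖ = q.r →
        ¬ (tp hq).Ball (u 1) (omt D u) v := fun k h1 h2 h3 h4 => (other hq h1 h2 h3 h4).2
    constructor
    · rintro (⟨a1, a2, a3, a4, a5, a6⟩ | ⟨a1, a2, a3, a6⟩ | ⟨a1, a2, a3, a6⟩ |
        ⟨k, a1, a2, a3, a4, a5⟩ | ⟨a1, a2, a3, a4⟩)
      · exact Or.inl ⟨Or.inl ⟨a1, a2, a3, a4, a5⟩, fun h => a6 (e1.2 h)⟩
      · exact Or.inl ⟨Or.inr (Or.inl ⟨a1, a2, a3⟩), fun h => a6 (e1.2 h)⟩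
      · exact Or.inl ⟨Or.inr (Or.inr (Or.inl ⟨a1, a2, a3⟩)), fun h => a6 (e1.2 h)⟩
      · exact Or.inl ⟨Or.inr (Or.inr (Or.inr ⟨k, a1, a2, a3, a4, a5⟩)), e3 k a1 a2 a3 a4⟩
      · exact Or.inr ⟨a1, a2, a3, e2.1 a4⟩
    · rintro (⟨(⟨a1, a2, a3, a4, a5⟩ | ⟨a1, a2, a3⟩ | ⟨a1, a2, a3⟩ | ⟨k, a1, a2, a3, a4, a5⟩), b⟩ |
        ⟨a1, a2, a3, a4⟩)
      · exact Or.inl ⟨a1, a2, a3, a4, a5, fun h => b (e1.1 h)⟩
      · exact Or.inr (Or.inl ⟨a1, a2, a3, fun h => b (e1.1 h)⟩)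
      · exact Or.inr (Or.inr (Or.inl ⟨a1, a2, a3, fun h => b (e1.1 h)⟩))
      · exact Or.inr (Or.inr (Or.inr (Or.inl ⟨k, a1, a2, a3, a4, a5⟩)))
      · exact Or.inr (Or.inr (Or.inr (Or.inr ⟨a1, a2, a3, e2.2 a4⟩)))
  · constructor
    · rintro (⟨a1, a2, a3, a4, a5, a6⟩ | ⟨a1, a2, a3, a6⟩ | ⟨a1, a2, a3, a6⟩ |
        ⟨k, a1, a2, a3, a4, a5⟩ | ⟨a1, a2, a3, a4⟩)
      · exact (hin ⟨a3, a4⟩).elim
      · exact (hin (K0_range hq (u, v) (Or.inr (Or.inl ⟨a1, a2, a3⟩))).2).elim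
      · exact (hin (K0_range hq (u, v) (Or.inr (Or.inr (Or.inl ⟨a1, a2, a3⟩)))).2).elim
      · exact (hin (K0_range hq (u, v)
          (Or.inr (Or.inr (Or.inr ⟨k, a1, a2, a3, a4, a5⟩)))).2).elim
      · exact (hin ⟨a2, a3⟩).elim
    · rintro (⟨h, -⟩ | ⟨a1, a2, a3, a4⟩)
      · exact (hin (K0_range hq (u, v) h).2).elim
      · exact (hin ⟨a2, a3⟩).elim

theorem norm_upd_le {u : Bc (n + 2)} {s t : ℝ} (ht : 1 / 2 ≤ t) (hu : |u 1| ≤ 1 / 2)
    (hs : |s| ≤ 1 / 2) : ‖Function.update u 1 s‖ ≤ t ↔ ‖u‖ ≤ t := by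
  have ht0 : 0 ≤ t := by linarith
  rw [pi_norm_le_iff_of_nonneg ht0, pi_norm_le_iff_of_nonneg ht0]
  constructor
  · intro H k
    by_cases hk : k = 1
    · rw [hk, Real.norm_eq_abs]; linarith
    · have := H k
      rwa [Function.update_of_ne hk] at this
  · intro H k
    by_cases hk : k = 1
    · rw [hk, Function.update_self, Real.norm_eq_abs]; linarith
    · rw [Function.update_of_ne hk]; exact H k

theorem norm_upd_eq {u : Bc (n + 2)} {s : ℝ} (hu : |u 1| ≤ 1 / 2) (hs : |s| ≤ 1 / 2) :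
    ‖Function.update u 1 s‖ = 1 ↔ ‖u‖ = 1 := by
  have key : ∀ a b : ℝ, (∀ t, 1 / 2 ≤ t → (a ≤ t ↔ b ≤ t)) → a = 1 → b = 1 := by
    intro a b H ha
    have h1 := (H 1 (by norm_num)).1 ha.le
    by_contra hb
    have h2 : b < 1 := lt_of_le_of_ne h1 hb
    have h3 := (H (max b (1 / 2)) (le_max_right _ _)).2 (le_max_left _ _)
    rw [ha] at h3
    rcases le_max_iff.1 h3 with h | h
    · linarith
    · norm_num at h
  exact ⟨key _ _ fun t ht => norm_upd_le ht hu hs, key _ _ fun t ht => (norm_upd_le ht hu hs).symm⟩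

theorem K0_shift (hq : LM_808.Par D q) (u : Bc (n + 2)) (v : Vc (n + 2)) (s : ℝ)
    (hu : |u 1| ≤ 1 / 2) (hs : |s| ≤ 1 / 2) :
    ((Function.update u 1 s, v) ∈ K0 D q ↔ (u, v) ∈ K0 D q) := by
  have hs' : |(Function.update u 1 s : Bc (n + 2)) 1| ≤ 1 / 2 := by
    rw [Function.update_self]; exact hs
  have e1 : ∀ k, D.y k (Function.update u 1 s) = D.y k u := fun k => by
    rw [D.mid_y k _ hs', D.mid_y k _ hu]
  have e2 : ∀ k, D.N k (Function.update u 1 s) = D.N k u := fun k => by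
    rw [D.mid_N k _ hs', D.mid_N k _ hu]
  have e3 : D.F.Rf (Function.update u 1 s) = D.F.Rf u := by
    rw [D.mid_F _ hs', D.mid_F _ hu]
  have e4 : ‖Function.update u 1 s‖ ≤ 1 ↔ ‖u‖ ≤ 1 := norm_upd_le (by norm_num) hu hs
  have e5 := norm_upd_eq (s := s) hu hs
  unfold K0
  simp only [mem_setOf_eq, e1, e2, e3, e4, e5]

theorem K0_scale (hq : LM_808.Par D q) (u : Bc (n + 2)) (v : Vc (n + 2)) (l : ℝ)
    (hu : |u 1| ≤ 1 / 2) (hl : 0 < l) (hz : Tilt_88.Zone (tp hq) v)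
    (hz' : Tilt_88.Zone (tp hq) (l • v)) :
    ((u, l • v) ∈ K0 D q ↔ (u, v) ∈ K0 D q) := by
  have hr := hq.r_pos
  have zone : ∀ w : Vc (n + 2), Tilt_88.Zone (tp hq) w → q.r < ‖w‖ ∧ ‖w‖ < q.R ∧ ‖w‖ < 1 / 2 := by
    intro w hw
    have h1 := (tp hq).h1.trans_le hw.1
    have h2 := hw.2.trans_lt (tp hq).h2
    have h3 : Real.log ‖w‖ < -1 := by
      have := hw.2
      have ha := a_lt hq
      have e : (tp hq).a - (tp hq).b * ((tp hq).sa - 3 * (tp hq).w) = (tp hq).a + 1 := by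
        have h0 := kap_pos hq
        show (tp hq).a - kap q * (0 - 3 * (1 / (3 * kap q))) = _
        field_simp
        ring
      rw [e] at this
      linarith
    have hw0 : 0 < ‖w‖ := by
      refine lt_of_le_of_ne (norm_nonneg _) fun h => ?_
      rw [← h, Real.log_zero] at h3
      linarith
    refine ⟨le_of_log hr hw0 h1, le_of_log hw0 hq.R_pos h2, ?_⟩
    have h4 : ‖w‖ < Real.exp (-1) := (Real.log_lt_iff_lt_exp hw0).1 h3
    have h5 : Real.exp (-1) < 1 / 2 := by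
      rw [Real.exp_neg, one_div]
      have := Real.exp_one_gt_d9
      refine inv_strictAnti₀ (by norm_num) (by linarith)
    linarith
  obtain ⟨a1, a2, a3⟩ := zone v hz
  obtain ⟨b1, b2, b3⟩ := zone _ hz'
  have hr2 := hq.r_lt
  have far' : ∀ (w : Vc (n + 2)), ‖w‖ < 1 / 2 → ∀ k, k ≠ j → q.r < ‖w - D.y k u‖ := by
    intro w hw k hk
    rw [D.mid_y k u hu]
    have h1 := D.p_norm k hk
    have h2 := norm_sub_norm_le (D.p k) w
    rw [norm_sub_rev] at h2
    linarith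
  constructor
  · rintro (⟨c1, c2, c3, c4, c5⟩ | ⟨c1, c2, c3⟩ | ⟨c1, c2, c3⟩ | ⟨k, c1, c2, c3, c4, c5⟩)
    · refine Or.inl ⟨?_, c2, a1.le, a2.le, fun k _ hk => (far' v a3 k hk).le⟩
      simp only [inner_smul_right] at c1
      exact (mul_eq_zero.1 c1).resolve_left hl.ne'
    · simp only at c3; linarith
    · simp only at c2; linarith
    · simp only at c4
      have := far' _ b3 k c2
      linarith
  · rintro (⟨c1, c2, c3, c4, c5⟩ | ⟨c1, c2, c3⟩ | ⟨c1, c2, c3⟩ | ⟨k, c1, c2, c3, c4, c5⟩)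
    · refine Or.inl ⟨?_, c2, b1.le, b2.le, fun k _ hk => (far' _ b3 k hk).le⟩
      simp only at c1
      simp only [inner_smul_right, c1, mul_zero]
    · simp only at c3; linarith
    · simp only at c2; linarith
    · simp only at c4
      have := far' _ a3 k c2
      linarith

end par

theorem mir_eq {D D' : NFD n m i j} {q : Rad} (hM : IsMir D D') (hq : LM_808.Par D q)
    (hq' : LM_808.Par D' q) :
    mir (KE D' q (lamc q.rho q.R1 (3 / 8) (3 / 8))) =
      Tilt_88.KMm (tp hq) 1 (K0 D q) (omt D) (Mt D) := by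
  have hom : ∀ u, omt D' u = omt D u := by
    intro u
    unfold omt
    split_ifs with hu
    · rw [w1_collar D' hu, w1_collar D hu, hM.om]
    · rfl
  have hMM : ∀ u, Mt D' u = Mt D u - (2 * ⟪Mt D u, omt D u⟫) • omt D u := by
    intro u
    unfold omt Mt
    split_ifs with hu
    · rw [M1_collar D' hu, M1_collar D hu, w1_collar D hu, hM.M]
      rfl
    · have : ⟪ec (n + 2), hc (n + 1)⟫ = (0 : ℝ) := by
        unfold ec hc
        rw [EuclideanSpace.inner_single_left]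
        have h : (Fin.last (n + 2) : Fin (n + 2 + 1)) ≠ 0 := by
          simp [Fin.ext_iff]
        simp [h]
      rw [this]; simp
  have hmm : ∀ u : Bc (n + 2), ‖mu u‖ = ‖u‖ := by
    intro u
    refine le_antisymm ?_ ?_
    · rw [pi_norm_le_iff_of_nonneg (norm_nonneg _)]
      intro k
      unfold mu us
      by_cases hk : k = 1
      · rw [hk, Function.update_self, norm_neg]; exact norm_le_pi_norm u 1
      · rw [Function.update_of_ne hk]; exact norm_le_pi_norm u k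
    · rw [pi_norm_le_iff_of_nonneg (norm_nonneg _)]
      intro k
      by_cases hk : k = 1
      · have := norm_le_pi_norm (mu u) 1
        unfold mu us at this
        rw [Function.update_self, norm_neg] at this
        rw [hk]; exact this
      · have := norm_le_pi_norm (mu u) k
        unfold mu us at this
        rw [Function.update_of_ne hk] at this
        exact this
  have hK : ∀ u v, (mu u, v) ∈ K0 D' q ↔ (u, v) ∈ K0 D q := by
    intro u v
    unfold K0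
    simp only [mem_setOf_eq, hM.y, hM.N, hM.F, mu_mu, hmm]
  have htp : tp hq' = tp hq := rfl
  ext ⟨u, v⟩
  show (mu u, v) ∈ KE D' q (lamc q.rho q.R1 (3 / 8) (3 / 8)) ↔ _
  rw [KE_eq hq', htp]
  unfold Tilt_88.KMp Tilt_88.KMm
  simp only [mem_setOf_eq]
  rw [hK, hmm, hom, hMM]
  have h1 : (mu u) 1 = -(u 1) := by unfold mu us; simp
  rw [h1]
  rfl

/-- **TiltP.** -/
theorem tiltP (n : ℕ) : TiltP n := by
  intro m i j D D' q hM hq hq'
  rw [KE_eq hq, mir_eq hM hq hq']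
  exact Tilt_88.tilt_eqv (tp hq) 1 (norm_omt D) (rest_omt D) (K0_range hq) (K0_shift hq)
    (K0_scale hq)

end Crest.Agent.R267.TiltP_88
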