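import Crest.Agent.R267.LM_808
import Crest.Agent.R267.Rad_118
import Crest.Agent.R267.ClassAsm_484
import Crest.Agent.R267.Class1P_184
import Crest.Agent.R267.Norm_855
import Crest.Agent.R267.Real_855
import Crest.Agent.R267.Frame_527
import Crest.Agent.R267.Path_224
import Crest.Agent.R267.Cls_253
import Crest.Agent.R267.Shape_118
import Crest.Agent.R267.SysP_224
import Crest.Agent.R267.TiltP_88
import Crest.Agent.R267.Peel_966

/-!
# Assembly of `ClassGProp n` from the open leaves of DRAFT B (row 267)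
-/

set_option autoImplicit false

namespace Crest.Agent.R267.ClassG_808

open Set Metric
open Crest.Agent.R267.GS_808 Crest.Agent.R267.DraftB_808 Crest.Agent.R267.NF_808
open Crest.Agent.R267.LM_808
open Crest.Agent.R267

theorem t1pos (n : ℕ) : ∀ m : ℕ, 0 < m → ∀ G G' : S n m, Isot G G' → Eqv G.K G'.K :=
  fun _ hm G G' h => Rad_118.T1 hm G G' h

/-- `DraftB_808.classG_of` with T1 for `0 < m` only. -/
theorem classG_of' (n : ℕ) (h2 : ClassProp n) (h3 : T2Prop n) : ClassGProp n := by
  intro m G G' A A' P hm hG hG' hA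
  have key : ∀ B, Relation.ReflTransGen T2alg1_684.Move A B →
      ∃ G1 : S n m, HasMat G1 B ∧ Eqv G.K G1.K := by
    intro B hB
    induction hB with
    | refl => exact ⟨G, hG, Eqv.refl _⟩
    | tail _ h ih =>
      obtain ⟨G1, hG1, hE⟩ := ih
      obtain ⟨i, j, hij, rfl⟩ := h
      obtain ⟨G2, hG2, hE2⟩ := h3 m G1 _ i j hG1 hij
      exact ⟨G2, hG2, hE.trans hE2⟩
  obtain ⟨G1, hG1, hE⟩ := key A' (by
    rw [hA]
    exact T2alg1_684.moves_rtg (by simpa using hm) P A)
  exact hE.trans (t1pos n m (by omega) G1 G' (h2 m G1 G' A' hG1 hG'))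

theorem class_fin (n : ℕ) (hn : 1 ≤ n) (hFB : FBProp n) (hTyp : TypProp n)
    (hTypN : TypNProp n) : ClassProp n :=
  ClassAsm_484.class_of n (Norm_855.normProp n) hFB hTyp hTypN (Class1P_184.class1Prop n hn)

/-- **LEMMA M** holds. -/
theorem lemM (n : ℕ) : LemM n :=
  lemM_of n (Shape_118.shapeP n) (Peel_966.peelJ n) (Peel_966.peel0 n) (TiltP_88.tiltP n)
    (SysP_224.sysP n)

/-- **T2** from the class theorem. -/
theorem t2_fin (n : ℕ) (hn : 1 ≤ n) (h : ClassProp n) : T2Prop n :=
  t2_of n (t1pos n) h (lemM n)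
    (Cls_253.cls_of n (Real_855.realProp hn) (Frame_527.frameProp n) (Path_224.pathProp n))

/-- **`ClassGProp n` from the open leaves.** -/
theorem classG_fin (n : ℕ) (hn : 1 ≤ n) (hFB : FBProp n) (hTyp : TypProp n)
    (hTypN : TypNProp n) : ClassGProp n :=
  classG_of' n (class_fin n hn hFB hTyp hTypN) (t2_fin n hn (class_fin n hn hFB hTyp hTypN))

end Crest.Agent.R267.ClassG_808
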