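import Crest.Agent.R267.NF_808
import Crest.Agent.R267.IsotB_92

/-!
# Calculus of `Typ`, `TypN` for the normal form (row 267, DRAFT B part 3, leaf T2-4)

Reparametrisation in the variable `s = u 1`, negation, constants, joins, frames.
-/

set_option autoImplicit false

namespace Crest.Agent.R267.ClsA_253

open Set Metric
open scoped RealInnerProductSpace
open Crest.Agent.R267.GS_808 Crest.Agent.R267.DraftB_808 Crest.Agent.R267.NF_808
open Crest.Agent.R267.IsotB_92

variable {n : ℕ}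

/-! ### the variable `u 1` -/

lemma us_apply (u : Bc (n + 2)) (s : ℝ) : us u s 1 = s := by simp [us]

lemma us_ne (u : Bc (n + 2)) (s : ℝ) {k : Fin (n + 2)} (hk : k ≠ 1) : us u s k = u k := by
  simp [us, hk]

lemma us_self (u : Bc (n + 2)) : us u (u 1) = u := by simp [us]

lemma us_us (u : Bc (n + 2)) (a b : ℝ) : us (us u a) b = us u b := by simp [us]

lemma continuous_us : Continuous fun q : Bc (n + 2) × ℝ => us q.1 q.2 :=
  continuous_fst.update 1 continuous_snd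

lemma one_ne_zero' : (1 : Fin (n + 2)) ≠ 0 := by
  intro h
  have := congrArg Fin.val h
  simp at this

lemma rest_us (u : Bc (n + 2)) {s : ℝ} (hs : 1 ≤ |s|) : RestAt (us u s) :=
  Or.inr ⟨1, one_ne_zero', by rw [us_apply]; exact hs⟩

/-- rest is preserved. -/
lemma rest_us_of (u : Bc (n + 2)) {s : ℝ} (hu : RestAt u) (hs : 1 ≤ |u 1| → 1 ≤ |s|) :
    RestAt (us u s) := by
  rcases hu with h | ⟨k, hk, h⟩
  · left; rw [us_ne u s one_ne_zero'.symm]; exact h
  · by_cases h1 : k = 1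
    · subst h1; exact rest_us u (hs h)
    · right; exact ⟨k, hk, by rw [us_ne u s h1]; exact h⟩

/-- the wall is preserved. -/
lemma norm_us (u : Bc (n + 2)) {s : ℝ} (hu : 1 ≤ ‖u‖) (hs : 1 ≤ |u 1| → 1 ≤ |s|) :
    1 ≤ ‖us u s‖ := by
  by_contra hc
  push Not at hc
  rw [pi_norm_lt_iff one_pos] at hc
  have h1 : |s| < 1 := by simpa [us_apply, Real.norm_eq_abs] using hc 1
  have h2 : |u 1| < 1 := by
    by_contra h; exact absurd (hs (not_lt.1 h)) (not_le.2 h1)
  have : ‖u‖ < 1 := by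
    rw [pi_norm_lt_iff one_pos]
    intro k
    by_cases hk : k = 1
    · subst hk; rw [Real.norm_eq_abs]; exact h2
    · have := hc k
      rwa [us_ne u s hk] at this
  exact absurd hu (not_le.2 this)

/-- linear reparametrisation: condition at one end. -/
def Ok (A B : ℝ) : Prop := (1 ≤ A ∧ 1 ≤ B) ∨ (A ≤ -1 ∧ B ≤ -1)

lemma Ok.abs {A B t : ℝ} (h : Ok A B) (ht : t ∈ Icc (0 : ℝ) 1) : 1 ≤ |(1 - t) * A + t * B| := by
  rcases h with ⟨h1, h2⟩ | ⟨h1, h2⟩
  · refine le_trans ?_ (le_abs_self _)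
    nlinarith [ht.1, ht.2]
  · refine le_trans ?_ (neg_le_abs _)
    nlinarith [ht.1, ht.2]

/-- the interpolated linear function. -/
def ln (a b c d t s : ℝ) : ℝ := (1 - t) * (a * s + b) + t * (c * s + d)

lemma ln_zero (a b c d s : ℝ) : ln a b c d 0 s = a * s + b := by unfold ln; ring
lemma ln_one (a b c d s : ℝ) : ln a b c d 1 s = c * s + d := by unfold ln; ring

/-- both ends are fine. -/
def Ok2 (a b c d : ℝ) : Prop := Ok (a + b) (c + d) ∧ Ok (-a + b) (-c + d)

lemma Ok2.abs {a b c d t : ℝ} (h : Ok2 a b c d) (ht : t ∈ Icc (0 : ℝ) 1) {u : Bc (n + 2)}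
    (hu : ‖u‖ = 1) (h1 : 1 ≤ |u 1|) : 1 ≤ |ln a b c d t (u 1)| := by
  have h2 : |u 1| ≤ 1 := by
    have := norm_le_pi_norm u 1
    rw [Real.norm_eq_abs, hu] at this; exact this
  rcases abs_choice (u 1) with h3 | h3
  · have h4 : u 1 = 1 := by rw [h3] at h1 h2; linarith
    unfold ln
    rw [h4, mul_one, mul_one]
    exact h.1.abs ht
  · have h4 : u 1 = -1 := by rw [h3] at h1 h2; linarith
    unfold ln
    rw [h4, mul_neg_one, mul_neg_one]
    exact h.2.abs ht

lemma Ok2.norm {a b c d t : ℝ} (h : Ok2 a b c d) (ht : t ∈ Icc (0 : ℝ) 1) {u : Bc (n + 2)}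
    (hu : ‖u‖ = 1) : 1 ≤ ‖us u (ln a b c d t (u 1))‖ :=
  norm_us u hu.ge fun h1 => h.abs ht hu h1

lemma continuous_ln (a b c d : ℝ) :
    Continuous fun q : ℝ × Bc (n + 2) => us q.2 (ln a b c d q.1 (q.2 1)) := by
  refine continuous_us.comp (f := fun q : ℝ × Bc (n + 2) => (q.2, ln a b c d q.1 (q.2 1)))
    (continuous_snd.prodMk ?_)
  unfold ln
  fun_prop

/-- **reparametrisation.** -/
theorem fh_lin {f : Bc (n + 2) → Vc (n + 2)} (hf : Adm (n + 2) f) {a b c d : ℝ}
    (h : Ok2 a b c d) :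
    FH (ec (n + 2)) (fun u => f (us u (a * u 1 + b))) (fun u => f (us u (c * u 1 + d))) := by
  refine ⟨fun q => f (us q.2 (ln a b c d q.1 (q.2 1))),
    (hf.cont.comp (continuous_ln a b c d)).continuousOn, fun _ _ _ _ => hf.ne _,
    fun t ht u hu => hf.hor _ (h.norm ht hu), fun u _ => ?_, fun u _ => ?_⟩
  · simp only [ln_zero]
  · simp only [ln_one]

/-- reparametrisation of normals. -/
theorem fn_lin {f : Bc (n + 2) → Vc (n + 2)} (cf : Continuous f) (h0 : ∀ u, f u ≠ 0)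
    (hf : ∀ u, 1 ≤ ‖u‖ → f u = ec (n + 2)) {a b c d : ℝ} (h : Ok2 a b c d) :
    FN (ec (n + 2)) (fun u => f (us u (a * u 1 + b))) (fun u => f (us u (c * u 1 + d))) := by
  refine ⟨fun q => f (us q.2 (ln a b c d q.1 (q.2 1))),
    (cf.comp (continuous_ln a b c d)).continuousOn, fun _ _ _ _ => h0 _,
    fun t ht u hu => hf _ (h.norm ht hu), fun u _ => ?_, fun u _ => ?_⟩
  · simp only [ln_zero]
  · simp only [ln_one]

/-! ### vectors -/

lemma zero_ne_last : (0 : Fin (n + 3)) ≠ Fin.last (n + 2) := by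
  intro h; have := congrArg Fin.val h; simp at this

lemma one_ne_last : (1 : Fin (n + 3)) ≠ Fin.last (n + 2) := by
  intro h; have := congrArg Fin.val h; simp at this

lemma inner_e_h : ⟪ec (n + 2), hc (n + 1)⟫ = (0 : ℝ) := by
  unfold ec hc
  rw [EuclideanSpace.inner_single_left]
  simp [zero_ne_last.symm]

lemma norm_h : ‖hc (n + 1)‖ = 1 := by unfold hc; simp
lemma norm_e : ‖ec (n + 2)‖ = 1 := by unfold ec; simp
lemma h_ne : hc (n + 1) ≠ 0 := by rw [← norm_ne_zero_iff, norm_h]; exact one_ne_zero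
lemma e_ne : ec (n + 2) ≠ 0 := by rw [← norm_ne_zero_iff, norm_e]; exact one_ne_zero

/-- the segment between vectors making an angle `≤ π/2` misses `0`. -/
lemma seg_ne' {V : Type*} [NormedAddCommGroup V] [InnerProductSpace ℝ V] {v w : V} (hv : v ≠ 0)
    (hw : w ≠ 0) (h : 0 ≤ ⟪v, w⟫) {t : ℝ} (ht : t ∈ Icc (0 : ℝ) 1) : (1 - t) • v + t • w ≠ 0 := by
  intro h0
  have h1 : ⟪v, (1 - t) • v + t • w⟫ = 0 := by rw [h0, inner_zero_right]
  rw [inner_add_right, inner_smul_right, inner_smul_right, real_inner_self_eq_norm_sq] at h1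
  have hv' : 0 < ‖v‖ ^ 2 := by have := norm_pos_iff.2 hv; positivity
  have h2 : (1 - t) * ‖v‖ ^ 2 ≤ 0 := by nlinarith [mul_nonneg ht.1 h]
  have h3 : t = 1 := by
    have : 1 - t ≤ 0 := by
      by_contra hc
      push Not at hc
      nlinarith
    linarith [ht.2]
  rw [h3] at h0
  simp at h0
  exact hw h0

lemma exists_perp (v : Vc (n + 2)) : ∃ z : Vc (n + 2), z ≠ 0 ∧ ⟪ec (n + 2), z⟫ = 0 ∧ ⟪v, z⟫ = 0 := by
  by_cases h0 : v 0 = 0
  · refine ⟨hc (n + 1), h_ne, inner_e_h, ?_⟩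
    unfold hc
    rw [EuclideanSpace.inner_single_right]
    simp [h0]
  · refine ⟨EuclideanSpace.single 1 (v 0) - EuclideanSpace.single 0 (v 1), ?_, ?_, ?_⟩
    · intro h
      have := congrArg (fun w : Vc (n + 2) => w 1) h
      simp at this
      exact h0 this
    · unfold ec
      rw [EuclideanSpace.inner_single_left]
      simp [zero_ne_last.symm, one_ne_last.symm]
    · rw [inner_sub_right, EuclideanSpace.inner_single_right, EuclideanSpace.inner_single_right]
      simp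
      ring

/-- constants in `H \ 0`. -/
theorem fh_const {v w : Vc (n + 2)} (hv : v ≠ 0) (hw : w ≠ 0) (ev : ⟪ec (n + 2), v⟫ = 0)
    (ew : ⟪ec (n + 2), w⟫ = 0) :
    FH (B := Bc (n + 2)) (ec (n + 2)) (fun _ => v) (fun _ => w) := by
  have key : ∀ {a b : Vc (n + 2)}, a ≠ 0 → b ≠ 0 → ⟪ec (n + 2), a⟫ = 0 → ⟪ec (n + 2), b⟫ = 0 →
      (0 : ℝ) ≤ ⟪a, b⟫ → FH (B := Bc (n + 2)) (ec (n + 2)) (fun _ => a) (fun _ => b) :=
      fun ha hb ea eb h =>
    fh_of_segment continuousOn_const continuousOn_const (fun _ _ => ea) (fun _ _ => eb)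
      fun _ _ _ ht => seg_ne' ha hb h ht
  obtain ⟨z, hz, ez, hvz⟩ := exists_perp v
  rcases le_total 0 ⟪z, w⟫ with h | h
  · exact IsotB_92.FH.trans (key hv hz ev ez hvz.ge) (key hz hw ez ew h)
  · have h1 : ⟪v, -z⟫ = 0 := by rw [inner_neg_right, hvz, neg_zero]
    have h2 : ⟪ec (n + 2), -z⟫ = 0 := by rw [inner_neg_right, ez, neg_zero]
    have h3 : 0 ≤ ⟪-z, w⟫ := by rw [inner_neg_left]; linarith
    exact IsotB_92.FH.trans (key hv (neg_ne_zero.2 hz) ev h2 h1.ge)
      (key (neg_ne_zero.2 hz) hw h2 ew h3)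

theorem typ_const {v : Vc (n + 2)} (hv : v ≠ 0) (ev : ⟪ec (n + 2), v⟫ = 0) :
    Typ n (fun _ => v) 0 0 := Typ.zero.congr (fh_const h_ne hv inner_e_h ev)

lemma Adm.neg {f : Bc (n + 2) → Vc (n + 2)} (hf : Adm (n + 2) f) : Adm (n + 2) fun u => -f u :=
  ⟨hf.cont.neg, fun u => neg_ne_zero.2 (hf.ne u), fun u hu => by
    rw [inner_neg_right, hf.hor u hu, neg_zero]⟩

/-- **negation.** -/
theorem typ_neg {f : Bc (n + 2) → Vc (n + 2)} {a b : ℤ} (h : Typ n f a b) :
    Typ n (fun u => -f u) b a := by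
  induction h with
  | zero => exact typ_const (neg_ne_zero.2 h_ne) (by rw [inner_neg_right, inner_e_h, neg_zero])
  | al => exact Typ.be
  | be => simpa using (Typ.al (n := n))
  | congr _ H ih => exact ih.congr (IsotB_92.FH.neg H)
  | @cat f g _ _ _ _ y hf hg rf rg _ _ ih ih' =>
    have := Typ.cat (-y) (Adm.neg hf) (Adm.neg hg) (fun u hu => congrArg Neg.neg (rf u hu))
      (fun u hu => congrArg Neg.neg (rg u hu)) ih ih'
    convert this using 1
    funext u
    unfold GS_808.cat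
    split_ifs <;> rfl
  | @rev f _ _ y hf rf _ ih =>
    exact Typ.rev (-y) (Adm.neg hf) (fun u hu => congrArg Neg.neg (rf u hu)) ih

end Crest.Agent.R267.ClsA_253
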