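import Crest.Agent.R267.ClsA_253

/-!
# Joins and frames (row 267, DRAFT B part 3, leaf T2-4)
-/

set_option autoImplicit false

namespace Crest.Agent.R267.ClsB_253

open Set Metric
open scoped RealInnerProductSpace
open Crest.Agent.R267.GS_808 Crest.Agent.R267.DraftB_808 Crest.Agent.R267.NF_808
open Crest.Agent.R267.IsotB_92 Crest.Agent.R267.ClsA_253

variable {n : ℕ}

lemma okL : Ok2 (2 : ℝ) 1 4 3 := ⟨Or.inl (by norm_num), Or.inr (by norm_num)⟩
lemma okR : Ok2 (2 : ℝ) (-1) 4 (-3) := ⟨Or.inl (by norm_num), Or.inr (by norm_num)⟩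
lemma okP : Ok2 (16 : ℝ) (-1) 1 0 := ⟨Or.inl (by norm_num), Or.inr (by norm_num)⟩
lemma okM : Ok2 (-2 : ℝ) 1 (-16) (-1) := ⟨Or.inr (by norm_num), Or.inl (by norm_num)⟩
lemma okL1 : Ok2 (4 : ℝ) 3 1 0 := ⟨Or.inl (by norm_num), Or.inr (by norm_num)⟩
lemma okR1 : Ok2 (4 : ℝ) (-3) 1 0 := ⟨Or.inl (by norm_num), Or.inr (by norm_num)⟩

lemma le_abs_of_le {a : ℝ} (h : 1 ≤ a) : 1 ≤ |a| := h.trans (le_abs_self a)
lemma le_abs_of_le_neg {a : ℝ} (h : a ≤ -1) : 1 ≤ |a| := by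
  have := neg_le_abs a; linarith

lemma ln_L {t s : ℝ} (ht : t ∈ Icc (0 : ℝ) 1) (hs : 0 ≤ s) : 1 ≤ |ln 2 1 4 3 t s| := by
  refine le_abs_of_le ?_
  unfold ln
  nlinarith [ht.1, ht.2, mul_nonneg ht.1 hs]

lemma ln_R {t s : ℝ} (ht : t ∈ Icc (0 : ℝ) 1) (hs : s ≤ 0) : 1 ≤ |ln 2 (-1) 4 (-3) t s| := by
  refine le_abs_of_le_neg ?_
  unfold ln
  nlinarith [ht.1, ht.2, mul_nonneg ht.1 (neg_nonneg.2 hs)]

/-- **join of two maps in rest form.** -/
theorem typ_join {f g : Bc (n + 2) → Vc (n + 2)} {a b a' b' : ℤ} (y : Vc (n + 2))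
    (hf : Adm (n + 2) f) (hg : Adm (n + 2) g) (rf : IsRest y f) (rg : IsRest y g)
    (h : Typ n f a b) (h' : Typ n g a' b') :
    Typ n (fun u => f (us u (4 * u 1 + 3)) + g (us u (4 * u 1 - 3)) - y) (a + a') (b + b') := by
  have hy : ⟪ec (n + 2), y⟫ = 0 := by
    have h1 : RestAt (us (0 : Bc (n + 2)) 1) := rest_us _ (by simp)
    have h2 : 1 ≤ ‖us (0 : Bc (n + 2)) 1‖ := by
      have := norm_le_pi_norm (us (0 : Bc (n + 2)) 1) 1
      rwa [us_apply, norm_one] at this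
    rw [← rf _ h1]; exact hf.hor _ h2
  refine (Typ.cat y hf hg rf rg h h').congr
    ⟨fun q => f (us q.2 (ln 2 1 4 3 q.1 (q.2 1))) + g (us q.2 (ln 2 (-1) 4 (-3) q.1 (q.2 1))) - y,
      ?_, fun t ht u _ => ?_, fun t ht u hu => ?_, fun u _ => ?_, fun u _ => ?_⟩
  · exact (((hf.cont.comp (continuous_ln 2 1 4 3)).add
      (hg.cont.comp (continuous_ln 2 (-1) 4 (-3)))).sub continuous_const).continuousOn
  · show f (us u (ln 2 1 4 3 t (u 1))) + g (us u (ln 2 (-1) 4 (-3) t (u 1))) - y ≠ 0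
    rcases le_total 0 (u 1) with hu | hu
    · rw [rf _ (rest_us u (ln_L ht hu)), add_sub_cancel_left]; exact hg.ne _
    · rw [rg _ (rest_us u (ln_R ht hu)), add_sub_cancel_right]; exact hf.ne _
  · show ⟪ec (n + 2), f (us u (ln 2 1 4 3 t (u 1))) + g (us u (ln 2 (-1) 4 (-3) t (u 1))) - y⟫ = 0
    rw [inner_sub_right, inner_add_right, hf.hor _ (okL.norm ht hu), hg.hor _ (okR.norm ht hu), hy]
    simp
  · show f (us u (ln 2 1 4 3 0 (u 1))) + g (us u (ln 2 (-1) 4 (-3) 0 (u 1))) - y = _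
    rw [ln_zero, ln_zero]
    unfold GS_808.cat
    split_ifs with hu
    · rw [rg _ (rest_us u (le_abs_of_le_neg (by linarith))), add_sub_cancel_right]; rfl
    · rw [rf _ (rest_us u (le_abs_of_le (by linarith))), add_sub_cancel_left]
      rfl
  · show f (us u (ln 2 1 4 3 1 (u 1))) + g (us u (ln 2 (-1) 4 (-3) 1 (u 1))) - y = _
    rw [ln_one, ln_one]; rfl

/-- **join of two normal fields.** -/
theorem typN_join {f g : Bc (n + 2) → Vc (n + 2)} {c c' : ℤ} (cf : Continuous f)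
    (cg : Continuous g) (nf : ∀ u, f u ≠ 0) (ng : ∀ u, g u ≠ 0)
    (rf : ∀ u, 1 ≤ ‖u‖ → f u = ec (n + 2)) (rg : ∀ u, 1 ≤ ‖u‖ → g u = ec (n + 2))
    (h : TypN n f c) (h' : TypN n g c') :
    TypN n (fun u => f (us u (4 * u 1 + 3)) + g (us u (4 * u 1 - 3)) - ec (n + 2)) (c + c') := by
  have key : ∀ (u : Bc (n + 2)) {s : ℝ}, 1 ≤ |s| → 1 ≤ ‖us u s‖ := fun u s hs => by
    have := norm_le_pi_norm (us u s) 1
    rw [us_apply, Real.norm_eq_abs] at this
    linarith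
  refine (TypN.cat cf cg nf ng rf rg h h').congr
    ⟨fun q => f (us q.2 (ln 2 1 4 3 q.1 (q.2 1))) + g (us q.2 (ln 2 (-1) 4 (-3) q.1 (q.2 1)))
      - ec (n + 2), ?_, fun t ht u _ => ?_, fun t ht u hu => ?_, fun u _ => ?_, fun u _ => ?_⟩
  · exact (((cf.comp (continuous_ln 2 1 4 3)).add
      (cg.comp (continuous_ln 2 (-1) 4 (-3)))).sub continuous_const).continuousOn
  · show f (us u (ln 2 1 4 3 t (u 1))) + g (us u (ln 2 (-1) 4 (-3) t (u 1))) - ec (n + 2) ≠ 0
    rcases le_total 0 (u 1) with hu | hu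
    · rw [rf _ (key u (ln_L ht hu)), add_sub_cancel_left]; exact ng _
    · rw [rg _ (key u (ln_R ht hu)), add_sub_cancel_right]; exact nf _
  · show f (us u (ln 2 1 4 3 t (u 1))) + g (us u (ln 2 (-1) 4 (-3) t (u 1))) - ec (n + 2)
      = ec (n + 2)
    rw [rf _ (okL.norm ht hu), rg _ (okR.norm ht hu), add_sub_cancel_right]
  · show f (us u (ln 2 1 4 3 0 (u 1))) + g (us u (ln 2 (-1) 4 (-3) 0 (u 1))) - ec (n + 2) = _
    rw [ln_zero, ln_zero]
    unfold GS_808.cat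
    split_ifs with hu
    · rw [rg _ (key u (le_abs_of_le_neg (by linarith))), add_sub_cancel_right]; rfl
    · rw [rf _ (key u (le_abs_of_le (by linarith))), add_sub_cancel_left]
      rfl
  · show f (us u (ln 2 1 4 3 1 (u 1))) + g (us u (ln 2 (-1) 4 (-3) 1 (u 1))) - ec (n + 2) = _
    rw [ln_one, ln_one]; rfl

/-! ### frames -/

lemma frame_e (F : FrameD n) {u : Bc (n + 2)} (hu : 1 ≤ ‖u‖) {v : Vc (n + 2)}
    (hv : ⟪ec (n + 2), v⟫ = 0) : ⟪ec (n + 2), F.Rf u v⟫ = 0 := by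
  conv_lhs => rw [← F.wall u hu]
  rw [LinearIsometryEquiv.inner_map_map, hv]

lemma adm_frame (F : FrameD n) : Adm (n + 2) fun u => F.Rf u (hc (n + 1)) where
  cont := F.c_Rf.comp (continuous_id.prodMk continuous_const)
  ne u := by rw [← norm_ne_zero_iff, LinearIsometryEquiv.norm_map, norm_h]; exact one_ne_zero
  hor u hu := frame_e F hu inner_e_h

lemma rest_frame (F : FrameD n) (v : Vc (n + 2)) : IsRest v fun u => F.Rf u v := fun u hu => by
  show F.Rf u v = v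
  rw [F.rest u hu]; rfl

/-- **frame joined with a reversed path.** -/
theorem typ_frame (F : FrameD n) {g : Bc (n + 2) → Vc (n + 2)} {a b a' b' : ℤ}
    (hg : Adm (n + 2) g) (rg : IsRest (hc (n + 1)) g)
    (h : Typ n (fun u => F.Rf u (hc (n + 1))) a b) (h' : Typ n g a' b') :
    Typ n (fun u => F.Rf (us u (4 * u 1 + 3)) (g (us u (-16 * u 1 + -1)))) (a - a') (b - b') := by
  have h1 := Typ.cat (hc (n + 1)) (adm_frame F)
    (g := GS_808.rev g) ⟨?_, fun u => hg.ne _, fun u hu => hg.hor _ ?_⟩ (rest_frame F _) ?_ h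
    (Typ.rev (hc (n + 1)) hg rg h')
  · rw [← sub_eq_add_neg, ← sub_eq_add_neg] at h1
    refine h1.congr ⟨fun q => F.Rf (us q.2 (ln 2 1 4 3 q.1 (q.2 1)))
      (g (us q.2 (ln (-2) 1 (-16) (-1) q.1 (q.2 1)))), ?_, fun t ht u _ => ?_, fun t ht u hu => ?_,
      fun u _ => ?_, fun u _ => ?_⟩
    · exact (F.c_Rf.comp ((continuous_ln 2 1 4 3).prodMk
        (hg.cont.comp (continuous_ln (-2) 1 (-16) (-1))))).continuousOn
    · rw [← norm_ne_zero_iff, LinearIsometryEquiv.norm_map, norm_ne_zero_iff]; exact hg.ne _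
    · exact frame_e F (okL.norm ht hu) (hg.hor _ (okM.norm ht hu))
    · show F.Rf (us u (ln 2 1 4 3 0 (u 1))) (g (us u (ln (-2) 1 (-16) (-1) 0 (u 1)))) = _
      rw [ln_zero, ln_zero]
      unfold GS_808.cat
      split_ifs with hu
      · rw [rg _ (rest_us u (le_abs_of_le (by linarith)))]; rfl
      · rw [F.rest _ (rest_us u (le_abs_of_le (by linarith)))]
        have e1 : blowR u 1 = 2 * u 1 - 1 := us_apply u _
        have e2 : Function.update (blowR u) 1 (-(blowR u 1)) = us u (-2 * u 1 + 1) := by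
          rw [e1]
          show us (us u (2 * u 1 - 1)) (-(2 * u 1 - 1)) = _
          rw [us_us]; congr 1; ring
        show g _ = g (Function.update (blowR u) 1 (-(blowR u 1)))
        rw [e2]
    · show F.Rf (us u (ln 2 1 4 3 1 (u 1))) (g (us u (ln (-2) 1 (-16) (-1) 1 (u 1)))) = _
      rw [ln_one, ln_one]
  · exact hg.cont.comp (continuous_id.update 1 (continuous_apply 1).neg)
  · exact norm_us u hu fun h => by rwa [abs_neg]
  · exact fun u hu => rg _ (rest_us_of u hu fun h => by rwa [abs_neg])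

/-- the same for normals. -/
theorem typN_frame (F : FrameD n) {g : Bc (n + 2) → Vc (n + 2)} {c c' : ℤ} (cg : Continuous g)
    (ng : ∀ u, g u ≠ 0) (wg : ∀ u, 1 ≤ ‖u‖ → g u = ec (n + 2))
    (h : TypN n (fun u => F.Rf u (ec (n + 2))) c) (h' : TypN n g c') :
    TypN n (fun u => F.Rf (us u (4 * u 1 + 3)) (g (us u (-16 * u 1 + -1)))) (c - c') := by
  have key : ∀ (u : Bc (n + 2)) {s : ℝ}, 1 ≤ |s| → 1 ≤ ‖us u s‖ := fun u s hs => by
    have := norm_le_pi_norm (us u s) 1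
    rw [us_apply, Real.norm_eq_abs] at this
    linarith
  have h1 := TypN.cat (f := fun u => F.Rf u (ec (n + 2))) (g := GS_808.rev g)
    (F.c_Rf.comp (continuous_id.prodMk continuous_const)) ?_
    (fun u => by
      rw [← norm_ne_zero_iff, LinearIsometryEquiv.norm_map, norm_e]; exact one_ne_zero)
    (fun u => ng _) (fun u hu => F.wall u hu) (fun u hu => wg _ ?_) h (TypN.rev cg ng wg h')
  · rw [← sub_eq_add_neg] at h1
    refine h1.congr ⟨fun q => F.Rf (us q.2 (ln 2 1 4 3 q.1 (q.2 1)))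
      (g (us q.2 (ln (-2) 1 (-16) (-1) q.1 (q.2 1)))), ?_, fun t ht u _ => ?_, fun t ht u hu => ?_,
      fun u _ => ?_, fun u _ => ?_⟩
    · exact (F.c_Rf.comp ((continuous_ln 2 1 4 3).prodMk
        (cg.comp (continuous_ln (-2) 1 (-16) (-1))))).continuousOn
    · rw [← norm_ne_zero_iff, LinearIsometryEquiv.norm_map, norm_ne_zero_iff]; exact ng _
    · show F.Rf (us u (ln 2 1 4 3 t (u 1))) (g (us u (ln (-2) 1 (-16) (-1) t (u 1)))) = _
      rw [wg _ (okM.norm ht hu), F.wall _ (okL.norm ht hu)]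
    · show F.Rf (us u (ln 2 1 4 3 0 (u 1))) (g (us u (ln (-2) 1 (-16) (-1) 0 (u 1)))) = _
      rw [ln_zero, ln_zero]
      unfold GS_808.cat
      split_ifs with hu
      · rw [wg _ (key u (le_abs_of_le (by linarith)))]; rfl
      · rw [F.rest _ (rest_us u (le_abs_of_le (by linarith)))]
        have e1 : blowR u 1 = 2 * u 1 - 1 := us_apply u _
        have e2 : Function.update (blowR u) 1 (-(blowR u 1)) = us u (-2 * u 1 + 1) := by
          rw [e1]
          show us (us u (2 * u 1 - 1)) (-(2 * u 1 - 1)) = _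
          rw [us_us]; congr 1; ring
        show g _ = g (Function.update (blowR u) 1 (-(blowR u 1)))
        rw [e2]
    · show F.Rf (us u (ln 2 1 4 3 1 (u 1))) (g (us u (ln (-2) 1 (-16) (-1) 1 (u 1)))) = _
      rw [ln_one, ln_one]
  · exact cg.comp (continuous_id.update 1 (continuous_apply 1).neg)
  · exact norm_us u hu fun h => by rwa [abs_neg]

/-- shrinking one strand: `x - y ~ -y'`. -/
theorem fh_shrink {x y y' : Bc (n + 2) → Vc (n + 2)} (cx : Continuous x) (cy : Continuous y)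
    (cy' : Continuous y') (hx : ∀ u, ‖u‖ = 1 → ⟪ec (n + 2), x u⟫ = 0)
    (hy : ∀ u, ‖u‖ = 1 → ⟪ec (n + 2), y u⟫ = 0) (hy' : ∀ u, ‖u‖ = 1 → ⟪ec (n + 2), y' u⟫ = 0)
    (h1 : ∀ u, ‖u‖ ≤ 1 → ∀ t ∈ Icc (0 : ℝ) 1, x u ≠ (1 - t) • y u + t • y' u)
    (h2 : ∀ u, ‖u‖ ≤ 1 → ∀ t ∈ Icc (0 : ℝ) 1, (1 - t) • x u ≠ y' u) :
    FH (ec (n + 2)) (fun u => x u - y u) (fun u => -(y' u)) := by
  refine IsotB_92.FH.trans (g := fun u => x u - y' u)
    (fh_of_segment (cx.sub cy).continuousOn (cx.sub cy').continuousOn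
      (fun u hu => by rw [inner_sub_right, hx u hu, hy u hu, sub_zero])
      (fun u hu => by rw [inner_sub_right, hx u hu, hy' u hu, sub_zero]) fun u hu t ht => ?_)
    (fh_of_segment (cx.sub cy').continuousOn cy'.neg.continuousOn
      (fun u hu => by rw [inner_sub_right, hx u hu, hy' u hu, sub_zero])
      (fun u hu => by rw [inner_neg_right, hy' u hu, neg_zero]) fun u hu t ht => ?_)
  · have e : (1 - t) • (x u - y u) + t • (x u - y' u)
        = x u - ((1 - t) • y u + t • y' u) := by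
      simp only [smul_sub, sub_smul, one_smul]; abel
    rw [e]
    exact sub_ne_zero.2 (h1 u hu t ht)
  · have e : (1 - t) • (x u - y' u) + t • -(y' u) = (1 - t) • x u - y' u := by
      simp only [smul_sub, sub_smul, one_smul, smul_neg]; abel
    rw [e]
    exact sub_ne_zero.2 (h2 u hu t ht)

end Crest.Agent.R267.ClsB_253
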