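import Crest.Agent.R267.ClsB_253

/-!
# The data of the normal form (row 267, DRAFT B part 3, leaf T2-4)

`nfd P Q ..`: the strands of `Q` over `s ≤ -1/2`, those of `P` over `s ≥ 1/2`.
-/

set_option autoImplicit false

namespace Crest.Agent.R267.ClsC_253

open Set Metric
open scoped RealInnerProductSpace
open Crest.Agent.R267.GS_808 Crest.Agent.R267.DraftB_808 Crest.Agent.R267.NF_808
open Crest.Agent.R267.IsotB_92 Crest.Agent.R267.ClsA_253 Crest.Agent.R267.ClsB_253

variable {n m : ℕ} {i j : Fin m}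

lemma cont_us {φ : Bc (n + 2) → ℝ} (h : Continuous φ) : Continuous fun u => us u (φ u) :=
  continuous_id.update 1 h

lemma cont1 : Continuous fun u : Bc (n + 2) => u 1 := continuous_apply 1

lemma le_norm_us (u : Bc (n + 2)) {s : ℝ} (hs : 1 ≤ |s|) : 1 ≤ ‖us u s‖ := by
  have := norm_le_pi_norm (us u s) 1
  rw [us_apply, Real.norm_eq_abs] at this
  linarith

lemma absL {s : ℝ} (h : 1 ≤ |s|) : 1 ≤ |4 * s + 3| := by
  rcases le_total 0 s with h0 | h0
  · rw [abs_of_nonneg h0] at h; exact le_abs_of_le (by linarith)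
  · rw [abs_of_nonpos h0] at h; exact le_abs_of_le_neg (by linarith)

lemma absR {s : ℝ} (h : 1 ≤ |s|) : 1 ≤ |4 * s - 3| := by
  rcases le_total 0 s with h0 | h0
  · rw [abs_of_nonneg h0] at h; exact le_abs_of_le (by linarith)
  · rw [abs_of_nonpos h0] at h; exact le_abs_of_le_neg (by linarith)

/-- joined strands. -/
noncomputable def yy (P Q : OthD n m j) (k : Fin m) (u : Bc (n + 2)) : Vc (n + 2) :=
  Q.y k (us u (4 * u 1 + 3)) + P.y k (us u (4 * u 1 - 3)) - P.p k

/-- joined normals. -/
noncomputable def NN (P Q : OthD n m j) (k : Fin m) (u : Bc (n + 2)) : Vc (n + 2) :=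
  Q.N k (us u (4 * u 1 + 3)) + P.N k (us u (4 * u 1 - 3)) - ec (n + 2)

variable (P Q : OthD n m j)

lemma pj : P.p j = 0 := by
  rw [← P.rest_y j (us 0 1) (rest_us 0 (by simp))]; exact P.yj _

lemma yy_left (k : Fin m) {u : Bc (n + 2)} (hu : u 1 ≤ 1 / 2) :
    yy P Q k u = Q.y k (us u (4 * u 1 + 3)) := by
  unfold yy
  rw [P.rest_y k _ (rest_us u (le_abs_of_le_neg (by linarith))), add_sub_cancel_right]

lemma yy_right (hp : Q.p = P.p) (k : Fin m) {u : Bc (n + 2)} (hu : -(1 / 2) ≤ u 1) :
    yy P Q k u = P.y k (us u (4 * u 1 - 3)) := by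
  unfold yy
  rw [Q.rest_y k _ (rest_us u (le_abs_of_le (by linarith))), hp, add_sub_cancel_left]

lemma NN_left (k : Fin m) {u : Bc (n + 2)} (hu : u 1 ≤ 1 / 2) :
    NN P Q k u = Q.N k (us u (4 * u 1 + 3)) := by
  unfold NN
  rw [P.rest_N k _ (rest_us u (le_abs_of_le_neg (by linarith))), add_sub_cancel_right]

lemma NN_right (k : Fin m) {u : Bc (n + 2)} (hu : -(1 / 2) ≤ u 1) :
    NN P Q k u = P.N k (us u (4 * u 1 - 3)) := by
  unfold NN
  rw [Q.rest_N k _ (rest_us u (le_abs_of_le (by linarith))), add_sub_cancel_left]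

/-- the joined system of other strands. -/
noncomputable def oth (hp : Q.p = P.p) : OthD n m j where
  y := yy P Q
  N := NN P Q
  p := P.p
  c_y k := (((Q.c_y k).comp (cont_us ((continuous_const.mul cont1).add continuous_const))).add
    ((P.c_y k).comp (cont_us ((continuous_const.mul cont1).sub continuous_const)))).sub
    continuous_const
  c_N k := (((Q.c_N k).comp (cont_us ((continuous_const.mul cont1).add continuous_const))).add
    ((P.c_N k).comp (cont_us ((continuous_const.mul cont1).sub continuous_const)))).sub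
    continuous_const
  n_N k u := by
    rcases le_total 0 (u 1) with h | h
    · rw [NN_right P Q k (by linarith), P.n_N]
    · rw [NN_left P Q k (by linarith), Q.n_N]
  yj u := by
    rcases le_total 0 (u 1) with h | h
    · rw [yy_right P Q hp j (by linarith), P.yj]
    · rw [yy_left P Q j (by linarith), Q.yj]
  sep k l u hkl := by
    rcases le_total 0 (u 1) with h | h
    · rw [yy_right P Q hp k (by linarith), yy_right P Q hp l (by linarith)]; exact P.sep k l _ hkl
    · rw [yy_left P Q k (by linarith), yy_left P Q l (by linarith)]; exact Q.sep k l _ hkl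
  far k u hk := by
    rcases le_total 0 (u 1) with h | h
    · rw [yy_right P Q hp k (by linarith)]; exact P.far k _ hk
    · rw [yy_left P Q k (by linarith)]; exact Q.far k _ hk
  p_e := P.p_e
  p_h := P.p_h
  p_norm := P.p_norm
  rest_y k u hu := by
    show yy P Q k u = P.p k
    unfold yy
    rw [Q.rest_y k _ (rest_us_of u hu absL), P.rest_y k _ (rest_us_of u hu absR), hp,
      add_sub_cancel_right]
  rest_N k u hu := by
    show NN P Q k u = _
    unfold NN
    rw [Q.rest_N k _ (rest_us_of u hu absL), P.rest_N k _ (rest_us_of u hu absR),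
      add_sub_cancel_right]
  wall_y k u hu := by
    unfold yy
    rw [inner_sub_right, inner_add_right, Q.wall_y k _ (norm_us u hu absL),
      P.wall_y k _ (norm_us u hu absR), P.p_e k]
    simp
  wall_N k u hu := by
    unfold NN
    rw [Q.wall_N k _ (norm_us u hu absL), P.wall_N k _ (norm_us u hu absR), add_sub_cancel_right]

/-- the frame supported in `s ≤ -1/2`. -/
noncomputable def frm (F : FrameD n) : FrameD n where
  Rf u := F.Rf (us u (4 * u 1 + 3))
  c_Rf := by
    have h : Continuous fun u : Bc (n + 2) => us u (4 * u 1 + 3) :=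
      cont_us ((continuous_const.mul cont1).add continuous_const)
    exact F.c_Rf.comp ((h.comp continuous_fst).prodMk continuous_snd)
  c_Rf' := by
    have h : Continuous fun u : Bc (n + 2) => us u (4 * u 1 + 3) :=
      cont_us ((continuous_const.mul cont1).add continuous_const)
    exact F.c_Rf'.comp ((h.comp continuous_fst).prodMk continuous_snd)
  rest u hu := F.rest _ (rest_us_of u hu absL)
  wall u hu := F.wall _ (norm_us u hu absL)

lemma frm_refl (F : FrameD n) {u : Bc (n + 2)} (hu : -(1 / 2) ≤ u 1) :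
    (frm F).Rf u = LinearIsometryEquiv.refl ℝ _ :=
  F.rest _ (rest_us u (le_abs_of_le (by linarith)))

/-- **the data.** -/
noncomputable def nfd (hp : Q.p = P.p) (D : PathD n) (F : FrameD n) (hij : i ≠ j) :
    NFD n m i j where
  toOthD := oth P Q hp
  P := D
  F := frm F
  hij := hij
  mid_y k u hu := by
    rw [abs_le] at hu
    show yy P Q k u = P.p k
    rw [yy_left P Q k hu.2, Q.rest_y k _ (rest_us u (le_abs_of_le (by linarith [hu.1]))), hp]
  mid_N k u hu := by
    rw [abs_le] at hu
    show NN P Q k u = _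
    rw [NN_left P Q k hu.2, Q.rest_N k _ (rest_us u (le_abs_of_le (by linarith [hu.1])))]
  mid_F u hu := frm_refl F (by rw [abs_le] at hu; exact hu.1)

lemma fr_eq (hp : Q.p = P.p) (D : PathD n) (F : FrameD n) (hij : i ≠ j) (u : Bc (n + 2)) :
    fr (nfd P Q hp D F hij) u = LinearIsometryEquiv.refl ℝ _ := by
  unfold fr
  split_ifs with h
  · exact frm_refl F (by linarith)
  · rfl

lemma fl_eq (hp : Q.p = P.p) (D : PathD n) (F : FrameD n) (hij : i ≠ j) (u : Bc (n + 2)) :
    fl (nfd P Q hp D F hij) u = F.Rf (us u (4 * u 1 + 3)) := by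
  unfold fl
  split_ifs with h
  · rfl
  · exact (F.rest _ (rest_us u (le_abs_of_le (by linarith)))).symm

/-! ### the radius function -/

lemma rp_pos (rho R1 s : ℝ) : 0 < rp rho R1 s := Real.exp_pos _

lemma continuous_rp (rho R1 : ℝ) : Continuous (rp rho R1) := by
  unfold rp
  fun_prop

lemma rp_le {rho R1 s : ℝ} (h0 : 0 < rho) (h1 : rho < 1 / 4) (h2 : 1 < R1) (h3 : rho * R1 < 1 / 16)
    (hs : 0 ≤ s) : rp rho R1 s ≤ 1 / 4 := by
  have l1 : Real.log rho ≤ Real.log (1 / 4) := Real.log_le_log h0 h1.le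
  have l2 : Real.log rho + Real.log R1 ≤ 2 * Real.log (1 / 4) := by
    rw [← Real.log_mul h0.ne' (by linarith)]
    have e : 2 * Real.log (1 / 4) = Real.log (1 / 16) := by
      rw [show (1 : ℝ) / 16 = (1 / 4) ^ 2 by norm_num, Real.log_pow]; norm_num
    rw [e]
    exact Real.log_le_log (mul_pos h0 (by linarith)) h3.le
  unfold rp
  rw [← Real.le_log_iff_exp_le (by norm_num)]
  set c := max (-(1 / 4)) (min (1 / 4) s) with hc
  have c0 : 0 ≤ c := le_max_of_le_right (le_min (by norm_num) hs)
  have c1 : c ≤ 1 / 4 := max_le (by norm_num) (min_le_left _ _)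
  nlinarith

lemma rp_eq {rho R1 s : ℝ} (h2 : 1 < R1) (hs : s ≤ -(1 / 4)) : rp rho R1 s = R1 := by
  unfold rp
  have e : max (-(1 / 4 : ℝ)) (min (1 / 4) s) = -(1 / 4) :=
    max_eq_left ((min_le_right _ _).trans hs)
  rw [e]
  have e2 : (1 / 2 + 2 * -(1 / 4 : ℝ)) * Real.log rho + (1 / 2 - 2 * -(1 / 4)) * Real.log R1
      = Real.log R1 := by ring
  rw [e2, Real.exp_log (by linarith)]

/-! ### matrices -/

open Matrix in
lemma mul_Rm (A : Matrix (Fin m) (Fin m) ℤ) (r c : Fin m) :
    (A * T2alg1_684.Rm i j) r c = if c = i then A r j - A r i else A r c := by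
  rw [Matrix.mul_apply]
  simp only [T2alg1_684.Rm_apply]
  split_ifs with h
  · simp [mul_sub, Finset.sum_sub_distrib]
  · simp

open Matrix in
lemma RmT_mul (A : Matrix (Fin m) (Fin m) ℤ) (r c : Fin m) :
    ((T2alg1_684.Rm i j).transpose * A) r c = if r = i then A j c - A i c else A r c := by
  rw [Matrix.mul_apply]
  simp only [Matrix.transpose_apply, T2alg1_684.Rm_apply]
  split_ifs with h
  · simp [sub_mul, Finset.sum_sub_distrib]
  · simp

end Crest.Agent.R267.ClsC_253
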