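import Crest.Agent.R267.ClsC_253

/-!
# Differences of strands for T2-4 (row 267, DRAFT B part 3, task 439)
-/

set_option autoImplicit false

namespace Crest.Agent.R267.ClsD_253

open Set Metric
open scoped RealInnerProductSpace
open Crest.Agent.R267.GS_808 Crest.Agent.R267.DraftB_808 Crest.Agent.R267.NF_808
open Crest.Agent.R267.IsotB_92 Crest.Agent.R267.ClsA_253 Crest.Agent.R267.ClsB_253
open Crest.Agent.R267.ClsC_253

variable {n m : ℕ} {i j : Fin m}

/-! ### differences of a system -/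

lemma ne_of_sep (G : S n m) {k l : Fin m} (hkl : k ≠ l) (u : Bc (n + 2)) : G.x k u ≠ G.x l u := by
  intro h
  have h1 := G.sep k l u hkl
  rw [h, sub_self, norm_zero] at h1
  linarith [G.hr]

lemma adm_sub (G : S n m) {k l : Fin m} (hkl : k ≠ l) :
    Adm (n + 2) fun u => G.x k u - G.x l u where
  cont := (G.cx k).sub (G.cx l)
  ne u := sub_ne_zero.2 (ne_of_sep G hkl u)
  hor u hu := by rw [inner_sub_right, G.wall_x k u hu, G.wall_x l u hu, sub_zero]

lemma fh_refl' {f : Bc (n + 2) → Vc (n + 2)} (hf : Adm (n + 2) f) : FH (ec (n + 2)) f f :=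
  fh_refl hf.cont.continuousOn (fun u _ => hf.ne u) fun u hu => hf.hor u hu.ge

lemma typ_of_eq {f g : Bc (n + 2) → Vc (n + 2)} {a b : ℤ} (hg : Adm (n + 2) g) (h : Typ n f a b)
    (he : ∀ u, ‖u‖ ≤ 1 → g u = f u) : Typ n g a b :=
  h.congr (IsotB_92.FH.congr (fh_refl' hg) he fun _ _ => rfl)

lemma typN_of_eq {f g : Bc (n + 2) → Vc (n + 2)} {c : ℤ} (cg : Continuous g) (hg : ∀ u, g u ≠ 0)
    (wg : ∀ u, 1 ≤ ‖u‖ → g u = ec (n + 2)) (h : TypN n f c) (he : ∀ u, ‖u‖ ≤ 1 → g u = f u) :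
    TypN n g c :=
  h.congr (IsotB_92.FN.congr (fn_refl cg.continuousOn (fun u _ => hg u) fun u hu => wg u hu.ge) he
    fun _ _ => rfl)

lemma typN_sys (G : S n m) (k : Fin m) {f : Bc (n + 2) → Vc (n + 2)} {c : ℤ} (h : TypN n f c)
    (he : ∀ u, ‖u‖ ≤ 1 → G.nu k u = f u) : TypN n (G.nu k) c :=
  typN_of_eq (G.cnu k)
    (fun u => by rw [← norm_ne_zero_iff, G.norm_nu]; exact one_ne_zero) (G.wall_nu k) h he

theorem hasMat_of (G : S n m) (B : Matrix (Fin m) (Fin m) ℤ) (i : Fin m)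
    (h1 : ∀ k l, k ≠ i → l ≠ i → k ≠ l → Typ n (fun u => G.x k u - G.x l u) (B k l) (B l k))
    (h2 : ∀ k, k ≠ i → Typ n (fun u => G.x i u - G.x k u) (B i k) (B k i))
    (h3 : ∀ k, TypN n (G.nu k) (B k k)) : HasMat G B := by
  refine ⟨fun k l hkl => ?_, h3⟩
  by_cases hk : k = i
  · subst hk; exact h2 l hkl.ne
  · by_cases hl : l = i
    · subst hl
      have := typ_neg (h2 k hk)
      simpa only [neg_sub] using this
    · exact h1 k l hk hl hkl.ne'

/-! ### the other strands -/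

lemma adm_oth (P : OthD n m j) {k l : Fin m} (hkl : k ≠ l) :
    Adm (n + 2) fun u => P.y k u - P.y l u where
  cont := (P.c_y k).sub (P.c_y l)
  ne u := sub_ne_zero.2 (P.sep k l u hkl)
  hor u hu := by rw [inner_sub_right, P.wall_y k u hu, P.wall_y l u hu, sub_zero]

lemma rest_oth (P : OthD n m j) (k l : Fin m) : IsRest (P.p k - P.p l) fun u => P.y k u - P.y l u :=
  fun u hu => by
    show P.y k u - P.y l u = _
    rw [P.rest_y k u hu, P.rest_y l u hu]

lemma typ_all {P : OthD n m j} {A : Matrix (Fin m) (Fin m) ℤ}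
    (h : ∀ k l, l < k → Typ n (fun u => P.y k u - P.y l u) (A k l) (A l k)) {k l : Fin m}
    (hkl : k ≠ l) : Typ n (fun u => P.y k u - P.y l u) (A k l) (A l k) := by
  rcases lt_or_gt_of_ne hkl with h1 | h1
  · have := typ_neg (h l k h1)
    simpa only [neg_sub] using this
  · exact h k l h1

theorem typ_yy {P Q : OthD n m j} (hp : Q.p = P.p) {A A' : Matrix (Fin m) (Fin m) ℤ}
    (hP : ∀ k l, l < k → Typ n (fun u => P.y k u - P.y l u) (A k l) (A l k))
    (hQ : ∀ k l, l < k → Typ n (fun u => Q.y k u - Q.y l u) (A' k l) (A' l k)) {k l : Fin m}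
    (hkl : k ≠ l) :
    Typ n (fun u => yy P Q k u - yy P Q l u) (A' k l + A k l) (A' l k + A l k) := by
  have h := typ_join (P.p k - P.p l) (adm_oth Q hkl) (adm_oth P hkl) (hp ▸ rest_oth Q k l)
    (rest_oth P k l) (typ_all hQ hkl) (typ_all hP hkl)
  have e : (fun u => yy P Q k u - yy P Q l u) = fun u : Bc (n + 2) =>
      Q.y k (us u (4 * u 1 + 3)) - Q.y l (us u (4 * u 1 + 3)) +
      (P.y k (us u (4 * u 1 - 3)) - P.y l (us u (4 * u 1 - 3))) - (P.p k - P.p l) := by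
    funext u
    unfold yy
    abel
  rw [e]
  exact h

theorem typN_NN {P Q : OthD n m j} {k : Fin m} {c c' : ℤ}
    (hP : TypN n (P.N k) c) (hQ : TypN n (Q.N k) c') : TypN n (NN P Q k) (c' + c) :=
  typN_join (Q.c_N k) (P.c_N k)
    (fun u => by rw [← norm_ne_zero_iff, Q.n_N]; exact one_ne_zero)
    (fun u => by rw [← norm_ne_zero_iff, P.n_N]; exact one_ne_zero) (Q.wall_N k) (P.wall_N k) hQ hP

lemma p_ne (P : OthD n m j) {k : Fin m} (hk : k ≠ j) : P.p k ≠ 0 := by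
  rw [← norm_ne_zero_iff]; linarith [P.p_norm k hk]

/-- the moving strand against another one: `x - y ~ -y'`. -/
theorem fh_pair (P : OthD n m j) {k : Fin m} (hk : k ≠ j) (G : S n m) (hki : k ≠ i) {R1 : ℝ}
    (hR : 1 < R1) {y' : Bc (n + 2) → Vc (n + 2)} (cy' : Continuous y')
    (hy' : ∀ u, ‖u‖ = 1 → ⟪ec (n + 2), y' u⟫ = 0)
    (h1 : ∀ u, ‖u‖ ≤ 1 → G.x k u = y' u ∨
      (G.x i u = R1 • hc (n + 1) ∧ ‖G.x k u‖ < R1 ∧ ‖y' u‖ < R1))
    (h2 : ∀ u, ‖u‖ ≤ 1 → (‖G.x i u‖ ≤ 1 / 4 ∧ 1 / 2 ≤ ‖y' u‖) ∨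
      ((∃ c : ℝ, G.x i u = c • hc (n + 1)) ∧ y' u = P.p k)) :
    FH (ec (n + 2)) (fun u => G.x i u - G.x k u) (fun u => -(y' u)) := by
  refine fh_shrink (G.cx i) (G.cx k) cy' (fun u hu => G.wall_x i u hu.ge)
    (fun u hu => G.wall_x k u hu.ge) hy' (fun u hu t ht => ?_) fun u hu t ht => ?_
  · rcases h1 u hu with h | ⟨h3, h4, h5⟩
    · rw [h, ← add_smul, sub_add_cancel, one_smul, ← h]
      exact (ne_of_sep G hki u).symm
    · intro h6
      have h7 : ‖G.x i u‖ = R1 := by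
        rw [h3, norm_smul, norm_h, mul_one, Real.norm_of_nonneg (by linarith)]
      have h8 : ‖(1 - t) • G.x k u + t • y' u‖ ≤ (1 - t) * ‖G.x k u‖ + t * ‖y' u‖ := by
        refine (norm_add_le _ _).trans ?_
        rw [norm_smul, norm_smul, Real.norm_of_nonneg ht.1,
          Real.norm_of_nonneg (by linarith [ht.2])]
      rw [← h6, h7] at h8
      have h9 : (1 - t) * ‖G.x k u‖ + t * ‖y' u‖ < R1 := by
        rcases eq_or_lt_of_le ht.1 with h10 | h10
        · rw [← h10]; linarith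
        · nlinarith [mul_lt_mul_of_pos_left h5 h10,
            mul_le_mul_of_nonneg_left h4.le (by linarith [ht.2] : (0 : ℝ) ≤ 1 - t)]
      linarith
  · rcases h2 u hu with ⟨h3, h4⟩ | ⟨⟨c, h3⟩, h4⟩
    · intro h6
      have h7 : ‖(1 - t) • G.x i u‖ ≤ 1 / 4 := by
        rw [norm_smul, Real.norm_of_nonneg (by linarith [ht.2])]
        nlinarith [norm_nonneg (G.x i u), ht.1, ht.2]
      rw [h6] at h7
      linarith
    · intro h6
      rw [h3, h4] at h6
      have h7 : ⟪(1 - t) • c • hc (n + 1), P.p k⟫ = ⟪P.p k, P.p k⟫ := by rw [h6]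
      rw [inner_smul_left, inner_smul_left, P.p_h k, real_inner_self_eq_norm_sq] at h7
      have := norm_pos_iff.2 (p_ne P hk)
      rw [mul_zero, mul_zero] at h7
      nlinarith

lemma adm_path (D : PathD n) : Adm (n + 2) D.om :=
  ⟨D.c_om, fun u => by rw [← norm_ne_zero_iff, D.n_om]; exact one_ne_zero, D.wall_om⟩

lemma norm_refl {w v : Vc (n + 2)} (hw : ‖w‖ = 1) : ‖NF_808.refl w v‖ = ‖v‖ := by
  have h : ‖NF_808.refl w v‖ ^ 2 = ‖v‖ ^ 2 := by
    unfold NF_808.refl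
    rw [norm_sub_sq_real, inner_smul_right, norm_smul, hw, Real.norm_eq_abs, mul_one, sq_abs]
    ring
  exact (sq_eq_sq₀ (norm_nonneg _) (norm_nonneg _)).1 h

end Crest.Agent.R267.ClsD_253
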