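import Crest.Agent.R267.BallExt_88

/-!
Fibrewise trivialisation of a finite family of disjoint moving points over a ball.
-/

set_option autoImplicit false
set_option linter.unusedSectionVars false
open Topology Filter Set Module

namespace Crest.Agent.R267.Triv_88

open BallExt_88

/-- Parametrised inverse of a small Lipschitz perturbation of the identity. -/
theorem exists_param_inverse {X E : Type*} [TopologicalSpace X] [NormedAddCommGroup E]
    [NormedSpace ℝ E] [CompleteSpace E] (φ : X → E → E) (hφ : Continuous (Function.uncurry φ))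
    (hL : ∀ x, LipschitzWith (1/2) (φ x)) :
    ∃ Ψ : X → E → E, Continuous (Function.uncurry Ψ) ∧ (∀ x y, Ψ x (y + φ x y) = y) ∧
      (∀ x z, Ψ x z + φ x (Ψ x z) = z) := by
  have hsurj : ∀ x z, ∃ y, y + φ x y = z := by
    intro x z
    have hc : ContractingWith (1/2) (fun y => z - φ x y) := by
      refine ⟨by norm_num, ?_⟩
      have := (LipschitzWith.const z).sub (hL x)
      simpa using this
    refine ⟨hc.fixedPoint _, ?_⟩
    have := hc.fixedPoint_isFixedPt
    unfold Function.IsFixedPt at this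
    beta_reduce at this
    exact eq_sub_iff_add_eq.1 this.symm
  choose Ψ hΨ using hsurj
  have hest : ∀ x y y', ‖y - y'‖ ≤ 2 * ‖(y + φ x y) - (y' + φ x y')‖ := by
    intro x y y'
    have h1 : ‖φ x y - φ x y'‖ ≤ 1/2 * ‖y - y'‖ := by
      have := (hL x).dist_le_mul y y'
      rw [dist_eq_norm, dist_eq_norm] at this
      simpa using this
    have h2 : y - y' = ((y + φ x y) - (y' + φ x y')) - (φ x y - φ x y') := by abel
    have h3 : ‖y - y'‖ ≤ ‖(y + φ x y) - (y' + φ x y')‖ + ‖φ x y - φ x y'‖ := by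
      conv_lhs => rw [h2]
      exact norm_sub_le _ _
    linarith
  refine ⟨Ψ, ?_, ?_, hΨ⟩
  · rw [continuous_iff_continuousAt]
    rintro ⟨x0, z0⟩
    rw [ContinuousAt, tendsto_iff_norm_sub_tendsto_zero]
    have hbound : ∀ p : X × E, ‖Function.uncurry Ψ p - Function.uncurry Ψ (x0, z0)‖ ≤
        2 * ‖p.2 - (Ψ x0 z0 + φ p.1 (Ψ x0 z0))‖ := by
      rintro ⟨x, z⟩
      have := hest x (Ψ x z) (Ψ x0 z0)
      rw [hΨ] at this
      exact this
    refine squeeze_zero (fun _ => norm_nonneg _) hbound ?_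
    have hcont : Continuous (fun p : X × E => 2 * ‖p.2 - (Ψ x0 z0 + φ p.1 (Ψ x0 z0))‖) := by
      have : Continuous (fun p : X × E => φ p.1 (Ψ x0 z0)) :=
        hφ.comp (continuous_fst.prodMk continuous_const)
      fun_prop
    have h0 := hcont.tendsto (x0, z0)
    simpa [hΨ] using h0
  · intro x y
    have := hest x (Ψ x (y + φ x y)) y
    rw [hΨ, sub_self, norm_zero, mul_zero] at this
    exact sub_eq_zero.1 (norm_le_zero_iff.1 this)

variable {V E : Type*} [NormedAddCommGroup V] [NormedSpace ℝ V]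
  [NormedAddCommGroup E] [NormedSpace ℝ E]

/-- the bump at `a` of radius `r` -/
noncomputable def bump (r : ℝ) (a y : E) : ℝ := max 0 (1 - r⁻¹ * ‖y - a‖)

theorem bump_self (r : ℝ) (a : E) : bump r a a = 1 := by simp [bump]

theorem bump_of_le {r : ℝ} (hr : 0 < r) {a y : E} (h : r ≤ ‖y - a‖) : bump r a y = 0 := by
  unfold bump
  rw [max_eq_left]
  have : 1 ≤ r⁻¹ * ‖y - a‖ := by
    rw [← div_eq_inv_mul, one_le_div hr]; exact h
  linarith

theorem abs_bump_sub (r : ℝ) (hr : 0 < r) (a y y' : E) :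
    |bump r a y - bump r a y'| ≤ r⁻¹ * ‖y - y'‖ := by
  unfold bump
  have h1 : |max 0 (1 - r⁻¹ * ‖y - a‖) - max 0 (1 - r⁻¹ * ‖y' - a‖)| ≤
      |(1 - r⁻¹ * ‖y - a‖) - (1 - r⁻¹ * ‖y' - a‖)| := by
    have := abs_max_sub_max_le_abs (1 - r⁻¹ * ‖y - a‖) (1 - r⁻¹ * ‖y' - a‖) 0
    rwa [max_comm _ 0, max_comm _ 0] at this
  refine h1.trans ?_
  have : (1 - r⁻¹ * ‖y - a‖) - (1 - r⁻¹ * ‖y' - a‖) = r⁻¹ * (‖y' - a‖ - ‖y - a‖) := by ring
  rw [this, abs_mul, abs_of_pos (inv_pos.2 hr)]
  gcongr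
  have := abs_norm_sub_norm_le (y' - a) (y - a)
  rw [sub_sub_sub_cancel_right] at this
  rwa [norm_sub_rev y' y] at this

/-- Trivialisation. -/
theorem exists_triv [FiniteDimensional ℝ V] [CompleteSpace E] {ι : Type*} [Fintype ι]
    (P : ι → V → E) (hP : ∀ j, Continuous (P j))
    (hne : ∀ x, ‖x‖ ≤ 1 → ∀ i j, i ≠ j → P i x ≠ P j x) :
    ∃ Θ Ψ : V → E → E, Continuous (Function.uncurry Θ) ∧ Continuous (Function.uncurry Ψ) ∧
      (∀ x y, Ψ x (Θ x y) = y) ∧ (∀ x y, Θ x (Ψ x y) = y) ∧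
      (∀ x, ‖x‖ ≤ 1 → ∀ j, Θ x (P j x) = P j 0) := by
  classical
  -- minimal distance
  obtain ⟨d, hd, hdist⟩ : ∃ d : ℝ, 0 < d ∧ ∀ x, ‖x‖ ≤ 1 → ∀ i j, i ≠ j → d ≤ ‖P i x - P j x‖ := by
    have hone : ∀ z : ι × ι, ∃ d : ℝ, 0 < d ∧ ∀ x, ‖x‖ ≤ 1 → z.1 ≠ z.2 →
        d ≤ ‖P z.1 x - P z.2 x‖ := by
      rintro ⟨i, j⟩
      by_cases hij : i = j
      · exact ⟨1, one_pos, fun x _ h => absurd hij h⟩
      · have hc : Continuous (fun x => ‖P i x - P j x‖) := ((hP i).sub (hP j)).norm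
        obtain ⟨x0, hx0, hmin⟩ := (isCompact_closedBall (0:V) 1).exists_isMinOn
          ⟨0, by simp⟩ hc.continuousOn
        refine ⟨‖P i x0 - P j x0‖, ?_, fun x hx _ => hmin (by simpa using hx)⟩
        rw [norm_pos_iff, sub_ne_zero]
        exact hne x0 (by simpa using hx0) i j hij
    choose D hD hD' using hone
    rcases isEmpty_or_nonempty ι with hι | hι
    · exact ⟨1, one_pos, fun x _ i => (hι.false i).elim⟩
    · obtain ⟨z0, hz0⟩ := Finite.exists_min D
      exact ⟨D z0, hD z0, fun x hx i j hij => (hz0 (i, j)).trans (hD' (i, j) x hx hij)⟩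
  -- step size
  set r : ℝ := d / 2 with hr
  have hrpos : 0 < r := by positivity
  set η : ℝ := r / (2 * (Fintype.card ι + 1)) with hη
  have hηpos : 0 < η := by positivity
  have hηr : (Fintype.card ι : ℝ) * (r⁻¹ * η) ≤ 1/2 := by
    have hc : (0:ℝ) ≤ Fintype.card ι := by positivity
    rw [hη]
    have : (Fintype.card ι : ℝ) * (r⁻¹ * (r / (2 * (Fintype.card ι + 1)))) =
      (Fintype.card ι : ℝ) / (2 * (Fintype.card ι + 1)) := by
      field_simp
    rw [this, div_le_div_iff₀ (by positivity) (by norm_num)]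
    linarith
  -- uniform continuity
  obtain ⟨N, hN, hNs⟩ : ∃ N : ℕ, 0 < N ∧ ∀ x, ‖x‖ ≤ 1 → ∀ s t : ℝ, s ∈ Icc (0:ℝ) 1 → t ∈ Icc (0:ℝ) 1 →
      |s - t| ≤ 1 / N → ∀ j, ‖P j (s • x) - P j (t • x)‖ ≤ η := by
    have huc : ∀ j, ∃ δ > 0, ∀ x, ‖x‖ ≤ 1 → ∀ y, ‖y‖ ≤ 1 → ‖x - y‖ < δ → ‖P j x - P j y‖ ≤ η := by
      intro j
      have h1 := (isCompact_closedBall (0:V) 1).uniformContinuousOn_of_continuous (hP j).continuousOn
      rw [Metric.uniformContinuousOn_iff_le] at h1
      obtain ⟨δ, hδ, h2⟩ := h1 η hηpos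
      refine ⟨δ, hδ, fun x hx y hy hxy => ?_⟩
      have := h2 x (by simpa using hx) y (by simpa using hy) (by rw [dist_eq_norm]; exact hxy.le)
      rwa [dist_eq_norm] at this
    choose δ hδ hδ' using huc
    obtain ⟨δ0, hδ0, hδ0'⟩ : ∃ δ0 > 0, ∀ j, δ0 ≤ δ j := by
      rcases isEmpty_or_nonempty ι with hι | hι
      · exact ⟨1, one_pos, fun i => (hι.false i).elim⟩
      · obtain ⟨z0, hz0⟩ := Finite.exists_min δ
        exact ⟨δ z0, hδ z0, hz0⟩
    obtain ⟨N, hN⟩ := exists_nat_gt (1 / δ0)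
    have hNpos : (0:ℝ) < N := lt_trans (by positivity) hN
    refine ⟨N, by exact_mod_cast hNpos, fun x hx s t hs ht hst j => ?_⟩
    apply hδ' j
    · rw [norm_smul, Real.norm_of_nonneg hs.1]; exact mul_le_one₀ hs.2 (norm_nonneg _) hx
    · rw [norm_smul, Real.norm_of_nonneg ht.1]; exact mul_le_one₀ ht.2 (norm_nonneg _) hx
    · rw [← sub_smul, norm_smul, Real.norm_eq_abs]
      calc |s - t| * ‖x‖ ≤ (1 / N) * 1 := by gcongr
        _ < δ0 := by
          rw [mul_one, one_div_lt hNpos hδ0]; exact hN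
        _ ≤ δ j := hδ0' j
  -- one push
  have push : ∀ k : ℕ, k < N → ∃ Θ Ψ : V → E → E, Continuous (Function.uncurry Θ) ∧
      Continuous (Function.uncurry Ψ) ∧
      (∀ x y, Ψ x (Θ x y) = y) ∧ (∀ x y, Θ x (Ψ x y) = y) ∧
      (∀ x, ‖x‖ ≤ 1 → ∀ j, Θ x (P j (((k + 1 : ℕ) / N : ℝ) • x)) = P j ((k / N : ℝ) • x)) := by
    intro k hk
    have hNpos : (0:ℝ) < N := by exact_mod_cast hN
    have hs : ((k + 1 : ℕ) / N : ℝ) ∈ Icc (0:ℝ) 1 := by
      constructor
      · positivity
      · rw [div_le_one hNpos]; exact_mod_cast hk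
    have ht : (k / N : ℝ) ∈ Icc (0:ℝ) 1 := by
      constructor
      · positivity
      · rw [div_le_one hNpos]; exact_mod_cast hk.le
    let a : ι → V → E := fun j x => P j (((k + 1 : ℕ) / N : ℝ) • retr x)
    let b : ι → V → E := fun j x => P j ((k / N : ℝ) • retr x)
    have ha : ∀ j, Continuous (a j) := fun j => (hP j).comp (continuous_retr.const_smul _)
    have hb : ∀ j, Continuous (b j) := fun j => (hP j).comp (continuous_retr.const_smul _)
    have hab : ∀ j x, ‖b j x - a j x‖ ≤ η := by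
      intro j x
      refine hNs (retr x) (norm_retr_le x) _ _ ht hs ?_ j
      have : (k / N : ℝ) - ((k + 1 : ℕ) / N : ℝ) = -(1 / N) := by push_cast; ring
      rw [this, abs_neg, abs_of_pos (by positivity)]
    let φ : V → E → E := fun x y => ∑ j, bump r (a j x) y • (b j x - a j x)
    have hφ : Continuous (Function.uncurry φ) := by
      refine continuous_finsetSum _ fun j _ => ?_
      have h1 : Continuous (fun p : V × E => a j p.1) := (ha j).comp continuous_fst
      have h2 : Continuous (fun p : V × E => b j p.1) := (hb j).comp continuous_fst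
      unfold bump
      refine Continuous.smul ?_ (h2.sub h1)
      exact continuous_const.max (continuous_const.sub (continuous_const.mul
        (continuous_snd.sub h1).norm))
    have hL : ∀ x, LipschitzWith (1/2) (φ x) := by
      intro x
      refine LipschitzWith.of_dist_le_mul fun y y' => ?_
      rw [dist_eq_norm, dist_eq_norm]
      have h1 : φ x y - φ x y' = ∑ j, (bump r (a j x) y - bump r (a j x) y') • (b j x - a j x) := by
        simp only [φ, ← Finset.sum_sub_distrib, sub_smul]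
      rw [h1]
      calc ‖∑ j, (bump r (a j x) y - bump r (a j x) y') • (b j x - a j x)‖
          ≤ ∑ j, ‖(bump r (a j x) y - bump r (a j x) y') • (b j x - a j x)‖ := norm_sum_le _ _
        _ ≤ ∑ _j : ι, (r⁻¹ * ‖y - y'‖) * η := by
            refine Finset.sum_le_sum fun j _ => ?_
            rw [norm_smul, Real.norm_eq_abs]
            exact mul_le_mul (abs_bump_sub r hrpos _ _ _) (hab j x) (norm_nonneg _) (by positivity)
        _ = ((Fintype.card ι : ℝ) * (r⁻¹ * η)) * ‖y - y'‖ := by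
            rw [Finset.sum_const, Finset.card_univ, nsmul_eq_mul]; ring
        _ ≤ (1/2 : ℝ) * ‖y - y'‖ := by gcongr
        _ = _ := by simp
    obtain ⟨Ψ, hΨ, h1, h2⟩ := exists_param_inverse φ hφ hL
    refine ⟨fun x y => y + φ x y, Ψ, ?_, hΨ, h1, h2, ?_⟩
    · exact continuous_snd.add hφ
    · intro x hx j
      have e1 : P j (((k + 1 : ℕ) / N : ℝ) • x) = a j x := by simp only [a, retr_eq hx]
      have e2 : P j ((k / N : ℝ) • x) = b j x := by simp only [b, retr_eq hx]
      rw [e1, e2]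
      have : φ x (a j x) = b j x - a j x := by
        simp only [φ]
        rw [Finset.sum_eq_single j]
        · rw [bump_self, one_smul]
        · intro i _ hij
          rw [bump_of_le hrpos, zero_smul]
          have hn : ‖((k + 1 : ℕ) / N : ℝ) • retr x‖ ≤ 1 := by
            rw [norm_smul, Real.norm_of_nonneg hs.1]
            exact mul_le_one₀ hs.2 (norm_nonneg _) (norm_retr_le x)
          have := hdist _ hn j i (Ne.symm hij)
          have h3 : r ≤ d := by rw [hr]; linarith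
          exact h3.trans this
        · intro h; exact absurd (Finset.mem_univ j) h
      show a j x + φ x (a j x) = b j x
      rw [this]; abel
  -- composition
  have comp : ∀ k : ℕ, k ≤ N → ∃ Θ Ψ : V → E → E, Continuous (Function.uncurry Θ) ∧
      Continuous (Function.uncurry Ψ) ∧
      (∀ x y, Ψ x (Θ x y) = y) ∧ (∀ x y, Θ x (Ψ x y) = y) ∧
      (∀ x, ‖x‖ ≤ 1 → ∀ j, Θ x (P j ((k / N : ℝ) • x)) = P j 0) := by
    intro k
    induction k with
    | zero =>
      intro _
      exact ⟨fun _ y => y, fun _ y => y, continuous_snd, continuous_snd, fun _ _ => rfl,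
        fun _ _ => rfl, fun x _ j => by simp⟩
    | succ k ih =>
      intro hk
      obtain ⟨Θ, Ψ, h1, h2, h3, h4, h5⟩ := ih (by omega)
      obtain ⟨Θ', Ψ', h1', h2', h3', h4', h5'⟩ := push k (by omega)
      refine ⟨fun x y => Θ x (Θ' x y), fun x y => Ψ' x (Ψ x y), ?_, ?_, ?_, ?_, ?_⟩
      · exact h1.comp (continuous_fst.prodMk h1')
      · exact h2'.comp (continuous_fst.prodMk h2)
      · intro x y; show Ψ' x (Ψ x (Θ x (Θ' x y))) = y; rw [h3, h3']
      · intro x y; show Θ x (Θ' x (Ψ' x (Ψ x y))) = y; rw [h4', h4]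
      · intro x hx j; show Θ x (Θ' x _) = _; rw [h5' x hx j, h5 x hx j]
  obtain ⟨Θ, Ψ, h1, h2, h3, h4, h5⟩ := comp N le_rfl
  refine ⟨Θ, Ψ, h1, h2, h3, h4, fun x hx j => ?_⟩
  have := h5 x hx j
  rwa [div_self (by exact_mod_cast hN.ne'), one_smul] at this

end Crest.Agent.R267.Triv_88
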