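import Crest.Agent.R267.Wedge_88
import Crest.Agent.R267.Triv_88

/-!
# The extension theorem for configurations (node T1/K' of row 267)

`conf_ext`: let `V, E` be finite-dimensional real normed spaces with `dim V + 2 < 2 dim E`.
A system `g_0,…,g_{m-1}` of pairwise distinct continuous maps from the unit sphere of `V` to `E`
extends over the unit ball to a system of pairwise distinct maps as soon as every difference
`g_i - g_j` extends over the ball without zero.
-/

set_option autoImplicit false
set_option linter.unusedSectionVars false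
open Topology Filter Set Module

namespace Crest.Agent.R267.ConfExt_88

open BallExt_88 GenPos_88 Wedge_88 Triv_88

variable {V E : Type*} [NormedAddCommGroup V] [NormedSpace ℝ V] [FiniteDimensional ℝ V]
  [NormedAddCommGroup E] [NormedSpace ℝ E] [FiniteDimensional ℝ E]

/-- Extension of one more point, the first ones being already extended. -/
theorem ext_one {ι : Type*} [Fintype ι] (hd : finrank ℝ V + 2 < 2 * finrank ℝ E)
    (P : ι → V → E) (hP : ∀ j, Continuous (P j)) (hne : ∀ x, ∀ i j, i ≠ j → P i x ≠ P j x)
    {g : V → E} (hg : Continuous g)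
    (hext : ∀ j, BallExt (fun x => g x - P j x) {0}) :
    ∃ G : V → E, Continuous G ∧ (∀ x, ‖x‖ ≤ 1 → ∀ j, G x ≠ P j x) ∧ ∀ x, ‖x‖ = 1 → G x = g x := by
  classical
  obtain ⟨Θ, Ψ, hΘ, hΨ, h1, h2, h3⟩ := exists_triv P hP (fun x _ => hne x)
  have hΘc : ∀ {f : V → E}, Continuous f → Continuous (fun x => Θ x (f x)) := fun hf =>
    hΘ.comp (continuous_id.prodMk hf)
  have hΨc : ∀ {f : V → E}, Continuous f → Continuous (fun x => Ψ x (f x)) := fun hf =>
    hΨ.comp (continuous_id.prodMk hf)
  have hw : BallExt (fun x => Θ x (g x)) (Set.range (fun j => P j 0)) := by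
    apply wedge hd _ (Set.finite_range _)
    · rintro _ ⟨j, rfl⟩
      obtain ⟨D, hD, hD0, hDg⟩ := hext j
      refine ballExt_of_closedBall (A := fun x => Θ x (P j x + D x))
        (hΘc ((hP j).add hD)).continuousOn ?_ ?_
      · intro x hx hmem
        rw [mem_singleton_iff] at hmem
        beta_reduce at hmem
        rw [← h3 x hx j] at hmem
        have h4 : P j x + D x = P j x := by
          have := congrArg (Ψ x) hmem
          rwa [h1, h1] at this
        apply hD0 x
        rw [mem_singleton_iff]
        simpa using h4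
      · intro x hx
        show Θ x (P j x + D x) = Θ x (g x)
        rw [hDg x hx]; congr 1; exact add_sub_cancel _ _
    · exact hΘc hg
  obtain ⟨A, hA, hAP, hAg⟩ := hw
  refine ⟨fun x => Ψ x (A x), hΨc hA, ?_, ?_⟩
  · intro x hx j hx2
    apply hAP x
    refine ⟨j, ?_⟩
    have := congrArg (Θ x) hx2
    rw [h2, h3 x hx j] at this
    exact this.symm
  · intro x hx
    show Ψ x (A x) = g x
    rw [hAg x hx, h1]

theorem conf_ext_aux (hd : finrank ℝ V + 2 < 2 * finrank ℝ E) (m : ℕ) :
    ∀ (g : Fin m → V → E), (∀ i, Continuous (g i)) →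
    (∀ i j, i ≠ j → BallExt (fun x => g i x - g j x) {0}) →
    ∃ G : Fin m → V → E, (∀ i, Continuous (G i)) ∧ (∀ x, ∀ i j, i ≠ j → G i x ≠ G j x) ∧
      ∀ i, ∀ x, ‖x‖ = 1 → G i x = g i x := by
  induction m with
  | zero =>
    intro g _ _
    exact ⟨g, fun i => i.elim0, fun _ i => i.elim0, fun i => i.elim0⟩
  | succ m ih =>
    intro g hg hext
    obtain ⟨G, hG, hGne, hGg⟩ := ih (fun i => g i.castSucc) (fun i => hg _)
      (fun i j hij => hext _ _ (by simpa using hij))
    obtain ⟨H, hH, hHne, hHg⟩ := ext_one hd G hG hGne (hg (Fin.last m)) (fun j => by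
      refine (hext (Fin.last m) j.castSucc (Fin.castSucc_lt_last j).ne').congr fun x hx => ?_
      show g _ x - g _ x = g _ x - G j x
      rw [hGg j x hx])
    refine ⟨Fin.lastCases (fun x => H (retr x)) (fun i x => G i (retr x)), ?_, ?_, ?_⟩
    · intro i
      refine Fin.lastCases ?_ (fun i => ?_) i
      · simp only [Fin.lastCases_last]; exact hH.comp continuous_retr
      · simp only [Fin.lastCases_castSucc]; exact (hG i).comp continuous_retr
    · intro x i j
      refine Fin.lastCases ?_ (fun i => ?_) i
      · refine Fin.lastCases ?_ (fun j => ?_) j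
        · intro h; exact absurd rfl h
        · intro _; simp only [Fin.lastCases_last, Fin.lastCases_castSucc]
          exact hHne _ (norm_retr_le x) j
      · refine Fin.lastCases ?_ (fun j => ?_) j
        · intro _; simp only [Fin.lastCases_last, Fin.lastCases_castSucc]
          exact (hHne _ (norm_retr_le x) i).symm
        · intro h; simp only [Fin.lastCases_castSucc]
          exact hGne _ i j (by simpa using h)
    · intro i x hx
      refine Fin.lastCases ?_ (fun i => ?_) i
      · simp only [Fin.lastCases_last]; rw [retr_eq hx.le]; exact hHg x hx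
      · simp only [Fin.lastCases_castSucc]; rw [retr_eq hx.le]; exact hGg i x hx

/-- every continuous map on the unit sphere extends continuously to all of `V` (values in `E`). -/
theorem exists_cont_ext {g : V → E} (hg : ContinuousOn g (Metric.sphere 0 1)) :
    ∃ g' : V → E, Continuous g' ∧ ∀ x, ‖x‖ = 1 → g' x = g x := by
  refine ⟨fun x => ‖x‖ • g (‖x‖⁻¹ • x), ?_, fun x hx => by simp [hx]⟩
  obtain ⟨M, hM⟩ : ∃ M, ∀ x, ‖x‖ = 1 → ‖g x‖ ≤ M := by
    obtain ⟨M, hM⟩ := ((isCompact_sphere (0:V) 1).image_of_continuousOn hg).isBounded.exists_norm_le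
    exact ⟨M, fun x hx => hM _ ⟨x, by simpa using hx, rfl⟩⟩
  rw [continuous_iff_continuousAt]
  intro x
  by_cases hx : x = 0
  · subst hx
    rw [ContinuousAt, tendsto_iff_norm_sub_tendsto_zero]
    simp only [norm_zero, zero_smul, sub_zero]
    have hM0 : ∀ y : V, ‖‖y‖ • g (‖y‖⁻¹ • y)‖ ≤ ‖y‖ * |M| := by
      intro y
      by_cases hy : y = 0
      · simp [hy]
      · rw [norm_smul, norm_norm]
        gcongr
        refine (hM _ ?_).trans (le_abs_self M)
        rw [norm_smul, norm_inv, norm_norm, inv_mul_cancel₀ (norm_ne_zero_iff.2 hy)]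
    refine squeeze_zero (fun _ => norm_nonneg _) hM0 ?_
    have : Continuous (fun y : V => ‖y‖ * |M|) := by fun_prop
    have h := this.tendsto 0
    simpa using h
  · refine ContinuousAt.smul continuous_norm.continuousAt ?_
    have h1 : ContinuousOn (fun x : V => g (‖x‖⁻¹ • x)) ({0}ᶜ) := by
      refine hg.comp ?_ ?_
      · intro y hy
        refine ContinuousAt.continuousWithinAt ?_
        exact (ContinuousAt.inv₀ continuous_norm.continuousAt (by simpa using hy)).smul
          continuousAt_id
      · intro y hy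
        have hy' : y ≠ 0 := by simpa using hy
        simp [norm_smul, inv_mul_cancel₀ (norm_ne_zero_iff.2 hy')]
    exact h1.continuousAt (isOpen_compl_singleton.mem_nhds (by simpa using hx))

/-- **Extension theorem for configurations** (functions on the closed ball / sphere). -/
theorem conf_ext (hd : finrank ℝ V + 2 < 2 * finrank ℝ E) {m : ℕ} (g : Fin m → V → E)
    (hg : ∀ i, ContinuousOn (g i) (Metric.sphere 0 1))
    (hext : ∀ i j, i ≠ j → ∃ D : V → E, ContinuousOn D (Metric.closedBall 0 1) ∧
      (∀ x ∈ Metric.closedBall (0:V) 1, D x ≠ 0) ∧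
      ∀ x ∈ Metric.sphere (0:V) 1, D x = g i x - g j x) :
    ∃ G : Fin m → V → E, (∀ i, Continuous (G i)) ∧ (∀ x, ∀ i j, i ≠ j → G i x ≠ G j x) ∧
      ∀ i, ∀ x ∈ Metric.sphere (0:V) 1, G i x = g i x := by
  choose g' hg' hgg' using fun i => exists_cont_ext (hg i)
  obtain ⟨G, h1, h2, h3⟩ := conf_ext_aux hd m g' hg' (fun i j hij => by
    obtain ⟨D, hD, hD0, hDg⟩ := hext i j hij
    refine ballExt_of_closedBall hD (fun x hx => ?_) (fun x hx => ?_)
    · simpa using hD0 x (by simpa using hx)
    · rw [hDg x (by simpa using hx), hgg' i x hx, hgg' j x hx])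
  refine ⟨G, h1, h2, fun i x hx => ?_⟩
  have hx' : ‖x‖ = 1 := by simpa using hx
  rw [h3 i x hx', hgg' i x hx']

end Crest.Agent.R267.ConfExt_88
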