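import Crest.Agent.R267.Curve_867
import Crest.Agent.R267.T3aNDefs_88

/-!
# Row 267, T3aN: the curve with sign, the windows `winN`
-/

set_option autoImplicit false

noncomputable section

namespace Crest.Agent.R267.CurveN_867

open Finset T3aDefs_957 Calc_957 Curve_867 T3aNDefs_88

/-- **the curve with sign `e`**: position of the points with given tangent direction. -/
theorem curveN {u : ℂ} (hu : 0 < u.re) {e : ℝ} (he : e = 1 ∨ e = -1) {v : ℝ} (hv : |v| < 3)
    (h : u.re * Afd v + u.im * (e * Bfd v) = 0) :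
    (u.im = 0 ∧ Af v = 1) ∨ (u.im ≠ 0 ∧ ∀ ε : ℝ, (ε = 1 ∨ ε = -1) → u.im = ε * |u.im| →
      ((0 ≤ Af v ∧ Af v ≤ 1 ∧ 1 ≤ ε * (e * Bf v) ∧ ε * (e * Bf v) ≤ 13 / 8) ∨
       (-1 ≤ Af v ∧ Af v ≤ 0 ∧ 1 ≤ -(ε * (e * Bf v)) ∧ -(ε * (e * Bf v)) ≤ 13 / 8))) := by
  have he2 : e * e = 1 := by rcases he with h | h <;> rw [h] <;> norm_num
  have he3 : |e| = 1 := by rcases he with h | h <;> rw [h] <;> norm_num
  have hc := curve (u := ⟨u.re, e * u.im⟩) hu hv (by
    show u.re * Afd v + e * u.im * Bfd v = 0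
    linear_combination h)
  simp only at hc
  have e1 : |e * u.im| = |u.im| := by rw [abs_mul, he3, one_mul]
  rcases hc with ⟨h1, h2⟩ | ⟨h1, h2⟩
  · left
    refine ⟨?_, h2⟩
    have : e * (e * u.im) = 0 := by rw [h1, mul_zero]
    rw [← mul_assoc, he2, one_mul] at this
    exact this
  · right
    refine ⟨fun h3 => h1 (by rw [h3, mul_zero]), fun ε hε hε2 => ?_⟩
    have h3 := h2 (ε * e) (by
      rcases hε with h | h <;> rcases he with h' | h' <;> rw [h, h'] <;> norm_num) (by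
      rw [e1]
      calc e * u.im = e * (ε * |u.im|) := by rw [← hε2]
        _ = ε * e * |u.im| := by ring)
    rw [mul_assoc] at h3
    exact h3

/-! ### windows -/

/-- derivative of a window. -/
def wdN (m m' : ℕ) (τ : ℝ) : ℝ :=
  std ((τ - (16 * m - 1)) / 2) / 2 * (1 - st ((τ - (16 * m' - 1)) / 2)) -
    st ((τ - (16 * m - 1)) / 2) * (std ((τ - (16 * m' - 1)) / 2) / 2)

theorem hasDerivAt_winN (m m' : ℕ) (τ : ℝ) : HasDerivAt (winN m m') (wdN m m' τ) τ := by
  have e : ∀ a : ℝ, HasDerivAt (fun τ => st ((τ - a) / 2)) (std ((τ - a) / 2) / 2) τ := by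
    intro a
    have h1 : HasDerivAt (fun τ : ℝ => (τ - a) / 2) (1 / 2) τ :=
      ((hasDerivAt_id τ).sub_const a).div_const 2
    have h2 := (hasDerivAt_st ((τ - a) / 2)).comp τ h1
    refine h2.congr_deriv ?_
    ring
  have := (e (16 * m - 1)).mul ((e (16 * m' - 1)).const_sub 1)
  refine this.congr_deriv ?_
  unfold wdN
  ring

theorem winN_nonneg (m m' : ℕ) (τ : ℝ) : 0 ≤ winN m m' τ := by
  unfold winN
  exact mul_nonneg (st_nonneg _) (by linarith [Curve_867.st_le_one ((τ - (16 * m' - 1)) / 2)])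

theorem winN_le_one (m m' : ℕ) (τ : ℝ) : winN m m' τ ≤ 1 := by
  unfold winN
  have h1 := st_nonneg ((τ - (16 * m - 1)) / 2)
  have h2 := Curve_867.st_le_one ((τ - (16 * m - 1)) / 2)
  have h3 := st_nonneg ((τ - (16 * m' - 1)) / 2)
  have h4 := Curve_867.st_le_one ((τ - (16 * m' - 1)) / 2)
  exact mul_le_one₀ h2 (by linarith) (by linarith)

theorem abs_wdN_le (m m' : ℕ) (τ : ℝ) : |wdN m m' τ| ≤ 1 := by
  unfold wdN
  have h1 := st_nonneg ((τ - (16 * m - 1)) / 2)
  have h2 := Curve_867.st_le_one ((τ - (16 * m - 1)) / 2)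
  have h3 := st_nonneg ((τ - (16 * m' - 1)) / 2)
  have h4 := Curve_867.st_le_one ((τ - (16 * m' - 1)) / 2)
  have h5 := std_nonneg ((τ - (16 * m - 1)) / 2)
  have h6 := std_le ((τ - (16 * m - 1)) / 2)
  have h7 := std_nonneg ((τ - (16 * m' - 1)) / 2)
  have h8 := std_le ((τ - (16 * m' - 1)) / 2)
  have a1 : 0 ≤ std ((τ - (16 * m - 1)) / 2) / 2 * (1 - st ((τ - (16 * m' - 1)) / 2)) :=
    mul_nonneg (by linarith) (by linarith)
  have a2 : 0 ≤ st ((τ - (16 * m - 1)) / 2) * (std ((τ - (16 * m' - 1)) / 2) / 2) :=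
    mul_nonneg (by linarith) (by linarith)
  have a3 : std ((τ - (16 * m - 1)) / 2) / 2 * (1 - st ((τ - (16 * m' - 1)) / 2)) ≤ 1 :=
    mul_le_one₀ (by linarith) (by linarith) (by linarith)
  have a4 : st ((τ - (16 * m - 1)) / 2) * (std ((τ - (16 * m' - 1)) / 2) / 2) ≤ 1 :=
    mul_le_one₀ h2 (by linarith) (by linarith)
  rw [abs_le]
  constructor <;> linarith

/-- off the two transition zones the window is `0` or `1`. -/
theorem winN_const {m m' : ℕ} {τ : ℝ} (h1 : 1 ≤ |τ - 16 * m|) (h2 : 1 ≤ |τ - 16 * m'|) :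
    (winN m m' τ = 0 ∨ winN m m' τ = 1) ∧ wdN m m' τ = 0 := by
  unfold winN wdN
  rcases le_abs.1 h1 with h3 | h3
  · rw [st_of_ge (by linarith : 1 ≤ (τ - (16 * m - 1)) / 2),
      std_of_ge (by linarith : 1 ≤ (τ - (16 * m - 1)) / 2)]
    rcases le_abs.1 h2 with h4 | h4
    · rw [st_of_ge (by linarith : 1 ≤ (τ - (16 * m' - 1)) / 2),
        std_of_ge (by linarith : 1 ≤ (τ - (16 * m' - 1)) / 2)]
      norm_num
    · rw [st_of_le (by linarith : (τ - (16 * m' - 1)) / 2 ≤ 0),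
        std_of_le (by linarith : (τ - (16 * m' - 1)) / 2 ≤ 0)]
      norm_num
  · rw [st_of_le (by linarith : (τ - (16 * m - 1)) / 2 ≤ 0),
      std_of_le (by linarith : (τ - (16 * m - 1)) / 2 ≤ 0)]
    norm_num

/-- away from the junctions the windows are constant. -/
theorem winN_const_of_cell {m m' l : ℕ} {τ : ℝ} (h : |τ - sgN l| ≤ 7) :
    (winN m m' τ = 0 ∨ winN m m' τ = 1) ∧ wdN m m' τ = 0 := by
  have key : ∀ k : ℕ, 1 ≤ |τ - 16 * k| := by
    intro k
    rw [abs_le] at h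
    unfold sgN at h
    rcases le_or_gt k l with h1 | h1
    · have : (k : ℝ) ≤ l := by exact_mod_cast h1
      rw [le_abs]; left; linarith
    · have : (l : ℝ) + 1 ≤ k := by exact_mod_cast h1
      rw [le_abs]; right; linarith
  exact winN_const (key m) (key m')

/-- the window vanishes far away. -/
theorem winN_far {m m' : ℕ} {τ : ℝ} (h : 16 * (m' : ℝ) + 1 ≤ |τ|) : winN m m' τ = 0 := by
  unfold winN
  rcases le_abs.1 h with h1 | h1
  · rw [st_of_ge (by linarith : 1 ≤ (τ - (16 * m' - 1)) / 2)]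
    ring
  · have h2 : (0 : ℝ) ≤ m := m.cast_nonneg
    have h3 : (0 : ℝ) ≤ m' := m'.cast_nonneg
    rw [st_of_le (by linarith : (τ - (16 * m - 1)) / 2 ≤ 0)]
    ring

/-- where a window moves. -/
theorem wdN_ne {m m' : ℕ} {τ : ℝ} (h : wdN m m' τ ≠ 0) : ∃ k ≤ m', |τ - 16 * k| < 1 := by
  by_contra h0
  push Not at h0
  have h2 := h0 m' le_rfl
  rcases lt_or_ge m m' with h3 | h3
  · exact h (winN_const (h0 m h3.le) h2).2
  · have h4 : (m' : ℝ) ≤ m := by exact_mod_cast h3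
    rcases le_or_gt 1 |τ - 16 * m| with h5 | h5
    · exact h (winN_const h5 h2).2
    · rw [abs_lt] at h5
      refine h ?_
      unfold wdN
      have h6 : 1 ≤ (τ - (16 * m' - 1)) / 2 := by
        rcases le_abs.1 h2 with h6 | h6
        · linarith
        · linarith
      rw [st_of_ge h6, std_of_ge h6]
      ring

end Crest.Agent.R267.CurveN_867
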