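import Crest.Agent.R267.LobeDefs_407

/-!
# Row 267 (helper684): T3b-PATH, the DATA PATH

`seg X Y t` = segment of lobe data: `D`, `θ = p / D x`, `ε`, phases, `c`, level functions affine.
* `seg_zero`, `seg_one`: the states at the two ends;
* `seg_ok`: `Ok` along the segment, given (NC);
* `data_path`: `X → X.withC C → Y.withC C → Y`, all intermediate data are `Ok` (`C` large);
* `of_seg`: assembly of the second half of `PathP`.
-/

set_option autoImplicit false

noncomputable section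

open Crest.Agent.R267.Ang_739 Crest.Agent.R267.Hm_951 Crest.Agent.R267.LemL_951
open Crest.Agent.R267.LobeDefs_407 Set

namespace Crest.Agent.R267.DataPath_684

variable {n : ℕ}

/-- `θ_e = p_e / D_x` -/
def th (X : LD n) (e : Fin n) : ℝ := X.p e / X.D e.castSucc

/-- the segment of lobe data -/
def seg (X Y : LD n) (t : ℝ) : LD n where
  D := fun i => (1 - t) * X.D i + t * Y.D i
  ep := fun i => (1 - t) * X.ep i + t * Y.ep i
  ph := fun i x => (1 - t) * X.ph i x + t * Y.ph i x
  c := fun e => (1 - t) * X.c e + t * Y.c e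
  p := fun e => ((1 - t) * th X e + t * th Y e) * ((1 - t) * X.D e.castSucc + t * Y.D e.castSucc)
  m := fun e => (1 - ((1 - t) * th X e + t * th Y e)) * ((1 - t) * X.D e.succ + t * Y.D e.succ)
  lam := fun e x => (1 - t) * X.lam e x + t * Y.lam e x
  bet := fun e x => (1 - t) * X.bet e x + t * Y.bet e x

/-- the same data with other constants -/
def withC (X : LD n) (C : Fin n → ℝ) : LD n := { X with c := C }

theorem cs_le {j : ℕ} {e : Fin n} (he : (e : ℕ) < j) : ((e.castSucc : Fin (n + 1)) : ℕ) ≤ j := by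
  simpa using he.le

theorem sc_le {j : ℕ} {e : Fin n} (he : (e : ℕ) < j) : ((e.succ : Fin (n + 1)) : ℕ) ≤ j := by
  simpa using he

/-! ### elementary facts on `Ok` data -/

section Basic

variable {X : LD n} {a : Fin (n + 1) → ℕ} {j : ℕ}

theorem th_mul (hX : X.Ok a j) {e : Fin n} (he : (e : ℕ) < j) :
    th X e * X.D e.castSucc = X.p e := by
  have := hX.hD e.castSucc (cs_le he)
  exact div_mul_cancel₀ _ (by linarith)

theorem one_sub_th (hX : X.Ok a j) {e : Fin n} (he : (e : ℕ) < j) :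
    1 - th X e = X.m e / X.D e.succ := by
  have := hX.sum e he
  unfold th
  linarith

theorem one_sub_th_mul (hX : X.Ok a j) {e : Fin n} (he : (e : ℕ) < j) :
    (1 - th X e) * X.D e.succ = X.m e := by
  have := hX.hD e.succ (sc_le he)
  rw [one_sub_th hX he]
  exact div_mul_cancel₀ _ (by linarith)

theorem th_pos (hX : X.Ok a j) {e : Fin n} (he : (e : ℕ) < j) : 0 < th X e := by
  have h1 := hX.hD e.castSucc (cs_le he)
  have h2 := hX.hp e he
  exact div_pos (by linarith) (by linarith)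

theorem th_lt (hX : X.Ok a j) {e : Fin n} (he : (e : ℕ) < j) : th X e < 1 := by
  have h1 := hX.hD e.succ (sc_le he)
  have h2 := hX.hm e he
  have h3 := one_sub_th hX he
  have h4 : 0 < X.m e / X.D e.succ := div_pos (by linarith) (by linarith)
  linarith

end Basic

/-! ### convex combinations -/

theorem conv_pos {t u v c : ℝ} (ht : t ∈ Icc (0 : ℝ) 1) (hu : c < u) (hv : c < v) :
    c < (1 - t) * u + t * v := by
  obtain ⟨h0, h1⟩ := ht
  rcases h0.eq_or_lt with h | h
  · subst h; simpa using hu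
  · nlinarith [mul_nonneg (sub_nonneg.2 h1) (sub_pos.2 hu).le, mul_pos h (sub_pos.2 hv)]

theorem conv_le {t u v c : ℝ} (ht : t ∈ Icc (0 : ℝ) 1) (hu : u ≤ c) (hv : v ≤ c) :
    (1 - t) * u + t * v ≤ c := by
  obtain ⟨h0, h1⟩ := ht
  nlinarith [mul_nonneg (sub_nonneg.2 h1) (sub_nonneg.2 hu), mul_nonneg h0 (sub_nonneg.2 hv)]

theorem conv_nn {t u v : ℝ} (ht : t ∈ Icc (0 : ℝ) 1) (hu : 0 ≤ u) (hv : 0 ≤ v) :
    0 ≤ (1 - t) * u + t * v :=
  add_nonneg (mul_nonneg (sub_nonneg.2 ht.2) hu) (mul_nonneg ht.1 hv)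

/-- the product of two positive affine functions stays `> 2` -/
theorem prod_gt {t u v D E : ℝ} (ht : t ∈ Icc (0 : ℝ) 1) (hu : 0 < u) (hv : 0 < v) (hD : 0 < D)
    (hE : 0 < E) (h1 : 2 < u * D) (h2 : 2 < v * E) :
    2 < ((1 - t) * u + t * v) * ((1 - t) * D + t * E) := by
  have h3 : 4 < u * E + v * D := by
    have h4 : (4 : ℝ) ^ 2 < (u * E + v * D) ^ 2 := by
      have h5 : 4 < (u * D) * (v * E) := by nlinarith
      nlinarith [sq_nonneg (u * E - v * D)]
    exact lt_of_pow_lt_pow_left₀ 2 (by positivity) h4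
  obtain ⟨h0, h01⟩ := ht
  have h6 : ((1 - t) * u + t * v) * ((1 - t) * D + t * E) - 2 =
      (1 - t) ^ 2 * (u * D - 2) + t ^ 2 * (v * E - 2) + t * (1 - t) * (u * E + v * D - 4) := by ring
  have h7 : 0 ≤ t * (1 - t) * (u * E + v * D - 4) :=
    mul_nonneg (mul_nonneg h0 (by linarith)) (by linarith)
  rcases h0.eq_or_lt with h | h
  · subst h; nlinarith
  · have h8 : 0 < t ^ 2 * (v * E - 2) := mul_pos (by positivity) (by linarith)
    have h9 : 0 ≤ (1 - t) ^ 2 * (u * D - 2) := mul_nonneg (sq_nonneg _) (by linarith)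
    linarith

theorem pha_conv {d : ℕ} {f g : ℝ → ℝ} (hf : Pha d f) (hg : Pha d g) {t : ℝ}
    (ht : t ∈ Icc (0 : ℝ) 1) : Pha d fun x => (1 - t) * f x + t * g x where
  smooth := (contDiff_const.mul hf.smooth).add (contDiff_const.mul hg.smooth)
  deg := by
    intro x
    have h1 := hf.deg x
    have h2 := hg.deg x
    simp only at h1 h2 ⊢
    rw [h1, h2]
    ring
  pos := by
    intro x
    have h1 : DifferentiableAt ℝ f x := (hf.smooth.differentiable (by norm_num)) x
    have h2 : DifferentiableAt ℝ g x := (hg.smooth.differentiable (by norm_num)) x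
    have h3 : deriv (fun x => (1 - t) * f x + t * g x) x = (1 - t) * deriv f x + t * deriv g x :=
      ((h1.hasDerivAt.const_mul _).add (h2.hasDerivAt.const_mul _)).deriv
    rw [h3]
    exact conv_pos ht (hf.pos x) (hg.pos x)

theorem lev_conv {d : ℕ} {f g : ℝ → ℝ} (hf : Lev d f) (hg : Lev d g) {t : ℝ}
    (ht : t ∈ Icc (0 : ℝ) 1) : Lev d fun x => (1 - t) * f x + t * g x where
  smooth := (contDiff_const.mul hf.smooth).add (contDiff_const.mul hg.smooth)
  per := by
    intro x
    rw [hf.per, hg.per]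
  nn := fun x => conv_nn ht (hf.nn x) (hg.nn x)
  le := fun x => conv_le ht (hf.le x) (hg.le x)
  flat := by
    intro x hx
    have h1 : DifferentiableAt ℝ f x := (hf.smooth.differentiable (by norm_num)) x
    have h2 : DifferentiableAt ℝ g x := (hg.smooth.differentiable (by norm_num)) x
    have h3 : deriv (fun x => (1 - t) * f x + t * g x) x = (1 - t) * deriv f x + t * deriv g x :=
      ((h1.hasDerivAt.const_mul _).add (h2.hasDerivAt.const_mul _)).deriv
    rw [h3, hf.flat x hx, hg.flat x hx]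
    ring

/-- `ε^θ ε'^(1-θ) ≤ ε + ε'` and `θ^θ (1-θ)^(1-θ) ≥ 1/2` -/
theorem nc_num {s x y c : ℝ} (hs : 0 < s) (hs1 : s < 1) (hx : 0 < x) (hy : 0 < y)
    (hc : 2 * (x + y) < c) : x ^ s * y ^ (1 - s) < s ^ s * (1 - s) ^ (1 - s) * c := by
  have hs' : 0 < 1 - s := by linarith
  have h1 : x ^ s * y ^ (1 - s) ≤ s * x + (1 - s) * y :=
    Real.geom_mean_le_arith_mean2_weighted hs.le hs'.le hx.le hy.le (by ring)
  have h2 : (1 / s) ^ s * (1 / (1 - s)) ^ (1 - s) ≤ s * (1 / s) + (1 - s) * (1 / (1 - s)) :=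
    Real.geom_mean_le_arith_mean2_weighted hs.le hs'.le (by positivity) (by positivity) (by ring)
  rw [mul_one_div_cancel hs.ne', mul_one_div_cancel hs'.ne'] at h2
  have h3 : s ^ s * (1 - s) ^ (1 - s) * ((1 / s) ^ s * (1 / (1 - s)) ^ (1 - s)) = 1 := by
    rw [mul_mul_mul_comm, ← Real.mul_rpow hs.le (by positivity),
      ← Real.mul_rpow hs'.le (by positivity), mul_one_div_cancel hs.ne',
      mul_one_div_cancel hs'.ne', Real.one_rpow, Real.one_rpow, one_mul]
  have h4 : 0 < s ^ s * (1 - s) ^ (1 - s) := by positivity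
  have h5 : 1 ≤ s ^ s * (1 - s) ^ (1 - s) * 2 :=
    calc (1 : ℝ) = s ^ s * (1 - s) ^ (1 - s) * ((1 / s) ^ s * (1 / (1 - s)) ^ (1 - s)) := h3.symm
      _ ≤ s ^ s * (1 - s) ^ (1 - s) * 2 := mul_le_mul_of_nonneg_left (by linarith) h4.le
  have h6 : s * x + (1 - s) * y ≤ x + y := by nlinarith
  nlinarith

/-! ### the segment -/

section Seg

variable {X Y : LD n} {a : Fin (n + 1) → ℕ} {j : ℕ}

theorem seg_p_div (hX : X.Ok a j) (hY : Y.Ok a j) {t : ℝ} (ht : t ∈ Icc (0 : ℝ) 1) {e : Fin n}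
    (he : (e : ℕ) < j) :
    (seg X Y t).p e / (seg X Y t).D e.castSucc = (1 - t) * th X e + t * th Y e := by
  have h := conv_pos ht (hX.hD e.castSucc (cs_le he)) (hY.hD e.castSucc (cs_le he))
  exact mul_div_cancel_right₀ _ (by linarith)

theorem seg_m_div (hX : X.Ok a j) (hY : Y.Ok a j) {t : ℝ} (ht : t ∈ Icc (0 : ℝ) 1) {e : Fin n}
    (he : (e : ℕ) < j) :
    (seg X Y t).m e / (seg X Y t).D e.succ = 1 - ((1 - t) * th X e + t * th Y e) := by
  have h := conv_pos ht (hX.hD e.succ (sc_le he)) (hY.hD e.succ (sc_le he))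
  exact mul_div_cancel_right₀ _ (by linarith)

/-- **`Ok` along the segment**, (NC) being given in the form with `θ` -/
theorem seg_ok (hX : X.Ok a j) (hY : Y.Ok a j) {t : ℝ} (ht : t ∈ Icc (0 : ℝ) 1)
    (hnc : ∀ e : Fin n, (e : ℕ) < j →
      ((1 - t) * X.ep e.castSucc + t * Y.ep e.castSucc) ^ ((1 - t) * th X e + t * th Y e) *
        ((1 - t) * X.ep e.succ + t * Y.ep e.succ) ^ (1 - ((1 - t) * th X e + t * th Y e)) <
      ((1 - t) * th X e + t * th Y e) ^ ((1 - t) * th X e + t * th Y e) *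
        (1 - ((1 - t) * th X e + t * th Y e)) ^ (1 - ((1 - t) * th X e + t * th Y e)) *
        ((1 - t) * X.c e + t * Y.c e)) :
    (seg X Y t).Ok a j where
  hD := fun i hi => conv_pos ht (hX.hD i hi) (hY.hD i hi)
  hep := fun i hi => conv_pos ht (hX.hep i hi) (hY.hep i hi)
  hph := fun i hi => pha_conv (hX.hph i hi) (hY.hph i hi) ht
  hc := fun e he => conv_pos ht (hX.hc e he) (hY.hc e he)
  hp := fun e he => by
    have h1 := hX.hD e.castSucc (cs_le he)
    have h2 := hY.hD e.castSucc (cs_le he)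
    refine prod_gt ht (th_pos hX he) (th_pos hY he) (by linarith) (by linarith) ?_ ?_
    · rw [th_mul hX he]; exact hX.hp e he
    · rw [th_mul hY he]; exact hY.hp e he
  hm := fun e he => by
    have h1 := hX.hD e.succ (sc_le he)
    have h2 := hY.hD e.succ (sc_le he)
    have h3 := th_lt hX he
    have h4 := th_lt hY he
    have h5 : (seg X Y t).m e = ((1 - t) * (1 - th X e) + t * (1 - th Y e)) *
        ((1 - t) * X.D e.succ + t * Y.D e.succ) := by
      simp only [seg]
      ring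
    rw [h5]
    refine prod_gt ht (by linarith) (by linarith) (by linarith) (by linarith) ?_ ?_
    · rw [one_sub_th_mul hX he]; exact hX.hm e he
    · rw [one_sub_th_mul hY he]; exact hY.hm e he
  sum := fun e he => by
    rw [seg_p_div hX hY ht he, seg_m_div hX hY ht he]
    ring
  nc := fun e he => by
    rw [seg_p_div hX hY ht he, seg_m_div hX hY ht he]
    exact hnc e he
  hlam := fun e he => lev_conv (hX.hlam e he) (hY.hlam e he) ht
  hbet := fun e he => lev_conv (hX.hbet e he) (hY.hbet e he) ht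
  lam1 := fun e he k hk x hx => by
    simp only [seg]
    rw [hX.lam1 e he k hk x hx, hY.lam1 e he k hk x hx]
    ring
  bet1 := fun e he k hk x hx => by
    simp only [seg]
    rw [hX.bet1 e he k hk x hx, hY.bet1 e he k hk x hx]
    ring

/-- two data with the same `Q`, `g`, `h` in the processed range have the same state `j` -/
theorem st_congr {Z W : LD n} (hQ : ∀ i : Fin (n + 1), (i : ℕ) ≤ j → Z.Q i = W.Q i)
    (hg : ∀ e : Fin n, (e : ℕ) < j → Z.g e = W.g e)
    (hh : ∀ e : Fin n, (e : ℕ) < j → Z.h e = W.h e) : Z.st a j = W.st a j := by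
  unfold LD.st
  congr 1
  · funext i
    split_ifs with h
    · exact hQ i h
    · rfl
  · funext e
    split_ifs with h
    · rw [hg e h]
    · rfl
  · funext e
    split_ifs with h
    · rw [hh e h]
    · rfl

theorem seg_zero (hX : X.Ok a j) (Y : LD n) : (seg X Y 0).st a j = X.st a j := by
  refine st_congr (fun i _ => ?_) (fun e he => ?_) fun e he => ?_
  · simp [LD.Q, seg]
  · have h := th_mul hX he
    funext z; simp [LD.g, seg, h]
  · have h := one_sub_th_mul hX he
    funext z; simp [LD.h, seg, h]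

theorem seg_one (X : LD n) (hY : Y.Ok a j) : (seg X Y 1).st a j = Y.st a j := by
  refine st_congr (fun i _ => ?_) (fun e he => ?_) fun e he => ?_
  · simp [LD.Q, seg]
  · have h := th_mul hY he
    funext z; simp [LD.g, seg, h]
  · have h := one_sub_th_mul hY he
    funext z; simp [LD.h, seg, h]

/-- (NC) with a larger constant -/
theorem withC_ok (hX : X.Ok a j) {C : Fin n → ℝ} (hC : ∀ e : Fin n, (e : ℕ) < j → X.c e ≤ C e) :
    (withC X C).Ok a j where
  hD := hX.hD
  hep := hX.hep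
  hph := hX.hph
  hc := fun e he => lt_of_lt_of_le (hX.hc e he) (hC e he)
  hp := hX.hp
  hm := hX.hm
  sum := hX.sum
  nc := fun e he => by
    refine lt_of_lt_of_le (hX.nc e he) (mul_le_mul_of_nonneg_left (hC e he) ?_)
    have h1 := th_pos hX he
    have h2 := th_lt hX he
    have h3 := one_sub_th hX he
    unfold th at h1 h2 h3
    rw [← h3]
    have h4 : 0 < 1 - X.p e / X.D e.castSucc := by linarith
    exact (mul_pos (Real.rpow_pos_of_pos h1 _) (Real.rpow_pos_of_pos h4 _)).le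
  hlam := hX.hlam
  hbet := hX.hbet
  lam1 := hX.lam1
  bet1 := hX.bet1

/-- (NC) in the form with `θ` -/
theorem nc_th (hX : X.Ok a j) {e : Fin n} (he : (e : ℕ) < j) :
    X.ep e.castSucc ^ th X e * X.ep e.succ ^ (1 - th X e) <
      th X e ^ th X e * (1 - th X e) ^ (1 - th X e) * X.c e := by
  have h := hX.nc e he
  rw [← one_sub_th hX he] at h
  exact h

theorem seg_withC_ok (hX : X.Ok a j) {C : Fin n → ℝ}
    (hC : ∀ e : Fin n, (e : ℕ) < j → X.c e ≤ C e) {t : ℝ} (ht : t ∈ Icc (0 : ℝ) 1) :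
    (seg X (withC X C) t).Ok a j := by
  refine seg_ok hX (withC_ok hX hC) ht fun e he => ?_
  have e1 : th (withC X C) e = th X e := rfl
  have e2 : (withC X C).ep = X.ep := rfl
  have e3 : (withC X C).c e = C e := rfl
  have e4 : ∀ u : ℝ, (1 - t) * u + t * u = u := fun u => by ring
  rw [e1, e2, e3, e4, e4, e4]
  have h1 := th_pos hX he
  have h2 := th_lt hX he
  have h4 : 0 < 1 - th X e := by linarith
  refine lt_of_lt_of_le (nc_th hX he) (mul_le_mul_of_nonneg_left ?_
    (mul_pos (Real.rpow_pos_of_pos h1 _) (Real.rpow_pos_of_pos h4 _)).le)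
  nlinarith [mul_nonneg ht.1 (sub_nonneg.2 (hC e he))]

theorem seg_withC_ok' (hX : X.Ok a j) {C : Fin n → ℝ}
    (hC : ∀ e : Fin n, (e : ℕ) < j → X.c e ≤ C e) {t : ℝ} (ht : t ∈ Icc (0 : ℝ) 1) :
    (seg (withC X C) X t).Ok a j := by
  refine seg_ok (withC_ok hX hC) hX ht fun e he => ?_
  have e1 : th (withC X C) e = th X e := rfl
  have e2 : (withC X C).ep = X.ep := rfl
  have e3 : (withC X C).c e = C e := rfl
  have e4 : ∀ u : ℝ, (1 - t) * u + t * u = u := fun u => by ring
  rw [e1, e2, e3, e4, e4, e4]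
  have h1 := th_pos hX he
  have h2 := th_lt hX he
  have h4 : 0 < 1 - th X e := by linarith
  refine lt_of_lt_of_le (nc_th hX he) (mul_le_mul_of_nonneg_left ?_
    (mul_pos (Real.rpow_pos_of_pos h1 _) (Real.rpow_pos_of_pos h4 _)).le)
  nlinarith [mul_nonneg (sub_nonneg.2 ht.2) (sub_nonneg.2 (hC e he))]

theorem seg_big_ok (hX : X.Ok a j) (hY : Y.Ok a j) {C : Fin n → ℝ}
    (hC : ∀ e : Fin n, (e : ℕ) < j → X.c e ≤ C e) (hC' : ∀ e : Fin n, (e : ℕ) < j → Y.c e ≤ C e)
    (hC2 : ∀ e : Fin n, (e : ℕ) < j →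
      2 * (X.ep e.castSucc + X.ep e.succ + Y.ep e.castSucc + Y.ep e.succ) < C e) {t : ℝ}
    (ht : t ∈ Icc (0 : ℝ) 1) : (seg (withC X C) (withC Y C) t).Ok a j := by
  refine seg_ok (withC_ok hX hC) (withC_ok hY hC') ht fun e he => ?_
  have e1 : th (withC X C) e = th X e := rfl
  have e1' : th (withC Y C) e = th Y e := rfl
  have e2 : (withC X C).ep = X.ep := rfl
  have e2' : (withC Y C).ep = Y.ep := rfl
  have e3 : (1 - t) * (withC X C).c e + t * (withC Y C).c e = C e := by
    show (1 - t) * C e + t * C e = C e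
    ring
  rw [e1, e1', e2, e2', e3]
  have x1 := hX.hep e.castSucc (cs_le he)
  have x2 := hX.hep e.succ (sc_le he)
  have y1 := hY.hep e.castSucc (cs_le he)
  have y2 := hY.hep e.succ (sc_le he)
  have h1 := conv_pos ht (th_pos hX he) (th_pos hY he)
  have h2 : (1 - t) * th X e + t * th Y e < 1 := by
    have h3 := conv_pos (c := 0) ht (sub_pos.2 (th_lt hX he)) (sub_pos.2 (th_lt hY he))
    nlinarith
  refine nc_num h1 h2 (conv_pos ht x1 y1) (conv_pos ht x2 y2) ?_
  have h3 := hC2 e he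
  have h4 : (1 - t) * X.ep e.castSucc + t * Y.ep e.castSucc ≤ X.ep e.castSucc + Y.ep e.castSucc :=
    conv_le ht (by linarith) (by linarith)
  have h5 : (1 - t) * X.ep e.succ + t * Y.ep e.succ ≤ X.ep e.succ + Y.ep e.succ :=
    conv_le ht (by linarith) (by linarith)
  linarith

/-- **DATA PATH** -/
theorem data_path (hX : X.Ok a j) (hY : Y.Ok a j) : ∃ C : Fin n → ℝ,
    (withC X C).Ok a j ∧ (withC Y C).Ok a j ∧
    (∀ t ∈ Icc (0 : ℝ) 1, (seg X (withC X C) t).Ok a j) ∧
    (∀ t ∈ Icc (0 : ℝ) 1, (seg (withC X C) (withC Y C) t).Ok a j) ∧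
    (∀ t ∈ Icc (0 : ℝ) 1, (seg (withC Y C) Y t).Ok a j) := by
  refine ⟨fun e => max (max (X.c e) (Y.c e))
    (2 * (X.ep e.castSucc + X.ep e.succ + Y.ep e.castSucc + Y.ep e.succ) + 1), ?_, ?_, ?_, ?_, ?_⟩
  · exact withC_ok hX fun e _ => (le_max_left _ _).trans (le_max_left _ _)
  · exact withC_ok hY fun e _ => (le_max_right _ _).trans (le_max_left _ _)
  · exact fun t ht => seg_withC_ok hX (fun e _ => (le_max_left _ _).trans (le_max_left _ _)) ht
  · exact fun t ht => seg_big_ok hX hY (fun e _ => (le_max_left _ _).trans (le_max_left _ _))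
      (fun e _ => (le_max_right _ _).trans (le_max_left _ _))
      (fun e _ => lt_of_lt_of_le (lt_add_one _) (le_max_right _ _)) ht
  · exact fun t ht => seg_withC_ok' hY (fun e _ => (le_max_right _ _).trans (le_max_left _ _)) ht

/-- **assembly**: equivalence of all `Ok` data from the equivalence along `Ok` segments -/
theorem of_seg (H : ∀ X Y : LD n, X.Ok a j → Y.Ok a j →
      (∀ t ∈ Icc (0 : ℝ) 1, (seg X Y t).Ok a j) →
      SEq ((seg X Y 0).st a j) ((seg X Y 1).st a j))
    (hX : X.Ok a j) (hY : Y.Ok a j) : SEq (X.st a j) (Y.st a j) := by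
  obtain ⟨C, hXC, hYC, h1, h2, h3⟩ := data_path hX hY
  have k1 := H _ _ hX hXC h1
  have k2 := H _ _ hXC hYC h2
  have k3 := H _ _ hYC hY h3
  rw [seg_zero hX, seg_one _ hXC] at k1
  rw [seg_zero hXC, seg_one _ hYC] at k2
  rw [seg_zero hYC, seg_one _ hY] at k3
  exact (k1.trans k2).trans k3

/-- an open interval of times around `[0,1]` on which the degrees stay `> 2` -/
theorem exists_open (h : ∀ t ∈ Icc (0 : ℝ) 1, (seg X Y t).Ok a j) :
    ∃ T : Set ℝ, IsOpen T ∧ Icc (0 : ℝ) 1 ⊆ T ∧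
      (∀ t ∈ T, ∀ i : Fin (n + 1), (i : ℕ) ≤ j → 2 < (seg X Y t).D i) ∧
      ∀ t ∈ T, ∀ e : Fin n, (e : ℕ) < j → 2 < (seg X Y t).p e ∧ 2 < (seg X Y t).m e := by
  refine ⟨(⋂ i : Fin (n + 1), {t : ℝ | (i : ℕ) ≤ j → 2 < (seg X Y t).D i}) ∩
    ((⋂ e : Fin n, {t : ℝ | (e : ℕ) < j → 2 < (seg X Y t).p e}) ∩
      ⋂ e : Fin n, {t : ℝ | (e : ℕ) < j → 2 < (seg X Y t).m e}), ?_, ?_, ?_, ?_⟩
  · refine (isOpen_iInter_of_finite fun i => ?_).inter
      ((isOpen_iInter_of_finite fun e => ?_).inter (isOpen_iInter_of_finite fun e => ?_))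
    · by_cases hi : (i : ℕ) ≤ j
      · simp only [hi, true_imp_iff]
        exact isOpen_lt continuous_const (by simp only [seg]; fun_prop)
      · simp [hi]
    · by_cases hi : (e : ℕ) < j
      · simp only [hi, true_imp_iff]
        exact isOpen_lt continuous_const (by simp only [seg]; fun_prop)
      · simp [hi]
    · by_cases hi : (e : ℕ) < j
      · simp only [hi, true_imp_iff]
        exact isOpen_lt continuous_const (by simp only [seg]; fun_prop)
      · simp [hi]
  · intro t ht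
    refine ⟨mem_iInter.2 fun i hi => (h t ht).hD i hi, mem_iInter.2 fun e he => (h t ht).hp e he,
      mem_iInter.2 fun e he => (h t ht).hm e he⟩
  · exact fun t ht i hi => mem_iInter.1 ht.1 i hi
  · exact fun t ht e he => ⟨mem_iInter.1 ht.2.1 e he, mem_iInter.1 ht.2.2 e he⟩

end Seg

end Crest.Agent.R267.DataPath_684
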