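import Crest.Agent.R267.GS_808

/-!
# Row 267: from the homogeneous half-space form of a graph link to its box form

For a graph system `G : Sys B e m` (`GS_808`) put in `ℝ × B × V` (cone coordinates `(s, b, v)`,
the strand side is `‖b‖ ≤ -s`, the plate side is `-‖b‖ ≤ s`)

* `Kinf G` : the link `G.K` without its part on `‖v‖ = R` (the plate goes to infinity);
* `Khom G` : the closed cone over `Kinf G` placed in the affine chart `s = -1`.

`isLink_of_khom`: if a space `X` is homeomorphic to the unit sphere of `ℝ × B × V` and this carries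
`Z` to `Khom G`, then `(X, Z)` is homeomorphic to `(OnePoint (B × V), G.K)`.

Proof: a homogeneous shift in the direction `s` only (`Khom G` is the graph `s = -‖b‖`, the
homogeneous box form is the graph `s = -max ‖b‖ (‖v‖/R)`, both outside the tubes), and an explicit
homeomorphism `OnePoint (B × V) ≃ sphere`.
-/

set_option autoImplicit false
set_option linter.unusedSectionVars false
set_option linter.unusedVariables false

namespace Crest.Agent.R267.End1_532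

open Set Metric Topology Filter
open scoped RealInnerProductSpace
open Crest.Agent.R267.GS_808

/-! ### homogeneous bijections act on the sphere -/

section Hom

variable {E : Type*} [NormedAddCommGroup E] [NormedSpace ℝ E]

/-- normalised vector on the unit sphere -/
noncomputable def nrm (p : E) (hp : p ≠ 0) : sphere (0 : E) 1 :=
  ⟨‖p‖⁻¹ • p, by
    rw [mem_sphere_zero_iff_norm, norm_smul, norm_inv, norm_norm,
      inv_mul_cancel₀ (norm_ne_zero_iff.2 hp)]⟩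

theorem nrm_eq (p : E) (hp : p ≠ 0) : (nrm p hp : E) = ‖p‖⁻¹ • p := rfl

/-- A positively homogeneous continuous bijection of a finite dimensional space induces a
homeomorphism of the unit sphere. -/
theorem exists_sphere_homeo [FiniteDimensional ℝ E] {F : E → E} (hF : Continuous F)
    (hh : ∀ (l : ℝ) (p : E), 0 < l → F (l • p) = l • F p) (hi : Function.Injective F)
    (hs : Function.Surjective F) :
    ∃ g : sphere (0 : E) 1 ≃ₜ sphere (0 : E) 1, ∀ x, ∃ l : ℝ, 0 < l ∧ (g x : E) = l • F x := by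
  have h0 : F 0 = 0 := by
    have h1 : F 0 = (2 : ℝ) • F 0 := by
      conv_lhs => rw [← smul_zero (2 : ℝ)]
      exact hh 2 0 two_pos
    have h2 : F 0 = F 0 + F 0 := by rwa [two_smul] at h1
    exact (left_eq_add.1 h2)
  have hne : ∀ x : sphere (0 : E) 1, F x ≠ 0 := by
    intro x hx
    have h1 : (x : E) = 0 := hi (by rw [hx, h0])
    have h2 := mem_sphere_zero_iff_norm.1 x.2
    rw [h1, norm_zero] at h2
    exact zero_ne_one h2
  let g0 : sphere (0 : E) 1 → sphere (0 : E) 1 := fun x => nrm (F x) (hne x)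
  have hg0 : Continuous g0 := by
    refine Continuous.subtype_mk ?_ _
    have h1 : Continuous fun x : sphere (0 : E) 1 => F x := hF.comp continuous_subtype_val
    exact (h1.norm.inv₀ fun x => norm_ne_zero_iff.2 (hne x)).smul h1
  have hinj : Function.Injective g0 := by
    intro x y hxy
    have h1 : ‖F x‖⁻¹ • F (x : E) = ‖F y‖⁻¹ • F (y : E) := congrArg Subtype.val hxy
    have hx : 0 < ‖F (x : E)‖⁻¹ := inv_pos.2 (norm_pos_iff.2 (hne x))
    have hy : 0 < ‖F (y : E)‖⁻¹ := inv_pos.2 (norm_pos_iff.2 (hne y))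
    rw [← hh _ _ hx, ← hh _ _ hy] at h1
    have h2 := hi h1
    have h3 := congrArg norm h2
    rw [norm_smul, norm_smul, Real.norm_of_nonneg hx.le, Real.norm_of_nonneg hy.le,
      mem_sphere_zero_iff_norm.1 x.2, mem_sphere_zero_iff_norm.1 y.2, mul_one, mul_one] at h3
    rw [h3] at h2
    exact Subtype.ext (smul_right_injective E hy.ne' h2)
  have hsur : Function.Surjective g0 := by
    intro y
    obtain ⟨p, hp⟩ := hs (y : E)
    have hp0 : p ≠ 0 := by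
      rintro rfl
      rw [h0] at hp
      have h2 := mem_sphere_zero_iff_norm.1 y.2
      rw [← hp, norm_zero] at h2
      exact zero_ne_one h2
    have hn : 0 < ‖p‖⁻¹ := inv_pos.2 (norm_pos_iff.2 hp0)
    refine ⟨nrm p hp0, Subtype.ext ?_⟩
    show ‖F (‖p‖⁻¹ • p)‖⁻¹ • F (‖p‖⁻¹ • p) = y
    rw [hh _ _ hn, hp, norm_smul, mem_sphere_zero_iff_norm.1 y.2, mul_one,
      Real.norm_of_nonneg hn.le, smul_smul, inv_mul_cancel₀ hn.ne', one_smul]
  have : CompactSpace (sphere (0 : E) 1) := isCompact_iff_compactSpace.1 (isCompact_sphere 0 1)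
  refine ⟨Continuous.homeoOfEquivCompactToT2 (f := Equiv.ofBijective g0 ⟨hinj, hsur⟩) hg0,
    fun x => ⟨‖F x‖⁻¹, inv_pos.2 (norm_pos_iff.2 (hne x)), rfl⟩⟩

end Hom

/-! ### the sphere as a one point compactification, central on a ball -/

section Comp

set_option linter.unusedSectionVars false

variable {Y : Type*} [NormedAddCommGroup Y] [NormedSpace ℝ Y] [FiniteDimensional ℝ Y]

/-- lift of a point -/
noncomputable def lift (ρ : ℝ) (y : Y) : ℝ × Y := (-1 + max 0 (‖y‖ - ρ) * ‖y‖, y)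

theorem lift_ne (ρ : ℝ) (y : Y) : lift ρ y ≠ 0 := by
  intro h
  have h1 : y = 0 := congrArg Prod.snd h
  have h2 : -1 + max 0 (‖y‖ - ρ) * ‖y‖ = 0 := congrArg Prod.fst h
  rw [h1, norm_zero, mul_zero, add_zero] at h2
  norm_num at h2

theorem continuous_lift (ρ : ℝ) : Continuous (lift ρ : Y → ℝ × Y) := by
  unfold lift
  fun_prop

theorem pole_mem : ((1 : ℝ), (0 : Y)) ∈ sphere (0 : ℝ × Y) 1 := by
  rw [mem_sphere_zero_iff_norm, Prod.norm_def]
  simp

/-- the map `OnePoint Y → sphere` -/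
noncomputable def Sm (ρ : ℝ) : OnePoint Y → sphere (0 : ℝ × Y) 1
  | none => ⟨((1 : ℝ), (0 : Y)), pole_mem⟩
  | some y => nrm (lift ρ y) (lift_ne ρ y)

theorem Sm_infty (ρ : ℝ) : Sm ρ (OnePoint.infty : OnePoint Y) = ⟨((1 : ℝ), (0 : Y)), pole_mem⟩ := rfl

theorem Sm_coe (ρ : ℝ) (y : Y) : Sm ρ (y : OnePoint Y) = nrm (lift ρ y) (lift_ne ρ y) := rfl

theorem norm_lift_ge {ρ : ℝ} {y : Y} (hρ : 0 ≤ ρ) (hy : ρ + 2 ≤ ‖y‖) :
    ‖y‖ ≤ -1 + max 0 (‖y‖ - ρ) * ‖y‖ := by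
  have h1 : (2 : ℝ) ≤ max 0 (‖y‖ - ρ) := le_trans (by linarith) (le_max_right _ _)
  nlinarith

theorem continuous_Sm {ρ : ℝ} (hρ : 0 ≤ ρ) : Continuous (Sm ρ : OnePoint Y → _) := by
  rw [continuous_iff_continuousAt]
  intro q
  induction q using OnePoint.rec with
  | infty =>
    rw [OnePoint.continuousAt_infty']
    have h1 : Tendsto (fun y : Y => ((lift ρ y).1, y)) (coclosedCompact Y) ⊤ := tendsto_top
    rw [coclosedCompact_eq_cocompact]
    rw [Sm_infty]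
    rw [tendsto_subtype_rng]
    show Tendsto (fun y : Y => ‖lift ρ y‖⁻¹ • lift ρ y) (cocompact Y) (𝓝 ((1 : ℝ), (0 : Y)))
    have hn : Tendsto (fun y : Y => ‖y‖) (cocompact Y) atTop := tendsto_norm_cocompact_atTop
    have hbig : ∀ᶠ y : Y in cocompact Y, ρ + 2 ≤ ‖y‖ := hn.eventually_ge_atTop _
    have hval : ∀ y : Y, ρ + 2 ≤ ‖y‖ →
        ‖lift ρ y‖⁻¹ • lift ρ y =
          ((1 : ℝ), (-1 + (‖y‖ - ρ) * ‖y‖)⁻¹ • y) := by
      intro y hy
      have h2 := norm_lift_ge hρ hy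
      have h3 : max 0 (‖y‖ - ρ) = ‖y‖ - ρ := max_eq_right (by linarith)
      rw [h3] at h2
      have h4 : ‖lift ρ y‖ = -1 + (‖y‖ - ρ) * ‖y‖ := by
        unfold lift
        rw [Prod.norm_def, h3]
        have h5 : 0 ≤ -1 + (‖y‖ - ρ) * ‖y‖ := le_trans (norm_nonneg _) h2
        simp only [Real.norm_of_nonneg h5]
        exact max_eq_left h2
      have h6 : (-1 + (‖y‖ - ρ) * ‖y‖) ≠ 0 := by
        have : 0 < ‖y‖ := by linarith
        linarith
      rw [h4]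
      unfold lift
      rw [h3, Prod.smul_mk, smul_eq_mul, inv_mul_cancel₀ h6]
    refine Tendsto.congr' (hbig.mono fun y hy => (hval y hy).symm) ?_
    refine Tendsto.prodMk_nhds tendsto_const_nhds ?_
    rw [tendsto_zero_iff_norm_tendsto_zero]
    have hle : ∀ᶠ y : Y in cocompact Y,
        ‖(-1 + (‖y‖ - ρ) * ‖y‖)⁻¹ • y‖ ≤ (‖y‖ - ρ - 1)⁻¹ := by
      filter_upwards [hbig] with y hy
      have h7 : 0 < ‖y‖ - ρ - 1 := by linarith
      have h8 : 0 < -1 + (‖y‖ - ρ) * ‖y‖ := by nlinarith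
      rw [norm_smul, norm_inv, Real.norm_of_nonneg h8.le, inv_mul_le_iff₀ h8]
      rw [← div_eq_mul_inv, le_div_iff₀ h7]
      nlinarith
    have hlim : Tendsto (fun y : Y => (‖y‖ - ρ - 1)⁻¹) (cocompact Y) (𝓝 0) := by
      refine tendsto_inv_atTop_zero.comp ?_
      have : (fun y : Y => ‖y‖ - ρ - 1) = fun y : Y => ‖y‖ + (-ρ - 1) := by
        funext y; ring
      rw [this]
      exact tendsto_atTop_add_const_right _ _ hn
    exact squeeze_zero' (Eventually.of_forall fun y => norm_nonneg _) hle hlim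
  | coe y =>
    rw [OnePoint.continuousAt_coe]
    have h1 : Continuous fun y : Y => nrm (lift ρ y) (lift_ne ρ y) := by
      refine Continuous.subtype_mk ?_ _
      exact ((continuous_lift ρ).norm.inv₀ fun y => norm_ne_zero_iff.2 (lift_ne ρ y)).smul
        (continuous_lift ρ)
    exact h1.continuousAt

theorem key_mono {ρ r r' : ℝ} (hr : 0 < r) (h : r < r') :
    (-1 + max 0 (r - ρ) * r) * r' < (-1 + max 0 (r' - ρ) * r') * r := by
  have h1 : max 0 (r - ρ) ≤ max 0 (r' - ρ) := max_le_max le_rfl (by linarith)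
  have h2 : 0 < r * r' := mul_pos hr (hr.trans h)
  nlinarith [mul_le_mul_of_nonneg_right h1 h2.le]

theorem injective_Sm {ρ : ℝ} : Function.Injective (Sm ρ : OnePoint Y → _) := by
  have key : ∀ y y' : Y, ‖y‖ < ‖y'‖ → ∀ l l' : ℝ, 0 < l → 0 < l' →
      l • lift ρ y ≠ l' • lift ρ y' := by
    intro y y' hyy l l' hl hl' h
    have h1 : l • y = l' • y' := congrArg Prod.snd h
    have h2 : l * (-1 + max 0 (‖y‖ - ρ) * ‖y‖) = l' * (-1 + max 0 (‖y'‖ - ρ) * ‖y'‖) :=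
      congrArg Prod.fst h
    have h3 : l * ‖y‖ = l' * ‖y'‖ := by
      have := congrArg norm h1
      rwa [norm_smul, norm_smul, Real.norm_of_nonneg hl.le, Real.norm_of_nonneg hl'.le] at this
    have h4 : 0 < ‖y'‖ := lt_of_le_of_lt (norm_nonneg _) hyy
    have h5 : 0 < ‖y‖ := by
      by_contra h5
      have h6 : ‖y‖ = 0 := le_antisymm (not_lt.1 h5) (norm_nonneg _)
      rw [h6, mul_zero] at h3
      have := mul_pos hl' h4
      linarith
    have h6 := key_mono (ρ := ρ) h5 hyy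
    -- multiply h2 by ‖y‖ * ‖y'‖ …
    have h7 : l * ‖y‖ * ((-1 + max 0 (‖y‖ - ρ) * ‖y‖) * ‖y'‖) =
        l' * ‖y'‖ * ((-1 + max 0 (‖y'‖ - ρ) * ‖y'‖) * ‖y‖) := by
      calc l * ‖y‖ * ((-1 + max 0 (‖y‖ - ρ) * ‖y‖) * ‖y'‖)
          = (l * (-1 + max 0 (‖y‖ - ρ) * ‖y‖)) * (‖y‖ * ‖y'‖) := by ring
        _ = (l' * (-1 + max 0 (‖y'‖ - ρ) * ‖y'‖)) * (‖y‖ * ‖y'‖) := by rw [h2]
        _ = _ := by ring
    rw [← h3] at h7
    have h8 : 0 < l * ‖y‖ := mul_pos hl h5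
    have h9 := mul_left_cancel₀ h8.ne' h7
    linarith
  have eqn : ∀ y y' : Y, ∀ l l' : ℝ, 0 < l → 0 < l' → l • lift ρ y = l' • lift ρ y' → y = y' := by
    intro y y' l l' hl hl' h
    rcases lt_trichotomy ‖y‖ ‖y'‖ with h1 | h1 | h1
    · exact absurd h (key y y' h1 l l' hl hl')
    · have h2 : l • y = l' • y' := congrArg Prod.snd h
      have h3 : l * ‖y‖ = l' * ‖y'‖ := by
        have := congrArg norm h2
        rwa [norm_smul, norm_smul, Real.norm_of_nonneg hl.le, Real.norm_of_nonneg hl'.le] at this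
      rcases eq_or_ne ‖y‖ 0 with h4 | h4
      · have h5 : ‖y'‖ = 0 := by rw [← h1]; exact h4
        rw [norm_eq_zero.1 h4, norm_eq_zero.1 h5]
      · rw [← h1] at h3
        have h5 := mul_right_cancel₀ h4 h3
        rw [h5] at h2
        exact smul_right_injective Y hl'.ne' h2
    · exact absurd h.symm (key y' y h1 l' l hl' hl)
  have hpole : ∀ y : Y, Sm ρ (y : OnePoint Y) ≠ Sm ρ OnePoint.infty := by
    intro y h
    have h1 : ‖lift ρ y‖⁻¹ • lift ρ y = ((1 : ℝ), (0 : Y)) := congrArg Subtype.val h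
    have hpos : 0 < ‖lift ρ y‖⁻¹ := inv_pos.2 (norm_pos_iff.2 (lift_ne ρ y))
    have h2 : ‖lift ρ y‖⁻¹ • y = 0 := congrArg Prod.snd h1
    have h3 : y = 0 := (smul_eq_zero.1 h2).resolve_left hpos.ne'
    have h4 : ‖lift ρ y‖⁻¹ * (-1 + max 0 (‖y‖ - ρ) * ‖y‖) = 1 := congrArg Prod.fst h1
    rw [show ‖y‖ = 0 by rw [h3, norm_zero], mul_zero, add_zero] at h4
    linarith
  intro q q' h
  induction q using OnePoint.rec with
  | infty =>
    induction q' using OnePoint.rec with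
    | infty => rfl
    | coe y' => exact absurd h.symm (hpole y')
  | coe y =>
    induction q' using OnePoint.rec with
    | infty => exact absurd h (hpole y)
    | coe y' =>
      have h1 : ‖lift ρ y‖⁻¹ • lift ρ y = ‖lift ρ y'‖⁻¹ • lift ρ y' := congrArg Subtype.val h
      rw [eqn y y' _ _ (inv_pos.2 (norm_pos_iff.2 (lift_ne ρ y)))
        (inv_pos.2 (norm_pos_iff.2 (lift_ne ρ y'))) h1]

theorem surjective_Sm {ρ : ℝ} (hρ : 0 ≤ ρ) : Function.Surjective (Sm ρ : OnePoint Y → _) := by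
  rintro ⟨⟨s, y⟩, hsy⟩
  rw [mem_sphere_zero_iff_norm] at hsy
  rcases eq_or_ne y 0 with rfl | hy
  · have hs : |s| = 1 := by
      rw [Prod.norm_def] at hsy
      simpa using hsy
    rcases (abs_eq one_pos.le).1 hs with h1 | h1
    · refine ⟨OnePoint.infty, Subtype.ext ?_⟩
      rw [Sm_infty]
      exact Prod.ext h1.symm rfl
    · refine ⟨((0 : Y) : OnePoint Y), Subtype.ext ?_⟩
      rw [Sm_coe, nrm_eq]
      have h2 : lift ρ (0 : Y) = ((-1 : ℝ), (0 : Y)) := by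
        unfold lift
        rw [norm_zero, mul_zero, add_zero]
      rw [h2]
      have h3 : ‖((-1 : ℝ), (0 : Y))‖ = 1 := by
        rw [Prod.norm_def]
        simp
      rw [h3, inv_one, one_smul]
      exact Prod.ext h1.symm rfl
  · have hy0 : 0 < ‖y‖ := norm_pos_iff.2 hy
    set κ := s / ‖y‖ with hκ
    set b := ρ + |κ| + 1 with hb
    have hb1 : 1 ≤ b := by have := abs_nonneg κ; linarith
    have hcont : ContinuousOn (fun r : ℝ => -1 + max 0 (r - ρ) * r - κ * r) (Icc 0 b) := by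
      fun_prop
    have hzero : (0 : ℝ) ∈ Icc ((fun r : ℝ => -1 + max 0 (r - ρ) * r - κ * r) 0)
        ((fun r : ℝ => -1 + max 0 (r - ρ) * r - κ * r) b) := by
      constructor
      · simp
      · show (0 : ℝ) ≤ -1 + max 0 (b - ρ) * b - κ * b
        have h1 : |κ| + 1 ≤ max 0 (b - ρ) := le_trans (by linarith) (le_max_right _ _)
        have h2 : κ ≤ |κ| := le_abs_self κ
        nlinarith
    obtain ⟨r, hr, hr0⟩ := intermediate_value_Icc (by linarith : (0 : ℝ) ≤ b) hcont hzero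
    simp only at hr0
    have hrpos : 0 < r := by
      rcases hr.1.lt_or_eq with h | h
      · exact h
      · rw [← h] at hr0
        simp at hr0
    refine ⟨(((r / ‖y‖) • y : Y) : OnePoint Y), Subtype.ext ?_⟩
    rw [Sm_coe, nrm_eq]
    have hn : ‖(r / ‖y‖) • y‖ = r := by
      rw [norm_smul, Real.norm_of_nonneg (by positivity), div_mul_cancel₀ _ hy0.ne']
    have h2 : lift ρ ((r / ‖y‖) • y) = (r / ‖y‖) • ((s, y) : ℝ × Y) := by
      unfold lift
      rw [hn, Prod.smul_mk]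
      refine Prod.ext ?_ rfl
      show -1 + max 0 (r - ρ) * r = (r / ‖y‖) * s
      have h3 : -1 + max 0 (r - ρ) * r = κ * r := by linarith
      rw [h3, hκ]
      field_simp
    have hpos : 0 < r / ‖y‖ := div_pos hrpos hy0
    rw [h2, norm_smul, hsy, mul_one, Real.norm_of_nonneg hpos.le, smul_smul,
      inv_mul_cancel₀ hpos.ne', one_smul]

/-- **the compactification**: central projection on a large ball. -/
theorem exists_comp {ρ : ℝ} (hρ : 0 ≤ ρ) {K : Set Y} (hK : ∀ y ∈ K, ‖y‖ ≤ ρ) :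
    ∃ T : sphere (0 : ℝ × Y) 1 ≃ₜ OnePoint Y, ∀ z : sphere (0 : ℝ × Y) 1,
      ((z : ℝ × Y).1 < 0 ∧ (-(z : ℝ × Y).1)⁻¹ • (z : ℝ × Y).2 ∈ K) ↔
        ∃ p ∈ K, T z = (p : OnePoint Y) := by
  have : CompactSpace (OnePoint Y) := inferInstance
  let T' : OnePoint Y ≃ₜ sphere (0 : ℝ × Y) 1 :=
    Continuous.homeoOfEquivCompactToT2
      (f := Equiv.ofBijective (Sm ρ) ⟨injective_Sm, surjective_Sm hρ⟩) (continuous_Sm hρ)
  refine ⟨T'.symm, fun z => ?_⟩
  obtain ⟨q, rfl⟩ := T'.surjective z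
  rw [T'.symm_apply_apply]
  induction q using OnePoint.rec with
  | infty =>
    constructor
    · rintro ⟨h, -⟩
      exact absurd h (by
        show ¬ ((1 : ℝ) < 0)
        norm_num)
    · rintro ⟨p, -, hp⟩
      exact absurd hp.symm (OnePoint.coe_ne_infty p)
  | coe y =>
    have h1 : (T' (y : OnePoint Y) : ℝ × Y) = ‖lift ρ y‖⁻¹ • lift ρ y := rfl
    have hpos : 0 < ‖lift ρ y‖⁻¹ := inv_pos.2 (norm_pos_iff.2 (lift_ne ρ y))
    rw [h1]
    have h2 : (‖lift ρ y‖⁻¹ • lift ρ y).1 = ‖lift ρ y‖⁻¹ * (-1 + max 0 (‖y‖ - ρ) * ‖y‖) := rfl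
    have h3 : (‖lift ρ y‖⁻¹ • lift ρ y).2 = ‖lift ρ y‖⁻¹ • y := rfl
    rw [h2, h3]
    set σ := -1 + max 0 (‖y‖ - ρ) * ‖y‖ with hσ
    have h4 : (-(‖lift ρ y‖⁻¹ * σ))⁻¹ • (‖lift ρ y‖⁻¹ • y) = (-σ)⁻¹ • y := by
      rw [smul_smul]
      congr 1
      rw [← mul_neg, mul_inv, mul_comm (‖lift ρ y‖⁻¹)⁻¹, mul_assoc, inv_mul_cancel₀ hpos.ne',
        mul_one]
    rw [h4]
    have h5 : ‖lift ρ y‖⁻¹ * σ < 0 ↔ σ < 0 := by
      rw [mul_neg_iff]
      constructor
      · rintro (h | h)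
        · exact h.2
        · exact absurd h.1 (not_lt.2 hpos.le)
      · intro h
        exact Or.inl ⟨hpos, h⟩
    rw [h5]
    have h6 : (σ < 0 ∧ (-σ)⁻¹ • y ∈ K) ↔ y ∈ K := by
      rcases le_or_gt ‖y‖ ρ with h | h
      · have h7 : σ = -1 := by
          rw [hσ, max_eq_left (by linarith), zero_mul, add_zero]
        rw [h7]
        norm_num
      · constructor
        · rintro ⟨h7, h8⟩
          exfalso
          have h9 := hK _ h8
          have h10 : 0 ≤ max 0 (‖y‖ - ρ) * ‖y‖ := by positivity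
          have h11 : 0 < -σ := by linarith
          have h12 : -σ ≤ 1 := by linarith
          have h13 : 1 ≤ (-σ)⁻¹ := (one_le_inv₀ h11).2 h12
          rw [norm_smul, Real.norm_of_nonneg (by positivity)] at h9
          nlinarith [norm_nonneg y]
        · intro h7
          exact absurd (hK _ h7) (not_le.2 h)
    rw [h6]
    constructor
    · intro h
      exact ⟨y, h, rfl⟩
    · rintro ⟨p, hp, hpy⟩
      rw [OnePoint.coe_injective hpy]
      exact hp

end Comp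


/-! ### the flip of the plate -/

section Flip

variable {B V : Type*} [NormedAddCommGroup B] [NormedSpace ℝ B]
  [NormedAddCommGroup V] [InnerProductSpace ℝ V] {e : V} {m : ℕ}

/-- the link with the plate extended to infinity. -/
def Kinf (G : Sys B e m) : Set (B × V) :=
  {p | (⟪e, p.2⟫ = 0 ∧ ‖p.1‖ = 1 ∧ ∀ k, G.r ≤ ‖p.2 - G.x k p.1‖) ∨
    ∃ k, ‖p.1‖ ≤ 1 ∧ ‖p.2 - G.x k p.1‖ = G.r ∧ ⟪G.nu k p.1, p.2 - G.x k p.1⟫ = 0}

/-- the closed cone over `Kinf G` (chart `s = -1`). -/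
def Khom (G : Sys B e m) : Set (ℝ × B × V) :=
  {p | (p.1 < 0 ∧ (-p.1)⁻¹ • p.2 ∈ Kinf G) ∨ (p.1 = 0 ∧ p.2.1 = 0 ∧ ⟪e, p.2.2⟫ = 0)}

/-- the (open) cone over a set in the chart `s = -1`. -/
def cone {Y : Type*} [SMul ℝ Y] (K : Set Y) : Set (ℝ × Y) :=
  {p | p.1 < 0 ∧ (-p.1)⁻¹ • p.2 ∈ K}

theorem cone_smul {Y : Type*} [NormedAddCommGroup Y] [NormedSpace ℝ Y] (K : Set Y) {l : ℝ}
    (hl : 0 < l) (p : ℝ × Y) : l • p ∈ cone K ↔ p ∈ cone K := by
  unfold cone
  simp only [mem_ofPred_eq, Prod.smul_fst, Prod.smul_snd, smul_eq_mul]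
  have h1 : l * p.1 < 0 ↔ p.1 < 0 := by
    constructor
    · intro h
      by_contra h2
      have := mul_nonneg hl.le (not_lt.1 h2)
      linarith
    · intro h
      exact mul_neg_of_pos_of_neg hl h
  have h2 : (-(l * p.1))⁻¹ • l • p.2 = (-p.1)⁻¹ • p.2 := by
    rw [smul_smul]
    congr 1
    rw [← mul_neg, mul_inv, mul_comm l⁻¹, mul_assoc, inv_mul_cancel₀ hl.ne', mul_one]
  rw [h1, h2]

theorem khom_smul (G : Sys B e m) {l : ℝ} (hl : 0 < l) (p : ℝ × B × V) :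
    l • p ∈ Khom G ↔ p ∈ Khom G := by
  have h1 : ∀ p : ℝ × B × V, p ∈ Khom G ↔
      (p ∈ cone (Kinf G) ∨ (p.1 = 0 ∧ p.2.1 = 0 ∧ ⟪e, p.2.2⟫ = 0)) := fun _ => Iff.rfl
  rw [h1, h1, cone_smul _ hl]
  have h2 : (l • p).1 = 0 ↔ p.1 = 0 := by simp [hl.ne']
  have h3 : (l • p).2.1 = 0 ↔ p.2.1 = 0 := by simp [hl.ne']
  have h4 : ⟪e, (l • p).2.2⟫ = 0 ↔ ⟪e, p.2.2⟫ = 0 := by
    show ⟪e, l • p.2.2⟫ = 0 ↔ _
    rw [inner_smul_right, mul_eq_zero]
    simp [hl.ne']
  rw [h2, h3, h4]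

/-- the shift of the flip -/
noncomputable def sh (R R' : ℝ) (p : ℝ × B × V) : ℝ :=
  min (max 0 (‖p.2.2‖ / R - ‖p.2.1‖))
    (min (R' / R * max 0 (p.1 + ‖p.2.2‖ / R')) (max 0 (‖p.2.2‖ / R - p.1)))

/-- **the flip**: a homogeneous shift in the direction `s`. -/
noncomputable def flip (R R' : ℝ) (p : ℝ × B × V) : ℝ × B × V := (p.1 - sh R R' p, p.2)

theorem continuous_flip (R R' : ℝ) : Continuous (flip R R' : ℝ × B × V → _) := by
  unfold flip sh
  fun_prop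

theorem sh_smul {R R' l : ℝ} (hl : 0 < l) (p : ℝ × B × V) : sh R R' (l • p) = l * sh R R' p := by
  unfold sh
  have h1 : ‖(l • p).2.2‖ = l * ‖p.2.2‖ := by
    show ‖l • p.2.2‖ = _
    rw [norm_smul, Real.norm_of_nonneg hl.le]
  have h2 : ‖(l • p).2.1‖ = l * ‖p.2.1‖ := by
    show ‖l • p.2.1‖ = _
    rw [norm_smul, Real.norm_of_nonneg hl.le]
  have h3 : (l • p).1 = l * p.1 := rfl
  rw [h1, h2, h3, mul_min_of_nonneg _ _ hl.le, mul_min_of_nonneg _ _ hl.le]
  congr 1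
  · rw [mul_max_of_nonneg _ _ hl.le, mul_zero]
    congr 1; ring
  congr 1
  · rw [mul_left_comm, mul_max_of_nonneg _ _ hl.le, mul_zero]
    congr 2; ring
  · rw [mul_max_of_nonneg _ _ hl.le, mul_zero]
    congr 1; ring

theorem flip_smul {R R' : ℝ} (l : ℝ) (p : ℝ × B × V) (hl : 0 < l) :
    flip R R' (l • p) = l • flip R R' p := by
  unfold flip
  rw [sh_smul hl]
  refine Prod.ext ?_ rfl
  show l * p.1 - l * sh R R' p = l * (p.1 - sh R R' p)
  ring

theorem sh_nonneg {R R' : ℝ} (hR : 0 < R) (hR' : 0 < R') (p : ℝ × B × V) : 0 ≤ sh R R' p := by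
  unfold sh
  have : 0 < R' / R := div_pos hR' hR
  positivity

theorem sh_le {R R' : ℝ} (p : ℝ × B × V) : sh R R' p ≤ max 0 (‖p.2.2‖ / R - ‖p.2.1‖) :=
  min_le_left _ _

/-- the increments of the shift are small -/
theorem sh_incr {R R' : ℝ} (hR : 0 < R) (hR' : 0 < R') {s s' : ℝ} (h : s ≤ s') (y : B × V) :
    sh R R' (s', y) ≤ sh R R' (s, y) + R' / R * (s' - s) := by
  have hc : 0 < R' / R := div_pos hR' hR
  have hcs : 0 ≤ R' / R * (s' - s) := mul_nonneg hc.le (by linarith)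
  unfold sh
  simp only
  rw [← min_add_add_right, ← min_add_add_right]
  refine min_le_min (by linarith) (min_le_min ?_ ?_)
  · rw [← mul_add]
    refine mul_le_mul_of_nonneg_left ?_ hc.le
    refine max_le (by have := le_max_left 0 (s + ‖y.2‖ / R'); linarith) ?_
    have := le_max_right 0 (s + ‖y.2‖ / R')
    linarith
  · have : max 0 (‖y.2‖ / R - s') ≤ max 0 (‖y.2‖ / R - s) := max_le_max le_rfl (by linarith)
    linarith

theorem flip_injective {R R' : ℝ} (hR' : 0 < R') (h : R' < R) :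
    Function.Injective (flip R R' : ℝ × B × V → _) := by
  have hR : 0 < R := hR'.trans h
  have hc : R' / R < 1 := (div_lt_one hR).2 h
  have key : ∀ (s s' : ℝ) (y : B × V), s < s' →
      s - sh R R' (s, y) < s' - sh R R' (s', y) := by
    intro s s' y hs
    have h1 := sh_incr hR hR' hs.le y
    nlinarith
  rintro ⟨s, y⟩ ⟨s', y'⟩ hh
  have h1 : y = y' := congrArg Prod.snd hh
  subst h1
  have h2 : s - sh R R' (s, y) = s' - sh R R' (s', y) := congrArg Prod.fst hh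
  rcases lt_trichotomy s s' with h3 | h3 | h3
  · have := key s s' y h3
    linarith
  · rw [h3]
  · have := key s' s y h3
    linarith

theorem flip_surjective {R R' : ℝ} (hR' : 0 < R') (h : R' < R) :
    Function.Surjective (flip R R' : ℝ × B × V → _) := by
  have hR : 0 < R := hR'.trans h
  rintro ⟨s, y⟩
  set g := max 0 (‖y.2‖ / R - ‖y.1‖) with hg
  have hg0 : 0 ≤ g := le_max_left _ _
  have hcont : ContinuousOn (fun t : ℝ => (flip R R' (t, y)).1) (Icc s (s + g)) := by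
    have h1 : Continuous fun t : ℝ => (flip R R' (t, y)).1 :=
      continuous_fst.comp ((continuous_flip R R').comp (continuous_id.prodMk continuous_const))
    exact h1.continuousOn
  have hmem : s ∈ Icc ((flip R R' (s, y)).1) ((flip R R' (s + g, y)).1) := by
    constructor
    · have := sh_nonneg hR hR' (s, y)
      show s - sh R R' (s, y) ≤ s
      linarith
    · have : sh R R' (s + g, y) ≤ g := sh_le _
      show s ≤ s + g - sh R R' (s + g, y)
      linarith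
  obtain ⟨t, -, ht⟩ := intermediate_value_Icc (by linarith : s ≤ s + g) hcont hmem
  exact ⟨(t, y), Prod.ext ht rfl⟩

/-- uniform bound for the tubes -/
theorem exists_bound [FiniteDimensional ℝ B] (G : Sys B e m) (hR : 0 < G.R) :
    ∃ R', 0 < R' ∧ R' < G.R ∧ ∀ k u, ‖u‖ ≤ 1 → ‖G.x k u‖ + G.r ≤ R' := by
  have h1 : ∀ k, ∃ M < G.R, ∀ u : B, ‖u‖ ≤ 1 → ‖G.x k u‖ + G.r ≤ M := by
    intro k
    have hcomp : IsCompact (closedBall (0 : B) 1) := isCompact_closedBall 0 1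
    obtain ⟨u0, -, hmax⟩ := hcomp.exists_isMaxOn ⟨0, mem_closedBall_self zero_le_one⟩
      (((G.cx k).norm.add (continuous_const (y := G.r))).continuousOn)
    exact ⟨‖G.x k u0‖ + G.r, G.bd k u0, fun u hu => hmax (mem_closedBall_zero_iff.2 hu)⟩
  choose M hM hM' using h1
  rcases isEmpty_or_nonempty (Fin m) with h | h
  · exact ⟨G.R / 2, by positivity, by linarith, fun k => (h.false k).elim⟩
  · obtain ⟨k0, hk0⟩ := Finite.exists_max M
    refine ⟨max (G.R / 2) (M k0), lt_max_of_lt_left (by positivity),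
      max_lt (by linarith) (hM k0), fun k u hu => ?_⟩
    exact (hM' k u hu).trans ((hk0 k).trans (le_max_right _ _))

/-- the shift vanishes on the tubes -/
theorem sh_eq_zero {R R' : ℝ} (hR : 0 < R) (hR' : 0 < R') {p : ℝ × B × V} (hp : p.1 < 0)
    (h : ‖p.2.2‖ ≤ R' * (-p.1)) : sh R R' p = 0 := by
  refine le_antisymm ?_ (sh_nonneg hR hR' p)
  unfold sh
  refine (min_le_right _ _).trans ((min_le_left _ _).trans ?_)
  have h1 : ‖p.2.2‖ / R' ≤ -p.1 := by
    rw [div_le_iff₀ hR']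
    linarith
  rw [max_eq_left (by linarith), mul_zero]

/-- the shift on the graph `s = -‖b‖` -/
theorem sh_graph {R R' : ℝ} (hR' : 0 < R') (h : R' < R) (b : B) (v : V) :
    sh R R' (-‖b‖, b, v) = max 0 (‖v‖ / R - ‖b‖) := by
  have hR : 0 < R := hR'.trans h
  unfold sh
  simp only
  refine min_eq_left (le_min ?_ ?_)
  · have h1 : R' / R * (-‖b‖ + ‖v‖ / R') = ‖v‖ / R - R' / R * ‖b‖ := by
      field_simp
      ring
    have h2 : R' / R ≤ 1 := ((div_lt_one hR).2 h).le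
    rw [mul_max_of_nonneg _ _ (div_pos hR' hR).le, mul_zero, h1]
    refine max_le_max le_rfl ?_
    nlinarith [norm_nonneg b]
  · refine max_le_max le_rfl ?_
    have := norm_nonneg b
    linarith

theorem norm_scale {W : Type*} [NormedAddCommGroup W] [NormedSpace ℝ W] {s : ℝ} (hs : s < 0)
    (w : W) : ‖(-s)⁻¹ • w‖ = ‖w‖ / (-s) := by
  have h : 0 < -s := by linarith
  rw [norm_smul, norm_inv, Real.norm_of_nonneg h.le, inv_mul_eq_div]

theorem scale_mem {s : ℝ} (hs : s < 0) (b : B) (v : V) :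
    (‖(-s)⁻¹ • b‖ = 1 ↔ ‖b‖ = -s) ∧ (‖(-s)⁻¹ • b‖ ≤ 1 ↔ ‖b‖ ≤ -s) ∧
      (∀ R : ℝ, ‖(-s)⁻¹ • v‖ = R ↔ ‖v‖ = R * (-s)) ∧
      (∀ R : ℝ, ‖(-s)⁻¹ • v‖ ≤ R ↔ ‖v‖ ≤ R * (-s)) := by
  have h : 0 < -s := by linarith
  refine ⟨?_, ?_, fun R => ?_, fun R => ?_⟩
  · rw [norm_scale hs, div_eq_iff h.ne', one_mul]
  · rw [norm_scale hs, div_le_iff₀ h, one_mul]
  · rw [norm_scale hs, div_eq_iff h.ne']
  · rw [norm_scale hs, div_le_iff₀ h]

/-- **the flip carries the half-space form to the box form.** -/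
theorem flip_mem (G : Sys B e m) {R' : ℝ} (hR' : 0 < R') (hRR : R' < G.R)
    (hb : ∀ k u, ‖u‖ ≤ 1 → ‖G.x k u‖ + G.r ≤ R') {p : ℝ × B × V} (hp : p ≠ 0) :
    p ∈ Khom G ↔ flip G.R R' p ∈ cone G.K := by
  have hR : 0 < G.R := hR'.trans hRR
  -- the tube predicate
  set tube : ℝ × B × V → Prop := fun p => p.1 < 0 ∧ ∃ k, ‖(-p.1)⁻¹ • p.2.1‖ ≤ 1 ∧
    ‖(-p.1)⁻¹ • p.2.2 - G.x k ((-p.1)⁻¹ • p.2.1)‖ = G.r ∧
    ⟪G.nu k ((-p.1)⁻¹ • p.2.1), (-p.1)⁻¹ • p.2.2 - G.x k ((-p.1)⁻¹ • p.2.1)⟫ = 0 with htube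
  set out : ℝ × B × V → Prop := fun p =>
    ∀ k, G.r ≤ ‖(-p.1)⁻¹ • p.2.2 - G.x k ((-p.1)⁻¹ • p.2.1)‖ with hout
  have e1 : ∀ p : ℝ × B × V, p ∈ Khom G ↔ (tube p ∨
      (p.1 < 0 ∧ ⟪e, p.2.2⟫ = 0 ∧ ‖p.2.1‖ = -p.1 ∧ out p) ∨
      (p.1 = 0 ∧ p.2.1 = 0 ∧ ⟪e, p.2.2⟫ = 0)) := by
    intro p
    have h0 : p.1 < 0 → (⟪e, ((-p.1)⁻¹ • p.2).2⟫ = 0 ↔ ⟪e, p.2.2⟫ = 0) := by
      intro hs
      show ⟪e, (-p.1)⁻¹ • p.2.2⟫ = 0 ↔ _
      rw [inner_smul_right, mul_eq_zero]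
      have : (-p.1)⁻¹ ≠ 0 := inv_ne_zero (by linarith)
      exact ⟨fun h => h.resolve_left this, Or.inr⟩
    constructor
    · rintro (⟨hs, h⟩ | h)
      · rcases h with ⟨h1, h2, h3⟩ | ⟨k, h1, h2, h3⟩
        · exact Or.inr (Or.inl ⟨hs, (h0 hs).1 h1, (scale_mem hs p.2.1 p.2.2).1.1 h2, h3⟩)
        · exact Or.inl ⟨hs, k, h1, h2, h3⟩
      · exact Or.inr (Or.inr h)
    · rintro (⟨hs, k, h1, h2, h3⟩ | ⟨hs, h1, h2, h3⟩ | h)
      · exact Or.inl ⟨hs, Or.inr ⟨k, h1, h2, h3⟩⟩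
      · exact Or.inl ⟨hs, Or.inl ⟨(h0 hs).2 h1, (scale_mem hs p.2.1 p.2.2).1.2 h2, h3⟩⟩
      · exact Or.inr h
  have e2 : ∀ p : ℝ × B × V, p ∈ cone G.K ↔ (tube p ∨
      (p.1 < 0 ∧ ⟪e, p.2.2⟫ = 0 ∧ ‖p.2.1‖ = -p.1 ∧ ‖p.2.2‖ ≤ G.R * (-p.1) ∧ out p) ∨
      (p.1 < 0 ∧ ⟪e, p.2.2⟫ = 0 ∧ ‖p.2.1‖ ≤ -p.1 ∧ ‖p.2.2‖ = G.R * (-p.1))) := by
    intro p
    have h0 : p.1 < 0 → (⟪e, ((-p.1)⁻¹ • p.2).2⟫ = 0 ↔ ⟪e, p.2.2⟫ = 0) := by
      intro hs
      show ⟪e, (-p.1)⁻¹ • p.2.2⟫ = 0 ↔ _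
      rw [inner_smul_right, mul_eq_zero]
      have : (-p.1)⁻¹ ≠ 0 := inv_ne_zero (by linarith)
      exact ⟨fun h => h.resolve_left this, Or.inr⟩
    constructor
    · rintro ⟨hs, ⟨h1, h2, h3, h4⟩ | ⟨h1, h2, h3⟩ | ⟨k, h1, h2, h3⟩⟩
      · exact Or.inr (Or.inl ⟨hs, (h0 hs).1 h1, (scale_mem hs p.2.1 p.2.2).1.1 h2,
          ((scale_mem hs p.2.1 p.2.2).2.2.2 _).1 h3, h4⟩)
      · exact Or.inr (Or.inr ⟨hs, (h0 hs).1 h1, (scale_mem hs p.2.1 p.2.2).2.1.1 h2,
          ((scale_mem hs p.2.1 p.2.2).2.2.1 _).1 h3⟩)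
      · exact Or.inl ⟨hs, k, h1, h2, h3⟩
    · rintro (⟨hs, k, h1, h2, h3⟩ | ⟨hs, h1, h2, h3, h4⟩ | ⟨hs, h1, h2, h3⟩)
      · exact ⟨hs, Or.inr (Or.inr ⟨k, h1, h2, h3⟩)⟩
      · exact ⟨hs, Or.inl ⟨(h0 hs).2 h1, (scale_mem hs p.2.1 p.2.2).1.2 h2,
          ((scale_mem hs p.2.1 p.2.2).2.2.2 _).2 h3, h4⟩⟩
      · exact ⟨hs, Or.inr (Or.inl ⟨(h0 hs).2 h1, (scale_mem hs p.2.1 p.2.2).2.1.2 h2,
          ((scale_mem hs p.2.1 p.2.2).2.2.1 _).2 h3⟩)⟩
  -- on tubes the flip is the identity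
  have htsh : ∀ p : ℝ × B × V, tube p → sh G.R R' p = 0 := by
    rintro p ⟨hs, k, h1, h2, -⟩
    refine sh_eq_zero hR hR' hs (((scale_mem hs p.2.1 p.2.2).2.2.2 _).1 ?_)
    have h3 := hb k _ h1
    calc ‖(-p.1)⁻¹ • p.2.2‖
        = ‖G.x k ((-p.1)⁻¹ • p.2.1) + ((-p.1)⁻¹ • p.2.2 - G.x k ((-p.1)⁻¹ • p.2.1))‖ := by
          rw [add_sub_cancel]
      _ ≤ ‖G.x k ((-p.1)⁻¹ • p.2.1)‖ + ‖(-p.1)⁻¹ • p.2.2 - G.x k ((-p.1)⁻¹ • p.2.1)‖ :=
          norm_add_le _ _
      _ ≤ R' := by rw [h2]; exact h3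
  have htflip : ∀ p : ℝ × B × V, tube p → flip G.R R' p = p := by
    intro p h
    unfold flip
    rw [htsh p h, sub_zero]
  have hinj := flip_injective (B := B) (V := V) hR' hRR
  have hgr : ∀ (b : B) (v : V),
      flip G.R R' (-‖b‖, b, v) = (-‖b‖ - max 0 (‖v‖ / G.R - ‖b‖), b, v) := by
    intro b v
    unfold flip
    rw [sh_graph hR' hRR]
  rw [e1, e2]
  constructor
  · rintro (h | ⟨hs, h1, h2, h3⟩ | ⟨h1, h2, h3⟩)
    · rw [htflip p h]
      exact Or.inl h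
    · obtain ⟨s, b, v⟩ := p
      simp only at hs h1 h2
      have hsb : s = -‖b‖ := by linarith
      subst hsb
      rw [hgr]
      rcases le_or_gt (‖v‖ / G.R) ‖b‖ with h4 | h4
      · rw [max_eq_left (by linarith), sub_zero]
        refine Or.inr (Or.inl ⟨hs, h1, h2, ?_, h3⟩)
        rw [div_le_iff₀ hR] at h4
        show ‖v‖ ≤ G.R * (-(-‖b‖))
        linarith
      · rw [max_eq_right (by linarith)]
        refine Or.inr (Or.inr ⟨?_, h1, ?_, ?_⟩)
        · show -‖b‖ - (‖v‖ / G.R - ‖b‖) < 0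
          have := norm_nonneg b
          linarith
        · show ‖b‖ ≤ -(-‖b‖ - (‖v‖ / G.R - ‖b‖))
          linarith
        · show ‖v‖ = G.R * (-(-‖b‖ - (‖v‖ / G.R - ‖b‖)))
          field_simp
          ring
    · obtain ⟨s, b, v⟩ := p
      simp only at h1 h2 h3
      subst h1 h2
      have hv : v ≠ 0 := by
        rintro rfl
        exact hp rfl
      have h4 := hgr (0 : B) v
      rw [norm_zero, neg_zero] at h4
      rw [h4]
      have hv0 : 0 < ‖v‖ / G.R := div_pos (norm_pos_iff.2 hv) hR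
      rw [max_eq_right (by linarith)]
      refine Or.inr (Or.inr ⟨?_, h3, ?_, ?_⟩)
      · show (0 : ℝ) - (‖v‖ / G.R - 0) < 0
        linarith
      · show ‖(0 : B)‖ ≤ -((0 : ℝ) - (‖v‖ / G.R - 0))
        rw [norm_zero]
        linarith
      · show ‖v‖ = G.R * (-((0 : ℝ) - (‖v‖ / G.R - 0)))
        field_simp
        ring
  · rintro (h | ⟨hs, h1, h2, h3, h4⟩ | ⟨hs, h1, h2, h3⟩)
    · have h5 := htflip _ h
      have h6 : flip G.R R' p = p := hinj h5
      rw [h6] at h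
      exact Or.inl h
    · -- gap = 0
      obtain ⟨s, b, v⟩ := p
      set s' := (flip G.R R' (s, b, v)).1 with hs'
      have hval : flip G.R R' (s, b, v) = (s', b, v) := rfl
      rw [hval] at h1 h2 h3 h4
      simp only at h1 h2 h3
      have hsb : s' = -‖b‖ := by linarith
      have h5 : ‖v‖ / G.R - ‖b‖ ≤ 0 := by
        rw [sub_nonpos, div_le_iff₀ hR, mul_comm, h2]
        exact h3
      have h6 : flip G.R R' (s', b, v) = (s', b, v) := by
        rw [hsb, hgr, max_eq_left h5, sub_zero]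
      have h7 : ((s, b, v) : ℝ × B × V) = (s', b, v) := hinj (by rw [h6, hval])
      rw [h7]
      exact Or.inr (Or.inl ⟨hs, h1, h2, h4⟩)
    · obtain ⟨s, b, v⟩ := p
      set s' := (flip G.R R' (s, b, v)).1 with hs'
      have hval : flip G.R R' (s, b, v) = (s', b, v) := rfl
      rw [hval] at h1 h2 h3
      simp only at h1 h2 h3
      have h4 : s' = -(‖v‖ / G.R) := by
        rw [h3]
        field_simp
      have h5 : ‖b‖ ≤ ‖v‖ / G.R := by linarith
      have h6 : flip G.R R' (-‖b‖, b, v) = (s', b, v) := by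
        rw [hgr, max_eq_right (by linarith), h4]
        congr 1
        ring
      have h7 : ((s, b, v) : ℝ × B × V) = (-‖b‖, b, v) := hinj (by rw [h6, hval])
      have h8 : s = -‖b‖ := congrArg Prod.fst h7
      subst h8
      rcases (norm_nonneg b).lt_or_eq with h9 | h9
      · refine Or.inr (Or.inl ⟨by show -‖b‖ < 0; linarith, h1, by simp, fun k => ?_⟩)
        show G.r ≤ ‖(-(-‖b‖))⁻¹ • v - G.x k ((-(-‖b‖))⁻¹ • b)‖
        rw [neg_neg]
        have h10 : ‖(‖b‖)⁻¹ • b‖ ≤ 1 := by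
          rw [norm_smul, norm_inv, norm_norm, inv_mul_cancel₀ h9.ne']
        have h11 := hb k _ h10
        have h12 : G.R ≤ ‖(‖b‖)⁻¹ • v‖ := by
          rw [norm_smul, norm_inv, norm_norm, inv_mul_eq_div, le_div_iff₀ h9]
          rw [le_div_iff₀ hR] at h5
          linarith
        have h13 := norm_sub_norm_le ((‖b‖)⁻¹ • v) (G.x k ((‖b‖)⁻¹ • b))
        linarith
      · refine Or.inr (Or.inr ⟨?_, ?_, h1⟩)
        · show -‖b‖ = 0
          rw [← h9, neg_zero]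
        · exact norm_eq_zero.1 h9.symm

/-- **END1**: the half-space form gives the link of the graph system. -/
theorem isLink_of_khom [FiniteDimensional ℝ B] [FiniteDimensional ℝ V] (G : Sys B e m)
    (hR : 0 < G.R) {X : Type*} [TopologicalSpace X] {Z : Set X}
    (h : X ≃ₜ sphere (0 : ℝ × B × V) 1) (hZ : ∀ x, x ∈ Z ↔ (h x : ℝ × B × V) ∈ Khom G) :
    ∃ g : X ≃ₜ OnePoint (B × V), ∀ x, x ∈ Z ↔ ∃ p ∈ G.K, g x = (p : OnePoint (B × V)) := by
  obtain ⟨R', h1, h2, h3⟩ := exists_bound G hR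
  obtain ⟨f, hf⟩ := exists_sphere_homeo (E := ℝ × B × V) (continuous_flip G.R R')
    (fun l p hl => flip_smul l p hl) (flip_injective h1 h2) (flip_surjective h1 h2)
  obtain ⟨T, hT⟩ := exists_comp (Y := B × V) (ρ := max 1 G.R) (K := G.K)
    (le_trans zero_le_one (le_max_left _ _)) (by
      rintro ⟨b, v⟩ hp
      have h4 : ‖b‖ ≤ 1 ∧ ‖v‖ ≤ G.R := by
        rcases hp with ⟨-, h5, h6, -⟩ | ⟨-, h5, h6⟩ | ⟨k, h5, h6, -⟩
        · exact ⟨h5.le, h6⟩
        · exact ⟨h5, h6.le⟩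
        · refine ⟨h5, ?_⟩
          simp only at h6
          have h7 := G.bd k b
          have h8 : ‖v‖ ≤ ‖G.x k b‖ + ‖v - G.x k b‖ := by
            calc ‖v‖ = ‖G.x k b + (v - G.x k b)‖ := by rw [add_sub_cancel]
              _ ≤ _ := norm_add_le _ _
          linarith
      rw [Prod.norm_def]
      exact max_le (h4.1.trans (le_max_left _ _)) (h4.2.trans (le_max_right _ _)))
  refine ⟨(h.trans f).trans T, fun x => ?_⟩
  rw [hZ]
  have hx0 : (h x : ℝ × B × V) ≠ 0 := by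
    intro h0
    have := mem_sphere_zero_iff_norm.1 (h x).2
    rw [h0, norm_zero] at this
    exact zero_ne_one this
  rw [flip_mem G h1 h2 h3 hx0]
  obtain ⟨l, hl, hfx⟩ := hf (h x)
  rw [← cone_smul G.K hl, ← hfx]
  exact hT (f (h x))

end Flip

end Crest.Agent.R267.End1_532
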