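import Crest.Agent.R267.EndSys_864
import Crest.Agent.R267.End1_532

/-!
# Row 267, T3-end: from the zero set with flat plate zone and tubes to `Khom` (part a)

The three homogeneous homeomorphisms: shear of the sheet, wall, scaling of the fibre.
-/

set_option autoImplicit false

namespace Crest.Agent.R267.End2a_864

open Set Metric Filter Topology
open scoped RealInnerProductSpace
open Crest.Agent.R267.GS_808 Crest.Agent.R267.EndDef_864 Crest.Agent.R267.EndBas_864
  Crest.Agent.R267.EndSys_864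

/-! ### zeros of functions which are monotone at their zeros -/

lemma exists_zero_fun {X : Type*} [TopologicalSpace X] (f : X → ℝ → ℝ)
    (hf : Continuous fun p : X × ℝ => f p.1 p.2)
    (h1 : ∀ x a a', a < a' → 0 ≤ f x a' → 0 < f x a) (h2 : ∀ x, ∃ a, 0 < f x a)
    (h3 : ∀ x, ∃ a, f x a < 0) :
    ∃ g : X → ℝ, Continuous g ∧ ∀ x a, (0 < f x a ↔ a < g x) ∧ (f x a = 0 ↔ a = g x) := by
  have hx : ∀ x, ∃ a, f x a = 0 := by
    intro x
    obtain ⟨a1, h4⟩ := h2 x
    obtain ⟨a2, h5⟩ := h3 x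
    have h6 : a1 ≤ a2 := by
      by_contra h
      push Not at h
      exact absurd (h1 x a2 a1 h h4.le) (not_lt.2 h5.le)
    have h7 : ContinuousOn (f x) (Icc a1 a2) :=
      (hf.comp (Continuous.prodMk_right x)).continuousOn
    obtain ⟨a, -, ha⟩ := intermediate_value_Icc' h6 h7 ⟨h5.le, h4.le⟩
    exact ⟨a, ha⟩
  choose g hg using hx
  have key : ∀ x a, (0 < f x a ↔ a < g x) ∧ (f x a = 0 ↔ a = g x) := by
    intro x a
    have lt : a < g x → 0 < f x a := fun h => h1 x a (g x) h (hg x).ge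
    have gt : g x < a → f x a < 0 := by
      intro h
      by_contra h8
      push Not at h8
      exact absurd (hg x) (h1 x (g x) a h h8).ne'
    constructor
    · refine ⟨fun h => ?_, lt⟩
      rcases lt_trichotomy a (g x) with h8 | h8 | h8
      · exact h8
      · rw [h8, hg x] at h; exact absurd h (lt_irrefl _)
      · exact absurd h (not_lt.2 (gt h8).le)
    · refine ⟨fun h => ?_, fun h => by rw [h, hg x]⟩
      rcases lt_trichotomy a (g x) with h8 | h8 | h8
      · exact absurd h (lt h8).ne'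
      · exact h8
      · exact absurd h (gt h8).ne
  refine ⟨g, ?_, key⟩
  rw [OrderTopology.continuous_iff]
  intro a
  have hfa : Continuous fun x => f x a := hf.comp (Continuous.prodMk_left a)
  constructor
  · have : g ⁻¹' Ioi a = {x | 0 < f x a} := by
      ext x
      exact (key x a).1.symm
    rw [this]
    exact isOpen_lt continuous_const hfa
  · have : g ⁻¹' Iio a = {x | f x a < 0} := by
      ext x
      show g x < a ↔ f x a < 0
      have k := key x a
      constructor
      · intro h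
        rcases lt_trichotomy (f x a) 0 with h8 | h8 | h8
        · exact h8
        · exact absurd (k.2.1 h8) h.ne'
        · exact absurd (k.1.1 h8) (not_lt.2 h.le)
      · intro h
        rcases lt_trichotomy a (g x) with h8 | h8 | h8
        · exact absurd (k.1.2 h8) (not_lt.2 h.le)
        · exact absurd (k.2.2 h8) h.ne
        · exact h8
    rw [this]
    exact isOpen_lt hfa continuous_const

/-- homogeneous maps which are continuous off `0` are continuous. -/
lemma continuous_of_homog {E F : Type*} [NormedAddCommGroup E] [NormedSpace ℝ E]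
    [FiniteDimensional ℝ E] [NormedAddCommGroup F] [NormedSpace ℝ F] {f : E → F}
    (hf : ContinuousOn f {0}ᶜ) (hh : ∀ (c : ℝ) p, 0 < c → f (c • p) = c • f p) : Continuous f := by
  have h0 : f 0 = 0 := by
    have h1 := hh 2 0 two_pos
    rw [smul_zero, two_smul] at h1
    exact left_eq_add.1 h1
  rw [continuous_iff_continuousAt]
  intro x
  by_cases hx : x = 0
  · obtain ⟨M, hM⟩ := (isCompact_sphere (0 : E) 1).exists_bound_of_continuousOn
      (f := f) (hf.mono fun y hy h => by
        rw [mem_singleton_iff] at h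
        rw [h, mem_sphere_iff_norm, sub_zero, norm_zero] at hy
        exact zero_ne_one hy)
    have hM' : ∀ y, ‖f y‖ ≤ M * ‖y‖ := by
      intro y
      by_cases hy : y = 0
      · rw [hy, h0, norm_zero, norm_zero, mul_zero]
      · have h2 : 0 < ‖y‖ := norm_pos_iff.2 hy
        have h3 := hM (‖y‖⁻¹ • y) (by
          rw [mem_sphere_iff_norm, sub_zero, norm_smul, norm_inv, norm_norm,
            inv_mul_cancel₀ h2.ne'])
        rw [hh _ _ (inv_pos.2 h2), norm_smul, norm_inv, norm_norm, inv_mul_le_iff₀ h2] at h3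
        linarith
    rw [hx, ContinuousAt, h0]
    refine squeeze_zero_norm hM' ?_
    have : Tendsto (fun y : E => M * ‖y‖) (𝓝 0) (𝓝 (M * ‖(0 : E)‖)) :=
      (continuous_const.mul continuous_norm).continuousAt
    rwa [norm_zero, mul_zero] at this
  · exact (hf x hx).continuousAt (isOpen_compl_singleton.mem_nhds hx)

/-! ### the wall profile -/

/-- `F̃(q, o)`. -/
noncomputable def Ft (q o : ℝ) : ℝ := max q (min ((q + o) / 2) (q + o))

/-- its inverse in the first variable. -/
noncomputable def Gt (x o : ℝ) : ℝ := min x (max (2 * x - o) (x - o))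

lemma Gt_Ft (q o : ℝ) (ho : 0 ≤ o) : Gt (Ft q o) o = q := by
  rcases le_total o q with h | h
  · have e1 : Ft q o = q := by
      rw [Ft, max_eq_left]
      exact (min_le_left _ _).trans (by linarith)
    rw [e1, Gt, min_eq_left]
    exact le_max_of_le_left (by linarith)
  · rcases le_total (-o) q with h' | h'
    · have e1 : Ft q o = (q + o) / 2 := by
        rw [Ft, min_eq_left (by linarith), max_eq_right (by linarith)]
      rw [e1, Gt, max_eq_left (by linarith), min_eq_right (by linarith)]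
      ring
    · have e1 : Ft q o = q + o := by
        rw [Ft, min_eq_right (by linarith), max_eq_right (by linarith)]
      rw [e1, Gt, max_eq_right (by linarith), min_eq_right (by linarith)]
      ring

lemma Ft_Gt (x o : ℝ) (ho : 0 ≤ o) : Ft (Gt x o) o = x := by
  rcases le_total o x with h | h
  · have e1 : Gt x o = x := by
      rw [Gt, min_eq_left]
      exact le_max_of_le_left (by linarith)
    rw [e1, Ft, max_eq_left]
    exact (min_le_left _ _).trans (by linarith)
  · rcases le_total 0 x with h' | h'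
    · have e1 : Gt x o = 2 * x - o := by
        rw [Gt, max_eq_left (by linarith), min_eq_right (by linarith)]
      rw [e1, Ft, min_eq_left (by linarith), max_eq_right (by linarith)]
      ring
    · have e1 : Gt x o = x - o := by
        rw [Gt, max_eq_right (by linarith), min_eq_right (by linarith)]
      rw [e1, Ft, min_eq_right (by linarith), max_eq_right (by linarith)]
      ring

lemma Ft_of_le {q o : ℝ} (h : o ≤ q) (_ho : 0 ≤ o) : Ft q o = q := by
  rw [Ft, max_eq_left]
  exact (min_le_left _ _).trans (by linarith)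

lemma Ft_eq_zero {q o : ℝ} (ho : 0 ≤ o) : Ft q o = 0 ↔ q = -o := by
  constructor
  · intro h
    rw [← Gt_Ft q o ho, h, Gt, mul_zero, zero_sub, max_self, min_eq_right (by linarith)]
  · rintro rfl
    rw [Ft, neg_add_cancel, zero_div, min_self, max_eq_right (by linarith)]

lemma continuous_Ft : Continuous fun p : ℝ × ℝ => Ft p.1 p.2 := by
  unfold Ft
  fun_prop

lemma Ft_mul {c : ℝ} (hc : 0 < c) (q o : ℝ) : Ft (c * q) (c * o) = c * Ft q o := by
  rw [Ft, Ft, mul_max_of_nonneg _ _ hc.le, mul_min_of_nonneg _ _ hc.le]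
  congr 2 <;> ring


/-! ### the hypotheses of END2 -/

/-- the data produced by the function side: sheet function `c`, plate zone function `a0`. -/
structure E2 {n m : ℕ} (D : HD n m) where
  c : W n → W n → ℝ
  a0 : W n → W n → ℝ
  r : ℝ
  κ1 : ℝ
  κ2 : ℝ
  κ3 : ℝ
  Cp : ℝ
  hr : 0 < r
  hκ3 : 0 < κ3
  hκ23 : κ3 ≤ κ2
  hκ1 : (1 + √(n + 3 : ℝ)) * κ3 ≤ κ1
  hCp : κ2 ≤ Cp
  kap0 : ∀ s, s ≠ 0 → D.ka s ≠ 0 → ∀ j, s j < 0
  cc : Continuous fun p : W n × W n => c p.1 p.2
  ch : ∀ (l : ℝ) s t, 0 < l → c (l • s) (l • t) = l * c s t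
  /-- over low base points `c` is strictly decreasing in the direction `u1` -/
  cm : ∀ s, s ≠ 0 → (∀ j, s j ≤ 0) → ∀ (t : W n) (h h' : ℝ),
    h < h' → c s (t + h' • u1 n) < c s (t + h • u1 n)
  cpos : ∀ s, s ≠ 0 → (∀ j, s j ≤ 0) → ∀ t, ∃ h : ℝ, 0 < c s (t + h • u1 n)
  cneg : ∀ s, s ≠ 0 → (∀ j, s j ≤ 0) → ∀ t, ∃ h : ℝ, c s (t + h • u1 n) < 0
  clin : ∀ s, s ≠ 0 → D.ka s ≠ 0 → ∀ t, ‖t‖ ≤ κ1 * ‖s‖ → (c s t = 0 ↔ ⟪D.nz s, t⟫ = 0)
  cball : ∀ s k t, s ≠ 0 → a0 s 0 ≤ 0 → ‖D.A s (t - D.eta k s)‖ ≤ r * ‖s‖ →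
    (c s t = 0 ↔ ⟪D.nrm k s, t - D.eta k s⟫ = 0)
  c00 : ∀ h : ℝ, c 0 (h • u1 n) = 0 → h = 0
  ca : Continuous fun p : W n × W n => a0 p.1 p.2
  ah : ∀ (l : ℝ) s t, 0 < l → a0 (l • s) (l • t) = l * a0 s t
  ahor : ∀ s t, a0 s t = a0 s (hor t)
  asm : ∀ s t, ‖hor t‖ ≤ κ2 * ‖s‖ → a0 s t = a0 s 0
  ale : ∀ s t, 0 ≤ a0 s t → 0 ≤ a0 s 0
  am : ∀ (l : ℝ) s t, 0 < l → 0 ≤ a0 s t → 0 < a0 (s - l • u1 n) t
  apos : ∀ s t, ∃ l : ℝ, 0 < a0 (s - l • u1 n) t
  aneg : ∀ s t, ∃ l : ℝ, a0 (s + l • u1 n) t < 0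
  abd : ∀ s t, 0 ≤ a0 s t → ‖hor t‖ ≤ Cp * ‖s‖
  asgn : ∀ s, 0 ≤ a0 s 0 → ⟪u1 n, s⟫ ≤ 0
  am0 : ∀ b, a0 (bp b (-(D.m0 b))) 0 = 0
  aka : ∀ s t, s ≠ 0 → 0 ≤ a0 s t → D.ka s = 1
  T1 : ∀ s k, s ≠ 0 → ‖hor (D.eta k s)‖ + r * ‖s‖ ≤ κ2 * ‖s‖
  T1k : ∀ s k, s ≠ 0 → D.ka s ≠ 0 → ‖hor (D.eta k s)‖ + r * ‖s‖ ≤ κ3 * ‖s‖

namespace E2

variable {n m : ℕ} {D : HD n m} (P : E2 D)

/-- low base points -/
def Low (n : ℕ) : Set (W n × W n) := {p | p.1 ≠ 0 ∧ ∀ j, p.1 j ≤ 0}

lemma exists_tau : ∃ τ : Low n → ℝ, Continuous τ ∧ ∀ (p : Low n) h,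
    (0 < P.c p.1.1 (hor p.1.2 + h • u1 n) ↔ h < τ p) ∧
    (P.c p.1.1 (hor p.1.2 + h • u1 n) = 0 ↔ h = τ p) := by
  refine exists_zero_fun (fun (p : Low n) h => P.c p.1.1 (hor p.1.2 + h • u1 n)) ?_ ?_ ?_ ?_
  · refine P.cc.comp (f := fun p : Low n × ℝ => (p.1.1.1, hor p.1.1.2 + p.2 • u1 n)) ?_
    have h1 : Continuous fun p : Low n × ℝ => (p.1.1 : W n × W n) :=
      continuous_subtype_val.comp continuous_fst
    exact (continuous_fst.comp h1).prodMk ((continuous_hor.comp (continuous_snd.comp h1)).add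
      (continuous_snd.smul continuous_const))
  · intro p a a' h h'
    exact lt_of_le_of_lt h' (P.cm _ p.2.1 p.2.2 _ _ _ h)
  · intro p
    exact P.cpos _ p.2.1 p.2.2 _
  · intro p
    exact P.cneg _ p.2.1 p.2.2 _

/-- height of the sheet over low base points. -/
noncomputable def tau (p : Low n) : ℝ := Classical.choose P.exists_tau p

lemma continuous_tau : Continuous P.tau := (Classical.choose_spec P.exists_tau).1

lemma tau_spec (p : Low n) (h : ℝ) :
    P.c p.1.1 (hor p.1.2 + h • u1 n) = 0 ↔ h = P.tau p :=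
  ((Classical.choose_spec P.exists_tau).2 p h).2

lemma tau_hor (s t t' : W n) (hs : (s, t) ∈ Low n) (h : hor t = hor t') :
    P.tau ⟨(s, t), hs⟩ = P.tau ⟨(s, t'), hs⟩ := by
  rw [← tau_spec]
  simp only
  rw [← h]
  exact (P.tau_spec ⟨(s, t), hs⟩ _).2 rfl

lemma low_smul {l : ℝ} (hl : 0 < l) {p : W n × W n} (h : p ∈ Low n) : l • p ∈ Low n := by
  refine ⟨smul_ne_zero hl.ne' h.1, fun j => ?_⟩
  have h1 := h.2 j
  simp only [Prod.smul_fst, PiLp.smul_apply, smul_eq_mul]
  exact mul_nonpos_of_nonneg_of_nonpos hl.le h1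

lemma tau_smul {l : ℝ} (hl : 0 < l) {p : W n × W n} (h : p ∈ Low n) :
    P.tau ⟨l • p, low_smul hl h⟩ = l * P.tau ⟨p, h⟩ := by
  symm
  rw [← tau_spec]
  have h1 := (P.tau_spec ⟨p, h⟩ _).2 rfl
  simp only [Prod.smul_fst, Prod.smul_snd, hor_smul] at h1 ⊢
  rw [mul_smul, ← smul_add, P.ch _ _ _ hl, h1, mul_zero]

/-- cut-off in the fibre. -/
noncomputable def ze (p : W n × W n) : ℝ := max 0 (min 1 (2 - ‖hor p.2‖ / (P.Cp * ‖p.1‖)))

open Classical in
/-- amount of the shear. -/
noncomputable def sig (p : W n × W n) : ℝ :=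
  if h : p ∈ Low n then D.ka p.1 * P.ze p * P.tau ⟨p, h⟩ else 0

lemma hκ2 : 0 < P.κ2 := P.hκ3.trans_le P.hκ23

lemma Cp_pos : 0 < P.Cp := P.hκ2.trans_le P.hCp

lemma sig_hor (s t t' : W n) (h : hor t = hor t') : P.sig (s, t) = P.sig (s, t') := by
  unfold sig
  by_cases hs : (s, t) ∈ Low n
  · have hs' : (s, t') ∈ Low n := hs
    rw [dif_pos hs, dif_pos hs', P.tau_hor s t t' hs h, ze, ze]
    simp only [h]
  · have hs' : (s, t') ∉ Low n := hs
    rw [dif_neg hs, dif_neg hs']

lemma sig_smul (l : ℝ) (p : W n × W n) (hl : 0 < l) : P.sig (l • p) = l * P.sig p := by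
  unfold sig
  by_cases hp : p ∈ Low n
  · rw [dif_pos hp, dif_pos (low_smul hl hp), P.tau_smul hl hp]
    have h1 : P.ze (l • p) = P.ze p := by
      rw [ze, ze]
      simp only [Prod.smul_fst, Prod.smul_snd, hor_smul, norm_smul, Real.norm_of_nonneg hl.le]
      rw [show P.Cp * (l * ‖p.1‖) = l * (P.Cp * ‖p.1‖) by ring, mul_div_mul_left _ _ hl.ne']
    rw [h1, Prod.smul_fst, D.kah l p.1 hl]
    ring
  · have h2 : l • p ∉ Low n := by
      intro h
      apply hp
      have h3 := low_smul (inv_pos.2 hl) h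
      rwa [smul_smul, inv_mul_cancel₀ hl.ne', one_smul] at h3
    rw [dif_neg hp, dif_neg h2, mul_zero]

lemma ze_continuousOn : ContinuousOn P.ze {p | p.1 ≠ 0} := by
  have hC := P.Cp_pos
  have h0 : ContinuousOn (fun p : W n × W n => ‖hor p.2‖ / (P.Cp * ‖p.1‖)) {p | p.1 ≠ 0} := ?_
  · have h1 : Continuous fun x : ℝ => max 0 (min 1 (2 - x)) := by fun_prop
    exact h1.comp_continuousOn h0
  refine ContinuousOn.div ?_ ?_ fun p hp => mul_ne_zero hC.ne' (norm_ne_zero_iff.2 hp)
  · exact (continuous_hor.comp continuous_snd).norm.continuousOn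
  · exact (continuous_const.mul continuous_fst.norm).continuousOn

lemma sig_continuousOn_low : ContinuousOn P.sig (Low n) := by
  rw [continuousOn_iff_continuous_domRestrict]
  have h1 : (Low n).domRestrict P.sig = fun p : Low n => D.ka p.1.1 * P.ze p.1 * P.tau p := by
    funext p
    rw [domRestrict_apply, sig, dif_pos p.2]
  rw [h1]
  refine (Continuous.mul ?_ ?_).mul P.continuous_tau
  · exact D.cka.comp_continuous (continuous_fst.comp continuous_subtype_val) fun p => p.2.1
  · exact P.ze_continuousOn.comp_continuous continuous_subtype_val fun p => p.2.1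

lemma sig_eq_zero_of_ka {p : W n × W n} (h : D.ka p.1 = 0) : P.sig p = 0 := by
  unfold sig
  split_ifs
  · rw [h, zero_mul, zero_mul]
  · rfl

lemma sig_continuousAt {p0 : W n × W n} (hs0 : p0.1 ≠ 0) : ContinuousAt P.sig p0 := by
  have hcoord : ∀ j, Continuous fun p : W n × W n => p.1 j := fun j =>
    ((continuous_apply j).comp (PiLp.continuous_ofLp 2 _)).comp continuous_fst
  by_cases hp0 : p0 ∈ Low n
  · by_cases hk : D.ka p0.1 = 0
    · have h1 : ContinuousWithinAt P.sig (Low n) p0 := P.sig_continuousOn_low p0 hp0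
      have h2 : ContinuousWithinAt P.sig (Low n)ᶜ p0 := by
        refine ContinuousWithinAt.congr (f := fun _ => (0 : ℝ)) continuousWithinAt_const ?_
          (P.sig_eq_zero_of_ka hk)
        intro p hp
        rw [sig, dif_neg hp]
      have h3 := h1.union h2
      rwa [union_compl_self, continuousWithinAt_univ] at h3
    · have h1 : {p : W n × W n | p.1 ≠ 0} ∈ 𝓝 p0 :=
        (isOpen_ne.preimage continuous_fst).mem_nhds hs0
      have h2 : ∀ j, {p : W n × W n | p.1 j < 0} ∈ 𝓝 p0 := fun j =>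
        (isOpen_lt (hcoord j) continuous_const).mem_nhds (P.kap0 _ hs0 hk j)
      have h3 : Low n ∈ 𝓝 p0 := by
        filter_upwards [h1, Filter.eventually_all.2 h2] with p h4 h5
        exact ⟨h4, fun j => (h5 j).le⟩
      exact (P.sig_continuousOn_low p0 hp0).continuousAt h3
  · have h1 : ∃ j, 0 < p0.1 j := by
      by_contra h
      push Not at h
      exact hp0 ⟨hs0, h⟩
    obtain ⟨j, hj⟩ := h1
    have h2 : {p : W n × W n | 0 < p.1 j} ∈ 𝓝 p0 :=
      (isOpen_lt continuous_const (hcoord j)).mem_nhds hj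
    have h3 : P.sig =ᶠ[𝓝 p0] fun _ => 0 := by
      filter_upwards [h2] with p hp
      rw [sig, dif_neg]
      intro h
      exact absurd (h.2 j) (not_le.2 hp)
    exact continuousAt_const.congr h3.symm

lemma sig_eventually_zero {p0 : W n × W n} (hs0 : p0.1 = 0) (hy : hor p0.2 ≠ 0) :
    P.sig =ᶠ[𝓝 p0] fun _ => 0 := by
  have hC := P.Cp_pos
  have h1 : {p : W n × W n | 2 * P.Cp * ‖p.1‖ < ‖hor p.2‖} ∈ 𝓝 p0 := by
    refine IsOpen.mem_nhds (isOpen_lt (by fun_prop) (continuous_hor.comp continuous_snd).norm) ?_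
    show 2 * P.Cp * ‖p0.1‖ < ‖hor p0.2‖
    rw [hs0, norm_zero, mul_zero]
    exact norm_pos_iff.2 hy
  filter_upwards [h1] with p hp
  unfold sig
  split_ifs with h
  · have h3 : P.ze p = 0 := by
      rw [ze, max_eq_left]
      have h4 : 0 < P.Cp * ‖p.1‖ := mul_pos hC (norm_pos_iff.2 h.1)
      have h5 : 2 ≤ ‖hor p.2‖ / (P.Cp * ‖p.1‖) := by
        rw [le_div_iff₀ h4]
        have : 2 * P.Cp * ‖p.1‖ < ‖hor p.2‖ := hp
        linarith
      exact (min_le_right _ _).trans (by linarith)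
    rw [h3]; ring
  · rfl

lemma hor_hor (v : W n) : hor (hor v) = hor v := by
  rw [hor, inner_u1_hor, zero_smul, sub_zero]

lemma continuous_sig : Continuous P.sig := by
  rw [continuous_iff_continuousAt]
  intro p0
  by_cases hs0 : p0.1 = 0
  · by_cases hy : hor p0.2 = 0
    · set K : Set (W n × W n) := {p | ‖p‖ = 1 ∧ ⟪u1 n, p.2⟫ = 0} with hK
      have hKc : IsCompact K := by
        refine (isCompact_sphere (0 : W n × W n) 1).of_isClosed_subset ?_ ?_
        · refine (isClosed_eq continuous_norm continuous_const).inter (isClosed_eq ?_ continuous_const)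
          fun_prop
        · intro p hp
          rw [mem_sphere_iff_norm, sub_zero]
          exact hp.1
      have hcK : ContinuousOn P.sig K := by
        intro p hp
        refine ContinuousAt.continuousWithinAt ?_
        by_cases h : p.1 = 0
        · refine continuousAt_const.congr (P.sig_eventually_zero h ?_).symm
          intro h2
          have h3 : p.2 = 0 := by rw [← hor_add_u1 p.2, h2, hp.2, zero_smul, zero_add]
          have h4 : p = 0 := Prod.ext h h3
          have h5 := hp.1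
          rw [h4, norm_zero] at h5
          exact zero_ne_one h5
        · exact P.sig_continuousAt h
      obtain ⟨M, hM⟩ := hKc.exists_bound_of_continuousOn hcK
      have hM' : ∀ p : W n × W n, ‖P.sig p‖ ≤ M * ‖(p.1, hor p.2)‖ := by
        intro p
        by_cases h : (p.1, hor p.2) = (0 : W n × W n)
        · rw [h, norm_zero, mul_zero]
          have h1 : p ∉ Low n := fun h2 => h2.1 (congrArg Prod.fst h)
          rw [sig, dif_neg h1, norm_zero]
        · have h2 : 0 < ‖(p.1, hor p.2)‖ := norm_pos_iff.2 h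
          have h3 := hM (‖(p.1, hor p.2)‖⁻¹ • (p.1, hor p.2)) ⟨by
            rw [norm_smul, norm_inv, norm_norm, inv_mul_cancel₀ h2.ne'], by
            rw [Prod.smul_snd, inner_smul_right, inner_u1_hor, mul_zero]⟩
          rw [P.sig_smul _ _ (inv_pos.2 h2), P.sig_hor p.1 (hor p.2) p.2 (hor_hor _), norm_mul,
            norm_inv, norm_norm, inv_mul_le_iff₀ h2] at h3
          linarith
      have h0 : P.sig p0 = 0 := by
        have h1 : p0 ∉ Low n := fun h2 => h2.1 hs0
        rw [sig, dif_neg h1]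
      rw [ContinuousAt, h0]
      refine squeeze_zero_norm hM' ?_
      have h1 : Continuous fun p : W n × W n => M * ‖(p.1, hor p.2)‖ :=
        continuous_const.mul (continuous_fst.prodMk (continuous_hor.comp continuous_snd)).norm
      have h2 := h1.continuousAt (x := p0)
      rw [ContinuousAt, hs0, hy] at h2
      have h3 : ‖((0 : W n), (0 : W n))‖ = 0 := norm_zero
      rwa [h3, mul_zero] at h2
    · exact continuousAt_const.congr (P.sig_eventually_zero hs0 hy).symm
  · exact P.sig_continuousAt hs0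

end E2

end Crest.Agent.R267.End2a_864
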