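import Crest.Agent.R267.End2a_864

/-!
# Row 267, T3-end: from the zero set with flat plate zone and tubes to `Khom` (part b)

The height of the plate zone, the scaling of the fibre, the homogeneous homeomorphism.
-/

set_option autoImplicit false

namespace Crest.Agent.R267.End2b_864

open Set Metric Filter Topology
open scoped RealInnerProductSpace
open Crest.Agent.R267.GS_808 Crest.Agent.R267.EndDef_864 Crest.Agent.R267.EndBas_864
  Crest.Agent.R267.EndSys_864 Crest.Agent.R267.End2a_864 Crest.Agent.R267.End1_532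

/-! ### homogeneous bijections between different spaces -/

section Hom

variable {E E' : Type*} [NormedAddCommGroup E] [NormedSpace ℝ E] [NormedAddCommGroup E']
  [NormedSpace ℝ E']

/-- A positively homogeneous continuous bijection of finite dimensional spaces induces a
homeomorphism of the unit spheres. -/
theorem exists_sphere_homeo' [FiniteDimensional ℝ E] {F : E → E'} (hF : Continuous F)
    (hh : ∀ (l : ℝ) (p : E), 0 < l → F (l • p) = l • F p) (hi : Function.Injective F)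
    (hs : Function.Surjective F) :
    ∃ g : sphere (0 : E) 1 ≃ₜ sphere (0 : E') 1, ∀ x, ∃ l : ℝ, 0 < l ∧ (g x : E') = l • F x := by
  have h0 : F 0 = 0 := by
    have h1 : F 0 = (2 : ℝ) • F 0 := by
      conv_lhs => rw [← smul_zero (2 : ℝ)]
      exact hh 2 0 two_pos
    have h2 : F 0 = F 0 + F 0 := by rwa [two_smul] at h1
    exact (left_eq_add.1 h2)
  have hne : ∀ x : sphere (0 : E) 1, F x ≠ 0 := by
    intro x hx
    have h1 : (x : E) = 0 := hi (by rw [hx, h0])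
    have h2 := mem_sphere_zero_iff_norm.1 x.2
    rw [h1, norm_zero] at h2
    exact zero_ne_one h2
  let g0 : sphere (0 : E) 1 → sphere (0 : E') 1 := fun x => nrm (F x) (hne x)
  have hg0 : Continuous g0 := by
    refine Continuous.subtype_mk ?_ _
    have h1 : Continuous fun x : sphere (0 : E) 1 => F x := hF.comp continuous_subtype_val
    exact (h1.norm.inv₀ fun x => norm_ne_zero_iff.2 (hne x)).smul h1
  have hinj : Function.Injective g0 := by
    intro x y hxy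
    have h1 : ‖F x‖⁻¹ • F (x : E) = ‖F y‖⁻¹ • F (y : E) := congrArg Subtype.val hxy
    have hx : 0 < ‖F (x : E)‖⁻¹ := inv_pos.2 (norm_pos_iff.2 (hne x))
    have hy : 0 < ‖F (y : E)‖⁻¹ := inv_pos.2 (norm_pos_iff.2 (hne y))
    rw [← hh _ _ hx, ← hh _ _ hy] at h1
    have h2 := hi h1
    have h3 := congrArg norm h2
    rw [norm_smul, norm_smul, Real.norm_of_nonneg hx.le, Real.norm_of_nonneg hy.le,
      mem_sphere_zero_iff_norm.1 x.2, mem_sphere_zero_iff_norm.1 y.2, mul_one, mul_one] at h3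
    rw [h3] at h2
    exact Subtype.ext (smul_right_injective E hy.ne' h2)
  have hsur : Function.Surjective g0 := by
    intro y
    obtain ⟨p, hp⟩ := hs (y : E')
    have hp0 : p ≠ 0 := by
      rintro rfl
      rw [h0] at hp
      have h2 := mem_sphere_zero_iff_norm.1 y.2
      rw [← hp, norm_zero] at h2
      exact zero_ne_one h2
    have hn : 0 < ‖p‖⁻¹ := inv_pos.2 (norm_pos_iff.2 hp0)
    refine ⟨nrm p hp0, Subtype.ext ?_⟩
    show ‖F (‖p‖⁻¹ • p)‖⁻¹ • F (‖p‖⁻¹ • p) = y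
    rw [hh _ _ hn, hp, norm_smul, mem_sphere_zero_iff_norm.1 y.2, mul_one,
      Real.norm_of_nonneg hn.le, smul_smul, inv_mul_cancel₀ hn.ne', one_smul]
  have : CompactSpace (sphere (0 : E) 1) := isCompact_iff_compactSpace.1 (isCompact_sphere 0 1)
  refine ⟨Continuous.homeoOfEquivCompactToT2 (f := Equiv.ofBijective g0 ⟨hinj, hsur⟩) hg0,
    fun x => ⟨‖F x‖⁻¹, inv_pos.2 (norm_pos_iff.2 (hne x)), rfl⟩⟩

end Hom

/-! ### scaling of the fibre -/

section Fs

variable {V : Type*} [NormedAddCommGroup V] [NormedSpace ℝ V]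

/-- radial map of the fibre: ball of radius `κ S` to ball of radius `κ x`, linear there. -/
noncomputable def fs (κ S x : ℝ) (t : V) : V := (1 + (x - S) * κ / max (κ * S) ‖t‖) • t

lemma fs_small {κ S x : ℝ} {t : V} (hκ : 0 < κ) (hS : 0 < S) (h : ‖t‖ ≤ κ * S) :
    fs κ S x t = (x / S) • t := by
  rw [fs, max_eq_left h]
  congr 1
  field_simp
  ring

lemma fs_large {κ S x : ℝ} {t : V} (h : κ * S ≤ ‖t‖) (ht : t ≠ 0) :
    fs κ S x t = ((‖t‖ + (x - S) * κ) / ‖t‖) • t := by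
  have h0 : ‖t‖ ≠ 0 := norm_ne_zero_iff.2 ht
  rw [fs, max_eq_right h]
  congr 1
  field_simp

lemma fs_zero (κ S x : ℝ) : fs κ S x (0 : V) = 0 := by rw [fs, smul_zero]

lemma norm_fs_large {κ S x : ℝ} {t : V} (hκ : 0 < κ) (hx : 0 ≤ x) (h : κ * S ≤ ‖t‖)
    (ht : t ≠ 0) : ‖fs κ S x t‖ = ‖t‖ + (x - S) * κ := by
  have h0 : 0 < ‖t‖ := norm_pos_iff.2 ht
  have h1 : 0 ≤ ‖t‖ + (x - S) * κ := by nlinarith
  rw [fs_large h ht, norm_smul, Real.norm_of_nonneg (div_nonneg h1 h0.le), div_mul_cancel₀ _ h0.ne']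

lemma fs_fs {κ S x : ℝ} (hκ : 0 < κ) (hS : 0 ≤ S) (hx : 0 ≤ x) (h : S = 0 ↔ x = 0) (t : V) :
    fs κ x S (fs κ S x t) = t := by
  by_cases ht : t = 0
  · rw [ht, fs_zero, fs_zero]
  have h0 : 0 < ‖t‖ := norm_pos_iff.2 ht
  rcases le_or_gt (κ * S) ‖t‖ with h1 | h1
  · have h2 := norm_fs_large (S := S) (x := x) hκ hx h1 ht
    have h3 : 0 < ‖t‖ + (x - S) * κ := by
      rcases hx.eq_or_lt with h3 | h3
      · have h4 := h.2 h3.symm
        rw [h4, ← h3]
        linarith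
      · nlinarith [mul_pos hκ h3]
    have h4 : fs κ S x t ≠ 0 := by
      rw [← norm_pos_iff, h2]
      exact h3
    rw [fs_large (t := fs κ S x t) (by rw [h2]; nlinarith) h4, h2, fs_large h1 ht, smul_smul]
    rw [show (‖t‖ + (x - S) * κ + (S - x) * κ) / (‖t‖ + (x - S) * κ) *
      ((‖t‖ + (x - S) * κ) / ‖t‖) = 1 by field_simp; ring, one_smul]
  · have hS' : 0 < S := by
      by_contra h2
      have h3 : S = 0 := le_antisymm (not_lt.1 h2) hS
      rw [h3, mul_zero] at h1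
      linarith
    have hx' : 0 < x := lt_of_le_of_ne hx fun h2 => hS'.ne' (h.2 h2.symm)
    rw [fs_small hκ hS' h1.le]
    rw [fs_small hκ hx', smul_smul]
    · rw [show S / x * (x / S) = 1 by field_simp, one_smul]
    · rw [norm_smul, Real.norm_of_nonneg (by positivity)]
      calc x / S * ‖t‖ ≤ x / S * (κ * S) := by gcongr
        _ = κ * x := by field_simp

lemma fs_smul {κ S x l : ℝ} (hl : 0 < l) (t : V) :
    fs κ (l * S) (l * x) (l • t) = l • fs κ S x t := by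
  rw [fs, fs, norm_smul, Real.norm_of_nonneg hl.le, smul_smul, smul_smul]
  congr 1
  have h1 : max (κ * (l * S)) (l * ‖t‖) = l * max (κ * S) ‖t‖ := by
    rw [mul_max_of_nonneg _ _ hl.le]
    congr 1
    ring
  rw [h1, show (l * x - l * S) * κ = l * ((x - S) * κ) by ring, mul_div_mul_left _ _ hl.ne']
  ring

/-- norm of the image from below. -/
lemma le_norm_fs {κ κ' S x : ℝ} {t : V} (hκ : 0 < κ) (hκ' : κ' ≤ κ) (hx : 0 ≤ x) (hS : 0 < S)
    (h : κ' * S ≤ ‖t‖) (ht : t ≠ 0) : κ' * x ≤ ‖fs κ S x t‖ := by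
  rcases le_or_gt (κ * S) ‖t‖ with h1 | h1
  · rw [norm_fs_large hκ hx h1 ht]
    nlinarith
  · rw [fs_small hκ hS h1.le, norm_smul, Real.norm_of_nonneg (by positivity)]
    calc κ' * x = x / S * (κ' * S) := by field_simp
      _ ≤ x / S * ‖t‖ := by gcongr

lemma small_of_norm_fs {κ S x : ℝ} {t : V} (hκ : 0 < κ) (hx : 0 ≤ x) (hS : 0 ≤ S)
    (h : ‖fs κ S x t‖ ≤ κ * x) : ‖t‖ ≤ κ * S := by
  by_contra h1
  push Not at h1
  have ht : t ≠ 0 := by
    rintro rfl
    rw [norm_zero] at h1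
    nlinarith [mul_nonneg hκ.le hS]
  rw [norm_fs_large hκ hx h1.le ht] at h
  nlinarith

lemma fs_inner_zero {V : Type*} [NormedAddCommGroup V] [InnerProductSpace ℝ V] {κ S x : ℝ}
    (hκ : 0 < κ) (hS : 0 ≤ S) (hx : 0 ≤ x) (h : S = 0 ↔ x = 0) (e t : V) :
    ⟪e, fs κ S x t⟫ = 0 ↔ ⟪e, t⟫ = 0 := by
  have key : ∀ (S x : ℝ) (t : V), ⟪e, t⟫ = 0 → ⟪e, fs κ S x t⟫ = 0 := by
    intro S x t h
    rw [fs, inner_smul_right, h, mul_zero]
  refine ⟨fun h1 => ?_, key S x t⟩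
  rw [← fs_fs hκ hS hx h t]
  exact key x S _ h1

end Fs

/-! ### the height of the plate zone -/

section Wall

variable {n m : ℕ} {D : HD n m} (P : E2 D)

lemma bp_sub_u1 (b : Bc (n + 2)) (a l : ℝ) : bp (n := n) b a - l • u1 n = bp b (a - l) := by
  rw [bp_z b a, bp_z b (a - l), sub_smul]
  abel

lemma bp_add_u1 (b : Bc (n + 2)) (a l : ℝ) : bp (n := n) b a + l • u1 n = bp b (a + l) := by
  rw [bp_z b a, bp_z b (a + l), add_smul]
  abel

lemma exists_mm : ∃ g : Bc (n + 2) × W n → ℝ, Continuous g ∧ ∀ x a,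
    (0 < P.a0 (bp x.1 a) x.2 ↔ a < g x) ∧ (P.a0 (bp x.1 a) x.2 = 0 ↔ a = g x) := by
  refine exists_zero_fun (fun (x : Bc (n + 2) × W n) a => P.a0 (bp x.1 a) x.2) ?_ ?_ ?_ ?_
  · refine P.ca.comp (f := fun p : (Bc (n + 2) × W n) × ℝ => (bp (n := n) p.1.1 p.2, p.1.2)) ?_
    exact (continuous_bp_comp (continuous_fst.comp continuous_fst) continuous_snd).prodMk
      (continuous_snd.comp continuous_fst)
  · intro x a a' h h'
    have h1 := P.am (a' - a) (bp x.1 a') x.2 (by linarith) h'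
    rwa [bp_sub_u1, sub_sub_cancel] at h1
  · intro x
    obtain ⟨l, hl⟩ := P.apos (bp x.1 0) x.2
    rw [bp_sub_u1] at hl
    exact ⟨_, hl⟩
  · intro x
    obtain ⟨l, hl⟩ := P.aneg (bp x.1 0) x.2
    rw [bp_add_u1] at hl
    exact ⟨_, hl⟩

/-- height of the edge of the plate zone. -/
noncomputable def mm (x : Bc (n + 2) × W n) : ℝ := Classical.choose (exists_mm P) x

lemma continuous_mm : Continuous (mm P) := (Classical.choose_spec (exists_mm P)).1

lemma mm_pos (b : Bc (n + 2)) (t : W n) (a : ℝ) : 0 < P.a0 (bp b a) t ↔ a < mm P (b, t) :=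
  ((Classical.choose_spec (exists_mm P)).2 (b, t) a).1

lemma mm_zero (b : Bc (n + 2)) (t : W n) (a : ℝ) : P.a0 (bp b a) t = 0 ↔ a = mm P (b, t) :=
  ((Classical.choose_spec (exists_mm P)).2 (b, t) a).2

lemma mm_nonneg (b : Bc (n + 2)) (t : W n) (a : ℝ) : 0 ≤ P.a0 (bp b a) t ↔ a ≤ mm P (b, t) := by
  rw [le_iff_lt_or_eq, mm_pos, le_iff_lt_or_eq, eq_comm (a := (0 : ℝ)), mm_zero]

lemma mm_neg (b : Bc (n + 2)) (t : W n) (a : ℝ) : P.a0 (bp b a) t < 0 ↔ mm P (b, t) < a := by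
  rw [← not_le, mm_nonneg, not_le]

lemma mm_hor (b : Bc (n + 2)) {t t' : W n} (h : hor t = hor t') : mm P (b, t) = mm P (b, t') := by
  rw [← mm_zero, P.ahor, ← h, ← P.ahor, mm_zero]

lemma mm_b0 (b : Bc (n + 2)) : mm P (b, 0) = -(D.m0 b) := by
  symm
  rw [← mm_zero]
  exact P.am0 b

lemma mm_smul {l : ℝ} (hl : 0 < l) (b : Bc (n + 2)) (t : W n) :
    mm P (l • b, l • t) = l * mm P (b, t) := by
  symm
  rw [← mm_zero, bp_smul, P.ah _ _ _ hl, (mm_zero P b t _).2 rfl, mul_zero]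

include P in
lemma m0_smul {l : ℝ} (hl : 0 < l) (b : Bc (n + 2)) : D.m0 (l • b) = l * D.m0 b := by
  have h1 := mm_smul P hl b 0
  rw [smul_zero, mm_b0, mm_b0] at h1
  linarith

include P in
lemma m0_nonneg (b : Bc (n + 2)) : 0 ≤ D.m0 b := by
  have h1 := P.asgn _ (P.am0 b).ge
  rw [inner_u1_bp] at h1
  linarith

/-- the outer shift. -/
noncomputable def oo (b : Bc (n + 2)) (t : W n) : ℝ := -(D.m0 b) - mm P (b, t)

lemma oo_nonneg (b : Bc (n + 2)) (t : W n) : 0 ≤ oo P b t := by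
  have h1 : P.a0 (bp b (mm P (b, t))) t = 0 := (mm_zero P b t _).2 rfl
  have h2 := P.ale _ _ h1.ge
  rw [mm_nonneg, mm_b0] at h2
  rw [oo]
  linarith

lemma oo_smul {l : ℝ} (hl : 0 < l) (b : Bc (n + 2)) (t : W n) :
    oo P (l • b) (l • t) = l * oo P b t := by
  rw [oo, oo, m0_smul P hl, mm_smul P hl]
  ring

lemma oo_hor (b : Bc (n + 2)) {t t' : W n} (h : hor t = hor t') : oo P b t = oo P b t' := by
  rw [oo, oo, mm_hor P b h]

lemma continuous_oo : Continuous fun x : Bc (n + 2) × W n => oo P x.1 x.2 :=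
  (D.cm0.comp continuous_fst).neg.sub (continuous_mm P)

lemma norm_bp_sq (b : Bc (n + 2)) (a : ℝ) : ‖bp (n := n) b a‖ ^ 2 = ‖bp (n := n) b 0‖ ^ 2 + a ^ 2 := by
  have h1 : ⟪bp (n := n) b 0, u1 n⟫ = 0 := by rw [real_inner_comm, inner_u1_bp]
  rw [bp_z b a, norm_add_sq_real, inner_smul_right, h1, norm_smul, norm_u1, mul_one,
    Real.norm_eq_abs, sq_abs]
  ring

lemma norm_bp_le {b : Bc (n + 2)} {a a' : ℝ} (h : |a| ≤ |a'|) :
    ‖bp (n := n) b a‖ ≤ ‖bp (n := n) b a'‖ := by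
  have h1 : ‖bp (n := n) b a‖ ^ 2 ≤ ‖bp (n := n) b a'‖ ^ 2 := by
    rw [norm_bp_sq b a, norm_bp_sq b a']
    have := sq_le_sq.2 h
    linarith
  exact abs_le_of_sq_le_sq' h1 (norm_nonneg _) |>.2

/-- **key fact (S)**: over the strand side the fibres of radius `κ2 ‖s‖` are not shifted. -/
lemma oo_le {b : Bc (n + 2)} {q : ℝ} {t : W n} (hq : 0 ≤ q)
    (ht : ‖hor t‖ ≤ P.κ2 * ‖bp (n := n) b (q - D.m0 b)‖) : oo P b t ≤ q := by
  have hm := m0_nonneg P b
  have h1 : ‖hor t‖ ≤ P.κ2 * ‖bp (n := n) b (-q - D.m0 b)‖ := by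
    refine ht.trans (mul_le_mul_of_nonneg_left (norm_bp_le ?_) P.hκ2.le)
    rw [abs_of_nonpos (by linarith : -q - D.m0 b ≤ 0), abs_le]
    constructor <;> linarith
  have h2 := P.asm _ _ h1
  have h3 : 0 ≤ P.a0 (bp b (-q - D.m0 b)) 0 := by
    rw [mm_nonneg, mm_b0]
    linarith
  rw [← h2, mm_nonneg] at h3
  rw [oo]
  linarith

/-! ### the homogeneous homeomorphism -/

/-- the first coordinates of a base point. -/
noncomputable def bco (s : W n) : Bc (n + 2) := fun i => L n s i.castSucc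

lemma bco_bp (b : Bc (n + 2)) (a : ℝ) : bco (bp (n := n) b a) = b := by
  funext i
  rw [bco, bp, L_L, pt_castSucc]

lemma bp_bco (s : W n) : bp (bco s) ⟪u1 n, s⟫ = s := by
  obtain ⟨b, a, rfl⟩ := exists_bp s
  rw [bco_bp, inner_u1_bp]

lemma bco_smul (l : ℝ) (s : W n) : bco (l • s) = l • bco s := by
  funext i
  rw [bco, map_smul]
  rfl

lemma continuous_bco : Continuous (bco : W n → Bc (n + 2)) := by
  unfold bco
  refine continuous_pi fun i => ?_
  exact (continuous_apply i.castSucc).comp ((PiLp.continuous_ofLp 2 _).comp (L n).continuous)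

/-- distance to the origin of the base point over `(σ, b)`. -/
noncomputable def SS (D : HD n m) (x : ℝ × Bc (n + 2)) : ℝ := ‖bp (n := n) x.2 (-x.1 - ‖x.2‖ - D.m0 x.2)‖

lemma SS_nonneg (x : ℝ × Bc (n + 2)) : 0 ≤ SS D x := norm_nonneg _

lemma SS_eq_zero (x : ℝ × Bc (n + 2)) : SS D x = 0 ↔ x = 0 := by
  rw [SS, norm_eq_zero, bp_eq_zero]
  constructor
  · rintro ⟨h1, h2⟩
    rw [h1, norm_zero, D.m00] at h2
    exact Prod.ext (by simpa using h2) h1
  · rintro rfl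
    refine ⟨rfl, ?_⟩
    show -(0 : ℝ) - ‖(0 : Bc (n + 2))‖ - D.m0 0 = 0
    rw [norm_zero, D.m00]
    ring

include P in
lemma SS_smul {l : ℝ} (hl : 0 < l) (x : ℝ × Bc (n + 2)) : SS D (l • x) = l * SS D x := by
  have h1 : SS D (l • x) = ‖l • bp (n := n) x.2 (-x.1 - ‖x.2‖ - D.m0 x.2)‖ := by
    rw [← bp_smul, SS]
    simp only [Prod.smul_fst, Prod.smul_snd, m0_smul P hl, norm_smul, Real.norm_of_nonneg hl.le,
      smul_eq_mul]
    congr 2
    ring
  rw [h1, norm_smul, Real.norm_of_nonneg hl.le, SS]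

lemma continuous_SS : Continuous (SS D) := by
  unfold SS
  refine Continuous.norm (continuous_bp_comp continuous_snd ?_)
  exact (continuous_fst.neg.sub continuous_snd.norm).sub (D.cm0.comp continuous_snd)

lemma exists_c0 : ∃ c0 : ℝ, 0 < c0 ∧ ∀ b : Bc (n + 2), ‖b‖ ≤ 1 → c0 * SS D (-1, b) ≤ 1 := by
  obtain ⟨M, hM⟩ := (isCompact_closedBall (0 : Bc (n + 2)) 1).exists_bound_of_continuousOn
    (f := fun b => SS D (-1, b)) (by
      refine Continuous.continuousOn ?_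
      exact continuous_SS.comp (continuous_const.prodMk continuous_id))
  refine ⟨1 / max M 1, by positivity, fun b hb => ?_⟩
  have h1 := hM b (by rwa [mem_closedBall_zero_iff])
  rw [Real.norm_of_nonneg (SS_nonneg _)] at h1
  rw [one_div, inv_mul_le_iff₀ (by positivity), mul_one]
  exact h1.trans (le_max_left _ _)

/-- radius of the target ball. -/
noncomputable def xx (D : HD n m) (c0 : ℝ) (x : ℝ × Bc (n + 2)) : ℝ := max (c0 * SS D x) (-x.1)

lemma xx_nonneg {c0 : ℝ} (hc : 0 < c0) (x : ℝ × Bc (n + 2)) : 0 ≤ xx D c0 x :=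
  le_max_of_le_left (mul_nonneg hc.le (SS_nonneg x))

lemma xx_iff {c0 : ℝ} (hc : 0 < c0) (x : ℝ × Bc (n + 2)) : SS D x = 0 ↔ xx D c0 x = 0 := by
  constructor
  · intro h
    have h1 := (SS_eq_zero x).1 h
    rw [xx, h, h1]
    simp
  · intro h
    have h1 : c0 * SS D x ≤ 0 := by
      rw [← h]
      exact le_max_left _ _
    have h2 := SS_nonneg (D := D) x
    nlinarith

include P in
lemma xx_smul {c0 l : ℝ} (hl : 0 < l) (x : ℝ × Bc (n + 2)) : xx D c0 (l • x) = l * xx D c0 x := by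
  rw [xx, xx, SS_smul P hl, mul_max_of_nonneg _ _ hl.le]
  congr 1
  · ring
  · rw [Prod.smul_fst, smul_eq_mul]
    ring

lemma continuous_xx (c0 : ℝ) : Continuous (xx D c0) := by
  unfold xx
  exact (continuous_const.mul continuous_SS).max continuous_fst.neg

include P in
lemma xx_eq {c0 : ℝ} (hc : ∀ b : Bc (n + 2), ‖b‖ ≤ 1 → c0 * SS D (-1, b) ≤ 1) {x : ℝ × Bc (n + 2)}
    (h1 : x.1 < 0) (h2 : ‖x.2‖ ≤ -x.1) : xx D c0 x = -x.1 := by
  have h3 : 0 < -x.1 := by linarith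
  have h4 : x = (-x.1) • ((-1 : ℝ), (-x.1)⁻¹ • x.2) := by
    refine Prod.ext ?_ ?_
    · simp
    · rw [Prod.smul_snd, smul_smul, mul_inv_cancel₀ h3.ne', one_smul]
  have h5 : ‖(-x.1)⁻¹ • x.2‖ ≤ 1 := by
    rw [norm_smul, norm_inv, Real.norm_of_nonneg h3.le, inv_mul_le_iff₀ h3, mul_one]
    exact h2
  have h6 : SS D x = (-x.1) * SS D ((-1 : ℝ), (-x.1)⁻¹ • x.2) := by
    conv_lhs => rw [h4]
    exact SS_smul P h3 _
  rw [xx, max_eq_right]
  rw [h6]
  have h7 := hc _ h5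
  nlinarith

/-- third step: scaling of the fibre. -/
noncomputable def Sc (D : HD n m) (c0 κ : ℝ) (p : ℝ × Bc (n + 2) × W n) : ℝ × Bc (n + 2) × W n :=
  (p.1, p.2.1, L n (fs κ (SS D (p.1, p.2.1)) (xx D c0 (p.1, p.2.1)) p.2.2))

/-- its inverse. -/
noncomputable def ScI (D : HD n m) (c0 κ : ℝ) (p : ℝ × Bc (n + 2) × W n) : ℝ × Bc (n + 2) × W n :=
  (p.1, p.2.1, fs κ (xx D c0 (p.1, p.2.1)) (SS D (p.1, p.2.1)) (L n p.2.2))

lemma ScI_Sc {c0 κ : ℝ} (hc : 0 < c0) (hκ : 0 < κ) (p : ℝ × Bc (n + 2) × W n) :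
    ScI D c0 κ (Sc D c0 κ p) = p := by
  obtain ⟨σ, b, t⟩ := p
  simp only [Sc, ScI, L_L]
  rw [fs_fs hκ (SS_nonneg _) (xx_nonneg hc _) (xx_iff hc _)]

lemma Sc_ScI {c0 κ : ℝ} (hc : 0 < c0) (hκ : 0 < κ) (p : ℝ × Bc (n + 2) × W n) :
    Sc D c0 κ (ScI D c0 κ p) = p := by
  obtain ⟨σ, b, t⟩ := p
  simp only [Sc, ScI]
  rw [fs_fs hκ (xx_nonneg hc _) (SS_nonneg _) (xx_iff hc _).symm, L_L]

include P in
lemma Sc_smul {c0 κ l : ℝ} (hl : 0 < l) (p : ℝ × Bc (n + 2) × W n) :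
    Sc D c0 κ (l • p) = l • Sc D c0 κ p := by
  obtain ⟨σ, b, t⟩ := p
  have h1 : ((l • (σ, b, t) : ℝ × Bc (n + 2) × W n).1, (l • (σ, b, t) : ℝ × Bc (n + 2) × W n).2.1) =
      l • ((σ, b) : ℝ × Bc (n + 2)) := rfl
  have h2 : (l • (σ, b, t) : ℝ × Bc (n + 2) × W n).2.2 = l • t := rfl
  rw [Sc, h1, SS_smul P hl, xx_smul P hl, h2, fs_smul hl, map_smul]
  rfl

include P in
lemma continuous_Sc {c0 κ : ℝ} (hκ : 0 < κ) : Continuous (Sc D c0 κ) := by
  refine continuous_of_homog ?_ fun l p hl => Sc_smul P hl p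
  have e1 : Continuous fun p : ℝ × Bc (n + 2) × W n => (p.1, p.2.1) :=
    continuous_fst.prodMk (continuous_fst.comp continuous_snd)
  have e2 : Continuous fun p : ℝ × Bc (n + 2) × W n => SS D (p.1, p.2.1) := continuous_SS.comp e1
  have e3 : Continuous fun p : ℝ × Bc (n + 2) × W n => xx D c0 (p.1, p.2.1) :=
    (continuous_xx c0).comp e1
  have e4 : Continuous fun p : ℝ × Bc (n + 2) × W n => p.2.2 := continuous_snd.comp continuous_snd
  unfold Sc
  refine continuous_fst.continuousOn.prodMk ((continuous_fst.comp continuous_snd).continuousOn.prodMk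
    ((L n).continuous.comp_continuousOn ?_))
  unfold fs
  have e5 : Continuous fun p : ℝ × Bc (n + 2) × W n =>
      (xx D c0 (p.1, p.2.1) - SS D (p.1, p.2.1)) * κ := (e3.sub e2).mul continuous_const
  have e6 : Continuous fun p : ℝ × Bc (n + 2) × W n =>
      max (κ * SS D (p.1, p.2.1)) ‖p.2.2‖ := (continuous_const.mul e2).max e4.norm
  refine ContinuousOn.smul (continuousOn_const.add (e5.continuousOn.div e6.continuousOn ?_))
    e4.continuousOn
  · rintro ⟨σ, b, t⟩ hp h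
    have h1 : κ * SS D (σ, b) ≤ 0 := (le_max_left _ _).trans h.le
    have h2 : ‖t‖ ≤ 0 := (le_max_right _ _).trans h.le
    have h3 := SS_nonneg (D := D) (σ, b)
    have h4 : SS D (σ, b) = 0 := by nlinarith
    have h5 := (SS_eq_zero (D := D) (σ, b)).1 h4
    have h6 : σ = 0 := congrArg Prod.fst h5
    have h7 : b = 0 := congrArg Prod.snd h5
    apply hp
    rw [mem_singleton_iff, h6, h7, norm_le_zero_iff.1 h2]
    rfl

/-- first and second steps: shear and wall. -/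
noncomputable def Wl (p : W n × W n) : ℝ × Bc (n + 2) × W n :=
  (-(‖bco p.1‖ + Ft (⟪u1 n, p.1⟫ + D.m0 (bco p.1)) (oo P (bco p.1) p.2)), bco p.1,
    p.2 - P.sig p • u1 n)

/-- base point of a point of the target. -/
noncomputable def sI (p : ℝ × Bc (n + 2) × W n) : W n :=
  bp p.2.1 (Gt (-p.1 - ‖p.2.1‖) (oo P p.2.1 p.2.2) - D.m0 p.2.1)

/-- the inverse. -/
noncomputable def WlI (p : ℝ × Bc (n + 2) × W n) : W n × W n :=
  (sI P p, p.2.2 + P.sig (sI P p, p.2.2) • u1 n)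

lemma hor_add_smul_u1 (t : W n) (x : ℝ) : hor (t + x • u1 n) = hor t := by
  rw [hor_add, hor_smul, hor_u1, smul_zero, add_zero]

lemma hor_sub_smul_u1 (t : W n) (x : ℝ) : hor (t - x • u1 n) = hor t := by
  rw [hor_sub, hor_smul, hor_u1, smul_zero, sub_zero]

lemma WlI_Wl (p : W n × W n) : WlI P (Wl P p) = p := by
  obtain ⟨s, t⟩ := p
  have h1 : sI P (Wl P (s, t)) = s := by
    rw [sI, Wl]
    simp only
    rw [oo_hor P (bco s) (hor_sub_smul_u1 t _), neg_neg, add_sub_cancel_left,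
      Gt_Ft _ _ (oo_nonneg P _ _), add_sub_cancel_right, bp_bco]
  rw [WlI, h1, Wl]
  simp only
  rw [P.sig_hor s _ t (hor_sub_smul_u1 t _), sub_add_cancel]

lemma Wl_WlI (p : ℝ × Bc (n + 2) × W n) : Wl P (WlI P p) = p := by
  obtain ⟨σ, b, t⟩ := p
  have h1 : bco (sI P (σ, b, t)) = b := bco_bp _ _
  have h2 : ⟪u1 n, sI P (σ, b, t)⟫ = Gt (-σ - ‖b‖) (oo P b t) - D.m0 b := inner_u1_bp _ _
  rw [Wl, WlI]
  simp only
  rw [h1, h2, oo_hor P b (hor_add_smul_u1 t _), sub_add_cancel, Ft_Gt _ _ (oo_nonneg P _ _),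
    P.sig_hor _ _ t (hor_add_smul_u1 t _), add_sub_cancel_right]
  congr 1
  ring

lemma Wl_smul {l : ℝ} (hl : 0 < l) (p : W n × W n) : Wl P (l • p) = l • Wl P p := by
  obtain ⟨s, t⟩ := p
  refine Prod.ext ?_ (Prod.ext ?_ ?_)
  · show -(‖bco (l • s)‖ + Ft (⟪u1 n, l • s⟫ + D.m0 (bco (l • s))) (oo P (bco (l • s)) (l • t))) =
      l * -(‖bco s‖ + Ft (⟪u1 n, s⟫ + D.m0 (bco s)) (oo P (bco s) t))
    rw [bco_smul, norm_smul, Real.norm_of_nonneg hl.le, inner_smul_right, m0_smul P hl,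
      oo_smul P hl, ← mul_add, Ft_mul hl]
    ring
  · show bco (l • s) = l • bco s
    exact bco_smul l s
  · show l • t - P.sig (l • (s, t)) • u1 n = l • (t - P.sig (s, t) • u1 n)
    rw [P.sig_smul l _ hl, smul_sub, mul_smul]

lemma continuous_Wl : Continuous (Wl P) := by
  have e1 : Continuous fun p : W n × W n => bco p.1 := continuous_bco.comp continuous_fst
  have e2 : Continuous fun p : W n × W n => oo P (bco p.1) p.2 :=
    (continuous_oo P).comp (f := fun p : W n × W n => (bco p.1, p.2)) (e1.prodMk continuous_snd)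
  have e3 : Continuous fun p : W n × W n => ⟪u1 n, p.1⟫ + D.m0 (bco p.1) :=
    (continuous_const.inner continuous_fst).add (D.cm0.comp e1)
  have e4 : Continuous fun p : W n × W n =>
      Ft (⟪u1 n, p.1⟫ + D.m0 (bco p.1)) (oo P (bco p.1) p.2) :=
    continuous_Ft.comp (f := fun p : W n × W n => (⟪u1 n, p.1⟫ + D.m0 (bco p.1),
      oo P (bco p.1) p.2)) (e3.prodMk e2)
  unfold Wl
  exact (e1.norm.add e4).neg.prodMk (e1.prodMk
    (continuous_snd.sub (P.continuous_sig.smul continuous_const)))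

/-- the homogeneous homeomorphism. -/
noncomputable def Ph (c0 κ : ℝ) (p : W n × W n) : ℝ × Bc (n + 2) × W n := Sc D c0 κ (Wl P p)

lemma exists_homeo {c0 κ : ℝ} (hc : 0 < c0) (hκ : 0 < κ) :
    ∃ g : sphere (0 : W n × W n) 1 ≃ₜ sphere (0 : ℝ × Bc (n + 2) × W n) 1,
      ∀ x, ∃ l : ℝ, 0 < l ∧ (g x : ℝ × Bc (n + 2) × W n) = l • Ph P c0 κ x := by
  refine exists_sphere_homeo' ((continuous_Sc P hκ).comp (continuous_Wl P)) ?_ ?_ ?_
  · intro l p hl
    show Sc D c0 κ (Wl P (l • p)) = l • Sc D c0 κ (Wl P p)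
    rw [Wl_smul P hl, Sc_smul P hl]
  · intro p p' h
    have h1 : Sc D c0 κ (Wl P p) = Sc D c0 κ (Wl P p') := h
    rw [← WlI_Wl P p, ← WlI_Wl P p', ← ScI_Sc hc hκ (Wl P p), h1, ScI_Sc hc hκ]
  · intro q
    refine ⟨WlI P (ScI D c0 κ q), ?_⟩
    show Sc D c0 κ (Wl P (WlI P (ScI D c0 κ q))) = q
    rw [Wl_WlI, Sc_ScI hc hκ]

end Wall

end Crest.Agent.R267.End2b_864
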