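import Crest.Agent.R267.SFLD_330
import Crest.Agent.R267.GlNDefs_9

/-!
# Row 267 (helper9): S0406, the end: polar end functions of `f` and `g`

`zeq_polar`: certificate + T3aN + GLUE-N => the polar end functions `X.fn`, `Y.fn` of ANY admissible
data `X : PD Df`, `Y : PD Dg` are equivalent.
-/

set_option autoImplicit false

open Matrix
open Crest.Agent.R267.T3aNDefs_88 Crest.Agent.R267.GlNDefs_9 Crest.Agent.R267.SFLD_330
open Crest.Agent.R267.SFLDb_330 Crest.Agent.R267.Hm_951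
open Crest.Agent.R267.T3aDefs_957.LD (Ev)

namespace Crest.Agent.R267.End406_9

theorem exists_of_ev {P : ℝ → ℝ → ℝ → Prop} (h : Ev P) : ∃ c g d, P c g d := by
  obtain ⟨c, _, h⟩ := h
  obtain ⟨g, hg, h⟩ := h c le_rfl
  obtain ⟨d, hd, h⟩ := h g hg le_rfl
  exact ⟨c, g, d, h d hd le_rfl⟩

theorem cdF (e : Fin Df.nb) : cd Df e ≤ 3 := by
  have h : ∀ b ∈ bxF, (mkB b).S.card ≤ 3 := by decide
  have h1 := all_get h e
  unfold cd
  exact_mod_cast h1

theorem cdG (e : Fin Dg.nb) : cd Dg e ≤ 3 := by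
  have h : ∀ b ∈ bxG, (mkB b).S.card ≤ 3 := by decide
  have h1 := all_get h e
  unfold cd
  exact_mod_cast h1

/-- **the polar end functions of `f` and `g` have the same link** -/
theorem zeq_polar
    (h : ∃ P : Matrix (Fin 2049) (Fin 2049) ℤ, Pᵀ * NLb_330.pAg * P = NLb_330.pAf)
    (hT : T3aNP (n := 1) Df) (hT' : T3aNP (n := 1) Dg) (hf : GluP Df) (hg : GluP Dg)
    {X : PD Df} (hX : X.Ok) {Y : PD Dg} (hY : Y.Ok) : ZEq X.fn Y.fn := by
  have h1 := (zeq_end h hT hT').and (hf cdF X hX)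
  obtain ⟨c, g, d, h2, h3⟩ := exists_of_ev h1
  obtain ⟨c', g', d', h4, h5⟩ := exists_of_ev (h2.and (hg cdG Y hY))
  exact h3.trans (h4.trans h5.symm)

end Crest.Agent.R267.End406_9
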