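import Crest.Agent.R267.EndDef_864

/-!
# Homogeneous graph systems (row 267, T3-end): basic facts and the graph system over the cube
-/

set_option autoImplicit false

namespace Crest.Agent.R267.EndBas_864

open Set Metric
open scoped RealInnerProductSpace
open Crest.Agent.R267.GS_808 Crest.Agent.R267.EndDef_864

variable {n m : ℕ}

/-! ### the cube and the base -/

lemma one_le_max (b : Bc n) : 1 ≤ max 1 ‖b‖ := le_max_left _ _

lemma norm_ret_le (b : Bc n) : ‖ret b‖ ≤ 1 := by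
  have h := one_le_max b
  rw [ret, norm_smul, Real.norm_of_nonneg (by positivity), one_div, inv_mul_le_iff₀ (by linarith),
    mul_one]
  exact le_max_right _ _

lemma ret_of_le {b : Bc n} (h : ‖b‖ ≤ 1) : ret b = b := by
  rw [ret, max_eq_left h, div_one, one_smul]

lemma norm_ret_of_ge {b : Bc n} (h : 1 ≤ ‖b‖) : ‖ret b‖ = 1 := by
  rw [ret, norm_smul, max_eq_right h, Real.norm_of_nonneg (by positivity), one_div,
    inv_mul_cancel₀ (by linarith)]

lemma ret_ret (b : Bc n) : ret (ret b) = ret b := ret_of_le (norm_ret_le b)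

lemma continuous_ret : Continuous (ret : Bc n → Bc n) := by
  unfold ret
  refine Continuous.smul (continuous_const.div (continuous_const.max continuous_norm) fun b => ?_)
    continuous_id
  have := one_le_max b
  positivity

lemma pt_castSucc (b : Bc n) (z : ℝ) (i : Fin n) : pt b z i.castSucc = b i := by
  simp [pt]

lemma pt_last (b : Bc n) (z : ℝ) : pt b z (Fin.last n) = z := by
  simp [pt]

lemma continuous_pt : Continuous fun p : Bc n × ℝ => pt p.1 p.2 := by
  unfold pt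
  refine (PiLp.continuous_toLp 2 _).comp (continuous_pi fun i => ?_)
  refine Fin.lastCases ?_ (fun j => ?_) i
  · simp only [Fin.snoc_last]
    exact continuous_snd
  · simp only [Fin.snoc_castSucc]
    exact (continuous_apply j).comp continuous_fst

lemma pt_add (b b' : Bc n) (z z' : ℝ) : pt (b + b') (z + z') = pt b z + pt b' z' := by
  ext i
  refine Fin.lastCases ?_ (fun j => ?_) i
  · simp only [PiLp.add_apply, pt_last]
  · simp only [PiLp.add_apply, pt_castSucc, Pi.add_apply]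

lemma pt_smul (c : ℝ) (b : Bc n) (z : ℝ) : pt (c • b) (c * z) = c • pt b z := by
  ext i
  refine Fin.lastCases ?_ (fun j => ?_) i
  · simp only [PiLp.smul_apply, pt_last, smul_eq_mul]
  · simp only [PiLp.smul_apply, pt_castSucc, Pi.smul_apply, smul_eq_mul]

lemma inner_ec_pt (b : Bc n) (z : ℝ) : ⟪ec n, pt b z⟫ = z := by
  rw [ec, EuclideanSpace.inner_single_left, pt_last]
  simp

lemma inner_pt (b b' : Bc n) (z z' : ℝ) : ⟪pt b z, pt b' z'⟫ = ∑ i, b i * b' i + z * z' := by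
  rw [PiLp.inner_apply, Fin.sum_univ_castSucc]
  simp only [pt_castSucc, pt_last]
  congr 1
  · exact Finset.sum_congr rfl fun i _ => by simp [mul_comm]
  · simp [mul_comm]

lemma exists_pt (v : Vc n) : ∃ b z, v = pt b z := by
  refine ⟨fun i => v i.castSucc, v (Fin.last n), ?_⟩
  ext i
  refine Fin.lastCases ?_ (fun j => ?_) i
  · rw [pt_last]
  · rw [pt_castSucc]

lemma pt_inj {b b' : Bc n} {z z' : ℝ} (h : pt b z = pt b' z') : b = b' ∧ z = z' := by
  constructor
  · funext i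
    rw [← pt_castSucc b z i, h, pt_castSucc]
  · rw [← pt_last b z, h, pt_last]

lemma pt_zero : pt (0 : Bc n) 0 = 0 := by
  ext i
  refine Fin.lastCases ?_ (fun j => ?_) i
  · rw [pt_last]; rfl
  · rw [pt_castSucc]; rfl

lemma pt_eq_zero {b : Bc n} {z : ℝ} : pt b z = 0 ↔ b = 0 ∧ z = 0 := by
  rw [← pt_zero]
  exact ⟨fun h => pt_inj h, fun h => by rw [h.1, h.2]⟩

lemma inner_u1_bp (b : Bc (n + 2)) (z : ℝ) : ⟪u1 n, bp b z⟫ = z := by
  rw [bp, ← L_ec, inner_L, inner_ec_pt]

lemma bp_smul (c : ℝ) (b : Bc (n + 2)) (z : ℝ) : bp (c • b) (c * z) = c • bp (n := n) b z := by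
  rw [bp, pt_smul, map_smul, bp]

lemma bp_eq_zero {b : Bc (n + 2)} {z : ℝ} : bp (n := n) b z = 0 ↔ b = 0 ∧ z = 0 := by
  rw [bp, LinearIsometryEquiv.map_eq_zero_iff, pt_eq_zero]

lemma exists_bp (v : W n) : ∃ b z, v = bp b z := by
  obtain ⟨b, z, h⟩ := exists_pt (L n v)
  exact ⟨b, z, by rw [bp, ← h, L_L]⟩

lemma continuous_bp : Continuous fun p : Bc (n + 2) × ℝ => bp (n := n) p.1 p.2 :=
  (L n).continuous.comp continuous_pt

lemma bp_z (b : Bc (n + 2)) (z : ℝ) : bp (n := n) b z = bp b 0 + z • u1 n := by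
  have h1 : bp (n := n) 0 z = z • u1 n := by
    have h2 : pt (0 : Bc (n + 2)) z = z • ec (n + 2) := by
      have h3 : ec (n + 2) = pt 0 1 := by
        ext i
        refine Fin.lastCases ?_ (fun j => ?_) i
        · rw [pt_last, ec]; simp
        · rw [pt_castSucc, ec]; simp
      rw [h3, ← pt_smul, smul_zero, mul_one]
    rw [bp, h2, map_smul, L_ec]
  rw [← h1, bp, bp, bp, ← map_add, ← pt_add, add_zero, zero_add]

lemma hor_bp (b : Bc (n + 2)) (z : ℝ) : hor (bp (n := n) b z) = bp b 0 := by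
  rw [hor, inner_u1_bp, bp_z b z]
  abel

/-! ### vectors -/

lemma hor_add (v w : W n) : hor (v + w) = hor v + hor w := by
  rw [hor, hor, hor, inner_add_right, add_smul]; abel

lemma hor_sub (v w : W n) : hor (v - w) = hor v - hor w := by
  rw [hor, hor, hor, inner_sub_right, sub_smul]; abel

lemma hor_smul (c : ℝ) (v : W n) : hor (c • v) = c • hor v := by
  rw [hor, hor, inner_smul_right, smul_sub, mul_smul]

lemma inner_u1_u1 (n : ℕ) : ⟪u1 n, u1 n⟫ = 1 := by
  rw [real_inner_self_eq_norm_sq, norm_u1]; norm_num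

lemma hor_u1 (n : ℕ) : hor (u1 n) = 0 := by
  rw [hor, inner_u1_u1, one_smul, sub_self]

lemma inner_u1_hor (v : W n) : ⟪u1 n, hor v⟫ = 0 := by
  rw [hor, inner_sub_right, inner_smul_right, inner_u1_u1]; ring

lemma inner_hor_u1 (v : W n) : ⟪hor v, u1 n⟫ = 0 := by rw [real_inner_comm, inner_u1_hor]

lemma hor_add_u1 (v : W n) : hor v + ⟪u1 n, v⟫ • u1 n = v := by rw [hor]; abel

lemma inner_hor (a v : W n) : ⟪a, hor v⟫ = ⟪a, v⟫ - ⟪a, u1 n⟫ * ⟪u1 n, v⟫ := by
  rw [hor, inner_sub_right, inner_smul_right]; ring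

lemma inner_hor_hor (a v : W n) : ⟪hor a, hor v⟫ = ⟪a, hor v⟫ := by
  have h : ⟪hor a, hor v⟫ = ⟪a, hor v⟫ - ⟪u1 n, a⟫ * ⟪u1 n, hor v⟫ := by
    conv_lhs => rw [hor, inner_sub_left, inner_smul_left]
    simp
  rw [h, inner_u1_hor, mul_zero, sub_zero]

lemma continuous_hor : Continuous (hor : W n → W n) := by
  unfold hor
  fun_prop

lemma inner_proj (a v : W n) (ha : a ≠ 0) : ⟪a, proj a v⟫ = 0 := by
  have h : ‖a‖ ≠ 0 := norm_ne_zero_iff.2 ha
  rw [proj, inner_sub_right, inner_smul_right, real_inner_self_eq_norm_sq]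
  field_simp
  ring

lemma norm_proj_le (a v : W n) : ‖proj a v‖ ≤ ‖v‖ := by
  by_cases ha : a = 0
  · rw [ha, proj, inner_zero_left]; simp
  have h : ‖a‖ ≠ 0 := norm_ne_zero_iff.2 ha
  have h1 : ‖proj a v‖ ^ 2 = ‖v‖ ^ 2 - ⟪a, v⟫ ^ 2 / ‖a‖ ^ 2 := by
    rw [proj, norm_sub_sq_real, inner_smul_right, norm_smul, mul_pow, Real.norm_eq_abs, sq_abs,
      real_inner_comm]
    field_simp
    ring
  have h2 : 0 ≤ ⟪a, v⟫ ^ 2 / ‖a‖ ^ 2 := by positivity
  exact abs_le_of_sq_le_sq' (by linarith) (norm_nonneg _) |>.2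

lemma vec_add (f g : Fin (n + 3) → ℝ) : vec (fun j => f j + g j) = vec f + vec g := rfl

lemma vec_sub (f g : Fin (n + 3) → ℝ) : vec (fun j => f j - g j) = vec f - vec g := rfl

lemma abs_apply_le (v : W n) (j : Fin (n + 3)) : |v j| ≤ ‖v‖ := by
  have h1 : v j ^ 2 ≤ ‖v‖ ^ 2 := by
    rw [norm_sq_def]
    exact Finset.single_le_sum (f := fun i => v i ^ 2) (fun i _ => sq_nonneg _) (Finset.mem_univ j)
  exact abs_le_of_sq_le_sq h1 (norm_nonneg _)

lemma continuous_vec {X : Type*} [TopologicalSpace X] {s : Set X} {f : X → Fin (n + 3) → ℝ}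
    (h : ∀ j, ContinuousOn (fun x => f x j) s) : ContinuousOn (fun x => vec (f x)) s :=
  (PiLp.continuous_toLp 2 _).comp_continuousOn (continuousOn_pi.2 h)

/-! ### the conormals -/

variable (D : HD n m)

lemma exists_large {s : W n} (hs : s ≠ 0) : ∃ j, D.d * ‖s‖ < |s j| := by
  by_contra h
  push Not at h
  have h0 : 0 < ‖s‖ := norm_pos_iff.2 hs
  have h1 : ‖s‖ ^ 2 ≤ ∑ _j : Fin (n + 3), (D.d * ‖s‖) ^ 2 := by
    rw [norm_sq_def]
    refine Finset.sum_le_sum fun j _ => ?_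
    rw [← sq_abs (s j)]
    exact pow_le_pow_left₀ (abs_nonneg _) (h j) 2
  rw [Finset.sum_const, Finset.card_univ, Fintype.card_fin, nsmul_eq_mul] at h1
  push_cast at h1
  have h2 := D.hdN
  have h3 : 0 < ‖s‖ ^ 2 := by positivity
  nlinarith

lemma abs_div_le {s : W n} (hs : s ≠ 0) {j : Fin (n + 3)} (h : |s j| ≤ D.d * ‖s‖) :
    |s j / ‖s‖| ≤ D.d := by
  have h0 : 0 < ‖s‖ := norm_pos_iff.2 hs
  rw [abs_div, abs_of_pos h0, div_le_iff₀ h0]
  exact h

lemma Yp_nonneg {x : ℝ} (hx : 0 ≤ x) : 0 ≤ D.Yp x := by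
  rw [← D.Yp0 0 (by rw [abs_zero]; exact D.hd.le)]
  exact D.mYp hx

lemma Yp_nonpos {x : ℝ} (hx : x ≤ D.d) : D.Yp x ≤ 0 := by
  rw [← D.Yp0 D.d (by rw [abs_of_pos D.hd])]
  exact D.mYp hx

lemma Ym_nonpos (x : ℝ) : D.Ym x ≤ 0 := by
  rcases le_or_gt x D.d with h | h
  · rw [D.Ymp x h]; exact Yp_nonpos D h
  · exact (D.Ymn x h).le

lemma nz_apply (s : W n) (j : Fin (n + 3)) : D.nz s j = D.Yp (s j / ‖s‖) := rfl

lemma nrm_apply (k : Fin m) (s : W n) (j : Fin (n + 3)) :
    D.nrm k s j = if D.neg k j then D.Ym (s j / ‖s‖) else D.Yp (s j / ‖s‖) := rfl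

/-- below the level `d` all conormals agree. -/
lemma nrm_eq_of_lt {k : Fin m} {s : W n} (hs : s ≠ 0) {j : Fin (n + 3)} (h : s j ≤ D.d * ‖s‖) :
    D.nrm k s j = D.nz s j := by
  have h0 : 0 < ‖s‖ := norm_pos_iff.2 hs
  have h1 : s j / ‖s‖ ≤ D.d := by rw [div_le_iff₀ h0]; exact h
  rw [nrm_apply, nz_apply, D.Ymp _ h1]
  simp

lemma nz_nonpos {s : W n} (hs : s ≠ 0) {j : Fin (n + 3)} (h : s j ≤ D.d * ‖s‖) : D.nz s j ≤ 0 := by
  have h0 : 0 < ‖s‖ := norm_pos_iff.2 hs
  exact Yp_nonpos D (by rw [div_le_iff₀ h0]; exact h)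

lemma nz_pos {s : W n} (hs : s ≠ 0) {j : Fin (n + 3)} (h : D.d * ‖s‖ < s j) : 0 < D.nz s j := by
  have h0 : 0 < ‖s‖ := norm_pos_iff.2 hs
  exact D.Ypp _ (by rw [lt_div_iff₀ h0]; exact h)

lemma nz_neg {s : W n} (hs : s ≠ 0) {j : Fin (n + 3)} (h : s j < -(D.d * ‖s‖)) : D.nz s j < 0 := by
  have h0 : 0 < ‖s‖ := norm_pos_iff.2 hs
  exact D.Ypn _ (by rw [div_lt_iff₀ h0]; linarith)

lemma nrm_ne_of_large {k : Fin m} {s : W n} (hs : s ≠ 0) {j : Fin (n + 3)}
    (h : D.d * ‖s‖ < |s j|) : D.nrm k s j ≠ 0 := by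
  have h0 : 0 < ‖s‖ := norm_pos_iff.2 hs
  rcases le_or_gt (s j) 0 with h1 | h1
  · rw [abs_of_nonpos h1] at h
    have h2 : s j < -(D.d * ‖s‖) := by linarith
    have h3 : s j ≤ D.d * ‖s‖ := by nlinarith [D.hd]
    rw [nrm_eq_of_lt D hs h3]
    exact (nz_neg D hs h2).ne
  · rw [abs_of_pos h1] at h
    rw [nrm_apply]
    have h2 : D.d < s j / ‖s‖ := by rw [lt_div_iff₀ h0]; exact h
    split_ifs
    · exact (D.Ymn _ h2).ne
    · exact (D.Ypp _ h2).ne'

lemma nrm_ne {k : Fin m} {s : W n} (hs : s ≠ 0) : D.nrm k s ≠ 0 := by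
  obtain ⟨j, hj⟩ := exists_large D hs
  intro h
  exact nrm_ne_of_large (k := k) D hs hj (by rw [h]; rfl)

lemma nz_ne_of_large {s : W n} (hs : s ≠ 0) {j : Fin (n + 3)}
    (h : D.d * ‖s‖ < |s j|) : D.nz s j ≠ 0 := by
  rcases le_or_gt (s j) 0 with h1 | h1
  · rw [abs_of_nonpos h1] at h
    exact (nz_neg D hs (by linarith)).ne
  · rw [abs_of_pos h1] at h
    exact (nz_pos D hs h).ne'

lemma nz_ne {s : W n} (hs : s ≠ 0) : D.nz s ≠ 0 := by
  obtain ⟨j, hj⟩ := exists_large D hs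
  intro h
  exact nz_ne_of_large D hs hj (by rw [h]; rfl)

lemma div_norm_continuousOn (j : Fin (n + 3)) :
    ContinuousOn (fun s : W n => s j / ‖s‖) {0}ᶜ := by
  refine ContinuousOn.div ?_ continuous_norm.continuousOn fun s hs => norm_ne_zero_iff.2 hs
  exact ((continuous_apply j).comp (PiLp.continuous_ofLp 2 _)).continuousOn

lemma nz_continuousOn : ContinuousOn D.nz {0}ᶜ :=
  continuous_vec fun j => D.cYp.comp_continuousOn (div_norm_continuousOn j)

lemma nrm_continuousOn (k : Fin m) : ContinuousOn (D.nrm k) {0}ᶜ := by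
  refine continuous_vec fun j => ?_
  by_cases h : D.neg k j
  · simp only [h, if_true]
    exact D.cYm.comp_continuousOn (div_norm_continuousOn j)
  · simp only [h, Bool.false_eq_true, if_false]
    exact D.cYp.comp_continuousOn (div_norm_continuousOn j)

lemma nz_smul {c : ℝ} (hc : 0 < c) (s : W n) : D.nz (c • s) = D.nz s := by
  ext j
  rw [nz_apply, nz_apply, norm_smul, Real.norm_of_nonneg hc.le, PiLp.smul_apply, smul_eq_mul,
    mul_div_mul_left _ _ hc.ne']

lemma nrm_smul {c : ℝ} (hc : 0 < c) (k : Fin m) (s : W n) : D.nrm k (c • s) = D.nrm k s := by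
  ext j
  rw [nrm_apply, nrm_apply, norm_smul, Real.norm_of_nonneg hc.le, PiLp.smul_apply, smul_eq_mul,
    mul_div_mul_left _ _ hc.ne']

/-- low points: all coordinates at most `d ‖s‖`. -/
lemma inner_nz_u1_neg {s : W n} (hs : s ≠ 0) (h : ∀ j, s j ≤ D.d * ‖s‖) : ⟪D.nz s, u1 n⟫ < 0 := by
  rw [real_inner_comm, inner_u1]
  refine div_neg_of_neg_of_pos ?_ (sqrt_pos n)
  obtain ⟨j, hj⟩ := exists_large D hs
  have hj' : D.nz s j < 0 :=
    lt_of_le_of_ne (nz_nonpos D hs (h j)) (nz_ne_of_large D hs hj)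
  calc ∑ i, D.nz s i < ∑ _i : Fin (n + 3), (0 : ℝ) :=
        Finset.sum_lt_sum (fun i _ => nz_nonpos D hs (h i)) ⟨j, Finset.mem_univ _, hj'⟩
    _ = 0 := by simp

lemma nrm_eq_nz {k : Fin m} {s : W n} (hs : s ≠ 0) (h : ∀ j, s j ≤ D.d * ‖s‖) :
    D.nrm k s = D.nz s := by
  ext j
  exact nrm_eq_of_lt D hs (h j)

/-! ### the shear -/

/-- coefficient of the shear. -/
noncomputable def q (s : W n) : ℝ := D.ka s / ⟪D.nz s, u1 n⟫

lemma q_continuousOn : ContinuousOn (q D) {0}ᶜ := by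
  intro s hs
  have hs' : s ≠ 0 := hs
  by_cases h : ∀ j, s j ≤ D.d * ‖s‖
  · have h1 := inner_nz_u1_neg D hs' h
    refine ContinuousWithinAt.div (D.cka s hs) ?_ h1.ne
    exact (nz_continuousOn D s hs).inner continuousWithinAt_const
  · push Not at h
    obtain ⟨j, hj⟩ := h
    have h2 : {t : W n | D.d * ‖t‖ < t j} ∈ nhds s := by
      refine IsOpen.mem_nhds ?_ hj
      exact isOpen_lt (by fun_prop) ((continuous_apply j).comp (PiLp.continuous_ofLp 2 _))
    have h3 : (fun _ => (0 : ℝ)) =ᶠ[nhdsWithin s {0}ᶜ] q D := by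
      filter_upwards [mem_nhdsWithin_of_mem_nhds h2, self_mem_nhdsWithin] with t ht ht0
      have : D.ka t = 0 := by
        by_contra hk
        exact absurd (D.kap t ht0 hk j) (not_lt.2 (le_of_lt ht))
      rw [q, this, zero_div]
    exact continuousWithinAt_const.congr_of_eventuallyEq h3.symm (by
      have : D.ka s = 0 := by
        by_contra hk
        exact absurd (D.kap s hs' hk j) (not_lt.2 (le_of_lt hj))
      rw [q, this, zero_div])

lemma A_eq (s v : W n) : D.A s v = v + (q D s * ⟪D.nz s, hor v⟫) • u1 n := by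
  rw [HD.A, q]
  congr 2
  ring

lemma A_sub (s v w : W n) : D.A s (v - w) = D.A s v - D.A s w := by
  rw [A_eq, A_eq, A_eq, hor_sub, inner_sub_right, mul_sub, sub_smul]
  abel

lemma A_add (s v w : W n) : D.A s (v + w) = D.A s v + D.A s w := by
  rw [A_eq, A_eq, A_eq, hor_add, inner_add_right, mul_add, add_smul]
  abel

lemma A_smul (s : W n) (c : ℝ) (v : W n) : D.A s (c • v) = c • D.A s v := by
  rw [A_eq, A_eq, hor_smul, inner_smul_right, smul_add, smul_smul]
  congr 2
  ring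

lemma hor_A (s v : W n) : hor (D.A s v) = hor v := by
  rw [A_eq, hor_add, hor_smul, hor_u1, smul_zero, add_zero]

lemma inner_u1_A (s v : W n) : ⟪u1 n, D.A s v⟫ = ⟪u1 n, v⟫ + q D s * ⟪D.nz s, hor v⟫ := by
  rw [A_eq, inner_add_right, inner_smul_right, inner_u1_u1, mul_one]

/-- vertical component after the shear. -/
lemma inner_u1_A' {s : W n} (hs : s ≠ 0) (v : W n) :
    ⟪u1 n, D.A s v⟫ = (1 - D.ka s) * ⟪u1 n, v⟫ + q D s * ⟪D.nz s, v⟫ := by
  rw [inner_u1_A, inner_hor]
  by_cases h : D.ka s = 0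
  · rw [q, h]; simp
  · have h1 := inner_nz_u1_neg D hs fun j => (D.kap s hs h j).le
    have h2 : ⟪D.nz s, u1 n⟫ ≠ 0 := h1.ne
    rw [q]
    field_simp
    ring

lemma A_eq_zero {s v : W n} (h : D.A s v = 0) : v = 0 := by
  have h1 : hor v = 0 := by rw [← hor_A D s, h, hor, inner_zero_right, zero_smul, sub_zero]
  rw [A_eq, h1, inner_zero_right, mul_zero, zero_smul, add_zero] at h
  exact h

lemma A_ne {s v : W n} (h : v ≠ 0) : D.A s v ≠ 0 := fun h' => h (A_eq_zero D h')

lemma A_homog {c : ℝ} (hc : 0 < c) (s v : W n) : D.A (c • s) v = D.A s v := by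
  rw [HD.A, HD.A, D.kah c s hc, nz_smul D hc]

lemma A_continuousOn {X : Type*} [TopologicalSpace X] {S : Set X} {f g : X → W n}
    (hf : ContinuousOn f S) (hg : ContinuousOn g S) (h0 : ∀ x ∈ S, f x ≠ 0) :
    ContinuousOn (fun x => D.A (f x) (g x)) S := by
  have h1 : ContinuousOn (fun x => q D (f x)) S := (q_continuousOn D).comp hf fun x hx => h0 x hx
  have h2 : ContinuousOn (fun x => D.nz (f x)) S := (nz_continuousOn D).comp hf fun x hx => h0 x hx
  have h3 : ContinuousOn (fun x => hor (g x)) S := continuous_hor.comp_continuousOn hg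
  simp only [A_eq]
  exact hg.add ((h1.mul (h2.inner h3)).smul continuousOn_const)


/-! ### positions -/

lemma hs_apply (s : W n) (j : Fin (n + 3)) : D.hs s j = ‖s‖ * D.pp (s j / ‖s‖) := rfl

lemma hs_pos {s : W n} {j : Fin (n + 3)} (h : 0 < s j) : 0 < D.hs s j := by
  have h0 : 0 < ‖s‖ := norm_pos_iff.2 fun h1 => by rw [h1] at h; exact lt_irrefl _ h
  exact mul_pos h0 (D.ppp _ (div_pos h h0))

lemma hs_nonpos {s : W n} {j : Fin (n + 3)} (h : s j ≤ 0) : D.hs s j ≤ 0 :=
  mul_nonpos_of_nonneg_of_nonpos (norm_nonneg _)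
    (D.ppn _ (div_nonpos_of_nonpos_of_nonneg h (norm_nonneg _)))

lemma hs_of_large {s : W n} (hs : s ≠ 0) {j : Fin (n + 3)} (h : D.d * ‖s‖ ≤ s j) :
    D.hs s j = s j := by
  have h0 : 0 < ‖s‖ := norm_pos_iff.2 hs
  rw [hs_apply, D.ppd _ (by rwa [le_div_iff₀ h0]), mul_div_cancel₀ _ h0.ne']

lemma hs_smul {c : ℝ} (hc : 0 < c) (s : W n) : D.hs (c • s) = c • D.hs s := by
  ext j
  rw [PiLp.smul_apply, hs_apply, hs_apply, norm_smul, Real.norm_of_nonneg hc.le, PiLp.smul_apply,
    smul_eq_mul, smul_eq_mul, mul_div_mul_left _ _ hc.ne', mul_assoc]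

lemma hs_zero : D.hs (0 : W n) = 0 := by
  ext j
  rw [hs_apply, norm_zero, zero_mul]
  rfl

lemma hs_continuousOn (j : Fin (n + 3)) : ContinuousOn (fun s => D.hs s j) {0}ᶜ :=
  continuous_norm.continuousOn.mul (D.cpp.comp_continuousOn (div_norm_continuousOn j))

lemma eta_apply (k : Fin m) (s : W n) (j : Fin (n + 3)) :
    D.eta k s j = max (D.hs s j) 0 * D.sg k j + D.ep * ‖s‖ * D.th s * proj (D.nrm k s) (vec (D.V k)) j := by
  rw [HD.eta, PiLp.add_apply, PiLp.smul_apply, smul_eq_mul]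
  rfl

lemma proj_continuousOn {X : Type*} [TopologicalSpace X] {S : Set X} {f g : X → W n}
    (hf : ContinuousOn f S) (hg : ContinuousOn g S) (h0 : ∀ x ∈ S, f x ≠ 0) :
    ContinuousOn (fun x => proj (f x) (g x)) S := by
  unfold proj
  exact hg.sub (((hf.inner hg).div (hf.norm.pow 2) fun x hx =>
    pow_ne_zero 2 (norm_ne_zero_iff.2 (h0 x hx))).smul hf)

lemma eta_continuousOn (k : Fin m) : ContinuousOn (D.eta k) {0}ᶜ := by
  unfold HD.eta
  refine ContinuousOn.add ?_ ?_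
  · refine continuous_vec fun j => ?_
    have h : Continuous fun x : ℝ => max x 0 * D.sg k j := by fun_prop
    exact h.comp_continuousOn (hs_continuousOn D j)
  · have a1 : ContinuousOn (fun s : W n => D.ep * ‖s‖ * D.th s) {0}ᶜ :=
      (continuousOn_const.mul continuous_norm.continuousOn).mul D.cth
    have a2 : ContinuousOn (fun s : W n => proj (D.nrm k s) (vec (D.V k))) {0}ᶜ :=
      proj_continuousOn (nrm_continuousOn D k) continuousOn_const fun s hs => nrm_ne D hs
    exact a1.smul a2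

lemma eta_smul {c : ℝ} (hc : 0 < c) (k : Fin m) (s : W n) : D.eta k (c • s) = c • D.eta k s := by
  ext j
  rw [PiLp.smul_apply, eta_apply, eta_apply, nrm_smul D hc, D.thh c s hc, norm_smul,
    Real.norm_of_nonneg hc.le, hs_smul D hc, PiLp.smul_apply, smul_eq_mul, smul_eq_mul]
  have : max (c * D.hs s j) 0 = c * max (D.hs s j) 0 := by
    rw [mul_max_of_nonneg _ _ hc.le, mul_zero]
  rw [this]
  ring

/-- difference vector of two strands, with a common conormal `a`. -/
lemma eta_sub_of_eq {k l : Fin m} {s : W n} (h : D.nrm k s = D.nrm l s) :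
    D.eta k s - D.eta l s = vec (fun j => max (D.hs s j) 0 * (D.sg k j - D.sg l j)) +
      (D.ep * ‖s‖ * D.th s) • proj (D.nrm k s) (vec (D.V k) - vec (D.V l)) := by
  ext j
  rw [PiLp.sub_apply, eta_apply, eta_apply, PiLp.add_apply, PiLp.smul_apply, ← h, smul_eq_mul]
  have : proj (D.nrm k s) (vec (D.V k) - vec (D.V l)) =
      proj (D.nrm k s) (vec (D.V k)) - proj (D.nrm k s) (vec (D.V l)) := by
    rw [proj, proj, proj, inner_sub_right, sub_div, sub_smul]; abel
  rw [this, PiLp.sub_apply, vec_apply]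
  ring

/-- If some coordinate with different slopes is large, the strands are far apart. -/
lemma eta_apply_lt_of_large {k l : Fin m} {s : W n} (hs : s ≠ 0) {i : Fin (n + 3)}
    (hi : D.sg l i < D.sg k i) (h : D.d * ‖s‖ ≤ s i) : D.eta l s i < D.eta k s i := by
  have h0 : 0 < ‖s‖ := norm_pos_iff.2 hs
  have hd := D.hd
  have h1 : 0 < s i := lt_of_lt_of_le (by positivity) h
  have h2 := D.small k l i (ne_of_gt hi)
  rw [abs_of_pos (by linarith)] at h2
  have h3 : |proj (D.nrm k s) (vec (D.V k)) i| ≤ ‖vec (D.V k)‖ :=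
    (abs_apply_le _ i).trans (norm_proj_le _ _)
  have h4 : |proj (D.nrm l s) (vec (D.V l)) i| ≤ ‖vec (D.V l)‖ :=
    (abs_apply_le _ i).trans (norm_proj_le _ _)
  rw [eta_apply, eta_apply, hs_of_large D hs h, max_eq_left h1.le]
  have h5 := abs_le.1 h3
  have h6 := abs_le.1 h4
  have hth := D.th0 s
  have hth1 := D.th1 s
  have hep := D.hep
  have h7 : D.ep * ‖s‖ * D.th s * (proj (D.nrm l s) (vec (D.V l)) i -
      proj (D.nrm k s) (vec (D.V k)) i) ≤ D.ep * ‖s‖ * (‖vec (D.V k)‖ + ‖vec (D.V l)‖) := by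
    have a1 : proj (D.nrm l s) (vec (D.V l)) i - proj (D.nrm k s) (vec (D.V k)) i ≤
        ‖vec (D.V k)‖ + ‖vec (D.V l)‖ := by linarith [h5.1, h6.2]
    have a2 : 0 ≤ D.ep * ‖s‖ := by positivity
    have a3 : 0 ≤ ‖vec (D.V k)‖ + ‖vec (D.V l)‖ := by positivity
    calc D.ep * ‖s‖ * D.th s * (proj (D.nrm l s) (vec (D.V l)) i -
          proj (D.nrm k s) (vec (D.V k)) i)
        ≤ D.ep * ‖s‖ * D.th s * (‖vec (D.V k)‖ + ‖vec (D.V l)‖) :=
          mul_le_mul_of_nonneg_left a1 (by positivity)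
      _ ≤ D.ep * ‖s‖ * 1 * (‖vec (D.V k)‖ + ‖vec (D.V l)‖) := by gcongr
      _ = _ := by ring
  have h8 : D.ep * ‖s‖ * (‖vec (D.V k)‖ + ‖vec (D.V l)‖) < s i * (D.sg k i - D.sg l i) := by
    calc D.ep * ‖s‖ * (‖vec (D.V k)‖ + ‖vec (D.V l)‖)
        = ‖s‖ * (D.ep * (‖vec (D.V k)‖ + ‖vec (D.V l)‖)) := by ring
      _ < ‖s‖ * (D.d * (D.sg k i - D.sg l i)) := by gcongr
      _ = (D.d * ‖s‖) * (D.sg k i - D.sg l i) := by ring
      _ ≤ s i * (D.sg k i - D.sg l i) := by gcongr
  nlinarith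

/-- If no coordinate with different slopes is large, the conormals agree. -/
lemma nrm_eq_of_small {k l : Fin m} {s : W n} (hs : s ≠ 0)
    (h : ∀ i, D.sg k i ≠ D.sg l i → s i ≤ D.d * ‖s‖) : D.nrm k s = D.nrm l s := by
  ext j
  by_cases hj : D.sg k j = D.sg l j
  · rw [nrm_apply, nrm_apply, D.ray k l j hj]
  · rw [nrm_eq_of_lt D hs (h j hj), nrm_eq_of_lt D hs (h j hj)]

/-- **key computation**: with a conormal `a` with `a j ≥ 0` where `s j > 0` and `Δ j ≠ 0`, `a j ≤ 0`
where `s j ≤ 0`, the vector `s⁺ Δ + c proj a V` vanishes only in the listed case. -/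
lemma key_ne {s a Δ V : W n} {c : ℝ} (hc : 0 < c) (ha : a ≠ 0)
    (h1 : ∀ j, Δ j ≠ 0 → 0 < s j → 0 ≤ a j) (h2 : ∀ j, s j ≤ 0 → a j ≤ 0)
    (h3 : ∀ j, Δ j ≠ 0 → 0 < Δ j * V j)
    (h : vec (fun j => max (s j) 0 * Δ j) + c • proj a V = 0) :
    ((∃ i, Δ i ≠ 0) → ∃ μ : ℝ, μ ≠ 0 ∧ (∀ j, V j = μ * a j) ∧ ∀ j, Δ j ≠ 0 → s j ≤ 0) := by
  rintro ⟨i, hi⟩
  have e : ∀ j, max (s j) 0 * Δ j + c * (V j - (⟪a, V⟫ / ‖a‖ ^ 2) * a j) = 0 := by
    intro j
    have := congrArg (fun v : W n => v j) h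
    simpa [proj] using this
  set μ := ⟪a, V⟫ / ‖a‖ ^ 2 with hμ
  -- inner product with `a`
  have e2 : ∑ j, max (s j) 0 * Δ j * a j = 0 := by
    have h4 : ⟪a, vec (fun j => max (s j) 0 * Δ j) + c • proj a V⟫ = 0 := by rw [h, inner_zero_right]
    rw [inner_add_right, inner_smul_right, inner_proj a V ha, mul_zero, add_zero, inner_def] at h4
    rw [← h4]
    exact Finset.sum_congr rfl fun j _ => by rw [vec_apply]; ring
  -- sign of `μ` at coordinates with `Δ j ≠ 0`
  have key : ∀ j, Δ j ≠ 0 → (0 < s j → 0 < μ * (a j * Δ j)) ∧ (s j ≤ 0 → 0 < μ * (a j * Δ j)) := by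
    intro j hj
    have e3 := e j
    constructor
    · intro hs
      rw [max_eq_left hs.le] at e3
      have e4 : c * (μ * a j) = s j * Δ j + c * V j := by linarith
      have e5 : c * (μ * (a j * Δ j)) = s j * Δ j ^ 2 + c * (Δ j * V j) := by
        calc c * (μ * (a j * Δ j)) = c * (μ * a j) * Δ j := by ring
          _ = (s j * Δ j + c * V j) * Δ j := by rw [e4]
          _ = _ := by ring
      have e6 : 0 < c * (μ * (a j * Δ j)) := by
        rw [e5]
        have := h3 j hj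
        positivity
      exact (mul_pos_iff_of_pos_left hc).1 e6
    · intro hs
      rw [max_eq_right hs, zero_mul, zero_add] at e3
      have e4 : V j = μ * a j := by
        have := (mul_eq_zero.1 e3).resolve_left hc.ne'
        linarith
      have := h3 j hj
      rw [e4] at this
      linarith [this]
  -- no positive coordinate with `Δ ≠ 0`
  have hneg : ∀ j, Δ j ≠ 0 → s j ≤ 0 := by
    intro j hj
    by_contra hs
    push Not at hs
    have k1 := (key j hj).1 hs
    have a1 : 0 ≤ a j := h1 j hj hs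
    -- sign of μ Δ j is positive
    have s1 : 0 < μ * Δ j := by
      have : 0 < a j * (μ * Δ j) := by linarith
      by_contra hh
      push Not at hh
      nlinarith [mul_nonneg a1 (neg_nonneg.2 hh)]
    -- all terms of the sum times μ are nonneg, the `j` one positive
    have e7 : ∀ l, 0 ≤ μ * (max (s l) 0 * Δ l * a l) := by
      intro l
      by_cases hl : Δ l = 0
      · rw [hl]; simp
      rcases le_or_gt (s l) 0 with h5 | h5
      · rw [max_eq_right h5]; simp
      · rw [max_eq_left h5.le]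
        have := (key l hl).1 h5
        have : 0 ≤ s l * (μ * (a l * Δ l)) := by positivity
        linarith
    have e8 : 0 < μ * (max (s j) 0 * Δ j * a j) := by
      rw [max_eq_left hs.le]
      have : 0 < s j * (μ * (a j * Δ j)) := by positivity
      linarith
    have e9 : 0 < ∑ l, μ * (max (s l) 0 * Δ l * a l) :=
      Finset.sum_pos' (fun l _ => e7 l) ⟨j, Finset.mem_univ _, e8⟩
    rw [← Finset.mul_sum, e2, mul_zero] at e9
    exact lt_irrefl _ e9
  refine ⟨μ, ?_, ?_, hneg⟩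
  · intro h0
    have := (key i hi).2 (hneg i hi)
    rw [h0] at this
    simp at this
  · intro j
    have e3 := e j
    by_cases hj : Δ j = 0
    · rw [hj, mul_zero, zero_add] at e3
      have := (mul_eq_zero.1 e3).resolve_left hc.ne'
      linarith
    · rw [max_eq_right (hneg j hj), zero_mul, zero_add] at e3
      have := (mul_eq_zero.1 e3).resolve_left hc.ne'
      linarith


lemma Yp_neg_iff {x : ℝ} (h : D.Yp x < 0) : x < -D.d := by
  by_contra hx
  push Not at hx
  have h1 := D.mYp hx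
  rw [D.Yp0 (-D.d) (by rw [abs_neg, abs_of_pos D.hd])] at h1
  linarith

lemma exists_sg_ne {k l : Fin m} (h : k ≠ l) : ∃ i, D.sg k i ≠ D.sg l i := by
  rcases D.trich k l h with h1 | h1 | h1 | h1
  · obtain ⟨i, hi⟩ := h1.2.1; exact ⟨i, hi.ne'⟩
  · obtain ⟨i, hi⟩ := h1.2.1; exact ⟨i, hi.ne⟩
  · rcases h1 with ⟨i, -, hi, -⟩ | ⟨-, i, -, hi, -⟩
    · exact ⟨i, hi.ne'⟩
    · exact ⟨i, hi.ne'⟩
  · rcases h1 with ⟨i, -, hi, -⟩ | ⟨-, i, -, hi, -⟩
    · exact ⟨i, hi.ne⟩
    · exact ⟨i, hi.ne⟩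

/-- **strands are distinct** off the region where all coordinates are very negative. -/
lemma eta_ne {k l : Fin m} (hkl : k ≠ l) {s : W n} (hs : s ≠ 0) (hout : ∃ j, -(D.d * ‖s‖) ≤ s j) :
    D.eta k s ≠ D.eta l s := by
  intro heq
  have h0 : 0 < ‖s‖ := norm_pos_iff.2 hs
  have hsm : ∀ i, D.sg k i ≠ D.sg l i → s i ≤ D.d * ‖s‖ := by
    intro i hi
    by_contra hh
    push Not at hh
    rcases lt_or_gt_of_ne hi with h | h
    · have := eta_apply_lt_of_large D (k := l) (l := k) hs h hh.le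
      rw [heq] at this
      exact lt_irrefl _ this
    · have := eta_apply_lt_of_large D (k := k) (l := l) hs h hh.le
      rw [heq] at this
      exact lt_irrefl _ this
  have hn := nrm_eq_of_small D hs hsm
  have h1 := eta_sub_of_eq D hn
  rw [heq, sub_self] at h1
  rcases (D.th0 s).eq_or_lt with hth | hth
  · obtain ⟨i, hi⟩ := exists_sg_ne D hkl
    have h2 := D.thp s hs hth.symm i
    have h3 := congrArg (fun v : W n => v i) h1
    simp only [← hth, mul_zero, zero_smul, add_zero, vec_apply, PiLp.zero_apply] at h3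
    have h2' := hs_pos D h2
    rw [max_eq_left h2'.le] at h3
    exact (mul_ne_zero h2'.ne' (sub_ne_zero.2 hi)) h3.symm
  · have hV : ∀ j, (vec (D.V k) - vec (D.V l) : W n) j = D.V k j - D.V l j := fun j => rfl
    have hsg : ∀ j, 0 < D.hs s j → 0 < s j := fun j h => by
      by_contra h'
      exact absurd (hs_nonpos D (not_lt.1 h')) (not_le.2 h)
    have hsg' : ∀ j, D.hs s j ≤ 0 → s j ≤ 0 := fun j h => by
      by_contra h'
      exact absurd (hs_pos D (not_le.1 h')) (not_lt.2 h)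
    obtain ⟨μ, hμ, hVμ, hneg⟩ := key_ne (Δ := vec fun j => D.sg k j - D.sg l j) (s := D.hs s)
      (c := D.ep * ‖s‖ * D.th s) (by have := D.hep; positivity) (nrm_ne D (k := k) hs)
      (fun j hj hsj0 => by
        have hsj := hsg j hsj0
        have hj' : D.sg k j ≠ D.sg l j := fun h => hj (by rw [vec_apply, h, sub_self])
        rw [nrm_eq_of_lt D hs (hsm j hj')]
        exact Yp_nonneg D (by positivity))
      (fun j hsj0 => by
        have hsj := hsg' j hsj0
        have hle : s j ≤ D.d * ‖s‖ := hsj.trans (by have := D.hd; positivity)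
        rw [nrm_eq_of_lt D hs hle]
        exact nz_nonpos D hs hle)
      (fun j hj => by
        have hj' : D.sg k j ≠ D.sg l j := fun h => hj (by rw [vec_apply, h, sub_self])
        rw [vec_apply, hV]
        exact D.hV k l j hj') (V := vec (D.V k) - vec (D.V l)) h1.symm
      (by
        obtain ⟨i, hi⟩ := exists_sg_ne D hkl
        exact ⟨i, by rw [vec_apply]; exact sub_ne_zero.2 hi⟩)
    simp only [hV, vec_apply, ne_eq, sub_eq_zero] at hVμ hneg
    have a_nonpos : ∀ j, D.sg k j ≠ D.sg l j → D.nrm k s j ≤ 0 := by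
      intro j hj
      rw [nrm_eq_of_lt D hs (hsm j hj)]
      exact nz_nonpos D hs (hsm j hj)
    have case_pos : (∀ j, D.V l j < D.V k j) → (∀ j, D.sg k j = D.sg l j → D.neg k j = false) →
        μ < 0 → False := by
      intro hVp hray hμn
      obtain ⟨j, hj⟩ := hout
      have h3 : 0 < μ * D.nrm k s j := by rw [← hVμ]; linarith [hVp j]
      have h4 : D.nrm k s j < 0 := by
        by_contra hh
        push Not at hh
        nlinarith
      have h5 : D.Yp (s j / ‖s‖) < 0 := by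
        by_cases hj' : D.sg k j = D.sg l j
        · rw [nrm_apply, hray j hj'] at h4
          simpa using h4
        · rw [nrm_eq_of_lt D hs (hsm j hj')] at h4
          exact h4
      have h6 := Yp_neg_iff D h5
      rw [div_lt_iff₀ h0] at h6
      linarith
    have case_neg : (∀ j, D.V k j < D.V l j) → (∀ j, D.sg k j = D.sg l j → D.neg k j = false) →
        0 < μ → False := by
      intro hVp hray hμn
      obtain ⟨j, hj⟩ := hout
      have h3 : μ * D.nrm k s j < 0 := by rw [← hVμ]; linarith [hVp j]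
      have h4 : D.nrm k s j < 0 := by
        by_contra hh
        push Not at hh
        nlinarith
      have h5 : D.Yp (s j / ‖s‖) < 0 := by
        by_cases hj' : D.sg k j = D.sg l j
        · rw [nrm_apply, hray j hj'] at h4
          simpa using h4
        · rw [nrm_eq_of_lt D hs (hsm j hj')] at h4
          exact h4
      have h6 := Yp_neg_iff D h5
      rw [div_lt_iff₀ h0] at h6
      linarith
    -- signs of μ from one coordinate
    have sgn : ∀ i, D.sg k i ≠ D.sg l i → 0 < D.V k i - D.V l i → μ < 0 := by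
      intro i hi hVi
      have h3 := a_nonpos i hi
      rw [hVμ] at hVi
      by_contra hh
      push Not at hh
      nlinarith
    have sgn' : ∀ i, D.sg k i ≠ D.sg l i → D.V k i - D.V l i < 0 → 0 < μ := by
      intro i hi hVi
      have h3 := a_nonpos i hi
      rw [hVμ] at hVi
      by_contra hh
      push Not at hh
      nlinarith
    have vpos : ∀ i, D.sg l i < D.sg k i → 0 < D.V k i - D.V l i := fun i hi =>
      (mul_pos_iff_of_pos_left (sub_pos.2 hi)).1 (D.hV k l i hi.ne')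
    have vneg : ∀ i, D.sg k i < D.sg l i → D.V k i - D.V l i < 0 := by
      intro i hi
      have := D.hV k l i hi.ne
      nlinarith
    rcases D.trich k l hkl with h2 | h2 | h2 | h2
    · obtain ⟨i, hi⟩ := h2.2.1
      exact case_pos h2.2.2.1 h2.2.2.2 (sgn i hi.ne' (vpos i hi))
    · obtain ⟨i, hi⟩ := h2.2.1
      exact case_neg h2.2.2.1 (fun j hj => by rw [D.ray k l j hj]; exact h2.2.2.2 j hj.symm)
        (sgn' i hi.ne (vneg i hi))
    · rcases h2 with ⟨i, j, hi, hj⟩ | ⟨-, i, j, hi, hj, hVj, hnj⟩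
      · exact absurd (sgn i hi.ne' (vpos i hi)) (not_lt.2 (sgn' j hj.ne (vneg j hj)).le)
      · have h3 := sgn i hi.ne' (vpos i hi)
        have h4 : D.nrm k s j ≤ 0 := by rw [nrm_apply, hnj]; exact Ym_nonpos D _
        have h5 := hVμ j
        nlinarith
    · rcases h2 with ⟨i, j, hi, hj⟩ | ⟨-, i, j, hi, hj, hVj, hnj⟩
      · exact absurd (sgn j hj.ne' (vpos j hj)) (not_lt.2 (sgn' i hi.ne (vneg i hi)).le)
      · have h3 := sgn' i hi.ne (vneg i hi)
        have h4 : D.nrm k s j ≤ 0 := by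
          rw [nrm_apply, ← D.ray l k j hj, hnj]; exact Ym_nonpos D _
        have h5 := hVμ j
        nlinarith

end Crest.Agent.R267.EndBas_864
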