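import Crest.Agent.R267.GS_808

/-!
# Homogeneous graph systems (row 267, T3-end): definitions

`W n = ℝ^(n+3)`; strand side of the base = direction `(1,…,1)`, plate side = `-(1,…,1)`.
`HD n m` = combinatorial and analytic data of a homogeneous graph system with `m` strands:
slopes `sg k j`, displacement vectors `V k`, signs of the rays (`neg k j = true`: negative ray),
the profile `pp` of the positive part of the base coordinates (`pp x = x` for `x ≥ d`),
the profile `Yp` (`Ym` for negative rays) of the conormal `nrm k s = (Y (s j / ‖s‖))_j`,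
the cut-offs `th` (centre), `ka` (shear near the wall), and the wall `m0`.
-/

set_option autoImplicit false

namespace Crest.Agent.R267.EndDef_864

open Set Metric
open scoped RealInnerProductSpace
open Crest.Agent.R267.GS_808

/-- `ℝ^(n+3)`. -/
abbrev W (n : ℕ) := Vc (n + 2)

/-- the unit vector in the direction `(1,…,1)`. -/
noncomputable def u1 (n : ℕ) : W n := WithLp.toLp 2 fun _ => 1 / √(n + 3 : ℝ)

lemma inner_def {n : ℕ} (v w : W n) : ⟪v, w⟫ = ∑ j, v j * w j := by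
  rw [PiLp.inner_apply]
  exact Finset.sum_congr rfl fun j _ => by simp [mul_comm]

lemma sqrt_pos (n : ℕ) : 0 < √(n + 3 : ℝ) := Real.sqrt_pos.2 (by positivity)

lemma inner_u1 {n : ℕ} (v : W n) : ⟪u1 n, v⟫ = (∑ j, v j) / √(n + 3 : ℝ) := by
  rw [inner_def, Finset.sum_div]
  exact Finset.sum_congr rfl fun j _ => by simp only [u1]; ring

lemma norm_sq_def {n : ℕ} (v : W n) : ‖v‖ ^ 2 = ∑ j, v j ^ 2 := by
  rw [← real_inner_self_eq_norm_sq, inner_def]
  exact Finset.sum_congr rfl fun j _ => by ring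

lemma norm_u1 (n : ℕ) : ‖u1 n‖ = 1 := by
  have h : ‖u1 n‖ ^ 2 = 1 := by
    rw [norm_sq_def]
    simp only [u1, div_pow, one_pow, Finset.sum_const, Finset.card_univ, Fintype.card_fin,
      nsmul_eq_mul, Real.sq_sqrt (by positivity : (0 : ℝ) ≤ n + 3)]
    push_cast
    field_simp
    ring
  have h0 := norm_nonneg (u1 n)
  nlinarith

lemma norm_ec (n : ℕ) : ‖ec n‖ = 1 := by
  simp [ec]

/-- the reflection exchanging `(1,…,1)/√(n+3)` and the height direction. -/
noncomputable def L (n : ℕ) : W n ≃ₗᵢ[ℝ] W n := (ℝ ∙ (u1 n - ec (n + 2)))ᗮ.reflection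

lemma L_u1 (n : ℕ) : L n (u1 n) = ec (n + 2) :=
  Submodule.reflection_sub (by rw [norm_u1, norm_ec])

lemma L_L {n : ℕ} (v : W n) : L n (L n v) = v := Submodule.reflection_reflection _ v

lemma L_ec (n : ℕ) : L n (ec (n + 2)) = u1 n := by rw [← L_u1, L_L]

lemma inner_L {n : ℕ} (v w : W n) : ⟪L n v, L n w⟫ = ⟪v, w⟫ := (L n).inner_map_map v w

lemma inner_ec_L {n : ℕ} (v : W n) : ⟪ec (n + 2), L n v⟫ = ⟪u1 n, v⟫ := by
  rw [← L_u1, inner_L]

/-- component orthogonal to `(1,…,1)`. -/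
noncomputable def hor {n : ℕ} (v : W n) : W n := v - ⟪u1 n, v⟫ • u1 n

/-- `v` minus its component along `a`. -/
noncomputable def proj {n : ℕ} (a v : W n) : W n := v - (⟪a, v⟫ / ‖a‖ ^ 2) • a

/-- vector with given coordinates. -/
noncomputable def vec {n : ℕ} (f : Fin (n + 3) → ℝ) : W n := WithLp.toLp 2 f

@[simp] lemma vec_apply {n : ℕ} (f : Fin (n + 3) → ℝ) (j : Fin (n + 3)) : vec f j = f j := rfl

/-- the base point over the point `b` of the cube, height `z` in the direction `(1,…,1)`. -/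
noncomputable def bp {n : ℕ} (b : Bc (n + 2)) (z : ℝ) : W n := L n (pt b z)

/-- radial retraction onto the closed unit ball. -/
noncomputable def ret {n : ℕ} (b : Bc n) : Bc n := (1 / max 1 ‖b‖) • b

section rel

variable {n m : ℕ} (sg V : Fin m → Fin (n + 3) → ℝ) (neg : Fin m → Fin (n + 3) → Bool)

/-- `k` above `l`, all common rays positive: class `α`. -/
def Pos (k l : Fin m) : Prop :=
  (∀ j, sg l j ≤ sg k j) ∧ (∃ j, sg l j < sg k j) ∧ (∀ j, V l j < V k j) ∧
    ∀ j, sg k j = sg l j → neg k j = false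

/-- incomparable, or comparable with a common negative ray: class `0`. -/
def Mix (k l : Fin m) : Prop :=
  (∃ i j, sg l i < sg k i ∧ sg k j < sg l j) ∨
    (∀ j, sg l j ≤ sg k j) ∧ ∃ i j, sg l i < sg k i ∧ sg k j = sg l j ∧ V k j < V l j ∧
      neg k j = true

end rel

/-- data of a homogeneous graph system. -/
structure HD (n m : ℕ) where
  sg : Fin m → Fin (n + 3) → ℝ
  V : Fin m → Fin (n + 3) → ℝ
  neg : Fin m → Fin (n + 3) → Bool
  Yp : ℝ → ℝ
  Ym : ℝ → ℝ
  pp : ℝ → ℝ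
  d : ℝ
  ep : ℝ
  th : W n → ℝ
  ka : W n → ℝ
  m0 : Bc (n + 2) → ℝ
  hd : 0 < d
  hdN : d ^ 2 * (n + 3) < 1
  hep : 0 < ep
  cYp : Continuous Yp
  cYm : Continuous Ym
  mYp : Monotone Yp
  Yp0 : ∀ x, |x| ≤ d → Yp x = 0
  Ypp : ∀ x, d < x → 0 < Yp x
  Ypn : ∀ x, x < -d → Yp x < 0
  Ymp : ∀ x, x ≤ d → Ym x = Yp x
  Ymn : ∀ x, d < x → Ym x < 0
  cpp : Continuous pp
  ppp : ∀ x, 0 < x → 0 < pp x
  ppn : ∀ x, x ≤ 0 → pp x ≤ 0
  ppd : ∀ x, d ≤ x → pp x = x
  cth : ContinuousOn th {0}ᶜ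
  th0 : ∀ s, 0 ≤ th s
  th1 : ∀ s, th s ≤ 1
  thp : ∀ s, s ≠ 0 → th s = 0 → ∀ j, 0 < s j
  thh : ∀ (c : ℝ) s, 0 < c → th (c • s) = th s
  cka : ContinuousOn ka {0}ᶜ
  ka0 : ∀ s, 0 ≤ ka s
  ka1 : ∀ s, ka s ≤ 1
  kah : ∀ (c : ℝ) s, 0 < c → ka (c • s) = ka s
  kap : ∀ s, s ≠ 0 → ka s ≠ 0 → ∀ j, s j < d * ‖s‖
  cm0 : Continuous m0
  m00 : m0 0 = 0
  out : ∀ b, ‖b‖ ≤ 1 → ∃ j, -(d * ‖bp (n := n) b (1 - ‖b‖ - m0 b)‖) < bp (n := n) b (1 - ‖b‖ - m0 b) j
  wall : ∀ b, ‖b‖ = 1 → ka (bp b (-m0 b)) = 1 ∧ ∀ j, bp (n := n) b (-m0 b) j < 0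
  ray : ∀ k l j, sg k j = sg l j → neg k j = neg l j
  hV : ∀ k l j, sg k j ≠ sg l j → 0 < (sg k j - sg l j) * (V k j - V l j)
  small : ∀ k l j, sg k j ≠ sg l j → ep * (‖vec (V k)‖ + ‖vec (V l)‖) < d * |sg k j - sg l j|
  trich : ∀ k l, k ≠ l → Pos sg V neg k l ∨ Pos sg V neg l k ∨ Mix sg V neg k l ∨ Mix sg V neg l k

namespace HD

variable {n m : ℕ} (D : HD n m)

/-- conormal of strand `k` (negative rays reversed on the strand side). -/
noncomputable def nrm (k : Fin m) (s : W n) : W n :=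
  vec fun j => if D.neg k j then D.Ym (s j / ‖s‖) else D.Yp (s j / ‖s‖)

/-- the conormal without negative rays; common to all strands near the wall. -/
noncomputable def nz (s : W n) : W n := vec fun j => D.Yp (s j / ‖s‖)

/-- modified base point: coordinates in `(0, d ‖s‖)` may be changed (`max (hs s j) 0` can be made
`C¹`); same signs as `s`. -/
noncomputable def hs (s : W n) : W n := vec fun j => ‖s‖ * D.pp (s j / ‖s‖)

/-- position of the strand `k` over the base point `s` (686's formula). -/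
noncomputable def eta (k : Fin m) (s : W n) : W n :=
  vec (fun j => max (D.hs s j) 0 * D.sg k j) +
    (D.ep * ‖s‖ * D.th s) • proj (D.nrm k s) (vec (D.V k))

/-- shear near the wall: turns the sheet `nz s ᗮ` into `(1,…,1)ᗮ`. -/
noncomputable def A (s v : W n) : W n :=
  v + (D.ka s * (⟪D.nz s, hor v⟫ / ⟪D.nz s, u1 n⟫)) • u1 n

/-- conormal after the shear. -/
noncomputable def nA (k : Fin m) (s : W n) : W n :=
  (1 - D.ka s) • hor (D.nrm k s) + ⟪u1 n, D.nrm k s⟫ • u1 n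

/-- base point over a point of the cube. -/
noncomputable def sb (b : Bc (n + 2)) : W n := bp (ret b) (1 - ‖ret b‖ - D.m0 (ret b))

/-- core of strand `k`. -/
noncomputable def core (k : Fin m) (b : Bc (n + 2)) : W n :=
  (1 / ‖D.sb b‖) • L n (D.A (D.sb b) (D.eta k (D.sb b)))

/-- unit normal of strand `k`. -/
noncomputable def nuc (k : Fin m) (b : Bc (n + 2)) : W n :=
  -((1 / ‖D.nA k (D.sb b)‖) • L n (D.nA k (D.sb b)))

open Classical in
/-- the matrix. -/
noncomputable def mat : Matrix (Fin m) (Fin m) ℤ := fun k l =>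
  if k = l then (if ∀ j, D.neg k j = false then 1 else 0)
  else if Pos D.sg D.V D.neg k l then 1 else 0

end HD

end Crest.Agent.R267.EndDef_864
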