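import Crest.Agent.R267.EndH_864
import Crest.Agent.R267.Calc3_957

/-!
# Row 267, T3-end: pointwise facts about lobed functions (unsigned and signed)

`GF n` : a function `G z = ∑ χ_d (x_j) q_j (z_j) - B z` on `ℂ^(n+3)` with `q_j` linear on the left half
plane and `B = 0` where all `re z_j ≤ 0`; `GF.Near L`: the shape of `q_j` and `B` near the rays of
the letters. Results: `sgp, sgn, low, s0, c00, lin, tube, mono` and `GF.facts`.
-/

set_option autoImplicit false

namespace Crest.Agent.R267.EndF_864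

open Set Metric Filter Topology
open scoped RealInnerProductSpace
open Crest.Agent.R267.GS_808 Crest.Agent.R267.EndDef_864 Crest.Agent.R267.EndBas_864
  Crest.Agent.R267.EndG_864 Crest.Agent.R267.EndH_864
  Crest.Agent.R267.T3aDefs_957 Crest.Agent.R267.Calc2_957
open Crest.Agent.R267.Calc3_957 (AA BB NN_pos NN_nonneg NN_sq chi_nonneg chi_le_one
  chi_of_ge NN_of_le chid hasDerivAt_chi chid_of_le chid_of_ge mul_chid_le chid_mul_nonneg
  chid_nonneg hasFDerivAt_NN dNN pg_le_norm sr_apply si_apply)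

variable {n m : ℕ}

/-! ### gauges -/

lemma AA_zc (s t : W n) : AA (zc s t) = ‖s‖ ^ 2 := (norm_sq_def s).symm

lemma BB_zc (s t : W n) : BB (zc s t) = ‖t‖ ^ 2 := (norm_sq_def t).symm

lemma zc_ne {s t : W n} (h : s ≠ 0 ∨ t ≠ 0) : zc s t ≠ 0 := by
  intro h1
  obtain ⟨h2, h3⟩ := zc_eq_zero h1
  rcases h with h | h
  · exact h h2
  · exact h h3

lemma NN_zc {K : ℝ} {s t : W n} (h : ‖t‖ ≤ K * ‖s‖) : NN K (zc s t) = ‖s‖ := by
  rw [NN_of_le, AA_zc, Real.sqrt_sq (norm_nonneg _)]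
  rw [AA_zc, BB_zc, ← mul_pow]
  exact pow_le_pow_left₀ (norm_nonneg _) h 2

lemma gq_le_div {K A B : ℝ} (hK : 0 < K) (hA : 0 ≤ A) (h : K ^ 2 * A ≤ B) :
    gq K A B ≤ B / K ^ 2 := by
  have hB : 0 ≤ B := (by positivity : 0 ≤ K ^ 2 * A).trans h
  unfold gq
  rw [max_eq_right (by linarith)]
  have h1 : (B - K ^ 2 * A) ^ 3 / ((3 * K ^ 2 + 3) * (A + B) ^ 2) ≤ (B - K ^ 2 * A) / K ^ 2 := by
    by_cases h0 : A + B = 0
    · rw [h0]
      simp only [ne_eq, OfNat.ofNat_ne_zero, not_false_eq_true, zero_pow, mul_zero, div_zero]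
      exact div_nonneg (by linarith) (by positivity)
    have h2 : 0 < A + B := lt_of_le_of_ne (by linarith) (Ne.symm h0)
    rw [div_le_div_iff₀ (by positivity) (by positivity)]
    have h3 : 0 ≤ B - K ^ 2 * A := by linarith
    have h4 : (B - K ^ 2 * A) ^ 2 ≤ (A + B) ^ 2 := by
      refine pow_le_pow_left₀ h3 ?_ 2
      nlinarith [mul_nonneg (sq_nonneg K) hA]
    calc (B - K ^ 2 * A) ^ 3 * K ^ 2 = (B - K ^ 2 * A) * (K ^ 2 * (B - K ^ 2 * A) ^ 2) := by ring
      _ ≤ (B - K ^ 2 * A) * ((3 * K ^ 2 + 3) * (A + B) ^ 2) := by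
          refine mul_le_mul_of_nonneg_left ?_ h3
          refine mul_le_mul ?_ h4 (sq_nonneg _) (by positivity)
          nlinarith [sq_nonneg K]
  have h2 : A + (B - K ^ 2 * A) / K ^ 2 = B / K ^ 2 := by
    field_simp
    ring
  linarith

/-- the planar gauge is at most `max |s| (|t| / K)`. -/
lemma pg_le_of {K : ℝ} (hK : 0 < K) {z : ℂ} {c : ℝ} (h1 : |z.re| ≤ c) (h2 : |z.im| ≤ K * c) :
    pg K z ≤ c := by
  have hc : 0 ≤ c := (abs_nonneg _).trans h1
  rcases le_total |z.im| (K * |z.re|) with h | h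
  · rw [pg_of_le hK.le h]
    exact h1
  · unfold pg
    rw [Real.sqrt_le_left hc]
    have h3 : K ^ 2 * z.re ^ 2 ≤ z.im ^ 2 := by
      have := pow_le_pow_left₀ (by positivity) h 2
      rwa [mul_pow, sq_abs, sq_abs] at this
    refine (gq_le_div hK (sq_nonneg _) h3).trans ?_
    rw [div_le_iff₀ (by positivity)]
    have := pow_le_pow_left₀ (abs_nonneg _) h2 2
    rw [sq_abs, mul_pow] at this
    linarith

lemma norm_sq_le_pg (K : ℝ) (z : ℂ) : z.re ^ 2 + z.im ^ 2 ≤ (96 * K ^ 2 + 97) * pg K z ^ 2 := by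
  have h1 : z.im ^ 2 ≤ (96 * K ^ 2 + 96) * gq K (z.re ^ 2) (z.im ^ 2) :=
    le_gq' (sq_nonneg _) (sq_nonneg _)
  have h2 : z.re ^ 2 ≤ gq K (z.re ^ 2) (z.im ^ 2) := le_gq
  rw [pg_sq]
  linarith

lemma abs_im_le_pg {K : ℝ} (hK : 0 ≤ K) (z : ℂ) : |z.im| ≤ 10 * (K + 1) * pg K z := by
  refine abs_le_of_sq_le_sq ?_ (mul_nonneg (by positivity) (pg_nonneg _ _))
  rw [mul_pow, pg_sq]
  have h1 : z.im ^ 2 ≤ (96 * K ^ 2 + 96) * gq K (z.re ^ 2) (z.im ^ 2) :=
    le_gq' (sq_nonneg _) (sq_nonneg _)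
  have h2 : 0 ≤ gq K (z.re ^ 2) (z.im ^ 2) := (sq_nonneg _).trans le_gq
  refine h1.trans (mul_le_mul_of_nonneg_right ?_ h2)
  nlinarith

lemma norm_tv_le {K : ℝ} (hK : 0 ≤ K) (s t : W n) : ‖t‖ ≤ 10 * (K + 1) * NN K (zc s t) := by
  refine le_of_sq_le_sq ?_ (mul_nonneg (by positivity) (NN_nonneg _ _))
  rw [mul_pow, NN_sq, AA_zc, BB_zc]
  have h1 : ‖t‖ ^ 2 ≤ (96 * K ^ 2 + 96) * gq K (‖s‖ ^ 2) (‖t‖ ^ 2) :=
    le_gq' (sq_nonneg _) (sq_nonneg _)
  have h2 : 0 ≤ gq K (‖s‖ ^ 2) (‖t‖ ^ 2) := (sq_nonneg _).trans le_gq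
  refine h1.trans (mul_le_mul_of_nonneg_right ?_ h2)
  nlinarith

lemma exists_large {K1 K : ℝ} (hK : 0 ≤ K) {z : Fin (n + 3) → ℂ} (hz : z ≠ 0) :
    ∃ j, 1 ≤ 10 * (n + 3) * (K + 1) * (pg K (z j) / NN K1 z) := by
  by_contra hcon
  push Not at hcon
  have hNN : 0 < NN K1 z := NN_pos hz
  have hn : (0 : ℝ) < n + 3 := by positivity
  set C : ℝ := 10 * (n + 3) * (K + 1) with hC
  have hC0 : 0 < C := by positivity
  have h1 : ∀ j, (z j).re ^ 2 + (z j).im ^ 2 ≤ (96 * K ^ 2 + 97) / C ^ 2 * NN K1 z ^ 2 := by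
    intro j
    refine (norm_sq_le_pg K (z j)).trans ?_
    have h2 : pg K (z j) ≤ NN K1 z / C := by
      have := (hcon j).le
      rw [le_div_iff₀ hC0]
      rw [mul_div_assoc'] at this
      rw [div_le_one hNN] at this
      linarith
    have h3 := pow_le_pow_left₀ (pg_nonneg _ _) h2 2
    calc (96 * K ^ 2 + 97) * pg K (z j) ^ 2 ≤ (96 * K ^ 2 + 97) * (NN K1 z / C) ^ 2 := by gcongr
      _ = _ := by rw [div_pow]; ring
  have h2 : NN K1 z ^ 2 ≤ ∑ j, ((z j).re ^ 2 + (z j).im ^ 2) := by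
    rw [NN_sq, Finset.sum_add_distrib]
    exact gq_le (Finset.sum_nonneg fun _ _ => sq_nonneg _) (Finset.sum_nonneg fun _ _ => sq_nonneg _)
  have h3 : ∑ j, ((z j).re ^ 2 + (z j).im ^ 2) ≤
      (n + 3) * ((96 * K ^ 2 + 97) / C ^ 2 * NN K1 z ^ 2) := by
    refine (Finset.sum_le_sum fun j _ => h1 j).trans ?_
    rw [Finset.sum_const, Finset.card_univ, Fintype.card_fin, nsmul_eq_mul]
    push_cast
    exact le_rfl
  have h4 : (n + 3) * ((96 * K ^ 2 + 97) / C ^ 2) < 1 := by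
    rw [mul_div_assoc', div_lt_one (by positivity), hC]
    have h5 : (1 : ℝ) ≤ n + 3 := by
      have : (0 : ℝ) ≤ n := Nat.cast_nonneg n
      linarith
    have h6 : 96 * K ^ 2 + 97 < 100 * (K + 1) ^ 2 := by nlinarith
    have h7 : ((n : ℝ) + 3) * (96 * K ^ 2 + 97) < (n + 3) * (100 * (K + 1) ^ 2) :=
      mul_lt_mul_of_pos_left h6 hn
    have h8 : ((n : ℝ) + 3) * (100 * (K + 1) ^ 2) ≤ (10 * (n + 3) * (K + 1)) ^ 2 := by
      have : 0 ≤ ((n : ℝ) + 3) * ((n + 3) - 1) * (100 * (K + 1) ^ 2) := by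
        refine mul_nonneg (mul_nonneg hn.le (by linarith)) (by positivity)
      nlinarith
    linarith
  have h5 := mul_lt_mul_of_pos_right h4 (pow_pos hNN 2)
  nlinarith

/-! ### the functions -/

/-- **lobed functions**. -/
structure GF (n : ℕ) where
  K1 : ℝ
  K : ℝ
  ga : ℝ
  d : ℝ
  q : Fin (n + 3) → ℂ → ℂ
  B : (Fin (n + 3) → ℂ) → ℝ
  hK1 : 1 ≤ K1
  hK : K1 ≤ K
  hga : 0 < ga
  hga1 : ga ≤ 1
  hd : 0 < d
  hdK : 750 * (n + 3) ^ 2 * (K + 1) ^ 2 * d < 1
  q0 : ∀ j z, z.re ≤ 0 → q j z = -((2 - ga : ℝ) : ℂ) * z.re - Complex.I * z.im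
  B0 : ∀ z, (∀ j, (z j).re ≤ 0) → B z = 0

namespace GF

variable (P : GF n)

/-- cut-off. -/
noncomputable def cg (z : Fin (n + 3) → ℂ) (j : Fin (n + 3)) : ℝ :=
  chi P.d (pg P.K (z j) / NN P.K1 z)

/-- the function. -/
noncomputable def G (z : Fin (n + 3) → ℂ) : ℂ :=
  ∑ j, (chi P.d (pg P.K (z j) / NN P.K1 z) : ℂ) * P.q j (z j) - ((P.B z : ℝ) : ℂ)

lemma cg_nonneg (z : Fin (n + 3) → ℂ) (j : Fin (n + 3)) : 0 ≤ P.cg z j := chi_nonneg _ _

lemma one_le_K : 1 ≤ P.K := P.hK1.trans P.hK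

lemma K_pos : 0 < P.K := zero_lt_one.trans_le P.one_le_K

lemma hN' : (3 : ℝ) ≤ n + 3 := by
  have : (0 : ℝ) ≤ n := Nat.cast_nonneg n
  linarith

lemma small1 : 750 * (n + 3) * P.d < 1 := by
  have h := P.hdK
  have h1 := hN' (n := n)
  have h2 := P.hd
  have h3 := P.one_le_K
  have h4 : 1 ≤ (n + 3 : ℝ) * (P.K + 1) ^ 2 := by nlinarith
  have h5 : 0 ≤ 750 * (n + 3 : ℝ) * P.d := by positivity
  nlinarith

lemma small2 : 2 * P.d * (10 * (n + 3) * (P.K + 1)) ≤ 1 := by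
  have h := P.hdK
  have h1 := hN' (n := n)
  have h2 := P.hd
  have h3 := P.one_le_K
  have h4 : 1 ≤ (n + 3 : ℝ) * (P.K + 1) := by nlinarith
  have h5 : 0 ≤ (n + 3 : ℝ) * (P.K + 1) * P.d := by positivity
  nlinarith

lemma d_lt : P.d < 1 := by
  have h := P.small1
  have h1 := hN' (n := n)
  have h2 := P.hd
  nlinarith

lemma exists_cg {z : Fin (n + 3) → ℂ} (hz : z ≠ 0) : ∃ j, P.cg z j = 1 := by
  obtain ⟨j, hj⟩ := exists_large (K1 := P.K1) P.K_pos.le hz
  refine ⟨j, chi_of_ge P.hd ?_⟩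
  have h1 := P.small2
  have h2 : 0 < 10 * (n + 3 : ℝ) * (P.K + 1) := by
    have := P.K_pos
    positivity
  have h3 := h1.trans hj
  rw [mul_comm (2 * P.d)] at h3
  exact le_of_mul_le_mul_left h3 h2

lemma im_of_nonpos {z : Fin (n + 3) → ℂ} (h : ∀ j, (z j).re ≤ 0) :
    (P.G z).im = ∑ j, P.cg z j * (-(z j).im) := by
  rw [G, P.B0 z h, Complex.ofReal_zero, sub_zero, Complex.im_sum]
  refine Finset.sum_congr rfl fun j _ => ?_
  rw [Complex.im_ofReal_mul, P.q0 j _ (h j)]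
  simp [cg]

lemma re_of_nonpos {z : Fin (n + 3) → ℂ} (h : ∀ j, (z j).re ≤ 0) :
    (P.G z).re = ∑ j, P.cg z j * (-(2 - P.ga) * (z j).re) := by
  rw [G, P.B0 z h, Complex.ofReal_zero, sub_zero, Complex.re_sum]
  refine Finset.sum_congr rfl fun j _ => ?_
  rw [Complex.re_ofReal_mul, P.q0 j _ (h j)]
  simp [cg]

lemma sgp (s t : W n) (hs : ∀ j, s j ≤ 0) (ht : ∀ j, t j < 0) : 0 < (P.G (zc s t)).im := by
  rw [P.im_of_nonpos (z := zc s t) hs]
  have hz : zc s t ≠ 0 := by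
    intro h
    have := congrArg Complex.im (congrFun h 0)
    exact absurd this (ht 0).ne
  obtain ⟨j, hj⟩ := P.exists_cg hz
  refine Finset.sum_pos' (fun i _ => mul_nonneg (P.cg_nonneg _ _) ?_) ⟨j, Finset.mem_univ _, ?_⟩
  · exact (neg_pos.2 (ht i)).le
  · rw [hj, one_mul]
    exact neg_pos.2 (ht j)

lemma sgn (s t : W n) (hs : ∀ j, s j ≤ 0) (ht : ∀ j, 0 < t j) : (P.G (zc s t)).im < 0 := by
  rw [P.im_of_nonpos (z := zc s t) hs]
  have hz : zc s t ≠ 0 := by
    intro h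
    have := congrArg Complex.im (congrFun h 0)
    exact absurd this (ht 0).ne'
  obtain ⟨j, hj⟩ := P.exists_cg hz
  have h1 : 0 < ∑ j, P.cg (zc s t) j * (zc s t j).im := by
    refine Finset.sum_pos' (fun i _ => mul_nonneg (P.cg_nonneg _ _) (ht i).le)
      ⟨j, Finset.mem_univ _, ?_⟩
    rw [hj, one_mul]
    exact ht j
  have h2 : ∑ j, P.cg (zc s t) j * (-(zc s t j).im) = -∑ j, P.cg (zc s t) j * (zc s t j).im := by
    rw [← Finset.sum_neg_distrib]
    exact Finset.sum_congr rfl fun j _ => by ring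
  rw [h2]
  linarith

/-- **over `s = 0`** the function is purely imaginary. -/
lemma s0 {z : Fin (n + 3) → ℂ} (h : ∀ j, (z j).re = 0) : (P.G z).re = 0 := by
  rw [P.re_of_nonpos fun j => (h j).le]
  exact Finset.sum_eq_zero fun j _ => by rw [h j, mul_zero, mul_zero]

/-- **the direction `i (1, …, 1)`**. -/
lemma c00 {h : ℝ} (hz : (P.G fun _ => Complex.I * (h : ℂ)).im = 0) : h = 0 := by
  have e : ∀ h : ℝ, (fun _ : Fin (n + 3) => Complex.I * (h : ℂ)) = zc 0 (vec fun _ => h) := by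
    intro h
    funext j
    exact Complex.ext (by simp [zc]) (by simp [zc])
  rw [e] at hz
  rcases lt_trichotomy h 0 with h1 | h1 | h1
  · exact absurd hz (P.sgp 0 _ (fun _ => le_rfl) fun _ => h1).ne'
  · exact h1
  · exact absurd hz (P.sgn 0 _ (fun _ => le_rfl) fun _ => h1).ne

/-- **the plate side**. -/
lemma low {z : Fin (n + 3) → ℂ} (h : ∀ j, (z j).re < 0) : 0 < (P.G z).re := by
  rw [P.re_of_nonpos fun j => (h j).le]
  have hz : z ≠ 0 := by
    intro h1
    have := congrArg Complex.re (congrFun h1 0)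
    exact absurd this (h 0).ne
  obtain ⟨j, hj⟩ := P.exists_cg hz
  have hg := P.hga1
  have hpos : ∀ i, 0 < -(2 - P.ga) * (z i).re := fun i => by
    have := h i
    nlinarith
  refine Finset.sum_pos' (fun i _ => mul_nonneg (P.cg_nonneg _ _) (hpos i).le)
    ⟨j, Finset.mem_univ _, ?_⟩
  rw [hj, one_mul]
  exact hpos j

/-- value of the cut-off where `|t_j|` is small. -/
lemma cg_eq {s t : W n} (hs : s ≠ 0) (ht : ‖t‖ ≤ P.K1 * ‖s‖) (j : Fin (n + 3))
    (h : |t j| ≤ P.K * (P.d * ‖s‖) ∨ |t j| ≤ P.K * |s j|) :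
    P.cg (zc s t) j = chi P.d (|s j| / ‖s‖) := by
  have h0 : 0 < ‖s‖ := norm_pos_iff.2 hs
  rw [cg, NN_zc ht]
  rcases le_or_gt |t j| (P.K * |s j|) with h1 | h1
  · rw [pg_of_le P.K_pos.le (z := zc s t j) h1]
    rfl
  · have h2 : |t j| ≤ P.K * (P.d * ‖s‖) := h.resolve_right (not_le.2 h1)
    have h3 : |s j| < P.d * ‖s‖ := lt_of_mul_lt_mul_left (h1.trans_le h2) P.K_pos.le
    rw [EndG_864.chi_of_le P.hd, EndG_864.chi_of_le P.hd]
    · rw [div_le_iff₀ h0]
      exact h3.le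
    · rw [div_le_iff₀ h0]
      exact pg_le_of P.K_pos (z := zc s t j) h3.le h2

/-- the profile for non-positive arguments. -/
lemma ypf_of_nonpos {d x : ℝ} (hd : 0 < d) (h : x ≤ d) : ypf d x = -chi d (-x) := by
  rw [ypf, EndG_864.chi_of_le hd h, zero_sub]

/-! ### over base points with negative coordinates -/

section lin

variable (L : LS n m) (Q : Par n) (hsm : ∀ k l j, L.sg k j ≠ L.sg l j →
    Q.ep * (‖vec (n := n) (L.V k)‖ + ‖vec (n := n) (L.V l)‖) < Q.d * |L.sg k j - L.sg l j|)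

lemma lin (hQ : Q.d = P.d) {κ1 : ℝ} (hκ : κ1 ≤ P.d) (s t : W n) (hs : s ≠ 0) (h : ∀ j, s j < 0)
    (ht : ‖t‖ ≤ κ1 * ‖s‖) : (P.G (zc s t)).im = ⟪(EndG_864.hd L Q hsm).nz s, t⟫ := by
  have h0 : 0 < ‖s‖ := norm_pos_iff.2 hs
  have h1 : ‖t‖ ≤ P.d * ‖s‖ := ht.trans (by gcongr)
  have hd := P.hd
  have hd1 := P.d_lt
  have hK := P.one_le_K
  rw [P.im_of_nonpos (z := zc s t) fun j => (h j).le, inner_def]
  refine Finset.sum_congr rfl fun j _ => ?_
  have h2 : ‖t‖ ≤ P.K1 * ‖s‖ := h1.trans (by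
    have := P.hK1
    gcongr
    linarith)
  rw [P.cg_eq hs h2 j (Or.inl ((abs_apply_le t j).trans (h1.trans (by
    have : 0 ≤ P.d * ‖s‖ := by positivity
    nlinarith))))]
  show chi P.d (|s j| / ‖s‖) * (-(t j)) = ypf Q.d (s j / ‖s‖) * t j
  have h3 : s j / ‖s‖ ≤ P.d := (div_nonpos_of_nonpos_of_nonneg (h j).le h0.le).trans hd.le
  rw [hQ, ypf_of_nonpos hd h3, abs_of_neg (h j), neg_div]
  ring

end lin

/-! ### near the rays -/

/-- shape of the function near the rays of the letters. -/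
structure Near (L : LS n m) (Sg : ℝ) : Prop where
  sgK : ∀ k j, |L.sg k j| ≤ Sg
  Sg0 : 0 ≤ Sg
  K1S : Sg + 1 ≤ P.K1
  qr : ∀ k j z, 0 < z.re → |z.im - L.sg k j * z.re| ≤ z.re → (P.q j z).re = P.ga * z.re ∧
    (P.q j z).im = (if L.neg k j then -1 else 1) * (z.im - L.sg k j * z.re)
  Bt : ∀ k z, (∀ j, (z j).re ≤ 0 ∨ P.cg z j = 0 ∨ |(z j).im - L.sg k j * (z j).re| ≤ (z j).re) →
    P.B z = 0

section tube

variable {P} (L : LS n m) (Q : Par n) (hsm : ∀ k l j, L.sg k j ≠ L.sg l j →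
    Q.ep * (‖vec (n := n) (L.V k)‖ + ‖vec (n := n) (L.V l)‖) < Q.d * |L.sg k j - L.sg l j|)

/-- distance from the rays in a tube. -/
lemma tube_dist {Vm : ℝ} (hVm : ∀ k, ‖vec (n := n) (L.V k)‖ ≤ Vm) {r2 : ℝ} {s t : W n} {k : Fin m}
    (h : ‖t - (EndG_864.hd L Q hsm).eta k s‖ ≤ r2 * ‖s‖) :
    ‖t - vec (fun j => max ((EndG_864.hd L Q hsm).hs s j) 0 * L.sg k j)‖ ≤ (r2 + Q.ep * Vm) * ‖s‖ := by
  set D := EndG_864.hd L Q hsm with hD
  have h3 : 0 ≤ D.ep * ‖s‖ * D.th s := mul_nonneg (mul_nonneg D.hep.le (norm_nonneg _)) (D.th0 s)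
  have h4 : ‖(D.ep * ‖s‖ * D.th s) • proj (D.nrm k s) (vec (D.V k))‖ ≤ Q.ep * Vm * ‖s‖ := by
    rw [norm_smul, Real.norm_of_nonneg h3]
    calc D.ep * ‖s‖ * D.th s * ‖proj (D.nrm k s) (vec (D.V k))‖
        ≤ D.ep * ‖s‖ * 1 * Vm := by
          refine mul_le_mul ?_ ((norm_proj_le _ _).trans (hVm k)) (norm_nonneg _) ?_
          · exact mul_le_mul_of_nonneg_left (D.th1 s) (mul_nonneg D.hep.le (norm_nonneg _))
          · exact mul_nonneg (mul_nonneg D.hep.le (norm_nonneg _)) zero_le_one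
      _ = Q.ep * Vm * ‖s‖ := by
          show Q.ep * ‖s‖ * 1 * Vm = _
          ring
  have e1 : t - vec (fun j => max (D.hs s j) 0 * L.sg k j) =
      (t - D.eta k s) + (D.ep * ‖s‖ * D.th s) • proj (D.nrm k s) (vec (D.V k)) := by
    rw [HD.eta]
    show _ = t - (vec (fun j => max (D.hs s j) 0 * L.sg k j) + _) + _
    abel
  rw [e1]
  refine (norm_add_le _ _).trans ?_
  linarith

/-- **tubes**. -/
lemma tube {Sg : ℝ} (H : Near P L Sg) (hQ : Q.d = P.d) {Vm : ℝ}
    (hVm : ∀ k, ‖vec (n := n) (L.V k)‖ ≤ Vm) {r2 : ℝ} (hr2 : r2 + Q.ep * Vm ≤ P.d)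
    (s t : W n) (k : Fin m) (hs : s ≠ 0)
    (h : ‖t - (EndG_864.hd L Q hsm).eta k s‖ ≤ r2 * ‖s‖) :
    (P.G (zc s t)).im = ⟪(EndG_864.hd L Q hsm).nrm k s, t - (EndG_864.hd L Q hsm).eta k s⟫ ∧
      0 < (P.G (zc s t)).re := by
  set D := EndG_864.hd L Q hsm with hD
  have h0 : 0 < ‖s‖ := norm_pos_iff.2 hs
  have hd := P.hd
  have hd1 := P.d_lt
  have hK := P.one_le_K
  have hK1 := P.hK1
  have hKK := P.hK
  have hSg := H.K1S
  have hSg0 := H.Sg0
  have hDd : D.d = P.d := hQ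
  have hdist := (tube_dist L Q hsm hVm h).trans (mul_le_mul_of_nonneg_right hr2 h0.le)
  set w : W n := vec (fun j => max (D.hs s j) 0 * L.sg k j) with hw
  have hwj : ∀ j, |t j - w j| ≤ P.d * ‖s‖ := fun j => (abs_apply_le (t - w) j).trans hdist
  -- size of `t`
  have hwn : ‖w‖ ≤ Sg * ‖s‖ := by
    refine le_of_sq_le_sq ?_ (by positivity)
    rw [norm_sq_def, mul_pow, norm_sq_def s, Finset.mul_sum]
    refine Finset.sum_le_sum fun j _ => ?_
    rw [hw, vec_apply, mul_pow, mul_comm (Sg ^ 2)]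
    refine mul_le_mul ?_ ?_ (sq_nonneg _) (sq_nonneg _)
    · exact sq_le_sq.2 (hs_abs_le L Q hsm s j)
    · rw [← sq_abs (L.sg k j)]
      exact pow_le_pow_left₀ (abs_nonneg _) (H.sgK k j) 2
  have htn : ‖t‖ ≤ P.K1 * ‖s‖ := by
    have h1 : ‖t‖ ≤ ‖t - w‖ + ‖w‖ := by
      have := norm_add_le (t - w) w
      rwa [sub_add_cancel] at this
    nlinarith
  -- the three cases
  have key : ∀ j, (zc s t j).re ≤ 0 ∨ P.cg (zc s t) j = 0 ∨
      |(zc s t j).im - L.sg k j * (zc s t j).re| ≤ (zc s t j).re := by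
    intro j
    show s j ≤ 0 ∨ P.cg (zc s t) j = 0 ∨ |t j - L.sg k j * s j| ≤ s j
    rcases le_or_gt (s j) 0 with h1 | h1
    · exact Or.inl h1
    refine Or.inr ?_
    rcases le_or_gt (s j) (P.d * ‖s‖) with h2 | h2
    · left
      have h3 : |t j| ≤ P.K * (P.d * ‖s‖) := by
        have h4 : |w j| ≤ Sg * (P.d * ‖s‖) := by
          rw [hw, vec_apply, abs_mul, mul_comm]
          refine mul_le_mul (H.sgK k j) ?_ (abs_nonneg _) hSg0
          refine (hs_abs_le L Q hsm s j).trans ?_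
          rwa [abs_of_pos h1]
        have h5 : |t j| ≤ |t j - w j| + |w j| := by
          have := abs_add_le (t j - w j) (w j)
          rwa [sub_add_cancel] at this
        have h6 := hwj j
        have h7 : 0 ≤ P.d * ‖s‖ := by positivity
        nlinarith
      rw [P.cg_eq hs htn j (Or.inl h3), EndG_864.chi_of_le hd]
      rw [div_le_iff₀ h0, abs_of_pos h1]
      exact h2
    · right
      have h3 : w j = L.sg k j * s j := by
        rw [hw, vec_apply, hs_of_large D hs (by rw [hDd]; exact h2.le), max_eq_left h1.le, mul_comm]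
      rw [← h3]
      exact (hwj j).trans h2.le
  have hB : P.B (zc s t) = 0 := H.Bt k _ key
  -- termwise
  have term : ∀ j, (((P.cg (zc s t) j : ℝ) : ℂ) * P.q j (zc s t j)).im =
      D.nrm k s j * (t j - w j) ∧
      0 ≤ (((P.cg (zc s t) j : ℝ) : ℂ) * P.q j (zc s t j)).re ∧
      (2 * P.d * ‖s‖ ≤ |s j| → 0 < (((P.cg (zc s t) j : ℝ) : ℂ) * P.q j (zc s t j)).re) := by
    intro j
    rw [Complex.im_ofReal_mul, Complex.re_ofReal_mul]
    rcases le_or_gt |s j| (P.d * ‖s‖) with h1 | h1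
    · -- dead variable
      have h3 : |t j| ≤ P.K * (P.d * ‖s‖) := by
        have h4 : |w j| ≤ Sg * (P.d * ‖s‖) := by
          rw [hw, vec_apply, abs_mul, mul_comm]
          refine mul_le_mul (H.sgK k j) ?_ (abs_nonneg _) hSg0
          exact (hs_abs_le L Q hsm s j).trans h1
        have h5 : |t j| ≤ |t j - w j| + |w j| := by
          have := abs_add_le (t j - w j) (w j)
          rwa [sub_add_cancel] at this
        have h6 := hwj j
        have h7 : 0 ≤ P.d * ‖s‖ := by positivity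
        nlinarith
      have h4 : P.cg (zc s t) j = 0 := by
        rw [P.cg_eq hs htn j (Or.inl h3), EndG_864.chi_of_le hd]
        rw [div_le_iff₀ h0]
        exact h1
      have h5 : D.nrm k s j = 0 := by
        have h6 : |s j / ‖s‖| ≤ D.d := by
          rw [abs_div, abs_of_pos h0, div_le_iff₀ h0, hDd]
          exact h1
        rw [nrm_apply, D.Ymp _ (abs_le.1 h6).2, D.Yp0 _ h6]
        simp
      rw [h4, h5, zero_mul, zero_mul, zero_mul]
      refine ⟨rfl, le_rfl, fun h6 => ?_⟩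
      have : 0 < P.d * ‖s‖ := by positivity
      linarith
    have hc : P.cg (zc s t) j = chi P.d (|s j| / ‖s‖) := by
      rcases le_or_gt (s j) 0 with h2 | h2
      · refine P.cg_eq hs htn j (Or.inl ?_)
        have h3 : w j = 0 := by
          rw [hw, vec_apply, max_eq_right (hs_nonpos D h2), zero_mul]
        have h4 := hwj j
        rw [h3, sub_zero] at h4
        have h7 : 0 ≤ P.d * ‖s‖ := by positivity
        nlinarith
      · refine P.cg_eq hs htn j (Or.inr ?_)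
        rw [abs_of_pos h2] at h1 ⊢
        have h3 : w j = L.sg k j * s j := by
          rw [hw, vec_apply, hs_of_large D hs (by rw [hDd]; exact h1.le), max_eq_left h2.le,
            mul_comm]
        have h5 : |t j| ≤ |t j - w j| + |w j| := by
          have := abs_add_le (t j - w j) (w j)
          rwa [sub_add_cancel] at this
        have h6 : |w j| ≤ Sg * s j := by
          rw [h3, abs_mul, abs_of_pos h2]
          exact mul_le_mul_of_nonneg_right (H.sgK k j) h2.le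
        have h7 := hwj j
        nlinarith
    have hcpos : 2 * P.d * ‖s‖ ≤ |s j| → 0 < P.cg (zc s t) j := by
      intro h2
      rw [hc]
      refine EndG_864.chi_pos hd ?_
      rw [lt_div_iff₀ h0]
      exact h1
    rcases le_or_gt (s j) 0 with h2 | h2
    · -- negative
      have h3 : w j = 0 := by
        rw [hw, vec_apply, max_eq_right (hs_nonpos D h2), zero_mul]
      have hq : P.q j (zc s t j) = -((2 - P.ga : ℝ) : ℂ) * (s j : ℂ) - Complex.I * (t j : ℂ) :=
        P.q0 j (zc s t j) h2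
      have hqi : (P.q j (zc s t j)).im = -t j := by rw [hq]; simp
      have hqr : (P.q j (zc s t j)).re = -(2 - P.ga) * s j := by rw [hq]; simp
      have hg := P.hga1
      have hpos : s j < 0 := by
        rw [abs_of_nonpos h2] at h1
        have : 0 < P.d * ‖s‖ := by positivity
        linarith
      have hqp : 0 < (P.q j (zc s t j)).re := by
        rw [hqr]
        nlinarith
      refine ⟨?_, mul_nonneg (P.cg_nonneg _ _) hqp.le, fun h4 => mul_pos (hcpos h4) hqp⟩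
      have h5 : s j / ‖s‖ ≤ D.d := by
        have : s j / ‖s‖ ≤ 0 := div_nonpos_of_nonpos_of_nonneg h2 h0.le
        exact this.trans (by rw [hDd]; exact hd.le)
      have h6 : D.nrm k s j = -chi P.d (|s j| / ‖s‖) := by
        rw [nrm_apply, D.Ymp _ h5, ite_self]
        show ypf Q.d _ = _
        rw [hQ, ypf_of_nonpos hd (by rwa [← hDd]), abs_of_nonpos h2, neg_div]
      rw [hqi, hc, h6, h3, sub_zero]
      ring
    · -- positive
      rw [abs_of_pos h2] at h1
      have h3 : w j = L.sg k j * s j := by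
        rw [hw, vec_apply, hs_of_large D hs (by rw [hDd]; exact h1.le), max_eq_left h2.le,
          mul_comm]
      have h4 : |t j - L.sg k j * s j| ≤ s j := by
        rw [← h3]
        exact (hwj j).trans h1.le
      obtain ⟨hqr, hqi⟩ := H.qr k j (zc s t j) h2 h4
      have hqp : 0 < (P.q j (zc s t j)).re := by
        rw [hqr]
        exact mul_pos P.hga h2
      refine ⟨?_, mul_nonneg (P.cg_nonneg _ _) hqp.le, fun h4 => mul_pos (hcpos h4) hqp⟩
      have h5 : -(s j / ‖s‖) ≤ P.d := by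
        have : 0 ≤ s j / ‖s‖ := by positivity
        linarith
      have h6 : D.nrm k s j = (if L.neg k j then -1 else 1) * chi P.d (|s j| / ‖s‖) := by
        rw [nrm_apply, abs_of_pos h2]
        show (if L.neg k j then ymf Q.d _ else ypf Q.d _) = _
        rw [hQ]
        split_ifs
        · rw [ymf, EndG_864.chi_of_le hd h5]
          ring
        · rw [ypf, EndG_864.chi_of_le hd h5]
          ring
      rw [hqi, hc, h6, h3]
      show _ * (_ * (t j - L.sg k j * s j)) = _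
      ring
  have hG : P.G (zc s t) = ∑ j, ((P.cg (zc s t) j : ℝ) : ℂ) * P.q j (zc s t j) := by
    rw [G, hB, Complex.ofReal_zero, sub_zero]
    rfl
  constructor
  · have e1 : ⟪D.nrm k s, t - w⟫ = ⟪D.nrm k s, t - D.eta k s⟫ := by
      have e2 : t - w = (t - D.eta k s) +
          (D.ep * ‖s‖ * D.th s) • proj (D.nrm k s) (vec (D.V k)) := by
        rw [HD.eta, hw]
        show _ = t - (vec (fun j => max (D.hs s j) 0 * L.sg k j) + _) + _
        abel
      rw [e2, inner_add_right, inner_smul_right, inner_proj _ _ (nrm_ne D hs), mul_zero, add_zero]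
    rw [← e1, inner_def, hG, Complex.im_sum]
    exact Finset.sum_congr rfl fun j _ => (term j).1
  · rw [hG, Complex.re_sum]
    obtain ⟨j, hj⟩ : ∃ j, 2 * P.d * ‖s‖ ≤ |s j| := by
      by_contra hcon
      push Not at hcon
      have h1 : ‖s‖ ^ 2 ≤ (n + 3) * (2 * P.d * ‖s‖) ^ 2 := by
        rw [norm_sq_def]
        refine (Finset.sum_le_sum fun j _ => ?_ : _ ≤ ∑ j : Fin (n + 3), (2 * P.d * ‖s‖) ^ 2).trans ?_
        · rw [← sq_abs]
          exact pow_le_pow_left₀ (abs_nonneg _) (hcon j).le 2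
        · rw [Finset.sum_const, Finset.card_univ, Fintype.card_fin, nsmul_eq_mul]
          push_cast
          exact le_rfl
      have h2 := P.small1
      have h3 := hN' (n := n)
      have h4 : (n + 3 : ℝ) * (2 * P.d) ^ 2 < 1 := by nlinarith
      have h5 := mul_lt_mul_of_pos_right h4 (pow_pos h0 2)
      nlinarith
    exact Finset.sum_pos' (fun i _ => (term i).2.1) ⟨j, Finset.mem_univ _, (term j).2.2 hj⟩

end tube

/-! ### monotonicity over base points with non-positive coordinates -/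

section mono

lemma hasDerivAt_zc (s t : W n) (h : ℝ) :
    HasDerivAt (fun h : ℝ => zc s (t + h • u1 n)) (fun _ => (⟨0, 1 / √(n + 3 : ℝ)⟩ : ℂ)) h := by
  refine hasDerivAt_pi.2 fun j => ?_
  have e : (fun h : ℝ => zc s (t + h • u1 n) j) = fun h : ℝ =>
      (s j : ℂ) + ((t j + h * (1 / √(n + 3 : ℝ)) : ℝ) : ℂ) * Complex.I := by
    funext h
    refine Complex.ext ?_ ?_
    · simp [zc]
    · simp [zc, u1_apply]
  have h1 : HasDerivAt (fun h : ℝ => t j + h * (1 / √(n + 3 : ℝ))) (1 / √(n + 3 : ℝ)) h := by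
    simpa using ((hasDerivAt_id h).mul_const (1 / √(n + 3 : ℝ))).const_add (t j)
  have h2 := (h1.ofReal_comp.mul_const Complex.I).const_add (s j : ℂ)
  rw [e]
  refine h2.congr_deriv (Complex.ext ?_ ?_)
  · simp
  · simp

/-- derivative of the total gauge in the direction `i (1,…,1)`. -/
lemma abs_dNN_le {K : ℝ} (hK : 0 ≤ K) {s t : W n} (hz : zc s t ≠ 0) :
    |dNN K (zc s t) (fun _ => (⟨0, 1 / √(n + 3 : ℝ)⟩ : ℂ))| ≤ 10 * (K + 1) := by
  have hNN : 0 < NN K (zc s t) := NN_pos hz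
  unfold dNN
  simp only [_root_.add_apply, _root_.smul_apply, sr_apply, si_apply]
  simp only [mul_zero, Finset.sum_const_zero, smul_eq_mul, zero_add]
  have e1 : ∑ j, (zc s t j).im * (1 / √(n + 3 : ℝ)) = ⟪u1 n, t⟫ := by
    rw [inner_def]
    refine Finset.sum_congr rfl fun j _ => ?_
    rw [u1_apply, mul_comm]
    rfl
  rw [e1, abs_mul, abs_div, abs_of_pos hNN]
  have h1 : |⟪u1 n, t⟫| ≤ ‖t‖ := by
    have := abs_real_inner_le_norm (u1 n) t
    rwa [norm_u1, one_mul] at this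
  have h2 : |gB K (AA (zc s t)) (BB (zc s t))| ≤ 1 := by
    rw [abs_of_nonneg (gB_nonneg (Calc3_957.AA_nonneg _) (Calc3_957.BB_nonneg _))]
    exact gB_le (Calc3_957.AA_nonneg _) (Calc3_957.BB_nonneg _)
  rw [div_mul_eq_mul_div, div_le_iff₀ hNN]
  calc _ ≤ 1 * ‖t‖ := by gcongr
    _ = ‖t‖ := one_mul _
    _ ≤ _ := norm_tv_le hK s t

lemma hasDerivAt_cg {s t : W n} (hs : s ≠ 0) (h : ℝ) (j : Fin (n + 3)) :
    ∃ A : ℝ, HasDerivAt (fun h : ℝ => P.cg (zc s (t + h • u1 n)) j) A h ∧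
      A * (-(t + h • u1 n) j) ≤ 750 * (P.K + 1) ^ 2 * P.d := by
  have hd := P.hd
  have hK := P.one_le_K
  have hK1 := P.hK1
  have hKK := P.hK
  have hN := sqrt_pos n
  have hz : ∀ h : ℝ, zc s (t + h • u1 n) ≠ 0 := fun h => zc_ne (Or.inl hs)
  have hNN : ∀ h : ℝ, 0 < NN P.K1 (zc s (t + h • u1 n)) := fun h => NN_pos (hz h)
  have hR : 0 ≤ 750 * (P.K + 1) ^ 2 * P.d := by positivity
  set c : ℝ := 1 / √(n + 3 : ℝ) with hc
  have hcpos : 0 < c := by positivity
  have dN : HasDerivAt (fun h : ℝ => NN P.K1 (zc s (t + h • u1 n)))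
      (dNN P.K1 (zc s (t + h • u1 n)) (fun _ => (⟨0, c⟩ : ℂ))) h :=
    HasFDerivAt.comp_hasDerivAt (l := NN P.K1) (f := fun h : ℝ => zc s (t + h • u1 n)) h
      (hasFDerivAt_NN P.K1 (hz h)) (hasDerivAt_zc s t h)
  by_cases hzj : zc s (t + h • u1 n) j = 0
  · refine ⟨0, ?_, by rw [zero_mul]; exact hR⟩
    refine (hasDerivAt_const h (0 : ℝ)).congr_of_eventuallyEq ?_
    have h1 : ContinuousAt (fun h : ℝ => ‖zc s (t + h • u1 n) j‖ -
        P.d * NN P.K1 (zc s (t + h • u1 n))) h := by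
      refine ContinuousAt.sub ?_ (continuousAt_const.mul dN.continuousAt)
      exact ((continuous_apply j).continuousAt.comp (hasDerivAt_zc s t h).continuousAt).norm
    have h2 : ‖zc s (t + h • u1 n) j‖ - P.d * NN P.K1 (zc s (t + h • u1 n)) < 0 := by
      rw [hzj, norm_zero, zero_sub, neg_lt_zero]
      exact mul_pos hd (hNN h)
    filter_upwards [h1.eventually (gt_mem_nhds h2)] with x hx
    refine EndG_864.chi_of_le hd ?_
    rw [div_le_iff₀ (hNN x)]
    have := pg_le_norm P.K (zc s (t + x • u1 n) j)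
    linarith
  · have dP : HasDerivAt (fun h : ℝ => pg P.K (zc s (t + h • u1 n) j))
        (pt P.K (zc s (t + h • u1 n) j) * c) h := by
      have h1 : HasDerivAt (fun h : ℝ => zc s (t + h • u1 n) j) (⟨0, c⟩ : ℂ) h :=
        hasDerivAt_pi.1 (hasDerivAt_zc s t h) j
      refine ((hasFDerivAt_pg P.K hzj).comp_hasDerivAt h h1).congr_deriv ?_
      simp
    have dx := dP.div dN (hNN h).ne'
    have dc := (hasDerivAt_chi P.d (pg P.K (zc s (t + h • u1 n) j) /
      NN P.K1 (zc s (t + h • u1 n)))).comp h dx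
    refine ⟨_, dc, ?_⟩
    have hE := abs_dNN_le (K := P.K1) (by linarith) (hz h)
    rw [← hc] at hE
    set E := dNN P.K1 (zc s (t + h • u1 n)) (fun _ => (⟨0, c⟩ : ℂ)) with hEdef
    set p := pg P.K (zc s (t + h • u1 n) j) with hp
    set NNh := NN P.K1 (zc s (t + h • u1 n)) with hNNh
    have hNN0 : 0 < NNh := hNN h
    have hp0 : 0 ≤ p := pg_nonneg _ _
    set x := p / NNh with hx
    set T := (t + h • u1 n) j with hT
    have hpt : 0 ≤ pt P.K (zc s (t + h • u1 n) j) * T := pt_mul_nonneg _ (zc s (t + h • u1 n) j)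
    set w := pt P.K (zc s (t + h • u1 n) j) with hw
    have hTp : |T| ≤ 10 * (P.K + 1) * p := abs_im_le_pg (by linarith) (zc s (t + h • u1 n) j)
    have e1 : chid P.d x * ((w * c * NNh - p * E) / NNh ^ 2) * -T =
        -(chid P.d x * (w * T) * c / NNh) + (x * chid P.d x) * (E * T) / NNh := by
      rw [hx]
      field_simp
      ring
    rw [e1]
    have h1 : 0 ≤ chid P.d x * (w * T) * c / NNh := by
      have := chid_nonneg hd x
      positivity
    have h2 : (x * chid P.d x) * (E * T) / NNh ≤ 750 * (P.K + 1) ^ 2 * P.d := by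
      by_cases h3 : chid P.d x = 0
      · rw [h3, mul_zero, zero_mul, zero_div]
        exact hR
      have h4 : x < 2 * P.d := by
        by_contra h4
        exact h3 (chid_of_ge hd (not_lt.1 h4))
      have h5 : p ≤ 2 * P.d * NNh := by
        rw [hx, div_lt_iff₀ hNN0] at h4
        exact h4.le
      have h6 : E * T ≤ 10 * (P.K + 1) * (10 * (P.K + 1) * (2 * P.d * NNh)) := by
        calc E * T ≤ |E * T| := le_abs_self _
          _ = |E| * |T| := abs_mul _ _
          _ ≤ (10 * (P.K + 1)) * (10 * (P.K + 1) * (2 * P.d * NNh)) := by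
              refine mul_le_mul (hE.trans (by linarith)) (hTp.trans ?_) (abs_nonneg _) (by positivity)
              gcongr
      have h7 : 0 ≤ x * chid P.d x := chid_mul_nonneg hd
      have h8 : x * chid P.d x ≤ 15 / 4 := mul_chid_le hd
      rw [div_le_iff₀ hNN0]
      calc (x * chid P.d x) * (E * T)
          ≤ (x * chid P.d x) * (10 * (P.K + 1) * (10 * (P.K + 1) * (2 * P.d * NNh))) :=
            mul_le_mul_of_nonneg_left h6 h7
        _ ≤ 15 / 4 * (10 * (P.K + 1) * (10 * (P.K + 1) * (2 * P.d * NNh))) := by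
            refine mul_le_mul_of_nonneg_right h8 (by positivity)
        _ = _ := by ring
    linarith

/-- **monotonicity** in the direction `i (1,…,1)`. -/
lemma mono (s : W n) (hs : s ≠ 0) (hneg : ∀ j, s j ≤ 0) (t : W n) (h h' : ℝ) (hh : h < h') :
    (P.G (zc s (t + h' • u1 n))).im < (P.G (zc s (t + h • u1 n))).im := by
  have hN := sqrt_pos n
  have key : StrictAnti fun h : ℝ => (P.G (zc s (t + h • u1 n))).im := by
    refine strictAnti_of_deriv_neg fun h => ?_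
    have e : (fun h : ℝ => (P.G (zc s (t + h • u1 n))).im) = fun h : ℝ =>
        ∑ j, P.cg (zc s (t + h • u1 n)) j * (-(t + h • u1 n) j) := by
      funext h
      rw [P.im_of_nonpos (z := zc s (t + h • u1 n)) hneg]
      rfl
    rw [e]
    choose A hA hA' using fun j => P.hasDerivAt_cg (t := t) hs h j
    have dt : ∀ j, HasDerivAt (fun h : ℝ => -(t + h • u1 n) j) (-(1 / √(n + 3 : ℝ))) h := by
      intro j
      have e1 : (fun h : ℝ => -(t + h • u1 n) j) = fun h : ℝ => -(t j + h * (1 / √(n + 3 : ℝ))) := by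
        funext h
        simp [u1_apply]
      have h1 : HasDerivAt (fun h : ℝ => t j + h * (1 / √(n + 3 : ℝ))) (1 / √(n + 3 : ℝ)) h := by
        simpa using ((hasDerivAt_id h).mul_const (1 / √(n + 3 : ℝ))).const_add (t j)
      rw [e1]
      exact h1.neg
    have dG : HasDerivAt (fun h : ℝ => ∑ j, P.cg (zc s (t + h • u1 n)) j * (-(t + h • u1 n) j))
        (∑ j, (A j * (-(t + h • u1 n) j) + P.cg (zc s (t + h • u1 n)) j *
          (-(1 / √(n + 3 : ℝ))))) h :=
      HasDerivAt.fun_sum fun j _ => (hA j).mul (dt j)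
    rw [dG.deriv, Finset.sum_add_distrib, ← Finset.sum_mul]
    have h1 : ∑ j, A j * (-(t + h • u1 n) j) ≤ (n + 3) * (750 * (P.K + 1) ^ 2 * P.d) := by
      refine (Finset.sum_le_sum fun j _ => hA' j).trans ?_
      rw [Finset.sum_const, Finset.card_univ, Fintype.card_fin, nsmul_eq_mul]
      push_cast
      exact le_rfl
    have h2 : 1 ≤ ∑ j, P.cg (zc s (t + h • u1 n)) j := by
      obtain ⟨j, hj⟩ := P.exists_cg (z := zc s (t + h • u1 n)) (zc_ne (Or.inl hs))
      rw [← hj]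
      exact Finset.single_le_sum (f := fun j => P.cg (zc s (t + h • u1 n)) j)
        (fun i _ => P.cg_nonneg _ _) (Finset.mem_univ j)
    have h3 : (n + 3 : ℝ) * (750 * (P.K + 1) ^ 2 * P.d) < 1 / √(n + 3 : ℝ) := by
      rw [lt_div_iff₀ hN]
      have h4 : √(n + 3 : ℝ) ≤ n + 3 := by
        rw [Real.sqrt_le_left (by positivity)]
        have := hN' (n := n)
        nlinarith
      have h5 := P.hdK
      have hd := P.hd
      have h6 : 0 ≤ (n + 3 : ℝ) * (750 * (P.K + 1) ^ 2 * P.d) := by positivity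
      nlinarith
    have h4 : 1 / √(n + 3 : ℝ) ≤ (∑ j, P.cg (zc s (t + h • u1 n)) j) * (1 / √(n + 3 : ℝ)) := by
      have : 0 < 1 / √(n + 3 : ℝ) := by positivity
      nlinarith
    linarith
  exact key hh

end mono

/-- **the facts of END2.** -/
lemma facts {L : LS n m} {Q : Par n} (hsm : ∀ k l j, L.sg k j ≠ L.sg l j →
    Q.ep * (‖vec (n := n) (L.V k)‖ + ‖vec (n := n) (L.V l)‖) < Q.d * |L.sg k j - L.sg l j|)
    {Sg : ℝ} (H : Near P L Sg) (hQ : Q.d = P.d) (hc : ContinuousOn P.G {0}ᶜ)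
    (hh : ∀ (l : ℝ) z, 0 < l → P.G (l • z) = l • P.G z) {Vm : ℝ}
    (hVm : ∀ k, ‖vec (n := n) (L.V k)‖ ≤ Vm) {r2 κ1 : ℝ} (hr2 : r2 + Q.ep * Vm ≤ P.d)
    (hκ1 : κ1 ≤ P.d) : Facts P.G (EndG_864.hd L Q hsm) r2 κ1 where
  cG := hc
  hom := hh
  mono := P.mono
  sgp := P.sgp
  sgn := P.sgn
  lin s t hs h ht := P.lin L Q hsm hQ hκ1 s t hs h ht
  tube s t k hs h := (tube L Q hsm H hQ hVm hr2 s t k hs h).1

end GF

end Crest.Agent.R267.EndF_864
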