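import Crest.Agent.R267.End2b_864
import Crest.Agent.R267.Calc_957

/-!
# Row 267, T3-end: literal plate zone, cut-offs and homogeneous data

* `a00 e s` : plate function of the base, `≥ 0` only where all `s j ≤ -e ‖s‖`, `> 0` where all
  `s j ≤ -2 e ‖s‖`, strictly increasing in the direction `-(1,…,1)` where it is `≥ 0`;
* `a0f e κ ε s t` : plate function on the total space;
* `kaf e`, `thf ω`, `ypf d`, `ymf d`, `ppf d` : the cut-offs and profiles;
* `LS` : combinatorial data of the letters; `LS.hd` : the homogeneous data `HD`.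
-/

set_option autoImplicit false

namespace Crest.Agent.R267.EndG_864

open Set Metric Filter Topology
open scoped RealInnerProductSpace
open Crest.Agent.R267.GS_808 Crest.Agent.R267.EndDef_864 Crest.Agent.R267.EndBas_864
  Crest.Agent.R267.EndSys_864 Crest.Agent.R267.End2a_864 Crest.Agent.R267.End2b_864
  Crest.Agent.R267.T3aDefs_957 Crest.Agent.R267.Calc_957

variable {n m : ℕ}

/-! ### the plate function of the base -/

/-- **plate function of the base**. -/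
noncomputable def a00 (e : ℝ) (s : W n) : ℝ :=
  e ^ 3 * ‖s‖ - (∑ j, tp 3 (s j + 2 * e * ‖s‖)) / ‖s‖ ^ 2

lemma tp3_nonneg (x : ℝ) : 0 ≤ tp 3 x := tp_nonneg 3 x

lemma tp3_mono : Monotone (tp 3) := by
  intro x y h
  unfold tp
  exact pow_le_pow_left₀ (le_max_left _ _) (max_le_max le_rfl h) 3

lemma tp3_mul {c : ℝ} (hc : 0 ≤ c) (x : ℝ) : tp 3 (c * x) = c ^ 3 * tp 3 x := by
  unfold tp
  rw [show max 0 (c * x) = c * max 0 x by rw [mul_max_of_nonneg _ _ hc, mul_zero], mul_pow]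

lemma a00_zero (e : ℝ) : a00 e (0 : W n) = 0 := by simp [a00]

lemma a00_smul (e : ℝ) {l : ℝ} (hl : 0 < l) (s : W n) : a00 e (l • s) = l * a00 e s := by
  by_cases hs : s = 0
  · rw [hs, smul_zero, a00_zero, mul_zero]
  have h0 : ‖s‖ ≠ 0 := norm_ne_zero_iff.2 hs
  have h1 : ∀ j, tp 3 ((l • s) j + 2 * e * ‖l • s‖) = l ^ 3 * tp 3 (s j + 2 * e * ‖s‖) := by
    intro j
    rw [← tp3_mul hl.le, norm_smul, Real.norm_of_nonneg hl.le, PiLp.smul_apply, smul_eq_mul]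
    congr 1
    ring
  rw [a00, a00, Finset.sum_congr rfl fun j _ => h1 j, ← Finset.mul_sum, norm_smul,
    Real.norm_of_nonneg hl.le]
  field_simp

lemma apply_continuous (j : Fin (n + 3)) : Continuous fun s : W n => s j :=
  (continuous_apply j).comp (PiLp.continuous_ofLp 2 _)

lemma a00_continuous (e : ℝ) : Continuous (a00 e : W n → ℝ) := by
  refine continuous_of_homog ?_ fun l p hl => by rw [a00_smul e hl, smul_eq_mul]
  unfold a00
  refine (continuous_const.mul continuous_norm).continuousOn.sub (ContinuousOn.div ?_ ?_ ?_)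
  · refine Continuous.continuousOn ?_
    refine continuous_finsetSum _ fun j _ => (continuous_tp 3).comp ?_
    exact (apply_continuous j).add (continuous_const.mul continuous_norm)
  · exact (continuous_norm.pow 2).continuousOn
  · intro s hs
    exact pow_ne_zero 2 (norm_ne_zero_iff.2 hs)

/-- where the plate function is `≥ 0` all coordinates are very negative. -/
lemma le_of_a00 {e : ℝ} (he : 0 < e) {s : W n} (hs : s ≠ 0) (h : 0 ≤ a00 e s) (j : Fin (n + 3)) :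
    s j ≤ -(e * ‖s‖) := by
  have h0 : 0 < ‖s‖ := norm_pos_iff.2 hs
  have h1 : tp 3 (s j + 2 * e * ‖s‖) ≤ (e * ‖s‖) ^ 3 := by
    have h2 : tp 3 (s j + 2 * e * ‖s‖) ≤ ∑ j, tp 3 (s j + 2 * e * ‖s‖) :=
      Finset.single_le_sum (f := fun j => tp 3 (s j + 2 * e * ‖s‖)) (fun i _ => tp3_nonneg _)
        (Finset.mem_univ j)
    have h3 : (∑ j, tp 3 (s j + 2 * e * ‖s‖)) / ‖s‖ ^ 2 ≤ e ^ 3 * ‖s‖ := by
      rw [a00] at h
      linarith
    rw [div_le_iff₀ (by positivity)] at h3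
    calc _ ≤ _ := h2
      _ ≤ _ := h3
      _ = _ := by ring
  unfold tp at h1
  have h2 : max 0 (s j + 2 * e * ‖s‖) ≤ e * ‖s‖ :=
    le_of_pow_le_pow_left₀ three_ne_zero (by positivity) h1
  have h3 := (le_max_right 0 (s j + 2 * e * ‖s‖)).trans h2
  linarith

/-- where all coordinates are very negative the plate function is positive. -/
lemma a00_pos {e : ℝ} (he : 0 < e) {s : W n} (hs : s ≠ 0) (h : ∀ j, s j ≤ -(2 * e * ‖s‖)) :
    0 < a00 e s := by
  have h0 : 0 < ‖s‖ := norm_pos_iff.2 hs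
  have h1 : ∑ j, tp 3 (s j + 2 * e * ‖s‖) = 0 := by
    refine Finset.sum_eq_zero fun j _ => tp_of_nonpos (by norm_num) ?_
    linarith [h j]
  rw [a00, h1, zero_div, sub_zero]
  positivity

lemma u1_apply (j : Fin (n + 3)) : u1 n j = 1 / √(n + 3 : ℝ) := rfl

lemma inner_u1_neg {s : W n} (h : ∀ j, s j < 0) : ⟪u1 n, s⟫ < 0 := by
  rw [inner_u1]
  refine div_neg_of_neg_of_pos ?_ (sqrt_pos n)
  exact Finset.sum_neg (fun j _ => h j) ⟨0, Finset.mem_univ _⟩

lemma neg_of_a00 {e : ℝ} (he : 0 < e) {s : W n} (hs : s ≠ 0) (h : 0 ≤ a00 e s) (j : Fin (n + 3)) :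
    s j < 0 := by
  have h0 : 0 < ‖s‖ := norm_pos_iff.2 hs
  have := le_of_a00 he hs h j
  nlinarith

lemma norm_sub_u1_sq (s : W n) (l : ℝ) : ‖s - l • u1 n‖ ^ 2 = ‖s‖ ^ 2 - 2 * l * ⟪u1 n, s⟫ + l ^ 2 := by
  rw [norm_sub_sq_real, inner_smul_right, norm_smul, norm_u1, mul_one, Real.norm_eq_abs, sq_abs,
    real_inner_comm]
  ring

lemma norm_lt_sub {s : W n} {l : ℝ} (hl : 0 < l) (h : ⟪u1 n, s⟫ ≤ 0) : ‖s‖ < ‖s - l • u1 n‖ := by
  have h1 : ‖s‖ ^ 2 < ‖s - l • u1 n‖ ^ 2 := by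
    rw [norm_sub_u1_sq]
    nlinarith
  exact lt_of_pow_lt_pow_left₀ 2 (norm_nonneg _) h1

lemma norm_sub_le' (s : W n) {l : ℝ} (hl : 0 < l) : ‖s - l • u1 n‖ ≤ ‖s‖ + l := by
  refine (norm_sub_le _ _).trans ?_
  rw [norm_smul, norm_u1, mul_one, Real.norm_of_nonneg hl.le]

/-- the plate function increases strictly in the direction `-(1,…,1)` where it is `≥ 0`. -/
lemma a00_lt {e : ℝ} (he : 0 < e) (heN : 2 * e * √(n + 3 : ℝ) < 1) {s : W n}
    (h : 0 ≤ a00 e s) {l : ℝ} (hl : 0 < l) : a00 e s < a00 e (s - l • u1 n) := by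
  have hN := sqrt_pos n
  have he2 : 2 * e < 1 / √(n + 3 : ℝ) := by rwa [lt_div_iff₀ hN]
  by_cases hs : s = 0
  · rw [hs, a00_zero, zero_sub]
    have h1 : ‖-(l • u1 n)‖ = l := by
      rw [norm_neg, norm_smul, norm_u1, mul_one, Real.norm_of_nonneg hl.le]
    refine a00_pos he ?_ fun j => ?_
    · rw [← norm_pos_iff, h1]
      exact hl
    · rw [h1, PiLp.neg_apply, PiLp.smul_apply, u1_apply, smul_eq_mul]
      nlinarith
  have h0 : 0 < ‖s‖ := norm_pos_iff.2 hs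
  have hu := inner_u1_neg fun j => neg_of_a00 he hs h j
  have h1 := norm_lt_sub hl hu.le
  have h2 := norm_sub_le' s hl
  set s' := s - l • u1 n with hs'
  have h3 : ∀ j, tp 3 (s' j + 2 * e * ‖s'‖) ≤ tp 3 (s j + 2 * e * ‖s‖) := by
    intro j
    refine tp3_mono ?_
    rw [hs', PiLp.sub_apply, PiLp.smul_apply, u1_apply, smul_eq_mul, ← hs']
    nlinarith
  have h4 : ∑ j, tp 3 (s' j + 2 * e * ‖s'‖) ≤ ∑ j, tp 3 (s j + 2 * e * ‖s‖) :=
    Finset.sum_le_sum fun j _ => h3 j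
  have h5 : 0 ≤ ∑ j, tp 3 (s j + 2 * e * ‖s‖) := Finset.sum_nonneg fun j _ => tp3_nonneg _
  have h6 : (∑ j, tp 3 (s' j + 2 * e * ‖s'‖)) / ‖s'‖ ^ 2 ≤
      (∑ j, tp 3 (s j + 2 * e * ‖s‖)) / ‖s‖ ^ 2 := by
    gcongr
  have h7 : e ^ 3 * ‖s‖ < e ^ 3 * ‖s'‖ := by gcongr
  rw [a00, a00]
  linarith

/-! ### the plate function on the total space -/

/-- penalty of large horizontal parts. -/
noncomputable def pen (κ : ℝ) (p : W n × W n) : ℝ :=
  max (‖p.2‖ - κ * ‖p.1‖) 0 ^ 2 / √(‖p.1‖ ^ 2 + ‖p.2‖ ^ 2)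

/-- **plate function on the total space**: depends only on the horizontal part of `t`. -/
noncomputable def a0f (e κ ε : ℝ) (s t : W n) : ℝ := a00 e s - ε * pen κ (s, hor t)

lemma pen_nonneg (κ : ℝ) (p : W n × W n) : 0 ≤ pen κ p := by
  unfold pen
  positivity

lemma pen_smul (κ : ℝ) {l : ℝ} (hl : 0 < l) (p : W n × W n) : pen κ (l • p) = l * pen κ p := by
  have h1 : max (‖(l • p).2‖ - κ * ‖(l • p).1‖) 0 = l * max (‖p.2‖ - κ * ‖p.1‖) 0 := by
    rw [mul_max_of_nonneg _ _ hl.le, mul_zero, Prod.smul_fst, Prod.smul_snd, norm_smul, norm_smul,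
      Real.norm_of_nonneg hl.le]
    congr 1
    ring
  have h2 : √(‖(l • p).1‖ ^ 2 + ‖(l • p).2‖ ^ 2) = l * √(‖p.1‖ ^ 2 + ‖p.2‖ ^ 2) := by
    rw [Prod.smul_fst, Prod.smul_snd, norm_smul, norm_smul, Real.norm_of_nonneg hl.le,
      show (l * ‖p.1‖) ^ 2 + (l * ‖p.2‖) ^ 2 = l ^ 2 * (‖p.1‖ ^ 2 + ‖p.2‖ ^ 2) by ring,
      Real.sqrt_mul (by positivity), Real.sqrt_sq hl.le]
  rw [pen, pen, h1, h2, mul_pow, sq l, mul_assoc, mul_div_mul_left _ _ hl.ne', mul_div_assoc]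

lemma sq_pos_of_ne {p : W n × W n} (hp : p ≠ 0) : 0 < ‖p.1‖ ^ 2 + ‖p.2‖ ^ 2 := by
  by_cases h : p.1 = 0
  · have h2 : p.2 ≠ 0 := fun h2 => hp (Prod.ext h h2)
    have := norm_pos_iff.2 h2
    positivity
  · have := norm_pos_iff.2 h
    positivity

lemma pen_continuous (κ : ℝ) : Continuous (pen κ : W n × W n → ℝ) := by
  refine continuous_of_homog ?_ fun l p hl => by rw [pen_smul κ hl, smul_eq_mul]
  unfold pen
  refine ContinuousOn.div ?_ ?_ ?_
  · exact (by fun_prop : Continuous fun p : W n × W n => max (‖p.2‖ - κ * ‖p.1‖) 0 ^ 2).continuousOn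
  · exact (by fun_prop : Continuous fun p : W n × W n => √(‖p.1‖ ^ 2 + ‖p.2‖ ^ 2)).continuousOn
  · intro p hp
    exact (Real.sqrt_pos.2 (sq_pos_of_ne hp)).ne'

lemma pen_of_le {κ : ℝ} {p : W n × W n} (h : ‖p.2‖ ≤ κ * ‖p.1‖) : pen κ p = 0 := by
  rw [pen, max_eq_right (by linarith)]
  simp

/-- the penalty decreases if the norm of the base point increases. -/
lemma pen_anti {κ : ℝ} (hκ : 0 ≤ κ) {s s' y : W n} (h : ‖s‖ ≤ ‖s'‖) :
    pen κ (s', y) ≤ pen κ (s, y) := by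
  have e1 : pen κ (s', y) = max (‖y‖ - κ * ‖s'‖) 0 ^ 2 / √(‖s'‖ ^ 2 + ‖y‖ ^ 2) := rfl
  have e2 : pen κ (s, y) = max (‖y‖ - κ * ‖s‖) 0 ^ 2 / √(‖s‖ ^ 2 + ‖y‖ ^ 2) := rfl
  rw [e1, e2]
  have hy := norm_nonneg y
  have hs := norm_nonneg s
  generalize ‖y‖ = T at *
  generalize ‖s‖ = S at *
  generalize ‖s'‖ = S' at *
  by_cases hp : S ^ 2 + T ^ 2 = 0
  · have hT : T = 0 := by nlinarith
    have hS : S = 0 := by nlinarith
    rw [hT, hS, mul_zero, sub_zero, zero_sub, max_eq_right (by nlinarith)]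
    simp
  have h1 : 0 < √(S ^ 2 + T ^ 2) := Real.sqrt_pos.2 (lt_of_le_of_ne (by positivity) (Ne.symm hp))
  have h2 : √(S ^ 2 + T ^ 2) ≤ √(S' ^ 2 + T ^ 2) := by
    refine Real.sqrt_le_sqrt ?_
    have := pow_le_pow_left₀ hs h 2
    linarith
  have h3 : max (T - κ * S') 0 ≤ max (T - κ * S) 0 := by
    refine max_le_max ?_ le_rfl
    have := mul_le_mul_of_nonneg_left h hκ
    linarith
  have h4 : 0 ≤ max (T - κ * S') 0 := le_max_right _ _
  exact div_le_div₀ (sq_nonneg _) (pow_le_pow_left₀ h4 h3 2) h1 h2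

section a0

variable {e κ ε : ℝ}

lemma a0f_le (hε : 0 ≤ ε) (s t : W n) : a0f e κ ε s t ≤ a00 e s := by
  have := mul_nonneg hε (pen_nonneg κ (s, hor t))
  rw [a0f]
  linarith

lemma a0f_small {s t : W n} (h : ‖hor t‖ ≤ κ * ‖s‖) : a0f e κ ε s t = a00 e s := by
  rw [a0f, pen_of_le (p := (s, hor t)) h, mul_zero, sub_zero]

lemma hor_zero : hor (0 : W n) = 0 := by rw [hor, inner_zero_right, zero_smul, sub_zero]

lemma a0f_zero (hκ : 0 ≤ κ) (s : W n) : a0f e κ ε s 0 = a00 e s :=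
  a0f_small (by rw [hor_zero, norm_zero]; positivity)

lemma a0f_smul {l : ℝ} (hl : 0 < l) (s t : W n) : a0f e κ ε (l • s) (l • t) = l * a0f e κ ε s t := by
  have h1 : ((l • s, hor (l • t)) : W n × W n) = l • (s, hor t) := by rw [hor_smul]; rfl
  rw [a0f, a0f, a00_smul e hl, h1, pen_smul κ hl]
  ring

lemma a0f_continuous : Continuous fun p : W n × W n => a0f e κ ε p.1 p.2 := by
  unfold a0f
  refine ((a00_continuous e).comp continuous_fst).sub (continuous_const.mul ?_)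
  exact (pen_continuous κ).comp (f := fun p : W n × W n => (p.1, hor p.2))
    (continuous_fst.prodMk (continuous_hor.comp continuous_snd))

lemma a0f_s0 (hε : 0 < ε) {t : W n} (h : 0 ≤ a0f e κ ε 0 t) : hor t = 0 := by
  by_contra hy
  have h0 : 0 < ‖hor t‖ := norm_pos_iff.2 hy
  have h1 : 0 < pen κ ((0 : W n), hor t) := by
    unfold pen
    simp only [norm_zero, mul_zero, sub_zero]
    rw [max_eq_left h0.le]
    positivity
  rw [a0f, a00_zero] at h
  nlinarith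

lemma a0f_lt (he : 0 < e) (heN : 2 * e * √(n + 3 : ℝ) < 1) (hκ : 0 ≤ κ) (hε : 0 < ε) {s t : W n}
    (h : 0 ≤ a0f e κ ε s t) {l : ℝ} (hl : 0 < l) : a0f e κ ε s t < a0f e κ ε (s - l • u1 n) t := by
  have h1 : 0 ≤ a00 e s := h.trans (a0f_le hε.le s t)
  have h2 := a00_lt he heN h1 hl
  have h3 : ‖s‖ ≤ ‖s - l • u1 n‖ := by
    by_cases hs : s = 0
    · rw [hs, norm_zero]; positivity
    · exact (norm_lt_sub hl (inner_u1_neg fun j => neg_of_a00 he hs h1 j).le).le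
  have h4 := pen_anti hκ h3 (y := hor t)
  rw [a0f, a0f]
  nlinarith

/-- horizontal parts over the plate zone are bounded. -/
lemma a0f_bd (_he : 0 < e) (hκ : 1 ≤ κ) (hε : 0 < ε) {s t : W n} (h : 0 ≤ a0f e κ ε s t) :
    ‖hor t‖ ≤ max (2 * κ) (8 * e ^ 3 / ε) * ‖s‖ := by
  by_cases hs : s = 0
  · rw [hs] at h
    rw [a0f_s0 hε h, norm_zero]
    positivity
  have h0 : 0 < ‖s‖ := norm_pos_iff.2 hs
  rcases le_or_gt ‖hor t‖ (2 * κ * ‖s‖) with h1 | h1
  · exact h1.trans (mul_le_mul_of_nonneg_right (le_max_left _ _) h0.le)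
  refine le_trans ?_ (mul_le_mul_of_nonneg_right (le_max_right _ _) h0.le)
  set T := ‖hor t‖ with hT
  have hsT : ‖s‖ ≤ T := by nlinarith
  have hT0 : 0 < T := h0.trans_le hsT
  have h2 : a00 e s ≤ e ^ 3 * ‖s‖ := by
    rw [a00]
    have : 0 ≤ (∑ j, tp 3 (s j + 2 * e * ‖s‖)) / ‖s‖ ^ 2 :=
      div_nonneg (Finset.sum_nonneg fun j _ => tp3_nonneg _) (by positivity)
    linarith
  have h3 : √(‖s‖ ^ 2 + T ^ 2) ≤ 2 * T := by
    rw [show (2 : ℝ) * T = √((2 * T) ^ 2) from (Real.sqrt_sq (by positivity)).symm]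
    refine Real.sqrt_le_sqrt ?_
    nlinarith
  have h3' : 0 < √(‖s‖ ^ 2 + T ^ 2) := Real.sqrt_pos.2 (by positivity)
  have h4 : T / 8 ≤ pen κ (s, hor t) := by
    unfold pen
    simp only
    rw [← hT, le_div_iff₀ h3']
    have h5 : T / 2 ≤ max (T - κ * ‖s‖) 0 := le_max_of_le_left (by nlinarith)
    have h6 : (T / 2) ^ 2 ≤ max (T - κ * ‖s‖) 0 ^ 2 := by gcongr
    nlinarith
  have h7 : ε * (T / 8) ≤ e ^ 3 * ‖s‖ := by
    rw [a0f] at h
    nlinarith
  rw [div_mul_eq_mul_div, le_div_iff₀ hε]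
  nlinarith

lemma exists_a0f_pos (he : 0 < e) (heN : 2 * e * √(n + 3 : ℝ) < 1) (hκ : 0 < κ) (s t : W n) :
    ∃ l : ℝ, 0 < a0f e κ ε (s - l • u1 n) t := by
  have hN := sqrt_pos n
  have he2 : 0 < 1 / √(n + 3 : ℝ) - 2 * e := by
    rw [sub_pos, lt_div_iff₀ hN]
    exact heN
  set δ := 1 / √(n + 3 : ℝ) - 2 * e with hδ
  obtain ⟨l, hl1, hl2, hl3⟩ : ∃ l : ℝ, 0 < l ∧ (1 + 2 * e) * ‖s‖ ≤ l * δ ∧
      ‖s‖ + ‖hor t‖ / κ + 1 ≤ l := by
    refine ⟨max (((1 + 2 * e) * ‖s‖) / δ) (‖s‖ + ‖hor t‖ / κ + 1), ?_, ?_, le_max_right _ _⟩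
    · exact lt_max_of_lt_right (by positivity)
    · rw [← div_le_iff₀ he2]
      exact le_max_left _ _
  refine ⟨l, ?_⟩
  have h1 : l - ‖s‖ ≤ ‖s - l • u1 n‖ := by
    have := norm_sub_norm_le (l • u1 n) s
    rw [norm_smul, norm_u1, mul_one, Real.norm_of_nonneg hl1.le, norm_sub_rev] at this
    exact this
  have h2 := norm_sub_le' s hl1
  have h3 : 0 < ‖s - l • u1 n‖ := by
    have : 0 ≤ ‖hor t‖ / κ := by positivity
    linarith
  rw [a0f_small]
  · refine a00_pos he (norm_pos_iff.1 h3) fun j => ?_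
    rw [PiLp.sub_apply, PiLp.smul_apply, u1_apply, smul_eq_mul]
    have h4 := (abs_le.1 (abs_apply_le s j)).2
    nlinarith
  · have h5 : ‖hor t‖ / κ ≤ ‖s - l • u1 n‖ := by linarith
    rw [div_le_iff₀ hκ] at h5
    linarith

lemma exists_a0f_neg (he : 0 < e) (hε : 0 < ε) (s t : W n) :
    ∃ l : ℝ, a0f e κ ε (s + l • u1 n) t < 0 := by
  have hN := sqrt_pos n
  obtain ⟨l, hl⟩ : ∃ l : ℝ, √(n + 3 : ℝ) * ‖s‖ < l := exists_gt _
  refine ⟨l, ?_⟩
  by_contra h
  push Not at h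
  have h1 := h.trans (a0f_le hε.le _ t)
  have h2 : 0 < (s + l • u1 n) 0 := by
    rw [PiLp.add_apply, PiLp.smul_apply, u1_apply, smul_eq_mul]
    have h4 := (abs_le.1 (abs_apply_le s 0)).1
    have h5 : ‖s‖ < l * (1 / √(n + 3 : ℝ)) := by
      rw [mul_one_div, lt_div_iff₀ hN]
      linarith
    linarith
  have h3 : s + l • u1 n ≠ 0 := by
    intro h3
    rw [h3] at h2
    exact lt_irrefl _ h2
  exact absurd (neg_of_a00 he h3 h1 0) (not_lt.2 h2.le)

end a0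

/-! ### cut-offs and profiles -/

/-- shear cut-off: `1` where all `s j ≤ -e ‖s‖`, `0` unless all `s j < 0`. -/
noncomputable def kaf (e : ℝ) (s : W n) : ℝ := ∏ j, (1 - st (s j / (e * ‖s‖) + 1))

lemma kaf_fac (x : ℝ) : 0 ≤ 1 - st x ∧ 1 - st x ≤ 1 :=
  ⟨by linarith [st_le_one x], by linarith [st_nonneg x]⟩

lemma kaf_nonneg (e : ℝ) (s : W n) : 0 ≤ kaf e s := Finset.prod_nonneg fun _ _ => (kaf_fac _).1

lemma kaf_le_one (e : ℝ) (s : W n) : kaf e s ≤ 1 :=
  Finset.prod_le_one (fun _ _ => (kaf_fac _).1) fun _ _ => (kaf_fac _).2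

lemma kaf_smul (e : ℝ) {c : ℝ} (hc : 0 < c) (s : W n) : kaf e (c • s) = kaf e s := by
  unfold kaf
  refine Finset.prod_congr rfl fun j _ => ?_
  rw [PiLp.smul_apply, smul_eq_mul, norm_smul, Real.norm_of_nonneg hc.le,
    show e * (c * ‖s‖) = c * (e * ‖s‖) by ring, mul_div_mul_left _ _ hc.ne']

lemma continuous_st : Continuous st := contDiff_st.continuous

lemma kaf_continuousOn {e : ℝ} (he : 0 < e) : ContinuousOn (kaf e : W n → ℝ) {0}ᶜ := by
  unfold kaf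
  refine continuousOn_finsetProd _ fun j _ => ?_
  refine continuousOn_const.sub (continuous_st.comp_continuousOn ?_)
  refine ContinuousOn.add (ContinuousOn.div (apply_continuous j).continuousOn ?_ ?_)
    continuousOn_const
  · exact (continuous_const.mul continuous_norm).continuousOn
  · intro s hs
    exact mul_ne_zero he.ne' (norm_ne_zero_iff.2 hs)

lemma neg_of_kaf {e : ℝ} (he : 0 < e) {s : W n} (hs : s ≠ 0) (h : kaf e s ≠ 0)
    (j : Fin (n + 3)) : s j < 0 := by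
  have h0 : 0 < e * ‖s‖ := mul_pos he (norm_pos_iff.2 hs)
  by_contra hj
  push Not at hj
  apply h
  refine Finset.prod_eq_zero (Finset.mem_univ j) ?_
  rw [st_of_ge, sub_self]
  have : 0 ≤ s j / (e * ‖s‖) := div_nonneg hj h0.le
  linarith

lemma kaf_eq_one {e : ℝ} (he : 0 < e) {s : W n} (hs : s ≠ 0) (h : ∀ j, s j ≤ -(e * ‖s‖)) :
    kaf e s = 1 := by
  have h0 : 0 < e * ‖s‖ := mul_pos he (norm_pos_iff.2 hs)
  refine Finset.prod_eq_one fun j _ => ?_
  rw [st_of_le, sub_zero]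
  have : s j / (e * ‖s‖) ≤ -1 := by
    rw [div_le_iff₀ h0]
    linarith [h j]
  linarith

/-- centre cut-off: `0` only near the ray through `(1,…,1)`. -/
noncomputable def thf (ω : ℝ) (s : W n) : ℝ := st ((1 - ⟪u1 n, s⟫ / ‖s‖) / ω - 1)

lemma thf_smul (ω : ℝ) {c : ℝ} (hc : 0 < c) (s : W n) : thf ω (c • s) = thf ω s := by
  rw [thf, thf, inner_smul_right, norm_smul, Real.norm_of_nonneg hc.le,
    mul_div_mul_left _ _ hc.ne']

lemma thf_continuousOn (ω : ℝ) : ContinuousOn (thf ω : W n → ℝ) {0}ᶜ := by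
  unfold thf
  refine continuous_st.comp_continuousOn (ContinuousOn.sub (ContinuousOn.div_const
    (continuousOn_const.sub (ContinuousOn.div ?_ continuous_norm.continuousOn ?_)) _)
    continuousOn_const)
  · exact (by fun_prop : Continuous fun s : W n => ⟪u1 n, s⟫).continuousOn
  · intro s hs
    exact norm_ne_zero_iff.2 hs

lemma pos_of_thf {ω : ℝ} (hω : 0 < ω) (hωN : ω * (8 * (n + 3)) ≤ 1) {s : W n} (hs : s ≠ 0)
    (h : thf ω s = 0) (j : Fin (n + 3)) : 0 < s j := by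
  have h0 : 0 < ‖s‖ := norm_pos_iff.2 hs
  have hN := sqrt_pos n
  have hNsq : √(n + 3 : ℝ) ^ 2 = n + 3 := Real.sq_sqrt (by positivity)
  set x := ⟪u1 n, s⟫ / ‖s‖ with hx
  have hx1 : x ≤ 1 := by
    rw [hx, div_le_one h0]
    have := real_inner_le_norm (u1 n) s
    rwa [norm_u1, one_mul] at this
  have h1 : 1 - x ≤ ω := by
    by_contra h2
    push Not at h2
    have h3 : 0 < (1 - x) / ω - 1 := by
      rw [sub_pos, lt_div_iff₀ hω]
      linarith
    have := st_pos h3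
    rw [thf, ← hx] at h
    linarith
  have hxs : ⟪u1 n, s⟫ = x * ‖s‖ := by rw [hx, div_mul_cancel₀ _ h0.ne']
  have hn3 : (3 : ℝ) ≤ n + 3 := by
    have : (0 : ℝ) ≤ n := Nat.cast_nonneg n
    linarith
  have hω8 : ω ≤ 1 / 8 := by nlinarith
  have h2 : ‖hor s‖ ^ 2 ≤ 2 * ω * ‖s‖ ^ 2 := by
    have h3 : ‖s‖ ^ 2 = ‖hor s‖ ^ 2 + ⟪u1 n, s⟫ ^ 2 := by
      conv_lhs => rw [← hor_add_u1 s]
      rw [norm_add_sq_real, inner_smul_right, inner_hor_u1, norm_smul, norm_u1, mul_one,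
        Real.norm_eq_abs, sq_abs]
      ring
    rw [hxs] at h3
    have h4 : 1 - x ^ 2 ≤ 2 * ω := by nlinarith
    have h5 := mul_le_mul_of_nonneg_right h4 (sq_nonneg ‖s‖)
    nlinarith
  have h3 : |hor s j| ≤ ‖s‖ / (2 * √(n + 3 : ℝ)) := by
    refine (abs_apply_le (hor s) j).trans ?_
    refine le_of_sq_le_sq ?_ (by positivity)
    rw [div_pow, mul_pow, hNsq, le_div_iff₀ (by positivity)]
    nlinarith [sq_nonneg ‖s‖, mul_le_mul_of_nonneg_right hωN (sq_nonneg ‖s‖),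
      mul_le_mul_of_nonneg_right h2 (by positivity : (0 : ℝ) ≤ 2 ^ 2 * (n + 3))]
  have h4 : s j = hor s j + x * ‖s‖ * (1 / √(n + 3 : ℝ)) := by
    have := congrArg (fun v : W n => v j) (hor_add_u1 s)
    simp only [PiLp.add_apply, PiLp.smul_apply, u1_apply, smul_eq_mul, hxs] at this
    exact this.symm
  have h5 := (abs_le.1 h3).1
  have h6 : ‖s‖ / (2 * √(n + 3 : ℝ)) = (1 / 2) * (‖s‖ * (1 / √(n + 3 : ℝ))) := by
    field_simp
  have h7 : 0 < ‖s‖ * (1 / √(n + 3 : ℝ)) := by positivity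
  rw [h4]
  rw [h6] at h5
  nlinarith

/-- profile of the conormal. -/
noncomputable def ypf (d x : ℝ) : ℝ := chi d x - chi d (-x)

/-- profile of the conormal at negative rays. -/
noncomputable def ymf (d x : ℝ) : ℝ := -chi d x - chi d (-x)

/-- profile of the base coordinates. -/
noncomputable def ppf (d x : ℝ) : ℝ := x * st (x / d)

lemma chi_of_le {d x : ℝ} (hd : 0 < d) (h : x ≤ d) : chi d x = 0 :=
  st_of_le (div_nonpos_of_nonpos_of_nonneg (by linarith) hd.le)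

lemma chi_pos {d x : ℝ} (hd : 0 < d) (h : d < x) : 0 < chi d x := st_pos (div_pos (by linarith) hd)

lemma chi_mono {d : ℝ} (hd : 0 < d) : Monotone (chi d) := by
  intro x y h
  exact st_mono (div_le_div_of_nonneg_right (by linarith) hd.le)

lemma continuous_chi (d : ℝ) : Continuous (chi d) := by
  unfold chi
  exact continuous_st.comp (by fun_prop)

/-! ### letters and parameters -/

/-- combinatorial data of the letters. -/
structure LS (n m : ℕ) where
  sg : Fin m → Fin (n + 3) → ℝ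
  V : Fin m → Fin (n + 3) → ℝ
  neg : Fin m → Fin (n + 3) → Bool
  ray : ∀ k l j, sg k j = sg l j → neg k j = neg l j
  hV : ∀ k l j, sg k j ≠ sg l j → 0 < (sg k j - sg l j) * (V k j - V l j)
  trich : ∀ k l, k ≠ l → Pos sg V neg k l ∨ Pos sg V neg l k ∨ Mix sg V neg k l ∨ Mix sg V neg l k

/-- parameters. -/
structure Par (n : ℕ) where
  d : ℝ
  e : ℝ
  ω : ℝ
  ep : ℝ
  hd : 0 < d
  hdN : d ^ 2 * (n + 3) < 1
  he : 0 < e
  hed : 2 * e ≤ d
  hω : 0 < ω
  hωN : ω * (8 * (n + 3)) ≤ 1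
  hep : 0 < ep

namespace Par

variable (Q : Par n)

lemma heN : 2 * Q.e * √(n + 3 : ℝ) < 1 := by
  have hN := sqrt_pos n
  have hNsq : √(n + 3 : ℝ) ^ 2 = n + 3 := Real.sq_sqrt (by positivity)
  have h1 := Q.hdN
  have h2 := Q.hed
  have hd := Q.hd
  have he := Q.he
  have h3 : (Q.d * √(n + 3 : ℝ)) ^ 2 < 1 ^ 2 := by
    rw [mul_pow, hNsq]
    linarith
  have h4 : Q.d * √(n + 3 : ℝ) < 1 := lt_of_pow_lt_pow_left₀ 2 zero_le_one h3
  have h5 : 2 * Q.e * √(n + 3 : ℝ) ≤ Q.d * √(n + 3 : ℝ) := by gcongr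
  linarith

lemma exists_g0 : ∃ g : Bc (n + 2) → ℝ, Continuous g ∧ ∀ b a,
    (0 < a00 Q.e (bp (n := n) b a) ↔ a < g b) ∧ (a00 Q.e (bp (n := n) b a) = 0 ↔ a = g b) := by
  refine exists_zero_fun (fun (b : Bc (n + 2)) a => a00 Q.e (bp (n := n) b a)) ?_ ?_ ?_ ?_
  · exact (a00_continuous Q.e).comp (continuous_bp_comp continuous_fst continuous_snd)
  · intro b a a' h h'
    have h1 := a00_lt Q.he Q.heN h' (sub_pos.2 h)
    rw [bp_sub_u1, sub_sub_cancel] at h1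
    exact lt_of_le_of_lt h' h1
  · intro b
    obtain ⟨l, hl⟩ := exists_a0f_pos (κ := 1) (ε := 1) Q.he Q.heN one_pos (bp (n := n) b 0) 0
    rw [a0f_zero zero_le_one, bp_sub_u1] at hl
    exact ⟨_, hl⟩
  · intro b
    obtain ⟨l, hl⟩ := exists_a0f_neg (κ := 1) (ε := 1) Q.he one_pos (bp (n := n) b 0) 0
    rw [a0f_zero zero_le_one, bp_add_u1] at hl
    exact ⟨_, hl⟩

/-- minus the height of the edge of the plate zone. -/
noncomputable def g0 : Bc (n + 2) → ℝ := Classical.choose Q.exists_g0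

lemma continuous_g0 : Continuous Q.g0 := (Classical.choose_spec Q.exists_g0).1

lemma g0_pos (b : Bc (n + 2)) (a : ℝ) : 0 < a00 Q.e (bp (n := n) b a) ↔ a < Q.g0 b :=
  ((Classical.choose_spec Q.exists_g0).2 b a).1

lemma g0_zero (b : Bc (n + 2)) (a : ℝ) : a00 Q.e (bp (n := n) b a) = 0 ↔ a = Q.g0 b :=
  ((Classical.choose_spec Q.exists_g0).2 b a).2

lemma bp_zero : bp (n := n) 0 0 = 0 := bp_eq_zero.2 ⟨rfl, rfl⟩

lemma g0_at_zero : Q.g0 0 = 0 := by
  symm
  rw [← g0_zero, bp_zero, a00_zero]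

end Par

/-- **the homogeneous data.** -/
noncomputable def hd (L : LS n m) (Q : Par n) (hsm : ∀ k l j, L.sg k j ≠ L.sg l j →
    Q.ep * (‖vec (n := n) (L.V k)‖ + ‖vec (n := n) (L.V l)‖) < Q.d * |L.sg k j - L.sg l j|) :
    HD n m where
  sg := L.sg
  V := L.V
  neg := L.neg
  Yp := ypf Q.d
  Ym := ymf Q.d
  pp := ppf Q.d
  d := Q.d
  ep := Q.ep
  th := thf Q.ω
  ka := kaf Q.e
  m0 := fun b => -(Q.g0 b)
  hd := Q.hd
  hdN := Q.hdN
  hep := Q.hep
  cYp := (continuous_chi _).sub ((continuous_chi _).comp continuous_neg)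
  cYm := (continuous_chi _).neg.sub ((continuous_chi _).comp continuous_neg)
  mYp := by
    intro x y h
    have h1 := chi_mono Q.hd h
    have h2 := chi_mono Q.hd (neg_le_neg h)
    unfold ypf
    linarith
  Yp0 := by
    intro x h
    have h1 := abs_le.1 h
    rw [ypf, chi_of_le Q.hd h1.2, chi_of_le Q.hd (by linarith), sub_zero]
  Ypp := by
    intro x h
    have hd := Q.hd
    rw [ypf, chi_of_le (x := -x) Q.hd (by linarith), sub_zero]
    exact chi_pos Q.hd h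
  Ypn := by
    intro x h
    have hd := Q.hd
    rw [ypf, chi_of_le (x := x) Q.hd (by linarith), zero_sub]
    have := chi_pos Q.hd (show Q.d < -x by linarith)
    linarith
  Ymp := by
    intro x h
    rw [ypf, ymf, chi_of_le Q.hd h, neg_zero]
  Ymn := by
    intro x h
    have hd := Q.hd
    rw [ymf, chi_of_le (x := -x) Q.hd (by linarith), sub_zero]
    have := chi_pos Q.hd h
    linarith
  cpp := by
    unfold ppf
    exact continuous_id.mul (continuous_st.comp (continuous_id.div_const _))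
  ppp := fun x h => mul_pos h (st_pos (div_pos h Q.hd))
  ppn := fun x h => by
    rw [ppf, st_of_le (div_nonpos_of_nonpos_of_nonneg h Q.hd.le), mul_zero]
  ppd := fun x h => by
    rw [ppf, st_of_ge ((one_le_div Q.hd).2 h), mul_one]
  cth := thf_continuousOn _
  th0 := fun s => st_nonneg _
  th1 := fun s => st_le_one _
  thp := fun s hs h j => pos_of_thf Q.hω Q.hωN hs h j
  thh := fun c s hc => thf_smul _ hc s
  cka := kaf_continuousOn Q.he
  ka0 := kaf_nonneg _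
  ka1 := kaf_le_one _
  kah := fun c s hc => kaf_smul _ hc s
  kap := fun s hs h j => (neg_of_kaf Q.he hs h j).trans_le (mul_nonneg Q.hd.le (norm_nonneg _))
  cm0 := Q.continuous_g0.neg
  m00 := by rw [Q.g0_at_zero, neg_zero]
  out := by
    intro b hb
    rw [sub_neg_eq_add]
    have h1 : ¬ (0 < a00 Q.e (bp (n := n) b (1 - ‖b‖ + Q.g0 b))) := by
      rw [Q.g0_pos]
      linarith
    have h2 : bp (n := n) b (1 - ‖b‖ + Q.g0 b) ≠ 0 := by
      rw [Ne, bp_eq_zero]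
      rintro ⟨h3, h4⟩
      rw [h3, norm_zero, Q.g0_at_zero] at h4
      norm_num at h4
    by_contra h3
    push Not at h3
    refine h1 (a00_pos Q.he h2 fun j => (h3 j).trans ?_)
    have := Q.hed
    have h4 := norm_nonneg (bp (n := n) b (1 - ‖b‖ + Q.g0 b))
    nlinarith
  wall := by
    intro b hb
    rw [neg_neg]
    have h1 : a00 Q.e (bp (n := n) b (Q.g0 b)) = 0 := (Q.g0_zero b _).2 rfl
    have h2 : bp (n := n) b (Q.g0 b) ≠ 0 := by
      rw [Ne, bp_eq_zero]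
      rintro ⟨h3, -⟩
      rw [h3, norm_zero] at hb
      exact zero_ne_one hb
    exact ⟨kaf_eq_one Q.he h2 fun j => le_of_a00 Q.he h2 h1.ge j,
      fun j => neg_of_a00 Q.he h2 h1.ge j⟩
  ray := L.ray
  hV := L.hV
  small := hsm
  trich := L.trich

end Crest.Agent.R267.EndG_864
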