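import Crest.Agent.R267.HasMatA_652

/-!
# The matrix of a homogeneous graph system (row 267, T3-end)

`hasMat`: a system over the cube whose cores and normals are those of a homogeneous graph system
`D : HD n m` (EndDef_864) has the matrix `D.mat`. All homotopies are straight lines.
-/

set_option autoImplicit false

namespace Crest.Agent.R267.HasMat_652

open Set Metric
open scoped RealInnerProductSpace
open Crest.Agent.R267.GS_808 Crest.Agent.R267.EndDef_864 Crest.Agent.R267.IsotB_92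
open Crest.Agent.R267.HasMatA_652

section D

variable {n m : ℕ} {D : HD n m}

/-! #### differences -/


/-- comparable strands: class `α`. -/
theorem fh_pos {k l : Fin m} (hkl : Pos D.sg D.V D.neg k l) :
    FH (ec (n + 2)) al (fun u => T D (sB D u) (df D k l (sB D u))) := by
  have cz := cont_nz D
  have hz : ∀ u : Bc (n + 2), ‖u‖ ≤ 1 → D.nz (sB D u) ≠ 0 := fun u hu => nz_ne D (sB_ne D hu)
  have F1 := fhT D (cont_df D k l) (cont_gm D k l cz hz) (fun u hu => wall_df D hu k l)
    (fun u hu => wall_gv D hu rfl _ _)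
    fun u hu t ht => seg_pos D (sB_ne D hu) (sB_out D hu) hkl ht
  have F2 := fhT D (cont_gm D k l cz hz)
    (cont_gv D cz hz (fun _ => 1) (fun _ => 1)) (fun u hu => wall_gv D hu rfl _ _)
    (fun u hu => wall_gv D hu rfl _ _)
    fun u hu t ht => seg_pos' D (sB_ne D hu) (sB_out D hu) hkl ht
  refine FH.symm (FH.trans F1 (FH.trans F2 ?_))
  have hg1 : ∀ u : Bc (n + 2), ‖u‖ ≤ 1 →
      gv (D.hs (sB D u)) (D.nz (sB D u)) (cf D (sB D u)) (fun _ => 1) (fun _ => 1) ≠ 0 := by
    intro u hu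
    have := seg_pos' D (sB_ne D hu) (sB_out D hu) hkl (t := 1) ⟨zero_le_one, le_rfl⟩
    simpa using this
  refine fh_of_segment (cont_T D (cont_gv D cz hz _ _)) continuous_al.continuousOn
    (fun u hu => hor_T D hu (wall_gv D hu rfl _ _)) (fun u hu => ?_) fun u hu t ht => ?_
  · rw [al, inner_ec_pt, hu, sub_self]
  have hs := sB_ne D hu
  rcases ht.1.eq_or_lt with h0 | h0
  · rw [← h0, sub_zero, one_smul, zero_smul, add_zero]
    exact T_ne D hs (hg1 u hu)
  intro h
  set s := sB D u with hsdef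
  set g := gv (D.hs s) (D.nz s) (cf D s) (fun _ => 1) (fun _ => 1) with hgdef
  have hin : ⟪D.nz s, g⟫ = ∑ j, D.nz s j * (max (D.hs s j) 0 * 1) := inner_gv (hz u hu) _ _ _
  have h1t : 0 ≤ 1 - t := by linarith [ht.2]
  have hu1 : 0 ≤ ⟪u1 n, g⟫ := by
    have e1 : ⟪u1 n, g⟫ = (∑ j, max (D.hs s j) 0 * 1) / √(n + 3 : ℝ) +
        cf D s * ⟪u1 n, proj (D.nz s) (vec fun _ => 1)⟫ := by
      rw [hgdef, gv, inner_add_right, inner_smul_right, inner_u1]
      rfl
    have e2 : (vec fun _ => 1 : W n) = √(n + 3 : ℝ) • u1 n := by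
      ext j
      show (1 : ℝ) = √(n + 3 : ℝ) * (1 / √(n + 3 : ℝ))
      rw [mul_one_div_cancel (sqrt_pos n).ne']
    have e3 : 0 ≤ ⟪u1 n, proj (D.nz s) (vec fun _ => 1)⟫ := by
      rw [e2, proj_smul, inner_smul_right]
      refine mul_nonneg (sqrt_pos n).le ?_
      rw [proj, inner_sub_right, inner_smul_right, inner_u1_self, real_inner_comm (D.nz s) (u1 n)]
      have h3 : 0 < ‖D.nz s‖ ^ 2 := by
        have := norm_pos_iff.2 (hz u hu)
        positivity
      have h4 : ⟪D.nz s, u1 n⟫ ^ 2 ≤ ‖D.nz s‖ ^ 2 := by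
        have h5 := abs_real_inner_le_norm (D.nz s) (u1 n)
        rw [norm_u1, mul_one] at h5
        rw [← sq_abs]
        exact pow_le_pow_left₀ (abs_nonneg _) h5 2
      have h6 : ⟪D.nz s, u1 n⟫ / ‖D.nz s‖ ^ 2 * ⟪D.nz s, u1 n⟫ ≤ 1 := by
        rw [div_mul_eq_mul_div, div_le_one h3, ← sq]
        exact h4
      linarith
    rw [e1]
    refine add_nonneg (div_nonneg (Finset.sum_nonneg fun j _ => ?_) (sqrt_pos n).le)
      (mul_nonneg (cf_nonneg D s) e3)
    rw [mul_one]
    exact le_max_right _ _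
  have hh : 0 ≤ ⟪ec (n + 2), T D s g⟫ := by
    by_cases hka : D.ka s = 0
    · rw [inner_ec_T, hka, zero_mul, add_zero]
      positivity
    · have h7 := D.kap s hs hka
      have h8 : ⟪D.nz s, g⟫ = 0 := by
        rw [hin]
        refine Finset.sum_eq_zero fun j _ => ?_
        rcases (nz_le D hs (h7 j).le).eq_or_lt with h9 | h9
        · rw [h9, zero_mul]
        · rw [max_eq_right (hsN D ((nz_neg D hs h9).trans (neg_neg_of_pos (dpos D hs))).le),
            zero_mul, mul_zero]
      rw [inner_ec_T' D h8 (nz_u1_ka D hs hka).ne]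
      have := D.ka1 s
      have h9 : 0 ≤ 1 - D.ka s := by linarith
      positivity
  have e4 : (1 - t) * ⟪ec (n + 2), T D s g⟫ + t * (1 - ‖u‖) = 0 := by
    have := congrArg (fun v => ⟪ec (n + 2), v⟫) h
    simp only [inner_add_right, inner_smul_right, inner_zero_right, al, inner_ec_pt] at this
    exact this
  have e5 : ‖u‖ = 1 := by
    have h9 := mul_nonneg h1t hh
    have h10 : t * (1 - ‖u‖) ≤ 0 := by linarith
    have h11 : 1 - ‖u‖ ≤ 0 := by
      by_contra h12
      linarith [mul_pos h0 (not_le.1 h12)]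
    linarith
  have hu0 : u ≠ 0 := by
    rintro rfl
    rw [norm_zero] at e5
    exact zero_ne_one e5
  obtain ⟨w1, w2⟩ := sB_wall D e5
  have e6 : ⟪L n (hor s), T D s g⟫ = (1 / ‖s‖) * ⟪hor s, g⟫ := inner_L_T D (inner_u1_hor s)
  have e7 : 0 ≤ ⟪hor s, g⟫ := by
    have e8 : g = (cf D s) • proj (D.nz s) (vec fun _ => 1) := by
      rw [hgdef, gv]
      have : (vec fun j => max (D.hs s j) 0 * 1 : W n) = 0 := by
        ext j
        show max (D.hs s j) 0 * 1 = 0
        rw [max_eq_right (hsN D (w2 j).le), zero_mul]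
      rw [this, zero_add]
    have e2 : (vec fun _ => 1 : W n) = √(n + 3 : ℝ) • u1 n := by
      ext j
      show (1 : ℝ) = √(n + 3 : ℝ) * (1 / √(n + 3 : ℝ))
      rw [mul_one_div_cancel (sqrt_pos n).ne']
    rw [e8, inner_smul_right, e2, proj_smul, inner_smul_right]
    refine mul_nonneg (cf_nonneg D s) (mul_nonneg (sqrt_pos n).le ?_)
    rw [proj, inner_sub_right, inner_smul_right, real_inner_comm (u1 n) (hor s), inner_u1_hor,
      zero_sub, ← neg_mul]
    refine mul_nonneg ?_ (cheb D s)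
    rw [neg_nonneg]
    exact div_nonpos_of_nonpos_of_nonneg
      (nz_u1_ka D hs (by rw [w1]; exact one_ne_zero)).le (by positivity)
  have e9 : ⟪L n (hor s), (1 - t) • T D s g + t • al u⟫ = 0 := by rw [h, inner_zero_right]
  rw [inner_add_right, inner_smul_right, inner_smul_right, e6, hsdef, L_hor_sB, al, inner_pt,
    zero_mul, add_zero, ← hsdef] at e9
  have e10 := sum_sq_pos hu0
  have e11 : 0 ≤ (1 - t) * (1 / ‖s‖ * ⟪hor s, g⟫) := by positivity
  linarith [mul_pos h0 e10]

/-- constant horizontal maps. -/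
lemma fh_const {v w : W n} (hv : ⟪ec (n + 2), v⟫ = 0) (hw : ⟪ec (n + 2), w⟫ = 0)
    (h : ∀ t ∈ Icc (0 : ℝ) 1, (1 - t) • v + t • w ≠ 0) :
    FH (ec (n + 2)) (fun _ : Bc (n + 2) => v) (fun _ => w) :=
  fh_of_segment continuousOn_const continuousOn_const (fun _ _ => hv) (fun _ _ => hw)
    fun _ _ => h

lemma inner_ec_single {i : Fin (n + 3)} (hi : i ≠ Fin.last (n + 2)) (c : ℝ) :
    ⟪ec (n + 2), (EuclideanSpace.single i c : W n)⟫ = 0 := by
  rw [ec, EuclideanSpace.inner_single_left]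
  simp [hi.symm]

lemma typ_const {v : W n} (hv : v ≠ 0) (h : ⟪ec (n + 2), v⟫ = 0) :
    Typ n (fun _ => v) 0 0 := by
  have i0 : (0 : Fin (n + 3)) ≠ Fin.last (n + 2) := by
    intro h0
    have := congrArg Fin.val h0
    simp at this
  have i1 : (1 : Fin (n + 3)) ≠ Fin.last (n + 2) := by
    intro h0
    have := congrArg Fin.val h0
    simp at this
  have i01 : (0 : Fin (n + 3)) ≠ 1 := by
    intro h0
    have := congrArg Fin.val h0
    simp at this
  have hh : ⟪ec (n + 2), hc (n + 1)⟫ = 0 := inner_ec_single i0 1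
  refine Typ.congr Typ.zero ?_
  by_cases hs : ∀ t ∈ Icc (0 : ℝ) 1, (1 - t) • hc (n + 1) + t • v ≠ 0
  · exact fh_const hh h hs
  push Not at hs
  obtain ⟨t0, ht0, he⟩ := hs
  have a0 : (hc (n + 1) : W n) 0 = 1 := by simp [hc]
  have a1 : (hc (n + 1) : W n) 1 = 0 := by simp [hc, i01.symm]
  have b0 : (EuclideanSpace.single 1 1 : W n) 0 = 0 := by simp [i01]
  have b1 : (EuclideanSpace.single 1 1 : W n) 1 = 1 := by simp
  have hv1 : v 1 = 0 := by
    have e1 : (1 - t0) * (hc (n + 1) : W n) 1 + t0 * v 1 = 0 := congrArg (fun w : W n => w 1) he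
    have e0 : (1 - t0) * (hc (n + 1) : W n) 0 + t0 * v 0 = 0 := congrArg (fun w : W n => w 0) he
    rw [a1, mul_zero, zero_add] at e1
    rcases mul_eq_zero.1 e1 with h1 | h1
    · rw [h1, a0] at e0
      norm_num at e0
    · exact h1
  refine FH.trans (g := fun _ => (EuclideanSpace.single 1 1 : W n))
    (fh_const hh (inner_ec_single i1 1) fun t ht hz => ?_)
    (fh_const (inner_ec_single i1 1) h fun t ht hz => ?_)
  · have e1 : (1 - t) * (hc (n + 1) : W n) 1 + t * (EuclideanSpace.single 1 1 : W n) 1 = 0 :=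
      congrArg (fun w : W n => w 1) hz
    have e0 : (1 - t) * (hc (n + 1) : W n) 0 + t * (EuclideanSpace.single 1 1 : W n) 0 = 0 :=
      congrArg (fun w : W n => w 0) hz
    rw [a1, b1] at e1
    rw [a0, b0] at e0
    linarith
  · have e1 : (1 - t) * (EuclideanSpace.single 1 1 : W n) 1 + t * v 1 = 0 :=
      congrArg (fun w : W n => w 1) hz
    rw [b1, hv1] at e1
    have e2 : t = 1 := by linarith
    rw [e2, sub_self, zero_smul, one_smul, zero_add] at hz
    exact hv hz

lemma vec_ee_ne {i j : Fin (n + 3)} (hij : i ≠ j) : vec (ee i j) ≠ (0 : W n) := by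
  intro h
  have : ee i j i = 0 := by
    have h1 : (vec (ee i j) : W n) i = 0 := by rw [h]; rfl
    exact h1
  rw [ee_i hij] at this
  exact one_ne_zero this

lemma sum_ee {i j : Fin (n + 3)} : ∑ p, ee i j p = 0 := by
  simp [ee, Finset.sum_sub_distrib]

lemma inner_u1_ee {i j : Fin (n + 3)} : ⟪u1 n, vec (ee i j)⟫ = 0 := by
  rw [inner_u1]
  simp only [vec_apply, sum_ee, zero_div]

lemma inner_ee (v : W n) (i j : Fin (n + 3)) : ⟪vec (ee i j), v⟫ = v i - v j := by
  rw [inner_def]
  simp only [vec_apply, ee, sub_mul, ite_mul, one_mul, zero_mul, Finset.sum_sub_distrib,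
    Finset.sum_ite_eq', Finset.mem_univ, if_true]

/-- maps on which `e_i - e_j` is positive are homotopic to a constant. -/
lemma fh_ee {f : Bc (n + 2) → W n} {i j : Fin (n + 3)}
    (cf' : ContinuousOn f (closedBall 0 1))
    (wf : ∀ u, ‖u‖ = 1 → ⟪D.nz (sB D u), f u⟫ = 0) (h : ∀ u, ‖u‖ ≤ 1 → 0 < f u i - f u j) :
    FH (ec (n + 2)) (fun _ => L n (vec (ee i j))) (fun u => T D (sB D u) (f u)) := by
  refine fh_of_inner_pos continuousOn_const (cont_T D cf') (fun u hu => ?_)
    (fun u hu => hor_T D hu (wf u hu)) fun u hu => ?_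
  · rw [inner_ec_L, inner_u1_ee]
  · rw [inner_L_T D inner_u1_ee, inner_ee]
    have := norm_pos_iff.2 (sB_ne D hu)
    have := h u hu
    positivity

/-- mixed strands: class `0`. -/
theorem fh_mix {k l : Fin m} (hkl : Mix D.sg D.V D.neg k l) :
    ∃ v : W n, v ≠ 0 ∧ ⟪ec (n + 2), v⟫ = 0 ∧
      FH (ec (n + 2)) (fun _ => v) (fun u => T D (sB D u) (df D k l (sB D u))) := by
  have cz := cont_nz D
  have hz : ∀ u : Bc (n + 2), ‖u‖ ≤ 1 → D.nz (sB D u) ≠ 0 := fun u hu => nz_ne D (sB_ne D hu)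
  rcases hkl with ⟨i, j, hi, hj⟩ | ⟨hle, i, j, hi, hj, hv, hn⟩
  · have hij : i ≠ j := by
      rintro rfl
      exact lt_asymm hi hj
    refine ⟨L n (vec (ee i j)), fun h => vec_ee_ne hij
      ((map_eq_zero_iff (L n) (L n).injective).1 h), by rw [inner_ec_L, inner_u1_ee], ?_⟩
    have F1 := fhT D (cont_df D k l) (cont_gm D k l cz hz) (fun u hu => wall_df D hu k l)
      (fun u hu => wall_gv D hu rfl _ _)
      fun u hu t ht => seg_mix D (sB_ne D hu) hi hj ht
    have F2 := fhT D (cont_gm D k l cz hz)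
      (cont_gv D cz hz (ee i j) (ee i j)) (fun u hu => wall_gv D hu rfl _ _)
      (fun u hu => wall_gv D hu rfl _ _)
      fun u hu t ht => seg_mix' D (sB_ne D hu) hi hj ht
    refine FH.trans (fh_ee (D := D) (cont_gv D cz hz (ee i j) (ee i j))
      (fun u hu => wall_gv D hu rfl _ _) fun u hu => ?_) (FH.symm (FH.trans F1 F2))
    have hs := sB_ne D hu
    exact diff_pos hij (hz u hu) (fun p hp => hsP D ((dpos D hs).trans (nz_pos D hs hp)))
      (cf_nonneg D _) (fun h p => hsP D (cf_zero D hs h p)) _ (ee_i hij) (by rw [ee_j hij]; norm_num)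
      (Or.inl (by rw [ee_j hij]; norm_num))
  · have hij : i ≠ j := by
      rintro rfl
      exact hi.ne' hj
    have cn := cont_nrm D k
    have hnn : ∀ u : Bc (n + 2), ‖u‖ ≤ 1 → D.nrm k (sB D u) ≠ 0 :=
      fun u hu => nrm_ne D (sB_ne D hu)
    refine ⟨L n (vec (ee i j)), fun h => vec_ee_ne hij
      ((map_eq_zero_iff (L n) (L n).injective).1 h), by rw [inner_ec_L, inner_u1_ee], ?_⟩
    have F1 := fhT D (cont_df D k l) (cont_gm D k l cn hnn) (fun u hu => wall_df D hu k l)
      (fun u hu => wall_gv D hu (wall_nrm D hu k) _ _)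
      fun u hu t ht => seg_neg D (sB_ne D hu) hle hi hj hv hn ht
    have F2 := fhT D (cont_gm D k l cn hnn)
      (cont_gv D cn hnn (fun p => if p = i then 1 else 0) (ee i j))
      (fun u hu => wall_gv D hu (wall_nrm D hu k) _ _)
      (fun u hu => wall_gv D hu (wall_nrm D hu k) _ _)
      fun u hu t ht => seg_neg' D (sB_ne D hu) hle hi hj hv hn ht
    refine FH.trans (fh_ee (D := D) (cont_gv D cn hnn _ (ee i j))
      (fun u hu => wall_gv D hu (wall_nrm D hu k) _ _)
      fun u hu => ?_) (FH.symm (FH.trans F1 F2))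
    have hs := sB_ne D hu
    exact diff_pos hij (hnn u hu) (fun p hp => hsP D ((dpos D hs).trans (nrm_pos D hs hp)))
      (cf_nonneg D _) (fun h p => hsP D (cf_zero D hs h p)) _ (if_pos rfl) (by rw [if_neg hij.symm])
      (Or.inr (nrm_neg_ray D hn _))

/-! #### the matrix: cores -/

lemma core_eq (k : Fin m) {u : Bc (n + 2)} (hu : ‖u‖ ≤ 1) :
    D.core k u = T D (sB D u) (D.eta k (sB D u)) := by
  rw [HD.core, sb_eq D hu]; rfl

lemma core_sub (k l : Fin m) {u : Bc (n + 2)} (hu : ‖u‖ ≤ 1) :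
    D.core k u - D.core l u = T D (sB D u) (df D k l (sB D u)) := by
  rw [core_eq k hu, core_eq l hu, df, T_sub]

lemma not_pos_swap {k l : Fin m} (h : Pos D.sg D.V D.neg k l) : ¬ Pos D.sg D.V D.neg l k := by
  intro h'
  obtain ⟨j, hj⟩ := h.2.1
  exact absurd (h'.1 j) (not_le.2 hj)

lemma not_pos_mix {k l : Fin m} (h : Mix D.sg D.V D.neg k l) : ¬ Pos D.sg D.V D.neg k l := by
  intro h'
  rcases h with ⟨i, j, hi, hj⟩ | ⟨hle, i, j, hi, hj, hv, hn⟩
  · exact absurd (h'.1 j) (not_le.2 hj)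
  · rw [h'.2.2.2 j hj] at hn
    exact Bool.noConfusion hn

lemma not_pos_mix' {k l : Fin m} (h : Mix D.sg D.V D.neg k l) : ¬ Pos D.sg D.V D.neg l k := by
  intro h'
  rcases h with ⟨i, j, hi, hj⟩ | ⟨hle, i, j, hi, hj, hv, hn⟩
  · exact absurd (h'.1 i) (not_le.2 hi)
  · exact absurd (h'.1 i) (not_le.2 hi)

lemma mat_pos {k l : Fin m} (hne : k ≠ l) (h : Pos D.sg D.V D.neg k l) : D.mat k l = 1 := by
  rw [HD.mat, if_neg hne, if_pos h]

lemma mat_neg {k l : Fin m} (hne : k ≠ l) (h : ¬ Pos D.sg D.V D.neg k l) : D.mat k l = 0 := by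
  rw [HD.mat, if_neg hne, if_neg h]

lemma neg_df (k l : Fin m) (s : W n) : -(T D s (df D k l s)) = T D s (df D l k s) := by
  rw [df, df, T_sub, T_sub, neg_sub]

theorem typ_core {k l : Fin m} (hne : k ≠ l) :
    Typ n (fun u => T D (sB D u) (df D k l (sB D u))) (D.mat k l) (D.mat l k) := by
  rcases D.trich k l hne with h | h | h | h
  · rw [mat_pos hne h, mat_neg hne.symm (not_pos_swap h)]
    exact Typ.congr Typ.al (fh_pos h)
  · rw [mat_pos hne.symm h, mat_neg hne (not_pos_swap h)]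
    refine Typ.congr Typ.be (FH.congr (FH.neg (fh_pos h)) (fun _ _ => rfl) fun u _ => ?_)
    exact neg_df l k _
  · rw [mat_neg hne (not_pos_mix h), mat_neg hne.symm (not_pos_mix' h)]
    obtain ⟨v, hv, hv', hf⟩ := fh_mix h
    exact Typ.congr (typ_const hv hv') hf
  · rw [mat_neg hne (not_pos_mix' h), mat_neg hne.symm (not_pos_mix h)]
    obtain ⟨v, hv, hv', hf⟩ := fh_mix h
    refine Typ.congr (typ_const (neg_ne_zero.2 hv) (by rw [inner_neg_right, hv', neg_zero]))
      (FH.congr (FH.neg hf) (fun _ _ => rfl) fun u _ => ?_)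
    exact neg_df l k _

/-- the cores are pairwise different. -/
theorem core_ne {k l : Fin m} (hne : k ≠ l) {u : Bc (n + 2)} (hu : ‖u‖ ≤ 1) :
    D.core k u ≠ D.core l u := by
  rw [← sub_ne_zero, core_sub k l hu]
  rcases D.trich k l hne with h | h | h | h
  · exact FH.neL (FH.symm (fh_pos h)) u hu
  · rw [← neg_df l k]
    exact neg_ne_zero.2 (FH.neL (FH.symm (fh_pos h)) u hu)
  · obtain ⟨v, hv, hv', hf⟩ := fh_mix h
    exact FH.neL (FH.symm hf) u hu
  · obtain ⟨v, hv, hv', hf⟩ := fh_mix h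
    rw [← neg_df l k]
    exact neg_ne_zero.2 (FH.neL (FH.symm hf) u hu)

/-- the cores are horizontal at the wall. -/
theorem core_wall (k : Fin m) {u : Bc (n + 2)} (hu : ‖u‖ = 1) :
    ⟪ec (n + 2), D.core k u⟫ = 0 := by
  rw [core_eq k hu.le]
  exact hor_T D hu (by rw [eta_eq]; exact wall_gv D hu (wall_nrm D hu k) _ _)

theorem cont_core (k : Fin m) : ContinuousOn (D.core k) (closedBall 0 1) :=
  (cont_T D (cont_eta D k)).congr fun _ hu => core_eq k (norm_le_of_mem hu)

/-! #### the matrix: normals -/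

lemma nrm_eq_nz_ka {k : Fin m} {s : W n} (hs : s ≠ 0) (h : D.ka s ≠ 0) : D.nrm k s = D.nz s := by
  ext j
  exact nrm_eq_nz D hs (D.kap s hs h j).le

lemma hor_add_u1 (v : W n) : hor v + ⟪u1 n, v⟫ • u1 n = v := sub_add_cancel _ _

lemma inner_hor_hor (v w : W n) : ⟪hor v, hor w⟫ = ⟪hor v, w⟫ := by
  have h : hor w = w - ⟪u1 n, w⟫ • u1 n := rfl
  rw [h, inner_sub_right, inner_smul_right, real_inner_comm (u1 n) (hor v), inner_u1_hor,
    mul_zero, sub_zero]

lemma inner_u1_nA (k : Fin m) (s : W n) : ⟪u1 n, D.nA k s⟫ = ⟪u1 n, D.nrm k s⟫ := by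
  rw [HD.nA, inner_add_right, inner_smul_right, inner_smul_right, inner_u1_hor, inner_u1_self,
    mul_zero, zero_add, mul_one]

lemma u1_nrm_neg {k : Fin m} {s : W n} (hs : s ≠ 0) (h : D.ka s ≠ 0) :
    ⟪u1 n, D.nrm k s⟫ < 0 := by
  rw [nrm_eq_nz_ka hs h, real_inner_comm]
  exact nz_u1_ka D hs h

lemma nA_ka0 {k : Fin m} {s : W n} (h : D.ka s = 0) : D.nA k s = D.nrm k s := by
  rw [HD.nA, h, sub_zero, one_smul, hor_add_u1]

theorem nA_ne {k : Fin m} {s : W n} (hs : s ≠ 0) : D.nA k s ≠ 0 := by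
  by_cases h : D.ka s = 0
  · rw [nA_ka0 h]
    exact nrm_ne D hs
  · intro h1
    have h2 := u1_nrm_neg (k := k) hs h
    rw [← inner_u1_nA, h1, inner_zero_right] at h2
    exact lt_irrefl _ h2

/-- the normal is `ec` at the wall. -/
theorem nuc_wall (k : Fin m) {u : Bc (n + 2)} (hu : ‖u‖ = 1) : D.nuc k u = ec (n + 2) := by
  obtain ⟨h1, h2⟩ := sB_wall D hu
  have hs := sB_ne D hu.le
  have h3 := u1_nrm_neg (k := k) hs (by rw [h1]; exact one_ne_zero)
  have h4 : D.nA k (sB D u) = ⟪u1 n, D.nrm k (sB D u)⟫ • u1 n := by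
    rw [HD.nA, h1, sub_self, zero_smul, zero_add]
  rw [HD.nuc, sb_eq D hu.le, h4, map_smul, L_u1, norm_smul, norm_u1, mul_one, Real.norm_eq_abs,
    abs_of_neg h3, smul_smul, ← neg_smul]
  have h5 : -(1 / -⟪u1 n, D.nrm k (sB D u)⟫ * ⟪u1 n, D.nrm k (sB D u)⟫) = 1 := by
    rw [div_neg, neg_mul, neg_neg, one_div, inv_mul_cancel₀ h3.ne]
  rw [h5, one_smul]

theorem norm_nuc (k : Fin m) {u : Bc (n + 2)} (hu : ‖u‖ ≤ 1) : ‖D.nuc k u‖ = 1 := by
  have h1 := norm_ne_zero_iff.2 (nA_ne (D := D) (k := k) (sB_ne D hu))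
  rw [HD.nuc, sb_eq D hu, norm_neg, norm_smul, LinearIsometryEquiv.norm_map, norm_div, norm_one,
    norm_norm, one_div, inv_mul_cancel₀ h1]

theorem cont_nA (k : Fin m) : ContinuousOn (fun u => D.nA k (sB D u)) (closedBall 0 1) := by
  have hka : ContinuousOn (fun u => D.ka (sB D u)) (closedBall 0 1) :=
    D.cka.comp (continuous_sB D).continuousOn fun u hu => sB_mem D hu
  have hc : Continuous fun v : W n => hor v := by
    unfold hor
    fun_prop
  have h1 : ContinuousOn (fun u => ⟪u1 n, D.nrm k (sB D u)⟫) (closedBall 0 1) :=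
    continuousOn_const.inner (cont_nrm D k)
  have h2 : ContinuousOn (fun u => (1 - D.ka (sB D u)) • hor (D.nrm k (sB D u)))
      (closedBall 0 1) := (continuousOn_const.sub hka).smul (hc.comp_continuousOn (cont_nrm D k))
  have h3 : ContinuousOn (fun u => ⟪u1 n, D.nrm k (sB D u)⟫ • u1 n) (closedBall 0 1) :=
    h1.smul continuousOn_const
  exact h2.add h3

theorem cont_nuc (k : Fin m) : ContinuousOn (D.nuc k) (closedBall 0 1) := by
  have h1 : ContinuousOn (fun u => 1 / ‖D.nA k (sB D u)‖) (closedBall 0 1) :=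
    continuousOn_const.div (cont_nA k).norm fun u hu =>
      norm_ne_zero_iff.2 (nA_ne (D := D) (k := k) (sB_ne D (norm_le_of_mem hu)))
  have h2 : ContinuousOn (fun u => L n (D.nA k (sB D u))) (closedBall 0 1) :=
    (L n).continuous.comp_continuousOn (cont_nA k)
  refine (h1.smul h2).neg.congr fun u hu => ?_
  rw [HD.nuc, sb_eq D (norm_le_of_mem hu)]
  rfl

lemma sB_zero : sB D 0 = u1 n := by
  rw [sB, bp, norm_zero, D.m00, sub_zero, sub_zero, ← ec_eq, L_ec]

theorem typN_nuc (k : Fin m) : TypN n (D.nuc k) (D.mat k k) := by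
  have hmat : D.mat k k = if ∀ j, D.neg k j = false then 1 else 0 := by
    rw [HD.mat, if_pos rfl]
  rw [hmat]
  split_ifs with hneg
  · -- no negative ray
    refine TypN.congr TypN.ga (fn_of_segment continuous_ga.continuousOn (cont_nuc k)
      (fun u hu => ?_) (fun u hu => nuc_wall k hu) fun u hu t ht h => ?_)
    · rw [ga, hu, ec_eq]
      norm_num
    have hs := sB_ne D hu
    have hnn : D.nrm k (sB D u) = D.nz (sB D u) := by
      ext j
      exact nrm_eq_nz' D (hneg j)
    have hA := norm_pos_iff.2 (nA_ne (D := D) (k := k) hs)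
    have hn1 := norm_nuc (D := D) k hu
    rcases ht.2.eq_or_lt with h1 | h1
    · rw [h1, sub_self, zero_smul, one_smul, zero_add] at h
      rw [h, norm_zero] at hn1
      exact zero_ne_one hn1
    rcases hu.eq_or_lt with h2 | h2
    · rw [nuc_wall k h2, ga, h2] at h
      have : ⟪ec (n + 2), (1 - t) • pt (-(4 * (1 - (1 : ℝ))) • u) (2 * 1 - 1) + t • ec (n + 2)⟫ = 0 := by
        rw [h, inner_zero_right]
      rw [inner_add_right, inner_smul_right, inner_smul_right, inner_ec_pt, ec_eq, inner_pt] at this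
      simp at this
      linarith
    by_cases h3 : u = 0
    · have h4 := congrArg (fun v => ⟪ec (n + 2), v⟫) h
      simp only [inner_add_right, inner_smul_right, inner_zero_right, ga, inner_ec_pt] at h4
      rw [HD.nuc, sb_eq D hu, inner_neg_right, inner_smul_right, inner_ec_L, inner_u1_nA, hnn, h3,
        sB_zero, norm_zero] at h4
      have h5 : 0 < ⟪u1 n, D.nz (u1 n)⟫ := by
        rw [inner_def]
        refine Finset.sum_pos (fun j _ => ?_) Finset.univ_nonempty
        have h6 : (u1 n) j = 1 / √(n + 3 : ℝ) := rfl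
        have h7 : D.nz (u1 n) j = D.Yp ((u1 n) j / ‖u1 n‖) := rfl
        rw [h7, norm_u1, div_one, h6]
        have h8 : 0 < 1 / √(n + 3 : ℝ) := one_div_pos.2 (sqrt_pos n)
        refine mul_pos h8 (D.Ypp _ ?_)
        rw [lt_div_iff₀ (sqrt_pos n)]
        have h9 : (D.d * √(n + 3 : ℝ)) ^ 2 < 1 ^ 2 := by
          rw [mul_pow, Real.sq_sqrt (by positivity), one_pow]
          exact D.hdN
        exact lt_of_pow_lt_pow_left₀ 2 zero_le_one h9
      have hA' := norm_pos_iff.2 (nA_ne (D := D) (k := k) (s := u1 n) (by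
        rw [← norm_ne_zero_iff, norm_u1]; exact one_ne_zero))
      have h10 : 0 ≤ t * (1 / ‖D.nA k (u1 n)‖ * ⟪u1 n, D.nz (u1 n)⟫) := by
        have := ht.1
        positivity
      linarith
    · have h4 : ⟪L n (hor (sB D u)), (1 - t) • ga u + t • D.nuc k u⟫ = 0 := by
        rw [h, inner_zero_right]
      have h5 : ⟪L n (hor (sB D u)), D.nuc k u⟫ =
          -(1 / ‖D.nA k (sB D u)‖ * ((1 - D.ka (sB D u)) * ⟪hor (sB D u), D.nz (sB D u)⟫)) := by
        rw [HD.nuc, sb_eq D hu, inner_neg_right, inner_smul_right, inner_L, HD.nA, hnn,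
          inner_add_right, inner_smul_right, inner_smul_right,
          real_inner_comm (u1 n) (hor (sB D u)), inner_u1_hor, mul_zero, add_zero]
        rw [inner_hor_hor]
      rw [inner_add_right, inner_smul_right, inner_smul_right, h5, L_hor_sB, ga, inner_pt,
        zero_mul, add_zero] at h4
      have h6 : ∑ i, u i * (-(4 * (1 - ‖u‖)) • u) i = -(4 * (1 - ‖u‖)) * ∑ i, u i * u i := by
        rw [Finset.mul_sum]
        refine Finset.sum_congr rfl fun i _ => ?_
        simp only [Pi.smul_apply, smul_eq_mul]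
        ring
      rw [h6] at h4
      have h7 := sum_sq_pos h3
      have h8 := cheb D (sB D u)
      have h9 : 0 ≤ 1 - D.ka (sB D u) := by linarith [D.ka1 (sB D u)]
      have h10 : 0 < 1 - t := by linarith
      have h11 : 0 < 1 - ‖u‖ := by linarith
      have h12 : 0 < (1 - t) * (4 * (1 - ‖u‖) * ∑ i, u i * u i) := by positivity
      have h13 : 0 ≤ t * (1 / ‖D.nA k (sB D u)‖ * ((1 - D.ka (sB D u)) *
          ⟪hor (sB D u), D.nz (sB D u)⟫)) := by
        have := ht.1
        positivity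
      linarith
  · -- a negative ray
    push Not at hneg
    obtain ⟨j0, hj0⟩ := hneg
    have hj : D.neg k j0 = true := by
      cases h : D.neg k j0
      · exact absurd h hj0
      · rfl
    refine TypN.congr TypN.zero (fn_of_segment continuousOn_const (cont_nuc k)
      (fun u hu => rfl) (fun u hu => nuc_wall k hu) fun u hu t ht h => ?_)
    have hs := sB_ne D hu
    have hA := norm_pos_iff.2 (nA_ne (D := D) (k := k) hs)
    have hn1 := norm_nuc (D := D) k hu
    have h1 : (1 - t) • u1 n - (t * (1 / ‖D.nA k (sB D u)‖)) • D.nA k (sB D u) = 0 := by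
      have h2 := congrArg (L n) h
      rw [map_add, map_smul, map_smul, L_ec, HD.nuc, sb_eq D hu, map_neg, map_smul, L_L,
        map_zero, smul_neg, smul_smul, ← sub_eq_add_neg] at h2
      exact h2
    have ht1 : t ≠ 1 := by
      intro h2
      rw [h2, sub_self, zero_smul, one_smul, zero_add] at h
      rw [h, norm_zero] at hn1
      exact zero_ne_one hn1
    have ht2 : 0 < 1 - t := by
      have := lt_of_le_of_ne ht.2 ht1
      linarith
    by_cases hka : D.ka (sB D u) = 0
    · have h2 : (1 - t) * (u1 n) j0 - (t * (1 / ‖D.nA k (sB D u)‖)) * D.nA k (sB D u) j0 = 0 :=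
        congrArg (fun w : W n => w j0) h1
      rw [nA_ka0 hka] at h2 hA
      have h3 := nrm_neg_ray D hj (sB D u)
      have h6 : (u1 n) j0 = 1 / √(n + 3 : ℝ) := rfl
      have h8 : 0 < 1 / √(n + 3 : ℝ) := one_div_pos.2 (sqrt_pos n)
      rw [h6] at h2
      have h9 : 0 ≤ t * (1 / ‖D.nrm k (sB D u)‖) := by
        have := ht.1
        positivity
      have h10 := mul_pos ht2 h8
      have h11 := mul_nonneg h9 (neg_nonneg.2 h3)
      linarith
    · have h2 := congrArg (fun w => ⟪u1 n, w⟫) h1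
      simp only [inner_sub_right, inner_smul_right, inner_u1_self, inner_zero_right,
        inner_u1_nA] at h2
      have h3 := u1_nrm_neg (k := k) hs hka
      have h9 : 0 ≤ t * (1 / ‖D.nA k (sB D u)‖) := by
        have := ht.1
        positivity
      have h11 := mul_nonneg h9 (neg_nonneg.2 h3.le)
      linarith

/-- **HASMAT**: the matrix of a homogeneous graph system. -/
theorem hasMat (D : HD n m) (G : Sys (Bc (n + 2)) (ec (n + 2)) m)
    (hx : ∀ k u, ‖u‖ ≤ 1 → G.x k u = D.core k u)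
    (hn : ∀ k u, ‖u‖ ≤ 1 → G.nu k u = D.nuc k u) : HasMat G D.mat := by
  refine ⟨fun k l hlk => ?_, fun k => ?_⟩
  · refine Typ.congr (typ_core hlk.ne') (FH.congr (fh_refl ?_ ?_ ?_) (fun _ _ => rfl)
      fun u hu => ?_)
    · exact cont_T D (cont_df D k l)
    · intro u hu
      rw [← core_sub k l hu, sub_ne_zero]
      exact core_ne hlk.ne' hu
    · exact fun u hu => hor_T D hu (wall_df D hu k l)
    · rw [hx k u hu, hx l u hu, core_sub k l hu]
  · refine TypN.congr (typN_nuc k) (FN.congr (fn_refl (cont_nuc k) ?_ ?_) (fun _ _ => rfl)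
      fun u hu => (hn k u hu).symm)
    · intro u hu h
      have := norm_nuc (D := D) k hu
      rw [h, norm_zero] at this
      exact zero_ne_one this
    · exact fun u hu => nuc_wall k hu

/-- a homogeneous graph system is a graph system. -/
theorem exists_sysD (D : HD n m) : ∃ G : Sys (Bc (n + 2)) (ec (n + 2)) m,
    (∀ k u, ‖u‖ ≤ 1 → G.x k u = D.core k u) ∧ (∀ k u, ‖u‖ ≤ 1 → G.nu k u = D.nuc k u) := by
  obtain ⟨G, h1, h2⟩ := exists_sys (m := m) (norm_ec (n + 2)) D.core D.nuc cont_core cont_nuc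
    (fun k u hu h => by
      have := norm_nuc (D := D) k hu
      rw [h, norm_zero] at this
      exact zero_ne_one this)
    (fun k l hkl u hu => core_ne hkl hu) (fun k u hu => core_wall k hu)
    (fun k u hu => nuc_wall k hu)
  refine ⟨G, h1, fun k u hu => ?_⟩
  rw [h2 k u hu, norm_nuc k hu, inv_one, one_smul]

end D

end Crest.Agent.R267.HasMat_652
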