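import Crest.Agent.R267.EndH_864
import Crest.Agent.R267.HasMat_652

/-!
# Row 267, T3-end: choice of the constants

`exists_par` : parameters for given letters and `d`; `final` : facts + flow-line output give a graph
system with the matrix of the letters whose link is `{G = 0}`.
-/

set_option autoImplicit false

namespace Crest.Agent.R267.EndI_864

open Set Metric Filter Topology
open scoped RealInnerProductSpace
open Crest.Agent.R267.GS_808 Crest.Agent.R267.EndDef_864 Crest.Agent.R267.EndBas_864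
  Crest.Agent.R267.EndSys_864 Crest.Agent.R267.EndG_864 Crest.Agent.R267.EndH_864
  Crest.Agent.R267.TopAsm_808 Crest.Agent.R267.DraftB_808 Crest.Agent.R267.Cone_808

variable {n m : ℕ}

/-- **parameters**. -/
theorem exists_par (L : LS n m) {Vm : ℝ} (hVm : ∀ k, ‖vec (n := n) (L.V k)‖ ≤ Vm)
    (hgap : ∀ k l j, L.sg k j ≠ L.sg l j → 1 ≤ |L.sg k j - L.sg l j|) {d η : ℝ} (hd : 0 < d)
    (hdN : d ^ 2 * (n + 3) < 1) (hη : 0 < η) :
    ∃ Q : Par n, Q.d = d ∧ Q.e = d / 2 ∧ Q.ep ≤ η ∧ ∀ k l j, L.sg k j ≠ L.sg l j →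
      Q.ep * (‖vec (n := n) (L.V k)‖ + ‖vec (n := n) (L.V l)‖) < Q.d * |L.sg k j - L.sg l j| := by
  have hV0 : 0 ≤ |Vm| := abs_nonneg _
  have h1 : 0 < min η (d / (2 * |Vm| + 1)) := lt_min hη (by positivity)
  refine ⟨⟨d, d / 2, 1 / (8 * (n + 3)), min η (d / (2 * |Vm| + 1)), hd, hdN, by positivity,
    by linarith, by positivity, ?_, h1⟩, rfl, rfl, min_le_left _ _, ?_⟩
  · rw [one_div, inv_mul_cancel₀ (by positivity)]
  · intro k l j hj
    show min η (d / (2 * |Vm| + 1)) * _ < d * _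
    have h2 := hgap k l j hj
    have h3 : ‖vec (n := n) (L.V k)‖ + ‖vec (n := n) (L.V l)‖ ≤ 2 * |Vm| := by
      have := hVm k
      have := hVm l
      have := le_abs_self Vm
      linarith
    calc min η (d / (2 * |Vm| + 1)) * (‖vec (n := n) (L.V k)‖ + ‖vec (n := n) (L.V l)‖)
        ≤ d / (2 * |Vm| + 1) * (2 * |Vm|) :=
          mul_le_mul (min_le_right _ _) h3 (by positivity) (by positivity)
      _ < d := by
          rw [div_mul_eq_mul_div, div_lt_iff₀ (by positivity)]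
          nlinarith
      _ ≤ d * |L.sg k j - L.sg l j| := le_mul_of_one_le_right hd.le h2

/-- **facts and flow-line output give the graph link**. -/
theorem final (L : LS n m) (Q : Par n) (hsm : ∀ k l j, L.sg k j ≠ L.sg l j →
    Q.ep * (‖vec (n := n) (L.V k)‖ + ‖vec (n := n) (L.V l)‖) < Q.d * |L.sg k j - L.sg l j|)
    {G : (Fin (n + 3) → ℂ) → ℂ} {r2 κ1 κ2 Sg Vm : ℝ} (F : Facts G (hd L Q hsm) r2 κ1)
    (hr2 : 0 < r2) (hκ1 : (1 + √(n + 3 : ℝ)) * (Q.ep * Vm) < κ1) (hκ2 : Sg + Q.ep * Vm < κ2)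
    (hκ21 : 1 ≤ κ2) (hSg : ∀ k j, |L.sg k j| ≤ Sg) (hVm : ∀ k, ‖vec (n := n) (L.V k)‖ ≤ Vm)
    (hSg0 : 0 ≤ Sg) (hVm0 : 0 ≤ Vm)
    (hFL : ∃ r0 : ℝ, 0 < r0 ∧ ∀ r, 0 < r → r < r0 → ∃ ε : ℝ, 0 < ε ∧
      FLOut G (hd L Q hsm) Q.e κ2 ε r) :
    ∃ S : S n m, HasMat S (hd L Q hsm).mat ∧ IsLink {z : Sph (Fin (n + 3)) | G z = 0} S := by
  have hN := sqrt_pos n
  obtain ⟨r0, hr0, hfl⟩ := hFL
  obtain ⟨r1, hr1, hsep⟩ := exists_sep (hd L Q hsm)
  obtain ⟨R0, hbd⟩ := exists_bd (hd L Q hsm)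
  have hN1 : 0 < 1 + √(n + 3 : ℝ) := by positivity
  have hk1 : 0 < κ1 / (1 + √(n + 3 : ℝ)) - Q.ep * Vm := by
    rw [sub_pos, lt_div_iff₀ hN1]
    linarith
  obtain ⟨r, h0, h1⟩ : ∃ r : ℝ, 0 < r ∧ r < min (min r0 (r1 / 2)) (min (r2 / (1 + √(n + 3 : ℝ)))
      (min (κ1 / (1 + √(n + 3 : ℝ)) - Q.ep * Vm) (κ2 - (Sg + Q.ep * Vm)))) := by
    refine exists_between (lt_min (lt_min hr0 (by positivity)) (lt_min (by positivity)
      (lt_min hk1 (by linarith))))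
  simp only [lt_min_iff] at h1
  obtain ⟨⟨h2, h3⟩, h4, h5, h6⟩ := h1
  rw [lt_div_iff₀ hN1] at h4
  have h5' : r + Q.ep * Vm < κ1 / (1 + √(n + 3 : ℝ)) := by linarith
  rw [lt_div_iff₀ hN1] at h5'
  obtain ⟨ε, hε, hF⟩ := hfl r h0 h2
  have hsep' : ∀ k l b, k ≠ l → 2 * r < ‖(hd L Q hsm).core k b - (hd L Q hsm).core l b‖ :=
    fun k l b h => lt_of_lt_of_le (by linarith) (hsep k l b h)
  have hbd' : ∀ k b, ‖(hd L Q hsm).core k b‖ + r < max (R0 + r + 1) 1 :=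
    fun k b => lt_max_of_lt_left (by linarith [hbd k b])
  refine ⟨_, ?_, isLink_of_fl L Q hsm F h0 (by linarith) hε hSg hVm hSg0 hVm0 (by linarith) hκ21
    (by linarith) hsep' hbd' (lt_max_of_lt_right one_pos) hF⟩
  exact HasMat_652.hasMat (hd L Q hsm) _ (fun _ _ _ => rfl) (fun _ _ _ => rfl)

end Crest.Agent.R267.EndI_864
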