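import Crest.Agent.R267.GlueDefs_322
import Crest.Agent.R267.Calc_957

/-!
# Row 267 (helper322): GLUE, basic facts (homogeneity, positivity of the gauges)
-/

set_option autoImplicit false

noncomputable section

open Finset
open Crest.Agent.R267.T3aDefs_957 Crest.Agent.R267.GlueDefs_322 Crest.Agent.R267.Calc_957

namespace Crest.Agent.R267.GlBas_322

/-! ### gauges -/

theorem gq_smul {K A B r : ℝ} (hr : 0 < r) : gq K (r * A) (r * B) = r * gq K A B := by
  unfold gq
  have h1 : max 0 (r * B - K ^ 2 * (r * A)) = r * max 0 (B - K ^ 2 * A) := by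
    rw [mul_max_of_nonneg _ _ hr.le, mul_zero]
    congr 1
    ring
  rw [h1]
  by_cases h : (A + B) = 0
  · have h2 : r * A + r * B = 0 := by rw [← mul_add, h, mul_zero]
    rw [h2, h]
    simp
  · have h2 : r * A + r * B ≠ 0 := by rw [← mul_add]; exact mul_ne_zero hr.ne' h
    have h3 : 3 * K ^ 2 + 3 ≠ 0 := by positivity
    field_simp

theorem gq_nonneg {K A B : ℝ} (hA : 0 ≤ A) : 0 ≤ gq K A B := by
  unfold gq; positivity

theorem gq_pos {K A B : ℝ} (hA : 0 ≤ A) (hB : 0 ≤ B) (h : A ≠ 0 ∨ B ≠ 0) : 0 < gq K A B := by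
  rcases hA.lt_or_eq with hA | hA
  · unfold gq; positivity
  · subst hA
    have hB' : 0 < B := lt_of_le_of_ne hB (Ne.symm (h.resolve_left (by simp)))
    unfold gq
    have : max 0 (B - K ^ 2 * 0) = B := by rw [mul_zero, sub_zero, max_eq_right hB]
    rw [this]
    positivity

theorem gq_window {K A B : ℝ} (h : B ≤ K ^ 2 * A) : gq K A B = A := by
  unfold gq
  rw [max_eq_left (by linarith)]
  simp

theorem pg_smul {K r : ℝ} (hr : 0 < r) (z : ℂ) : pg K ((r : ℂ) * z) = r * pg K z := by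
  unfold pg
  rw [Complex.re_ofReal_mul, Complex.im_ofReal_mul, mul_pow, mul_pow, gq_smul (by positivity),
    Real.sqrt_mul (by positivity), Real.sqrt_sq hr.le]

theorem pg_real_smul {K r : ℝ} (hr : 0 < r) (z : ℂ) : pg K (r • z) = r * pg K z := by
  rw [Complex.real_smul, pg_smul hr]

theorem pg_zero (K : ℝ) : pg K 0 = 0 := by
  unfold pg gq
  simp

theorem pg_nonneg (K : ℝ) (z : ℂ) : 0 ≤ pg K z := Real.sqrt_nonneg _

theorem pg_pos {K : ℝ} {z : ℂ} (hz : z ≠ 0) : 0 < pg K z := by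
  refine Real.sqrt_pos.2 (gq_pos (sq_nonneg _) (sq_nonneg _) ?_)
  by_contra h
  push Not at h
  exact hz (Complex.ext (by simpa using h.1) (by simpa using h.2))

theorem pg_window {K : ℝ} {z : ℂ} (hK : 0 ≤ K) (h : |z.im| ≤ K * |z.re|) : pg K z = |z.re| := by
  unfold pg
  rw [gq_window, Real.sqrt_sq_eq_abs]
  rw [← sq_abs z.im, ← sq_abs z.re, ← mul_pow]
  exact pow_le_pow_left₀ (abs_nonneg _) h 2

section NN

variable {N : ℕ}

theorem NN_smul {K r : ℝ} (hr : 0 < r) (z : Fin N → ℂ) : NN K (r • z) = r * NN K z := by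
  unfold NN
  have h1 : ∑ j, ((r • z) j).re ^ 2 = r ^ 2 * ∑ j, (z j).re ^ 2 := by
    rw [Finset.mul_sum]
    refine Finset.sum_congr rfl fun j _ => ?_
    rw [Pi.smul_apply, Complex.real_smul, Complex.re_ofReal_mul, mul_pow]
  have h2 : ∑ j, ((r • z) j).im ^ 2 = r ^ 2 * ∑ j, (z j).im ^ 2 := by
    rw [Finset.mul_sum]
    refine Finset.sum_congr rfl fun j _ => ?_
    rw [Pi.smul_apply, Complex.real_smul, Complex.im_ofReal_mul, mul_pow]
  rw [h1, h2, gq_smul (by positivity), Real.sqrt_mul (by positivity), Real.sqrt_sq hr.le]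

theorem NN_nonneg (K : ℝ) (z : Fin N → ℂ) : 0 ≤ NN K z := Real.sqrt_nonneg _

theorem NN_zero (K : ℝ) : NN K (0 : Fin N → ℂ) = 0 := by
  unfold NN gq
  simp

theorem NN_pos {K : ℝ} {z : Fin N → ℂ} (hz : z ≠ 0) : 0 < NN K z := by
  refine Real.sqrt_pos.2 (gq_pos (Finset.sum_nonneg fun j _ => sq_nonneg _)
    (Finset.sum_nonneg fun j _ => sq_nonneg _) ?_)
  by_contra h
  push Not at h
  apply hz
  funext j
  have h1 := (Finset.sum_eq_zero_iff_of_nonneg fun j (_ : j ∈ univ) => sq_nonneg (z j).re).1 h.1 j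
    (mem_univ _)
  have h2 := (Finset.sum_eq_zero_iff_of_nonneg fun j (_ : j ∈ univ) => sq_nonneg (z j).im).1 h.2 j
    (mem_univ _)
  exact Complex.ext (by simpa using h1) (by simpa using h2)

end NN

/-! ### the planar function -/

theorem pl_smul {ga : ℝ} {M : ℕ} {r : ℝ} (hr : 0 < r) (z : ℂ) :
    pl ga M ((r : ℂ) * z) = (r : ℂ) * pl ga M z := by
  unfold pl
  rw [Complex.re_ofReal_mul, Complex.im_ofReal_mul]
  have h1 : r * z.im / (r * z.re) = z.im / z.re := mul_div_mul_left _ _ hr.ne'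
  rw [h1]
  by_cases h : 0 < z.re
  · rw [if_pos h, if_pos (mul_pos hr h)]
    push_cast
    ring
  · rw [if_neg h, if_neg (by rw [mul_pos_iff_of_pos_left hr]; exact h)]
    push_cast
    ring

theorem pl_real_smul {ga : ℝ} {M : ℕ} {r : ℝ} (hr : 0 < r) (z : ℂ) :
    pl ga M (r • z) = r • pl ga M z := by
  rw [Complex.real_smul, pl_smul hr, Complex.real_smul]

theorem pl_zero (ga : ℝ) (M : ℕ) : pl ga M 0 = 0 := by
  simp [pl]

/-! ### `Gx` -/

section Gx

variable {N : ℕ} (D : LD N)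

theorem xr_smul {r : ℝ} (hr : 0 < r) (z : Fin N → ℂ) (j : Fin N) :
    D.xr (r • z) j = D.xr z j := by
  unfold LD.xr
  rw [NN_smul hr, Pi.smul_apply, pg_real_smul hr]
  exact mul_div_mul_left _ _ hr.ne'

theorem xr_nonneg (z : Fin N → ℂ) (j : Fin N) : 0 ≤ D.xr z j :=
  div_nonneg (pg_nonneg _ _) (NN_nonneg _ _)

theorem Rx_smul (X : ℝ → ℝ) {r : ℝ} (hr : 0 < r) (z : Fin N → ℂ) (j : Fin N) :
    Rx D X (r • z) j = r * Rx D X z j := by
  unfold Rx
  rw [xr_smul D hr, Pi.smul_apply, Complex.real_smul, Complex.re_ofReal_mul]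
  have : max 0 (r * (z j).re) = r * max 0 (z j).re := by
    rw [mul_max_of_nonneg _ _ hr.le, mul_zero]
  rw [this]
  ring

theorem Bx_smul (X : ℝ → ℝ) {r : ℝ} (hr : 0 < r) (e : Fin N × Fin N × ℕ) (z : Fin N → ℂ) :
    Bx D X e (r • z) = r * Bx D X e z := by
  unfold Bx
  rw [Rx_smul D X hr, Rx_smul D X hr]
  have h1 : ∀ j, ((r • z) j).im / ((r • z) j).re = (z j).im / (z j).re := by
    intro j
    rw [Pi.smul_apply, Complex.real_smul, Complex.re_ofReal_mul, Complex.im_ofReal_mul]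
    exact mul_div_mul_left _ _ hr.ne'
  rw [h1, h1, ← mul_add, mul_mul_mul_comm, mul_div_mul_comm]
  have h2 : r * r / r = r := by field_simp
  rw [h2]
  ring

theorem Gx_smul (X : ℝ → ℝ) (cB ga : ℝ) {r : ℝ} (hr : 0 < r) (z : Fin N → ℂ) :
    Gx D X cB ga (r • z) = r • Gx D X cB ga z := by
  unfold Gx
  have h1 : ∀ j, (X (D.xr (r • z) j) : ℂ) * pl ga (D.M j) ((r • z) j) =
      (r : ℂ) * ((X (D.xr z j) : ℂ) * pl ga (D.M j) (z j)) := by
    intro j
    rw [xr_smul D hr, Pi.smul_apply, pl_real_smul hr, Complex.real_smul]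
    ring
  simp only [h1, Bx_smul D X hr, ← Finset.mul_sum, Complex.real_smul]
  push_cast
  ring

/-- `F8 = NN⁷ Gx (x⁷)` -/
theorem F8_eq (cB ga : ℝ) (z : Fin N → ℂ) :
    F8 D.K cB ga D.M D.C z = ((NN D.K1 z ^ 7 : ℝ) : ℂ) * Gx D (fun x => x ^ 7) cB ga z := by
  by_cases hz : z = 0
  · subst hz
    have h1 : ∀ j, P8 D.K ga (D.M j) ((0 : Fin N → ℂ) j) = 0 := by
      intro j
      unfold P8
      rw [Pi.zero_apply, pl_zero, mul_zero]
    have h2 : ∀ e : Fin N × Fin N × ℕ, H8 D.K e.2.2 (D.M e.1) (D.M e.2.1) ((0 : Fin N → ℂ) e.1)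
        ((0 : Fin N → ℂ) e.2.1) = 0 := by
      intro e
      unfold H8 rho
      simp
    unfold F8
    simp only [h1, h2]
    rw [NN_zero]
    simp
  · have hN : 0 < NN D.K1 z := NN_pos hz
    have hx : ∀ j, pg D.K (z j) = D.xr z j * NN D.K1 z := by
      intro j
      unfold LD.xr
      rw [div_mul_cancel₀ _ hN.ne']
    have h1 : ∀ j, P8 D.K ga (D.M j) (z j) =
        ((NN D.K1 z ^ 7 : ℝ) : ℂ) * (((D.xr z j ^ 7 : ℝ) : ℂ) * pl ga (D.M j) (z j)) := by
      intro j
      unfold P8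
      rw [hx, mul_pow]
      push_cast
      ring
    have h3 : ∀ j, rho D.K (z j) = NN D.K1 z ^ 7 * Rx D (fun x => x ^ 7) z j := by
      intro j
      unfold rho Rx
      rw [hx, mul_pow]
      ring
    have h2 : ∀ e : Fin N × Fin N × ℕ, H8 D.K e.2.2 (D.M e.1) (D.M e.2.1) (z e.1) (z e.2.1) =
        NN D.K1 z ^ 7 * Bx D (fun x => x ^ 7) e z := by
      intro e
      unfold H8 Bx
      rw [h3, h3, ← mul_add, mul_mul_mul_comm, mul_div_mul_comm]
      have h4 : NN D.K1 z ^ 7 * NN D.K1 z ^ 7 / NN D.K1 z ^ 7 = NN D.K1 z ^ 7 := by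
        field_simp
      rw [h4]
      ring
    unfold F8 Gx
    simp only [h1, h2, ← Finset.mul_sum]
    push_cast
    ring

theorem chi_nonneg (d x : ℝ) : 0 ≤ chi d x := st_nonneg _

theorem chi_mono {d : ℝ} (hd : 0 < d) : Monotone (chi d) := fun x y h =>
  st_mono (div_le_div_of_nonneg_right (by linarith) hd.le)

theorem continuous_chi (d : ℝ) : Continuous (chi d) := by
  unfold chi
  exact contDiff_st.continuous.comp ((continuous_id.sub continuous_const).div_const _)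

theorem prf_pow : Prf fun x : ℝ => x ^ 7 where
  cont := continuous_pow 7
  pos := fun x hx => by positivity
  mono := fun x hx y _ h => pow_le_pow_left₀ hx h 7

theorem prf_Xe {d η : ℝ} (hd : 0 < d) (hη : 0 < η) : Prf (Xe d η) where
  cont := (continuous_chi d).add (continuous_const.mul (continuous_pow 7))
  pos := fun x hx => by
    unfold Xe
    have := chi_nonneg d x
    positivity
  mono := fun x hx y _ h => by
    unfold Xe
    have h1 := chi_mono hd h
    have h2 := mul_le_mul_of_nonneg_left (pow_le_pow_left₀ hx h 7) hη.le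
    linarith

theorem Xe_zero (d : ℝ) : Xe d 0 = chi d := by
  funext x
  simp [Xe]

end Gx

end Crest.Agent.R267.GlBas_322
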