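import Crest.Agent.R267.EndF_864
import Crest.Agent.R267.EndI_864
import Crest.Agent.R267.GlBas_322

/-!
# Row 267, T3-end: the instance for `LD` (unsigned, for S0407)

Letters `ls D e`, the matrix, the `GF` instance `gf`, `Near`, parameters.
-/

set_option autoImplicit false

namespace Crest.Agent.R267.EndJ_864

open Set Metric Filter Topology Finset
open scoped RealInnerProductSpace
open Crest.Agent.R267.GS_808 Crest.Agent.R267.EndDef_864 Crest.Agent.R267.EndBas_864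
  Crest.Agent.R267.EndG_864 Crest.Agent.R267.EndH_864 Crest.Agent.R267.EndF_864
  Crest.Agent.R267.EndI_864 Crest.Agent.R267.T3aDefs_957

variable {n m : ℕ}

/-! ### the letters -/

section letters

variable (D : LD (n + 3)) (e : Fin m ≃ {k : Fin (n + 3) → ℕ // D.Let k})

lemma exists_enum : ∃ m : ℕ, Nonempty (Fin m ≃ {k : Fin (n + 3) → ℕ // D.Let k}) := by
  have h : Finite {k : Fin (n + 3) → ℕ // D.Let k} := by
    refine Finite.of_injective (β := (j : Fin (n + 3)) → Fin (D.M j))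
      (fun k j => ⟨k.1 j, k.2.1 j⟩) ?_
    intro k k' hkk
    refine Subtype.ext (funext fun j => ?_)
    exact Fin.mk.inj (congrFun hkk j)
  exact ⟨_, ⟨(Finite.equivFin _).symm⟩⟩

lemma M_le_Mx (j : Fin (n + 3)) : D.M j ≤ D.Mx :=
  Finset.single_le_sum (f := D.M) (fun _ _ => Nat.zero_le _) (Finset.mem_univ j)

lemma let_le (a : Fin m) (j : Fin (n + 3)) : ((e a).1 j : ℝ) + 1 ≤ D.M j := by
  exact_mod_cast (e a).2.1 j

lemma abs_sg_sub_le (a b : Fin m) (j : Fin (n + 3)) :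
    |sg ((e a).1 j) - sg ((e b).1 j)| ≤ 8 * D.Mx := by
  have h1 := let_le D e a j
  have h2 := let_le D e b j
  have h3 : (D.M j : ℝ) ≤ D.Mx := by exact_mod_cast M_le_Mx D j
  have h4 : (0 : ℝ) ≤ ((e a).1 j : ℝ) := Nat.cast_nonneg _
  have h5 : (0 : ℝ) ≤ ((e b).1 j : ℝ) := Nat.cast_nonneg _
  unfold sg
  rw [abs_le]
  constructor <;> linarith

lemma eight_le {i j : ℕ} (h : sg i ≠ sg j) : 8 ≤ |sg i - sg j| := by
  have hij : i ≠ j := fun h' => h (by rw [h'])
  rcases lt_or_gt_of_ne hij with h1 | h1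
  · have : (i : ℝ) + 1 ≤ j := by exact_mod_cast h1
    rw [abs_sub_comm]
    refine le_trans ?_ (le_abs_self _)
    unfold sg
    linarith
  · have : (j : ℝ) + 1 ≤ i := by exact_mod_cast h1
    refine le_trans ?_ (le_abs_self _)
    unfold sg
    linarith

lemma sg_le_iff {i j : ℕ} : sg i ≤ sg j ↔ i ≤ j := by
  unfold sg
  rw [add_le_add_iff_right, mul_le_mul_iff_right₀ (by norm_num : (0 : ℝ) < 8), Nat.cast_le]

lemma sg_lt_iff {i j : ℕ} : sg i < sg j ↔ i < j := by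
  rw [← not_le, sg_le_iff, not_le]

lemma sg_inj {i j : ℕ} (h : sg i = sg j) : i = j :=
  le_antisymm (sg_le_iff.1 h.le) (sg_le_iff.1 h.ge)

lemma sg_nonneg (i : ℕ) : 0 ≤ sg i := by unfold sg; positivity

/-- tilt. -/
noncomputable def del : ℝ := 1 / ((n + 3) * (D.Mx + 1))

lemma del_pos : 0 < del D := by unfold del; positivity

/-- **the letters**. -/
noncomputable def ls : LS n m where
  sg a j := sg ((e a).1 j)
  V a j := sg ((e a).1 j) + del D * ∑ i, sg ((e a).1 i)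
  neg _ _ := false
  ray _ _ _ _ := rfl
  hV k l j h := by
    have h1 := eight_le h
    have h2 : |del D * (∑ i, sg ((e k).1 i) - ∑ i, sg ((e l).1 i))| < 8 := by
      rw [abs_mul, abs_of_pos (del_pos D), ← Finset.sum_sub_distrib]
      have h3 : |∑ i, (sg ((e k).1 i) - sg ((e l).1 i))| ≤ (n + 3) * (8 * D.Mx) := by
        refine (Finset.abs_sum_le_sum_abs _ _).trans
          ((Finset.sum_le_sum fun i _ => abs_sg_sub_le D e k l i).trans ?_)
        rw [Finset.sum_const, Finset.card_univ, Fintype.card_fin, nsmul_eq_mul]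
        push_cast
        exact le_rfl
      refine (mul_le_mul_of_nonneg_left h3 (del_pos D).le).trans_lt ?_
      unfold del
      rw [div_mul_eq_mul_div, div_lt_iff₀ (by positivity)]
      have : (0 : ℝ) < n + 3 := by positivity
      nlinarith
    set x := sg ((e k).1 j) - sg ((e l).1 j) with hx
    have e1 : sg ((e k).1 j) + del D * ∑ i, sg ((e k).1 i) -
        (sg ((e l).1 j) + del D * ∑ i, sg ((e l).1 i)) =
        x + del D * (∑ i, sg ((e k).1 i) - ∑ i, sg ((e l).1 i)) := by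
      rw [hx]
      ring
    rw [e1]
    set y := del D * (∑ i, sg ((e k).1 i) - ∑ i, sg ((e l).1 i)) with hy
    have h3 : |x * y| < |x| * |x| := by
      rw [abs_mul]
      exact mul_lt_mul_of_pos_left (h2.trans_le h1) (by linarith)
    have h4 := (abs_lt.1 h3).1
    rw [abs_mul_abs_self] at h4
    nlinarith
  trich k l h := by
    have key : ∀ k l : Fin m, k ≠ l → (∀ j, (e l).1 j ≤ (e k).1 j) →
        Pos (fun a j => sg ((e a).1 j)) (fun a j => sg ((e a).1 j) + del D * ∑ i, sg ((e a).1 i))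
          (fun _ _ => false) k l := by
      intro k l h h1
      have h2 : ∃ j, (e l).1 j < (e k).1 j := by
        by_contra h3
        push Not at h3
        apply h
        refine e.injective (Subtype.ext (funext fun j => le_antisymm (h3 j) (h1 j)))
      refine ⟨fun j => sg_le_iff.2 (h1 j), ?_, fun j => ?_, fun _ _ => rfl⟩
      · obtain ⟨j, hj⟩ := h2
        exact ⟨j, sg_lt_iff.2 hj⟩
      · have h3 : ∑ i, sg ((e l).1 i) < ∑ i, sg ((e k).1 i) := by
          obtain ⟨i, hi⟩ := h2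
          exact Finset.sum_lt_sum (fun i _ => sg_le_iff.2 (h1 i))
            ⟨i, Finset.mem_univ _, sg_lt_iff.2 hi⟩
        have h4 := sg_le_iff.2 (h1 j)
        have h5 := mul_lt_mul_of_pos_left h3 (del_pos D)
        show sg ((e l).1 j) + del D * ∑ i, sg ((e l).1 i) <
          sg ((e k).1 j) + del D * ∑ i, sg ((e k).1 i)
        linarith
    by_cases h1 : ∀ j, (e l).1 j ≤ (e k).1 j
    · exact Or.inl (key k l h h1)
    by_cases h2 : ∀ j, (e k).1 j ≤ (e l).1 j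
    · exact Or.inr (Or.inl (key l k h.symm h2))
    push Not at h1 h2
    obtain ⟨j, hj⟩ := h1
    obtain ⟨i, hi⟩ := h2
    exact Or.inr (Or.inr (Or.inl (Or.inl ⟨i, j, sg_lt_iff.2 hi, sg_lt_iff.2 hj⟩)))

lemma ls_sg (a : Fin m) (j : Fin (n + 3)) : (ls D e).sg a j = sg ((e a).1 j) := rfl

lemma ls_gap (k l : Fin m) (j : Fin (n + 3)) (h : (ls D e).sg k j ≠ (ls D e).sg l j) :
    1 ≤ |(ls D e).sg k j - (ls D e).sg l j| := by
  have := eight_le h
  rw [ls_sg, ls_sg]
  linarith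

lemma exists_Vm : ∃ Vm : ℝ, 0 ≤ Vm ∧ ∀ k, ‖vec (n := n) ((ls D e).V k)‖ ≤ Vm := by
  obtain ⟨M, hM⟩ := (Set.finite_range fun k => ‖vec (n := n) ((ls D e).V k)‖).bddAbove
  exact ⟨max M 0, le_max_right _ _, fun k => (hM ⟨k, rfl⟩).trans (le_max_left _ _)⟩

open Classical in
/-- **the matrix**. -/
lemma mat_eq (Q : Par n) (hsm : ∀ k l j, (ls D e).sg k j ≠ (ls D e).sg l j →
    Q.ep * (‖vec (n := n) ((ls D e).V k)‖ + ‖vec (n := n) ((ls D e).V l)‖) <
      Q.d * |(ls D e).sg k j - (ls D e).sg l j|) :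
    (hd (ls D e) Q hsm).mat =
      Matrix.of fun a b => if ∀ j, (e b).1 j ≤ (e a).1 j then 1 else 0 := by
  ext k l
  rw [Matrix.of_apply]
  unfold HD.mat
  by_cases h : k = l
  · rw [if_pos h, h, if_pos fun j => le_rfl]
    exact if_pos fun j => rfl
  · rw [if_neg h]
    refine if_congr ⟨fun h1 j => sg_le_iff.1 (h1.1 j), fun h1 => ?_⟩ rfl rfl
    rcases (ls D e).trich k l h with h2 | h2 | h2 | h2
    · exact h2
    · obtain ⟨j, hj⟩ := h2.2.1
      exact absurd (sg_le_iff.2 (h1 j)) (not_le.2 hj)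
    · rcases h2 with ⟨i, j, -, hj⟩ | ⟨-, i, j, -, -, -, hj⟩
      · exact absurd (sg_le_iff.2 (h1 j)) (not_le.2 hj)
      · exact absurd hj (by simp [ls])
    · rcases h2 with ⟨i, j, hi, -⟩ | ⟨-, i, j, -, -, -, hj⟩
      · exact absurd (sg_le_iff.2 (h1 i)) (not_le.2 hi)
      · exact absurd hj (by simp [ls])

end letters

/-! ### the function -/

section fn

variable (D : LD (n + 3))

lemma one_le_K1 : 1 ≤ D.K1 := by
  have := Calc3_957.le_K1 D 0
  have h : (0 : ℝ) ≤ D.M 0 := Nat.cast_nonneg _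
  linarith

lemma Be_of_R {d : ℝ} {z : Fin (n + 3) → ℂ} {e : Fin (n + 3) × Fin (n + 3) × ℕ}
    (h : D.R d z e.1 = 0 ∨ D.R d z e.2.1 = 0) : D.Be d e z = 0 := by
  unfold LD.Be
  rcases h with h | h
  · rw [h, zero_mul, zero_div, zero_mul]
  · rw [h, mul_zero, zero_div, zero_mul]

/-- **the `GF` instance**. -/
noncomputable def gf (cB : ℝ) {ga d : ℝ} (hga : 0 < ga) (hga1 : ga ≤ 1) (hd : 0 < d)
    (hdK : 750 * (n + 3) ^ 2 * (D.K + 1) ^ 2 * d < 1) : GF n where
  K1 := D.K1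
  K := D.K
  ga := ga
  d := d
  q j := pl ga (D.M j)
  B z := cB * ga * ∑ e ∈ D.C, D.Be d e z
  hK1 := one_le_K1 D
  hK := Calc3_957.K1_le_K D 0
  hga := hga
  hga1 := hga1
  hd := hd
  hdK := hdK
  q0 j z h := Calc_957.pl_of_nonpos h
  B0 z h := by
    rw [Finset.sum_eq_zero fun e _ => Be_of_R D (Or.inl (Calc3_957.R_of_nonpos D (h e.1))),
      mul_zero]

lemma gf_G (cB : ℝ) {ga d : ℝ} (hga : 0 < ga) (hga1 : ga ≤ 1) (hd : 0 < d)
    (hdK : 750 * (n + 3) ^ 2 * (D.K + 1) ^ 2 * d < 1) :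
    (gf D cB hga hga1 hd hdK).G = D.G cB ga d := rfl

/-- the planar function near a ray. -/
lemma pl_near {ga : ℝ} {M l : ℕ} (hl : l < M) {z : ℂ} (h0 : 0 < z.re)
    (h : |z.im - sg l * z.re| ≤ z.re) : (pl ga M z).re = ga * z.re ∧
    (pl ga M z).im = z.im - sg l * z.re := by
  have e1 : z.im / z.re - sg l = (z.im - sg l * z.re) / z.re := by
    field_simp
  have h1 : |z.im / z.re - sg l| ≤ 1 := by
    rw [e1, abs_div, abs_of_pos h0, div_le_one h0]
    exact h
  rw [Calc_957.pl_of_pos h0, Calc_957.pv_cell hl (h1.trans (by norm_num)),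
    Calc_957.Af_of_le h1, Calc_957.Bf_of_abs_le h1, Complex.re_ofReal_mul, Complex.im_ofReal_mul]
  constructor
  · simp
    ring
  · simp only [Complex.add_im, Complex.ofReal_im, Complex.mul_im, Complex.I_re, Complex.I_im,
      Complex.ofReal_re, zero_mul, one_mul, zero_add]
    field_simp

lemma R_eq_zero {d : ℝ} {z : Fin (n + 3) → ℂ} {j : Fin (n + 3)}
    (h : (z j).re ≤ 0 ∨ D.ch d z j = 0) : D.R d z j = 0 := by
  unfold LD.R
  rcases h with h | h
  · rw [max_eq_left h, mul_zero]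
  · rw [h, zero_mul]

/-- the couplings vanish near the rays of a letter. -/
lemma Be_near {k : Fin (n + 3) → ℕ} (hk : D.Let k) {d : ℝ} {z : Fin (n + 3) → ℂ}
    (h : ∀ j, (z j).re ≤ 0 ∨ D.ch d z j = 0 ∨ |(z j).im - sg (k j) * (z j).re| ≤ (z j).re)
    {e : Fin (n + 3) × Fin (n + 3) × ℕ} (he : e ∈ D.C) : D.Be d e z = 0 := by
  by_cases h1 : D.R d z e.1 = 0
  · exact Be_of_R D (Or.inl h1)
  by_cases h2 : D.R d z e.2.1 = 0
  · exact Be_of_R D (Or.inr h2)
  have key : ∀ j, D.R d z j ≠ 0 → (z j).im / (z j).re ≤ 8 * (k j : ℝ) + 5 := by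
    intro j hj
    have h3 : 0 < (z j).re := by
      by_contra h4
      exact hj (R_eq_zero D (Or.inl (not_lt.1 h4)))
    rcases h j with h4 | h4 | h4
    · exact absurd h3 (not_lt.2 h4)
    · exact absurd (R_eq_zero D (Or.inr h4)) hj
    · rw [div_le_iff₀ h3]
      have := (abs_le.1 h4).2
      unfold sg at this
      linarith
  unfold LD.Be
  have h3 := hk.2 e he
  by_cases h4 : e.2.2 ≤ k e.1
  · have h5 : k e.2.1 + 1 ≤ D.M e.2.1 - 1 := by
      have h6 := hk.1 e.2.1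
      have h7 : k e.2.1 + 1 ≠ D.M e.2.1 := fun h8 => h3 ⟨h4, h8⟩
      omega
    have h6 : (k e.2.1 : ℝ) + 1 ≤ ((D.M e.2.1 - 1 : ℕ) : ℝ) := by exact_mod_cast h5
    rw [Calc3_957.win_low (m := D.M e.2.1 - 1) (by linarith [key e.2.1 h2]), mul_zero, mul_zero]
  · have h6 : (k e.1 : ℝ) + 1 ≤ (e.2.2 : ℝ) := by exact_mod_cast (not_le.1 h4)
    rw [Calc3_957.win_low (m := e.2.2) (by linarith [key e.1 h1]), zero_mul, mul_zero]

/-- **near the rays**. -/
lemma near (e : Fin m ≃ {k : Fin (n + 3) → ℕ // D.Let k}) (cB : ℝ) {ga d : ℝ} (hga : 0 < ga)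
    (hga1 : ga ≤ 1) (hd : 0 < d) (hdK : 750 * (n + 3) ^ 2 * (D.K + 1) ^ 2 * d < 1) :
    GF.Near (gf D cB hga hga1 hd hdK) (ls D e) (D.K1 - 1) where
  sgK k j := by
    have h1 := let_le D e k j
    have h2 := Calc3_957.le_K1 D j
    rw [ls_sg, abs_of_nonneg (sg_nonneg _)]
    unfold sg
    linarith
  Sg0 := by
    have := one_le_K1 D
    linarith
  K1S := by
    show D.K1 - 1 + 1 ≤ D.K1
    linarith
  qr k j z h0 h := by
    have h1 := pl_near (ga := ga) ((e k).2.1 j) h0 h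
    refine ⟨h1.1, h1.2.trans ?_⟩
    show _ = (if false = true then (-1 : ℝ) else 1) * _
    simp [ls_sg]
  Bt k z h := by
    show cB * ga * ∑ e ∈ D.C, D.Be d e z = 0
    rw [Finset.sum_eq_zero fun c hc => Be_near D (d := d) (e k).2 h hc, mul_zero]

/-! ### parameters -/

/-- bound of `d`. -/
noncomputable def dJ : ℝ := 1 / (751 * (n + 3) ^ 2 * (D.K + 1) ^ 2)

lemma K_nonneg : 0 ≤ D.K := Calc3_957.K_nonneg D

lemma dJ_pos : 0 < dJ D := by
  have := K_nonneg D
  unfold dJ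
  positivity

lemma hdK_of {d : ℝ} (hd : 0 < d) (h : d ≤ dJ D) : 750 * (n + 3) ^ 2 * (D.K + 1) ^ 2 * d < 1 := by
  have h1 := K_nonneg D
  have h2 : 0 < 751 * ((n : ℝ) + 3) ^ 2 * (D.K + 1) ^ 2 := by positivity
  unfold dJ at h
  rw [le_div_iff₀ h2] at h
  have h3 : 0 < ((n : ℝ) + 3) ^ 2 * (D.K + 1) ^ 2 * d := by positivity
  nlinarith

lemma hdN_of {d : ℝ} (hd : 0 < d) (h : d ≤ dJ D) : d ^ 2 * (n + 3) < 1 := by
  have h1 := K_nonneg D
  have h2 := hdK_of D hd h
  have h3 : (3 : ℝ) ≤ n + 3 := by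
    have : (0 : ℝ) ≤ n := Nat.cast_nonneg n
    linarith
  have h4 : 1 ≤ (D.K + 1) ^ 2 := by nlinarith
  have h5 : (n + 3 : ℝ) * d ≤ (n + 3) ^ 2 * (D.K + 1) ^ 2 * d := by
    have : (n + 3 : ℝ) ≤ (n + 3) ^ 2 * (D.K + 1) ^ 2 := by nlinarith
    exact mul_le_mul_of_nonneg_right this hd.le
  have h6 : (n + 3 : ℝ) * d < 1 := by nlinarith
  have h7 : d < 1 := by nlinarith
  nlinarith

end fn

end Crest.Agent.R267.EndJ_864
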