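import Crest.Agent.R267.K2c_867
import Crest.Agent.R267.Calc4_957

/-!
# K2 of T3a in the region II (`|t| ≤ K1 |s|`)
-/

set_option autoImplicit false

noncomputable section

open Finset

namespace Crest.Agent.R267.K2II_867

open Crest.Agent.R267.LemL_951 Crest.Agent.R267.T3aDefs_957 Crest.Agent.R267.Calc_957
  Crest.Agent.R267.Calc2_957 Crest.Agent.R267.Calc3_957 Crest.Agent.R267.Calc4_957
  Crest.Agent.R267.K2b_867 Crest.Agent.R267.K2c_867

variable {N : ℕ} (D : LD N) (cB ga d : ℝ) (z : Fin N → ℂ)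

/-- the point. -/
def mk : Pt N where
  D := D
  cB := cB
  ga := ga
  d := d
  z := z
  ps := fun j => ps D.K (z j)
  pt := fun j => pt D.K (z j)

variable {D} {cB ga d} {z}

theorem nu_eq : (mk D cB ga d z).nu = √(AA z) := rfl

theorem x_eq (h : II D z) (j : Fin N) : (mk D cB ga d z).x j = D.xr z j := by
  unfold Pt.x LD.xr
  rw [h.NN, nu_eq]
  rfl

theorem X_eq (h : II D z) (j : Fin N) : (mk D cB ga d z).X j = D.ch d z j := by
  unfold Pt.X LD.ch
  rw [x_eq h]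
  rfl

theorem cd_eq (h : II D z) (j : Fin N) : (mk D cB ga d z).cd j = chid d (D.xr z j) := by
  unfold Pt.cd chid
  rw [x_eq h]
  rfl

theorem S_eq : (mk D cB ga d z).S = S z := by
  unfold Pt.S S
  rw [sum_div]
  rfl

theorem rho_eq (h : II D z) (j : Fin N) : (mk D cB ga d z).rho j = rho D d z j := by
  unfold Pt.rho rho
  rw [x_eq h, X_eq h, cd_eq h, S_eq]

theorem Rr_eq (h : II D z) (j : Fin N) : (mk D cB ga d z).Rr j = D.R d z j := by
  unfold Pt.Rr LD.R
  rw [X_eq h]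
  rfl

theorem hh_eq (h : II D z) (e : (mk D cB ga d z).Ed) :
    (mk D cB ga d z).hh e = hh D d z e.1 := by
  unfold Pt.hh hh
  rw [Rr_eq h, Rr_eq h]
  rfl

theorem Be_eq' (h : II D z) (e : (mk D cB ga d z).Ed) :
    (mk D cB ga d z).hh e * ((mk D cB ga d z).la e * (mk D cB ga d z).be e) = D.Be d e.1 z := by
  rw [hh_eq h, Be_eq]
  rfl

theorem h1_eq (h : II D z) (e : (mk D cB ga d z).Ed) :
    (mk D cB ga d z).h1 e = h1 D d z e.1 := by
  unfold Pt.h1 h1
  rw [Rr_eq h, Rr_eq h]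
  rfl

theorem h2_eq (h : II D z) (e : (mk D cB ga d z).Ed) :
    (mk D cB ga d z).h2 e = h2 D d z e.1 := by
  unfold Pt.h2 h2
  rw [Rr_eq h, Rr_eq h]
  rfl

theorem la_eq (e : (mk D cB ga d z).Ed) : (mk D cB ga d z).la e = la D z e.1 := rfl

theorem be_eq (e : (mk D cB ga d z).Ed) : (mk D cB ga d z).be e = be D z e.1 := rfl

theorem lad_eq (e : (mk D cB ga d z).Ed) : (mk D cB ga d z).lad e = lad D z e.1 := rfl

theorem bed_eq (e : (mk D cB ga d z).Ed) : (mk D cB ga d z).bed e = bed D z e.1 := rfl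

theorem tB_eq (h : II D z) (j : Fin N) : (mk D cB ga d z).tB j = tB D cB ga d z j := by
  classical
  unfold Pt.tB tB
  rw [← sum_coe_sort D.C]
  refine congrArg (fun x => cB * ga * x) (sum_congr rfl fun e _ => ?_)
  rw [hh_eq h, la_eq, be_eq, lad_eq, bed_eq]
  have e1 : (mk D cB ga d z).src e = e.1.1 := rfl
  have e2 : (mk D cB ga d z).tgt e = e.1.2.1 := rfl
  rw [e1, e2, mul_add, mul_ite, mul_zero, mul_ite, mul_zero]
  have e3 : (mk D cB ga d z).z j = z j := rfl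
  rw [e3]
  congr 1
  · by_cases h1 : e.1.1 = j
    · rw [if_pos h1, if_pos h1]; ring
    · rw [if_neg h1, if_neg h1]
  · by_cases h1 : e.1.2.1 = j
    · rw [if_pos h1, if_pos h1]; ring
    · rw [if_neg h1, if_neg h1]

theorem HB_eq (h : II D z) (j : Fin N) : (mk D cB ga d z).HB j = HB D cB ga d z j := by
  classical
  unfold Pt.HB HB
  rw [← sum_coe_sort D.C]
  refine congrArg (fun x => cB * ga * x) (sum_congr rfl fun e _ => ?_)
  rw [h1_eq h, h2_eq h, la_eq, be_eq]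
  have e1 : (mk D cB ga d z).src e = e.1.1 := rfl
  have e2 : (mk D cB ga d z).tgt e = e.1.2.1 := rfl
  rw [e1, e2]

theorem Wp_iff (j : Fin N) : (mk D cB ga d z).Wp j ↔ 0 < (z j).re ∧ Wd D z j := by
  unfold Pt.Wp Wd
  constructor
  · intro h
    have h1 : 0 < (z j).re := h.1
    refine ⟨h1, ?_⟩
    rw [abs_of_pos h1]
    exact h.2
  · intro h
    refine ⟨h.1, ?_⟩
    have h2 := h.2
    rw [abs_of_pos h.1] at h2
    exact h2

theorem hP : (mk D cB ga d z).HP := by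
  intro j
  refine ⟨pt_mul_nonneg _ _, ?_, fun h => ?_⟩
  · by_cases hj : z j = 0
    · have e1 : (mk D cB ga d z).z j = 0 := hj
      rw [e1, pg_zero]
      simp
    · exact pg_euler _ hj
  · by_contra h1
    exact h (pt_of_le (K_nonneg D) (not_lt.1 h1))

/-- a steep variable is on the first or last line. -/
theorem steep {j : Fin N} (h0 : 0 < (z j).re) (hW : ¬ Wd D z j) (ga : ℝ) :
    pvd (D.M j) ((z j).im / (z j).re) = -Complex.I ∧
      pv ga (D.M j) ((z j).im / (z j).re) =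
        -((2 - ga : ℝ) : ℂ) - Complex.I * (((z j).im / (z j).re : ℝ) : ℂ) := by
  have h1 := le_K D j
  unfold Wd at hW
  rw [not_le, abs_of_pos h0] at hW
  have h2 : (8 * (D.M j : ℝ) + 1) * (z j).re < |(z j).im| := by nlinarith
  rcases le_total 0 (z j).im with h3 | h3
  · rw [abs_of_nonneg h3] at h2
    have h4 : 8 * (D.M j : ℝ) + 1 ≤ (z j).im / (z j).re := by
      rw [le_div_iff₀ h0]; exact h2.le
    rw [pvd_high (by linarith), pv_high (by linarith), st_of_ge (by linarith),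
      std_of_ge (by linarith)]
    constructor
    · simp
    · push_cast
      ring
  · have h4 : (z j).im / (z j).re ≤ 1 :=
      (div_nonpos_of_nonpos_of_nonneg h3 h0.le).trans zero_le_one
    rw [pvd_low h4, pv_low h4]
    exact ⟨rfl, rfl⟩

theorem pa_off {j : Fin N} (hW : ¬ (0 < (z j).re ∧ Wd D z j)) (ga : ℝ) :
    pa ga (D.M j) (z j) = -((2 - ga : ℝ) : ℂ) ∧ pb (D.M j) (z j) = -Complex.I := by
  unfold pa pb
  rcases le_or_gt (z j).re 0 with h | h
  · rw [if_neg (not_lt.2 h), if_neg (not_lt.2 h)]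
    exact ⟨rfl, rfl⟩
  · rw [if_pos h, if_pos h]
    obtain ⟨h1, h2⟩ := steep h (fun hh => hW ⟨h, hh⟩) ga
    rw [h1, h2]
    refine ⟨?_, rfl⟩
    ring

theorem tB_off {j : Fin N} (hW : ¬ (0 < (z j).re ∧ Wd D z j)) : tB D cB ga d z j = 0 := by
  classical
  unfold tB
  rw [sum_eq_zero, mul_zero]
  intro e _
  by_cases h1 : e.1 = j
  · by_cases h2 : e.2.1 = j
    · rcases le_or_gt (z j).re 0 with h | h
      · rw [hh_of_left (by rw [h1]; exact h), zero_mul]
      · have h3 : ¬ Wd D z j := fun hh => hW ⟨h, hh⟩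
        rw [(steep_left (e := e) (by rw [h1]; exact h) (by rw [h1]; exact h3)).2,
          (steep_right (e := e) (by rw [h2]; exact h) (by rw [h2]; exact h3)).2]
        simp
    · rw [if_pos h1, if_neg h2]
      rcases le_or_gt (z j).re 0 with h | h
      · rw [hh_of_left (by rw [h1]; exact h), zero_mul]
      · have h3 : ¬ Wd D z j := fun hh => hW ⟨h, hh⟩
        rw [(steep_left (e := e) (by rw [h1]; exact h) (by rw [h1]; exact h3)).2]
        simp
  · by_cases h2 : e.2.1 = j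
    · rw [if_neg h1, if_pos h2]
      rcases le_or_gt (z j).re 0 with h | h
      · rw [hh_of_right (by rw [h2]; exact h), zero_mul]
      · have h3 : ¬ Wd D z j := fun hh => hW ⟨h, hh⟩
        rw [(steep_right (e := e) (by rw [h2]; exact h) (by rw [h2]; exact h3)).2]
        simp
    · rw [if_neg h1, if_neg h2]
      simp

/-- **the derivative along `i e_j`.** -/
theorem w_eq (h : II D z) (j : Fin N) :
    dG D cB ga d z (LD.vt (Pi.single j (1 : ℝ))) = (mk D cB ga d z).w j := by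
  classical
  rw [dG_apply, h.sum_dBe_vt]
  have e1 : ∀ i : Fin N, dT D ga d z i (LD.vt (Pi.single j (1 : ℝ))) =
      if i = j then ((chid d (D.xr z j) * (pt D.K (z j) / √(AA z)) : ℝ) : ℂ) *
        pl ga (D.M j) (z j) + (D.ch d z j : ℂ) * pb (D.M j) (z j) else 0 := by
    intro i
    rw [dT_apply, h.dch_vt, vt_re, vt_im, Pi.single_apply]
    by_cases hi : i = j
    · subst hi
      rw [if_pos rfl, if_pos rfl]
      push_cast
      ring
    · rw [if_neg hi, if_neg hi]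
      simp
  rw [sum_congr rfl fun i _ => e1 i, sum_ite_eq' univ j, if_pos (mem_univ _)]
  unfold Pt.w
  by_cases hW : 0 < (z j).re ∧ Wd D z j
  · rw [if_pos ((Wp_iff j).2 hW), tB_eq h, X_eq h, pt_of_le (K_nonneg D) hW.2]
    have e2 : pb (D.M j) (z j) = pvd (D.M j) ((z j).im / (z j).re) := if_pos hW.1
    rw [e2]
    have e3 : (mk D cB ga d z).ta j = (z j).im / (z j).re := rfl
    have e4 : (mk D cB ga d z).D = D := rfl
    rw [e3, e4]
    simp
  · rw [if_neg (fun hh => hW ((Wp_iff j).1 hh)), tB_off hW, (pa_off hW ga).2, X_eq h, cd_eq h]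
    have e4 : (mk D cB ga d z).D = D := rfl
    have e5 : (mk D cB ga d z).z j = z j := rfl
    have e6 : (mk D cB ga d z).pt j = pt D.K (z j) := rfl
    have e7 : (mk D cB ga d z).ga = ga := rfl
    rw [e4, e5, e6, e7, nu_eq]
    push_cast
    ring

/-- **the derivative along `-(1, …, 1)`.** -/
theorem w0_eq (h : II D z) (hz : z ≠ 0) :
    dG D cB ga d z (LD.vs 1 0) = (mk D cB ga d z).w0 := by
  classical
  rw [dG_apply, h.sum_dBe_vs hz]
  unfold Pt.w0
  rw [Complex.ofReal_sum, ← sum_sub_distrib]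
  refine sum_congr rfl fun j _ => ?_
  rw [dT_apply, h.dch_vs, vs_re, vs_im]
  unfold Pt.w0j
  have hnu := h.sqrt_pos hz
  by_cases hW : 0 < (z j).re ∧ Wd D z j
  · rw [if_pos hW, if_pos ((Wp_iff j).2 hW), rho_eq h, HB_eq h]
    unfold Pt.w
    rw [if_pos ((Wp_iff j).2 hW), tB_eq h, X_eq h]
    have e3 : (mk D cB ga d z).ta j = tau z j := rfl
    have e4 : (mk D cB ga d z).D = D := rfl
    have e5 : (mk D cB ga d z).pj j = pv ga (D.M j) (tau z j) := rfl
    rw [e3, e4, e5]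
    have e6 : pa ga (D.M j) (z j) =
        pv ga (D.M j) (tau z j) - (tau z j : ℂ) * pvd (D.M j) (tau z j) := if_pos hW.1
    rw [e6, pl_of_pos hW.1, ps_of_le (K_nonneg D) hW.2, abs_of_pos hW.1, div_self hW.1.ne']
    have e7 : (z j).re = D.xr z j * √(AA z) := by
      rw [h.xr_W hW.2, abs_of_pos hW.1]
      field_simp
    have e8 : pv ga (D.M j) ((z j).im / (z j).re) = pv ga (D.M j) (tau z j) := rfl
    rw [e8]
    have e9 : ((chid d (D.xr z j) * (-1 + D.xr z j * S z) / √(AA z) : ℝ) : ℂ) *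
        (((z j).re : ℂ) * pv ga (D.M j) (tau z j)) =
        ((chid d (D.xr z j) * (-1 + D.xr z j * S z) * D.xr z j : ℝ) : ℂ) *
          pv ga (D.M j) (tau z j) := by
      rw [← mul_assoc, ← Complex.ofReal_mul]
      congr 2
      rw [e7]
      field_simp
    rw [e9]
    unfold rho
    simp only [Pi.zero_apply]
    push_cast
    ring
  · rw [if_neg hW, if_neg (fun hh => hW ((Wp_iff j).1 hh)), (pa_off hW ga).1, X_eq h, cd_eq h,
      x_eq h, S_eq]
    have e4 : (mk D cB ga d z).D = D := rfl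
    have e5 : (mk D cB ga d z).z j = z j := rfl
    have e6 : (mk D cB ga d z).ps j = ps D.K (z j) := rfl
    have e7 : (mk D cB ga d z).ga = ga := rfl
    rw [e4, e5, e6, e7, nu_eq]
    simp only [Pi.zero_apply]
    push_cast
    ring

/-! ### constants -/

theorem con (hN : 3 ≤ N) {c : ℝ} (hc : 12 * (N : ℝ) + 1 ≤ c) {g : ℝ} (hg : 0 < g)
    (hg1 : g * (48 * N + 78 * N * c * (D.C.card : ℝ) + 8 * (8 * D.Mx + 1) * c * (D.C.card : ℝ) + 4)
      ≤ 1) {d : ℝ} (hd : 0 < d)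
    (hd1 : d * ((N : ℝ) ^ 2 * (4 + 2 * (8 * D.Mx + 1) + 28 * D.K) + 8 * N ^ 2 / g +
      4 * N * ((D.C.card : ℝ) + 1) * c + 1) ≤ 1) (z : Fin N → ℂ) (u : ℂ) (eu : ℝ) :
    ((mk D c g d z).dat u eu).Con (Fintype.card (Fin N))
      (Fintype.card (mk D c g d z).Ed) := by
  have hN' : (3 : ℝ) ≤ N := by exact_mod_cast hN
  have hC : (Fintype.card (mk D c g d z).Ed : ℝ) = D.C.card := by
    have : Fintype.card (mk D c g d z).Ed = D.C.card := Fintype.card_coe D.C
    rw [this]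
  have hC0 : (0 : ℝ) ≤ D.C.card := Nat.cast_nonneg _
  have hM0 : (0 : ℝ) ≤ D.Mx := Nat.cast_nonneg _
  have hMx : (N : ℝ) ≤ D.Mx := by
    have : ∑ j : Fin N, 1 ≤ ∑ j, D.M j := sum_le_sum fun j _ => D.hM j
    simp only [sum_const, card_univ, Fintype.card_fin, smul_eq_mul, mul_one] at this
    exact_mod_cast this
  have hK : 39 * (N : ℝ) ≤ D.K := by
    unfold LD.K LD.K1
    have h1 : (26 : ℝ) ≤ 8 * D.Mx + 2 := by linarith
    have h2 : 26 * (3 * (N : ℝ)) ≤ (8 * D.Mx + 2) * ((N : ℝ) * N) :=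
      mul_le_mul h1 (by nlinarith) (by linarith) (by linarith)
    nlinarith
  have hK0 : 0 ≤ D.K := by linarith
  have hc0 : 0 < c := by linarith
  have a1 : 0 ≤ 78 * (N : ℝ) * c * D.C.card := by positivity
  have a2 : 0 ≤ 8 * (8 * (D.Mx : ℝ) + 1) * c * D.C.card := by positivity
  have a3 : 0 ≤ 48 * (N : ℝ) := by positivity
  have b1 : 0 ≤ g * (78 * (N : ℝ) * c * D.C.card) := mul_nonneg hg.le a1
  have b2 : 0 ≤ g * (8 * (8 * (D.Mx : ℝ) + 1) * c * D.C.card) := mul_nonneg hg.le a2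
  have b3 : 0 ≤ g * (48 * (N : ℝ)) := mul_nonneg hg.le a3
  have c1 : 0 ≤ d * ((N : ℝ) ^ 2 * (4 + 2 * (8 * D.Mx + 1) + 28 * D.K)) := by positivity
  have c2 : 0 ≤ d * (8 * (N : ℝ) ^ 2 / g) := by positivity
  have c3 : 0 ≤ d * (4 * N * ((D.C.card : ℝ) + 1) * c) := by positivity
  rw [Fintype.card_fin, hC]
  refine { hN := by linarith, hM := hC0, hga := hg, hga2 := ?_, hga3 := ?_, hcB := ?_, hcT := ?_,
           hcT2 := ?_, hKM := ?_, hcT3 := ?_, hK := hK, hcO := ?_, hd := hd, hd1 := ?_,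
           hd2 := ?_, hd3 := ?_ }
  · show g ≤ 1 / 4
    linarith
  · show 6 * (N : ℝ) * g ≤ 1 / 8
    linarith
  · show 12 * (N : ℝ) < c
    linarith
  · show 0 ≤ c * g * (Fintype.card (mk D c g d z).Ed : ℝ)
    positivity
  · show 6 * (N : ℝ) * (13 / 8 * (c * g * (Fintype.card (mk D c g d z).Ed : ℝ))) ≤ 1 / 8
    rw [hC]
    linarith
  · show 0 ≤ 8 * (D.Mx : ℝ) + 1
    linarith
  · show (8 * (D.Mx : ℝ) + 1) * (c * g * (Fintype.card (mk D c g d z).Ed : ℝ)) ≤ 1 / 8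
    rw [hC]
    linarith
  · show 0 ≤ 28 * D.K
    linarith
  · show (N : ℝ) ^ 2 * (4 + 2 * (8 * (D.Mx : ℝ) + 1) + 28 * D.K) * d < 1
    linarith
  · show 8 * (N : ℝ) ^ 2 * d ≤ g
    have : d * (8 * (N : ℝ) ^ 2 / g) ≤ 1 := by linarith
    rw [mul_div_assoc', div_le_one hg] at this
    linarith
  · show 2 * d * (2 * N * ((D.C.card : ℝ) + 1) * c) < 1
    linarith

/-- **K2 in the region II.** -/
theorem k2II (hN : 3 ≤ N) (hK1 : D.K1Prop) : LD.Ev fun c g d => ∀ z : Fin N → ℂ, z ≠ 0 →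
    II D z → D.G c g d z = 0 → ∃ (a : ℝ) (Y : Fin N → ℝ), 0 ≤ a ∧
      (fderiv ℝ (D.G c g d) z (LD.vs a Y)).im = 0 ∧
      0 < (fderiv ℝ (D.G c g d) z (LD.vs a Y)).re := by
  have key : LD.Ev fun c g d => 12 * (N : ℝ) + 1 ≤ c ∧ 0 < g ∧
      g * (48 * N + 78 * N * c * (D.C.card : ℝ) + 8 * (8 * D.Mx + 1) * c * (D.C.card : ℝ) + 4)
      ≤ 1 ∧ 0 < d ∧ d * ((N : ℝ) ^ 2 * (4 + 2 * (8 * D.Mx + 1) + 28 * D.K) + 8 * N ^ 2 / g +
      4 * N * ((D.C.card : ℝ) + 1) * c + 1) ≤ 1 := by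
    refine ⟨12 * N + 1, by positivity, fun c hc => ?_⟩
    have hc0 : 0 < c := lt_of_lt_of_le (by positivity) hc
    have h1 : 0 < 48 * (N : ℝ) + 78 * N * c * (D.C.card : ℝ) +
        8 * (8 * D.Mx + 1) * c * (D.C.card : ℝ) + 4 := by positivity
    refine ⟨1 / (48 * (N : ℝ) + 78 * N * c * (D.C.card : ℝ) +
        8 * (8 * D.Mx + 1) * c * (D.C.card : ℝ) + 4), by positivity, fun g hg hg1 => ?_⟩
    have hK0 := K_nonneg D
    have h2 : 0 < (N : ℝ) ^ 2 * (4 + 2 * (8 * D.Mx + 1) + 28 * D.K) + 8 * N ^ 2 / g +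
      4 * N * ((D.C.card : ℝ) + 1) * c + 1 := by positivity
    refine ⟨1 / ((N : ℝ) ^ 2 * (4 + 2 * (8 * D.Mx + 1) + 28 * D.K) + 8 * N ^ 2 / g +
      4 * N * ((D.C.card : ℝ) + 1) * c + 1), by positivity, fun d hd hd1 => ?_⟩
    refine ⟨hc, hg, ?_, hd, ?_⟩
    · rwa [le_div_iff₀ h1] at hg1
    · rwa [le_div_iff₀ h2] at hd1
  refine (hK1.and key).mono fun c g d hc0 hg0 hd0 ⟨hk, hc, hg, hg1, hd, hd1⟩ z hz h hG => ?_
  classical
  obtain ⟨Y0, hY0⟩ := hk z hz (by rw [hG]; simp) (by rw [hG]; simp)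
  rw [fderiv_G D c g hd hz] at hY0
  have hnu : 0 < (mk D c g d z).nu := h.sqrt_pos hz
  -- some `w j` has non-zero imaginary part
  have hvt : ∀ Y : Fin N → ℝ, dG D c g d z (LD.vt Y) =
      ∑ j, (Y j : ℂ) * (mk D c g d z).w j := by
    intro Y
    rw [vt_eq_sum Y, map_sum]
    refine sum_congr rfl fun j _ => ?_
    rw [map_smul, w_eq h]
    simp
  have hex : ∃ j, ((mk D c g d z).w j).im ≠ 0 := by
    by_contra h0
    push Not at h0
    refine hY0 ?_
    rw [hvt, Complex.im_sum]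
    refine sum_eq_zero fun j _ => ?_
    rw [Complex.im_ofReal_mul, h0 j, mul_zero]
  -- the zero
  have hG' : ∑ j, ((mk D c g d z).X j : ℂ) * pl (mk D c g d z).ga ((mk D c g d z).D.M j)
      ((mk D c g d z).z j) = ((∑ e : (mk D c g d z).Ed, (mk D c g d z).cB * (mk D c g d z).ga *
      ((mk D c g d z).hh e * ((mk D c g d z).la e * (mk D c g d z).be e)) : ℝ) : ℂ) := by
    have e1 : D.G c g d z = ∑ j, (D.ch d z j : ℂ) * pl g (D.M j) (z j) -
        ((c * g * ∑ e ∈ D.C, D.Be d e z : ℝ) : ℂ) := rfl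
    rw [e1, sub_eq_zero] at hG
    have e2 : ∀ j, ((mk D c g d z).X j : ℂ) * pl (mk D c g d z).ga ((mk D c g d z).D.M j)
      ((mk D c g d z).z j) = (D.ch d z j : ℂ) * pl g (D.M j) (z j) := by
      intro j
      rw [X_eq h]
      rfl
    rw [sum_congr rfl fun j _ => e2 j, hG, mul_sum, ← sum_coe_sort D.C]
    congr 1
    exact sum_congr rfl fun e _ => congrArg (fun x => c * g * x) (Be_eq' h e).symm
  have hpos : ∀ u : ℂ, u.re ^ 2 + u.im ^ 2 = 1 → 0 < u.re →
      (∀ j, rf u ((mk D c g d z).w j) = 0) → 0 < rf u (mk D c g d z).w0 := by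
    intro u hu hu0 hw
    exact Pt.rf_pos hP hnu (fun u eu => con hN hc hg hg1 hd hd1 z u eu) hG' hN hu hu0 hw
  obtain ⟨a, Y, ha, h1, h2⟩ := farkas (mk D c g d z).w (mk D c g d z).w0 hex hpos
  have e : fderiv ℝ (D.G c g d) z (LD.vs a Y) =
      (a : ℂ) * (mk D c g d z).w0 + ∑ j, (Y j : ℂ) * (mk D c g d z).w j := by
    rw [fderiv_G D c g hd hz, vs_eq, map_add, map_smul, w0_eq h hz, hvt]
    simp
  refine ⟨a, Y, ha, ?_, ?_⟩
  · rw [e]; exact h1
  · rw [e]; exact h2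

end Crest.Agent.R267.K2II_867
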