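import Crest.Agent.R267.K2I_996
import Crest.Agent.R267.K2II_867

/-!
# Row 267, T3a: K2Prop from smoothness (`3 ≤ N`)
-/

set_option autoImplicit false

namespace Crest.Agent.R267.K2_996

open Crest.Agent.R267.T3aDefs_957

variable {N : ℕ}

/-- **K2.** -/
theorem k2 (D : LD N) (hN : 3 ≤ N) (hS : D.Smooth) : D.K2Prop :=
  ((K2I_996.k2I D hS).and (K2II_867.k2II hN (K1_996.k1 D hS))).mono
    fun c g d _ _ _ ⟨h1, h2⟩ z hz hG => by
      by_cases h : Calc4_957.II D z
      · exact h2 z hz h hG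
      · obtain ⟨Y, a, b⟩ := h1 z hz (not_le.1 h)
        exact ⟨1, Y, zero_le_one, a, b⟩

end Crest.Agent.R267.K2_996
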