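import Crest.Agent.R267.K1_996

/-!
# Row 267, T3a: fact R4 (over the centre the page is radial around the rays of the letters)
-/

set_option autoImplicit false

noncomputable section

namespace Crest.Agent.R267.R4_996

open Set Filter Topology Finset
open Crest.Agent.R267.T3aDefs_957 Crest.Agent.R267.Calc_957 Crest.Agent.R267.TLine_996
open Crest.Agent.R267.K1_996

/-! ### planar facts -/

lemma Af_le_one (v : ℝ) : Af v ≤ 1 := by
  unfold Af; have := st_nonneg ((|v| - 1) / 2); linarith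

lemma abs_lt_two_of_Af {v : ℝ} (h : 0 < Af v) : |v| < 2 := by
  by_contra h1
  have h2 : st (1 / 2) ≤ st ((|v| - 1) / 2) := st_mono (by linarith [not_lt.1 h1])
  have h3 : st (1 / 2) = 1 / 2 := by
    unfold st
    rw [c01_of_mem (by norm_num) (by norm_num)]
    norm_num
  unfold Af at h
  linarith

lemma pv_re_le {ga : ℝ} (M : ℕ) (τ : ℝ) : (pv ga M τ).re ≤ ga := by
  rcases cases_tau M τ with h | ⟨l, hl, h⟩ | h
  · rw [pv_low (by linarith)]
    simp
  · rw [pv_cell hl h]
    have := Af_le_one (τ - sg l)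
    simp
    linarith
  · rw [pv_high (by linarith)]
    simp

/-- if the real part is not too negative then the point is near a ray. -/
lemma near_of_re {ga : ℝ} {M : ℕ} {τ : ℝ} (h : -(1 - ga) < (pv ga M τ).re) :
    ∃ l < M, |τ - sg l| < 2 := by
  rcases cases_tau M τ with h1 | ⟨l, hl, h1⟩ | h1
  · rw [pv_low (by linarith)] at h
    simp at h
  · rw [pv_cell hl h1] at h
    refine ⟨l, hl, abs_lt_two_of_Af ?_⟩
    have : -(1 - ga) < -(1 - ga) + Af (τ - sg l) := by simpa using h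
    linarith
  · rw [pv_high (by linarith)] at h
    simp at h

/-- facts on the loop near the ray (`|v| < 2`). -/
lemma near_facts {v : ℝ} (h : |v| < 2) : 0 < Bfd v ∧ Bf v * Afd v ≤ 0 ∧
    (1 < |v| → Bf v * Afd v < 0) ∧ v ^ 2 ≤ Bf v / Bfd v * v := by
  have key : ∀ w : ℝ, 1 < w → w < 2 → 0 < Bfd w ∧ 0 < Bf w ∧ Afd w < 0 ∧ w * Bfd w ≤ Bf w := by
    intro w h1 h2
    have e1 : Bfd w = 1 - (3 * (w - 1) ^ 2 / 2 - (w - 1) ^ 3 / 2) := by
      unfold Bfd
      rw [gfd_of_mem h1.le (by linarith), gfd_of_le (by linarith)]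
      ring
    have e2 : Bf w = w - ((w - 1) ^ 3 / 2 - (w - 1) ^ 4 / 8) := by
      rw [Bf_of_nonneg (by linarith), gf_of_mem h1.le (by linarith)]
    have hx : 0 < w - 1 := by linarith
    have hx1 : w - 1 < 1 := by linarith
    set x := w - 1 with hxd
    have hw : w = x + 1 := by linarith
    have h3 : x ^ 2 < 1 := by nlinarith
    have h4 : x ^ 3 ≤ x ^ 2 := by nlinarith [sq_nonneg x]
    have h5 : 0 < x ^ 3 := by positivity
    refine ⟨?_, ?_, ?_, ?_⟩
    · rw [e1]
      have : 1 - (3 * x ^ 2 / 2 - x ^ 3 / 2) = (1 - x) * (2 + 2 * x - x ^ 2) / 2 := by ring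
      rw [this]
      have h6 : 0 < 1 - x := by linarith
      have h7 : 0 < 2 + 2 * x - x ^ 2 := by nlinarith
      positivity
    · rw [e2, hw]
      have : 0 ≤ x ^ 4 := by positivity
      nlinarith
    · unfold Afd
      rw [← hxd, std_of_le (by rw [hw]; linarith : (-w - 1) / 2 ≤ 0)]
      have := std_pos (x := x / 2) (by linarith) (by linarith)
      linarith
    · rw [e1, e2, hw]
      have h6 : 0 ≤ x ^ 4 := by positivity
      have h7 : (x + 1) * (1 - (3 * x ^ 2 / 2 - x ^ 3 / 2)) - (x + 1 - (x ^ 3 / 2 - x ^ 4 / 8)) =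
          -(3 * x ^ 2 / 2 + x ^ 3 / 2 - 3 * x ^ 4 / 8) := by ring
      have h8 : x ^ 4 ≤ x ^ 3 := by
        have : x ^ 4 = x * x ^ 3 := by ring
        rw [this]
        nlinarith
      have h9 : 0 ≤ x ^ 2 := by positivity
      linarith
  have heB : Bfd (-v) = Bfd v := by unfold Bfd; rw [neg_neg]; ring
  have hoA : Afd (-v) = -Afd v := by
    unfold Afd
    rw [neg_neg]
    ring
  rcases le_or_gt |v| 1 with h1 | h1
  · rw [Bf_of_abs_le h1, Bfd_of_abs_le h1, Afd_of_abs_le h1]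
    refine ⟨one_pos, by simp, fun h2 => absurd h1 (not_le.2 h2), ?_⟩
    rw [div_one, sq]
  · rcases le_total 0 v with h0 | h0
    · rw [abs_of_nonneg h0] at h h1
      obtain ⟨a, b, c, e⟩ := key v h1 h
      refine ⟨a, (mul_neg_of_pos_of_neg b c).le, fun _ => mul_neg_of_pos_of_neg b c, ?_⟩
      rw [sq]
      refine mul_le_mul_of_nonneg_right ?_ h0
      rwa [le_div_iff₀ a]
    · rw [abs_of_nonpos h0] at h h1
      obtain ⟨a, b, c, e⟩ := key (-v) h1 h
      rw [heB] at a e
      rw [Bf_neg] at b e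
      rw [hoA] at c
      have h2 : Bf v * Afd v < 0 := by nlinarith
      refine ⟨a, h2.le, fun _ => h2, ?_⟩
      have h3 : -v ≤ -(Bf v / Bfd v) := by
        rw [← neg_div, le_div_iff₀ a]
        exact e
      nlinarith

lemma win_one {m M k : ℕ} (h1 : m ≤ k) (h2 : k < M) {τ : ℝ} (h : |τ - sg k| < 2) :
    win m M τ = 1 := by
  unfold sg at h
  rw [abs_lt] at h
  have a1 : (m : ℝ) ≤ k := by exact_mod_cast h1
  have a2 : (k : ℝ) + 1 ≤ M := by exact_mod_cast h2
  unfold win
  rw [st_of_ge (by linarith), st_of_le (by linarith)]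
  norm_num

lemma win_zero {m M k : ℕ} (h1 : k < m) {τ : ℝ} (h : |τ - sg k| < 2) : win m M τ = 0 := by
  unfold sg at h
  rw [abs_lt] at h
  have a1 : (k : ℝ) + 1 ≤ m := by exact_mod_cast h1
  unfold win
  rw [st_of_le (by linarith), zero_mul]

section space

variable {N : ℕ} (D : LD N)

/-- bounds on `ga`, `cB`. -/
def gOk (cB ga : ℝ) : Prop := 4 * (N : ℝ) ^ 2 < cB ∧ 0 < ga ∧ ga * (2 * N ^ 2 + 2) < 1

lemma sum_re_le {z : Fin N → ℂ} (hC : LD.Cen z) : ∑ i, (z i).re ≤ N * √(SA z) := by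
  calc ∑ i, (z i).re ≤ ∑ _i : Fin N, √(SA z) := by
        refine sum_le_sum fun i _ => ?_
        exact Real.le_sqrt_of_sq_le (re_sq_le z i)
    _ = N * √(SA z) := by simp

lemma pl_re_le {ga : ℝ} (M : ℕ) {w : ℂ} (h : 0 < w.re) : (pl ga M w).re ≤ ga * w.re := by
  rw [pl_of_pos h, Complex.re_ofReal_mul, mul_comm ga]
  exact mul_le_mul_of_nonneg_left (pv_re_le _ _) h.le

/-- one very negative variable makes `Re G` negative. -/
lemma re_neg_of {cB ga d : ℝ} (hg : gOk (N := N) cB ga) {z : Fin N → ℂ} (hC : LD.Cen z)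
    {j : Fin N} (hch : D.ch d z j = 1) (hj : (pl ga (D.M j) (z j)).re ≤ -(1 - ga) * (z j).re) :
    (D.G cB ga d z).re < 0 := by
  obtain ⟨hg1, hg2, hg3⟩ := hg
  have hN : (1 : ℝ) ≤ N := by exact_mod_cast Fin.pos j
  rw [G_re]
  have hcB : 0 < cB := by nlinarith
  have h6 : 0 ≤ cB * ga * ∑ e ∈ D.C, D.Be d e z :=
    mul_nonneg (by positivity) (sum_nonneg fun e _ => Be_nonneg D d e z)
  have h7 : ∑ i, D.ch d z i * (pl ga (D.M i) (z i)).re ≤
      -(1 - ga) * (z j).re + ∑ i ∈ univ.erase j, ga * (z i).re := by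
    rw [← add_sum_erase _ _ (Finset.mem_univ j), hch, one_mul]
    refine add_le_add hj (sum_le_sum fun i _ => ?_)
    have h8 := (hC i).1
    have h9 := ch_nonneg D d z i
    have h10 := ch_le_one D d z i
    have h11 := pl_re_le (ga := ga) (D.M i) h8
    have h12 : 0 < ga * (z i).re := by positivity
    calc D.ch d z i * (pl ga (D.M i) (z i)).re ≤ D.ch d z i * (ga * (z i).re) := by gcongr
      _ ≤ 1 * (ga * (z i).re) := by gcongr
      _ = ga * (z i).re := one_mul _
  have h8 : ∑ i ∈ univ.erase j, ga * (z i).re = ga * (∑ i, (z i).re) - ga * (z j).re := by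
    rw [mul_sum, ← add_sum_erase _ _ (Finset.mem_univ j)]
    ring
  have h9 := sum_re_le hC
  have h10 : √(SA z) ≤ 2 * N * (z j).re := (hC j).2
  have h11 := (hC j).1
  have h12 : ga * ∑ i, (z i).re ≤ ga * (2 * N ^ 2 * (z j).re) := by
    refine mul_le_mul_of_nonneg_left (h9.trans ?_) hg2.le
    calc (N : ℝ) * √(SA z) ≤ N * (2 * N * (z j).re) := by gcongr
      _ = 2 * N ^ 2 * (z j).re := by ring
  have h13 : -(1 - ga) * (z j).re + (ga * (2 * N ^ 2 * (z j).re) - ga * (z j).re) < 0 := by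
    have : (ga * (2 * N ^ 2 + 2) - 1) * (z j).re < 0 :=
      mul_neg_of_neg_of_pos (by linarith) h11
    nlinarith
  linarith

lemma region1_absurd {cB ga d : ℝ} (hg : gOk (N := N) cB ga) (hd : 0 < d) (hdk : dOk D d)
    {z : Fin N → ℂ} (hz : z ≠ 0) (hC : LD.Cen z) (hN : 0 < N) (h2 : D.K1 ^ 2 * SA z < SB z)
    (hre : 0 ≤ (D.G cB ga d z).re) : False := by
  obtain ⟨j, hj⟩ := exists_im z hN
  have hfar := far_of_region1 D h2 hj
  have hx := xr_region1 D hd hdk.2.1 hz h2 hj
  have hch : D.ch d z j = 1 := chi_of_ge hd hx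
  refine absurd (re_neg_of D hg hC hch ?_) (not_lt.2 hre)
  rw [pl_far_re hfar]
  have := (hC j).1
  linarith

lemma xr_cen {z : Fin N → ℂ} (hz : z ≠ 0) (hC : LD.Cen z) (h2 : SB z ≤ D.K1 ^ 2 * SA z)
    (j : Fin N) : 1 / (2 * N) ≤ D.xr z j := by
  have hN : (1 : ℝ) ≤ N := by exact_mod_cast Fin.pos j
  have h1 : NN D.K1 z = √(SA z) := by rw [NN_eq, gq_of_le h2]
  have h3 := NN_pos D.K1 hz
  unfold LD.xr
  rw [div_le_div_iff₀ (by positivity) h3, one_mul, h1]
  have h4 : (z j).re ≤ pg D.K (z j) := Real.le_sqrt_of_sq_le le_gq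
  have h5 : √(SA z) ≤ 2 * N * (z j).re := (hC j).2
  nlinarith

/-- **R4** with the extra bound `|t_j - sg (k j) s_j| < 2 s_j`. -/
theorem r4' (hS : D.Smooth) : LD.Ev fun c g d => ∀ z : Fin N → ℂ, z ≠ 0 → LD.Cen z →
    (D.G c g d z).im = 0 → 0 ≤ (D.G c g d z).re → ∃ (k : Fin N → ℕ) (Y : Fin N → ℝ), D.Let k ∧
    (fderiv ℝ (D.G c g d) z (LD.vt Y)).im = 0 ∧ (fderiv ℝ (D.G c g d) z (LD.vt Y)).re ≤ 0 ∧
    (D.G c g d z = 0 → (fderiv ℝ (D.G c g d) z (LD.vt Y)).re < 0) ∧
    (∀ j, ((z j).im - sg (k j) * (z j).re) ^ 2 ≤ Y j * ((z j).im - sg (k j) * (z j).re)) ∧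
    ∀ j, |(z j).im - sg (k j) * (z j).re| < 2 * (z j).re := by
  obtain ⟨d0, hd0, hdk⟩ := exists_dOk D
  have hN0 : (0 : ℝ) ≤ N := Nat.cast_nonneg _
  have h1 : LD.Ev fun c g d => gOk (N := N) c g ∧ 0 < d ∧ dOk D d ∧ d * (8 * N + 1) < 1 := by
    refine ⟨4 * N ^ 2 + 1, by positivity, fun c hc => ⟨1 / (2 * N ^ 2 + 3), by positivity,
      fun g hg hg' => ⟨min d0 (1 / (8 * N + 2)), lt_min hd0 (by positivity), fun d h h' =>
        ⟨⟨by linarith, hg, ?_⟩, h, hdk d h (h'.trans (min_le_left _ _)), ?_⟩⟩⟩⟩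
    · rw [le_div_iff₀ (by positivity)] at hg'
      nlinarith
    · have := h'.trans (min_le_right _ _)
      rw [le_div_iff₀ (by positivity)] at this
      nlinarith
  refine (hS.and h1).mono fun c g d hc0 _ _ ⟨hs, hg, hd, hdo, hd8⟩ z hz hC him hre => ?_
  have hN : 0 < N := by
    by_contra h0
    have h0' : N = 0 := by omega
    subst h0'
    exact hz (Subsingleton.elim _ _)
  have hN1 : (1 : ℝ) ≤ N := by exact_mod_cast hN
  have hG : DifferentiableAt ℝ (D.G c g d) z :=
    (hs.contDiffAt (isOpen_compl_singleton.mem_nhds hz)).differentiableAt (by norm_num)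
  rcases lt_or_ge (D.K1 ^ 2 * SA z) (SB z) with h2 | h2
  · exact (region1_absurd D hg hd hdo hz hC hN h2 hre).elim
  -- all variables are fully active
  have hxr : ∀ j, 2 * d < D.xr z j := by
    intro j
    refine lt_of_lt_of_le ?_ (xr_cen D hz hC h2 j)
    rw [lt_div_iff₀ (by positivity)]
    nlinarith
  have hch : ∀ j, D.ch d z j = 1 := fun j => chi_of_ge hd (hxr j).le
  -- the letters
  have hk : ∀ j, ∃ l < D.M j, |(z j).im / (z j).re - sg l| < 2 := by
    intro j
    refine near_of_re (ga := g) ?_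
    by_contra h3
    have h4 : (pl g (D.M j) (z j)).re ≤ -(1 - g) * (z j).re := by
      rw [pl_of_pos (hC j).1, Complex.re_ofReal_mul, mul_comm]
      exact mul_le_mul_of_nonneg_right (not_lt.1 h3) (hC j).1.le
    exact absurd (re_neg_of D hg hC (hch j) h4) (not_lt.2 hre)
  choose k hkM hkn using hk
  set v : Fin N → ℝ := fun j => (z j).im / (z j).re - sg (k j) with hv
  have hvj : ∀ j, |v j| < 2 := hkn
  have him' : ∀ j, (z j).im - sg (k j) * (z j).re = (z j).re * v j := by
    intro j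
    have := (hC j).1.ne'
    rw [hv]
    field_simp
  have hpl : ∀ j, pl g (D.M j) (z j) = ((z j).re : ℂ) *
      (((-(1 - g) + Af (v j) : ℝ) : ℂ) + Complex.I * ((Bf (v j) : ℝ) : ℂ)) := by
    intro j
    rw [pl_of_pos (hC j).1, pv_cell (hkM j) (by have := hvj j; linarith)]
  have hplt : ∀ j, plt (D.M j) (z j) =
      ((Afd (v j) : ℝ) : ℂ) + Complex.I * ((Bfd (v j) : ℝ) : ℂ) := by
    intro j
    unfold plt
    rw [if_pos (hC j).1, pvd_cell (hkM j) (by have := hvj j; linarith)]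
  -- no deletion
  have hLet : D.Let k := by
    refine ⟨hkM, fun e he hdel => ?_⟩
    have hw1 : win e.2.2 (D.M e.1) ((z e.1).im / (z e.1).re) = 1 :=
      win_one hdel.1 (hkM _) (hkn _)
    have hw2 : win (D.M e.2.1 - 1) (D.M e.2.1) ((z e.2.1).im / (z e.2.1).re) = 1 :=
      win_one (by omega) (hkM _) (hkn _)
    have hR : ∀ j, D.R d z j = (z j).re := by
      intro j
      unfold LD.R
      rw [hch j, one_mul, max_eq_right (hC j).1.le]
    have hBe : √(SA z) / (4 * N) ≤ D.Be d e z := by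
      unfold LD.Be
      rw [hw1, hw2, hR, hR, one_mul, mul_one]
      have a1 := (hC e.1).1
      have a2 := (hC e.2.1).1
      have b1 : √(SA z) ≤ 2 * N * (z e.1).re := (hC e.1).2
      have b2 : √(SA z) ≤ 2 * N * (z e.2.1).re := (hC e.2.1).2
      rw [div_le_div_iff₀ (by positivity) (by positivity)]
      have c1 := mul_le_mul_of_nonneg_right b1 a2.le
      have c2 := mul_le_mul_of_nonneg_right b2 a1.le
      nlinarith
    have hsum : √(SA z) / (4 * N) ≤ ∑ e ∈ D.C, D.Be d e z :=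
      hBe.trans (single_le_sum (f := fun e => D.Be d e z) (fun e _ => Be_nonneg D d e z) he)
    have hA : 0 < √(SA z) := by
      have := Real.le_sqrt_of_sq_le (re_sq_le z e.1)
      have := (hC e.1).1
      linarith
    have hneg : (D.G c g d z).re < 0 := by
      rw [G_re]
      have h6 : ∑ j, D.ch d z j * (pl g (D.M j) (z j)).re ≤ g * (N * √(SA z)) := by
        calc ∑ j, D.ch d z j * (pl g (D.M j) (z j)).re ≤ ∑ j, g * (z j).re := by
              refine sum_le_sum fun j _ => ?_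
              rw [hch j, one_mul]
              exact pl_re_le _ (hC j).1
          _ = g * ∑ j, (z j).re := by rw [mul_sum]
          _ ≤ _ := mul_le_mul_of_nonneg_left (sum_re_le hC) hg.2.1.le
      have h7 : c * g * (√(SA z) / (4 * N)) ≤ c * g * ∑ e ∈ D.C, D.Be d e z := by
        have := hg.2.1
        gcongr
      have h8 : g * (N * √(SA z)) < c * g * (√(SA z) / (4 * N)) := by
        have e1 : c * g * (√(SA z) / (4 * N)) = g * √(SA z) * (c / (4 * N)) := by ring
        rw [e1]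
        have e2 : (N : ℝ) < c / (4 * N) := by
          rw [lt_div_iff₀ (by positivity)]
          have := hg.1
          nlinarith
        have e3 : 0 < g * √(SA z) := mul_pos hg.2.1 hA
        nlinarith
      linarith
    exact absurd hneg (not_lt.2 hre)
  -- the vector
  set Y : Fin N → ℝ := fun j => (z j).re * (Bf (v j) / Bfd (v j)) with hY
  have hfd : fderiv ℝ (D.G c g d) z (LD.vt Y) = ∑ j, (Y j : ℂ) * plt (D.M j) (z j) := by
    have e1 := hasDerivAt_line hG Y
    have e2 : HasDerivAt (fun h => ∑ j, pl g (D.M j) (ln z Y h j))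
        (∑ j, (Y j : ℂ) * plt (D.M j) (z j)) 0 :=
      HasDerivAt.fun_sum fun j _ => hasDerivAt_pl g (D.M j) z Y j
    refine e1.unique (e2.congr_of_eventuallyEq ?_)
    have e3 : ∀ᶠ h in 𝓝 (0 : ℝ), ∀ j, 2 * d ≤ D.xr (ln z Y h) j := by
      rw [eventually_all]
      intro j
      have hzj : z j ≠ 0 := fun h0 => by
        have := (hC j).1
        rw [h0] at this
        simp at this
      have := (hasDerivAt_xr D hz Y hzj).continuousAt
      have h3 : 2 * d < D.xr (ln z Y 0) j := by rw [ln_zero]; exact hxr j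
      filter_upwards [this.eventually (lt_mem_nhds h3)] with h hh using hh.le
    have e4 : ∀ᶠ h in 𝓝 (0 : ℝ), ∀ j, |(ln z Y h j).im / (ln z Y h j).re - sg (k j)| < 2 := by
      rw [eventually_all]
      intro j
      have hcont : Continuous fun h : ℝ => |(ln z Y h j).im / (ln z Y h j).re - sg (k j)| := by
        simp only [ln_re, ln_im]
        fun_prop
      refine hcont.continuousAt.eventually (gt_mem_nhds ?_)
      show |(ln z Y 0 j).im / (ln z Y 0 j).re - sg (k j)| < 2
      rw [ln_zero]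
      exact hkn j
    filter_upwards [e3, e4] with h h3 h4
    unfold LD.G
    have h5 : ∑ e ∈ D.C, D.Be d e (ln z Y h) = 0 := by
      refine sum_eq_zero fun e he => ?_
      have h6 := hLet.2 e he
      unfold LD.Be
      rcases lt_or_ge (k e.1) e.2.2 with h7 | h7
      · rw [win_zero h7 (h4 e.1)]; simp
      · have h8 : k e.2.1 < D.M e.2.1 - 1 := by
          have := hkM e.2.1
          have : ¬ (k e.2.1 + 1 = D.M e.2.1) := fun h9 => h6 ⟨h7, h9⟩
          omega
        rw [win_zero h8 (h4 e.2.1)]; simp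
    rw [h5]
    simp only [mul_zero, Complex.ofReal_zero, sub_zero]
    refine sum_congr rfl fun j _ => ?_
    rw [LD.ch, chi_of_ge hd (h3 j)]
    simp
  have hGz : D.G c g d z = ∑ j, pl g (D.M j) (z j) - ((c * g * ∑ e ∈ D.C, D.Be d e z : ℝ) : ℂ) := by
    unfold LD.G
    congr 1
    refine sum_congr rfl fun j _ => ?_
    rw [hch j]
    simp
  have hBe0 : ∑ e ∈ D.C, D.Be d e z = 0 := by
    refine sum_eq_zero fun e he => ?_
    have h6 := hLet.2 e he
    unfold LD.Be
    rcases lt_or_ge (k e.1) e.2.2 with h7 | h7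
    · rw [win_zero h7 (hkn e.1)]; simp
    · have h8 : k e.2.1 < D.M e.2.1 - 1 := by
        have := hkM e.2.1
        have : ¬ (k e.2.1 + 1 = D.M e.2.1) := fun h9 => h6 ⟨h7, h9⟩
        omega
      rw [win_zero h8 (hkn e.2.1)]; simp
  rw [hBe0] at hGz
  simp only [mul_zero, Complex.ofReal_zero, sub_zero] at hGz
  have hImG : ∑ j, (z j).re * Bf (v j) = 0 := by
    have := him
    rw [hGz, Complex.im_sum] at this
    rw [← this]
    refine sum_congr rfl fun j _ => ?_
    rw [hpl j, Complex.im_ofReal_mul]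
    simp
  have hre1 : ∀ j, ((Y j : ℂ) * plt (D.M j) (z j)).re = (z j).re * (Bf (v j) * Afd (v j) / Bfd (v j)) := by
    intro j
    rw [Complex.re_ofReal_mul, hplt j, hY]
    simp
    ring
  have him1 : ∀ j, ((Y j : ℂ) * plt (D.M j) (z j)).im = (z j).re * Bf (v j) := by
    intro j
    rw [Complex.im_ofReal_mul, hplt j, hY]
    have := (near_facts (hvj j)).1.ne'
    simp
    field_simp
  have hneg : ∀ j, (z j).re * (Bf (v j) * Afd (v j) / Bfd (v j)) ≤ 0 := by
    intro j
    obtain ⟨a, b, -, -⟩ := near_facts (hvj j)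
    exact mul_nonpos_of_nonneg_of_nonpos (hC j).1.le (div_nonpos_of_nonpos_of_nonneg b a.le)
  refine ⟨k, Y, hLet, ?_, ?_, ?_, ?_, ?_⟩
  · rw [hfd, Complex.im_sum, sum_congr rfl fun j _ => him1 j, hImG]
  · rw [hfd, Complex.re_sum, sum_congr rfl fun j _ => hre1 j]
    exact sum_nonpos fun j _ => hneg j
  · intro h0
    rw [hfd, Complex.re_sum, sum_congr rfl fun j _ => hre1 j]
    by_contra h3
    have h4 : ∑ j, (z j).re * (Bf (v j) * Afd (v j) / Bfd (v j)) = 0 :=
      le_antisymm (sum_nonpos fun j _ => hneg j) (not_lt.1 h3)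
    rw [sum_eq_zero_iff_of_nonpos fun j _ => hneg j] at h4
    have h5 : ∀ j, |v j| ≤ 1 := by
      intro j
      by_contra h6
      obtain ⟨a, -, b, -⟩ := near_facts (hvj j)
      have h7 := h4 j (Finset.mem_univ j)
      have h8 : (z j).re * (Bf (v j) * Afd (v j) / Bfd (v j)) < 0 :=
        mul_neg_of_pos_of_neg (hC j).1 (div_neg_of_neg_of_pos (b (not_le.1 h6)) a)
      linarith
    have h6 : 0 < (D.G c g d z).re := by
      rw [hGz, Complex.re_sum]
      have : Nonempty (Fin N) := ⟨⟨0, hN⟩⟩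
      refine sum_pos (fun j _ => ?_) Finset.univ_nonempty
      rw [hpl j, Complex.re_ofReal_mul, Af_of_le (h5 j)]
      have := (hC j).1
      have := hg.2.1
      simp
      positivity
    rw [h0] at h6
    simp at h6
  · intro j
    obtain ⟨-, -, -, a⟩ := near_facts (hvj j)
    rw [him' j, hY]
    have h3 := (hC j).1
    calc ((z j).re * v j) ^ 2 = (z j).re ^ 2 * v j ^ 2 := by ring
      _ ≤ (z j).re ^ 2 * (Bf (v j) / Bfd (v j) * v j) := by gcongr
      _ = _ := by ring
  · intro j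
    rw [him' j, abs_mul, abs_of_pos (hC j).1, mul_comm]
    exact mul_lt_mul_of_pos_right (hvj j) (hC j).1

theorem r4 (hS : D.Smooth) : D.R4Prop :=
  (r4' D hS).mono fun _ _ _ _ _ _ h z hz hC h1 h2 => by
    obtain ⟨k, Y, a1, a2, a3, a4, a5, -⟩ := h z hz hC h1 h2
    exact ⟨k, Y, a1, a2, a3, a4, a5⟩

end space

end Crest.Agent.R267.R4_996
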