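import Crest.Agent.R267.Calc5_957
import Crest.Agent.R267.Pow_951

/-!
# Row 267, T3a: `G` is `C²` off `0`
-/

set_option autoImplicit false

noncomputable section

namespace Crest.Agent.R267.Smooth_957

open Finset T3aDefs_957 Calc_957 Calc2_957 Calc3_957 Calc4_957

/-! ### the harmonic mean of cubes -/

/-- `a b / (a + b)`. -/
def hm (a b : ℝ) : ℝ := a * b / (a + b)

theorem hm_zero_left (b : ℝ) : hm 0 b = 0 := by unfold hm; rw [zero_mul, zero_div]

theorem hm_zero_right (a : ℝ) : hm a 0 = 0 := by unfold hm; rw [mul_zero, zero_div]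

theorem contDiffAt_hm {E : Type*} [NormedAddCommGroup E] [NormedSpace ℝ E] {f g : E → ℝ} {z : E}
    (hf : ContDiffAt ℝ 2 f z) (hg : ContDiffAt ℝ 2 g z) (h : f z + g z ≠ 0) :
    ContDiffAt ℝ 2 (fun w => hm (f w) (g w)) z := by
  unfold hm
  exact (hf.mul hg).div (hf.add hg) h

theorem tp3_pos {x : ℝ} (h : 0 < x) : 0 < tp 3 x := by
  rw [tp_of_nonneg h.le]; positivity

theorem contDiffAt_hm3 {x : ℝ × ℝ} (hx : x ≠ 0) :
    ContDiffAt ℝ 2 (fun p : ℝ × ℝ => hm (tp 3 p.1) (tp 3 p.2)) x := by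
  have c1 : ContDiffAt ℝ 2 (fun p : ℝ × ℝ => tp 3 p.1) x :=
    ((contDiff_tp 2 3 (by norm_num)).comp contDiff_fst).contDiffAt
  have c2 : ContDiffAt ℝ 2 (fun p : ℝ × ℝ => tp 3 p.2) x :=
    ((contDiff_tp 2 3 (by norm_num)).comp contDiff_snd).contDiffAt
  rcases lt_or_ge x.1 0 with h1 | h1
  · refine contDiffAt_const (c := (0 : ℝ)) |>.congr_of_eventuallyEq ?_
    have : ∀ᶠ p : ℝ × ℝ in nhds x, p.1 < 0 :=
      continuous_fst.continuousAt.eventually (gt_mem_nhds h1)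
    filter_upwards [this] with p hp
    rw [tp_of_nonpos (by norm_num) hp.le, hm_zero_left]
  rcases lt_or_ge x.2 0 with h2 | h2
  · refine contDiffAt_const (c := (0 : ℝ)) |>.congr_of_eventuallyEq ?_
    have : ∀ᶠ p : ℝ × ℝ in nhds x, p.2 < 0 :=
      continuous_snd.continuousAt.eventually (gt_mem_nhds h2)
    filter_upwards [this] with p hp
    rw [tp_of_nonpos (k := 3) (x := p.2) (by norm_num) hp.le, hm_zero_right]
  refine contDiffAt_hm c1 c2 ?_
  rcases eq_or_lt_of_le h1 with h3 | h3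
  · rcases eq_or_lt_of_le h2 with h4 | h4
    · exact absurd (Prod.ext h3.symm h4.symm) hx
    · have := tp3_pos h4
      have := tp_nonneg 3 x.1
      linarith
  · have := tp3_pos h3
    have := tp_nonneg 3 x.2
    linarith

theorem tp3_mul {r : ℝ} (hr : 0 < r) (x : ℝ) : tp 3 (r * x) = r ^ 3 * tp 3 x := by
  rcases le_total x 0 with h | h
  · rw [tp_of_nonpos (by norm_num) h, tp_of_nonpos (by norm_num) (by nlinarith), mul_zero]
  · rw [tp_of_nonneg h, tp_of_nonneg (by positivity), mul_pow]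

theorem contDiff_hm3 : ContDiff ℝ 2 (fun p : ℝ × ℝ => hm (tp 3 p.1) (tp 3 p.2)) := by
  have key := Pow_951.contDiffOn_of_hom (E := ℝ × ℝ) (F := ℝ) (T := Set.univ)
    (D := fun _ => (3 : ℝ)) (H := fun p : ℝ × (ℝ × ℝ) => hm (tp 3 p.2.1) (tp 3 p.2.2))
    isOpen_univ contDiffOn_const (fun t _ => by norm_num) ?_ ?_ ?_
  · rw [Set.univ_prod_univ, contDiffOn_univ] at key
    exact key.comp ((contDiff_const (c := (0 : ℝ))).prodMk contDiff_id)
  · rintro ⟨t, x⟩ ⟨-, hx⟩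
    exact ((contDiffAt_hm3 hx).comp (t, x) contDiffAt_snd).contDiffWithinAt
  · intro t _
    simp [tp_of_nonpos, hm]
  · intro t _ r hr x
    have h3 : r ^ (3 : ℝ) = r ^ 3 := by
      rw [← Real.rpow_natCast]
      norm_num
    simp only [Prod.smul_fst, Prod.smul_snd, smul_eq_mul]
    rw [tp3_mul hr, tp3_mul hr, h3]
    unfold hm
    have hr3 : r ^ 3 ≠ 0 := by positivity
    rcases eq_or_ne (tp 3 x.1 + tp 3 x.2) 0 with h0 | h0
    · rw [← mul_add, h0]
      simp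
    · rw [← mul_add]
      field_simp

section cube

variable {E : Type*} [NormedAddCommGroup E] [NormedSpace ℝ E]

/-- locally the cube of the positive part of a `C²` function. -/
def CubeAt (R : E → ℝ) (z : E) : Prop :=
  ∃ q : E → ℝ, ContDiffAt ℝ 2 q z ∧ R =ᶠ[nhds z] fun w => tp 3 (q w)

theorem CubeAt.contDiffAt {R : E → ℝ} {z : E} (h : CubeAt R z) : ContDiffAt ℝ 2 R z := by
  obtain ⟨q, hq, he⟩ := h
  exact (((contDiff_tp 2 3 (by norm_num)).contDiffAt).comp z hq).congr_of_eventuallyEq he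

theorem CubeAt.hm {R R' : E → ℝ} {z : E} (h : CubeAt R z) (h' : CubeAt R' z) :
    ContDiffAt ℝ 2 (fun w => hm (R w) (R' w)) z := by
  obtain ⟨q, hq, he⟩ := h
  obtain ⟨q', hq', he'⟩ := h'
  have h1 : ContDiffAt ℝ 2 (fun w => Smooth_957.hm (tp 3 (q w)) (tp 3 (q' w))) z :=
    ContDiffAt.comp z (g := fun p : ℝ × ℝ => Smooth_957.hm (tp 3 p.1) (tp 3 p.2))
      contDiff_hm3.contDiffAt (hq.prodMk hq')
  refine h1.congr_of_eventuallyEq ?_
  filter_upwards [he, he'] with w hw hw'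
  rw [hw, hw']

theorem cube_root {x : ℝ} (h : 0 < x) : tp 3 (x ^ (1 / 3 : ℝ)) = x := by
  rw [tp_of_nonneg (Real.rpow_nonneg h.le _), ← Real.rpow_natCast, ← Real.rpow_mul h.le]
  norm_num

/-- a positive `C²` function is a cube. -/
theorem cubeAt_of_pos {R : E → ℝ} {z : E} (h : ContDiffAt ℝ 2 R z) (h0 : 0 < R z) :
    CubeAt R z := by
  refine ⟨fun w => R w ^ (1 / 3 : ℝ), h.rpow_const_of_ne h0.ne', ?_⟩
  filter_upwards [h.continuousAt.eventually (lt_mem_nhds h0)] with w hw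
  exact (cube_root hw).symm

theorem tp3_mul' {r x : ℝ} (hr : 0 < r) : tp 3 (x * r) = tp 3 x * tp 3 r := by
  rw [mul_comm, tp3_mul hr, tp_of_nonneg hr.le, mul_comm]

/-- `st (u) * s`, `s > 0`. -/
theorem cubeAt_st {u s : E → ℝ} {z : E} (hu : ContDiffAt ℝ 2 u z) (hs : ContDiffAt ℝ 2 s z)
    (h0 : 0 < s z) : CubeAt (fun w => st (u w) * s w) z := by
  rcases lt_or_ge (u z) 1 with h1 | h1
  · have e1 : ∀ x : ℝ, 0 < 10 - 15 * x + 6 * x ^ 2 := fun x => by
      nlinarith [sq_nonneg (x - 5 / 4)]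
    refine ⟨fun w => u w * ((10 - 15 * u w + 6 * u w ^ 2) * s w) ^ (1 / 3 : ℝ), ?_, ?_⟩
    · refine hu.mul (ContDiffAt.rpow_const_of_ne ?_ (mul_pos (e1 _) h0).ne')
      exact ((contDiffAt_const.sub (contDiffAt_const.mul hu)).add
        (contDiffAt_const.mul (hu.pow 2))).mul hs
    · filter_upwards [hs.continuousAt.eventually (lt_mem_nhds h0),
        hu.continuousAt.eventually (gt_mem_nhds h1)] with w hw hw1
      have h2 : 0 < (10 - 15 * u w + 6 * u w ^ 2) * s w := mul_pos (e1 _) hw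
      rw [tp3_mul' (Real.rpow_pos_of_pos h2 _), cube_root h2]
      rcases le_total (u w) 0 with h3 | h3
      · rw [st_of_le h3, tp_of_nonpos (by norm_num) h3]
        ring
      · unfold st
        rw [c01_of_mem h3 hw1.le, tp_of_nonneg h3]
        ring
  · refine cubeAt_of_pos ((contDiff_st.contDiffAt.comp z hu).mul hs) ?_
    rw [st_of_ge h1]
    linarith

end cube

/-! ### smoothness of the parts -/

theorem contDiffAt_gq {E : Type*} [NormedAddCommGroup E] [NormedSpace ℝ E] (K : ℝ)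
    {A B : E → ℝ} {z : E} (hA : ContDiffAt ℝ 2 A z) (hB : ContDiffAt ℝ 2 B z)
    (h : A z + B z ≠ 0) : ContDiffAt ℝ 2 (fun w => gq K (A w) (B w)) z := by
  have h1 : ContDiffAt ℝ 2 (fun w => tp 3 (B w - K ^ 2 * A w)) z :=
    ContDiffAt.comp z (g := tp 3) (contDiff_tp 2 3 (by norm_num)).contDiffAt
      (hB.sub (contDiffAt_const.mul hA))
  exact hA.add (h1.div (contDiffAt_const.mul ((hA.add hB).pow 2))
    (mul_ne_zero (by positivity) (pow_ne_zero _ h)))

theorem contDiffAt_pg (K : ℝ) {z : ℂ} (hz : z ≠ 0) : ContDiffAt ℝ 2 (pg K) z := by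
  have h1 : ContDiffAt ℝ 2 (fun w : ℂ => w.re ^ 2) z := Complex.reCLM.contDiff.contDiffAt.pow 2
  have h2 : ContDiffAt ℝ 2 (fun w : ℂ => w.im ^ 2) z := Complex.imCLM.contDiff.contDiffAt.pow 2
  exact (contDiffAt_gq K h1 h2 (sq_add_ne hz)).sqrt
    (gq_pos (sq_nonneg _) (sq_nonneg _) (sq_add_ne hz)).ne'

theorem contDiffAt_pl (ga : ℝ) (M : ℕ) {z : ℂ} (hz : z ≠ 0) : ContDiffAt ℝ 2 (pl ga M) z := by
  have hre : ContDiffAt ℝ 2 (fun w : ℂ => w.re) z := Complex.reCLM.contDiff.contDiffAt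
  have him : ContDiffAt ℝ 2 (fun w : ℂ => w.im) z := Complex.imCLM.contDiff.contDiffAt
  have hreC : ContDiffAt ℝ 2 (fun w : ℂ => (w.re : ℂ)) z :=
    Complex.ofRealCLM.contDiff.contDiffAt.comp z hre
  have himC : ContDiffAt ℝ 2 (fun w : ℂ => (w.im : ℂ)) z :=
    Complex.ofRealCLM.contDiff.contDiffAt.comp z him
  rcases le_or_gt z.re 0 with h0 | h0
  · have h1 : pl ga M =ᶠ[nhds z] fun w : ℂ => -((2 - ga : ℝ) : ℂ) * (w.re : ℂ) -
        Complex.I * (w.im : ℂ) := by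
      filter_upwards [far_nhds h0 hz] with w hw
      exact pl_of_far (Or.inl hw)
    exact ((contDiffAt_const.mul hreC).sub (contDiffAt_const.mul himC)).congr_of_eventuallyEq h1
  · have h1 : pl ga M =ᶠ[nhds z] fun w : ℂ => (w.re : ℂ) * pv ga M (w.im / w.re) := by
      have : ∀ᶠ w : ℂ in nhds z, 0 < w.re :=
        Complex.continuous_re.continuousAt.eventually (lt_mem_nhds h0)
      filter_upwards [this] with w hw
      exact pl_of_pos hw
    refine ContDiffAt.congr_of_eventuallyEq ?_ h1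
    exact hreC.mul (ContDiffAt.comp z (g := pv ga M) (contDiff_pv ga M).contDiffAt
      (him.div hre h0.ne'))

variable {N : ℕ}

theorem contDiffAt_re (z : Fin N → ℂ) (j : Fin N) :
    ContDiffAt ℝ 2 (fun w : Fin N → ℂ => (w j).re) z := (rej j).contDiff.contDiffAt

theorem contDiffAt_im (z : Fin N → ℂ) (j : Fin N) :
    ContDiffAt ℝ 2 (fun w : Fin N → ℂ => (w j).im) z := (imj j).contDiff.contDiffAt

theorem contDiffAt_coord (z : Fin N → ℂ) (j : Fin N) :
    ContDiffAt ℝ 2 (fun w : Fin N → ℂ => w j) z :=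
  (ContinuousLinearMap.proj (R := ℝ) (φ := fun _ : Fin N => ℂ) j).contDiff.contDiffAt

theorem contDiffAt_NN (K : ℝ) {z : Fin N → ℂ} (hz : z ≠ 0) : ContDiffAt ℝ 2 (NN K) z := by
  have h1 : ContDiffAt ℝ 2 (fun w : Fin N → ℂ => ∑ j, (w j).re ^ 2) z :=
    ContDiffAt.sum fun j _ => (contDiffAt_re z j).pow 2
  have h2 : ContDiffAt ℝ 2 (fun w : Fin N → ℂ => ∑ j, (w j).im ^ 2) z :=
    ContDiffAt.sum fun j _ => (contDiffAt_im z j).pow 2
  exact (contDiffAt_gq K h1 h2 (AA_add_BB_ne hz)).sqrt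
    (gq_pos (AA_nonneg z) (BB_nonneg z) (AA_add_BB_ne hz)).ne'

theorem contDiffAt_tau {z : Fin N → ℂ} {j : Fin N} (hj : (z j).re ≠ 0) :
    ContDiffAt ℝ 2 (fun w => tau w j) z :=
  (contDiffAt_im z j).div (contDiffAt_re z j) hj

section D

variable (D : LD N)

theorem contDiffAt_xr {z : Fin N → ℂ} (hz : z ≠ 0) {j : Fin N} (hj : z j ≠ 0) :
    ContDiffAt ℝ 2 (fun w => D.xr w j) z :=
  (ContDiffAt.comp z (g := pg D.K) (contDiffAt_pg D.K hj) (contDiffAt_coord z j)).div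
    (contDiffAt_NN D.K1 hz) (NN_pos hz).ne'

theorem contDiffAt_ch {d : ℝ} (hd : 0 < d) {z : Fin N → ℂ} (hz : z ≠ 0) (j : Fin N) :
    ContDiffAt ℝ 2 (fun w => D.ch d w j) z := by
  by_cases hj : z j = 0
  · exact (contDiffAt_const (c := (0 : ℝ))).congr_of_eventuallyEq (ch_zero_nhds D hd hz hj)
  · exact ContDiffAt.comp z (g := st) contDiff_st.contDiffAt
      (((contDiffAt_xr D hz hj).sub contDiffAt_const).div_const d)

theorem contDiffAt_T (ga : ℝ) {d : ℝ} (hd : 0 < d) {z : Fin N → ℂ} (hz : z ≠ 0) (j : Fin N) :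
    ContDiffAt ℝ 2 (fun w => (D.ch d w j : ℂ) * pl ga (D.M j) (w j)) z := by
  by_cases hj : z j = 0
  · refine (contDiffAt_const (c := (0 : ℂ))).congr_of_eventuallyEq ?_
    filter_upwards [ch_zero_nhds D hd hz hj] with w hw
    rw [hw]
    simp
  · exact (Complex.ofRealCLM.contDiff.contDiffAt.comp z (contDiffAt_ch D hd hz j)).mul
      (ContDiffAt.comp z (g := pl ga (D.M j)) (contDiffAt_pl ga (D.M j) hj)
        (contDiffAt_coord z j))

theorem cubeAt_R {d : ℝ} {z : Fin N → ℂ} (hz : z ≠ 0) {j : Fin N}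
    (hj : 0 < (z j).re) : CubeAt (fun w => D.R d w j) z := by
  have hj0 : z j ≠ 0 := fun h => by rw [h] at hj; simp at hj
  obtain ⟨q, hq, he⟩ := cubeAt_st (((contDiffAt_xr D hz hj0).sub contDiffAt_const).div_const d)
    (contDiffAt_re z j) hj
  refine ⟨q, hq, ?_⟩
  filter_upwards [he, re_pos_nhds hj] with w hw hw'
  rw [← hw, R_of_pos D hw']
  rfl

theorem contDiffAt_Be {d : ℝ} (hd : 0 < d) {z : Fin N → ℂ} (hz : z ≠ 0)
    (e : Fin N × Fin N × ℕ) : ContDiffAt ℝ 2 (D.Be d e) z := by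
  rcases le_or_gt (z e.1).re 0 with h1 | h1
  · exact (contDiffAt_const (c := (0 : ℝ))).congr_of_eventuallyEq (Be_nhds_left D hd hz h1)
  rcases le_or_gt (z e.2.1).re 0 with h2 | h2
  · exact (contDiffAt_const (c := (0 : ℝ))).congr_of_eventuallyEq (Be_nhds_right D hd hz h2)
  have a1 := (cubeAt_R D (d := d) hz h1).hm (cubeAt_R D (d := d) hz h2)
  have a2 : ContDiffAt ℝ 2 (fun w => win e.2.2 (D.M e.1) (tau w e.1)) z :=
    ContDiffAt.comp z (g := win e.2.2 (D.M e.1)) (contDiff_win _ _).contDiffAt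
      (contDiffAt_tau h1.ne')
  have a3 : ContDiffAt ℝ 2 (fun w => win (D.M e.2.1 - 1) (D.M e.2.1) (tau w e.2.1)) z :=
    ContDiffAt.comp z (g := win (D.M e.2.1 - 1) (D.M e.2.1)) (contDiff_win _ _).contDiffAt
      (contDiffAt_tau h2.ne')
  exact a1.mul (a2.mul a3)

theorem contDiffAt_G (cB ga : ℝ) {d : ℝ} (hd : 0 < d) {z : Fin N → ℂ} (hz : z ≠ 0) :
    ContDiffAt ℝ 2 (D.G cB ga d) z := by
  have a1 : ContDiffAt ℝ 2 (fun w : Fin N → ℂ => ∑ j, (D.ch d w j : ℂ) * pl ga (D.M j) (w j)) z :=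
    ContDiffAt.sum fun j _ => contDiffAt_T D ga hd hz j
  have a2 : ContDiffAt ℝ 2 (fun w : Fin N → ℂ => cB * ga * ∑ e ∈ D.C, D.Be d e w) z :=
    contDiffAt_const.mul (ContDiffAt.sum fun e _ => contDiffAt_Be D hd hz e)
  exact a1.sub (Complex.ofRealCLM.contDiff.contDiffAt.comp z a2)

theorem contDiffOn_G (cB ga : ℝ) {d : ℝ} (hd : 0 < d) :
    ContDiffOn ℝ 2 (D.G cB ga d) {0}ᶜ := fun _ hz =>
  (contDiffAt_G D cB ga hd hz).contDiffWithinAt

/-- **smoothness** (for every choice of the parameters). -/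
theorem smooth : D.Smooth :=
  ⟨1, one_pos, fun c _ => ⟨1, one_pos, fun g _ _ => ⟨1, one_pos, fun _ hd _ =>
    contDiffOn_G D c g hd⟩⟩⟩

end D

end Crest.Agent.R267.Smooth_957
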