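import Crest.Agent.R267.EndJ_864
import Crest.Agent.R267.K2_996
import Crest.Agent.R267.R4_996
import Crest.Agent.R267.Smooth_957
import Crest.Agent.R267.GlueDefs_322

/-!
# Row 267, T3-end: the hypotheses of the flow-line theorem for `LD`
-/

set_option autoImplicit false

namespace Crest.Agent.R267.EndK_864

open Set Metric Filter Topology
open scoped RealInnerProductSpace
open Crest.Agent.R267.GS_808 Crest.Agent.R267.EndDef_864 Crest.Agent.R267.EndBas_864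
  Crest.Agent.R267.EndG_864 Crest.Agent.R267.EndH_864 Crest.Agent.R267.EndF_864
  Crest.Agent.R267.EndI_864 Crest.Agent.R267.EndJ_864 Crest.Agent.R267.T3aDefs_957

variable {n m : ℕ}

/-- **pointwise hypotheses of the flow-line theorem** (besides the tubes). -/
structure Hyp (G : (Fin (n + 3) → ℂ) → ℂ) (L : LS n m) : Prop where
  sm : ContDiffOn ℝ 2 G {0}ᶜ
  hom : ∀ (l : ℝ) z, 0 < l → G (l • z) = l • G z
  s0 : ∀ z : Fin (n + 3) → ℂ, (∀ j, (z j).re = 0) → (G z).re = 0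
  k1 : ∀ z : Fin (n + 3) → ℂ, z ≠ 0 → (G z).im = 0 → 0 ≤ (G z).re →
    ∃ Y : Fin (n + 3) → ℝ, (fderiv ℝ G z (LD.vt Y)).im ≠ 0
  k2 : ∀ z : Fin (n + 3) → ℂ, z ≠ 0 → G z = 0 → ∃ (a : ℝ) (Y : Fin (n + 3) → ℝ), 0 ≤ a ∧
    (fderiv ℝ G z (LD.vs a Y)).im = 0 ∧ 0 < (fderiv ℝ G z (LD.vs a Y)).re
  c00 : ∀ h : ℝ, (G fun _ => Complex.I * (h : ℂ)).im = 0 → h = 0
  low : ∀ z : Fin (n + 3) → ℂ, (∀ j, (z j).re < 0) → 0 < (G z).re
  r4 : ∀ (z : Fin (n + 3) → ℂ) (l : ℝ), 0 < l → (∀ j, (z j).re = l) → (G z).im = 0 →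
    0 ≤ (G z).re → ∃ (k : Fin m) (Y : Fin (n + 3) → ℝ),
      (fderiv ℝ G z (LD.vt Y)).im = 0 ∧ (fderiv ℝ G z (LD.vt Y)).re ≤ 0 ∧
      (G z = 0 → (fderiv ℝ G z (LD.vt Y)).re < 0) ∧
      (∀ j, ((z j).im - L.sg k j * (z j).re) ^ 2 ≤ Y j * ((z j).im - L.sg k j * (z j).re)) ∧
      ∀ j, |(z j).im - L.sg k j * (z j).re| < 2 * (z j).re

lemma cen_of {z : Fin (n + 3) → ℂ} {l : ℝ} (hl : 0 < l) (h : ∀ j, (z j).re = l) : LD.Cen z := by
  intro j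
  rw [h j]
  refine ⟨hl, ?_⟩
  have h1 : ∑ i, (z i).re ^ 2 = (n + 3) * l ^ 2 := by
    rw [Finset.sum_congr rfl fun i _ => by rw [h i], Finset.sum_const, Finset.card_univ,
      Fintype.card_fin, nsmul_eq_mul]
    push_cast
    ring
  rw [h1, Real.sqrt_le_left (by positivity)]
  push_cast
  have h2 : (0 : ℝ) ≤ n := Nat.cast_nonneg n
  have h3 : (n + 3 : ℝ) ≤ (2 * (n + 3)) ^ 2 := by nlinarith
  calc (n + 3 : ℝ) * l ^ 2 ≤ (2 * (n + 3)) ^ 2 * l ^ 2 := by gcongr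
    _ = _ := by ring

/-- **hypotheses for `LD`**. -/
theorem hyp (D : LD (n + 3)) (e : Fin m ≃ {k : Fin (n + 3) → ℕ // D.Let k}) :
    LD.Ev fun cB ga d => Hyp (D.G cB ga d) (ls D e) ∧ ga ≤ 1 ∧ d ≤ dJ D := by
  have hS : D.Smooth := Smooth_957.smooth D
  have hc : LD.Ev fun _ ga d => ga ≤ 1 ∧ d ≤ dJ D :=
    ⟨1, one_pos, fun c _ => ⟨1, one_pos, fun g _ hg => ⟨dJ D, dJ_pos D, fun d _ hd => ⟨hg, hd⟩⟩⟩⟩
  have h1 := (((hS.and (K1_996.k1 D hS)).and (K2_996.k2 D (by omega) hS)).and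
    (R4_996.r4' D hS)).and hc
  refine h1.mono fun cB ga d hcB hga hd ⟨⟨⟨⟨h1, h2⟩, h3⟩, h4⟩, h5, h6⟩ => ⟨?_, h5, h6⟩
  have hdK := hdK_of D hd h6
  have hG : (gf D cB hga h5 hd hdK).G = D.G cB ga d := rfl
  refine ⟨h1, ?_, ?_, h2, h3, ?_, ?_, ?_⟩
  · intro l z hl
    exact GlBas_322.Gx_smul D (chi d) cB ga hl z
  · intro z hz
    exact (gf D cB hga h5 hd hdK).s0 hz
  · intro h hz
    exact (gf D cB hga h5 hd hdK).c00 hz
  · intro z hz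
    exact (gf D cB hga h5 hd hdK).low hz
  · intro z l hl hz him hre
    have hz0 : z ≠ 0 := by
      intro h
      have := hz 0
      rw [h] at this
      exact hl.ne this
    obtain ⟨k, Y, a1, a2, a3, a4, a5, a6⟩ := h4 z hz0 (cen_of hl hz) him hre
    have e1 : ∀ j, (ls D e).sg (e.symm ⟨k, a1⟩) j = sg (k j) := by
      intro j
      rw [ls_sg, Equiv.apply_symm_apply]
    refine ⟨e.symm ⟨k, a1⟩, Y, a2, a3, a4, ?_, ?_⟩
    · intro j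
      rw [e1]
      exact a5 j
    · intro j
      rw [e1]
      exact a6 j

/-- conclusion of the flow-line theorem for given data. -/
def FlP (L : LS n m) (Q : Par n) (hsm : ∀ k l j, L.sg k j ≠ L.sg l j →
    Q.ep * (‖vec (n := n) (L.V k)‖ + ‖vec (n := n) (L.V l)‖) < Q.d * |L.sg k j - L.sg l j|)
    (G : (Fin (n + 3) → ℂ) → ℂ) (κ2 : ℝ) : Prop :=
  ∃ r0 : ℝ, 0 < r0 ∧ ∀ r, 0 < r → r < r0 → ∃ ε : ℝ, 0 < ε ∧ FLOut G (hd L Q hsm) Q.e κ2 ε r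

open Classical in
/-- **T3aP from the flow-line theorem**. -/
theorem t3aP_of (D : LD (n + 3)) (hC : ∀ (m : ℕ) (e : Fin m ≃ {k : Fin (n + 3) → ℕ // D.Let k})
    (Q : Par n) (hsm : ∀ k l j, (ls D e).sg k j ≠ (ls D e).sg l j →
      Q.ep * (‖vec (n := n) ((ls D e).V k)‖ + ‖vec (n := n) ((ls D e).V l)‖) <
        Q.d * |(ls D e).sg k j - (ls D e).sg l j|) (G : (Fin (n + 3) → ℂ) → ℂ) (r2 Vm : ℝ),
      Hyp G (ls D e) → 0 < r2 → Q.e = Q.d / 2 → (∀ k j, |(ls D e).sg k j| ≤ D.K1 - 1) →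
      (∀ k, ‖vec (n := n) ((ls D e).V k)‖ ≤ Vm) → 0 ≤ Vm → r2 + Q.ep * Vm ≤ Q.d →
      (1 + √(n + 3 : ℝ)) * (Q.ep * Vm) < Q.d → Q.ep * Vm < 1 →
      (∀ (s t : W n) (k : Fin m), s ≠ 0 → ‖t - (hd (ls D e) Q hsm).eta k s‖ ≤ r2 * ‖s‖ →
        (G (zc s t)).im = ⟪(hd (ls D e) Q hsm).nrm k s, t - (hd (ls D e) Q hsm).eta k s⟫ ∧
          0 < (G (zc s t)).re) →
      FlP (ls D e) Q hsm G D.K1) : GlueDefs_322.T3aP D := by
  obtain ⟨m, ⟨e⟩⟩ := exists_enum D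
  refine (hyp D e).mono fun cB ga d hcB hga hd' h => ?_
  obtain ⟨h1, h2, h3⟩ := h
  obtain ⟨Vm, hVm0, hVm⟩ := exists_Vm D e
  have hN := sqrt_pos n
  have hdK := hdK_of D hd' h3
  have hdN := hdN_of D hd' h3
  have hη : 0 < d / (4 * (1 + √(n + 3 : ℝ)) * (Vm + 1)) := by positivity
  obtain ⟨Q, hQd, hQe, hQep, hsm⟩ := exists_par (ls D e) hVm (ls_gap D e) hd' hdN hη
  have hep0 := Q.hep
  set P := gf D cB hga h2 hd' hdK with hP
  have hd1 : d < 1 := P.d_lt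
  have hepV : (1 + √(n + 3 : ℝ)) * (Q.ep * Vm) ≤ d / 4 := by
    rw [le_div_iff₀ (by positivity)] at hQep
    have h4 : Q.ep * (4 * (1 + √(n + 3 : ℝ)) * (Vm + 1)) =
        4 * ((1 + √(n + 3 : ℝ)) * (Q.ep * Vm)) + 4 * (1 + √(n + 3 : ℝ)) * Q.ep := by ring
    have h5 : 0 < 4 * (1 + √(n + 3 : ℝ)) * Q.ep := by positivity
    linarith
  have hepV0 : 0 ≤ Q.ep * Vm := mul_nonneg hep0.le hVm0
  have hepV' : Q.ep * Vm ≤ d / 4 := by nlinarith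
  have hNear := near D e cB hga h2 hd' hdK
  have hr2 : d / 2 + Q.ep * Vm ≤ P.d := by
    show d / 2 + Q.ep * Vm ≤ d
    linarith
  have hQP : Q.d = P.d := hQd
  have F : Facts P.G (hd (ls D e) Q hsm) (d / 2) d :=
    P.facts hsm hNear hQP h1.sm.continuousOn h1.hom hVm hr2 le_rfl
  have hK1 := one_le_K1 D
  obtain ⟨S, hS1, hS2⟩ := final (ls D e) Q hsm (κ2 := D.K1) F (by positivity) (by linarith)
    (by linarith : D.K1 - 1 + Q.ep * Vm < D.K1) hK1 hNear.sgK hVm (by linarith) hVm0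
    (hC m e Q hsm (D.G cB ga d) (d / 2) Vm h1 (by positivity) (by rw [hQe, hQd]) hNear.sgK hVm hVm0
      (by rw [hQd]; exact hr2) (by rw [hQd]; linarith) (by linarith)
      fun s t k hs ht => GF.tube (P := P) (ls D e) Q hsm hNear hQP hVm hr2 s t k hs ht)
  rw [mat_eq D e Q hsm] at hS1
  exact ⟨m, e, S, hS1, hS2⟩

end Crest.Agent.R267.EndK_864
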