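import Crest.Agent.R267.EndK_864
import Crest.Agent.R267.Carve3_363

/-!
# Row 267: T3aP (unsigned): the link of the lobed function is a graph link
-/

set_option autoImplicit false

namespace Crest.Agent.R267.EndL_864

open scoped RealInnerProductSpace
open Crest.Agent.R267.EndDef_864 Crest.Agent.R267.EndG_864 Crest.Agent.R267.EndH_864
  Crest.Agent.R267.EndJ_864 Crest.Agent.R267.EndK_864 Crest.Agent.R267.T3aDefs_957
  Crest.Agent.R267.Carve3_363

variable {n : ℕ}

/-- **T3a**. -/
theorem t3aP (D : LD (n + 3)) : GlueDefs_322.T3aP D := by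
  refine t3aP_of D fun m e Q hsm G r2 Vm H hr2 _ hSg hVm hVm0 _ _ hepV htube => ?_
  have hK1 := one_le_K1 D
  have H3 : CF (ls D e) Q hsm 4 r2 D.K1 G :=
    { hp := by norm_num
      rays := fun k j => ⟨(e k).1 j, by rw [ls_sg]; unfold sg; ring⟩
      hr2 := hr2
      hκ2 := by linarith
      T1 := T1_of (ls D e) Q hsm hSg hVm (by linarith) (by linarith)
      sm := H.sm
      hom := H.hom
      S0 := H.s0
      K1 := H.k1
      K2 := H.k2
      c00 := H.c00
      low := H.low
      tube := htube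
      R4 := fun l x hl hx him hre => by
        obtain ⟨k, Y, a1, a2, a3, a4, a5⟩ := H.r4 x l hl hx him hre
        refine ⟨k, Y, a1, a2, fun h => a3 (Complex.ext h him), fun j => ⟨?_, ?_⟩⟩
        · have := a4 j
          rwa [hx j, mul_comm (Y j)] at this
        · have := a5 j
          rwa [hx j] at this }
  obtain ⟨r0, h0, h1⟩ := carve3 H3
  refine ⟨r0, h0, fun r hr hr' => ?_⟩
  obtain ⟨ε0, h2, h3⟩ := h1 r hr hr'
  exact ⟨ε0, h2, h3 ε0 h2 le_rfl⟩

end Crest.Agent.R267.EndL_864
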