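import Crest.Agent.R267.T3aNBas_277

/-!
# Row 267, T3aN end instance (helper277), part 1: the gauges

* `exists_large` : some relative size is at least `cl N K > 0`;
* `phi_strictMono` : `∑ χ_j t_j` is strictly increasing in the direction `(1, …, 1)` (`LD`);
* `cmp D` : the unsigned data with the same gauges as the signed data `D : SD N`.
-/

set_option autoImplicit false

noncomputable section

namespace Crest.Agent.R267.EndN1_277

open Finset
open Crest.Agent.R267.T3aDefs_957 Crest.Agent.R267.Calc_957 Crest.Agent.R267.Calc2_957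
  Crest.Agent.R267.Calc3_957

variable {N : ℕ}

/-! ### sizes -/

/-- lower bound of the largest relative size. -/
def cl (N : ℕ) (K : ℝ) : ℝ := √(1 / ((N : ℝ) * (96 * K ^ 2 + 98)))

theorem cl_pos {N : ℕ} (hN : 0 < N) (K : ℝ) : 0 < cl N K := by
  unfold cl
  have : (0 : ℝ) < N := by exact_mod_cast hN
  refine Real.sqrt_pos.2 ?_
  positivity

theorem exists_large (K K1 : ℝ) {z : Fin N → ℂ} (hz : z ≠ 0) :
    ∃ j, cl N K ≤ pg K (z j) / NN K1 z := by
  by_contra hcon
  push Not at hcon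
  have hN0 : 0 < N := by
    rcases Nat.eq_zero_or_pos N with h | h
    · subst h
      exact absurd (Subsingleton.elim z 0) hz
    · exact h
  have hN : (0 : ℝ) < N := by exact_mod_cast hN0
  have hNN : 0 < NN K1 z := NN_pos hz
  have hq : (0 : ℝ) < 96 * K ^ 2 + 98 := by positivity
  have h1 : ∀ j, (z j).re ^ 2 + (z j).im ^ 2 ≤
      (96 * K ^ 2 + 97) * (1 / ((N : ℝ) * (96 * K ^ 2 + 98))) * NN K1 z ^ 2 := by
    intro j
    refine (T3aNBas_277.pg_sq_ge K (z j)).trans ?_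
    have h2 : pg K (z j) = (pg K (z j) / NN K1 z) * NN K1 z := by
      rw [div_mul_cancel₀ _ hNN.ne']
    have h3 : 0 ≤ pg K (z j) / NN K1 z := div_nonneg (pg_nonneg _ _) hNN.le
    have h4 : (pg K (z j) / NN K1 z) ^ 2 ≤ 1 / ((N : ℝ) * (96 * K ^ 2 + 98)) := by
      have h5 : (pg K (z j) / NN K1 z) ^ 2 ≤ (cl N K) ^ 2 := pow_le_pow_left₀ h3 (hcon j).le 2
      rwa [cl, Real.sq_sqrt (by positivity)] at h5
    rw [h2, mul_pow, mul_assoc]
    refine mul_le_mul_of_nonneg_left ?_ (by positivity)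
    exact mul_le_mul_of_nonneg_right h4 (by positivity)
  have h2 := T3aNBas_277.NN_sq_le K1 z
  have h3 : ∑ j, ((z j).re ^ 2 + (z j).im ^ 2) ≤
      N * ((96 * K ^ 2 + 97) * (1 / ((N : ℝ) * (96 * K ^ 2 + 98))) * NN K1 z ^ 2) := by
    refine (Finset.sum_le_sum fun j _ => h1 j).trans ?_
    rw [Finset.sum_const, Finset.card_univ, Fintype.card_fin, nsmul_eq_mul]
  have h4 : (N : ℝ) * ((96 * K ^ 2 + 97) * (1 / ((N : ℝ) * (96 * K ^ 2 + 98))) *
      NN K1 z ^ 2) < NN K1 z ^ 2 := by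
    have h5 : (N : ℝ) * ((96 * K ^ 2 + 97) * (1 / ((N : ℝ) * (96 * K ^ 2 + 98))) *
        NN K1 z ^ 2) = (96 * K ^ 2 + 97) / (96 * K ^ 2 + 98) * NN K1 z ^ 2 := by
      field_simp
    rw [h5]
    have h6 : (96 * K ^ 2 + 97) / (96 * K ^ 2 + 98) < 1 := by
      rw [div_lt_one hq]
      linarith
    have h7 : 0 < NN K1 z ^ 2 := by positivity
    nlinarith
  linarith

/-- `|t_j| ≤ C pg`. -/
theorem abs_im_le_pg (K : ℝ) (w : ℂ) : |w.im| ≤ √(96 * K ^ 2 + 96) * pg K w := by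
  have h1 : w.im ^ 2 ≤ (96 * K ^ 2 + 96) * gq K (w.re ^ 2) (w.im ^ 2) :=
    le_gq' (sq_nonneg _) (sq_nonneg _)
  rw [← pg_sq] at h1
  rw [← Real.sqrt_sq_eq_abs, show √(96 * K ^ 2 + 96) * pg K w =
    √((96 * K ^ 2 + 96) * pg K w ^ 2) by
      rw [Real.sqrt_mul (by positivity), Real.sqrt_sq (pg_nonneg _ _)]]
  exact Real.sqrt_le_sqrt h1

theorem abs_im_le_NN (K : ℝ) (z : Fin N → ℂ) (j : Fin N) :
    |(z j).im| ≤ √(96 * K ^ 2 + 96) * NN K z := by
  have h1 : BB z ≤ (96 * K ^ 2 + 96) * gq K (AA z) (BB z) := le_gq' (AA_nonneg z) (BB_nonneg z)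
  rw [← NN_sq] at h1
  rw [← Real.sqrt_sq_eq_abs, show √(96 * K ^ 2 + 96) * NN K z =
    √((96 * K ^ 2 + 96) * NN K z ^ 2) by
      rw [Real.sqrt_mul (by positivity), Real.sqrt_sq (NN_nonneg _ _)]]
  exact Real.sqrt_le_sqrt ((im_sq_le_BB z j).trans h1)

/-! ### monotonicity -/

/-- the point `z + i h (1, …, 1)`. -/
def up (z : Fin N → ℂ) (h : ℝ) : Fin N → ℂ := fun j => z j + Complex.I * (h : ℂ)

@[simp] theorem up_re (z : Fin N → ℂ) (h : ℝ) (j : Fin N) : (up z h j).re = (z j).re := by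
  simp [up]

@[simp] theorem up_im (z : Fin N → ℂ) (h : ℝ) (j : Fin N) : (up z h j).im = (z j).im + h := by
  simp [up]

theorem up_ne {z : Fin N → ℂ} (hz : ∃ j, (z j).re ≠ 0) (h : ℝ) : up z h ≠ 0 := by
  obtain ⟨j, hj⟩ := hz
  intro h0
  apply hj
  have := congrArg (fun w : Fin N → ℂ => (w j).re) h0
  simpa using this

theorem hasDerivAt_up (z : Fin N → ℂ) (h : ℝ) :
    HasDerivAt (fun h : ℝ => up z h) (fun _ => Complex.I) h := by
  refine hasDerivAt_pi.2 fun j => ?_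
  have h1 : HasDerivAt (fun h : ℝ => (h : ℂ)) ((1 : ℝ) : ℂ) h := (hasDerivAt_id h).ofReal_comp
  have h2 := (h1.const_mul Complex.I).const_add (z j)
  simpa [up] using h2

section LD

variable (D : LD N)

theorem hasDerivAt_phi {d : ℝ} (hd : 0 < d) (z : Fin N → ℂ) (h : ℝ) (hz : up z h ≠ 0) :
    HasDerivAt (fun h : ℝ => ∑ j, D.ch d (up z h) j * ((z j).im + h))
      (∑ j, (dch D d (up z h) j (fun _ => Complex.I) * ((z j).im + h) + D.ch d (up z h) j * 1))
      h := by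
  refine HasDerivAt.fun_sum fun j _ => ?_
  have h1 := (hasFDerivAt_ch D hd hz j).comp_hasDerivAt h (hasDerivAt_up z h)
  have h2 : HasDerivAt (fun h : ℝ => (z j).im + h) 1 h := (hasDerivAt_id h).const_add _
  exact h1.mul h2

theorem dNN_I (K : ℝ) (z : Fin N → ℂ) : dNN K z (fun _ => Complex.I) =
    gB K (AA z) (BB z) / NN K z * ∑ i, (z i).im := by
  unfold dNN sr si
  simp [Finset.mul_sum]

theorem abs_dNN_I (K : ℝ) {z : Fin N → ℂ} (hz : z ≠ 0) :
    |dNN K z (fun _ => Complex.I)| ≤ N * √(96 * K ^ 2 + 96) := by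
  have hp : 0 < NN K z := NN_pos hz
  rw [dNN_I, abs_mul, abs_div, abs_of_pos hp,
    abs_of_nonneg (gB_nonneg (AA_nonneg z) (BB_nonneg z))]
  have h1 : |∑ i, (z i).im| ≤ N * (√(96 * K ^ 2 + 96) * NN K z) := by
    refine (Finset.abs_sum_le_sum_abs _ _).trans ?_
    refine (Finset.sum_le_sum fun i _ => abs_im_le_NN K z i).trans ?_
    rw [Finset.sum_const, Finset.card_univ, Fintype.card_fin, nsmul_eq_mul]
  have h2 : gB K (AA z) (BB z) / NN K z ≤ 1 / NN K z :=
    div_le_div_of_nonneg_right (gB_le (AA_nonneg z) (BB_nonneg z)) hp.le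
  calc gB K (AA z) (BB z) / NN K z * |∑ i, (z i).im| ≤
        1 / NN K z * (N * (√(96 * K ^ 2 + 96) * NN K z)) :=
        mul_le_mul h2 h1 (abs_nonneg _) (by positivity)
    _ = N * √(96 * K ^ 2 + 96) := by field_simp

/-- constant of the bad term. -/
def Cb : ℝ := 15 / 2 * (N * √(96 * D.K1 ^ 2 + 96) * √(96 * D.K ^ 2 + 96))

theorem Cb_nonneg : 0 ≤ Cb D := by unfold Cb; positivity

theorem term_ge {d : ℝ} (hd : 0 < d) {w : Fin N → ℂ} (hw : w ≠ 0) (j : Fin N) :
    -(d * Cb D) ≤ dch D d w j (fun _ => Complex.I) * (w j).im := by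
  have hp : 0 < NN D.K1 w := NN_pos hw
  set x := D.xr w j with hx
  have hx0 : 0 ≤ x := xr_nonneg D w j
  have h1 : dch D d w j (fun _ => Complex.I) = chid d x * (pt D.K (w j) / NN D.K1 w) -
      chid d x * x / NN D.K1 w * dNN D.K1 w (fun _ => Complex.I) := by
    unfold dch dxr
    simp only [ContinuousLinearMap.smul_apply, ContinuousLinearMap.sub_apply,
      ContinuousLinearMap.add_apply, smul_eq_mul, rej_apply, imj_apply, Complex.I_re,
      Complex.I_im, ← hx]
    ring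
  have h2 : 0 ≤ chid d x * (pt D.K (w j) / NN D.K1 w) * (w j).im := by
    have h3 := pt_mul_nonneg D.K (w j)
    have h4 : chid d x * (pt D.K (w j) / NN D.K1 w) * (w j).im =
        chid d x * (pt D.K (w j) * (w j).im) / NN D.K1 w := by ring
    rw [h4]
    exact div_nonneg (mul_nonneg (chid_nonneg hd x) h3) hp.le
  have h3 : |chid d x * x / NN D.K1 w * dNN D.K1 w (fun _ => Complex.I) * (w j).im| ≤
      d * Cb D := by
    have h4 : |(w j).im| ≤ √(96 * D.K ^ 2 + 96) * (x * NN D.K1 w) := by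
      have h5 : x * NN D.K1 w = pg D.K (w j) := div_mul_cancel₀ _ hp.ne'
      rw [h5]
      exact abs_im_le_pg D.K (w j)
    have h5 := abs_dNN_I D.K1 hw
    have h6 : chid d x * x * x ≤ 15 / 4 * (2 * d) := by
      rcases le_total (2 * d) x with h7 | h7
      · rw [chid_of_ge hd h7, zero_mul, zero_mul]
        positivity
      · have h8 : x * chid d x ≤ 15 / 4 := mul_chid_le hd
        calc chid d x * x * x = (x * chid d x) * x := by ring
          _ ≤ 15 / 4 * (2 * d) := mul_le_mul h8 h7 hx0 (by norm_num)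
    rw [abs_mul, abs_mul, abs_div, abs_of_pos hp,
      abs_of_nonneg (mul_nonneg (chid_nonneg hd x) hx0)]
    calc chid d x * x / NN D.K1 w * |dNN D.K1 w (fun _ => Complex.I)| * |(w j).im| ≤
          chid d x * x / NN D.K1 w * (N * √(96 * D.K1 ^ 2 + 96)) *
            (√(96 * D.K ^ 2 + 96) * (x * NN D.K1 w)) := by
          have h9 : 0 ≤ chid d x * x / NN D.K1 w :=
            div_nonneg (mul_nonneg (chid_nonneg hd x) hx0) hp.le
          exact mul_le_mul (mul_le_mul_of_nonneg_left h5 h9) h4 (abs_nonneg _)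
            (mul_nonneg h9 (by positivity))
      _ = (chid d x * x * x) * (N * √(96 * D.K1 ^ 2 + 96) * √(96 * D.K ^ 2 + 96)) := by
          field_simp
      _ ≤ (15 / 4 * (2 * d)) * (N * √(96 * D.K1 ^ 2 + 96) * √(96 * D.K ^ 2 + 96)) :=
          mul_le_mul_of_nonneg_right h6 (by positivity)
      _ = d * Cb D := by unfold Cb; ring
  have h4 := (abs_le.1 h3).2
  rw [h1, sub_mul]
  linarith

/-- threshold. -/
def dm : ℝ := min (cl N D.K / 2) (1 / (N * Cb D + 1))

theorem dm_pos (hN : 0 < N) : 0 < dm D := by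
  unfold dm
  have h1 := cl_pos hN D.K
  have h2 := Cb_nonneg D
  have h3 : (0 : ℝ) < N := by exact_mod_cast hN
  exact lt_min (by linarith) (by positivity)

/-- **monotonicity.** -/
theorem phi_strictMono {d : ℝ} (hd : 0 < d) (hd1 : d ≤ dm D) {z : Fin N → ℂ}
    (hz : ∃ j, (z j).re ≠ 0) :
    StrictMono fun h : ℝ => ∑ j, D.ch d (up z h) j * ((z j).im + h) := by
  refine strictMono_of_deriv_pos fun h => ?_
  have hw := up_ne hz h
  rw [(hasDerivAt_phi D hd z h hw).deriv, Finset.sum_add_distrib]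
  have h1 : -(N * (d * Cb D)) ≤ ∑ j, dch D d (up z h) j (fun _ => Complex.I) * ((z j).im + h) := by
    have h2 : ∑ _j : Fin N, -(d * Cb D) ≤
        ∑ j, dch D d (up z h) j (fun _ => Complex.I) * ((z j).im + h) := by
      refine Finset.sum_le_sum fun j _ => ?_
      have h3 := term_ge D hd hw j
      rwa [up_im] at h3
    rw [Finset.sum_const, Finset.card_univ, Fintype.card_fin, nsmul_eq_mul] at h2
    linarith
  have h2 : 1 ≤ ∑ j, D.ch d (up z h) j * 1 := by
    obtain ⟨j, hj⟩ := exists_large D.K D.K1 hw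
    have h3 : D.ch d (up z h) j = 1 := by
      refine chi_of_ge hd ?_
      have h4 : dm D ≤ cl N D.K / 2 := min_le_left _ _
      show 2 * d ≤ pg D.K (up z h j) / NN D.K1 (up z h)
      linarith
    calc (1 : ℝ) = D.ch d (up z h) j * 1 := by rw [h3, mul_one]
      _ ≤ ∑ j, D.ch d (up z h) j * 1 :=
        Finset.single_le_sum (f := fun j => D.ch d (up z h) j * 1)
          (fun i _ => mul_nonneg (ch_nonneg D d _ i) zero_le_one) (mem_univ j)
  have h3 : N * (d * Cb D) < 1 := by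
    have h4 : d ≤ 1 / (N * Cb D + 1) := hd1.trans (min_le_right _ _)
    have h5 := Cb_nonneg D
    have h6 : (0 : ℝ) ≤ N := Nat.cast_nonneg N
    have h7 : (0 : ℝ) < N * Cb D + 1 := by positivity
    rw [le_div_iff₀ h7] at h4
    nlinarith
  linarith

/-- the derivative-free form. -/
theorem phi_lt {d : ℝ} (hd : 0 < d) (hd1 : d ≤ dm D) {z : Fin N → ℂ} (hz : ∃ j, (z j).re ≠ 0)
    {h h' : ℝ} (hh : h < h') : ∑ j, D.ch d (up z h) j * (up z h j).im <
      ∑ j, D.ch d (up z h') j * (up z h' j).im := by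
  simp only [up_im]
  exact phi_strictMono D hd hd1 hz hh

end LD

/-! ### comparison of the signed and the unsigned data -/

section SD

open Crest.Agent.R267.T3aNDefs_88 (SD)

variable (D : SD N)

/-- the unsigned data with the same gauges. -/
def cmp : LD N where
  M := fun j => 2 * D.M j
  hM := fun j => by have := D.hM j; omega
  C := ∅
  hC := fun e he => absurd he (Finset.notMem_empty e)

theorem cmp_K1 : (cmp D).K1 = D.K1 := by
  unfold LD.K1 SD.K1 LD.Mx SD.Mx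
  have h1 : ∑ j, (cmp D).M j = 2 * ∑ j, D.M j := by
    rw [Finset.mul_sum]
    rfl
  rw [h1]
  push_cast
  ring

theorem cmp_K : (cmp D).K = D.K := by
  unfold LD.K SD.K
  rw [cmp_K1]

theorem cmp_ch (d : ℝ) (z : Fin N → ℂ) (j : Fin N) : (cmp D).ch d z j = D.ch d z j := by
  unfold LD.ch SD.ch LD.xr SD.xr
  rw [cmp_K1, cmp_K]

/-- threshold. -/
def dN : ℝ := dm (cmp D)

theorem dN_pos (hN : 0 < N) : 0 < dN D := dm_pos (cmp D) hN

theorem chN_lt {d : ℝ} (hd : 0 < d) (hd1 : d ≤ dN D) {z : Fin N → ℂ} (hz : ∃ j, (z j).re ≠ 0)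
    {h h' : ℝ} (hh : h < h') : ∑ j, D.ch d (up z h) j * (up z h j).im <
      ∑ j, D.ch d (up z h') j * (up z h' j).im := by
  have h1 := phi_lt (cmp D) hd hd1 hz hh
  simpa only [cmp_ch] using h1

theorem exists_ch_one {d : ℝ} (hd : 0 < d) (hd1 : d ≤ dN D) {z : Fin N → ℂ} (hz : z ≠ 0) :
    ∃ j, D.ch d z j = 1 := by
  obtain ⟨j, hj⟩ := exists_large D.K D.K1 hz
  refine ⟨j, chi_of_ge hd ?_⟩
  have h1 : dN D ≤ cl N (cmp D).K / 2 := min_le_left _ _
  rw [cmp_K] at h1
  show 2 * d ≤ pg D.K (z j) / NN D.K1 z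
  linarith

/-- **mono** of the signed function. -/
theorem G_im_lt {c g d : ℝ} (hd : 0 < d) (hd1 : d ≤ dN D) {z : Fin N → ℂ}
    (hz : ∃ j, (z j).re ≠ 0) (hneg : ∀ j, (z j).re ≤ 0) {h h' : ℝ} (hh : h < h') :
    (D.G c g d (up z h')).im < (D.G c g d (up z h)).im := by
  rw [T3aNBas_277.G_im_of_nonpos D c g d fun j => by rw [up_re]; exact hneg j,
    T3aNBas_277.G_im_of_nonpos D c g d fun j => by rw [up_re]; exact hneg j]
  have h1 := chN_lt D hd hd1 hz hh
  simp only [mul_neg, Finset.sum_neg_distrib]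
  linarith

/-- **sgp** of the signed function. -/
theorem G_im_pos {c g d : ℝ} (hd : 0 < d) (hd1 : d ≤ dN D) (hN : 0 < N) {z : Fin N → ℂ}
    (hneg : ∀ j, (z j).re ≤ 0) (ht : ∀ j, (z j).im < 0) : 0 < (D.G c g d z).im := by
  have hz : z ≠ 0 := by
    intro h
    have := ht ⟨0, hN⟩
    rw [h] at this
    simp at this
  rw [T3aNBas_277.G_im_of_nonpos D c g d hneg]
  obtain ⟨j, hj⟩ := exists_ch_one D hd hd1 hz
  refine Finset.sum_pos' (fun i _ => mul_nonneg (T3aNBas_277.ch_nonneg D d z i)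
    (by linarith [ht i])) ⟨j, mem_univ _, ?_⟩
  rw [hj, one_mul]
  linarith [ht j]

/-- **sgn** of the signed function. -/
theorem G_im_neg {c g d : ℝ} (hd : 0 < d) (hd1 : d ≤ dN D) (hN : 0 < N) {z : Fin N → ℂ}
    (hneg : ∀ j, (z j).re ≤ 0) (ht : ∀ j, 0 < (z j).im) : (D.G c g d z).im < 0 := by
  have hz : z ≠ 0 := by
    intro h
    have := ht ⟨0, hN⟩
    rw [h] at this
    simp at this
  rw [T3aNBas_277.G_im_of_nonpos D c g d hneg]
  obtain ⟨j, hj⟩ := exists_ch_one D hd hd1 hz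
  have h1 : 0 < ∑ i, D.ch d z i * (z i).im := by
    refine Finset.sum_pos' (fun i _ => mul_nonneg (T3aNBas_277.ch_nonneg D d z i) (ht i).le)
      ⟨j, mem_univ _, ?_⟩
    rw [hj, one_mul]
    exact ht j
  simp only [mul_neg, Finset.sum_neg_distrib]
  linarith

end SD

end Crest.Agent.R267.EndN1_277
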