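import Crest.Agent.R267.EndG_864
import Crest.Agent.R267.T3aNDefs_88

/-!
# Row 267, T3aN end instance (helper277), part 2: the letters of a signed lobed function

`ls D e : LS n m`, `e : Fin m ≃ {k // D.Let k}`: slopes `sgN (k j)`, displacements
`sgN (k j) + sn * del * ∑ sgN (k i)`.
-/

set_option autoImplicit false

noncomputable section

namespace Crest.Agent.R267.EndN2_277

open Finset
open Crest.Agent.R267.T3aNDefs_88 Crest.Agent.R267.EndDef_864 Crest.Agent.R267.EndG_864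

theorem sgN_nonneg (l : ℕ) : 0 ≤ sgN l := by unfold sgN; positivity

theorem sgN_inj {l l' : ℕ} : sgN l = sgN l' ↔ l = l' := by
  unfold sgN
  constructor
  · intro h
    have : (l : ℝ) = l' := by linarith
    exact_mod_cast this
  · rintro rfl; rfl

theorem sgN_le {l l' : ℕ} : sgN l ≤ sgN l' ↔ l ≤ l' := by
  unfold sgN
  constructor
  · intro h
    have : (l : ℝ) ≤ l' := by linarith
    exact_mod_cast this
  · intro h
    have : (l : ℝ) ≤ l' := by exact_mod_cast h
    linarith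

theorem sgN_lt {l l' : ℕ} : sgN l < sgN l' ↔ l < l' := by
  rw [← not_le, sgN_le, not_le]

theorem sgN_sub {l l' : ℕ} (h : l < l') : 16 ≤ sgN l' - sgN l := by
  unfold sgN
  have : (l : ℝ) + 1 ≤ l' := by exact_mod_cast h
  linarith

/-- the letters are finitely many. -/
instance {N : ℕ} (D : SD N) : Finite {k : Fin N → ℕ // D.Let k} := by
  have : Finite (∀ j : Fin N, Fin (D.M j)) := inferInstance
  refine Finite.of_injective
    (fun k : {k : Fin N → ℕ // D.Let k} => fun j : Fin N => (⟨k.1 j, k.2.1 j⟩ : Fin (D.M j))) ?_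
  intro k l h
  refine Subtype.ext (funext fun j => ?_)
  exact congrArg Fin.val (congrFun h j)

theorem exists_enum {N : ℕ} (D : SD N) : ∃ m, Nonempty (Fin m ≃ {k : Fin N → ℕ // D.Let k}) :=
  ⟨_, ⟨(Finite.equivFin _).symm⟩⟩

variable {n m : ℕ} (D : SD (n + 3)) (e : Fin m ≃ {k : Fin (n + 3) → ℕ // D.Let k})

/-- slopes. -/
def sgl (a : Fin m) (j : Fin (n + 3)) : ℝ := sgN ((e a).1 j)

/-- sum of the slopes. -/
def Sl (a : Fin m) : ℝ := ∑ i, sgN ((e a).1 i)

/-- bound of the sums. -/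
def Bl : ℝ := ∑ i, sgN (D.M i)

/-- small number. -/
def del : ℝ := 1 / (1 + Bl D)

/-- displacements. -/
def Vl (a : Fin m) (j : Fin (n + 3)) : ℝ :=
  sgl D e a j + D.sn j ((e a).1 j) * (del D * Sl D e a)

/-- signs. -/
def ngl (a : Fin m) (j : Fin (n + 3)) : Bool := D.neg j ((e a).1 j)

theorem Bl_nonneg : 0 ≤ Bl D := Finset.sum_nonneg fun _ _ => sgN_nonneg _

theorem del_pos : 0 < del D := by
  unfold del
  have := Bl_nonneg D
  positivity

theorem Sl_nonneg (a : Fin m) : 0 ≤ Sl D e a := Finset.sum_nonneg fun _ _ => sgN_nonneg _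

theorem Sl_le (a : Fin m) : Sl D e a ≤ Bl D :=
  Finset.sum_le_sum fun i _ => sgN_le.2 ((e a).2.1 i).le

theorem del_Sl (a : Fin m) : 0 ≤ del D * Sl D e a ∧ del D * Sl D e a ≤ 1 := by
  have h1 := Bl_nonneg D
  have h2 := Sl_nonneg D e a
  have h3 := Sl_le D e a
  refine ⟨mul_nonneg (del_pos D).le h2, ?_⟩
  unfold del
  rw [one_div, inv_mul_le_iff₀ (by linarith)]
  linarith

theorem sgl_nonneg (a : Fin m) (j : Fin (n + 3)) : 0 ≤ sgl D e a j := sgN_nonneg _

theorem sgl_le (a : Fin m) (j : Fin (n + 3)) : sgl D e a j ≤ Bl D :=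
  (sgN_le.2 ((e a).2.1 j).le).trans
    (Finset.single_le_sum (f := fun i => sgN (D.M i)) (fun i _ => sgN_nonneg _) (mem_univ j))

theorem abs_sn (j : Fin (n + 3)) (l : ℕ) : |D.sn j l| = 1 := by
  unfold SD.sn
  split_ifs <;> simp

theorem abs_Vl_sub (a : Fin m) (j : Fin (n + 3)) : |Vl D e a j - sgl D e a j| ≤ 1 := by
  unfold Vl
  rw [add_sub_cancel_left, abs_mul, abs_sn, one_mul, abs_of_nonneg (del_Sl D e a).1]
  exact (del_Sl D e a).2

theorem Vl_lt_of_sgl_lt {a b : Fin m} {j : Fin (n + 3)} (h : sgl D e b j < sgl D e a j) :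
    Vl D e b j < Vl D e a j := by
  have h1 := sgN_sub (sgN_lt.1 h)
  have h2 := abs_le.1 (abs_Vl_sub D e a j)
  have h3 := abs_le.1 (abs_Vl_sub D e b j)
  have h4 : 16 ≤ sgl D e a j - sgl D e b j := h1
  linarith [h2.1, h3.2]

theorem Sl_lt {a b : Fin m} (hab : a ≠ b) (h : ∀ j, sgl D e b j ≤ sgl D e a j) :
    (∃ j, sgl D e b j < sgl D e a j) ∧ Sl D e b < Sl D e a := by
  have h1 : ∃ j, sgl D e b j < sgl D e a j := by
    by_contra hcon
    push Not at hcon
    apply hab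
    apply e.injective
    refine Subtype.ext (funext fun j => ?_)
    exact sgN_inj.1 (le_antisymm (hcon j) (h j))
  refine ⟨h1, ?_⟩
  obtain ⟨j, hj⟩ := h1
  exact Finset.sum_lt_sum (fun i _ => h i) ⟨j, mem_univ _, hj⟩

theorem sn_of_false {j : Fin (n + 3)} {l : ℕ} (h : D.neg j l = false) : D.sn j l = 1 := by
  unfold SD.sn
  rw [h]
  rfl

theorem sn_of_true {j : Fin (n + 3)} {l : ℕ} (h : D.neg j l = true) : D.sn j l = -1 := by
  unfold SD.sn
  rw [h]
  rfl

theorem pos_or_mix {a b : Fin m} (hab : a ≠ b) (h : ∀ j, sgl D e b j ≤ sgl D e a j) :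
    ((∀ j, sgl D e a j = sgl D e b j → ngl D e a j = false) ∧
      Pos (sgl D e) (Vl D e) (ngl D e) a b) ∨
    ((∃ j, sgl D e a j = sgl D e b j ∧ ngl D e a j = true) ∧
      Mix (sgl D e) (Vl D e) (ngl D e) a b) := by
  obtain ⟨h1, h2⟩ := Sl_lt D e hab h
  by_cases hc : ∀ j, sgl D e a j = sgl D e b j → ngl D e a j = false
  · refine Or.inl ⟨hc, h, h1, fun j => ?_, hc⟩
    rcases (h j).lt_or_eq with h3 | h3
    · exact Vl_lt_of_sgl_lt D e h3
    · have h4 : (e b).1 j = (e a).1 j := sgN_inj.1 h3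
      have h5 : D.sn j ((e a).1 j) = 1 := sn_of_false D (hc j h3.symm)
      unfold Vl
      rw [h3, h4, h5, one_mul, one_mul]
      have := mul_lt_mul_of_pos_left h2 (del_pos D)
      linarith
  · push Not at hc
    obtain ⟨j, hj1, hj2⟩ := hc
    have hj3 : ngl D e a j = true := by
      cases hh : ngl D e a j
      · exact absurd hh hj2
      · rfl
    obtain ⟨i, hi⟩ := h1
    refine Or.inr ⟨⟨j, hj1, hj3⟩, Or.inr ⟨h, i, j, hi, hj1, ?_, hj3⟩⟩
    have h4 : (e a).1 j = (e b).1 j := sgN_inj.1 hj1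
    have h5 : D.sn j ((e a).1 j) = -1 := sn_of_true D hj3
    unfold Vl
    rw [hj1, ← h4, h5]
    have := mul_lt_mul_of_pos_left h2 (del_pos D)
    linarith

/-- **the letters.** -/
def ls : LS n m where
  sg := sgl D e
  V := Vl D e
  neg := ngl D e
  ray := by
    intro k l j h
    have h1 : (e k).1 j = (e l).1 j := sgN_inj.1 h
    unfold ngl
    rw [h1]
  hV := by
    intro k l j h
    rcases lt_or_gt_of_ne h with h1 | h1
    · exact mul_pos_of_neg_of_neg (by linarith) (by linarith [Vl_lt_of_sgl_lt D e h1])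
    · exact mul_pos (by linarith) (by linarith [Vl_lt_of_sgl_lt D e h1])
  trich := by
    intro k l hkl
    by_cases h1 : ∀ j, sgl D e l j ≤ sgl D e k j
    · rcases pos_or_mix D e hkl h1 with h2 | h2
      · exact Or.inl h2.2
      · exact Or.inr (Or.inr (Or.inl h2.2))
    by_cases h2 : ∀ j, sgl D e k j ≤ sgl D e l j
    · rcases pos_or_mix D e (Ne.symm hkl) h2 with h3 | h3
      · exact Or.inr (Or.inl h3.2)
      · exact Or.inr (Or.inr (Or.inr h3.2))
    push Not at h1 h2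
    obtain ⟨j, hj⟩ := h1
    obtain ⟨i, hi⟩ := h2
    exact Or.inr (Or.inr (Or.inl (Or.inl ⟨i, j, hi, hj⟩)))

/-- `Pos` in terms of the letters. -/
theorem pos_iff {a b : Fin m} (hab : a ≠ b) : Pos (sgl D e) (Vl D e) (ngl D e) a b ↔
    (∀ j, (e b).1 j ≤ (e a).1 j) ∧ ∀ j, (e a).1 j = (e b).1 j → D.neg j ((e a).1 j) = false := by
  constructor
  · rintro ⟨h1, -, -, h4⟩
    exact ⟨fun j => sgN_le.1 (h1 j), fun j hj => h4 j (sgN_inj.2 hj)⟩
  · rintro ⟨h1, h2⟩
    rcases pos_or_mix D e hab fun j => sgN_le.2 (h1 j) with h3 | h3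
    · exact h3.2
    · obtain ⟨j, hj1, hj2⟩ := h3.1
      have h4 : ngl D e a j = false := h2 j (sgN_inj.1 hj1)
      rw [hj2] at h4
      exact absurd h4 (by decide)

open Classical in
/-- **the matrix of the letters**: `1` iff the letter `b` is `≤` the letter `a` and all common rays
are positive. -/
def matN : Matrix (Fin m) (Fin m) ℤ := Matrix.of fun a b =>
  if (∀ j, (e b).1 j ≤ (e a).1 j) ∧
    ∀ j, (e a).1 j = (e b).1 j → D.neg j ((e a).1 j) = false then 1 else 0

theorem mat_eq (Q : Par n) (hsm : ∀ k l j, (ls D e).sg k j ≠ (ls D e).sg l j →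
    Q.ep * (‖vec (n := n) ((ls D e).V k)‖ + ‖vec (n := n) ((ls D e).V l)‖) <
      Q.d * |(ls D e).sg k j - (ls D e).sg l j|) :
    (hd (ls D e) Q hsm).mat = matN D e := by
  classical
  ext a b
  unfold HD.mat matN
  rw [Matrix.of_apply]
  by_cases hab : a = b
  · subst hab
    rw [if_pos rfl]
    have h1 : (∀ j, (hd (ls D e) Q hsm).neg a j = false) ↔ ((∀ j, (e a).1 j ≤ (e a).1 j) ∧
        ∀ j, (e a).1 j = (e a).1 j → D.neg j ((e a).1 j) = false) :=
      ⟨fun h => ⟨fun j => le_rfl, fun j _ => h j⟩, fun h j => h.2 j rfl⟩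
    by_cases h2 : ∀ j, (hd (ls D e) Q hsm).neg a j = false
    · rw [if_pos h2, if_pos (h1.1 h2)]
    · rw [if_neg h2, if_neg fun h => h2 (h1.2 h)]
  · rw [if_neg hab]
    have h1 := pos_iff D e hab
    by_cases h2 : Pos (sgl D e) (Vl D e) (ngl D e) a b
    · rw [if_pos (h1.1 h2)]
      exact if_pos h2
    · rw [if_neg fun h => h2 (h1.2 h)]
      exact if_neg h2

end Crest.Agent.R267.EndN2_277
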