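import Crest.Agent.R267.EndN1_277
import Crest.Agent.R267.EndN2_277
import Crest.Agent.R267.EndH_864
import Crest.Agent.R267.CalcN_88

/-!
# Row 267, T3aN end instance (helper277), part 3: `Facts` and the tubes for the signed function

* `tube_im`, `tube_re` : near the strands `Im G = ⟪nrm k s, t - eta k s⟫`, `Re G > 0`;
* `lin` : near the plate `Im G = ⟪nz s, t⟫`;
* `facts` : `Facts (D.G c g d) (hd (ls D e) Q hsm) r2 κ1`.
-/

set_option autoImplicit false

noncomputable section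

namespace Crest.Agent.R267.EndN3_277

open Finset
open scoped RealInnerProductSpace
open Crest.Agent.R267.T3aDefs_957 (st pg NN chi Af Bf gq)
open Crest.Agent.R267.T3aNDefs_88 Crest.Agent.R267.EndDef_864 Crest.Agent.R267.EndBas_864
  Crest.Agent.R267.EndG_864 Crest.Agent.R267.EndH_864 Crest.Agent.R267.EndN1_277
  Crest.Agent.R267.EndN2_277
open Crest.Agent.R267.Calc_957 (st_of_ge st_of_le st_nonneg st_le_one Af_of_le Bf_of_abs_le)
open Crest.Agent.R267.Calc2_957 (pg_of_le pg_nonneg)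
open Crest.Agent.R267.Calc3_957 (AA BB NN_of_le chi_nonneg chi_of_ge pg_le_norm)

variable {n m : ℕ} (D : SD (n + 3))

/-! ### sizes -/

theorem AA_zc (s t : W n) : AA (zc s t) = ‖s‖ ^ 2 := by
  rw [norm_sq_def]; rfl

theorem BB_zc (s t : W n) : BB (zc s t) = ‖t‖ ^ 2 := by
  rw [norm_sq_def]; rfl

theorem K1_pos : 0 < D.K1 := by unfold SD.K1; positivity

theorem one_le_K1 : 1 ≤ D.K1 := by
  unfold SD.K1
  have h1 : (0 : ℝ) ≤ D.Mx := Nat.cast_nonneg _
  have h2 : (1 : ℝ) ≤ ((n + 3 : ℕ) : ℝ) := by exact_mod_cast (by omega : 1 ≤ n + 3)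
  nlinarith

theorem K1_le_K : D.K1 ≤ D.K := by
  unfold SD.K
  have h2 : (1 : ℝ) ≤ ((n + 3 : ℕ) : ℝ) := by exact_mod_cast (by omega : 1 ≤ n + 3)
  have h3 := K1_pos D
  nlinarith

theorem one_le_K : 1 ≤ D.K := (one_le_K1 D).trans (K1_le_K D)

theorem NN_zc {s t : W n} (h : ‖t‖ ≤ D.K1 * ‖s‖) : NN D.K1 (zc s t) = ‖s‖ := by
  rw [NN_of_le, AA_zc, Real.sqrt_sq (norm_nonneg _)]
  rw [AA_zc, BB_zc, ← mul_pow]
  exact pow_le_pow_left₀ (norm_nonneg _) h 2

/-- slopes are small compared with `K1`. -/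
theorem sgN_le_K1 {j : Fin (n + 3)} {l : ℕ} (hl : l < D.M j) : sgN l + 1 ≤ D.K1 := by
  have h1 : (l : ℝ) + 1 ≤ D.M j := by exact_mod_cast hl
  have h2 : (D.M j : ℝ) ≤ D.Mx := by
    exact_mod_cast Finset.single_le_sum (f := D.M) (fun _ _ => Nat.zero_le _) (mem_univ j)
  have h3 : (1 : ℝ) ≤ ((n + 3 : ℕ) : ℝ) := by exact_mod_cast (by omega : 1 ≤ n + 3)
  have h4 : (0 : ℝ) ≤ D.Mx := Nat.cast_nonneg _
  unfold sgN SD.K1
  nlinarith

theorem ch_of_le {d : ℝ} {s t : W n} (h : ‖t‖ ≤ D.K1 * ‖s‖) {j : Fin (n + 3)}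
    (hj : |t j| ≤ D.K * |s j|) : D.ch d (zc s t) j = chi d (|s j| / ‖s‖) := by
  unfold SD.ch SD.xr
  rw [NN_zc D h, pg_of_le ((zero_le_one).trans (one_le_K D)) (by exact hj)]
  rfl

theorem ch_zero {d : ℝ} (hd : 0 < d) {s t : W n} (hs : s ≠ 0) (h : ‖t‖ ≤ D.K1 * ‖s‖)
    {j : Fin (n + 3)} (hj : |s j| + |t j| ≤ d * ‖s‖) : D.ch d (zc s t) j = 0 := by
  have h0 : 0 < ‖s‖ := norm_pos_iff.2 hs
  unfold SD.ch SD.xr
  rw [NN_zc D h]
  refine chi_of_le hd ?_
  rw [div_le_iff₀ h0]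
  refine (pg_le_norm D.K (zc s t j)).trans (le_trans ?_ hj)
  exact Complex.norm_le_abs_re_add_abs_im _

/-! ### one coordinate near a strand -/

/-- the data of one coordinate: base value `b`. -/
theorem coord {d δ g : ℝ} (hd : 0 < d) (hδ0 : 0 ≤ δ) (hδ : (D.K + 1) * δ ≤ d)
    {s t : W n} (hs : s ≠ 0) (ht : ‖t‖ ≤ D.K1 * ‖s‖) {j : Fin (n + 3)} {l : ℕ}
    (hl : l < D.M j) (hg : 0 < g) (hg1 : g < 1)
    (h : |t j - max (‖s‖ * ppf d (s j / ‖s‖)) 0 * sgN l| ≤ δ * ‖s‖) :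
    D.ch d (zc s t) j * (plN g (D.sn j) (D.M j) (zc s t j)).im =
        (if D.neg j l then ymf d (s j / ‖s‖) else ypf d (s j / ‖s‖)) *
          (t j - max (‖s‖ * ppf d (s j / ‖s‖)) 0 * sgN l) ∧
      0 ≤ D.ch d (zc s t) j * (plN g (D.sn j) (D.M j) (zc s t j)).re ∧
      (2 * d * ‖s‖ ≤ |s j| → 0 < D.ch d (zc s t) j * (plN g (D.sn j) (D.M j) (zc s t j)).re) ∧
      (D.R d (zc s t) j = 0 ∨ |(zc s t j).im / (zc s t j).re - sgN l| ≤ 1) := by
  have h0 : 0 < ‖s‖ := norm_pos_iff.2 hs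
  have hK := one_le_K D
  have hδd : δ ≤ d := by nlinarith
  have hsg := sgN_le_K1 D hl
  have hsg0 := sgN_nonneg l
  have hKK := K1_le_K D
  have hre : (zc s t j).re = s j := rfl
  have him : (zc s t j).im = t j := rfl
  set x := s j / ‖s‖ with hx
  have hxs : s j = x * ‖s‖ := by rw [hx, div_mul_cancel₀ _ h0.ne']
  rcases lt_or_ge d x with h1 | h1
  · -- active, strand side
    have hsj : 0 < s j := by rw [hxs]; exact mul_pos (hd.trans h1) h0
    have hpp : ‖s‖ * ppf d x = s j := by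
      unfold ppf
      rw [st_of_ge ((one_le_div hd).2 h1.le), mul_one, hxs]
      ring
    rw [hpp, max_eq_left hsj.le] at h ⊢
    have h2 : δ * ‖s‖ ≤ s j := by
      rw [hxs]
      exact mul_le_mul_of_nonneg_right (hδd.trans h1.le) h0.le
    have h3 : |t j - s j * sgN l| ≤ s j := h.trans h2
    have h4 : |t j / s j - sgN l| ≤ 1 := by
      have h5 : t j / s j - sgN l = (t j - s j * sgN l) / s j := by
        field_simp
      rw [h5, abs_div, abs_of_pos hsj, div_le_one hsj]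
      exact h3
    have h5 : |t j| ≤ D.K * |s j| := by
      rw [abs_of_pos hsj]
      have h6 := abs_le.1 h3
      rw [abs_le]
      constructor <;> nlinarith
    have hch : D.ch d (zc s t) j = chi d x := by
      rw [ch_of_le D ht h5, abs_of_pos hsj]
    obtain ⟨p1, p2, -, -⟩ := CalcN_88.pvN_lobe (ga := g) (e := D.sn j) (M := D.M j) hl
      (τ := t j / s j) (by linarith)
    have hpl : plN g (D.sn j) (D.M j) (zc s t j) =
        ((s j : ℝ) : ℂ) * pvN g (D.sn j) (D.M j) (t j / s j) :=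
      CalcN_88.plN_of_pos (z := zc s t j) hsj
    have hRe : (plN g (D.sn j) (D.M j) (zc s t j)).re = s j * g := by
      rw [hpl, Complex.re_ofReal_mul, p1, Af_of_le h4]
      ring
    have hIm : (plN g (D.sn j) (D.M j) (zc s t j)).im = D.sn j l * (t j - s j * sgN l) := by
      rw [hpl, Complex.im_ofReal_mul, p2, Bf_of_abs_le h4]
      field_simp
    have hchi : 0 ≤ chi d x := chi_nonneg d x
    refine ⟨?_, ?_, ?_, Or.inr h4⟩
    · rw [hch, hIm]
      have h7 : chi d (-x) = 0 := chi_of_le hd (by linarith)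
      cases hh : D.neg j l
      · rw [sn_of_false D hh, if_neg (by simp), ypf, h7]
        ring
      · rw [sn_of_true D hh, if_pos rfl, ymf, h7]
        ring
    · rw [hch, hRe]
      positivity
    · intro _
      rw [hch, hRe]
      have := chi_pos hd h1
      positivity
  have hmax : max (‖s‖ * ppf d x) 0 ≤ |s j| ∧ 0 ≤ max (‖s‖ * ppf d x) 0 := by
    refine ⟨max_le ?_ (abs_nonneg _), le_max_right _ _⟩
    unfold ppf
    have h2 := st_nonneg (x / d)
    have h3 := st_le_one (x / d)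
    have h4 : ‖s‖ * (x * st (x / d)) = s j * st (x / d) := by rw [hxs]; ring
    rw [h4]
    refine (le_abs_self _).trans ?_
    rw [abs_mul, abs_of_nonneg h2]
    exact mul_le_of_le_one_right (abs_nonneg _) h3
  rcases lt_or_ge x (-d) with h2 | h2
  · -- active, plate side
    have hx0 : x < 0 := by linarith
    have hsj : s j < 0 := by rw [hxs]; exact mul_neg_of_neg_of_pos hx0 h0
    have hpp : max (‖s‖ * ppf d x) 0 = 0 := by
      refine max_eq_right ?_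
      unfold ppf
      rw [st_of_le (div_nonpos_of_nonpos_of_nonneg hx0.le hd.le), mul_zero, mul_zero]
    rw [hpp, zero_mul, sub_zero] at h ⊢
    have h3 : δ * ‖s‖ ≤ |s j| := by
      rw [abs_of_neg hsj, hxs]
      nlinarith
    have h4 : |t j| ≤ D.K * |s j| := by
      have := abs_nonneg (s j)
      nlinarith
    have hch : D.ch d (zc s t) j = chi d (-x) := by
      rw [ch_of_le D ht h4, abs_of_neg hsj, neg_div]
    have hRe := T3aNBas_277.plN_re_of_nonpos (ga := g) (e := D.sn j) (M := D.M j)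
      (z := zc s t j) hsj.le
    have hIm := T3aNBas_277.plN_im_of_nonpos (ga := g) (e := D.sn j) (M := D.M j)
      (z := zc s t j) hsj.le
    rw [hre] at hRe
    rw [him] at hIm
    have hchi : 0 ≤ chi d (-x) := chi_nonneg d (-x)
    have hpos : 0 < -(2 - g) * s j := by nlinarith
    have h7 : chi d x = 0 := chi_of_le hd (by linarith)
    refine ⟨?_, ?_, ?_, Or.inl ?_⟩
    · rw [hch, hIm]
      split_ifs
      · rw [ymf, h7]; ring
      · rw [ypf, h7]; ring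
    · rw [hch, hRe]
      exact mul_nonneg hchi hpos.le
    · intro _
      rw [hch, hRe]
      exact mul_pos (chi_pos hd (by linarith)) hpos
    · exact T3aNBas_277.R_of_nonpos D d hsj.le
  · -- inactive
    have hxa : |x| ≤ d := abs_le.2 ⟨h2, h1⟩
    have hsa : |s j| ≤ d * ‖s‖ := by
      rw [hxs, abs_mul, abs_of_pos h0]
      exact mul_le_mul_of_nonneg_right hxa h0.le
    have hch : D.ch d (zc s t) j = 0 := by
      rcases le_or_gt |t j| (D.K * |s j|) with h3 | h3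
      · rw [ch_of_le D ht h3]
        refine chi_of_le hd ?_
        rwa [div_le_iff₀ h0]
      · refine ch_zero D hd hs ht ?_
        have h4 : |t j| ≤ |s j| * sgN l + δ * ‖s‖ := by
          have h5 : |t j| ≤ |t j - max (‖s‖ * ppf d x) 0 * sgN l| +
              |max (‖s‖ * ppf d x) 0 * sgN l| := by
            have := abs_add_le (t j - max (‖s‖ * ppf d x) 0 * sgN l)
              (max (‖s‖ * ppf d x) 0 * sgN l)
            rwa [sub_add_cancel] at this
          have h6 : |max (‖s‖ * ppf d x) 0 * sgN l| ≤ |s j| * sgN l := by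
            rw [abs_of_nonneg (mul_nonneg hmax.2 hsg0)]
            exact mul_le_mul_of_nonneg_right hmax.1 hsg0
          linarith
        have h5 : |s j| ≤ δ * ‖s‖ := by
          have h6 : D.K * |s j| < |s j| * sgN l + δ * ‖s‖ := h3.trans_le h4
          have h7 : (sgN l + 1) * |s j| ≤ D.K * |s j| :=
            mul_le_mul_of_nonneg_right (hsg.trans hKK) (abs_nonneg _)
          linarith
        have h6 : |t j| ≤ D.K * (δ * ‖s‖) := by
          have h7 : |s j| * sgN l ≤ (δ * ‖s‖) * sgN l := mul_le_mul_of_nonneg_right h5 hsg0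
          have h8 : (sgN l + 1) * (δ * ‖s‖) ≤ D.K * (δ * ‖s‖) :=
            mul_le_mul_of_nonneg_right (hsg.trans hKK) (mul_nonneg hδ0 h0.le)
          linarith
        have h7 : (D.K + 1) * δ * ‖s‖ ≤ d * ‖s‖ := mul_le_mul_of_nonneg_right hδ h0.le
        linarith
    refine ⟨?_, ?_, ?_, Or.inl ?_⟩
    · rw [hch, zero_mul]
      have h3 : chi d x = 0 := chi_of_le hd h1
      have h4 : chi d (-x) = 0 := chi_of_le hd (by linarith)
      split_ifs
      · rw [ymf, h3, h4]; ring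
      · rw [ypf, h3, h4]; ring
    · rw [hch, zero_mul]
    · intro h3
      exfalso
      have h4 := mul_pos hd h0
      linarith
    · unfold SD.R
      rw [hch, zero_mul]

/-! ### near a strand -/

section strand

variable (e : Fin m ≃ {k : Fin (n + 3) → ℕ // D.Let k}) (Q : Par n)
  (hsm : ∀ k l j, (ls D e).sg k j ≠ (ls D e).sg l j →
    Q.ep * (‖vec (n := n) ((ls D e).V k)‖ + ‖vec (n := n) ((ls D e).V l)‖) <
      Q.d * |(ls D e).sg k j - (ls D e).sg l j|)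

theorem vec_V_le (k : Fin m) : ‖vec (n := n) ((ls D e).V k)‖ ≤ (n + 3) * (Bl D + 1) := by
  have hB := Bl_nonneg D
  have h1 : ∀ j, |(ls D e).V k j| ≤ Bl D + 1 := by
    intro j
    have h2 := abs_le.1 (abs_Vl_sub D e k j)
    have h3 := sgl_nonneg D e k j
    have h4 := sgl_le D e k j
    show |Vl D e k j| ≤ _
    rw [abs_le]
    constructor <;> linarith [h2.1, h2.2]
  refine le_of_sq_le_sq ?_ (by positivity)
  rw [norm_sq_def]
  calc ∑ j, vec (n := n) ((ls D e).V k) j ^ 2 ≤ ∑ _j : Fin (n + 3), (Bl D + 1) ^ 2 := by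
        refine Finset.sum_le_sum fun j _ => ?_
        rw [vec_apply]
        rw [← sq_abs]
        exact pow_le_pow_left₀ (abs_nonneg _) (h1 j) 2
    _ = (n + 3) * (Bl D + 1) ^ 2 := by
        rw [Finset.sum_const, Finset.card_univ, Fintype.card_fin, nsmul_eq_mul]
        push_cast
        ring
    _ ≤ ((n + 3) * (Bl D + 1)) ^ 2 := by
        rw [mul_pow]
        refine mul_le_mul_of_nonneg_right ?_ (sq_nonneg _)
        have : (0 : ℝ) ≤ n := Nat.cast_nonneg n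
        nlinarith

/-- bound of the displacements. -/
def Vm : ℝ := (n + 3) * (Bl D + 1)

theorem Vm_nonneg : 0 ≤ Vm D := by
  unfold Vm
  have := Bl_nonneg D
  positivity

/-- the base position of a strand. -/
def bs (k : Fin m) (s : W n) : W n :=
  vec fun j => max (‖s‖ * ppf Q.d (s j / ‖s‖)) 0 * (ls D e).sg k j

theorem eta_eq (k : Fin m) (s : W n) : (hd (ls D e) Q hsm).eta k s = bs D e Q k s +
    (Q.ep * ‖s‖ * thf Q.ω s) • proj ((hd (ls D e) Q hsm).nrm k s) (vec ((ls D e).V k)) := rfl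

theorem norm_eta_sub (k : Fin m) (s : W n) :
    ‖(hd (ls D e) Q hsm).eta k s - bs D e Q k s‖ ≤ Q.ep * Vm D * ‖s‖ := by
  have h3 : 0 ≤ Q.ep * ‖s‖ * thf Q.ω s :=
    mul_nonneg (mul_nonneg Q.hep.le (norm_nonneg _)) (st_nonneg _)
  rw [eta_eq, add_sub_cancel_left, norm_smul, Real.norm_of_nonneg h3]
  calc Q.ep * ‖s‖ * thf Q.ω s * ‖proj ((hd (ls D e) Q hsm).nrm k s) (vec ((ls D e).V k))‖
      ≤ Q.ep * ‖s‖ * 1 * Vm D := by
        refine mul_le_mul ?_ ((norm_proj_le _ _).trans (vec_V_le D e k)) (norm_nonneg _) ?_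
        · exact mul_le_mul_of_nonneg_left (st_le_one _) (mul_nonneg Q.hep.le (norm_nonneg _))
        · exact mul_nonneg (mul_nonneg Q.hep.le (norm_nonneg _)) zero_le_one
    _ = Q.ep * Vm D * ‖s‖ := by ring

theorem inner_nrm (k : Fin m) {s : W n} (hs : s ≠ 0) (t : W n) :
    ⟪(hd (ls D e) Q hsm).nrm k s, t - (hd (ls D e) Q hsm).eta k s⟫ =
      ∑ j, (if D.neg j ((e k).1 j) then ymf Q.d (s j / ‖s‖) else ypf Q.d (s j / ‖s‖)) *
        (t j - max (‖s‖ * ppf Q.d (s j / ‖s‖)) 0 * sgN ((e k).1 j)) := by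
  rw [eta_eq, ← sub_sub, inner_sub_right, inner_smul_right,
    inner_proj _ _ (nrm_ne (hd (ls D e) Q hsm) hs), mul_zero, sub_zero, inner_def]
  rfl

variable {D Q} {r2 c g : ℝ}

/-- conditions on the size `δ = r2 + ep Vm` of the tubes. -/
theorem near {s t : W n} (k : Fin m)
    (h : ‖t - (hd (ls D e) Q hsm).eta k s‖ ≤ r2 * ‖s‖) :
    ‖t - bs D e Q k s‖ ≤ (r2 + Q.ep * Vm D) * ‖s‖ := by
  have h1 := norm_eta_sub D e Q hsm k s
  calc ‖t - bs D e Q k s‖ = ‖(t - (hd (ls D e) Q hsm).eta k s) +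
        ((hd (ls D e) Q hsm).eta k s - bs D e Q k s)‖ := by congr 1; abel
    _ ≤ _ := norm_add_le _ _
    _ ≤ _ := by linarith

theorem bs_le (k : Fin m) (s : W n) : ‖bs D e Q k s‖ ≤ (D.K1 - 1) * ‖s‖ := by
  have hK := one_le_K1 D
  have hK' : 0 ≤ D.K1 - 1 := by linarith
  refine le_of_sq_le_sq ?_ (mul_nonneg hK' (norm_nonneg _))
  rw [norm_sq_def, mul_pow, norm_sq_def s, Finset.mul_sum]
  refine Finset.sum_le_sum fun j _ => ?_
  have h1 : |max (‖s‖ * ppf Q.d (s j / ‖s‖)) 0| ≤ |s j| := by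
    by_cases hs : s = 0
    · rw [hs, norm_zero, zero_mul, max_self, abs_zero]
      exact abs_nonneg _
    have h0 : 0 < ‖s‖ := norm_pos_iff.2 hs
    have h2 := st_nonneg (s j / ‖s‖ / Q.d)
    have h3 := st_le_one (s j / ‖s‖ / Q.d)
    have h4 : ‖s‖ * ppf Q.d (s j / ‖s‖) = s j * st (s j / ‖s‖ / Q.d) := by
      unfold ppf
      field_simp
    rw [abs_of_nonneg (le_max_right _ _), h4]
    refine max_le ?_ (abs_nonneg _)
    refine (le_abs_self _).trans ?_
    rw [abs_mul, abs_of_nonneg h2]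
    exact mul_le_of_le_one_right (abs_nonneg _) h3
  have h2 : |(ls D e).sg k j| ≤ D.K1 - 1 := by
    have h3 := sgN_le_K1 D ((e k).2.1 j)
    show |sgN ((e k).1 j)| ≤ _
    rw [abs_of_nonneg (sgN_nonneg _)]
    linarith
  have h3 : bs D e Q k s j = max (‖s‖ * ppf Q.d (s j / ‖s‖)) 0 * (ls D e).sg k j := rfl
  rw [h3, mul_pow, mul_comm ((D.K1 - 1) ^ 2), ← sq_abs (max _ _), ← sq_abs ((ls D e).sg k j),
    ← sq_abs (s j)]
  exact mul_le_mul (pow_le_pow_left₀ (abs_nonneg _) h1 2) (pow_le_pow_left₀ (abs_nonneg _) h2 2)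
    (sq_nonneg _) (sq_nonneg _)

theorem t_le (hr2 : 0 ≤ r2) (hδ : (D.K + 1) * (r2 + Q.ep * Vm D) ≤ Q.d) {s t : W n} (k : Fin m)
    (h : ‖t - (hd (ls D e) Q hsm).eta k s‖ ≤ r2 * ‖s‖) : ‖t‖ ≤ D.K1 * ‖s‖ := by
  have h1 := near e hsm k h
  have h2 := bs_le (Q := Q) e k s
  have hV := mul_nonneg Q.hep.le (Vm_nonneg D)
  have hK := one_le_K D
  have hd1 : Q.d ≤ 1 := by
    have h3 := Q.hdN
    have h4 := Q.hd
    have h5 : (0 : ℝ) ≤ n := Nat.cast_nonneg n
    by_contra h6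
    push Not at h6
    nlinarith
  have h3 : r2 + Q.ep * Vm D ≤ 1 := by nlinarith
  calc ‖t‖ = ‖(t - bs D e Q k s) + bs D e Q k s‖ := by congr 1; abel
    _ ≤ _ := norm_add_le _ _
    _ ≤ (r2 + Q.ep * Vm D) * ‖s‖ + (D.K1 - 1) * ‖s‖ := add_le_add h1 h2
    _ ≤ 1 * ‖s‖ + (D.K1 - 1) * ‖s‖ := by
        have := mul_le_mul_of_nonneg_right h3 (norm_nonneg s)
        linarith
    _ = D.K1 * ‖s‖ := by ring

/-- the four statements of `coord` near a strand. -/
theorem coord_near (hg : 0 < g) (hg1 : g < 1) (hr2 : 0 ≤ r2)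
    (hδ : (D.K + 1) * (r2 + Q.ep * Vm D) ≤ Q.d) {s t : W n} (hs : s ≠ 0) (k : Fin m)
    (h : ‖t - (hd (ls D e) Q hsm).eta k s‖ ≤ r2 * ‖s‖) (j : Fin (n + 3)) :
    D.ch Q.d (zc s t) j * (plN g (D.sn j) (D.M j) (zc s t j)).im =
        (if D.neg j ((e k).1 j) then ymf Q.d (s j / ‖s‖) else ypf Q.d (s j / ‖s‖)) *
          (t j - max (‖s‖ * ppf Q.d (s j / ‖s‖)) 0 * sgN ((e k).1 j)) ∧
      0 ≤ D.ch Q.d (zc s t) j * (plN g (D.sn j) (D.M j) (zc s t j)).re ∧
      (2 * Q.d * ‖s‖ ≤ |s j| →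
        0 < D.ch Q.d (zc s t) j * (plN g (D.sn j) (D.M j) (zc s t j)).re) ∧
      (D.R Q.d (zc s t) j = 0 ∨ |(zc s t j).im / (zc s t j).re - sgN ((e k).1 j)| ≤ 1) := by
  refine coord D (d := Q.d) (δ := r2 + Q.ep * Vm D) (g := g) Q.hd
    (add_nonneg hr2 (mul_nonneg Q.hep.le (Vm_nonneg D))) hδ hs (t_le e hsm hr2 hδ k h)
    ((e k).2.1 j) hg hg1 ?_
  have h1 := near e hsm k h
  exact (abs_apply_le (t - bs D e Q k s) j).trans h1

theorem G_im (c g d : ℝ) (z : Fin (n + 3) → ℂ) :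
    (D.G c g d z).im = ∑ j, D.ch d z j * (plN g (D.sn j) (D.M j) (z j)).im := by
  unfold SD.G
  rw [Complex.sub_im, Complex.ofReal_im, sub_zero, Complex.im_sum]
  exact Finset.sum_congr rfl fun j _ => by rw [Complex.im_ofReal_mul]

theorem G_re (c g d : ℝ) (z : Fin (n + 3) → ℂ) :
    (D.G c g d z).re = ∑ j, D.ch d z j * (plN g (D.sn j) (D.M j) (z j)).re -
      c * g * ∑ e, D.Be d e z := by
  unfold SD.G
  rw [Complex.sub_re, Complex.ofReal_re, Complex.re_sum]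
  congr 1
  exact Finset.sum_congr rfl fun j _ => by rw [Complex.re_ofReal_mul]

/-- **tube, imaginary part.** -/
theorem tube_im (hg : 0 < g) (hg1 : g < 1) (hr2 : 0 ≤ r2)
    (hδ : (D.K + 1) * (r2 + Q.ep * Vm D) ≤ Q.d) {s t : W n} (hs : s ≠ 0) (k : Fin m)
    (h : ‖t - (hd (ls D e) Q hsm).eta k s‖ ≤ r2 * ‖s‖) :
    (D.G c g Q.d (zc s t)).im =
      ⟪(hd (ls D e) Q hsm).nrm k s, t - (hd (ls D e) Q hsm).eta k s⟫ := by
  rw [inner_nrm D e Q hsm k hs, G_im]
  exact Finset.sum_congr rfl fun j _ => (coord_near e hsm hg hg1 hr2 hδ hs k h j).1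

theorem exists_coord_large {s : W n} (hs : s ≠ 0) : ∃ j, 2 * Q.d * ‖s‖ ≤ |s j| ∨
    ‖s‖ ^ 2 ≤ (n + 3) * |s j| ^ 2 := by
  by_contra hcon
  push Not at hcon
  have h1 : ‖s‖ ^ 2 = ∑ j, s j ^ 2 := norm_sq_def s
  have h2 : ∑ j, (n + 3) * s j ^ 2 < ∑ _j : Fin (n + 3), ‖s‖ ^ 2 := by
    refine Finset.sum_lt_sum_of_nonempty ⟨0, mem_univ _⟩ fun j _ => ?_
    have := (hcon j).2
    rwa [sq_abs] at this
  rw [← Finset.mul_sum, ← h1, Finset.sum_const, Finset.card_univ, Fintype.card_fin,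
    nsmul_eq_mul] at h2
  push_cast at h2
  exact lt_irrefl _ h2

/-- some coordinate is large (`4 d² (n+3) ≤ 1`). -/
theorem exists_big (hd2 : 4 * Q.d ^ 2 * (n + 3) ≤ 1) {s : W n} (hs : s ≠ 0) :
    ∃ j, 2 * Q.d * ‖s‖ ≤ |s j| := by
  obtain ⟨j, hj⟩ := exists_coord_large (Q := Q) hs
  refine ⟨j, ?_⟩
  rcases hj with hj | hj
  · exact hj
  · refine le_of_sq_le_sq ?_ (abs_nonneg _)
    have h1 : (0 : ℝ) < n + 3 := by positivity
    have h2 : 4 * Q.d ^ 2 * (n + 3) * |s j| ^ 2 ≤ 1 * |s j| ^ 2 :=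
      mul_le_mul_of_nonneg_right hd2 (sq_nonneg _)
    have h3 : 4 * Q.d ^ 2 * ‖s‖ ^ 2 ≤ 4 * Q.d ^ 2 * ((n + 3) * |s j| ^ 2) :=
      mul_le_mul_of_nonneg_left hj (by positivity)
    calc (2 * Q.d * ‖s‖) ^ 2 = 4 * Q.d ^ 2 * ‖s‖ ^ 2 := by ring
      _ ≤ 4 * Q.d ^ 2 * ((n + 3) * |s j| ^ 2) := h3
      _ = 4 * Q.d ^ 2 * (n + 3) * |s j| ^ 2 := by ring
      _ ≤ |s j| ^ 2 := by linarith

/-- **tube, real part.** -/
theorem tube_re (hg : 0 < g) (hg1 : g < 1) (hr2 : 0 ≤ r2)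
    (hδ : (D.K + 1) * (r2 + Q.ep * Vm D) ≤ Q.d) (hd2 : 4 * Q.d ^ 2 * (n + 3) ≤ 1)
    {s t : W n} (hs : s ≠ 0) (k : Fin m)
    (h : ‖t - (hd (ls D e) Q hsm).eta k s‖ ≤ r2 * ‖s‖) :
    0 < (D.G c g Q.d (zc s t)).re := by
  have hc := fun j => coord_near e hsm hg hg1 hr2 hδ hs k h j
  have hB : ∑ b, D.Be Q.d b (zc s t) = 0 := by
    refine Finset.sum_eq_zero fun b _ => ?_
    obtain ⟨j, hj, hj2⟩ := (e k).2.2 b
    unfold SD.Be
    rcases (hc j).2.2.2 with h1 | h1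
    · rw [T3aNBas_277.Hm_eq_zero hj h1.le, zero_mul]
    · rw [Finset.prod_eq_zero hj, mul_zero]
      have h2 := (CalcN_88.winN_cell (m := (D.bx b).lo j) (m' := (D.bx b).hi j)
        (l := (e k).1 j) (τ := (zc s t j).im / (zc s t j).re) (by linarith)).1
      rw [h2, if_neg hj2]
  rw [G_re, hB, mul_zero, sub_zero]
  obtain ⟨j, hj⟩ := exists_big hd2 hs
  exact Finset.sum_pos' (fun i _ => (hc i).2.1) ⟨j, mem_univ _, (hc j).2.2.1 hj⟩

/-- **lin.** -/
theorem lin {κ1 : ℝ} (hκ1 : 2 * κ1 ≤ Q.d) {s t : W n} (hs : s ≠ 0) (hneg : ∀ j, s j < 0)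
    (ht : ‖t‖ ≤ κ1 * ‖s‖) : (D.G c g Q.d (zc s t)).im = ⟪(hd (ls D e) Q hsm).nz s, t⟫ := by
  have h0 : 0 < ‖s‖ := norm_pos_iff.2 hs
  have hd1 : Q.d ≤ 1 := by
    have h3 := Q.hdN
    have h4 := Q.hd
    have h5 : (0 : ℝ) ≤ n := Nat.cast_nonneg n
    by_contra h6
    push Not at h6
    nlinarith
  have hK1 := one_le_K1 D
  have htK : ‖t‖ ≤ D.K1 * ‖s‖ := ht.trans (mul_le_mul_of_nonneg_right (by linarith) h0.le)
  rw [T3aNBas_277.G_im_of_nonpos D c g Q.d (z := zc s t) fun j => (hneg j).le, inner_def]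
  refine Finset.sum_congr rfl fun j _ => ?_
  show D.ch Q.d (zc s t) j * -(t j) = ypf Q.d (s j / ‖s‖) * t j
  have hsj := hneg j
  have h1 : chi Q.d (s j / ‖s‖) = 0 :=
    chi_of_le Q.hd ((div_nonpos_of_nonpos_of_nonneg hsj.le h0.le).trans Q.hd.le)
  have h2 : -(s j / ‖s‖) = |s j| / ‖s‖ := by rw [abs_of_neg hsj, neg_div]
  have h3 : D.ch Q.d (zc s t) j = chi Q.d (|s j| / ‖s‖) := by
    rcases le_or_gt |t j| (D.K * |s j|) with h4 | h4
    · exact ch_of_le D htK h4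
    · have h5 : |t j| ≤ κ1 * ‖s‖ := (abs_apply_le t j).trans ht
      have h6 : |s j| ≤ κ1 * ‖s‖ := by
        have h7 : 1 * |s j| ≤ D.K * |s j| :=
          mul_le_mul_of_nonneg_right (one_le_K D) (abs_nonneg _)
        linarith
      have h7 : 2 * κ1 * ‖s‖ ≤ Q.d * ‖s‖ := mul_le_mul_of_nonneg_right hκ1 h0.le
      rw [ch_zero D Q.hd hs htK (by linarith), chi_of_le Q.hd]
      rw [div_le_iff₀ h0]
      have := abs_nonneg (t j)
      linarith
  rw [h3, ypf, h1, h2]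
  ring

/-- **the facts of `EndH_864` for the signed function.** -/
theorem facts {κ1 : ℝ} (hcont : ContinuousOn (D.G c g Q.d) {0}ᶜ) (hg : 0 < g) (hg1 : g < 1)
    (hdm : Q.d ≤ dN D) (hr2 : 0 ≤ r2) (hδ : (D.K + 1) * (r2 + Q.ep * Vm D) ≤ Q.d)
    (hκ1 : 2 * κ1 ≤ Q.d) : Facts (D.G c g Q.d) (hd (ls D e) Q hsm) r2 κ1 where
  cG := hcont
  hom l z hl := by
    have h1 := T3aNBas_277.hom D c g Q.d l z hl
    have h2 : (l • z) = fun j => (l : ℂ) * z j := by
      funext j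
      rw [Pi.smul_apply, Complex.real_smul]
    rw [h2, h1, Complex.real_smul]
  mono s hs hneg t h h' hh := by
    have hN := sqrt_pos n
    have h1 : ∀ h : ℝ, zc s (t + h • u1 n) = up (zc s t) (h * (1 / √(n + 3 : ℝ))) := by
      intro h
      funext j
      refine Complex.ext ?_ ?_
      · rw [up_re]; rfl
      · rw [up_im]; rfl
    rw [h1, h1]
    refine G_im_lt D Q.hd hdm ?_ (fun j => hneg j) (by
      exact mul_lt_mul_of_pos_right hh (by positivity))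
    by_contra hcon
    push Not at hcon
    apply hs
    ext j
    exact hcon j
  sgp s t hneg ht := G_im_pos D Q.hd hdm (by omega) hneg ht
  sgn s t hneg ht := G_im_neg D Q.hd hdm (by omega) hneg ht
  lin s t hs hneg ht := lin e hsm hκ1 hs hneg ht
  tube s t k hs h := tube_im e hsm hg hg1 hr2 hδ hs k h

end strand

end Crest.Agent.R267.EndN3_277
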