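import Crest.Agent.R267.EndN3_277
import Crest.Agent.R267.SmoothN_957


import Crest.Agent.R267.EndI_864

/-!
# Row 267, T3aN end instance (helper277), part 4: `T3aNP D` from the flow-line output

`t3aN_of`: if, for `cB` large, `ga` small, `d` small, the flow-line theorem holds for the literal
combinatorial data `hd (ls D e) Q hsm`, then the link of `D.G` is the link of a graph system with
matrix `matN D e`.
-/

set_option autoImplicit false

noncomputable section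

namespace Crest.Agent.R267.EndN4_277

open Finset
open scoped RealInnerProductSpace
open Crest.Agent.R267.T3aDefs_957 (st pg NN chi Af Bf gq)
open Crest.Agent.R267.T3aDefs_957.LD (Ev Cen vt vs)
open Crest.Agent.R267.T3aNDefs_88 Crest.Agent.R267.EndDef_864 Crest.Agent.R267.EndBas_864
  Crest.Agent.R267.EndG_864 Crest.Agent.R267.EndH_864 Crest.Agent.R267.EndN1_277
  Crest.Agent.R267.EndN2_277 Crest.Agent.R267.EndN3_277
open Crest.Agent.R267.GS_808 Crest.Agent.R267.Cone_808 Crest.Agent.R267.TopAsm_808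
  Crest.Agent.R267.DraftB_808

variable {n : ℕ} (D : SD (n + 3))

theorem Ev.of_small {P : ℝ → ℝ → ℝ → Prop} {d0 : ℝ} (h0 : 0 < d0)
    (h : ∀ c g d, 0 < c → 0 < g → g < 1 → 0 < d → d ≤ d0 → P c g d) : Ev P :=
  ⟨1, one_pos, fun c hc => ⟨1 / 2, by norm_num, fun g hg hg' => ⟨d0, h0, fun d hd hd' =>
    h c g d (by linarith) hg (by linarith) hd hd'⟩⟩⟩

/-- threshold of `d`. -/
def d4 : ℝ := min (dN D) (1 / (4 * (n + 3)))

theorem d4_pos : 0 < d4 D := lt_min (dN_pos D (by omega)) (by positivity)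

theorem d4_sq {d : ℝ} (hd : 0 < d) (h : d ≤ d4 D) : 4 * d ^ 2 * (n + 3) ≤ 1 := by
  have h1 : d ≤ 1 / (4 * (n + 3)) := h.trans (min_le_right _ _)
  have h2 : (0 : ℝ) < 4 * (n + 3) := by positivity
  rw [le_div_iff₀ h2] at h1
  have h3 : d ≤ 1 := by nlinarith
  nlinarith

theorem d4_one {d : ℝ} (h : d ≤ d4 D) : 12 * d ≤ 1 := by
  have h1 : d ≤ 1 / (4 * (n + 3)) := h.trans (min_le_right _ _)
  have h2 : (0 : ℝ) < 4 * (n + 3) := by positivity
  have h3 : (1 : ℝ) / (4 * (n + 3)) ≤ 1 / 12 := by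
    apply one_div_le_one_div_of_le (by norm_num)
    have : (0 : ℝ) ≤ n := Nat.cast_nonneg n
    linarith
  linarith

/-- smallness of `ep`. -/
def etaN (d : ℝ) : ℝ := d / (4 * (D.K + 1) * (1 + √(n + 3 : ℝ)) * (Vm D + 1))

theorem etaN_pos {d : ℝ} (hd : 0 < d) : 0 < etaN D d := by
  have h1 := one_le_K D
  have h2 := Vm_nonneg D
  unfold etaN
  positivity

theorem etaN_mul {d ep : ℝ} (hd : 0 < d) (hep : ep ≤ etaN D d) :
    (D.K + 1) * ((1 + √(n + 3 : ℝ)) * (ep * Vm D)) ≤ d / 4 := by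
  have h1 := one_le_K D
  have h2 := Vm_nonneg D
  have h3 : 0 ≤ √(n + 3 : ℝ) := Real.sqrt_nonneg _
  have h4 : ep * Vm D ≤ etaN D d * (Vm D + 1) := by
    have h5 := (etaN_pos D hd).le
    nlinarith
  calc (D.K + 1) * ((1 + √(n + 3 : ℝ)) * (ep * Vm D))
      ≤ (D.K + 1) * ((1 + √(n + 3 : ℝ)) * (etaN D d * (Vm D + 1))) := by gcongr
    _ = d / 4 := by
        unfold etaN
        have h6 : (D.K + 1) ≠ 0 := by positivity
        have h7 : (1 + √(n + 3 : ℝ)) ≠ 0 := by positivity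
        have h8 : Vm D + 1 ≠ 0 := by positivity
        field_simp

/-- **T3aN from the flow-line output.** -/
theorem t3aN_of (hFL : Ev fun c g d => ∀ (m : ℕ) (e : Fin m ≃ {k : Fin (n + 3) → ℕ // D.Let k})
      (Q : Par n) (hsm : ∀ k l j, (ls D e).sg k j ≠ (ls D e).sg l j →
        Q.ep * (‖vec (n := n) ((ls D e).V k)‖ + ‖vec (n := n) ((ls D e).V l)‖) <
          Q.d * |(ls D e).sg k j - (ls D e).sg l j|),
      Q.d = d → Q.e = d / 2 → Q.ep ≤ etaN D d → ∃ r0 : ℝ, 0 < r0 ∧ ∀ r, 0 < r → r < r0 →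
        ∃ ε : ℝ, 0 < ε ∧ FLOut (D.G c g d) (hd (ls D e) Q hsm) Q.e D.K1 ε r) :
    Ev fun c g d => ∃ (m : ℕ) (e : Fin m ≃ {k : Fin (n + 3) → ℕ // D.Let k}) (G : S n m),
      HasMat G (matN D e) ∧ IsLink {z : Sph (Fin (n + 3)) | D.G c g d z = 0} G := by
  have hS : Ev fun c g d => 0 < g ∧ g < 1 ∧ d ≤ d4 D ∧ 0 < d :=
    Ev.of_small (d4_pos D) fun c g d _ hg hg1 hd hdd => ⟨hg, hg1, hdd, hd⟩
  refine ((SmoothN_957.smoothN D).and (hS.and hFL)).mono fun c g d _ _ _ h => ?_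
  obtain ⟨hsmooth, ⟨hg, hg1, hdd, hd0⟩, hFL⟩ := h
  obtain ⟨m, ⟨e⟩⟩ := exists_enum D
  have hK := one_le_K D
  have hVm := Vm_nonneg D
  have hsq : 0 ≤ √(n + 3 : ℝ) := Real.sqrt_nonneg _
  have h12 := d4_one D hdd
  have hsg : ∀ k j, |(ls D e).sg k j| ≤ D.K1 - 1 := by
    intro k j
    have h1 : (ls D e).sg k j = sgN ((e k).1 j) := rfl
    have h2 := sgN_le_K1 D ((e k).2.1 j)
    have h3 := sgN_nonneg ((e k).1 j)
    rw [h1, abs_of_nonneg h3]
    linarith
  have hgap : ∀ k l j, (ls D e).sg k j ≠ (ls D e).sg l j →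
      1 ≤ |(ls D e).sg k j - (ls D e).sg l j| := by
    intro k l j hne
    have h1 : (ls D e).sg k j = sgN ((e k).1 j) := rfl
    have h2 : (ls D e).sg l j = sgN ((e l).1 j) := rfl
    rw [h1, h2] at hne ⊢
    have h3 : (e k).1 j ≠ (e l).1 j := fun h => hne (by rw [h])
    rcases lt_or_gt_of_ne h3 with h4 | h4
    · have h5 := sgN_sub h4
      rw [abs_sub_comm, abs_of_nonneg (by linarith)]
      linarith
    · have h5 := sgN_sub h4
      rw [abs_of_nonneg (by linarith)]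
      linarith
  obtain ⟨Q, hQd, hQe, hQep, hsm⟩ := EndI_864.exists_par (ls D e) (Vm := Vm D)
    (vec_V_le D e) hgap (d := d) (η := etaN D d) hd0 (by
      have := d4_sq D hd0 hdd
      nlinarith) (etaN_pos D hd0)
  have hep := Q.hep
  have hmul := etaN_mul D hd0 hQep
  have hepV : 0 ≤ Q.ep * Vm D := mul_nonneg hep.le hVm
  have hKep : (D.K + 1) * (Q.ep * Vm D) ≤ d / 4 := by
    refine le_trans ?_ hmul
    have h1 : Q.ep * Vm D ≤ (1 + √(n + 3 : ℝ)) * (Q.ep * Vm D) := by nlinarith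
    exact mul_le_mul_of_nonneg_left h1 (by linarith)
  have hr2 : 0 < d / (2 * (D.K + 1)) := by positivity
  have hF : Facts (D.G c g Q.d) (hd (ls D e) Q hsm) (d / (2 * (D.K + 1))) (d / 2) := by
    refine facts e hsm ?_ hg hg1 ?_ hr2.le ?_ ?_
    · rw [hQd]
      exact hsmooth.continuousOn
    · rw [hQd]
      exact hdd.trans (min_le_left _ _)
    · rw [hQd, mul_add]
      have h1 : (D.K + 1) * (d / (2 * (D.K + 1))) = d / 2 := by
        have : D.K + 1 ≠ 0 := by positivity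
        field_simp
      linarith
    · rw [hQd]
      linarith
  rw [hQd] at hF
  have h1 : (1 + √(n + 3 : ℝ)) * (Q.ep * Vm D) < d / 2 := by
    have h2 : 0 ≤ (1 + √(n + 3 : ℝ)) * (Q.ep * Vm D) := by positivity
    nlinarith
  obtain ⟨S, hS1, hS2⟩ := EndI_864.final (ls D e) Q hsm (Sg := D.K1 - 1) (Vm := Vm D)
    (κ2 := D.K1) hF hr2 h1 (by
      have h2 : Q.ep * Vm D ≤ (D.K + 1) * (Q.ep * Vm D) := by nlinarith
      linarith) (one_le_K1 D) hsg (vec_V_le D e) (by linarith [one_le_K1 D]) hVm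
    (hFL m e Q hsm hQd hQe hQep)
  exact ⟨m, e, S, by rw [← mat_eq D e Q hsm]; exact hS1, hS2⟩

end Crest.Agent.R267.EndN4_277
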