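import Crest.Agent.R267.EndN4_277

/-!
# Row 267, T3aN end instance (helper277), part 5: pointwise facts of `D.G` for the carve
-/

set_option autoImplicit false
set_option maxHeartbeats 400000

noncomputable section

namespace Crest.Agent.R267.EndN5_277

open Finset
open scoped RealInnerProductSpace
open Crest.Agent.R267.T3aDefs_957 (st pg NN chi Af Bf gq)
open Crest.Agent.R267.T3aDefs_957.LD (Ev Cen vt vs)
open Crest.Agent.R267.T3aNDefs_88 Crest.Agent.R267.EndDef_864 Crest.Agent.R267.EndBas_864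
  Crest.Agent.R267.EndG_864 Crest.Agent.R267.EndH_864 Crest.Agent.R267.EndN1_277
  Crest.Agent.R267.EndN2_277 Crest.Agent.R267.EndN3_277 Crest.Agent.R267.EndN4_277

section pointwise

variable {N : ℕ} (D : SD N)

/-- `s = 0`: `Re G = 0` (every `c g d`). -/
theorem re_s0 (c g d : ℝ) {z : Fin N → ℂ} (hz : ∀ j, (z j).re = 0) : (D.G c g d z).re = 0 := by
  rw [T3aNBas_277.G_re_of_nonpos D c g d fun j => (hz j).le]
  exact Finset.sum_eq_zero fun j _ => by rw [hz j, mul_zero, mul_zero]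

/-- all `s_j < 0`: `Re G > 0`. -/
theorem re_pos {c g d : ℝ} (hd : 0 < d) (hd1 : d ≤ dN D) (hg1 : g < 1) (hN : 0 < N)
    {z : Fin N → ℂ} (hneg : ∀ j, (z j).re < 0) : 0 < (D.G c g d z).re := by
  have hz : z ≠ 0 := by
    intro h
    have := hneg ⟨0, hN⟩
    rw [h] at this
    simp at this
  rw [T3aNBas_277.G_re_of_nonpos D c g d fun j => (hneg j).le]
  obtain ⟨j, hj⟩ := exists_ch_one D hd hd1 hz
  have hpos : ∀ i, 0 < -(2 - g) * (z i).re := fun i => by
    have := hneg i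
    nlinarith
  refine Finset.sum_pos' (fun i _ => mul_nonneg (T3aNBas_277.ch_nonneg D d z i) (hpos i).le)
    ⟨j, mem_univ _, ?_⟩
  rw [hj, one_mul]
  exact hpos j

/-- the direction `i (1, …, 1)`. -/
theorem c00p {c g d : ℝ} (hd : 0 < d) (hd1 : d ≤ dN D) (hN : 0 < N) (h : ℝ)
    (hz : (D.G c g d fun _ => Complex.I * (h : ℂ)).im = 0) : h = 0 := by
  have hre : ∀ j : Fin N, ((fun _ : Fin N => Complex.I * (h : ℂ)) j).re ≤ 0 := fun _ => by simp
  rcases lt_trichotomy h 0 with hh | hh | hh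
  · have h1 := G_im_pos D (c := c) (g := g) hd hd1 hN hre (fun j => by
      show (Complex.I * (h : ℂ)).im < 0
      simpa using hh)
    exact absurd hz h1.ne'
  · exact hh
  · have h1 := G_im_neg D (c := c) (g := g) hd hd1 hN hre (fun j => by
      show 0 < (Complex.I * (h : ℂ)).im
      simpa using hh)
    exact absurd hz h1.ne

/-- homogeneity with real scalars. -/
theorem hom_smul (c g d : ℝ) {l : ℝ} (hl : 0 < l) (z : Fin N → ℂ) :
    D.G c g d (l • z) = l • D.G c g d z := by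
  have h1 := T3aNBas_277.hom D c g d l z hl
  have h2 : (l • z) = fun j => (l : ℂ) * z j := by
    funext j
    rw [Pi.smul_apply, Complex.real_smul]
  rw [h2, h1, Complex.real_smul]

end pointwise

section strand

variable {n m : ℕ} {D : SD (n + 3)} (e : Fin m ≃ {k : Fin (n + 3) → ℕ // D.Let k}) {Q : Par n}
  (hsm : ∀ k l j, (ls D e).sg k j ≠ (ls D e).sg l j →
    Q.ep * (‖vec (n := n) ((ls D e).V k)‖ + ‖vec (n := n) ((ls D e).V l)‖) <
      Q.d * |(ls D e).sg k j - (ls D e).sg l j|) {c g : ℝ}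

/-- radius of the tubes of the facts. -/
def r2N (D : SD (n + 3)) (d : ℝ) : ℝ := d / (2 * (D.K + 1))

theorem r2N_pos {d : ℝ} (hd : 0 < d) : 0 < r2N D d := by
  have := one_le_K D
  unfold r2N
  positivity

theorem r2N_ok (hep : Q.ep ≤ etaN D Q.d) : (D.K + 1) * (r2N D Q.d + Q.ep * Vm D) ≤ Q.d := by
  have hK := one_le_K D
  have hVm := Vm_nonneg D
  have hmul := etaN_mul D Q.hd hep
  have hsq : 0 ≤ √(n + 3 : ℝ) := Real.sqrt_nonneg _
  have hepV : 0 ≤ Q.ep * Vm D := mul_nonneg Q.hep.le hVm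
  have hKep : (D.K + 1) * (Q.ep * Vm D) ≤ Q.d / 4 := by
    refine le_trans ?_ hmul
    have h1 : Q.ep * Vm D ≤ (1 + √(n + 3 : ℝ)) * (Q.ep * Vm D) := by nlinarith
    exact mul_le_mul_of_nonneg_left h1 (by linarith)
  have h1 : (D.K + 1) * r2N D Q.d = Q.d / 2 := by
    unfold r2N
    have : D.K + 1 ≠ 0 := by positivity
    field_simp
  have := Q.hd
  rw [mul_add]
  linarith

/-- **tube.** -/
theorem tube (hg : 0 < g) (hg1 : g < 1) (hdd : Q.d ≤ d4 D) (hep : Q.ep ≤ etaN D Q.d)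
    {s t : W n} (hs : s ≠ 0) (k : Fin m)
    (h : ‖t - (hd (ls D e) Q hsm).eta k s‖ ≤ r2N D Q.d * ‖s‖) :
    (D.G c g Q.d (zc s t)).im =
      ⟪(hd (ls D e) Q hsm).nrm k s, t - (hd (ls D e) Q hsm).eta k s⟫ ∧
      0 < (D.G c g Q.d (zc s t)).re :=
  ⟨tube_im e hsm hg hg1 (r2N_pos Q.hd).le (r2N_ok hep) hs k h,
    tube_re e hsm hg hg1 (r2N_pos Q.hd).le (r2N_ok hep) (d4_sq D Q.hd hdd) hs k h⟩

end strand

end Crest.Agent.R267.EndN5_277
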