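import Crest.Agent.R267.Calc5N_88
import Crest.Agent.R267.Curve_867

/-!
# Row 267, T3aN: fact K1 for the signed function
-/

set_option autoImplicit false

noncomputable section

namespace Crest.Agent.R267.K1N_957

open Finset
open Crest.Agent.R267.T3aDefs_957 (st Af Bf pg NN chi gq)
open Crest.Agent.R267.T3aDefs_957.LD (Ev vt vs Cen)
open Crest.Agent.R267.T3aNDefs_88 Crest.Agent.R267.CalcN_88 Crest.Agent.R267.Calc3N_88
open Crest.Agent.R267.Calc4N_88 Crest.Agent.R267.Calc5N_88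
open Crest.Agent.R267.Calc2_957 Crest.Agent.R267.Calc_957
open Crest.Agent.R267.Calc3_957 (rej imj rej_apply imj_apply AA BB sr si sr_apply si_apply
  AA_nonneg BB_nonneg re_sq_le_AA im_sq_le_BB AA_add_BB_ne dNN NN_pos NN_nonneg NN_sq
  sqrt_AA_le_NN NN_of_le hasFDerivAt_NN dNN_of_le chid hasDerivAt_chi chi_of_le chid_of_le
  chi_of_ge chid_of_ge chi_nonneg chi_le_one chi_pos lt_of_chi_ne chi_lt_one chid_nonneg chid_le
  mul_chid_le chid_mul_nonneg one_le_N pg_le_norm re_pos_nhds)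
open Crest.Agent.R267.Calc4_957 (tau dtau dtau_apply vt_re vt_im vs_re vs_im vt_eq_sum vs_eq S)

/-! ### gauges -/

/-- comparison constant of the gauges. -/
def cK (K : ℝ) : ℝ := √(96 * K ^ 2 + 96)

theorem cK_sq (K : ℝ) : cK K ^ 2 = 96 * K ^ 2 + 96 := Real.sq_sqrt (by positivity)

theorem one_le_cK (K : ℝ) : 1 ≤ cK K := by
  unfold cK
  rw [Real.one_le_sqrt]
  nlinarith [sq_nonneg K]

theorem cK_pos (K : ℝ) : 0 < cK K := lt_of_lt_of_le one_pos (one_le_cK K)

theorem abs_im_le_pg (K : ℝ) (z : ℂ) : |z.im| ≤ cK K * pg K z := by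
  have h1 : z.im ^ 2 ≤ (96 * K ^ 2 + 96) * gq K (z.re ^ 2) (z.im ^ 2) :=
    le_gq' (sq_nonneg _) (sq_nonneg _)
  rw [← pg_sq, ← cK_sq, ← mul_pow] at h1
  exact abs_le_of_sq_le_sq h1 (mul_nonneg (cK_pos K).le (pg_nonneg _ _))

variable {N : ℕ}

theorem abs_im_le_NN (K : ℝ) (z : Fin N → ℂ) (j : Fin N) : |(z j).im| ≤ cK K * NN K z := by
  have h1 : BB z ≤ (96 * K ^ 2 + 96) * gq K (AA z) (BB z) :=
    le_gq' (AA_nonneg z) (BB_nonneg z)
  rw [← NN_sq, ← cK_sq, ← mul_pow] at h1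
  exact abs_le_of_sq_le_sq ((im_sq_le_BB z j).trans h1) (mul_nonneg (cK_pos K).le (NN_nonneg _ _))

theorem si_single (z : Fin N → ℂ) (j : Fin N) : si z (vt (Pi.single j (1 : ℝ))) = (z j).im := by
  rw [si_apply, sum_eq_single j]
  · simp
  · intro i _ hi
    simp [hi]
  · intro h
    exact absurd (mem_univ j) h

theorem abs_dNN_le (K : ℝ) {z : Fin N → ℂ} (hz : z ≠ 0) (j : Fin N) :
    |dNN K z (vt (Pi.single j (1 : ℝ)))| ≤ cK K := by
  have hp := NN_pos (K := K) hz
  have h1 : dNN K z (vt (Pi.single j (1 : ℝ))) = gB K (AA z) (BB z) * (z j).im / NN K z := by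
    unfold dNN
    simp only [ContinuousLinearMap.add_apply, ContinuousLinearMap.smul_apply, smul_eq_mul]
    rw [si_single, sr_apply]
    simp only [vt_re, mul_zero, sum_const_zero]
    ring
  rw [h1, abs_div, abs_mul, abs_of_pos hp, abs_of_nonneg (gB_nonneg (AA_nonneg z) (BB_nonneg z)),
    div_le_iff₀ hp]
  have h2 := abs_im_le_NN K z j
  have h3 := gB_le (K := K) (AA_nonneg z) (BB_nonneg z)
  have h4 := gB_nonneg (K := K) (AA_nonneg z) (BB_nonneg z)
  calc gB K (AA z) (BB z) * |(z j).im| ≤ 1 * (cK K * NN K z) :=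
        mul_le_mul h3 h2 (abs_nonneg _) zero_le_one
    _ = _ := one_mul _

theorem exists_im (z : Fin N → ℂ) (hN : 0 < N) : ∃ j, BB z ≤ N * (z j).im ^ 2 := by
  have : Nonempty (Fin N) := ⟨⟨0, hN⟩⟩
  obtain ⟨j, hj⟩ := Finite.exists_max fun j => (z j).im ^ 2
  refine ⟨j, ?_⟩
  calc BB z ≤ ∑ _i : Fin N, (z j).im ^ 2 := sum_le_sum fun i _ => hj i
    _ = N * (z j).im ^ 2 := by simp

/-! ### planar bounds -/

theorem abs_Bf_le (v : ℝ) (h : |v| ≤ 3) : |Bf v| ≤ 3 := by
  have key : ∀ w : ℝ, 0 ≤ w → w ≤ 3 → |Bf w| ≤ 3 := by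
    intro w h0 h3
    rcases le_total w 1 with h1 | h1
    · rw [Bf_of_abs_le (by rw [abs_of_nonneg h0]; exact h1), abs_of_nonneg h0]
      linarith
    · have := Curve_867.Bf_mem h1 h3
      rw [abs_le]
      constructor <;> linarith [this.1, this.2]
  rcases le_total 0 v with h0 | h0
  · rw [abs_of_nonneg h0] at h
    exact key v h0 h
  · rw [abs_of_nonpos h0] at h
    have := key (-v) (by linarith) h
    rwa [Bf_neg, abs_neg] at this

theorem abs_yc_le8 {e v : ℝ} (he : |e| = 1) (h : |v| ≤ 8) : |yc e v| ≤ 3 := by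
  rcases le_total |v| 3 with h1 | h1
  · rw [(yc_in (by linarith)).1, abs_mul, he, one_mul]
    exact abs_Bf_le v h1
  · rcases le_total |v| 7 with h2 | h2
    · exact abs_yc_le he h1 h2
    · rcases le_abs.1 h2 with h3 | h3
      · rw [(yc_high h3).1]
        rw [abs_of_nonneg (by linarith : 0 ≤ v)] at h
        rw [abs_le]
        constructor <;> linarith
      · rw [(yc_low (by linarith : v ≤ -7)).1]
        rw [abs_of_nonpos (by linarith : v ≤ 0)] at h
        rw [abs_le]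
        constructor <;> linarith

theorem abs_im_pvN {ga : ℝ} {e : ℕ → ℝ} (he : ∀ l, |e l| = 1) (M : ℕ) (τ : ℝ) :
    |(pvN ga e M τ).im| ≤ 3 + |τ| := by
  rcases casesN_tau M τ with h | ⟨l, hl, h⟩ | h
  · rw [pvN_low (by linarith)]
    have : (-((2 - ga : ℝ) : ℂ) - Complex.I * (τ : ℂ)).im = -τ := by simp
    rw [this, abs_neg]
    linarith
  · rw [pvN_cell hl h]
    have : (((-(1 - ga) + Af (τ - sgN l) : ℝ) : ℂ) +
      Complex.I * ((yc (e l) (τ - sgN l) : ℝ) : ℂ)).im = yc (e l) (τ - sgN l) := by simp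
    rw [this]
    have := abs_yc_le8 (he l) h
    have := abs_nonneg τ
    linarith
  · rw [pvN_high (by linarith)]
    have hM : (0 : ℝ) ≤ M := M.cast_nonneg
    have h1 := st_nonneg (τ - 16 * M)
    have h2 := st_le_one (τ - 16 * M)
    have : (((-(2 - ga) : ℝ) : ℂ) -
      Complex.I * ((τ - 16 * M + 16 * M * st (τ - 16 * M) : ℝ) : ℂ)).im =
        -(τ - 16 * M + 16 * M * st (τ - 16 * M)) := by simp
    rw [this, abs_neg, abs_of_nonneg (a := τ) (by linarith)]
    have h3 : 0 ≤ 16 * (M : ℝ) * st (τ - 16 * M) := by positivity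
    have h4 : 16 * (M : ℝ) * st (τ - 16 * M) ≤ 16 * M := by
      calc 16 * (M : ℝ) * st (τ - 16 * M) ≤ 16 * M * 1 :=
            mul_le_mul_of_nonneg_left h2 (by positivity)
        _ = _ := mul_one _
    rw [abs_of_nonneg (by linarith)]
    linarith

theorem abs_im_plN {ga : ℝ} {e : ℕ → ℝ} (he : ∀ l, |e l| = 1) (M : ℕ) (z : ℂ) :
    |(plN ga e M z).im| ≤ 3 * |z.re| + |z.im| := by
  rcases le_or_gt z.re 0 with h | h
  · rw [plN_of_nonpos h]
    have : (-((2 - ga : ℝ) : ℂ) * z.re - Complex.I * z.im).im = -z.im := by simp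
    rw [this, abs_neg]
    have := abs_nonneg z.re
    linarith
  · rw [plN_of_pos h, Complex.im_ofReal_mul, abs_mul]
    have h1 := abs_im_pvN (ga := ga) he M (z.im / z.re)
    have h2 : |z.re| * |z.im / z.re| = |z.im| := by
      rw [abs_div]
      have : |z.re| ≠ 0 := (abs_pos.2 h.ne').ne'
      field_simp
    calc |z.re| * |(pvN ga e M (z.im / z.re)).im| ≤ |z.re| * (3 + |z.im / z.re|) :=
          mul_le_mul_of_nonneg_left h1 (abs_nonneg _)
      _ = 3 * |z.re| + |z.im| := by rw [mul_add, h2]; ring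

/-- critical points of the height: the value is on the left. -/
theorem re_of_crit {ga : ℝ} {e : ℕ → ℝ} (he : ∀ l, |e l| = 1) {M : ℕ} {τ : ℝ}
    (h : (pvdN e M τ).im = 0) : (pvN ga e M τ).re ≤ -(1 - ga) := by
  by_cases hv : ∀ l < M, 3 ≤ |τ - sgN l|
  · rw [(pvN_vert he hv).1 ga]
    linarith
  · push Not at hv
    obtain ⟨l, hl, hv⟩ := hv
    obtain ⟨h1, -, -, h4⟩ := pvN_lobe (ga := ga) (e := e) hl (by linarith : |τ - sgN l| ≤ 6)
    rw [h4] at h
    have he0 : e l ≠ 0 := fun h0 => by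
      have := he l
      rw [h0, abs_zero] at this
      exact zero_ne_one this
    have h5 : Bfd (τ - sgN l) = 0 := (mul_eq_zero.1 h).resolve_left he0
    have key : ∀ w : ℝ, 0 ≤ w → w < 3 → Bfd w = 0 → w = 2 := by
      intro w h0 h3 hB
      rcases le_or_gt w 1 with h6 | h6
      · rw [Bfd_of_abs_le (by rw [abs_of_nonneg h0]; exact h6)] at hB
        exact absurd hB one_ne_zero
      · rcases lt_trichotomy w 2 with h7 | h7 | h7
        · exact absurd hB (Curve_867.Bfd_pos h6.le h7).ne'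
        · exact h7
        · exact absurd hB (Curve_867.Bfd_neg h7 h3.le).ne
    have h6 : |τ - sgN l| = 2 := by
      rcases le_total 0 (τ - sgN l) with h0 | h0
      · rw [abs_of_nonneg h0] at hv ⊢
        exact key _ h0 hv h5
      · rw [abs_of_nonpos h0] at hv ⊢
        refine key _ (by linarith) hv ?_
        have : Bfd (-(τ - sgN l)) = Bfd (τ - sgN l) := by
          unfold Bfd
          rw [neg_neg]
          ring
        rw [this, h5]
    have h7 : Af (τ - sgN l) = 0 := by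
      unfold Af st
      rw [h6, c01_of_mem (by norm_num) (by norm_num)]
      norm_num
    rw [h1, h7]
    linarith

/-! ### region II -/

variable (D : SD N)

/-- some variable is active (`N d² < 1`), in the region II. -/
theorem exists_active {d : ℝ} (hd : 0 < d) (hNd : N * d ^ 2 < 1) {z : Fin N → ℂ} (hz : z ≠ 0)
    (h2 : II D z) : ∃ j, 0 < D.ch d z j := by
  by_contra h
  push Not at h
  have hx : ∀ j, D.xr z j ≤ d := by
    intro j
    by_contra h1
    exact absurd (chi_pos hd (not_le.1 h1)) (not_lt.2 (h j))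
  have hA := h2.AA_pos hz
  have hNN : NN D.K1 z ^ 2 = AA z := by rw [h2.NN, Real.sq_sqrt hA.le]
  have h3 : ∀ j, (z j).re ^ 2 ≤ d ^ 2 * AA z := by
    intro j
    have h4 : pg D.K (z j) ≤ d * NN D.K1 z := by
      have := hx j
      unfold SD.xr at this
      rwa [div_le_iff₀ (NN_pos hz)] at this
    calc (z j).re ^ 2 = |(z j).re| ^ 2 := (sq_abs _).symm
      _ ≤ pg D.K (z j) ^ 2 := pow_le_pow_left₀ (abs_nonneg _) (abs_re_le_pg _ _) 2
      _ ≤ (d * NN D.K1 z) ^ 2 := pow_le_pow_left₀ (pg_nonneg _ _) h4 2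
      _ = d ^ 2 * AA z := by rw [mul_pow, hNN]
  have h4 : AA z ≤ N * (d ^ 2 * AA z) := by
    calc AA z ≤ ∑ _i : Fin N, d ^ 2 * AA z := sum_le_sum fun i _ => h3 i
      _ = N * (d ^ 2 * AA z) := by simp
  nlinarith

theorem Be_nonneg (d : ℝ) (e : Fin D.nb) (z : Fin N → ℂ) : 0 ≤ D.Be d e z := by
  rw [Be_eq]
  exact mul_nonneg (hh_nonneg D d z e) (Pw_nonneg D z e)

theorem G_re (cB ga d : ℝ) (z : Fin N → ℂ) : (D.G cB ga d z).re =
    ∑ j, D.ch d z j * (plN ga (D.sn j) (D.M j) (z j)).re - cB * ga * ∑ e, D.Be d e z := by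
  unfold SD.G
  rw [Complex.sub_re, Complex.ofReal_re, Complex.re_sum]
  congr 1
  refine sum_congr rfl fun j _ => ?_
  rw [Complex.re_ofReal_mul]

theorem region2 {cB ga d : ℝ} (hc : 0 < cB) (hga : 0 < ga) (hga1 : ga < 1) (hd : 0 < d)
    (hNd : N * d ^ 2 < 1) {z : Fin N → ℂ} (hz : z ≠ 0) (h2 : II D z)
    (hre : 0 ≤ (D.G cB ga d z).re) :
    ∃ Y : Fin N → ℝ, (fderiv ℝ (D.G cB ga d) z (vt Y)).im ≠ 0 := by
  by_contra hcon
  push Not at hcon
  have key : ∀ j, 0 < D.ch d z j →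
      (plN ga (D.sn j) (D.M j) (z j)).re < 0 := by
    intro j hj
    have h3 := hcon (Pi.single j 1)
    by_cases hW : Wd D z j
    · rcases le_or_gt (z j).re 0 with h0 | h0
      · exfalso
        rw [w_neg cB ga hd hz h2 h0 hW] at h3
        have : (-(Complex.I * (D.ch d z j : ℂ))).im = -D.ch d z j := by simp
        rw [this] at h3
        linarith
      · rw [w_pos cB ga hd hz h2 h0 hW] at h3
        have : ((D.ch d z j : ℂ) * pvdN (D.sn j) (D.M j) (tau z j) -
          (tB D cB ga d z j : ℂ)).im = D.ch d z j * (pvdN (D.sn j) (D.M j) (tau z j)).im := by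
          rw [Complex.sub_im, Complex.ofReal_im, Complex.im_ofReal_mul, sub_zero]
        rw [this] at h3
        have h4 := re_of_crit (ga := ga) (abs_sn D j) ((mul_eq_zero.1 h3).resolve_left hj.ne')
        rw [pl_in h0, Complex.re_ofReal_mul]
        have : (pvN ga (D.sn j) (D.M j) (tau z j)).re < 0 := by linarith
        exact mul_neg_of_pos_of_neg h0 this
    · exfalso
      rw [w_out cB ga hd hz h2 hW, pl_out (Or.inr hW)] at h3
      have : (-(Complex.I * (D.ch d z j : ℂ)) + (aO D d z j : ℂ) *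
          (-((2 - ga : ℝ) : ℂ) * (z j).re - Complex.I * (z j).im)).im =
          -D.ch d z j - aO D d z j * (z j).im := by
        simp
        ring
      rw [this] at h3
      have h5 : 0 ≤ aO D d z j * (z j).im := by
        unfold aO
        have h6 : chid d (D.xr z j) * (pt D.K (z j) / √(AA z)) * (z j).im =
            chid d (D.xr z j) * (pt D.K (z j) * (z j).im) / √(AA z) := by ring
        rw [h6]
        exact div_nonneg (mul_nonneg (chid_nonneg hd _) (pt_mul_nonneg _ _)) (Real.sqrt_nonneg _)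
      linarith
  obtain ⟨j0, hj0⟩ := exists_active D hd hNd hz h2
  have h5 : (D.G cB ga d z).re < 0 := by
    rw [G_re]
    have h6 : 0 ≤ cB * ga * ∑ e, D.Be d e z :=
      mul_nonneg (by positivity) (sum_nonneg fun e _ => Be_nonneg D d e z)
    have h7 : ∑ j, D.ch d z j * (plN ga (D.sn j) (D.M j) (z j)).re < 0 := by
      refine sum_neg' (fun j _ => ?_) ⟨j0, mem_univ _, ?_⟩
      · rcases (ch_nonneg D d z j).eq_or_lt' with h8 | h8
        · rw [h8, zero_mul]
        · exact (mul_neg_of_pos_of_neg h8 (key j h8)).le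
      · exact mul_neg_of_pos_of_neg hj0 (key j0 hj0)
    linarith
  linarith

/-! ### region I -/

/-- constant of `far_of_region1`. -/
theorem far_of_region1 {z : Fin N → ℂ} (h2 : ¬ II D z) {j : Fin N}
    (hj : BB z ≤ N * (z j).im ^ 2) : (16 * (D.M j : ℝ) + 2) * |(z j).re| ≤ |(z j).im| := by
  unfold II at h2
  rw [not_le] at h2
  have hN1 : (1 : ℝ) ≤ N := one_le_N j
  rw [← Real.sqrt_sq_eq_abs (z j).im, Real.le_sqrt (by positivity) (sq_nonneg _), mul_pow, sq_abs]
  have hM : (D.M j : ℝ) ≤ D.Mx := by exact_mod_cast M_le_Mx D j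
  have hM0 : (0 : ℝ) ≤ D.M j := Nat.cast_nonneg _
  have h3 : (N : ℝ) * ((16 * D.M j + 2) ^ 2 * (z j).re ^ 2) ≤ D.K1 ^ 2 * AA z := by
    calc (N : ℝ) * ((16 * D.M j + 2) ^ 2 * (z j).re ^ 2)
        ≤ N * ((16 * D.Mx + 2) ^ 2 * AA z) := by
          have := re_sq_le_AA z j
          gcongr
      _ = (16 * D.Mx + 2) ^ 2 * N * 1 * AA z := by ring
      _ ≤ (16 * D.Mx + 2) ^ 2 * N * N * AA z := by
          have := AA_nonneg z
          gcongr
      _ = D.K1 ^ 2 * AA z := by unfold SD.K1; ring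
  have h4 : (N : ℝ) * ((16 * D.M j + 2) ^ 2 * (z j).re ^ 2) ≤ N * (z j).im ^ 2 := by linarith
  exact le_of_mul_le_mul_left h4 (by linarith)

theorem K1_ge_one (hN : 0 < N) : 1 ≤ D.K1 := by
  unfold SD.K1
  have hN1 : (1 : ℝ) ≤ N := by exact_mod_cast hN
  have : (0 : ℝ) ≤ D.Mx := Nat.cast_nonneg _
  nlinarith

/-- in region I the variable with the largest `|t|` is fully active. -/
theorem xr_region1 {d : ℝ} (hd : 0 < d) (hd1 : 8 * N * cK D.K ^ 2 * d ^ 2 ≤ 1)
    {z : Fin N → ℂ} (hz : z ≠ 0) (h2 : ¬ II D z) {j : Fin N}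
    (hj : BB z ≤ N * (z j).im ^ 2) : 2 * d ≤ D.xr z j := by
  have hN : 0 < N := Fin.pos j
  have hK1 := K1_ge_one D hN
  unfold II at h2
  rw [not_le] at h2
  unfold SD.xr
  rw [le_div_iff₀ (NN_pos hz)]
  refine le_of_sq_le_sq ?_ (pg_nonneg _ _)
  have hAB : AA z ≤ BB z := by
    have h0 := AA_nonneg z
    have h1 : 1 ≤ D.K1 ^ 2 := one_le_pow₀ hK1
    have : 1 * AA z ≤ D.K1 ^ 2 * AA z := mul_le_mul_of_nonneg_right h1 h0
    linarith
  have h3 : NN D.K1 z ^ 2 ≤ 2 * BB z := by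
    rw [NN_sq]
    have := gq_le (K := D.K1) (AA_nonneg z) (BB_nonneg z)
    linarith
  have h4 : (z j).im ^ 2 ≤ cK D.K ^ 2 * pg D.K (z j) ^ 2 := by
    have := abs_im_le_pg D.K (z j)
    calc (z j).im ^ 2 = |(z j).im| ^ 2 := (sq_abs _).symm
      _ ≤ (cK D.K * pg D.K (z j)) ^ 2 := pow_le_pow_left₀ (abs_nonneg _) this 2
      _ = _ := by ring
  have hN0 : (0 : ℝ) ≤ N := Nat.cast_nonneg _
  calc (2 * d * NN D.K1 z) ^ 2 = 4 * d ^ 2 * NN D.K1 z ^ 2 := by ring
    _ ≤ 4 * d ^ 2 * (2 * (N * (cK D.K ^ 2 * pg D.K (z j) ^ 2))) := by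
        gcongr
        refine h3.trans ?_
        gcongr
        exact hj.trans (mul_le_mul_of_nonneg_left h4 hN0)
    _ = (8 * N * cK D.K ^ 2 * d ^ 2) * pg D.K (z j) ^ 2 := by ring
    _ ≤ 1 * pg D.K (z j) ^ 2 := mul_le_mul_of_nonneg_right hd1 (sq_nonneg _)
    _ = _ := one_mul _

/-- constant of the terms `O(d)`. -/
def cT (D : SD N) : ℝ := 15 / 4 * cK D.K1 * (3 + cK D.K)

theorem cT_pos : 0 < cT D := by
  unfold cT
  have := cK_pos D.K1
  have := cK_pos D.K
  positivity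

theorem dch_single {d : ℝ} (z : Fin N → ℂ) (i j : Fin N) (hij : i ≠ j) :
    dch D d z i (vt (Pi.single j (1 : ℝ))) =
      -(chid d (D.xr z i) * (D.xr z i / NN D.K1 z * dNN D.K1 z (vt (Pi.single j (1 : ℝ))))) := by
  simp [dch, dxr, hij]

/-- contribution of a variable `i` which is not the largest one. -/
theorem term_small {ga d : ℝ} (hd : 0 < d) {z : Fin N → ℂ} (hz : z ≠ 0) {i j : Fin N}
    (hij : i ≠ j) : |dch D d z i (vt (Pi.single j (1 : ℝ))) *
      (plN ga (D.sn i) (D.M i) (z i)).im| ≤ 2 * cT D * d := by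
  have hNN := NN_pos (K := D.K1) hz
  have hcT := cT_pos D
  rw [dch_single D z i j hij]
  rcases le_total (2 * d) (D.xr z i) with h | h
  · rw [chid_of_ge hd h, zero_mul, neg_zero, zero_mul, abs_zero]
    positivity
  · have hx0 : 0 ≤ D.xr z i := xr_nonneg D z i
    have h1 := mul_chid_le hd (x := D.xr z i)
    have h1' := chid_mul_nonneg hd (x := D.xr z i)
    have h2 := abs_dNN_le D.K1 hz j
    have h3 : |(plN ga (D.sn i) (D.M i) (z i)).im| ≤ (3 + cK D.K) * (D.xr z i * NN D.K1 z) := by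
      refine (abs_im_plN (abs_sn D i) (D.M i) (z i)).trans ?_
      have h4 := abs_re_le_pg D.K (z i)
      have h5 := abs_im_le_pg D.K (z i)
      have h6 : D.xr z i * NN D.K1 z = pg D.K (z i) := by
        unfold SD.xr
        field_simp
      rw [h6]
      linarith
    have e1 : -(chid d (D.xr z i) * (D.xr z i / NN D.K1 z *
        dNN D.K1 z (vt (Pi.single j (1 : ℝ))))) * (plN ga (D.sn i) (D.M i) (z i)).im =
        -((D.xr z i * chid d (D.xr z i)) * dNN D.K1 z (vt (Pi.single j (1 : ℝ))) *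
          (plN ga (D.sn i) (D.M i) (z i)).im / NN D.K1 z) := by ring
    rw [e1, abs_neg, abs_div, abs_mul, abs_mul, abs_of_pos hNN, abs_of_nonneg h1',
      div_le_iff₀ hNN]
    have hc := cK_pos D.K1
    have hc' := cK_pos D.K
    calc D.xr z i * chid d (D.xr z i) * |dNN D.K1 z (vt (Pi.single j (1 : ℝ)))| *
          |(plN ga (D.sn i) (D.M i) (z i)).im|
        ≤ 15 / 4 * cK D.K1 * ((3 + cK D.K) * (D.xr z i * NN D.K1 z)) := by gcongr
      _ = cT D * D.xr z i * NN D.K1 z := by unfold cT; ring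
      _ ≤ cT D * (2 * d) * NN D.K1 z := by gcongr
      _ = 2 * cT D * d * NN D.K1 z := by ring

/-- the constants of the region I. -/
structure dOk (D : SD N) (d : ℝ) : Prop where
  h1 : N * d ^ 2 < 1
  h2 : 8 * N * cK D.K ^ 2 * d ^ 2 ≤ 1
  h3 : N * (2 * cT D * d) ≤ 1 / 2

theorem exists_dOk : ∃ d0 : ℝ, 0 < d0 ∧ ∀ d, 0 < d → d ≤ d0 → dOk D d := by
  have hN : (0 : ℝ) ≤ N := Nat.cast_nonneg _
  have hcT := cT_pos D
  have hc := cK_pos D.K
  set a : ℝ := 1 + N + 8 * N * cK D.K ^ 2 + 4 * N * cT D with ha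
  have ha1 : 1 ≤ a := by
    rw [ha]
    have : 0 ≤ (N : ℝ) + 8 * N * cK D.K ^ 2 + 4 * N * cT D := by positivity
    linarith
  refine ⟨1 / a, by positivity, fun d hd h => ?_⟩
  have h1 : d * a ≤ 1 := by rwa [le_div_iff₀ (by positivity)] at h
  have h2 : d ≤ 1 := by nlinarith
  have h3 : d ^ 2 ≤ d := by nlinarith
  have e1 : 0 ≤ d * (8 * (N : ℝ) * cK D.K ^ 2) := by positivity
  have e2 : 0 ≤ d * (4 * (N : ℝ) * cT D) := by positivity
  have e3 : 0 ≤ d * N := by positivity
  have h4 : d + d * N + d * (8 * N * cK D.K ^ 2) + d * (4 * N * cT D) ≤ 1 := by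
    rw [ha] at h1
    linarith
  refine ⟨?_, ?_, ?_⟩
  · calc (N : ℝ) * d ^ 2 ≤ N * d := mul_le_mul_of_nonneg_left h3 hN
      _ < 1 := by linarith
  · calc 8 * (N : ℝ) * cK D.K ^ 2 * d ^ 2 ≤ 8 * N * cK D.K ^ 2 * d :=
          mul_le_mul_of_nonneg_left h3 (by positivity)
      _ ≤ 1 := by linarith
  · linarith

theorem dBe_real (cB ga d : ℝ) (z y : Fin N → ℂ) :
    (dG D cB ga d z y).im = ∑ j, (dT D ga d z j y).im := by
  rw [dG_apply, Complex.sub_im, Complex.ofReal_im, sub_zero, Complex.im_sum]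

/-- **region I**: the derivative of `Im G` in the direction of the largest `t` is near `-1`. -/
theorem region1 {cB ga d : ℝ} (hd : 0 < d) (hok : dOk D d) {z : Fin N → ℂ} (hz : z ≠ 0)
    (h2 : ¬ II D z) : ∃ j, |(fderiv ℝ (D.G cB ga d) z (vt (Pi.single j 1))).im + 1| ≤ 1 / 2 ∧
      (16 * (D.M j : ℝ) + 2) * |(z j).re| ≤ |(z j).im| ∧ 2 * d ≤ D.xr z j ∧
      BB z ≤ N * (z j).im ^ 2 := by
  have hN : 0 < N := by
    by_contra h0
    have h0' : N = 0 := by omega
    subst h0'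
    exact hz (Subsingleton.elim _ _)
  obtain ⟨j, hj⟩ := exists_im z hN
  have hfar := far_of_region1 D h2 hj
  have hx := xr_region1 D hd hok.h2 hz h2 hj
  refine ⟨j, ?_, hfar, hx, hj⟩
  rw [fderiv_G D cB ga hd hz, dBe_real, ← add_sum_erase univ _ (mem_univ j)]
  have hj0 : z j ≠ 0 := by
    intro h0
    rw [xr_of_zero D h0] at hx
    linarith
  have hpb : pbN (D.sn j) (D.M j) (z j) = -Complex.I := by
    unfold pbN
    split_ifs with hs
    · rw [abs_of_pos hs] at hfar
      have hM : (0 : ℝ) ≤ D.M j := Nat.cast_nonneg _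
      rcases le_total 0 (z j).im with h0 | h0
      · rw [abs_of_nonneg h0] at hfar
        refine pvd_high' ?_
        rw [le_div_iff₀ hs]
        nlinarith
      · refine pvdN_low ?_
        rw [div_le_iff₀ hs]
        linarith
    · rfl
  have h3 : (dT D ga d z j (vt (Pi.single j 1))).im = -1 := by
    rw [dT_apply]
    have h4 : dch D d z j (vt (Pi.single j (1 : ℝ))) = 0 := by
      unfold dch
      rw [chid_of_ge hd hx]
      simp
    have h5 : D.ch d z j = 1 := chi_of_ge hd hx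
    rw [h4, h5, hpb]
    simp
  rw [h3]
  have h6 : |∑ i ∈ univ.erase j, (dT D ga d z i (vt (Pi.single j 1))).im| ≤ 1 / 2 := by
    refine (abs_sum_le_sum_abs _ _).trans ?_
    calc ∑ i ∈ univ.erase j, |(dT D ga d z i (vt (Pi.single j 1))).im|
        ≤ ∑ _i ∈ univ.erase j, 2 * cT D * d := by
          refine sum_le_sum fun i hi => ?_
          have hij : i ≠ j := ne_of_mem_erase hi
          have e1 : (dT D ga d z i (vt (Pi.single j 1))).im =
              dch D d z i (vt (Pi.single j (1 : ℝ))) * (plN ga (D.sn i) (D.M i) (z i)).im := by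
            rw [dT_apply]
            simp [hij]
          rw [e1]
          exact term_small D hd hz hij
      _ ≤ ∑ _i : Fin N, 2 * cT D * d := by
          refine sum_le_sum_of_subset_of_nonneg (erase_subset _ _) fun _ _ _ => ?_
          have := cT_pos D
          positivity
      _ = N * (2 * cT D * d) := by simp
      _ ≤ 1 / 2 := hok.h3
  rw [add_comm, ← add_assoc, add_neg_cancel, zero_add]
  exact h6

/-- **K1 for the signed function.** -/
theorem k1N : D.K1Prop := by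
  obtain ⟨d0, hd0, hd⟩ := exists_dOk D
  refine ⟨1, one_pos, fun c hc => ⟨1 / 2, by norm_num, fun g hg hg' =>
    ⟨d0, hd0, fun d h h' z hz _ hre => ?_⟩⟩⟩
  have hok := hd d h h'
  by_cases h2 : II D z
  · exact region2 D (by linarith) hg (by linarith) h hok.h1 hz h2 hre
  · obtain ⟨j, hj, -⟩ := region1 (cB := c) (ga := g) D h hok hz h2
    refine ⟨Pi.single j 1, fun h0 => ?_⟩
    rw [h0, zero_add, abs_one] at hj
    norm_num at hj

end Crest.Agent.R267.K1N_957
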