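import Crest.Agent.R267.K2cN_867
import Crest.Agent.R267.Calc4N_867

/-!
# K2 of T3aN in the region II (`|t| ≤ K1 |s|`)
-/

set_option autoImplicit false

noncomputable section

open Finset

namespace Crest.Agent.R267.K2IIN_867

open Crest.Agent.R267.LemL_951
open Crest.Agent.R267.T3aDefs_957 (st Af Bf pg NN chi LD)
open Crest.Agent.R267.Calc_957 (std st_of_le st_of_ge std_of_le std_of_ge st_nonneg)
open Crest.Agent.R267.T3aNDefs_88 Crest.Agent.R267.CalcN_88
open Crest.Agent.R267.Calc2_957 (ps pt pt_of_le ps_of_le pg_of_le pt_mul_nonneg pg_euler pg_zero)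
open Crest.Agent.R267.Calc3_957 (AA BB chid dch)
open Crest.Agent.R267.Calc4_957 (tau vt_re vt_im vs_re vs_im vt_eq_sum vs_eq II S Wd rho)
open Crest.Agent.R267.Calc4N_867 Crest.Agent.R267.K2cN_867

variable {N : ℕ} (D : SD N) (cB ga d : ℝ) (z : Fin N → ℂ)

/-- the point. -/
def mk : PtN N where
  D := D
  cB := cB
  ga := ga
  d := d
  z := z
  ps := fun j => ps D.K (z j)
  pt := fun j => pt D.K (z j)
  pd := fun j => pvdN (D.sn j) (D.M j) (tau z j)

variable {D} {cB ga d} {z}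

theorem nu_eq : (mk D cB ga d z).nu = √(AA z) := rfl

theorem x_eq (h : II (tw D) z) (j : Fin N) : (mk D cB ga d z).x j = D.xr z j := by
  unfold PtN.x SD.xr
  have := h.NN
  rw [tw_K1] at this
  rw [this, nu_eq]
  rfl

theorem X_eq (h : II (tw D) z) (j : Fin N) : (mk D cB ga d z).X j = D.ch d z j := by
  unfold PtN.X SD.ch
  rw [x_eq h]
  rfl

theorem cd_eq (h : II (tw D) z) (j : Fin N) : (mk D cB ga d z).cd j = chid d (D.xr z j) := by
  unfold PtN.cd chid
  rw [x_eq h]
  rfl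

theorem S_eq : (mk D cB ga d z).S = S z := by
  unfold PtN.S S
  rw [sum_div]
  rfl

theorem rho_eq (h : II (tw D) z) (j : Fin N) : (mk D cB ga d z).rho j = rho (tw D) d z j := by
  unfold PtN.rho rho
  rw [x_eq h, X_eq h, cd_eq h, S_eq, tw_xr, tw_ch]

theorem Rr_eq (h : II (tw D) z) : (mk D cB ga d z).Rr = D.R d z := by
  funext j
  unfold PtN.Rr SD.R
  rw [X_eq h]
  rfl

theorem hh_eq (h : II (tw D) z) (e : Fin D.nb) :
    (mk D cB ga d z).hh e = hh D d z e := by
  unfold PtN.hh hh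
  rw [Rr_eq h]
  rfl

theorem hd_eq (h : II (tw D) z) (e : Fin D.nb) (j : Fin N) :
    (mk D cB ga d z).hd e j = hdd D d z e j := by
  unfold PtN.hd hdd
  rw [Rr_eq h, hh_eq h]

theorem la_eq (e : Fin D.nb) (j : Fin N) : (mk D cB ga d z).la e j = la D z e j := rfl

theorem lad_eq (e : Fin D.nb) (j : Fin N) : (mk D cB ga d z).lad e j = lad D z e j := rfl

theorem supp_eq (e : Fin D.nb) : (mk D cB ga d z).supp e = (D.bx e).S := rfl

theorem tB_term (h : II (tw D) z) (e : Fin D.nb) (j : Fin N) :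
    (if j ∈ (mk D cB ga d z).supp e then (mk D cB ga d z).hh e *
      ((mk D cB ga d z).lad e j / ((mk D cB ga d z).z j).re) *
      ∏ i ∈ ((mk D cB ga d z).supp e).erase j, (mk D cB ga d z).la e i else 0) =
    if j ∈ (D.bx e).S then
    hh D d z e * (lad D z e j / (z j).re) * ∏ i ∈ (D.bx e).S.erase j, la D z e i else 0 := by
  rw [hh_eq h]
  rfl

theorem tB_eq (h : II (tw D) z) (j : Fin N) : (mk D cB ga d z).tB j = tB D cB ga d z j := by
  unfold PtN.tB tB
  exact congrArg (fun x => cB * ga * x) (sum_congr rfl fun e _ => tB_term h e j)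

theorem HB_term (h : II (tw D) z) (e : Fin D.nb) (j : Fin N) :
    (if j ∈ (mk D cB ga d z).supp e then (∏ i ∈ (mk D cB ga d z).supp e,
      (mk D cB ga d z).la e i) * (mk D cB ga d z).hd e j else 0) =
    if j ∈ (D.bx e).S then (∏ i ∈ (D.bx e).S, la D z e i) * hdd D d z e j else 0 := by
  rw [hd_eq h]
  rfl

theorem HB_eq (h : II (tw D) z) (j : Fin N) : (mk D cB ga d z).HB j = HB D cB ga d z j := by
  unfold PtN.HB HB
  exact congrArg (fun x => cB * ga * x) (sum_congr rfl fun e _ => HB_term h e j)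

theorem Wp_iff (j : Fin N) : (mk D cB ga d z).Wp j ↔ 0 < (z j).re ∧ Wd (tw D) z j := by
  unfold PtN.Wp Wd
  rw [tw_K]
  constructor
  · intro h
    have h1 : 0 < (z j).re := h.1
    refine ⟨h1, ?_⟩
    rw [abs_of_pos h1]
    exact h.2
  · intro h
    refine ⟨h.1, ?_⟩
    have h2 := h.2
    rw [abs_of_pos h.1] at h2
    exact h2

theorem K_nonneg : 0 ≤ D.K := by
  rw [← tw_K]
  exact Calc3_957.K_nonneg _

/-- a steep variable is on the first or last line. -/
theorem steep {j : Fin N} (h0 : 0 < (z j).re) (hW : ¬ Wd (tw D) z j) (ga : ℝ) :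
    pvdN (D.sn j) (D.M j) ((z j).im / (z j).re) = -Complex.I ∧
      pvN ga (D.sn j) (D.M j) ((z j).im / (z j).re) =
        -((2 - ga : ℝ) : ℂ) - Complex.I * (((z j).im / (z j).re : ℝ) : ℂ) := by
  have h1 := le_K D j
  unfold Wd at hW
  rw [not_le, abs_of_pos h0, tw_K] at hW
  have h2 : (16 * (D.M j : ℝ) + 1) * (z j).re < |(z j).im| := by nlinarith
  rcases le_total 0 (z j).im with h3 | h3
  · rw [abs_of_nonneg h3] at h2
    have h4 : 16 * (D.M j : ℝ) + 1 ≤ (z j).im / (z j).re := by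
      rw [le_div_iff₀ h0]; exact h2.le
    rw [pvdN_high (by linarith), pvN_high (by linarith), st_of_ge (by linarith),
      std_of_ge (by linarith)]
    constructor
    · simp
    · push_cast
      ring
  · have h4 : (z j).im / (z j).re ≤ 1 :=
      (div_nonpos_of_nonpos_of_nonneg h3 h0.le).trans zero_le_one
    rw [pvdN_low h4, pvN_low h4]
    exact ⟨rfl, rfl⟩

theorem pa_off {j : Fin N} (hW : ¬ (0 < (z j).re ∧ Wd (tw D) z j)) (ga : ℝ) :
    paN ga (D.sn j) (D.M j) (z j) = -((2 - ga : ℝ) : ℂ) ∧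
      pbN (D.sn j) (D.M j) (z j) = -Complex.I := by
  unfold paN pbN
  rcases le_or_gt (z j).re 0 with h | h
  · rw [if_neg (not_lt.2 h), if_neg (not_lt.2 h)]
    exact ⟨rfl, rfl⟩
  · rw [if_pos h, if_pos h]
    obtain ⟨h1, h2⟩ := steep h (fun hh => hW ⟨h, hh⟩) ga
    rw [h1, h2]
    refine ⟨?_, rfl⟩
    ring

theorem pl_off {j : Fin N} (hW : ¬ (0 < (z j).re ∧ Wd (tw D) z j)) (ga : ℝ) :
    plN ga (D.sn j) (D.M j) (z j) =
      -((2 - ga : ℝ) : ℂ) * (z j).re - Complex.I * (z j).im := by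
  rcases le_or_gt (z j).re 0 with h | h
  · exact plN_of_nonpos h
  · refine plN_of_far (Or.inl ?_)
    have h1 := le_K D j
    have h2 : ¬ Wd (tw D) z j := fun hh => hW ⟨h, hh⟩
    unfold Wd at h2
    rw [not_le, abs_of_pos h, tw_K] at h2
    nlinarith

theorem tB_off {j : Fin N} (hW : ¬ (0 < (z j).re ∧ Wd (tw D) z j)) : tB D cB ga d z j = 0 := by
  unfold tB
  rw [sum_eq_zero, mul_zero]
  intro e _
  split_ifs with h1
  · rcases le_or_gt (z j).re 0 with h | h
    · rw [hh_of_nonpos h1 h]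
      ring
    · rw [(la_steep h1 h (fun hh => hW ⟨h, hh⟩)).2]
      ring
  · rfl

/-- where the planar function is. -/
theorem zone (j : Fin N) : (mk D cB ga d z).Zone j := by
  unfold PtN.Zone
  have e1 : (mk D cB ga d z).D = D := rfl
  have e2 : (mk D cB ga d z).ta j = tau z j := rfl
  have e3 : (mk D cB ga d z).pj j = pvN ga (D.sn j) (D.M j) (tau z j) := rfl
  have e4 : (mk D cB ga d z).pd j = pvdN (D.sn j) (D.M j) (tau z j) := rfl
  have e5 : (mk D cB ga d z).ga = ga := rfl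
  rw [e1, e2, e3, e4, e5]
  by_cases hl : ∀ l < D.M j, 3 ≤ |tau z j - sgN l|
  · obtain ⟨h1, κ, h2, h3⟩ := pvN_vert (fun l => abs_sn D j l) hl
    have h4 : (pvdN (D.sn j) (D.M j) (tau z j)).re = 0 := by rw [h2]; simp
    have h5 : (pvdN (D.sn j) (D.M j) (tau z j)).im = -κ := by rw [h2]; simp
    rcases h3 with h3 | ⟨h3, -⟩
    · right; left
      refine ⟨h1 ga, h4, ?_, fun k hk hk2 => ?_⟩
      · rw [h5, abs_neg]
        exact h3.trans (le_abs_self _)
      · have hM : (0 : ℝ) ≤ D.M j := Nat.cast_nonneg _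
        rcases lt_or_eq_of_le hk with h6 | h6
        · obtain ⟨h7, -⟩ := pvN_junction h6 hk2.le ga (D.sn j)
          rw [h7]
          rw [abs_lt] at hk2
          simp only [Complex.sub_im, Complex.ofReal_im, Complex.mul_im, Complex.I_re,
            Complex.I_im, Complex.ofReal_re]
          rw [abs_le]
          constructor <;> linarith
        · rw [h6, abs_lt] at hk2
          rw [pvN_high (by linarith)]
          simp only [Complex.sub_im, Complex.ofReal_im, Complex.mul_im, Complex.I_re,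
            Complex.I_im, Complex.ofReal_re]
          have h7 := st_nonneg (tau z j - 16 * D.M j)
          have h8 := Curve_867.st_le_one (tau z j - 16 * D.M j)
          have h9 : 16 * (D.M j : ℝ) * st (tau z j - 16 * D.M j) ≤ 16 * D.M j := by nlinarith
          have h10 : 0 ≤ 16 * (D.M j : ℝ) * st (tau z j - 16 * D.M j) := by positivity
          rw [abs_le]
          constructor <;> linarith
    · right; right
      exact ⟨h1 ga, h4, h3 ga⟩
  · left
    push Not at hl
    obtain ⟨l, hl, h2⟩ := hl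
    obtain ⟨p1, p2, p3, p4⟩ := pvN_lobe (ga := ga) (e := D.sn j) hl (by linarith : |tau z j - sgN l| ≤ 6)
    exact ⟨l, hl, h2, p1, p2, p3, p4⟩

theorem hP : (mk D cB ga d z).HP where
  pt0 := fun j => pt_mul_nonneg _ _
  eul := fun j => by
    by_cases hj : z j = 0
    · have e1 : (mk D cB ga d z).z j = 0 := hj
      rw [e1, pg_zero]
      simp
    · exact pg_euler _ hj
  ptK := fun j h => by
    by_contra h1
    exact h (pt_of_le K_nonneg (not_lt.1 h1))
  zone := fun j _ => zone j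
  off := fun j hj => pl_off (fun hh => hj ((Wp_iff j).2 hh)) ga

/-- **the derivative along `i e_j`.** -/
theorem w_eq (h : II (tw D) z) (j : Fin N) :
    dG D cB ga d z (LD.vt (Pi.single j (1 : ℝ))) = (mk D cB ga d z).w j := by
  classical
  rw [dG_apply, sum_dBe_vt h]
  have e1 : ∀ i : Fin N, dTN D ga d z i (LD.vt (Pi.single j (1 : ℝ))) =
      if i = j then ((chid d (D.xr z j) * (pt D.K (z j) / √(AA z)) : ℝ) : ℂ) *
        plN ga (D.sn j) (D.M j) (z j) + (D.ch d z j : ℂ) * pbN (D.sn j) (D.M j) (z j) else 0 := by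
    intro i
    rw [dTN_apply, h.dch_vt, vt_re, vt_im, Pi.single_apply, tw_xr, tw_K]
    by_cases hi : i = j
    · subst hi
      rw [if_pos rfl, if_pos rfl]
      push_cast
      ring
    · rw [if_neg hi, if_neg hi]
      simp
  rw [sum_congr rfl fun i _ => e1 i, sum_ite_eq' univ j, if_pos (mem_univ _)]
  unfold PtN.w
  by_cases hW : 0 < (z j).re ∧ Wd (tw D) z j
  · have hW2 : |(z j).im| ≤ D.K * |(z j).re| := by
      have := hW.2
      unfold Wd at this
      rwa [tw_K] at this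
    rw [if_pos ((Wp_iff j).2 hW), tB_eq h, X_eq h, pt_of_le K_nonneg hW2]
    have e2 : pbN (D.sn j) (D.M j) (z j) = pvdN (D.sn j) (D.M j) ((z j).im / (z j).re) :=
      if_pos hW.1
    rw [e2]
    have e3 : (mk D cB ga d z).pd j = pvdN (D.sn j) (D.M j) ((z j).im / (z j).re) := rfl
    rw [e3]
    simp
  · rw [if_neg (fun hh => hW ((Wp_iff j).1 hh)), tB_off hW, (pa_off hW ga).2, X_eq h, cd_eq h]
    have e4 : (mk D cB ga d z).D = D := rfl
    have e5 : (mk D cB ga d z).z j = z j := rfl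
    have e6 : (mk D cB ga d z).pt j = pt D.K (z j) := rfl
    have e7 : (mk D cB ga d z).ga = ga := rfl
    rw [e4, e5, e6, e7, nu_eq]
    push_cast
    ring

/-- **the derivative along `-(1, …, 1)`.** -/
theorem w0_eq (h : II (tw D) z) (hz : z ≠ 0) :
    dG D cB ga d z (LD.vs 1 0) = (mk D cB ga d z).w0 := by
  classical
  rw [dG_apply, sum_dBe_vs h hz]
  unfold PtN.w0
  rw [Complex.ofReal_sum, ← sum_sub_distrib]
  refine sum_congr rfl fun j _ => ?_
  rw [dTN_apply, h.dch_vs, vs_re, vs_im, tw_xr, tw_K]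
  unfold PtN.w0j
  have hnu := h.sqrt_pos hz
  by_cases hW : 0 < (z j).re ∧ Wd (tw D) z j
  · have hW2 : |(z j).im| ≤ D.K * |(z j).re| := by
      have := hW.2
      unfold Wd at this
      rwa [tw_K] at this
    rw [if_pos hW, if_pos ((Wp_iff j).2 hW), rho_eq h, HB_eq h]
    unfold PtN.w
    rw [if_pos ((Wp_iff j).2 hW), tB_eq h, X_eq h]
    have e3 : (mk D cB ga d z).ta j = tau z j := rfl
    have e4 : (mk D cB ga d z).pd j = pvdN (D.sn j) (D.M j) (tau z j) := rfl
    have e5 : (mk D cB ga d z).pj j = pvN ga (D.sn j) (D.M j) (tau z j) := rfl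
    rw [e3, e4, e5]
    have e6 : paN ga (D.sn j) (D.M j) (z j) = pvN ga (D.sn j) (D.M j) (tau z j) -
        (tau z j : ℂ) * pvdN (D.sn j) (D.M j) (tau z j) := if_pos hW.1
    rw [e6, plN_of_pos hW.1, ps_of_le K_nonneg hW2, abs_of_pos hW.1, div_self hW.1.ne']
    have e7 : (z j).re = D.xr z j * √(AA z) := by
      have := h.xr_W hW.2
      rw [tw_xr, abs_of_pos hW.1] at this
      rw [this]
      field_simp
    have e8 : pvN ga (D.sn j) (D.M j) ((z j).im / (z j).re) =
        pvN ga (D.sn j) (D.M j) (tau z j) := rfl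
    rw [e8]
    have e9 : ((chid d (D.xr z j) * (-1 + D.xr z j * S z) / √(AA z) : ℝ) : ℂ) *
        (((z j).re : ℂ) * pvN ga (D.sn j) (D.M j) (tau z j)) =
        ((chid d (D.xr z j) * (-1 + D.xr z j * S z) * D.xr z j : ℝ) : ℂ) *
          pvN ga (D.sn j) (D.M j) (tau z j) := by
      rw [← mul_assoc, ← Complex.ofReal_mul]
      congr 2
      rw [e7]
      field_simp
    rw [e9]
    unfold rho
    rw [tw_xr, tw_ch]
    simp only [Pi.zero_apply]
    push_cast
    ring
  · rw [if_neg hW, if_neg (fun hh => hW ((Wp_iff j).1 hh)), (pa_off hW ga).1, X_eq h, cd_eq h,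
      x_eq h, S_eq]
    have e4 : (mk D cB ga d z).D = D := rfl
    have e5 : (mk D cB ga d z).z j = z j := rfl
    have e6 : (mk D cB ga d z).ps j = ps D.K (z j) := rfl
    have e7 : (mk D cB ga d z).ga = ga := rfl
    rw [e4, e5, e6, e7, nu_eq]
    simp only [Pi.zero_apply]
    push_cast
    ring

/-- **K2 in the region II.** -/
theorem k2IIN (hN : 3 ≤ N) (hK1 : D.K1Prop) : LD.Ev fun c g d => ∀ z : Fin N → ℂ, z ≠ 0 →
    BB z ≤ D.K1 ^ 2 * AA z → D.G c g d z = 0 → ∃ (a : ℝ) (Y : Fin N → ℝ), 0 ≤ a ∧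
      (fderiv ℝ (D.G c g d) z (LD.vs a Y)).im = 0 ∧
      0 < (fderiv ℝ (D.G c g d) z (LD.vs a Y)).re := by
  refine (hK1.and (PtN.ev_cst D)).mono fun c g d hc0 hg0 hd0 ⟨hk, hcst⟩ z hz h' hG => ?_
  classical
  have h : II (tw D) z := by
    unfold II
    rw [tw_K1]
    exact h'
  obtain ⟨Y0, hY0⟩ := hk z hz (by rw [hG]; simp) (by rw [hG]; simp)
  rw [fderiv_G D c g hd0 hz] at hY0
  have hnu : 0 < (mk D c g d z).nu := h.sqrt_pos hz
  -- some `w j` has non-zero imaginary part
  have hvt : ∀ Y : Fin N → ℝ, dG D c g d z (LD.vt Y) =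
      ∑ j, (Y j : ℂ) * (mk D c g d z).w j := by
    intro Y
    rw [vt_eq_sum Y, map_sum]
    refine sum_congr rfl fun j _ => ?_
    rw [map_smul, w_eq h]
    simp
  have hex : ∃ j, ((mk D c g d z).w j).im ≠ 0 := by
    by_contra h0
    push Not at h0
    refine hY0 ?_
    rw [hvt, Complex.im_sum]
    refine sum_eq_zero fun j _ => ?_
    rw [Complex.im_ofReal_mul, h0 j, mul_zero]
  -- the zero
  have hG' : ∑ j, ((mk D c g d z).X j : ℂ) * plN (mk D c g d z).ga ((mk D c g d z).D.sn j)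
      ((mk D c g d z).D.M j) ((mk D c g d z).z j) =
      ((∑ e : Fin (mk D c g d z).D.nb, (mk D c g d z).cB * (mk D c g d z).ga *
      ((mk D c g d z).hh e * ∏ j ∈ (mk D c g d z).supp e, (mk D c g d z).la e j) : ℝ) : ℂ) := by
    have e1 : D.G c g d z = ∑ j, (D.ch d z j : ℂ) * plN g (D.sn j) (D.M j) (z j) -
        ((c * g * ∑ e, D.Be d e z : ℝ) : ℂ) := rfl
    rw [e1, sub_eq_zero] at hG
    have e2 : ∀ j, ((mk D c g d z).X j : ℂ) * plN (mk D c g d z).ga ((mk D c g d z).D.sn j)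
      ((mk D c g d z).D.M j) ((mk D c g d z).z j) =
        (D.ch d z j : ℂ) * plN g (D.sn j) (D.M j) (z j) := by
      intro j
      rw [X_eq h]
      rfl
    rw [sum_congr rfl fun j _ => e2 j, hG, mul_sum]
    congr 1
    refine sum_congr rfl fun e _ => ?_
    have e3 : D.Be d e z = (mk D c g d z).hh e *
        ∏ j ∈ (mk D c g d z).supp e, (mk D c g d z).la e j := by
      rw [hh_eq h, Be_eq]
      rfl
    rw [e3]
    rfl
  have hpl : ∀ j, (mk D c g d z).Wp j → plN (mk D c g d z).ga ((mk D c g d z).D.sn j)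
      ((mk D c g d z).D.M j) ((mk D c g d z).z j) =
      (((mk D c g d z).z j).re : ℂ) * (mk D c g d z).pj j := fun j hj => plN_of_pos hj.1
  have hpos : ∀ u : ℂ, u.re ^ 2 + u.im ^ 2 = 1 → 0 < u.re →
      (∀ j, rf u ((mk D c g d z).w j) = 0) → 0 < rf u (mk D c g d z).w0 := by
    intro u hu hu0 hw
    exact PtN.rf_pos (PtN.sm_of _ hN hcst) hP hnu (fun u eu => PtN.con_of _ hN hcst u eu) hG' hpl
      hu hu0 hw
  obtain ⟨a, Y, ha, h1, h2⟩ := K2c_867.farkas (mk D c g d z).w (mk D c g d z).w0 hex hpos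
  have e : fderiv ℝ (D.G c g d) z (LD.vs a Y) =
      (a : ℂ) * (mk D c g d z).w0 + ∑ j, (Y j : ℂ) * (mk D c g d z).w j := by
    rw [fderiv_G D c g hd0 hz, vs_eq, map_add, map_smul, w0_eq h hz, hvt]
    simp
  refine ⟨a, Y, ha, ?_, ?_⟩
  · rw [e]; exact h1
  · rw [e]; exact h2

end Crest.Agent.R267.K2IIN_867
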