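import Crest.Agent.R267.K2IN_957
import Crest.Agent.R267.K2IIN_867

/-!
# Row 267, T3aN: K2Prop for the signed function (`3 ≤ N`)
-/

set_option autoImplicit false

namespace Crest.Agent.R267.K2N_957

open Crest.Agent.R267.T3aNDefs_88

variable {N : ℕ}

/-- **K2 for the signed function.** -/
theorem k2N (D : SD N) (hN : 3 ≤ N) : D.K2Prop :=
  ((K2IN_957.k2IN D).and (K2IIN_867.k2IIN hN (K1N_957.k1N D))).mono
    fun c g d _ _ _ ⟨h1, h2⟩ z hz hG => by
      by_cases h : Calc4N_88.II D z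
      · exact h2 z hz h hG
      · obtain ⟨Y, a, b⟩ := h1 z hz h
        exact ⟨1, Y, zero_le_one, a, b⟩

end Crest.Agent.R267.K2N_957
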