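import Crest.Agent.R267.K1N_957
import Crest.Agent.R267.R4_996

/-!
# Row 267, T3aN: fact R4 for the signed function
-/

set_option autoImplicit false

noncomputable section

namespace Crest.Agent.R267.R4N_957

open Finset
open Crest.Agent.R267.T3aDefs_957 (st Af Bf pg NN chi gq)
open Crest.Agent.R267.T3aDefs_957.LD (Ev vt vs Cen)
open Crest.Agent.R267.T3aNDefs_88 Crest.Agent.R267.CalcN_88 Crest.Agent.R267.Calc3N_88
open Crest.Agent.R267.Calc4N_88 Crest.Agent.R267.Calc5N_88
open Crest.Agent.R267.Calc2_957 Crest.Agent.R267.Calc_957 Crest.Agent.R267.K1N_957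
open Crest.Agent.R267.Calc3_957 (rej imj rej_apply imj_apply AA BB sr si sr_apply si_apply
  AA_nonneg BB_nonneg re_sq_le_AA im_sq_le_BB AA_add_BB_ne dNN NN_pos NN_nonneg NN_sq
  sqrt_AA_le_NN NN_of_le hasFDerivAt_NN dNN_of_le chid hasDerivAt_chi chi_of_le chid_of_le
  chi_of_ge chid_of_ge chi_nonneg chi_le_one chi_pos lt_of_chi_ne chi_lt_one chid_nonneg chid_le
  mul_chid_le chid_mul_nonneg one_le_N pg_le_norm re_pos_nhds)
open Crest.Agent.R267.Calc4_957 (tau dtau dtau_apply vt_re vt_im vs_re vs_im vt_eq_sum vs_eq S)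
open Crest.Agent.R267.R4_996 (Af_le_one abs_lt_two_of_Af near_facts)

theorem pvN_re_le {ga : ℝ} {e : ℕ → ℝ} (M : ℕ) (τ : ℝ) : (pvN ga e M τ).re ≤ ga := by
  rcases casesN_tau M τ with h | ⟨l, hl, h⟩ | h
  · rw [pvN_low (by linarith)]
    simp
  · rw [pvN_cell hl h]
    have := Af_le_one (τ - sgN l)
    simp
    linarith
  · rw [pvN_high (by linarith)]
    simp

/-- if the real part is not too negative then the point is near a ray. -/
theorem near_of_re {ga : ℝ} {e : ℕ → ℝ} (he : ∀ l, |e l| = 1) {M : ℕ} {τ : ℝ}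
    (h : -(1 - ga) < (pvN ga e M τ).re) : ∃ l < M, |τ - sgN l| < 2 := by
  by_cases hv : ∀ l < M, 3 ≤ |τ - sgN l|
  · rw [(pvN_vert he hv).1 ga] at h
    linarith
  · push Not at hv
    obtain ⟨l, hl, hv⟩ := hv
    refine ⟨l, hl, abs_lt_two_of_Af ?_⟩
    rw [(pvN_lobe (ga := ga) (e := e) hl (by linarith : |τ - sgN l| ≤ 6)).1] at h
    linarith

variable {N : ℕ} (D : SD N)

/-- bounds on `ga`, `cB`. -/
def gOk (N : ℕ) (cB ga : ℝ) : Prop :=
  2 * (N : ℝ) ^ 3 < cB ∧ 0 < cB ∧ 0 < ga ∧ ga * (2 * N ^ 2 + 2) < 1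

theorem sum_re_le (z : Fin N → ℂ) : ∑ i, (z i).re ≤ N * √(AA z) := by
  calc ∑ i, (z i).re ≤ ∑ _i : Fin N, √(AA z) := by
        refine sum_le_sum fun i _ => ?_
        exact Real.le_sqrt_of_sq_le (re_sq_le_AA z i)
    _ = N * √(AA z) := by simp

theorem plN_re_le {ga : ℝ} {e : ℕ → ℝ} (M : ℕ) {w : ℂ} (h : 0 < w.re) :
    (plN ga e M w).re ≤ ga * w.re := by
  rw [plN_of_pos h, Complex.re_ofReal_mul, mul_comm ga]
  exact mul_le_mul_of_nonneg_left (pvN_re_le _ _) h.le

/-- one very negative variable makes `Re G` negative. -/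
theorem re_neg_of {cB ga d : ℝ} (hg : gOk N cB ga) {z : Fin N → ℂ} (hC : Cen z)
    {j : Fin N} (hch : D.ch d z j = 1)
    (hj : (plN ga (D.sn j) (D.M j) (z j)).re ≤ -(1 - ga) * (z j).re) :
    (D.G cB ga d z).re < 0 := by
  obtain ⟨hg1, hcB, hg2, hg3⟩ := hg
  have hN : (1 : ℝ) ≤ N := one_le_N j
  rw [G_re]
  have h6 : 0 ≤ cB * ga * ∑ e, D.Be d e z :=
    mul_nonneg (by positivity) (sum_nonneg fun e _ => Be_nonneg D d e z)
  have h7 : ∑ i, D.ch d z i * (plN ga (D.sn i) (D.M i) (z i)).re ≤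
      -(1 - ga) * (z j).re + ∑ i ∈ univ.erase j, ga * (z i).re := by
    rw [← add_sum_erase _ _ (Finset.mem_univ j), hch, one_mul]
    refine add_le_add hj (sum_le_sum fun i _ => ?_)
    have h8 := (hC i).1
    have h9 := ch_nonneg D d z i
    have h10 := ch_le_one D d z i
    have h11 := plN_re_le (ga := ga) (e := D.sn i) (D.M i) h8
    have h12 : 0 < ga * (z i).re := by positivity
    calc D.ch d z i * (plN ga (D.sn i) (D.M i) (z i)).re ≤ D.ch d z i * (ga * (z i).re) := by
          gcongr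
      _ ≤ 1 * (ga * (z i).re) := by gcongr
      _ = ga * (z i).re := one_mul _
  have h8 : ∑ i ∈ univ.erase j, ga * (z i).re = ga * (∑ i, (z i).re) - ga * (z j).re := by
    rw [mul_sum, ← add_sum_erase _ _ (Finset.mem_univ j)]
    ring
  have h9 := sum_re_le z
  have h10 : √(AA z) ≤ 2 * N * (z j).re := (hC j).2
  have h11 := (hC j).1
  have h12 : ga * ∑ i, (z i).re ≤ ga * (2 * N ^ 2 * (z j).re) := by
    refine mul_le_mul_of_nonneg_left (h9.trans ?_) hg2.le
    calc (N : ℝ) * √(AA z) ≤ N * (2 * N * (z j).re) := by gcongr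
      _ = 2 * N ^ 2 * (z j).re := by ring
  have h13 : -(1 - ga) * (z j).re + (ga * (2 * N ^ 2 * (z j).re) - ga * (z j).re) < 0 := by
    have : (ga * (2 * N ^ 2 + 2) - 1) * (z j).re < 0 :=
      mul_neg_of_neg_of_pos (by linarith) h11
    nlinarith
  linarith

theorem region1_absurd {cB ga d : ℝ} (hg : gOk N cB ga) (hd : 0 < d) (hdk : dOk D d)
    {z : Fin N → ℂ} (hz : z ≠ 0) (hC : Cen z) (h2 : ¬ II D z)
    (hre : 0 ≤ (D.G cB ga d z).re) : False := by
  obtain ⟨j, -, hfar, hx, -⟩ := region1 (cB := cB) (ga := ga) D hd hdk hz h2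
  have hch : D.ch d z j = 1 := chi_of_ge hd hx
  refine absurd (re_neg_of D hg hC hch ?_) (not_lt.2 hre)
  have h0 := (hC j).1
  rw [abs_of_pos h0] at hfar
  rw [plN_of_far (Or.inl (by linarith : (16 * (D.M j : ℝ) + 1) * (z j).re ≤ |(z j).im|))]
  have : (-((2 - ga : ℝ) : ℂ) * (z j).re - Complex.I * (z j).im).re = -(2 - ga) * (z j).re := by
    simp
  rw [this]
  nlinarith

theorem xr_cen {z : Fin N → ℂ} (hz : z ≠ 0) (hC : Cen z) (h2 : II D z)
    (j : Fin N) : 1 / (2 * N) ≤ D.xr z j := by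
  have hN : (1 : ℝ) ≤ N := one_le_N j
  have h3 := NN_pos (K := D.K1) hz
  unfold SD.xr
  rw [div_le_div_iff₀ (by positivity) h3, one_mul, h2.NN]
  have h4 : (z j).re ≤ pg D.K (z j) := (le_abs_self _).trans (abs_re_le_pg _ _)
  have h5 : √(AA z) ≤ 2 * N * (z j).re := (hC j).2
  nlinarith

theorem LD_mono {P Q : ℝ → ℝ → ℝ → Prop} (hP : Ev P)
    (h : ∀ c g d, P c g d → Q c g d) : Ev Q :=
  T3aDefs_957.LD.Ev.mono hP fun c g d _ _ _ => h c g d

/-- **R4 for the signed function.** -/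
theorem r4N : D.R4Prop := by
  obtain ⟨d0, hd0, hdk⟩ := exists_dOk D
  have hN0 : (0 : ℝ) ≤ N := Nat.cast_nonneg _
  have h1 : Ev fun c g d => gOk N c g ∧ 0 < d ∧ dOk D d ∧ d * (8 * N + 1) < 1 := by
    refine ⟨2 * N ^ 3 + 1, by positivity, fun c hc => ⟨1 / (2 * N ^ 2 + 3), by positivity,
      fun g hg hg' => ⟨min d0 (1 / (8 * N + 2)), lt_min hd0 (by positivity), fun d h h' =>
        ⟨⟨by linarith, ?_, hg, ?_⟩, h, hdk d h (h'.trans (min_le_left _ _)), ?_⟩⟩⟩⟩
    · have : 0 ≤ 2 * (N : ℝ) ^ 3 := by positivity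
      linarith
    · rw [le_div_iff₀ (by positivity)] at hg'
      nlinarith
    · have := h'.trans (min_le_right _ _)
      rw [le_div_iff₀ (by positivity)] at this
      nlinarith
  refine LD_mono h1 fun c g d ⟨hg, hd, hdo, hd8⟩ z hz hC him hre => ?_
  have hN : 0 < N := by
    by_contra h0
    have h0' : N = 0 := by omega
    subst h0'
    exact hz (Subsingleton.elim _ _)
  have hN1 : (1 : ℝ) ≤ N := by exact_mod_cast hN
  by_cases h2 : II D z
  swap
  · exact (region1_absurd D hg hd hdo hz hC h2 hre).elim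
  obtain ⟨hg1, hcB, hg2, hg3⟩ := id hg
  -- all variables are fully active
  have hxr : ∀ j, 2 * d < D.xr z j := by
    intro j
    refine lt_of_lt_of_le ?_ (xr_cen D hz hC h2 j)
    rw [lt_div_iff₀ (by positivity)]
    nlinarith
  have hch : ∀ j, D.ch d z j = 1 := fun j => chi_of_ge hd (hxr j).le
  -- the letters
  have hk : ∀ j, ∃ l < D.M j, |tau z j - sgN l| < 2 := by
    intro j
    refine near_of_re (ga := g) (abs_sn D j) ?_
    by_contra h3
    have h4 : (plN g (D.sn j) (D.M j) (z j)).re ≤ -(1 - g) * (z j).re := by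
      rw [pl_in (hC j).1, Complex.re_ofReal_mul, mul_comm]
      exact mul_le_mul_of_nonneg_right (not_lt.1 h3) (hC j).1.le
    exact absurd (re_neg_of D hg hC (hch j) h4) (not_lt.2 hre)
  choose k hkM hkn using hk
  set v : Fin N → ℝ := fun j => tau z j - sgN (k j) with hv
  have hvj : ∀ j, |v j| < 2 := hkn
  have him' : ∀ j, (z j).im - sgN (k j) * (z j).re = (z j).re * v j := by
    intro j
    have := (hC j).1.ne'
    rw [hv]
    unfold tau
    field_simp
  have hv6 : ∀ j, |tau z j - sgN (k j)| ≤ 6 := fun j => by have := hkn j; linarith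
  have hpl : ∀ j, plN g (D.sn j) (D.M j) (z j) = ((z j).re : ℂ) *
      (((-(1 - g) + Af (v j) : ℝ) : ℂ) + Complex.I * ((D.sn j (k j) * Bf (v j) : ℝ) : ℂ)) := by
    intro j
    rw [pl_in (hC j).1]
    congr 1
    obtain ⟨a1, a2, -, -⟩ := pvN_lobe (ga := g) (e := D.sn j) (hkM j) (hv6 j)
    apply Complex.ext
    · rw [a1]; simp [hv]
    · rw [a2]; simp [hv]
  have hpvd : ∀ j, pvdN (D.sn j) (D.M j) (tau z j) =
      ((Afd (v j) : ℝ) : ℂ) + Complex.I * ((D.sn j (k j) * Bfd (v j) : ℝ) : ℂ) := by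
    intro j
    obtain ⟨-, -, a1, a2⟩ := pvN_lobe (ga := g) (e := D.sn j) (hkM j) (hv6 j)
    apply Complex.ext
    · rw [a1]; simp [hv]
    · rw [a2]; simp [hv]
  have hla : ∀ j m m', winN m m' (tau z j) = (if m ≤ k j ∧ k j < m' then 1 else 0) ∧
      wdN m m' (tau z j) = 0 := fun j m m' => winN_cell (by have := hkn j; linarith)
  have hWd : ∀ j, Wd D z j := by
    intro j
    have h0 := (hC j).1
    unfold Wd
    rw [abs_of_pos h0]
    have h3 := hkn j
    have h4 := le_K D j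
    have h5 : (k j : ℝ) + 1 ≤ D.M j := by exact_mod_cast hkM j
    have h6 : (0 : ℝ) ≤ k j := Nat.cast_nonneg _
    rw [abs_lt] at h3
    unfold sgN at h3
    have h7 : |tau z j| ≤ D.K := by
      rw [abs_le]
      constructor <;> linarith
    unfold tau at h7
    rwa [abs_div, abs_of_pos h0, div_le_iff₀ h0] at h7
  -- no deletion
  have hLet : D.Let k := by
    refine ⟨hkM, fun e => ?_⟩
    by_contra hdel
    push Not at hdel
    have hw : Pw D z e = 1 := by
      unfold Pw
      refine prod_eq_one fun j hj => ?_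
      unfold la
      rw [(hla j _ _).1, if_pos (hdel j hj)]
    have hR : ∀ j, D.R d z j = (z j).re := by
      intro j
      unfold SD.R
      rw [hch j, one_mul, max_eq_right (hC j).1.le]
    have hSne : (D.bx e).S.Nonempty := by
      rw [← card_pos]
      have := D.h2 e
      omega
    obtain ⟨j0, hj0⟩ := hSne
    have hA : 0 < √(AA z) := by
      have := Real.le_sqrt_of_sq_le (re_sq_le_AA z j0)
      have := (hC j0).1
      linarith
    have hBe : √(AA z) / (2 * N ^ 2) ≤ D.Be d e z := by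
      rw [Be_eq, hw, mul_one]
      unfold hh
      rw [Hm_of_pos fun j _ => by rw [hR]; exact (hC j).1]
      have h5 : ∑ j ∈ (D.bx e).S, 1 / D.R d z j ≤ 2 * N ^ 2 / √(AA z) := by
        calc ∑ j ∈ (D.bx e).S, 1 / D.R d z j ≤ ∑ _j ∈ (D.bx e).S, 2 * N / √(AA z) := by
              refine sum_le_sum fun j _ => ?_
              rw [hR, div_le_div_iff₀ (hC j).1 hA, one_mul]
              exact (hC j).2
          _ ≤ ∑ _j : Fin N, 2 * N / √(AA z) :=
              sum_le_sum_of_subset_of_nonneg (subset_univ _) fun _ _ _ => by positivity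
          _ = 2 * N ^ 2 / √(AA z) := by
              simp
              ring
      have h6 : 0 < ∑ j ∈ (D.bx e).S, 1 / D.R d z j :=
        sum_pos (fun j _ => by rw [hR]; exact div_pos one_pos (hC j).1) ⟨j0, hj0⟩
      calc √(AA z) / (2 * N ^ 2) = 1 / (2 * N ^ 2 / √(AA z)) := by rw [one_div_div]
        _ ≤ _ := one_div_le_one_div_of_le h6 h5
    have hsum : √(AA z) / (2 * N ^ 2) ≤ ∑ e, D.Be d e z :=
      hBe.trans (single_le_sum (f := fun e => D.Be d e z) (fun e _ => Be_nonneg D d e z)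
        (mem_univ e))
    have hneg : (D.G c g d z).re < 0 := by
      rw [G_re]
      have h6 : ∑ j, D.ch d z j * (plN g (D.sn j) (D.M j) (z j)).re ≤ g * (N * √(AA z)) := by
        calc ∑ j, D.ch d z j * (plN g (D.sn j) (D.M j) (z j)).re ≤ ∑ j, g * (z j).re := by
              refine sum_le_sum fun j _ => ?_
              rw [hch j, one_mul]
              exact plN_re_le _ (hC j).1
          _ = g * ∑ j, (z j).re := by rw [mul_sum]
          _ ≤ _ := mul_le_mul_of_nonneg_left (sum_re_le z) hg2.le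
      have h7 : c * g * (√(AA z) / (2 * N ^ 2)) ≤ c * g * ∑ e, D.Be d e z := by gcongr
      have h8 : g * (N * √(AA z)) < c * g * (√(AA z) / (2 * N ^ 2)) := by
        have e1 : c * g * (√(AA z) / (2 * N ^ 2)) = g * √(AA z) * (c / (2 * N ^ 2)) := by ring
        rw [e1]
        have e2 : (N : ℝ) < c / (2 * N ^ 2) := by
          rw [lt_div_iff₀ (by positivity)]
          calc (N : ℝ) * (2 * N ^ 2) = 2 * N ^ 3 := by ring
            _ < c := hg1
        have e3 : 0 < g * √(AA z) := mul_pos hg2 hA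
        nlinarith
      linarith
    exact absurd hneg (not_lt.2 hre)
  -- the derivatives
  have htB : ∀ j, tB D c g d z j = 0 := by
    intro j
    unfold tB
    rw [mul_eq_zero]
    right
    refine sum_eq_zero fun e _ => ?_
    unfold lad
    rw [(hla j _ _).2]
    simp
  have hw : ∀ j, fderiv ℝ (D.G c g d) z (vt (Pi.single j (1 : ℝ))) =
      pvdN (D.sn j) (D.M j) (tau z j) := by
    intro j
    rw [w_pos c g hd hz h2 (hC j).1 (hWd j), htB j, hch j]
    simp
  set Y : Fin N → ℝ := fun j => (z j).re * (Bf (v j) / Bfd (v j)) with hY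
  have hfd : fderiv ℝ (D.G c g d) z (vt Y) =
      ∑ j, (Y j : ℂ) * pvdN (D.sn j) (D.M j) (tau z j) := by
    rw [w_vt]
    exact sum_congr rfl fun j _ => by rw [hw j]
  have hBe0 : ∑ e, D.Be d e z = 0 := by
    refine sum_eq_zero fun e _ => ?_
    obtain ⟨j, hj, h6⟩ := hLet.2 e
    rw [Be_eq]
    have : Pw D z e = 0 := by
      refine Pw_of_la D hj ?_
      unfold la
      rw [(hla j _ _).1, if_neg h6]
    rw [this, mul_zero]
  have hGz : D.G c g d z = ∑ j, plN g (D.sn j) (D.M j) (z j) := by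
    unfold SD.G
    rw [hBe0]
    simp [hch]
  have hImG : ∑ j, (z j).re * (D.sn j (k j) * Bf (v j)) = 0 := by
    have := him
    rw [hGz, Complex.im_sum] at this
    rw [← this]
    refine sum_congr rfl fun j _ => ?_
    rw [hpl j, Complex.im_ofReal_mul]
    simp
  have hre1 : ∀ j, ((Y j : ℂ) * pvdN (D.sn j) (D.M j) (tau z j)).re =
      (z j).re * (Bf (v j) * Afd (v j) / Bfd (v j)) := by
    intro j
    rw [Complex.re_ofReal_mul, hpvd j, hY]
    simp
    ring
  have him1 : ∀ j, ((Y j : ℂ) * pvdN (D.sn j) (D.M j) (tau z j)).im =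
      (z j).re * (D.sn j (k j) * Bf (v j)) := by
    intro j
    rw [Complex.im_ofReal_mul, hpvd j, hY]
    have := (near_facts (hvj j)).1.ne'
    simp
    field_simp
  have hneg : ∀ j, (z j).re * (Bf (v j) * Afd (v j) / Bfd (v j)) ≤ 0 := by
    intro j
    obtain ⟨a, b, -, -⟩ := near_facts (hvj j)
    exact mul_nonpos_of_nonneg_of_nonpos (hC j).1.le (div_nonpos_of_nonpos_of_nonneg b a.le)
  refine ⟨k, Y, hLet, ?_, ?_, ?_, ?_, ?_⟩
  · rw [hfd, Complex.im_sum, sum_congr rfl fun j _ => him1 j, hImG]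
  · rw [hfd, Complex.re_sum, sum_congr rfl fun j _ => hre1 j]
    exact sum_nonpos fun j _ => hneg j
  · intro h0
    rw [hfd, Complex.re_sum, sum_congr rfl fun j _ => hre1 j]
    by_contra h3
    have h4 : ∑ j, (z j).re * (Bf (v j) * Afd (v j) / Bfd (v j)) = 0 :=
      le_antisymm (sum_nonpos fun j _ => hneg j) (not_lt.1 h3)
    rw [sum_eq_zero_iff_of_nonpos fun j _ => hneg j] at h4
    have h5 : ∀ j, |v j| ≤ 1 := by
      intro j
      by_contra h6
      obtain ⟨a, -, b, -⟩ := near_facts (hvj j)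
      have h7 := h4 j (Finset.mem_univ j)
      have h8 : (z j).re * (Bf (v j) * Afd (v j) / Bfd (v j)) < 0 :=
        mul_neg_of_pos_of_neg (hC j).1 (div_neg_of_neg_of_pos (b (not_le.1 h6)) a)
      linarith
    have h6 : 0 < (D.G c g d z).re := by
      rw [hGz, Complex.re_sum]
      have : Nonempty (Fin N) := ⟨⟨0, hN⟩⟩
      refine sum_pos (fun j _ => ?_) Finset.univ_nonempty
      rw [hpl j, Complex.re_ofReal_mul, Af_of_le (h5 j)]
      have := (hC j).1
      simp
      positivity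
    rw [h0] at h6
    simp at h6
  · intro j
    obtain ⟨-, -, -, a⟩ := near_facts (hvj j)
    rw [him' j, hY]
    have h3 := (hC j).1
    calc ((z j).re * v j) ^ 2 = (z j).re ^ 2 * v j ^ 2 := by ring
      _ ≤ (z j).re ^ 2 * (Bf (v j) / Bfd (v j) * v j) := by gcongr
      _ = _ := by ring
  · intro j
    rw [him' j, abs_mul, abs_of_pos (hC j).1, mul_comm]
    exact mul_lt_mul_of_pos_right (hvj j) (hC j).1

end Crest.Agent.R267.R4N_957
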