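import Crest.Agent.R267.EndN5_277
import Crest.Agent.R267.Carve3_363
import Crest.Agent.R267.K1N_957
import Crest.Agent.R267.K2N_957
import Crest.Agent.R267.R4N_957

/-!
# Row 267, T3aN end instance (helper277), part 6: **`T3aNP D` for all data `D : SD (n + 3)`**

`t3aN D`: for `cB` large, `ga` small, `d` small, the link of `D.G` is the link of a graph system
with matrix `matN D e`.
-/

set_option autoImplicit false
set_option maxHeartbeats 400000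

noncomputable section

namespace Crest.Agent.R267.EndN6_277

open Finset
open scoped RealInnerProductSpace
open Crest.Agent.R267.T3aDefs_957 (st pg NN chi Af Bf gq)
open Crest.Agent.R267.T3aDefs_957.LD (Ev Cen vt vs)
open Crest.Agent.R267.T3aNDefs_88 Crest.Agent.R267.EndDef_864 Crest.Agent.R267.EndBas_864
  Crest.Agent.R267.EndG_864 Crest.Agent.R267.EndH_864 Crest.Agent.R267.EndN1_277
  Crest.Agent.R267.EndN2_277 Crest.Agent.R267.EndN3_277 Crest.Agent.R267.EndN4_277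
  Crest.Agent.R267.EndN5_277 Crest.Agent.R267.Carve3_363
open Crest.Agent.R267.GS_808 Crest.Agent.R267.Cone_808 Crest.Agent.R267.TopAsm_808
  Crest.Agent.R267.DraftB_808

variable {n : ℕ}

theorem hsg (D : SD (n + 3)) {m : ℕ} (e : Fin m ≃ {k : Fin (n + 3) → ℕ // D.Let k}) (k : Fin m)
    (j : Fin (n + 3)) : |(ls D e).sg k j| ≤ D.K1 - 1 := by
  have h1 : (ls D e).sg k j = sgN ((e k).1 j) := rfl
  have h2 := sgN_le_K1 D ((e k).2.1 j)
  have h3 := sgN_nonneg ((e k).1 j)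
  rw [h1, abs_of_nonneg h3]
  linarith

theorem cen_diag {x : Fin (n + 3) → ℂ} {l : ℝ} (hl : 0 < l) (hx : ∀ j, (x j).re = l) :
    Cen x := by
  intro j
  rw [hx j]
  refine ⟨hl, ?_⟩
  have h1 : ∑ i, (x i).re ^ 2 = ((n + 3 : ℕ) : ℝ) * l ^ 2 := by
    simp only [hx, Finset.sum_const, Finset.card_univ, Fintype.card_fin, nsmul_eq_mul]
  have h2 : (1 : ℝ) ≤ ((n + 3 : ℕ) : ℝ) := by exact_mod_cast (by omega : 1 ≤ n + 3)
  rw [h1]
  refine Real.sqrt_le_iff.2 ⟨by positivity, ?_⟩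
  nlinarith [mul_nonneg (sub_nonneg.2 h2) (sq_nonneg l), sq_nonneg l,
    mul_nonneg (mul_nonneg (sub_nonneg.2 h2) (sub_nonneg.2 h2)) (sq_nonneg l)]

/-- the hypotheses of the carve for `D.G`. -/
theorem cf {D : SD (n + 3)} {c g : ℝ} {m : ℕ} (e : Fin m ≃ {k : Fin (n + 3) → ℕ // D.Let k})
    (Q : Par n) (hsm : ∀ k l j, (ls D e).sg k j ≠ (ls D e).sg l j →
      Q.ep * (‖vec (n := n) ((ls D e).V k)‖ + ‖vec (n := n) ((ls D e).V l)‖) <
        Q.d * |(ls D e).sg k j - (ls D e).sg l j|)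
    (hg : 0 < g) (hg1 : g < 1) (hdd : Q.d ≤ d4 D) (hep : Q.ep ≤ etaN D Q.d)
    (hS : ContDiffOn ℝ 2 (D.G c g Q.d) {0}ᶜ)
    (h1 : ∀ z : Fin (n + 3) → ℂ, z ≠ 0 → (D.G c g Q.d z).im = 0 →
      0 ≤ (D.G c g Q.d z).re → ∃ Y : Fin (n + 3) → ℝ, (fderiv ℝ (D.G c g Q.d) z (vt Y)).im ≠ 0)
    (h2 : ∀ z : Fin (n + 3) → ℂ, z ≠ 0 → D.G c g Q.d z = 0 →
      ∃ (a : ℝ) (Y : Fin (n + 3) → ℝ), 0 ≤ a ∧ (fderiv ℝ (D.G c g Q.d) z (vs a Y)).im = 0 ∧
        0 < (fderiv ℝ (D.G c g Q.d) z (vs a Y)).re)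
    (h4 : ∀ z : Fin (n + 3) → ℂ, z ≠ 0 → Cen z → (D.G c g Q.d z).im = 0 →
      0 ≤ (D.G c g Q.d z).re → ∃ (k : Fin (n + 3) → ℕ) (Y : Fin (n + 3) → ℝ), D.Let k ∧
        (fderiv ℝ (D.G c g Q.d) z (vt Y)).im = 0 ∧ (fderiv ℝ (D.G c g Q.d) z (vt Y)).re ≤ 0 ∧
        (D.G c g Q.d z = 0 → (fderiv ℝ (D.G c g Q.d) z (vt Y)).re < 0) ∧
        (∀ j, ((z j).im - sgN (k j) * (z j).re) ^ 2 ≤
          Y j * ((z j).im - sgN (k j) * (z j).re)) ∧
        ∀ j, |(z j).im - sgN (k j) * (z j).re| < 2 * (z j).re) :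
    CF (ls D e) Q hsm 8 (r2N D Q.d) D.K1 (D.G c g Q.d) := by
  have hK := one_le_K D
  have hVm := Vm_nonneg D
  have hsq : 0 ≤ √(n + 3 : ℝ) := Real.sqrt_nonneg _
  have h12 := d4_one D hdd
  have hmul := etaN_mul D Q.hd hep
  have hepV : 0 ≤ Q.ep * Vm D := mul_nonneg Q.hep.le hVm
  have hepV1 : Q.ep * Vm D < 1 := by
    have e1 : Q.ep * Vm D ≤ (1 + √(n + 3 : ℝ)) * (Q.ep * Vm D) := by nlinarith
    have e2 : (1 + √(n + 3 : ℝ)) * (Q.ep * Vm D) ≤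
        (D.K + 1) * ((1 + √(n + 3 : ℝ)) * (Q.ep * Vm D)) := by nlinarith
    linarith
  have hN0 : 0 < n + 3 := by omega
  have hdN : Q.d ≤ dN D := hdd.trans (min_le_left _ _)
  refine ⟨by norm_num, ?_, r2N_pos Q.hd, K1_pos D, ?_, hS, fun r x hr => hom_smul D c g Q.d hr x,
    fun x hx => re_s0 D c g Q.d hx, h1, h2, fun h hh => c00p D Q.hd hdN hN0 h hh,
    fun x hx => re_pos D Q.hd hdN hg1 hN0 hx, fun s t k hs h => tube e hsm hg hg1 hdd hep hs k h,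
    ?_⟩
  · intro k j
    refine ⟨(e k).1 j, ?_⟩
    show sgN ((e k).1 j) = _
    unfold sgN
    ring
  · exact T1_of (ls D e) Q hsm (Vm := Vm D) (hsg D e) (vec_V_le D e) (by linarith [one_le_K1 D])
      (by linarith)
  · intro l x hl hx him hre
    have hx0 : x ≠ 0 := by
      rintro rfl
      have := hx 0
      simp at this
      exact hl.ne this
    obtain ⟨k, Y, a0, a1, a2, a3, a4, a5⟩ := h4 x hx0 (cen_diag hl hx) him hre
    refine ⟨e.symm ⟨k, a0⟩, Y, a1, a2, fun h0 => a3 (Complex.ext h0 him), fun j => ?_⟩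
    have h6 : (ls D e).sg (e.symm ⟨k, a0⟩) j = sgN (k j) := by
      show sgN ((e (e.symm ⟨k, a0⟩)).1 j) = _
      rw [Equiv.apply_symm_apply]
    have h7 := a4 j
    have h8 := a5 j
    rw [h6]
    rw [hx j] at h7 h8
    exact ⟨by linarith, h8⟩

/-- **T3aN, all data.** -/
theorem t3aN (D : SD (n + 3)) : Ev fun c g d =>
    ∃ (m : ℕ) (e : Fin m ≃ {k : Fin (n + 3) → ℕ // D.Let k}) (G : S n m),
      HasMat G (matN D e) ∧ IsLink {z : Sph (Fin (n + 3)) | D.G c g d z = 0} G := by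
  have hS : Ev fun c g d => 0 < g ∧ g < 1 ∧ d ≤ d4 D ∧ 0 < d :=
    Ev.of_small (d4_pos D) fun c g d _ hg hg1 hd hdd => ⟨hg, hg1, hdd, hd⟩
  refine t3aN_of D (((SmoothN_957.smoothN D).and (hS.and ((K1N_957.k1N D).and
    ((K2N_957.k2N D (by omega)).and (R4N_957.r4N D))))).mono fun c g d _ _ _ h => ?_)
  obtain ⟨hsmooth, ⟨hg, hg1, hdd, hd0⟩, h1, h2, h4⟩ := h
  intro m e Q hsm hQd hQe hQep
  subst hQd
  obtain ⟨r0, hr0, H⟩ := carve3 (cf e Q hsm hg hg1 hdd hQep hsmooth h1 h2 h4)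
  refine ⟨r0, hr0, fun r hr hr' => ?_⟩
  obtain ⟨ε, hε, H'⟩ := H r hr hr'
  exact ⟨ε, hε, H' ε hε le_rfl⟩

end Crest.Agent.R267.EndN6_277
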