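import Crest.Agent.R267.SFLDb_330
import Crest.Agent.R267.ClassGF_808

/-!
# End of S0406 (row 267): the end functions of `f` and `g` have homeomorphic links

`T3aNP D`: output of T3aN (the link of `D.G` is the link of a graph system whose matrix is the
signed poset matrix of the letters). `zeq_end`: if `T3aNP` holds for the two data `Df`, `Dg` and
the nested-level matrices of `NLb_330` are congruent, then `Df.G` and `Dg.G` are `ZEq`.
-/

set_option autoImplicit false

namespace Crest.Agent.R267.SFLD_330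

open Set Matrix
open P4Defs_780 SFLift_330 SFDefs_330 SFCong_330 SFLDa_330 SFLDb_330
open GS_808 T3aNDefs_88 Cone_808 TopAsm_808 DraftB_808 Hm_951
open T3aDefs_957.LD (Ev)

open Classical in
/-- the signed poset matrix of the letters. -/
def lmat {N : ℕ} (D : SD N) {m : ℕ} (e : Fin m ≃ {k : Fin N → ℕ // D.Let k}) :
    Matrix (Fin m) (Fin m) ℤ :=
  Matrix.of fun a b => if (∀ j, (e b).1 j ≤ (e a).1 j) ∧
    ∀ j, (e a).1 j = (e b).1 j → D.neg j ((e a).1 j) = false then 1 else 0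

/-- **T3aN**: for `cB` large, `ga` small, `d` small the link of `D.G` is the link of a graph system
with the signed poset matrix. -/
def T3aNP {n : ℕ} (D : SD (n + 3)) : Prop := Ev fun cB ga d =>
  ∃ (m : ℕ) (e : Fin m ≃ {k : Fin (n + 3) → ℕ // D.Let k}) (G : S n m),
    HasMat G (lmat D e) ∧ IsLink {z : Sph (Fin (n + 3)) | D.G cB ga d z = 0} G

/-- the matrices of two data with letters `wsF`, `wsG` are congruent. -/
theorem cong_lmat {D D' : SD 4}
    (hD : ∀ k, D.Let k ↔ k 3 + 1 < wsF (k 0 + 1, k 1 + 1, k 2 + 1))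
    (hD' : ∀ k, D'.Let k ↔ k 3 + 1 < wsG (k 0 + 1, k 1 + 1, k 2 + 1))
    (hn : NegIn D.neg 3 5 10 15) (hn' : NegIn D'.neg 6 8 6 11)
    (h : ∃ P : Matrix (Fin 2049) (Fin 2049) ℤ, Pᵀ * NLb_330.pAg * P = NLb_330.pAf)
    {m m' : ℕ} (e : Fin m ≃ {k : Fin 4 → ℕ // D.Let k})
    (e' : Fin m' ≃ {k : Fin 4 → ℕ // D'.Let k}) : Cong ℤ (lmat D e) (lmat D' e') := by
  obtain ⟨P, hP⟩ := h
  have h1 : lmat D e = (SFf fun x => lb (e x).1)ᵀ := by
    ext a b
    exact tmat hn _ _
  have h2 : lmat D' e' = (SFg fun x => lb (e' x).1)ᵀ := by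
    ext a b
    exact tmat hn' _ _
  have h3 := cong_SF (isLab4_of pos1F hD e) (isLab4_of pos1G hD' e')
    (SFT_330.csymm (NLb_330.cong_of_pos' P hP))
  have h4 := Cong.tr h3 1 true
  rw [h1, h2]
  simpa [tr] using h4

/-- **the end functions have homeomorphic links**. -/
theorem zeq_of_data {D D' : SD 4}
    (hD : ∀ k, D.Let k ↔ k 3 + 1 < wsF (k 0 + 1, k 1 + 1, k 2 + 1))
    (hD' : ∀ k, D'.Let k ↔ k 3 + 1 < wsG (k 0 + 1, k 1 + 1, k 2 + 1))
    (hn : NegIn D.neg 3 5 10 15) (hn' : NegIn D'.neg 6 8 6 11)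
    (h : ∃ P : Matrix (Fin 2049) (Fin 2049) ℤ, Pᵀ * NLb_330.pAg * P = NLb_330.pAf)
    (hT : T3aNP (n := 1) D) (hT' : T3aNP (n := 1) D') :
    Ev fun c g d => Ev fun c' g' d' => ZEq (D.G c g d) (D'.G c' g' d') := by
  refine hT.mono fun c g d _ _ _ hE => hT'.mono fun c' g' d' _ _ _ hE' => ?_
  obtain ⟨m, e, G, hG, hL⟩ := hE
  obtain ⟨m', e', G', hG', hL'⟩ := hE'
  refine Top406_808.zeq_of_cong (ClassGF_808.classG 1 le_rfl) hG hG'
    (cong_lmat hD hD' hn hn' h e e') ?_ hL hL'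
  have h3 : ∀ i : Fin 3, D.Let ![0, 0, 0, i.val] := by
    intro i
    rw [hD]
    revert i
    decide +kernel
  have hi : Function.Injective fun i : Fin 3 => e.symm ⟨_, h3 i⟩ := by
    intro i j hij
    have h5 := congrArg Subtype.val (e.symm.injective hij)
    have h6 : i.val = j.val := congrFun h5 3
    exact Fin.ext h6
  simpa using Fintype.card_le_of_injective _ hi

/-- **S0406, end**: T3aN for `Df` and `Dg` and the certificate give homeomorphic links. -/
theorem zeq_end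
    (h : ∃ P : Matrix (Fin 2049) (Fin 2049) ℤ, Pᵀ * NLb_330.pAg * P = NLb_330.pAf)
    (hT : T3aNP (n := 1) Df) (hT' : T3aNP (n := 1) Dg) :
    Ev fun c g d => Ev fun c' g' d' => ZEq (Df.G c g d) (Dg.G c' g' d') :=
  zeq_of_data let_f let_g neg_f neg_g h hT hT'

end Crest.Agent.R267.SFLD_330
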