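import Crest.Agent.R267.EndN6_277
import Crest.Agent.R267.SFLD_330

/-!
# Row 267, T3aN end instance (helper277), part 7: `T3aNP` in helper330's form
-/

set_option autoImplicit false

namespace Crest.Agent.R267.EndN7_277

open Crest.Agent.R267.T3aNDefs_88

/-- **`T3aNP`, all data**. -/
theorem t3aNP {n : ℕ} (D : SD (n + 3)) : SFLD_330.T3aNP D := EndN6_277.t3aN D

end Crest.Agent.R267.EndN7_277
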