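import Crest.Agent.R267.EndBas_864

/-!
# Homogeneous graph systems (row 267, T3-end): the graph system over the cube
-/

set_option autoImplicit false

namespace Crest.Agent.R267.EndSys_864

open Set Metric
open scoped RealInnerProductSpace
open Crest.Agent.R267.GS_808 Crest.Agent.R267.EndDef_864 Crest.Agent.R267.EndBas_864

variable {n m : ℕ} (D : HD n m)

lemma sb_of_le {b : Bc (n + 2)} (h : ‖b‖ ≤ 1) : D.sb b = bp b (1 - ‖b‖ - D.m0 b) := by
  rw [HD.sb, ret_of_le h]

lemma sb_ret (b : Bc (n + 2)) : D.sb (ret b) = D.sb b := by rw [HD.sb, HD.sb, ret_ret]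

lemma sb_ne (b : Bc (n + 2)) : D.sb b ≠ 0 := by
  rw [HD.sb, Ne, bp_eq_zero]
  rintro ⟨h1, h2⟩
  rw [h1, D.m00, norm_zero] at h2
  norm_num at h2

lemma continuous_bp_comp {X : Type*} [TopologicalSpace X] {f : X → Bc (n + 2)} {g : X → ℝ}
    (hf : Continuous f) (hg : Continuous g) : Continuous fun x => bp (n := n) (f x) (g x) := by
  have h1 : Continuous fun x => pt (f x) (g x) := by
    have := hf.prodMk hg
    exact continuous_pt.comp this
  unfold bp
  exact (L n).continuous.comp h1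

lemma continuous_sb : Continuous D.sb := by
  have h1 : Continuous (ret : Bc (n + 2) → Bc (n + 2)) := continuous_ret
  have h2 : Continuous fun b : Bc (n + 2) => 1 - ‖ret b‖ - D.m0 (ret b) :=
    (continuous_const.sub h1.norm).sub (D.cm0.comp h1)
  exact continuous_bp_comp h1 h2

lemma continuous_comp {X : Type*} [TopologicalSpace X] {f : W n → X}
    (hf : ContinuousOn f {0}ᶜ) : Continuous fun b => f (D.sb b) :=
  hf.comp_continuous (continuous_sb D) fun b => sb_ne D b

lemma sb_out (b : Bc (n + 2)) : ∃ j, -(D.d * ‖D.sb b‖) < D.sb b j := by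
  rw [← sb_ret, sb_of_le D (norm_ret_le b)]
  exact D.out _ (norm_ret_le b)

lemma sb_wall {b : Bc (n + 2)} (h : 1 ≤ ‖b‖) : D.ka (D.sb b) = 1 ∧ ∀ j, D.sb b j < 0 := by
  have h1 := norm_ret_of_ge h
  have h2 := D.wall _ h1
  rw [← sb_ret, sb_of_le D h1.le, h1, sub_self, zero_sub]
  exact h2

/-! ### cores -/

lemma core_eq (k : Fin m) (b : Bc (n + 2)) :
    D.core k b = (1 / ‖D.sb b‖) • L n (D.A (D.sb b) (D.eta k (D.sb b))) := rfl

lemma continuous_core (k : Fin m) : Continuous (D.core k) := by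
  have h1 : ContinuousOn (fun s : W n => D.A s (D.eta k s)) {0}ᶜ :=
    A_continuousOn D continuousOn_id (eta_continuousOn D k) fun x hx => hx
  have h2 : ContinuousOn (fun s : W n => (1 / ‖s‖) • L n (D.A s (D.eta k s))) {0}ᶜ :=
    (continuousOn_const.div continuous_norm.continuousOn fun x hx => norm_ne_zero_iff.2 hx).smul
      ((L n).continuous.comp_continuousOn h1)
  exact continuous_comp D h2

lemma core_sub (k l : Fin m) (b : Bc (n + 2)) :
    D.core k b - D.core l b =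
      (1 / ‖D.sb b‖) • L n (D.A (D.sb b) (D.eta k (D.sb b) - D.eta l (D.sb b))) := by
  rw [A_sub, map_sub, smul_sub, core_eq, core_eq]

lemma core_ne {k l : Fin m} (h : k ≠ l) (b : Bc (n + 2)) : D.core k b ≠ D.core l b := by
  rw [← sub_ne_zero, core_sub]
  have h0 : 0 < ‖D.sb b‖ := norm_pos_iff.2 (sb_ne D b)
  obtain ⟨j, hj⟩ := sb_out D b
  refine smul_ne_zero (by positivity) ?_
  rw [Ne, LinearIsometryEquiv.map_eq_zero_iff]
  exact A_ne D (sub_ne_zero.2 (eta_ne D h (sb_ne D b) ⟨j, hj.le⟩))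

lemma low_of_neg {s : W n} (h : ∀ j, s j < 0) (j : Fin (n + 3)) : s j ≤ D.d * ‖s‖ :=
  (h j).le.trans (mul_nonneg D.hd.le (norm_nonneg _))

/-- at points with all coordinates negative the position is orthogonal to the conormal. -/
lemma inner_nz_eta {s : W n} (hs : s ≠ 0) (h : ∀ j, s j < 0) (k : Fin m) :
    ⟪D.nz s, D.eta k s⟫ = 0 := by
  have h1 : D.nrm k s = D.nz s := nrm_eq_nz D hs (low_of_neg D h)
  have h2 : vec (fun j => max (D.hs s j) 0 * D.sg k j) = (0 : W n) := by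
    ext j
    rw [vec_apply, max_eq_right (hs_nonpos D (h j).le), zero_mul]; rfl
  rw [HD.eta, h1, h2, zero_add, inner_smul_right, inner_proj _ _ (nz_ne D hs), mul_zero]

lemma core_wall (k : Fin m) {b : Bc (n + 2)} (h : 1 ≤ ‖b‖) : ⟪ec (n + 2), D.core k b⟫ = 0 := by
  obtain ⟨h1, h2⟩ := sb_wall D h
  rw [core_eq, inner_smul_right, inner_ec_L, inner_u1_A' D (sb_ne D b), h1, sub_self, zero_mul,
    zero_add, inner_nz_eta D (sb_ne D b) h2, mul_zero, mul_zero]

/-! ### normals -/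

lemma nA_ne (k : Fin m) {s : W n} (hs : s ≠ 0) : D.nA k s ≠ 0 := by
  intro h
  have h1 : ⟪u1 n, D.nrm k s⟫ = 0 := by
    have := congrArg (fun v => ⟪u1 n, v⟫) h
    simpa only [HD.nA, inner_add_right, inner_smul_right, inner_u1_hor, inner_u1_u1, mul_zero,
      mul_one, zero_add, inner_zero_right] using this
  by_cases hk : D.ka s = 0
  · rw [HD.nA, hk, sub_zero, one_smul, hor_add_u1] at h
    exact nrm_ne D hs h
  · have h2 := fun j => (D.kap s hs hk j).le
    have h3 := inner_nz_u1_neg D hs h2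
    rw [nrm_eq_nz D hs h2, real_inner_comm] at h1
    linarith

lemma nA_continuousOn (k : Fin m) : ContinuousOn (D.nA k) {0}ᶜ := by
  have h1 := nrm_continuousOn D k
  have h2 : ContinuousOn (fun s : W n => (1 - D.ka s) • hor (D.nrm k s)) {0}ᶜ :=
    (continuousOn_const.sub D.cka).smul (continuous_hor.comp_continuousOn h1)
  have h3 : ContinuousOn (fun s : W n => ⟪u1 n, D.nrm k s⟫) {0}ᶜ := by
    exact (continuousOn_const (c := u1 n)).inner h1
  exact h2.add (h3.smul continuousOn_const)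

lemma continuous_nuc (k : Fin m) : Continuous (D.nuc k) := by
  have h1 : ContinuousOn (fun s : W n => -((1 / ‖D.nA k s‖) • L n (D.nA k s))) {0}ᶜ :=
    ((continuousOn_const.div (nA_continuousOn D k).norm fun x hx =>
      norm_ne_zero_iff.2 (nA_ne D k hx)).smul
      ((L n).continuous.comp_continuousOn (nA_continuousOn D k))).neg
  exact continuous_comp D h1

lemma norm_nuc (k : Fin m) (b : Bc (n + 2)) : ‖D.nuc k b‖ = 1 := by
  have h : 0 < ‖D.nA k (D.sb b)‖ := norm_pos_iff.2 (nA_ne D k (sb_ne D b))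
  rw [HD.nuc, norm_neg, norm_smul, LinearIsometryEquiv.norm_map, Real.norm_of_nonneg (by positivity),
    one_div, inv_mul_cancel₀ h.ne']

lemma nuc_wall (k : Fin m) {b : Bc (n + 2)} (h : 1 ≤ ‖b‖) : D.nuc k b = ec (n + 2) := by
  obtain ⟨h1, h2⟩ := sb_wall D h
  have h3 := inner_nz_u1_neg D (sb_ne D b) (low_of_neg D h2)
  rw [← real_inner_comm] at h3
  rw [HD.nuc, HD.nA, h1, sub_self, zero_smul, zero_add,
    nrm_eq_nz D (sb_ne D b) (low_of_neg D h2), map_smul, L_u1, norm_smul, norm_u1, mul_one,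
    Real.norm_eq_abs, abs_of_neg h3, smul_smul, ← neg_smul]
  have h4 : ⟪u1 n, D.nz (D.sb b)⟫ ≠ 0 := h3.ne
  rw [show -(1 / -⟪u1 n, D.nz (D.sb b)⟫ * ⟪u1 n, D.nz (D.sb b)⟫) = 1 by
    rw [one_div, inv_neg, neg_mul, neg_neg, inv_mul_cancel₀ h4], one_smul]

/-! ### the system -/

lemma core_ret (k : Fin m) (b : Bc (n + 2)) : D.core k (ret b) = D.core k b := by
  rw [core_eq, core_eq, sb_ret]

lemma exists_sep : ∃ r0 : ℝ, 0 < r0 ∧ ∀ k l b, k ≠ l → r0 ≤ ‖D.core k b - D.core l b‖ := by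
  have h1 : ∀ k l : Fin m, ∃ r0 : ℝ, 0 < r0 ∧ ∀ b, k ≠ l → r0 ≤ ‖D.core k b - D.core l b‖ := by
    intro k l
    by_cases hkl : k = l
    · exact ⟨1, one_pos, fun b h => absurd hkl h⟩
    have hc : Continuous fun b => ‖D.core k b - D.core l b‖ :=
      ((continuous_core D k).sub (continuous_core D l)).norm
    obtain ⟨b0, -, hb0⟩ := (isCompact_closedBall (0 : Bc (n + 2)) 1).exists_isMinOn
      ⟨0, by simp⟩ hc.continuousOn
    refine ⟨‖D.core k b0 - D.core l b0‖, norm_pos_iff.2 (sub_ne_zero.2 (core_ne D hkl b0)), ?_⟩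
    intro b _
    rw [← core_ret D k b, ← core_ret D l b]
    exact hb0 (by simpa using norm_ret_le b)
  choose r0 h0 h2 using h1
  by_cases hm : Nonempty (Fin m × Fin m)
  · obtain ⟨p, hp⟩ := Finite.exists_min fun p : Fin m × Fin m => r0 p.1 p.2
    exact ⟨r0 p.1 p.2, h0 _ _, fun k l b h => (hp (k, l)).trans (h2 k l b h)⟩
  · exact ⟨1, one_pos, fun k l => absurd ⟨(k, l)⟩ hm⟩

lemma exists_bd : ∃ R0 : ℝ, ∀ k b, ‖D.core k b‖ ≤ R0 := by
  have h1 : ∀ k : Fin m, ∃ R0 : ℝ, ∀ b, ‖D.core k b‖ ≤ R0 := by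
    intro k
    obtain ⟨R0, hR0⟩ := (isCompact_closedBall (0 : Bc (n + 2)) 1).exists_bound_of_continuousOn
      (continuous_core D k).continuousOn
    exact ⟨R0, fun b => by rw [← core_ret]; exact hR0 _ (by simpa using norm_ret_le b)⟩
  choose R0 h2 using h1
  obtain ⟨M, hM⟩ := (Set.finite_range R0).bddAbove
  exact ⟨M, fun k b => (h2 k b).trans (hM ⟨k, rfl⟩)⟩

/-- the graph system over the cube. -/
noncomputable def toSys (r R : ℝ) (hr : 0 < r)
    (hsep : ∀ k l b, k ≠ l → 2 * r < ‖D.core k b - D.core l b‖)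
    (hbd : ∀ k b, ‖D.core k b‖ + r < R) : Sys (Bc (n + 2)) (ec (n + 2)) m where
  x := D.core
  nu := D.nuc
  r := r
  R := R
  hr := hr
  cx := continuous_core D
  cnu := continuous_nuc D
  norm_nu := norm_nuc D
  sep := hsep
  bd := hbd
  wall_x k _ h := core_wall D k h
  wall_nu k _ h := nuc_wall D k h

end Crest.Agent.R267.EndSys_864
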