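import Crest.Agent.R267.EngK_95

/-!
# Block version of the kernel engine (helper95): mathematics

A block is a natural number that holds `s` rows: digit `2 * s * j + t` (base `2 ^ K`, after removal
of the lowest group of `2 * s` digits, which holds a salt) is entry `j` of the row number `t` of the
block, `t < s`; the digits with `t ≥ s` vanish.  The product of a number with `s` digits with a block
contains the dot products as its digits `2 * s * j + (s - 1)`.
-/

set_option autoImplicit false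

namespace Crest.Agent.R267.EngB_95

open Finset
open Crest.Agent.R267.Eng_95 Crest.Agent.R267.EngK_95

theorem pk_zero (K : ℕ) (f : ℕ → ℕ) : pk K 0 f = 0 := by simp [pk]

theorem pk_add_len (K a b : ℕ) (f : ℕ → ℕ) :
    pk K (a + b) f = pk K a f + 2 ^ (K * a) * pk K b (fun j => f (a + j)) := by
  induction b with
  | zero => simp [pk]
  | succ b ih =>
    rw [← add_assoc, pk_succ, ih, pk_succ, mul_add K a b, pow_add]
    ring

theorem pk_pk (K w J : ℕ) (g : ℕ → ℕ → ℕ) :
    pk (K * w) J (fun j => pk K w (g j)) = pk K (w * J) (fun u => g (u / w) (u % w)) := by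
  rcases Nat.eq_zero_or_pos w with hw | hw
  · subst hw
    simp [pk]
  induction J with
  | zero => simp [pk]
  | succ J ih =>
    rw [pk_succ, ih, mul_add w J 1, mul_one, pk_add_len]
    congr 1
    have e : pk K w (fun j => g ((w * J + j) / w) ((w * J + j) % w)) = pk K w (g J) := by
      apply pk_congr
      intro j hj
      rw [Nat.mul_add_div hw, Nat.div_eq_of_lt hj, add_zero, Nat.mul_add_mod,
        Nat.mod_eq_of_lt hj]
    rw [e, mul_comm, mul_assoc]

/-- convolution. -/
def conv (s : ℕ) (α φ : ℕ → ℕ) (t : ℕ) : ℕ :=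
  ∑ a ∈ range s, if a ≤ t ∧ t < a + s then α a * φ (t - a) else 0

theorem sum_window {s : ℕ} (F : ℕ → ℕ) (a : ℕ) (ha : a < s)
    (h0 : ∀ t, ¬ (a ≤ t ∧ t < a + s) → F t = 0) :
    ∑ t ∈ range (2 * s), F t = ∑ b ∈ range s, F (a + b) := by
  have e : 2 * s = a + (s + (s - a)) := by omega
  rw [e, sum_range_add, sum_range_add]
  have h1 : ∑ t ∈ range a, F t = 0 :=
    sum_eq_zero (fun t ht => h0 t (by rw [mem_range] at ht; omega))
  have h2 : ∑ t ∈ range (s - a), F (a + (s + t)) = 0 :=
    sum_eq_zero (fun t _ => h0 _ (by omega))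
  rw [h1, h2]
  omega

theorem pk_mul (K s : ℕ) (α φ : ℕ → ℕ) :
    pk K s α * pk K s φ = pk K (2 * s) (conv s α φ) := by
  unfold pk conv
  simp only [sum_mul]
  rw [sum_comm]
  apply sum_congr rfl
  intro a ha
  rw [mem_range] at ha
  rw [sum_window _ a ha (fun t ht => by rw [if_neg ht, zero_mul]), mul_sum]
  apply sum_congr rfl
  intro b hb
  rw [mem_range] at hb
  rw [if_pos ⟨by omega, by omega⟩, Nat.add_sub_cancel_left, mul_add, pow_add]
  ring

theorem conv_top (s : ℕ) (α φ : ℕ → ℕ) :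
    conv s α φ (s - 1) = ∑ a ∈ range s, α a * φ (s - 1 - a) := by
  unfold conv
  apply sum_congr rfl
  intro a ha
  rw [mem_range] at ha
  rw [if_pos ⟨by omega, by omega⟩]

theorem conv_le {s C M : ℕ} {α φ : ℕ → ℕ} (hα : ∀ a < s, α a < C) (hφ : ∀ a < s, φ a < M)
    (t : ℕ) : conv s α φ t ≤ s * (C * M) := by
  unfold conv
  calc _ ≤ ∑ a ∈ range s, C * M := by
        apply sum_le_sum
        intro a ha
        rw [mem_range] at ha
        split_ifs with h
        · exact Nat.mul_le_mul (le_of_lt (hα a ha)) (le_of_lt (hφ _ (by omega)))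
        · exact Nat.zero_le _
    _ = s * (C * M) := by simp

theorem blocksum (K s n nb : ℕ) (α : ℕ → ℕ → ℕ) (φ : ℕ → ℕ → ℕ → ℕ) :
    ∑ β ∈ range nb, pk K s (α β) * pk (K * (2 * s)) n (fun j => pk K s (φ β j))
      = pk (K * (2 * s)) n (fun j => pk K (2 * s) (fun t =>
          ∑ β ∈ range nb, conv s (α β) (φ β j) t)) := by
  simp only [pk_sum, ← pk_mul]
  exact sum_congr rfl (fun β _ => by rw [← pk_smul])

/-- digits beyond the length vanish. -/
theorem dg_of_lt {K N p u : ℕ} (h : p < 2 ^ (K * N)) (hu : N ≤ u) : dg K u p = 0 := by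
  unfold dg
  rw [Nat.div_eq_of_lt (lt_of_lt_of_le h (Nat.pow_le_pow_right (by norm_num)
    (Nat.mul_le_mul_left K hu)))]
  exact Nat.zero_mod _

theorem dg_div (K u r p : ℕ) : dg K u (p / 2 ^ (K * r)) = dg K (r + u) p := by
  unfold dg
  rw [Nat.div_div_eq_div_mul, ← pow_add, ← mul_add]

theorem land_sub_one (K x : ℕ) (h : x < 2 ^ K) : x &&& (2 ^ K - 1) = x := by
  rw [Nat.and_two_pow_sub_one_eq_mod, Nat.mod_eq_of_lt h]

theorem pk_single (K w x : ℕ) (hw : 0 < w) : pk K w (fun t => if t = 0 then x else 0) = x := by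
  obtain ⟨v, rfl⟩ : ∃ v, w = 1 + v := ⟨w - 1, by omega⟩
  rw [pk_add_len]
  have e : pk K v (fun j => if 1 + j = 0 then x else 0) = 0 := by
    unfold pk
    exact sum_eq_zero (fun j _ => by
      change (if 1 + j = 0 then x else 0) * 2 ^ (K * j) = 0
      rw [if_neg (by omega), zero_mul])
  rw [e]
  simp [pk]

/-- extraction of the digits number `r` of all groups. -/
theorem extr_eq {K w J r : ℕ} (c : ℕ → ℕ → ℕ) (hc : ∀ j < J, ∀ t < w, c j t < 2 ^ K)
    (hr : r < w) :
    (pk (K * w) J (fun j => pk K w (c j)) / 2 ^ (K * r)) &&& pk (K * w) J (fun _ => 2 ^ K - 1)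
      = pk (K * w) J (fun j => c j r) := by
  have hw : 0 < w := by omega
  have h1K : 1 ≤ 2 ^ K := Nat.one_le_two_pow
  have eM : pk (K * w) J (fun _ => 2 ^ K - 1)
      = pk K (w * J) (fun u => if u % w = 0 then 2 ^ K - 1 else 0) := by
    rw [← pk_pk K w J (fun _ t => if t = 0 then 2 ^ K - 1 else 0)]
    simp only [pk_single K w _ hw]
  have eR : pk (K * w) J (fun j => c j r)
      = pk K (w * J) (fun u => if u % w = 0 then c (u / w) r else 0) := by
    rw [← pk_pk K w J (fun j t => if t = 0 then c j r else 0)]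
    simp only [pk_single K w _ hw]
  have hdM : ∀ u < w * J, (fun u => if u % w = 0 then 2 ^ K - 1 else 0) u < 2 ^ K := by
    intro u _
    dsimp only
    split_ifs <;> omega
  have hdN : ∀ u < w * J, (fun u => c (u / w) (u % w)) u < 2 ^ K := by
    intro u hu
    exact hc _ (Nat.div_lt_of_lt_mul hu) _ (Nat.mod_lt _ hw)
  rw [eM, eR, pk_pk]
  set N := pk K (w * J) (fun u => c (u / w) (u % w)) with hN
  set M := pk K (w * J) (fun u => if u % w = 0 then 2 ^ K - 1 else 0) with hM
  have hlt : (N / 2 ^ (K * r)) &&& M < 2 ^ (K * (w * J)) :=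
    lt_of_le_of_lt Nat.and_le_right (pk_lt hdM)
  rw [← pk_dg K (w * J) _ hlt]
  apply pk_congr
  intro u hu
  rw [dg_land, dg_div, hM, dg_pk hdM u hu]
  by_cases h : u % w = 0
  · simp only [if_pos h]
    rw [land_sub_one K _ (dg_lt _ _ _)]
    have hj : u / w < J := Nat.div_lt_of_lt_mul hu
    have hu2 : w * (u / w) = u := by
      have := Nat.div_add_mod u w
      omega
    have hru : r + u < w * J := by
      have : w * (u / w + 1) ≤ w * J := Nat.mul_le_mul_left w hj
      rw [mul_add, mul_one, hu2] at this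
      omega
    rw [hN, dg_pk hdN _ hru]
    have e1 : (r + u) / w = u / w := by
      conv_lhs => rw [← hu2]
      rw [Nat.add_mul_div_left _ _ hw, Nat.div_eq_of_lt hr, zero_add]
    have e2 : (r + u) % w = r := by
      conv_lhs => rw [← hu2]
      rw [Nat.add_mul_mod_self_left, Nat.mod_eq_of_lt hr]
    simp only [e1, e2]
  · simp only [if_neg h]
    exact Nat.and_zero _

/-- removal of the salt. -/
theorem salt_sum {K s nb : ℕ} (hs : 2 ≤ s) (hnb : nb ≤ 2 ^ K) (v b : ℕ → ℕ)
    (hv : ∀ β < nb, v β < 2 ^ (K * s)) (hb : ∀ β < nb, b β % 2 ^ (K * (2 * s)) < 2 ^ K) :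
    (∑ β ∈ range nb, v β * b β) / 2 ^ (K * (2 * s))
      = ∑ β ∈ range nb, v β * (b β / 2 ^ (K * (2 * s))) := by
  rcases Nat.eq_zero_or_pos nb with h0 | h0
  · subst h0; simp
  set Q := 2 ^ (K * (2 * s)) with hQ
  have e : ∑ β ∈ range nb, v β * b β
      = ∑ β ∈ range nb, v β * (b β % Q) + Q * ∑ β ∈ range nb, v β * (b β / Q) := by
    rw [mul_sum, ← sum_add_distrib]
    apply sum_congr rfl
    intro β _
    conv_lhs => rw [← Nat.mod_add_div (b β) Q]
    ring
  have hlt : ∑ β ∈ range nb, v β * (b β % Q) < Q := by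
    calc ∑ β ∈ range nb, v β * (b β % Q)
        < ∑ β ∈ range nb, 2 ^ (K * s) * 2 ^ K := by
          apply sum_lt_sum_of_nonempty ⟨0, mem_range.2 h0⟩
          intro β hβ
          rw [mem_range] at hβ
          exact Nat.mul_lt_mul'' (hv β hβ) (hb β hβ)
      _ = nb * (2 ^ (K * s) * 2 ^ K) := by simp
      _ ≤ 2 ^ K * (2 ^ (K * s) * 2 ^ K) := Nat.mul_le_mul_right _ hnb
      _ = 2 ^ (K * (s + 2)) := by rw [← pow_add, ← pow_add]; congr 1; ring
      _ ≤ Q := by
          rw [hQ]
          exact Nat.pow_le_pow_right (by norm_num) (Nat.mul_le_mul_left K (by omega))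
  rw [e, Nat.add_mul_div_left _ _ (by positivity), Nat.div_eq_of_lt hlt, zero_add]

theorem sum_blocks (s nb : ℕ) (g : ℕ → ℕ) :
    ∑ β ∈ range nb, ∑ t ∈ range s, g (s * β + t) = ∑ b ∈ range (s * nb), g b := by
  induction nb with
  | zero => simp
  | succ nb ih => rw [sum_range_succ, ih, mul_add, mul_one, sum_range_add]

/-- digits of a block. -/
def bd (K s b j t : ℕ) : ℕ := dg K (2 * s * j + t) (b / 2 ^ (K * (2 * s)))

/-- good blocks. -/
structure GB (K s n m b : ℕ) : Prop where
  salt : b % 2 ^ (K * (2 * s)) < 2 ^ K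
  eq : b / 2 ^ (K * (2 * s)) = pk (K * (2 * s)) (n + 1) (fun j => pk K s (bd K s b j))
  lt : ∀ j < n, ∀ t < s, bd K s b j t < 2 ^ m
  top : ∀ t < s, bd K s b n t = 1

/-- `∑ t < s, 2 ^ (K * t)`. -/
def geo (K s : ℕ) : ℕ := Nat.div (Nat.pow 2 (Nat.mul K s) - 1) (Nat.pow 2 K - 1)

theorem geo_eq (K s : ℕ) (hK : 0 < K) : pk K s (fun _ => 1) = geo K s := by
  rw [pk_const K s 1 hK, one_mul]; rfl

theorem geo_mul (K s c : ℕ) (hK : 0 < K) : pk K s (fun _ => c) = c * geo K s := by
  rw [← geo_eq K s hK, ← pk_smul]; simp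

/-- the row `(c, …, c; t)`. -/
def cst2 (K n c t : ℕ) : ℕ := Nat.add (Nat.mul c (geo K n)) (Nat.mul t (Nat.pow 2 (Nat.mul K n)))

theorem cst2_eq (K n c t : ℕ) (hK : 0 < K) :
    cst2 K n c t = pk K (n + 1) (fun j => if j = n then t else c) := by
  rw [pk_succ, if_pos rfl]
  have h1 : pk K n (fun j => if j = n then t else c) = pk K n (fun _ => c) :=
    pk_congr (fun j hj => by rw [if_neg (by omega)])
  rw [h1, geo_mul K n c hK]
  rfl

/-- kernel check of a block. -/
noncomputable def gbB (K s n m b : ℕ) : Bool :=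
  band (Nat.ble (Nat.land b (Nat.pred (Nat.pow 2 (Nat.mul K (Nat.mul 2 s)))))
      (Nat.pred (Nat.pow 2 K)))
    (band
      (Nat.beq (Nat.land (Nat.shiftRight b (Nat.mul K (Nat.mul 2 s)))
          (cst2 (Nat.mul K (Nat.mul 2 s)) n (Nat.mul (Nat.pred (Nat.pow 2 m)) (geo K s)) (geo K s)))
        (Nat.shiftRight b (Nat.mul K (Nat.mul 2 s))))
      (Nat.beq (Nat.shiftRight b (Nat.mul (Nat.mul K (Nat.mul 2 s)) (Nat.succ n))) (geo K s)))

theorem gb_of {K s n m b : ℕ} (hK : 0 < K) (hs : 0 < s) (hm : m ≤ K)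
    (h : gbB K s n m b = true) : GB K s n m b := by
  rw [gbB, band_eq, band_eq, Nat.ble_eq, Nat.beq_eq, Nat.beq_eq] at h
  obtain ⟨h1, h2, h3⟩ := h
  change b &&& (2 ^ (K * (2 * s)) - 1) ≤ 2 ^ K - 1 at h1
  change (b >>> (K * (2 * s))) &&& cst2 (K * (2 * s)) n ((2 ^ m - 1) * geo K s) (geo K s)
    = b >>> (K * (2 * s)) at h2
  change b >>> ((K * (2 * s)) * (n + 1)) = geo K s at h3
  rw [Nat.and_two_pow_sub_one_eq_mod] at h1
  rw [Nat.shiftRight_eq_div_pow] at h2 h3
  have h1K : 1 ≤ 2 ^ K := Nat.one_le_two_pow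
  have h1m : 1 ≤ 2 ^ m := Nat.one_le_two_pow
  have hmK : 2 ^ m ≤ 2 ^ K := Nat.pow_le_pow_right (by norm_num) hm
  have h2K : 2 ≤ 2 ^ K := by
    calc 2 = 2 ^ 1 := rfl
      _ ≤ 2 ^ K := Nat.pow_le_pow_right (by norm_num) hK
  have hw : 0 < 2 * s := by omega
  set b' := b / 2 ^ (K * (2 * s)) with hb'
  -- digits of the mask
  set g : ℕ → ℕ → ℕ := fun j t => if s ≤ t then 0 else if j = n then 1 else 2 ^ m - 1 with hg
  have hgK : ∀ u < 2 * s * (n + 1), (fun u => g (u / (2 * s)) (u % (2 * s))) u < 2 ^ K := by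
    intro u _
    simp only [hg]
    split_ifs <;> omega
  have eM : cst2 (K * (2 * s)) n ((2 ^ m - 1) * geo K s) (geo K s)
      = pk K (2 * s * (n + 1)) (fun u => g (u / (2 * s)) (u % (2 * s))) := by
    rw [cst2_eq _ _ _ _ (by positivity), ← pk_pk]
    apply pk_congr
    intro j _
    have e1 : pk K (2 * s) (g j) = pk K s (g j) := by
      rw [two_mul, pk_add_len]
      have : pk K s (fun t => g j (s + t)) = 0 := by
        unfold pk
        exact sum_eq_zero (fun t _ => by simp [hg])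
      rw [this, mul_zero, add_zero]
    rw [e1]
    by_cases hj : j = n
    · rw [if_pos hj, ← geo_eq K s hK]
      apply pk_congr
      intro t ht
      simp only [hg]
      rw [if_neg (by omega), if_pos hj]
    · rw [if_neg hj, ← geo_mul K s _ hK]
      apply pk_congr
      intro t ht
      simp only [hg]
      rw [if_neg (by omega), if_neg hj]
  rw [eM] at h2
  have hblt : b' < 2 ^ (K * (2 * s * (n + 1))) := by
    rw [← h2]
    exact lt_of_le_of_lt Nat.and_le_right (pk_lt hgK)
  have hdig : ∀ u < 2 * s * (n + 1), dg K u b' = dg K u b' &&& g (u / (2 * s)) (u % (2 * s)) := by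
    intro u hu
    conv_lhs => rw [← h2]
    rw [dg_land, dg_pk hgK u hu]
  have hbd : ∀ j ≤ n, ∀ t < 2 * s, dg K (2 * s * j + t) b' = dg K (2 * s * j + t) b' &&& g j t := by
    intro j hj t ht
    have hu : 2 * s * j + t < 2 * s * (n + 1) := by
      have : 2 * s * (j + 1) ≤ 2 * s * (n + 1) := Nat.mul_le_mul_left _ (by omega)
      rw [mul_add, mul_one] at this
      omega
    have := hdig _ hu
    rw [Nat.mul_add_div hw, Nat.div_eq_of_lt ht, add_zero, Nat.mul_add_mod, Nat.mod_eq_of_lt ht]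
      at this
    exact this
  have eb : b' = pk (K * (2 * s)) (n + 1) (fun j => pk K s (bd K s b j)) := by
    conv_lhs => rw [← pk_dg K _ b' hblt]
    have e0 : (fun u => dg K u b')
        = fun u => (fun j t => dg K (2 * s * j + t) b') (u / (2 * s)) (u % (2 * s)) := by
      funext u
      simp only [Nat.div_add_mod]
    rw [e0]
    refine (pk_pk K (2 * s) (n + 1) (fun j t => dg K (2 * s * j + t) b')).symm.trans ?_
    apply pk_congr
    intro j hj
    conv_lhs => rw [two_mul, pk_add_len]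
    have : pk K s (fun t => dg K (2 * s * j + (s + t)) b') = 0 := by
      unfold pk
      apply sum_eq_zero
      intro t ht
      rw [mem_range] at ht
      change dg K (2 * s * j + (s + t)) b' * 2 ^ (K * t) = 0
      rw [hbd j (by omega) (s + t) (by omega)]
      simp [hg]
    rw [← two_mul, this, mul_zero, add_zero]
    rfl
  refine ⟨by omega, eb, ?_, ?_⟩
  · intro j hj t ht
    change dg K (2 * s * j + t) b' < 2 ^ m
    rw [hbd j (by omega) t (by omega)]
    simp only [hg]
    rw [if_neg (by omega), if_neg (by omega), Nat.and_two_pow_sub_one_eq_mod]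
    exact Nat.mod_lt _ (by positivity)
  · have hw2 : ∀ j < n + 1, (fun j => pk K s (bd K s b j)) j < 2 ^ (K * (2 * s)) := by
      intro j _
      exact lt_of_lt_of_le (pk_lt (fun t _ => dg_lt _ _ _))
        (Nat.pow_le_pow_right (by norm_num) (Nat.mul_le_mul_left K (by omega)))
    have e3 : pk K s (bd K s b n) = pk K s (fun _ => 1) := by
      have h4 := dg_pk hw2 n (by omega)
      rw [← eb] at h4
      rw [← h4, geo_eq K s hK, ← h3]
      unfold dg
      rw [hb', Nat.div_div_eq_div_mul, ← pow_add, mul_add (K * (2 * s)) n 1, mul_one,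
        add_comm (K * (2 * s) * n)]
      apply Nat.mod_eq_of_lt
      rw [pow_add, ← Nat.div_div_eq_div_mul, ← hb']
      apply Nat.div_lt_of_lt_mul
      rw [← pow_add]
      refine lt_of_lt_of_le hblt (Nat.pow_le_pow_right (by norm_num) (le_of_eq ?_))
      ring
    exact pk_inj (fun t _ => dg_lt _ _ _) (fun t _ => by omega) e3

end Crest.Agent.R267.EngB_95
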