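import Crest.Agent.R267.EngB_95

/-!
# Block version of the kernel engine (helper95): checks and main theorem

`BPar.ok`, `gbB` (all blocks), `aRow` (rows of `A * U = W`), `bRow` (rows of `Uᵀ * W = B`);
main theorem `main_blocks : Uᵀ * A * U = B`.
-/

set_option autoImplicit false

namespace Crest.Agent.R267.EngC_95

open Finset Matrix
open Crest.Agent.R267.Eng_95 Crest.Agent.R267.EngK_95 Crest.Agent.R267.EngB_95

/-! ### general facts -/

theorem pk_pad (K s : ℕ) (f : ℕ → ℕ) :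
    pk K s f = pk K (2 * s) (fun t => if t < s then f t else 0) := by
  rw [two_mul, pk_add_len]
  have : pk K s (fun j => if s + j < s then f (s + j) else 0) = 0 := by
    unfold pk
    exact sum_eq_zero (fun j _ => by
      change (if s + j < s then f (s + j) else 0) * 2 ^ (K * j) = 0
      rw [if_neg (by omega), zero_mul])
  rw [this, mul_zero, add_zero]
  exact pk_congr (fun t ht => by rw [if_pos ht])

/-- extraction of digit `r` of all groups (after removal of the salt). -/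
noncomputable def extr (K s n r x : ℕ) : ℕ :=
  Nat.land (Nat.shiftRight x (Nat.mul K (Nat.add (Nat.mul 2 s) r)))
    (Nat.mul (Nat.pred (Nat.pow 2 K)) (geo (Nat.mul K (Nat.mul 2 s)) (Nat.succ n)))

theorem extr_def {K s n r x : ℕ} (hK : 0 < K) (hs : 0 < s) :
    extr K s n r x = (x / 2 ^ (K * (2 * s)) / 2 ^ (K * r))
      &&& pk (K * (2 * s)) (n + 1) (fun _ => 2 ^ K - 1) := by
  rw [geo_mul _ _ _ (by positivity)]
  change (x >>> (K * (2 * s + r))) &&& ((2 ^ K - 1) * geo (K * (2 * s)) (n + 1)) = _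
  rw [Nat.shiftRight_eq_div_pow, Nat.div_div_eq_div_mul, ← pow_add, ← mul_add]

theorem extr_blk {K s n m b r : ℕ} (hK : 0 < K) (hs : 0 < s) (h : GB K s n m b) (hr : r < s) :
    extr K s n r b = pk (K * (2 * s)) (n + 1) (fun j => bd K s b j r) := by
  rw [extr_def hK hs, h.eq]
  have e : pk (K * (2 * s)) (n + 1) (fun j => pk K s (bd K s b j))
      = pk (K * (2 * s)) (n + 1) (fun j => pk K (2 * s) (fun t => if t < s then bd K s b j t else 0)) :=
    pk_congr (fun j _ => pk_pad K s _)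
  rw [e, extr_eq (fun j t => if t < s then bd K s b j t else 0) (fun j _ t _ => by
    split_ifs
    · exact dg_lt _ _ _
    · positivity) (show r < 2 * s by omega)]
  exact pk_congr (fun j _ => by rw [if_pos hr])

/-- dot products by block multiplication. -/
theorem extr_dot {K s n m nb C : ℕ} (hK : 0 < K) (hs : 2 ≤ s) (hnb : nb ≤ 2 ^ K)
    (hb : nb * (s * (C * 2 ^ m)) < 2 ^ K) (v b : ℕ → ℕ)
    (hv : ∀ β < nb, v β < 2 ^ (K * s)) (hvC : ∀ β < nb, ∀ t < s, dg K t (v β) < C)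
    (hg : ∀ β < nb, GB K s n m (b β)) :
    extr K s n (s - 1) (∑ β ∈ range nb, v β * b β)
      = pk (K * (2 * s)) (n + 1) (fun j => ∑ β ∈ range nb, ∑ t ∈ range s,
          dg K t (v β) * bd K s (b β) j (s - 1 - t)) := by
  have h1m : 1 ≤ 2 ^ m := Nat.one_le_two_pow
  rw [extr_def hK (by omega), salt_sum hs hnb v b hv (fun β hβ => (hg β hβ).salt)]
  have e : ∑ β ∈ range nb, v β * (b β / 2 ^ (K * (2 * s)))
      = pk (K * (2 * s)) (n + 1) (fun j => pk K (2 * s) (fun t =>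
          ∑ β ∈ range nb, conv s (fun t => dg K t (v β)) (bd K s (b β) j) t)) := by
    rw [← blocksum K s (n + 1) nb (fun β t => dg K t (v β)) (fun β j => bd K s (b β) j)]
    apply sum_congr rfl
    intro β hβ
    rw [mem_range] at hβ
    rw [(hg β hβ).eq, pk_dg K s _ (hv β hβ)]
  have hle : ∀ β < nb, ∀ j < n + 1, ∀ t < s, bd K s (b β) j t ≤ 2 ^ m := by
    intro β hβ j hj t ht
    rcases Nat.lt_succ_iff_lt_or_eq.1 hj with h1 | h1
    · exact le_of_lt ((hg β hβ).lt j h1 t ht)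
    · rw [h1, (hg β hβ).top t ht]; exact h1m
  rw [e, extr_eq _ ?_ (show s - 1 < 2 * s by omega)]
  · exact pk_congr (fun j _ => sum_congr rfl (fun β _ => conv_top s _ _))
  · intro j hj t _
    calc ∑ β ∈ range nb, conv s (fun t => dg K t (v β)) (bd K s (b β) j) t
        ≤ ∑ β ∈ range nb, s * (C * 2 ^ m) := by
          apply sum_le_sum
          intro β hβ
          rw [mem_range] at hβ
          unfold conv
          calc _ ≤ ∑ a ∈ range s, C * 2 ^ m := by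
                apply sum_le_sum
                intro a ha
                rw [mem_range] at ha
                split_ifs with h
                · exact Nat.mul_le_mul (le_of_lt (hvC β hβ a ha)) (hle β hβ j hj _ (by omega))
                · exact Nat.zero_le _
            _ = s * (C * 2 ^ m) := by simp
      _ = nb * (s * (C * 2 ^ m)) := by simp
      _ < 2 ^ K := hb

theorem core2 {Q n e cp cn hh : ℕ} {C T ξ η : ℕ → ℕ} (hQ : 0 < Q)
    (hl : ∀ j < n + 1, C j + cn * (if j = n then 1 else e) + ξ j < 2 ^ Q)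
    (hr : ∀ j < n + 1, hh * T j + cp * (if j = n then 1 else e) + η j < 2 ^ Q)
    (h : pk Q (n + 1) C + cn * cst2 Q n e 1 + pk Q (n + 1) ξ
      = hh * pk Q (n + 1) T + cp * cst2 Q n e 1 + pk Q (n + 1) η) :
    ∀ j < n + 1, C j + cn * (if j = n then 1 else e) + ξ j
      = hh * T j + cp * (if j = n then 1 else e) + η j := by
  rw [cst2_eq _ _ _ _ hQ, ← pk_smul, ← pk_smul, ← pk_smul, ← pk_add, ← pk_add, ← pk_add,
    ← pk_add] at h
  exact pk_inj hl hr h

/-! ### parameters and checks -/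

/-- parameters: `n = s * nb` size, `s` rows per block, `K` digit width, entries of `U + h` are
`< 2 ^ k`, entries of `A * U + H` are `< 2 ^ m`. -/
structure BPar where
  n : ℕ
  s : ℕ
  nb : ℕ
  K : ℕ
  k : ℕ
  m : ℕ
  h : ℕ
  H : ℕ
  CB : ℕ

noncomputable def BPar.ok (P : BPar) : Bool :=
  band (Nat.beq P.n (Nat.mul P.s P.nb)) <| band (Nat.ble 2 P.s) <|
  band (Nat.ble P.nb (Nat.pow 2 P.K)) <|
  band (Nat.ble 1 P.K) <| band (Nat.ble 3 P.k) <| band (Nat.ble P.k P.m) <| band (Nat.ble P.m P.K) <|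
  band (Nat.ble P.h (Nat.pow 2 P.k)) <| band (Nat.ble (Nat.succ P.H) (Nat.pow 2 P.m)) <|
  Nat.ble (Nat.succ (Nat.add (Nat.add (Nat.mul P.n (Nat.mul (Nat.pow 2 P.k) (Nat.pow 2 P.m)))
    (Nat.mul P.CB (Nat.pow 2 P.m))) (Nat.pow 2 P.m))) (Nat.pow 2 P.K)

/-- `2 ^ (K * s) - 1`. -/
noncomputable def smask (K s : ℕ) : ℕ := Nat.pred (Nat.pow 2 (Nat.mul K s))

/-- mask for column `i` of a block (and for the salt: this keeps the results different from each
other modulo `2 ^ 64`, the kernel hashes numerals by their lowest bits). -/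
noncomputable def colmask (K s i : ℕ) : ℕ :=
  Nat.add (Nat.shiftLeft (smask K s) (Nat.mul (Nat.mul K (Nat.mul 2 s)) (Nat.succ i)))
    (Nat.pred (Nat.pow 2 K))

theorem colmask_eq {K s i u : ℕ} (hs : 0 < s) :
    Nat.shiftRight (Nat.land u (colmask K s i)) (Nat.mul (Nat.mul K (Nat.mul 2 s)) (Nat.succ i))
      = u / 2 ^ ((K * (2 * s)) * (i + 1)) % 2 ^ (K * s) := by
  change (u &&& (((2 ^ (K * s) - 1) <<< ((K * (2 * s)) * (i + 1))) + (2 ^ K - 1)))
    >>> ((K * (2 * s)) * (i + 1)) = _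
  rw [Nat.shiftRight_eq_div_pow, Nat.and_div_two_pow, Nat.shiftLeft_eq]
  have h1 : 2 ^ K - 1 < 2 ^ ((K * (2 * s)) * (i + 1)) := by
    have h2 : 2 ^ K ≤ 2 ^ ((K * (2 * s)) * (i + 1)) := by
      apply Nat.pow_le_pow_right (by norm_num)
      rw [mul_assoc]
      exact Nat.le_mul_of_pos_right _ (by positivity)
    have h3 : 1 ≤ 2 ^ K := Nat.one_le_two_pow
    omega
  rw [Nat.mul_comm (2 ^ (K * s) - 1), Nat.mul_add_div (by positivity), Nat.div_eq_of_lt h1,
    add_zero, Nat.and_two_pow_sub_one_eq_mod]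

/-- comparison of wide rows. -/
noncomputable def wideChk (Q n CB E1 hh M T X Y : ℕ) : Bool :=
  band (Nat.ble (Nat.shiftRight M (Nat.mul Q n)) CB) <|
  band (Nat.ble (Nat.shiftRight (Nat.mul hh T) (Nat.mul Q n)) CB) <|
    Nat.beq
      (Nat.add (Nat.add M (Nat.mul (Nat.shiftRight (Nat.mul hh T) (Nat.mul Q n)) E1)) X)
      (Nat.add (Nat.add (Nat.mul hh T) (Nat.mul (Nat.shiftRight M (Nat.mul Q n)) E1)) Y)

theorem wideChk_eq {Q n CB E1 hh M T X Y : ℕ} (h : wideChk Q n CB E1 hh M T X Y = true) :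
    ∃ cp cn, cp ≤ CB ∧ cn ≤ CB ∧ M + cn * E1 + X = hh * T + cp * E1 + Y := by
  rw [wideChk, band_eq, band_eq, Nat.beq_eq, Nat.ble_eq, Nat.ble_eq] at h
  exact ⟨_, _, h.1, h.2.1, h.2.2⟩

/-- sum of all rows of a list of blocks. -/
noncomputable def total (K s n : ℕ) (bs : List ℕ) : ℕ :=
  extr K s n (Nat.pred s) (wsum (fun _ => geo K s) bs bs)

/-- check of row `a = s * β + r` of `W = A * U`; `rA` is the packed row of `A + 1`, `wb` the block
number `β` of `W`; `T = total … ubs`. -/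
noncomputable def aRow (P : BPar) (shs ubs : List ℕ) (T wb r rA : ℕ) : Bool :=
  wideChk (Nat.mul P.K (Nat.mul 2 P.s)) P.n P.CB (cst2 (Nat.mul P.K (Nat.mul 2 P.s)) P.n P.h 1) 1
    (extr P.K P.s P.n (Nat.pred P.s)
      (wsum (fun sh => Nat.land (Nat.shiftRight rA sh) (smask P.K P.s)) shs ubs))
    T (cst2 (Nat.mul P.K (Nat.mul 2 P.s)) P.n P.H 1) (extr P.K P.s P.n r wb)

/-- check of row `i` of `Uᵀ * W = B`; `rB` is the packed row of `B + 1` (width `K * 2 * s`),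
`T = total … wbs`. -/
noncomputable def bRow (P : BPar) (ubs wbs : List ℕ) (T i rB : ℕ) : Bool :=
  wideChk (Nat.mul P.K (Nat.mul 2 P.s)) P.n P.CB (cst2 (Nat.mul P.K (Nat.mul 2 P.s)) P.n P.H 1) P.h
    (extr P.K P.s P.n (Nat.pred P.s)
      (wsum (fun u => Nat.shiftRight (Nat.land u (colmask P.K P.s i))
        (Nat.mul (Nat.mul P.K (Nat.mul 2 P.s)) (Nat.succ i))) ubs wbs))
    T (cst2 (Nat.mul P.K (Nat.mul 2 P.s)) P.n 1 0) rB

/-- the matrix `U + h`. -/
def dU (P : BPar) (ubs : List ℕ) (a j : ℕ) : ℕ :=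
  bd P.K P.s (ubs.getD (a / P.s) 0) j (P.s - 1 - a % P.s)

/-- the matrix `A * U + H`. -/
def dW (P : BPar) (wbs : List ℕ) (a j : ℕ) : ℕ :=
  bd P.K P.s (wbs.getD (a / P.s) 0) j (a % P.s)

/-- mathematical content of `P.ok`. -/
structure BPar.Ok (P : BPar) : Prop where
  hn : P.n = P.s * P.nb
  hs : 2 ≤ P.s
  hnb : P.nb ≤ 2 ^ P.K
  hK : 1 ≤ P.K
  hk : 3 ≤ P.k
  hkm : P.k ≤ P.m
  hmK : P.m ≤ P.K
  hh : P.h ≤ 2 ^ P.k
  hH : P.H < 2 ^ P.m
  hbd : P.n * (2 ^ P.k * 2 ^ P.m) + P.CB * 2 ^ P.m + 2 ^ P.m < 2 ^ P.K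

theorem BPar.ok_iff {P : BPar} (h : P.ok = true) : P.Ok := by
  simp only [BPar.ok, band_eq, Nat.ble_eq, Nat.beq_eq] at h
  obtain ⟨h1, h2, h3, h4, h5, h6, h7, h8, h9, h10⟩ := h
  exact ⟨h1, h2, h3, h4, h5, h6, h7, h8, h9, h10⟩

theorem block_idx {s nb a : ℕ} (hs : 0 < s) (ha : a < s * nb) : a / s < nb ∧ a % s < s :=
  ⟨Nat.div_lt_of_lt_mul ha, Nat.mod_lt _ hs⟩

theorem total_eq {P : BPar} (hP : P.Ok) {μ : ℕ} (hμ : μ ≤ P.m) {bs : List ℕ}
    (hl : bs.length = P.nb) (hg : ∀ β < P.nb, GB P.K P.s P.n μ (bs.getD β 0)) :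
    total P.K P.s P.n bs = pk (P.K * (2 * P.s)) (P.n + 1) (fun j =>
      ∑ β ∈ range P.nb, ∑ t ∈ range P.s, bd P.K P.s (bs.getD β 0) j t) := by
  obtain ⟨hn, hs, hnb, hK, hk, hkm, hmK, hh, hH, hbd⟩ := hP
  have h2K : 2 ≤ 2 ^ P.K := by
    calc 2 = 2 ^ 1 := rfl
      _ ≤ 2 ^ P.K := Nat.pow_le_pow_right (by norm_num) hK
  have hdig : ∀ t < P.s, dg P.K t (geo P.K P.s) = 1 := by
    intro t ht
    rw [← geo_eq P.K P.s hK]
    exact dg_pk (fun _ _ => by omega) t ht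
  have e1 : wsum (fun _ => geo P.K P.s) bs bs = ∑ β ∈ range P.nb, geo P.K P.s * bs.getD β 0 := by
    rw [wsum_eq _ 0 bs bs rfl, hl]
  have hb2 : P.nb * (P.s * (2 * 2 ^ μ)) < 2 ^ P.K := by
    have h1 : 2 ^ μ ≤ 2 ^ P.m := Nat.pow_le_pow_right (by norm_num) hμ
    have h2 : 2 ≤ 2 ^ P.k := by
      calc 2 = 2 ^ 1 := rfl
        _ ≤ 2 ^ P.k := Nat.pow_le_pow_right (by norm_num) (by omega)
    have h3 : 2 * 2 ^ μ ≤ 2 ^ P.k * 2 ^ P.m := Nat.mul_le_mul h2 h1
    calc P.nb * (P.s * (2 * 2 ^ μ)) = P.n * (2 * 2 ^ μ) := by rw [hn]; ring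
      _ ≤ P.n * (2 ^ P.k * 2 ^ P.m) := Nat.mul_le_mul_left _ h3
      _ < 2 ^ P.K := by omega
  unfold total
  rw [e1]
  have h := extr_dot (C := 2) hK hs hnb hb2 (fun _ => geo P.K P.s) (fun β => bs.getD β 0)
    (fun β _ => by rw [← geo_eq P.K P.s hK]; exact pk_lt (fun _ _ => by omega))
    (fun β _ t ht => by rw [hdig t ht]; norm_num) hg
  refine h.trans (pk_congr (fun j _ => sum_congr rfl (fun β _ => ?_)))
  rw [← sum_range_reflect]
  apply sum_congr rfl
  intro t ht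
  rw [mem_range] at ht
  rw [hdig _ (by omega), one_mul]
  congr 1
  omega

theorem div_block {s β t : ℕ} (ht : t < s) : (s * β + t) / s = β := by
  rw [Nat.mul_add_div (by omega), Nat.div_eq_of_lt ht, add_zero]

theorem mod_block {s β t : ℕ} (ht : t < s) : (s * β + t) % s = t := by
  rw [Nat.mul_add_mod, Nat.mod_eq_of_lt ht]

theorem dU_block {P : BPar} {ubs : List ℕ} {β t j : ℕ} (ht : t < P.s) :
    dU P ubs (P.s * β + t) j = bd P.K P.s (ubs.getD β 0) j (P.s - 1 - t) := by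
  unfold dU
  rw [div_block ht, mod_block ht]

theorem dW_block {P : BPar} {wbs : List ℕ} {β t j : ℕ} (ht : t < P.s) :
    dW P wbs (P.s * β + t) j = bd P.K P.s (wbs.getD β 0) j t := by
  unfold dW
  rw [div_block ht, mod_block ht]

theorem sum_T_U {P : BPar} (hP : P.Ok) (ubs : List ℕ) (j : ℕ) :
    ∑ β ∈ range P.nb, ∑ t ∈ range P.s, bd P.K P.s (ubs.getD β 0) j t
      = ∑ b ∈ range P.n, dU P ubs b j := by
  rw [hP.hn, ← sum_blocks]
  apply sum_congr rfl
  intro β _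
  rw [← sum_range_reflect]
  apply sum_congr rfl
  intro t ht
  rw [mem_range] at ht
  rw [dU_block ht]

theorem sum_T_W {P : BPar} (hP : P.Ok) (wbs : List ℕ) (j : ℕ) :
    ∑ β ∈ range P.nb, ∑ t ∈ range P.s, bd P.K P.s (wbs.getD β 0) j t
      = ∑ b ∈ range P.n, dW P wbs b j := by
  rw [hP.hn, ← sum_blocks]
  apply sum_congr rfl
  intro β _
  apply sum_congr rfl
  intro t ht
  rw [mem_range] at ht
  rw [dW_block ht]

theorem dU_lt {P : BPar} (hP : P.Ok) {ubs : List ℕ}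
    (gU : ∀ β < P.nb, GB P.K P.s P.n P.k (ubs.getD β 0)) {a j : ℕ} (ha : a < P.n) (hj : j < P.n) :
    dU P ubs a j < 2 ^ P.k := by
  rw [hP.hn] at ha
  have h := block_idx (by have := hP.hs; omega) ha
  exact (gU _ h.1).lt j hj _ (by have := hP.hs; omega)

theorem dU_top {P : BPar} (hP : P.Ok) {ubs : List ℕ}
    (gU : ∀ β < P.nb, GB P.K P.s P.n P.k (ubs.getD β 0)) {a : ℕ} (ha : a < P.n) :
    dU P ubs a P.n = 1 := by
  rw [hP.hn] at ha
  have h := block_idx (by have := hP.hs; omega) ha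
  exact (gU _ h.1).top _ (by have := hP.hs; omega)

theorem dW_lt {P : BPar} (hP : P.Ok) {wbs : List ℕ}
    (gW : ∀ β < P.nb, GB P.K P.s P.n P.m (wbs.getD β 0)) {a j : ℕ} (ha : a < P.n) (hj : j < P.n) :
    dW P wbs a j < 2 ^ P.m := by
  rw [hP.hn] at ha
  have h := block_idx (by have := hP.hs; omega) ha
  exact (gW _ h.1).lt j hj _ h.2

theorem dW_top {P : BPar} (hP : P.Ok) {wbs : List ℕ}
    (gW : ∀ β < P.nb, GB P.K P.s P.n P.m (wbs.getD β 0)) {a : ℕ} (ha : a < P.n) :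
    dW P wbs a P.n = 1 := by
  rw [hP.hn] at ha
  have h := block_idx (by have := hP.hs; omega) ha
  exact (gW _ h.1).top _ h.2

/-- soundness of `aRow`. -/
theorem aRow_sound {P : BPar} (hP : P.Ok) {shs ubs wbs : List ℕ} {T : ℕ} {r β rA : ℕ}
    {α : ℕ → ℕ}
    (hlu : ubs.length = P.nb) (hsh : shs = (List.range P.nb).map (fun β => P.K * P.s * β))
    (gU : ∀ β < P.nb, GB P.K P.s P.n P.k (ubs.getD β 0))
    (gW : ∀ β < P.nb, GB P.K P.s P.n P.m (wbs.getD β 0))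
    (hT : T = total P.K P.s P.n ubs)
    (hr : r < P.s) (hβ : β < P.nb)
    (hα : ∀ b < P.n, α b < 2 ^ P.k) (hrA : rA = pk P.K P.n α)
    (h : aRow P shs ubs T (wbs.getD β 0) r rA = true) :
    ∀ j < P.n, ∑ b ∈ range P.n, ((α b : ℤ) - 1) * ((dU P ubs b j : ℤ) - P.h)
      = (dW P wbs (P.s * β + r) j : ℤ) - P.H := by
  have hP' := hP
  obtain ⟨hn, hs, hnb, hK, hk, hkm, hmK, hh, hH, hbd⟩ := hP'
  have hkK : 2 ^ P.k ≤ 2 ^ P.K := Nat.pow_le_pow_right (by norm_num) (by omega)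
  have hkm' : 2 ^ P.k ≤ 2 ^ P.m := Nat.pow_le_pow_right (by norm_num) hkm
  have h1k : 8 ≤ 2 ^ P.k := by
    calc 8 = 2 ^ 3 := by norm_num
      _ ≤ 2 ^ P.k := Nat.pow_le_pow_right (by norm_num) hk
  have hK2 : 2 ^ P.K ≤ 2 ^ (P.K * (2 * P.s)) :=
    Nat.pow_le_pow_right (by norm_num) (Nat.le_mul_of_pos_right _ (by omega))
  obtain ⟨cp, cn, hcp, hcn, h4⟩ := wideChk_eq h
  -- the sum
  have eS : wsum (fun sh => Nat.land (Nat.shiftRight rA sh) (smask P.K P.s)) shs ubs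
      = ∑ β ∈ range P.nb, (rA / 2 ^ (P.K * (P.s * β)) % 2 ^ (P.K * P.s)) * ubs.getD β 0 := by
    rw [wsum_eq _ 0 shs ubs (by rw [hsh, hlu]; simp), hsh, List.length_map, List.length_range]
    apply sum_congr rfl
    intro β hβ
    rw [mem_range] at hβ
    congr 1
    have e1 : ((List.range P.nb).map (fun β => P.K * P.s * β)).getD β 0 = P.K * P.s * β := by
      simp [List.getD_eq_getElem?_getD, hβ]
    rw [e1]
    change (rA >>> (P.K * P.s * β)) &&& (2 ^ (P.K * P.s) - 1) = _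
    rw [Nat.and_two_pow_sub_one_eq_mod, Nat.shiftRight_eq_div_pow, mul_assoc]
  have hαK : ∀ b < P.n, α b < 2 ^ P.K := fun b hb => lt_of_lt_of_le (hα b hb) hkK
  have hdv : ∀ β < P.nb, ∀ t < P.s,
      dg P.K t (rA / 2 ^ (P.K * (P.s * β)) % 2 ^ (P.K * P.s)) = α (P.s * β + t) := by
    intro β hβ t ht
    have hb : P.s * β + t < P.n := by
      rw [hn]
      have : P.s * (β + 1) ≤ P.s * P.nb := Nat.mul_le_mul_left _ hβ
      rw [mul_add, mul_one] at this
      omega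
    have e1 : dg P.K t (rA / 2 ^ (P.K * (P.s * β)) % 2 ^ (P.K * P.s))
        = dg P.K t (rA / 2 ^ (P.K * (P.s * β))) := by
      unfold dg
      obtain ⟨v, hv⟩ : ∃ v, P.s = t + (1 + v) := ⟨P.s - t - 1, by omega⟩
      rw [hv, mul_add P.K t, pow_add, Nat.mod_mul_right_div_self, mul_add P.K 1, mul_one, pow_add,
        Nat.mod_mul_right_mod]
    rw [e1, dg_div, hrA, dg_pk hαK _ hb]
  rw [eS] at h4
  have hbb : P.nb * (P.s * (2 ^ P.k * 2 ^ P.k)) < 2 ^ P.K := by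
    calc P.nb * (P.s * (2 ^ P.k * 2 ^ P.k)) = P.n * (2 ^ P.k * 2 ^ P.k) := by rw [hn]; ring
      _ ≤ P.n * (2 ^ P.k * 2 ^ P.m) := Nat.mul_le_mul_left _ (Nat.mul_le_mul_left _ hkm')
      _ < 2 ^ P.K := by omega
  have hx : extr P.K P.s P.n (P.s - 1)
      (∑ β ∈ range P.nb, (rA / 2 ^ (P.K * (P.s * β)) % 2 ^ (P.K * P.s)) * ubs.getD β 0)
      = pk (P.K * (2 * P.s)) (P.n + 1) (fun j => ∑ b ∈ range P.n, α b * dU P ubs b j) := by
    rw [extr_dot (C := 2 ^ P.k) hK hs hnb hbb _ (fun β => ubs.getD β 0)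
      (fun β _ => Nat.mod_lt _ (by positivity))
      (fun β hβ t ht => by
        rw [hdv β hβ t ht]
        exact hα _ (by
          rw [hn]
          have : P.s * (β + 1) ≤ P.s * P.nb := Nat.mul_le_mul_left _ hβ
          rw [mul_add, mul_one] at this
          omega)) gU]
    apply pk_congr
    intro j _
    rw [hn, ← sum_blocks]
    apply sum_congr rfl
    intro β hβ
    rw [mem_range] at hβ
    apply sum_congr rfl
    intro t ht
    rw [mem_range] at ht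
    rw [hdv β hβ t ht, dU_block ht]
  have hTe := total_eq hP hkm hlu gU
  simp only [sum_T_U hP] at hTe
  have hQ : 0 < P.K * (2 * P.s) := by positivity
  change extr P.K P.s P.n (P.s - 1) _ + _ + _ = _ at h4
  rw [hx, hT, hTe, extr_blk hK (by omega) (gW β hβ) hr] at h4
  change _ + cn * cst2 (P.K * (2 * P.s)) P.n P.h 1 + cst2 (P.K * (2 * P.s)) P.n P.H 1
    = 1 * _ + cp * cst2 (P.K * (2 * P.s)) P.n P.h 1 + _ at h4
  rw [cst2_eq _ P.n P.H 1 hQ] at h4
  -- bounds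
  have bU : ∀ j < P.n + 1, ∀ b < P.n, dU P ubs b j ≤ 2 ^ P.k := by
    intro j hj b hb
    rcases Nat.lt_succ_iff_lt_or_eq.1 hj with h1 | h1
    · exact le_of_lt (dU_lt hP gU hb h1)
    · rw [h1, dU_top hP gU hb]; omega
  have bC : ∀ j < P.n + 1, ∑ b ∈ range P.n, α b * dU P ubs b j ≤ P.n * (2 ^ P.k * 2 ^ P.m) := by
    intro j hj
    calc _ ≤ ∑ b ∈ range P.n, 2 ^ P.k * 2 ^ P.m := by
          apply sum_le_sum
          intro b hb
          rw [mem_range] at hb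
          exact Nat.mul_le_mul (le_of_lt (hα b hb)) (le_trans (bU j hj b hb) hkm')
      _ = P.n * (2 ^ P.k * 2 ^ P.m) := by simp
  have bT : ∀ j < P.n + 1, 1 * ∑ b ∈ range P.n, dU P ubs b j ≤ P.n * (2 ^ P.k * 2 ^ P.m) := by
    intro j hj
    rw [one_mul]
    calc _ ≤ ∑ b ∈ range P.n, 2 ^ P.k * 2 ^ P.m := by
          apply sum_le_sum
          intro b hb
          rw [mem_range] at hb
          exact le_trans (bU j hj b hb) (Nat.le_mul_of_pos_right _ (by positivity))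
      _ = P.n * (2 ^ P.k * 2 ^ P.m) := by simp
  have bc : ∀ c ≤ P.CB, ∀ j, c * (if j = P.n then 1 else P.h) ≤ P.CB * 2 ^ P.m := by
    intro c hc j
    apply Nat.mul_le_mul hc
    split_ifs <;> omega
  have bW : ∀ j < P.n + 1, bd P.K P.s (wbs.getD β 0) j r ≤ 2 ^ P.m := by
    intro j hj
    rcases Nat.lt_succ_iff_lt_or_eq.1 hj with h1 | h1
    · exact le_of_lt ((gW β hβ).lt j h1 r hr)
    · rw [h1, (gW β hβ).top r hr]; omega
  have hc2 := core2 hQ (fun j hj => by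
      have h1 := bC j hj
      have h2 := bc cn hcn j
      have h3 : (if j = P.n then 1 else P.H) ≤ 2 ^ P.m := by split_ifs <;> omega
      omega) (fun j hj => by
      have h1 := bT j hj
      have h2 := bc cp hcp j
      have h3 := bW j hj
      omega) h4
  intro j hj
  have hj1 := hc2 j (by omega)
  have hn1 := hc2 P.n (by omega)
  simp only [if_pos, if_neg (show j ≠ P.n by omega), one_mul] at hj1 hn1
  have s1 : ∑ b ∈ range P.n, α b * dU P ubs b P.n = ∑ b ∈ range P.n, α b :=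
    sum_congr rfl (fun b hb => by rw [dU_top hP gU (mem_range.1 hb), mul_one])
  have s2 : ∑ b ∈ range P.n, dU P ubs b P.n = P.n := by
    rw [sum_congr rfl (fun b hb => dU_top hP gU (mem_range.1 hb))]
    simp
  rw [s1, s2, (gW β hβ).top r hr] at hn1
  rw [dW_block hr]
  have z1 : (∑ b ∈ range P.n, (α b : ℤ) * dU P ubs b j) + cn * P.h + P.H
      = (∑ b ∈ range P.n, (dU P ubs b j : ℤ)) + cp * P.h + bd P.K P.s (wbs.getD β 0) j r := by
    exact_mod_cast hj1
  have z2 : (∑ b ∈ range P.n, (α b : ℤ)) + cn = P.n + cp := by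
    have : (∑ b ∈ range P.n, α b) + cn = P.n + cp := by omega
    exact_mod_cast this
  have hs' : ∑ b ∈ range P.n, ((α b : ℤ) - 1) * ((dU P ubs b j : ℤ) - P.h)
      = (∑ b ∈ range P.n, (α b : ℤ) * dU P ubs b j) - (∑ b ∈ range P.n, (dU P ubs b j : ℤ))
        - ((∑ b ∈ range P.n, (α b : ℤ)) - P.n) * P.h := by
    have e0 : ((P.n : ℕ) : ℤ) = ∑ b ∈ range P.n, (1 : ℤ) := by simp
    rw [e0, ← sum_sub_distrib, ← sum_sub_distrib, sum_mul, ← sum_sub_distrib]
    exact sum_congr rfl (fun b _ => by ring)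
  rw [hs']
  have z3 : (∑ b ∈ range P.n, (α b : ℤ)) - P.n = cp - cn := by linarith
  rw [z3]
  linarith

/-- soundness of `bRow`. -/
theorem bRow_sound {P : BPar} (hP : P.Ok) {ubs wbs : List ℕ} {T : ℕ} {i rB : ℕ}
    {η : ℕ → ℕ}
    (hlu : ubs.length = P.nb) (hlw : wbs.length = P.nb)
    (gU : ∀ β < P.nb, GB P.K P.s P.n P.k (ubs.getD β 0))
    (gW : ∀ β < P.nb, GB P.K P.s P.n P.m (wbs.getD β 0))
    (hT : T = total P.K P.s P.n wbs)
    (hi : i < P.n)
    (hη : ∀ b < P.n, η b < 2 ^ P.k) (hrB : rB = pk (P.K * (2 * P.s)) P.n η)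
    (h : bRow P ubs wbs T i rB = true) :
    ∀ j < P.n, ∑ a ∈ range P.n, ((dU P ubs a i : ℤ) - P.h) * ((dW P wbs a j : ℤ) - P.H)
      = (η j : ℤ) - 1 := by
  have hP' := hP
  obtain ⟨hn, hs, hnb, hK, hk, hkm, hmK, hh, hH, hbd⟩ := hP'
  have hkK : 2 ^ P.k ≤ 2 ^ P.K := Nat.pow_le_pow_right (by norm_num) (by omega)
  have hkm' : 2 ^ P.k ≤ 2 ^ P.m := Nat.pow_le_pow_right (by norm_num) hkm
  have h1k : 8 ≤ 2 ^ P.k := by
    calc 8 = 2 ^ 3 := by norm_num
      _ ≤ 2 ^ P.k := Nat.pow_le_pow_right (by norm_num) hk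
  have hK2 : 2 ^ P.K ≤ 2 ^ (P.K * (2 * P.s)) :=
    Nat.pow_le_pow_right (by norm_num) (Nat.le_mul_of_pos_right _ (by omega))
  obtain ⟨cp, cn, hcp, hcn, h4⟩ := wideChk_eq h
  have eS : wsum (fun u => Nat.shiftRight (Nat.land u (colmask P.K P.s i))
        (Nat.mul (Nat.mul P.K (Nat.mul 2 P.s)) (Nat.succ i))) ubs wbs
      = ∑ β ∈ range P.nb, (ubs.getD β 0 / 2 ^ ((P.K * (2 * P.s)) * (i + 1)) % 2 ^ (P.K * P.s))
          * wbs.getD β 0 := by
    rw [wsum_eq _ 0 ubs wbs (by rw [hlu, hlw]), hlu]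
    apply sum_congr rfl
    intro β _
    rw [colmask_eq (by omega)]
  have hdv : ∀ β < P.nb, ∀ t < P.s,
      dg P.K t (ubs.getD β 0 / 2 ^ ((P.K * (2 * P.s)) * (i + 1)) % 2 ^ (P.K * P.s))
        = bd P.K P.s (ubs.getD β 0) i t := by
    intro β hβ t ht
    have e1 : dg P.K t (ubs.getD β 0 / 2 ^ ((P.K * (2 * P.s)) * (i + 1)) % 2 ^ (P.K * P.s))
        = dg P.K t (ubs.getD β 0 / 2 ^ ((P.K * (2 * P.s)) * (i + 1))) := by
      unfold dg
      obtain ⟨v, hv⟩ : ∃ v, P.s = t + (1 + v) := ⟨P.s - t - 1, by omega⟩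
      have hv2 : P.K * P.s = P.K * t + (P.K + P.K * v) := by rw [hv]; ring
      rw [hv2, pow_add 2 (P.K * t), Nat.mod_mul_right_div_self, pow_add 2 P.K,
        Nat.mod_mul_right_mod]
    rw [e1]
    unfold bd dg
    rw [Nat.div_div_eq_div_mul, Nat.div_div_eq_div_mul, ← pow_add, ← pow_add]
    congr 3
    ring
  rw [eS] at h4
  have hbb : P.nb * (P.s * (2 ^ P.k * 2 ^ P.m)) < 2 ^ P.K := by
    calc P.nb * (P.s * (2 ^ P.k * 2 ^ P.m)) = P.n * (2 ^ P.k * 2 ^ P.m) := by rw [hn]; ring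
      _ < 2 ^ P.K := by omega
  have hx : extr P.K P.s P.n (P.s - 1)
      (∑ β ∈ range P.nb, (ubs.getD β 0 / 2 ^ ((P.K * (2 * P.s)) * (i + 1)) % 2 ^ (P.K * P.s))
          * wbs.getD β 0)
      = pk (P.K * (2 * P.s)) (P.n + 1)
          (fun j => ∑ a ∈ range P.n, dU P ubs a i * dW P wbs a j) := by
    rw [extr_dot (C := 2 ^ P.k) hK hs hnb hbb _ (fun β => wbs.getD β 0)
      (fun β _ => Nat.mod_lt _ (by positivity))
      (fun β hβ t ht => by
        rw [hdv β hβ t ht]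
        exact (gU β hβ).lt i hi t ht) gW]
    apply pk_congr
    intro j _
    rw [hn, ← sum_blocks]
    apply sum_congr rfl
    intro β hβ
    rw [mem_range] at hβ
    rw [← sum_range_reflect]
    apply sum_congr rfl
    intro t ht
    rw [mem_range] at ht
    rw [hdv β hβ _ (by omega), dU_block ht, dW_block ht]
    congr 2
    omega
  have hTe := total_eq hP (le_refl _) hlw gW
  simp only [sum_T_W hP] at hTe
  have hQ : 0 < P.K * (2 * P.s) := by positivity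
  change extr P.K P.s P.n (P.s - 1) _ + _ + _ = _ at h4
  rw [hx, hT, hTe, hrB] at h4
  change _ + cn * cst2 (P.K * (2 * P.s)) P.n P.H 1 + cst2 (P.K * (2 * P.s)) P.n 1 0
    = P.h * _ + cp * cst2 (P.K * (2 * P.s)) P.n P.H 1 + _ at h4
  have eη : pk (P.K * (2 * P.s)) P.n η
      = pk (P.K * (2 * P.s)) (P.n + 1) (fun j => if j = P.n then 0 else η j) := by
    rw [pk_succ, if_pos rfl, zero_mul, add_zero]
    exact pk_congr (fun j hj => by rw [if_neg (by omega)])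
  rw [cst2_eq _ P.n 1 0 hQ, eη] at h4
  -- bounds
  have bU : ∀ a < P.n, dU P ubs a i ≤ 2 ^ P.k := fun a ha => le_of_lt (dU_lt hP gU ha hi)
  have bW : ∀ j < P.n + 1, ∀ a < P.n, dW P wbs a j ≤ 2 ^ P.m := by
    intro j hj a ha
    rcases Nat.lt_succ_iff_lt_or_eq.1 hj with h1 | h1
    · exact le_of_lt (dW_lt hP gW ha h1)
    · rw [h1, dW_top hP gW ha]; omega
  have bC : ∀ j < P.n + 1, ∑ a ∈ range P.n, dU P ubs a i * dW P wbs a j
      ≤ P.n * (2 ^ P.k * 2 ^ P.m) := by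
    intro j hj
    calc _ ≤ ∑ b ∈ range P.n, 2 ^ P.k * 2 ^ P.m := by
          apply sum_le_sum
          intro b hb
          rw [mem_range] at hb
          exact Nat.mul_le_mul (bU b hb) (bW j hj b hb)
      _ = P.n * (2 ^ P.k * 2 ^ P.m) := by simp
  have bT : ∀ j < P.n + 1, P.h * ∑ b ∈ range P.n, dW P wbs b j ≤ P.n * (2 ^ P.k * 2 ^ P.m) := by
    intro j hj
    rw [mul_sum]
    calc _ ≤ ∑ b ∈ range P.n, 2 ^ P.k * 2 ^ P.m := by
          apply sum_le_sum
          intro b hb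
          rw [mem_range] at hb
          exact Nat.mul_le_mul hh (bW j hj b hb)
      _ = P.n * (2 ^ P.k * 2 ^ P.m) := by simp
  have bc : ∀ c ≤ P.CB, ∀ j, c * (if j = P.n then 1 else P.H) ≤ P.CB * 2 ^ P.m := by
    intro c hc j
    apply Nat.mul_le_mul hc
    split_ifs <;> omega
  have hc2 := core2 hQ (fun j hj => by
      have h1 := bC j hj
      have h2 := bc cn hcn j
      have h3 : (if j = P.n then 0 else 1) ≤ 2 ^ P.m := by split_ifs <;> omega
      omega) (fun j hj => by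
      have h1 := bT j hj
      have h2 := bc cp hcp j
      have h3 : (if j = P.n then 0 else η j) ≤ 2 ^ P.m := by
        split_ifs with h5
        · omega
        · exact le_trans (le_of_lt (hη j (by omega))) hkm'
      omega) h4
  intro j hj
  have hj1 := hc2 j (by omega)
  have hn1 := hc2 P.n (by omega)
  simp only [if_pos, if_neg (show j ≠ P.n by omega)] at hj1 hn1
  have s1 : ∑ b ∈ range P.n, dU P ubs b i * dW P wbs b P.n = ∑ b ∈ range P.n, dU P ubs b i :=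
    sum_congr rfl (fun b hb => by rw [dW_top hP gW (mem_range.1 hb), mul_one])
  have s2 : ∑ b ∈ range P.n, dW P wbs b P.n = P.n := by
    rw [sum_congr rfl (fun b hb => dW_top hP gW (mem_range.1 hb))]
    simp
  rw [s1, s2] at hn1
  have z1 : (∑ b ∈ range P.n, (dU P ubs b i : ℤ) * dW P wbs b j) + cn * P.H + 1
      = P.h * (∑ b ∈ range P.n, (dW P wbs b j : ℤ)) + cp * P.H + η j := by
    exact_mod_cast hj1
  have z2 : (∑ b ∈ range P.n, (dU P ubs b i : ℤ)) + cn = P.h * P.n + cp := by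
    have : (∑ b ∈ range P.n, dU P ubs b i) + cn = P.h * P.n + cp := by omega
    exact_mod_cast this
  have hs' : ∑ b ∈ range P.n, ((dU P ubs b i : ℤ) - P.h) * ((dW P wbs b j : ℤ) - P.H)
      = (∑ b ∈ range P.n, (dU P ubs b i : ℤ) * dW P wbs b j)
        - P.h * (∑ b ∈ range P.n, (dW P wbs b j : ℤ))
        - ((∑ b ∈ range P.n, (dU P ubs b i : ℤ)) - P.h * P.n) * P.H := by
    have e0 : (P.h : ℤ) * P.n = ∑ b ∈ range P.n, (P.h : ℤ) := by simp; ring
    rw [e0, mul_sum, ← sum_sub_distrib, ← sum_sub_distrib, sum_mul, ← sum_sub_distrib]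
    exact sum_congr rfl (fun b _ => by ring)
  rw [hs']
  have z3 : (∑ b ∈ range P.n, (dU P ubs b i : ℤ)) - P.h * P.n = cp - cn := by linarith
  rw [z3]
  linarith

/-- the matrix `U`. -/
def uM (P : BPar) (ubs : List ℕ) : Matrix (Fin P.n) (Fin P.n) ℤ :=
  fun a j => (dU P ubs a j : ℤ) - P.h

/-- **main theorem of the block engine.** -/
theorem main_blocks {P : BPar} (hP : P.Ok) {shs ubs wbs : List ℕ} {TU TW : ℕ}
    {rA rB : ℕ → ℕ} {α η : ℕ → ℕ → ℕ}
    (hlu : ubs.length = P.nb) (hlw : wbs.length = P.nb)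
    (hsh : shs = (List.range P.nb).map (fun β => P.K * P.s * β))
    (gU : ∀ β < P.nb, GB P.K P.s P.n P.k (ubs.getD β 0))
    (gW : ∀ β < P.nb, GB P.K P.s P.n P.m (wbs.getD β 0))
    (hTU : TU = total P.K P.s P.n ubs) (hTW : TW = total P.K P.s P.n wbs)
    (hα : ∀ a < P.n, ∀ b < P.n, α a b < 2 ^ P.k) (hη : ∀ a < P.n, ∀ b < P.n, η a b < 2 ^ P.k)
    (hrA : ∀ a < P.n, rA a = pk P.K P.n (α a))
    (hrB : ∀ a < P.n, rB a = pk (P.K * (2 * P.s)) P.n (η a))
    (hA : ∀ β < P.nb, ∀ r < P.s,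
      aRow P shs ubs TU (wbs.getD β 0) r (rA (P.s * β + r)) = true)
    (hB : ∀ i < P.n, bRow P ubs wbs TW i (rB i) = true)
    (A B : Matrix (Fin P.n) (Fin P.n) ℤ)
    (eA : ∀ i j : Fin P.n, A i j = (α i j : ℤ) - 1) (eB : ∀ i j : Fin P.n, B i j = (η i j : ℤ) - 1) :
    (uM P ubs)ᵀ * A * uM P ubs = B := by
  have hWe : ∀ a < P.n, ∀ j < P.n, ∑ b ∈ range P.n, ((α a b : ℤ) - 1) * ((dU P ubs b j : ℤ) - P.h)
      = (dW P wbs a j : ℤ) - P.H := by
    intro a ha j hj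
    obtain ⟨β, r, hβ, hr, rfl⟩ : ∃ β r, β < P.nb ∧ r < P.s ∧ a = P.s * β + r := by
      have ha' := ha
      rw [hP.hn] at ha'
      have hb := block_idx (by have := hP.hs; omega) ha'
      exact ⟨a / P.s, a % P.s, hb.1, hb.2, (Nat.div_add_mod a P.s).symm⟩
    exact aRow_sound hP hlu hsh gU gW hTU hr hβ (hα _ ha) (hrA _ ha) (hA β hβ r hr) j hj
  ext i j
  rw [Matrix.mul_assoc, Matrix.mul_apply]
  simp only [Matrix.mul_apply, Matrix.transpose_apply, uM]
  rw [eB, ← bRow_sound hP hlu hlw gU gW hTW i.2 (hη i i.2) (hrB i i.2) (hB i i.2) j j.2,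
    Finset.sum_range]
  apply Finset.sum_congr rfl
  intro a _
  congr 1
  rw [← hWe a a.2 j j.2, Finset.sum_range]
  exact Finset.sum_congr rfl (fun b _ => by rw [eA])

end Crest.Agent.R267.EngC_95
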