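import Crest.Agent.R267.EngN_95

/-!
# Term builders for the lists of blocks (helper95)
-/

set_option autoImplicit false

namespace Crest.Agent.R267.EngG_95

open Crest.Agent.R267 Crest.Agent.R267.EngN_95 NL_330

/-- hex digit value -/
def hexVal (c : UInt32) : Nat :=
  if c < 58 then c.toNat - 48 else c.toNat - 87

/-- list literal from nats -/
def mkNatList (l : List Nat) : Lean.Expr :=
  let nat := Lean.mkConst ``Nat
  let nil := Lean.mkApp (Lean.mkConst ``List.nil [Lean.Level.zero]) nat
  l.foldr (fun n e =>
    Lean.mkApp3 (Lean.mkConst ``List.cons [Lean.Level.zero]) nat (Lean.mkRawNatLit n) e) nil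

partial def natArrOf (e : Lean.Expr) (acc : Array Nat) : Array Nat :=
  if e.isAppOfArity ``List.cons 3 then
    match e.getArg! 1 with
    | .lit (.natVal n) => natArrOf (e.getArg! 2) (acc.push n)
    | _ => acc
  else acc

def getNats (id : Lean.TSyntax `ident) : Lean.Elab.Tactic.TacticM (Array Nat) := do
  let nm ← Lean.resolveGlobalConstNoOverload id
  let ci ← Lean.getConstInfo nm
  let some v := ci.value? | throwError "no value"
  pure (natArrOf v #[])

/-- packing by divide and conquer: `∑ c[lo + i] * 2 ^ (Q * i)`, `i < len`. -/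
partial def joinDC (Q : Nat) (c : Array Nat) (lo len : Nat) : Nat :=
  if len == 0 then 0
  else if len == 1 then (c.getD lo 0)
  else
    let h := len / 2
    joinDC Q c lo h + ((joinDC Q c (lo + h) (len - h)) <<< (Q * h))

/-- unpacking by divide and conquer. -/
partial def splitDC (Q : Nat) (p len : Nat) (acc : Array Nat) : Array Nat :=
  if len == 0 then acc
  else if len == 1 then acc.push p
  else
    let h := len / 2
    let hi := p >>> (Q * h)
    splitDC Q hi (len - h) (splitDC Q (p - (hi <<< (Q * h))) h acc)

/-- digits of a row given by a hex string, `hd` hex digits per entry. -/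
def decDigits (hd : Nat) (w : String) : Array Nat := Id.run do
  let mut ds : Array Nat := #[]
  let mut v : Nat := 0
  let mut t : Nat := 0
  for c in w.toList do
    v := v * 16 + hexVal c.val
    t := t + 1
    if t == hd then
      ds := ds.push v
      v := 0
      t := 0
  return ds

def geoC (Q n : Nat) : Nat := (2 ^ (Q * n) - 1) / (2 ^ Q - 1)

/-- block from `s` rows (digit arrays), in the order of the list: row number `t` is digit `t`. -/
def mkBlock (K s n salt : Nat) (rows : Array (Array Nat)) : Nat := Id.run do
  let mut cs : Array Nat := #[]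
  for j in [0:n] do
    let mut c : Nat := 0
    for t in [0:s] do
      c := (c <<< K) + (rows[s - 1 - t]!)[j]!
    cs := cs.push c
  cs := cs.push (geoC K s)
  let Q := K * (2 * s)
  return (joinDC Q cs 0 (n + 1) <<< Q) + salt

/-- `emit_ublocks hd K s n b0 "…"`: blocks number `b0, b0 + 1, …` of `U` (rows reversed). -/
elab "emit_ublocks" hd:num K:num s:num n:num b0:num st:str : tactic => do
  let g ← Lean.Elab.Tactic.getMainGoal
  let rows := ((st.getString.splitOn " ").filter (· ≠ "")).toArray.map (decDigits hd.getNat)
  let s := s.getNat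
  let mut out : Array Nat := #[]
  for b in [0:rows.size / s] do
    let rs := (Array.range s).map (fun t => rows[s * b + (s - 1 - t)]!)
    out := out.push (mkBlock K.getNat s n.getNat (b0.getNat + b + 1) rs)
  g.assign (mkNatList out.toList)

/-- code of a letter for the generator: level, kind, index, position. -/
def codeOf : ℕ × Lt → Nat × Nat × Nat × Nat
  | (k, .S a) => (k, 0, a.val, 0)
  | (k, .O a) => (k, 1, a.val, 0)
  | (k, .X i) => (k, 2, 0, i)
  | (k, .Y a i) => (k, 3, a.val, i)
  | (k, .Z a i) => (k, 4, a.val, i)

def rowEntry (x : RD) (xS xO xA : Array Nat) (y : Nat × Nat × Nat × Nat) : Int :=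
  let (k, t, b, j) := y
  if x.k ≤ k then
    if t == 0 then (xS[b]! : Int) - 1
    else if t == 1 then (xO[b]! : Int) - 1
    else if t == x.tag + 1 ∧ x.i ≤ j ∧ x.tag ≠ 0 then (xA[b]! : Int) - 1
    else 0
  else 0

def wRows (C : Core) (ix : Array (ℕ × Lt)) (ps : Array Nat) (K h H lo hi : Nat) : Array Nat :=
  Id.run do
  let n := ix.size
  let ones := geoC K n
  let cds := ix.map codeOf
  let mut out : Array Nat := #[]
  for a in [lo:hi] do
    let x := rd C (ix.getD a (0, .X 0))
    let xS := x.S.toArray
    let xO := x.O.toArray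
    let xA := x.A.toArray
    let mut acc : Int := 0
    let mut r : Int := 0
    for b in [0:n] do
      let y := cds[b]!
      if x.k ≤ y.1 then
        let e := rowEntry x xS xO xA y
        if e ≠ 0 then
          acc := acc + e * ps[b]!
          r := r + e
    out := out.push ((acc - r * (h * ones) + (H * ones : Nat)).toNat)
  return out

/-- rows of `U` (packed, width `K`, `n` digits) from the blocks. -/
def uRows (K s n : Nat) (bs : Array Nat) : Array Nat := Id.run do
  let Q := K * (2 * s)
  let mut out : Array Nat := #[]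
  for b in bs do
    let cs := splitDC Q (b >>> Q) (n + 1) #[]
    for a in [0:s] do
      let sh := K * (s - 1 - a)
      let ds := (cs.pop).map (fun c => (c >>> sh) % 2 ^ K)
      out := out.push (joinDC K ds 0 n)
  return out

def wBlocks (C : Core) (ix : Array (ℕ × Lt)) (bs : Array Nat) (K s n h H lo hi : Nat) :
    List Nat := Id.run do
  let ps := uRows K s n bs
  let wr := wRows C ix ps K h H (s * lo) (s * hi)
  let mut out : Array Nat := #[]
  for b in [0:hi - lo] do
    let rs := (Array.range s).map (fun t => splitDC K (wr[s * b + t]!) n #[])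
    out := out.push (mkBlock K s n (lo + b + 1) rs)
  return out.toList

/-- `emit_wblocks K s n h H lo hi u1 u2 …`: blocks `lo, …, hi - 1` of `A_g * U`. -/
elab "emit_wblocks" K:num s:num n:num h:num H:num lo:num hi:num ids:ident* : tactic => do
  let g ← Lean.Elab.Tactic.getMainGoal
  let mut bs : Array Nat := #[]
  for id in ids do
    bs := bs ++ (← getNats id)
  g.assign (mkNatList (wBlocks coreG (idx NLb_330.rowsG 15).toArray bs K.getNat s.getNat n.getNat
    h.getNat H.getNat lo.getNat hi.getNat))

/-- total row. -/
def totalC (K s n : Nat) (bs : Array Nat) : Nat :=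
  let Q := K * (2 * s)
  let S := geoC K s * bs.foldl (· + ·) 0
  (S >>> (K * (2 * s + (s - 1)))) &&& ((2 ^ K - 1) * geoC Q (n + 1))

elab "emit_total" K:num s:num n:num ids:ident* : tactic => do
  let g ← Lean.Elab.Tactic.getMainGoal
  let mut bs : Array Nat := #[]
  for id in ids do
    bs := bs ++ (← getNats id)
  g.assign (Lean.mkRawNatLit (totalC K.getNat s.getNat n.getNat bs))

/-- `[0, c, 2 * c, …]`, `n` terms. -/
elab "emit_mult" c:num n:num : tactic => do
  let g ← Lean.Elab.Tactic.getMainGoal
  g.assign (mkNatList ((List.range n.getNat).map (fun j => c.getNat * j)))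

def rdExpr (x : RD) : Lean.Expr :=
  Lean.mkAppN (Lean.mkConst ``RD.mk) #[Lean.mkRawNatLit x.k, mkNatList x.S, mkNatList x.O,
    Lean.mkRawNatLit x.tag, Lean.mkRawNatLit x.i, mkNatList x.A]

def rdListExpr (l : List RD) : Lean.Expr :=
  let ty := Lean.mkConst ``RD
  let nil := Lean.mkApp (Lean.mkConst ``List.nil [Lean.Level.zero]) ty
  l.foldr (fun n e => Lean.mkApp3 (Lean.mkConst ``List.cons [Lean.Level.zero]) ty (rdExpr n) e) nil

elab "emit_rdF" : tactic => do
  let g ← Lean.Elab.Tactic.getMainGoal
  g.assign (rdListExpr ((idx NLb_330.rowsF 15).map (rd coreF)))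

elab "emit_rdG" : tactic => do
  let g ← Lean.Elab.Tactic.getMainGoal
  g.assign (rdListExpr ((idx NLb_330.rowsG 15).map (rd coreG)))

end Crest.Agent.R267.EngG_95
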