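import Crest.Agent.R267.Eng_95

/-!
# Kernel engine for integral congruences: checker and soundness (helper95)

Matrices are given by packed rows: row `a` of `U` is the natural number
`2 ^ (K * n) + ∑ j, (U a j + h) * 2 ^ (K * j)`.
-/

set_option autoImplicit false

namespace Crest.Agent.R267.EngK_95

open Finset Matrix
open Crest.Agent.R267.Eng_95

/-! ### kernel friendly functions (explicit recursors) -/

/-- `∑ f c * p` over the zip of the two lists; zero coefficients are skipped. -/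
noncomputable def wsum {α : Type} (f : α → ℕ) (cs : List α) : List ℕ → ℕ :=
  @List.rec α (fun _ => List ℕ → ℕ) (fun _ => 0)
    (fun c _ ih ps => @List.rec ℕ (fun _ => ℕ) 0
      (fun p ps' _ => @Nat.rec (fun _ => ℕ) (ih ps')
        (fun m _ => Nat.add (Nat.mul (Nat.succ m) p) (ih ps')) (f c)) ps) cs

theorem wsum_nil {α : Type} (f : α → ℕ) (ps : List ℕ) : wsum f [] ps = 0 := rfl

theorem wsum_cons {α : Type} (f : α → ℕ) (c : α) (cs : List α) (p : ℕ) (ps : List ℕ) :
    wsum f (c :: cs) (p :: ps) = f c * p + wsum f cs ps := by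
  have h : wsum f (c :: cs) (p :: ps) = @Nat.rec (fun _ => ℕ) (wsum f cs ps)
        (fun m _ => Nat.add (Nat.mul (Nat.succ m) p) (wsum f cs ps)) (f c) := rfl
  rw [h]
  cases hc : f c with
  | zero => simp
  | succ m => rfl

theorem wsum_eq {α : Type} (f : α → ℕ) (d : α) (cs : List α) (ps : List ℕ)
    (h : cs.length = ps.length) :
    wsum f cs ps = ∑ b ∈ range cs.length, f (cs.getD b d) * ps.getD b 0 := by
  induction cs generalizing ps with
  | nil => simp [wsum_nil]
  | cons c cs ih =>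
    cases ps with
    | nil => simp at h
    | cons p ps =>
      rw [wsum_cons, ih ps (by simpa using h), List.length_cons, sum_range_succ']
      simp [add_comm]

/-- list map with an explicit recursor. -/
noncomputable def lmap {α β : Type} (f : α → β) (l : List α) : List β :=
  @List.rec α (fun _ => List β) [] (fun a _ ih => f a :: ih) l

theorem lmap_eq {α β : Type} (f : α → β) (l : List α) : lmap f l = l.map f := by
  induction l with
  | nil => rfl
  | cons a l ih => simp only [List.map_cons, ← ih]; rfl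

/-- `n`-th element with default. -/
noncomputable def nth {α : Type} (d : α) (l : List α) : ℕ → α :=
  @List.rec α (fun _ => ℕ → α) (fun _ => d)
    (fun a _ ih i => @Nat.rec (fun _ => α) a (fun m _ => ih m) i) l

theorem nth_eq {α : Type} (d : α) (l : List α) (i : ℕ) : nth d l i = l.getD i d := by
  induction l generalizing i with
  | nil => rfl
  | cons a l ih =>
    cases i with
    | zero => rfl
    | succ i => rw [List.getD_cons_succ, ← ih]; rfl

/-- boolean `and` with an explicit recursor. -/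
noncomputable def band (a b : Bool) : Bool := @Bool.rec (fun _ => Bool) false b a

theorem band_eq {a b : Bool} : band a b = true ↔ a = true ∧ b = true := by
  cases a <;> simp [band]

/-- `∀ x ∈ l, f x`. -/
noncomputable def lall {α : Type} (f : α → Bool) (l : List α) : Bool :=
  @List.rec α (fun _ => Bool) true (fun a _ ih => band (f a) ih) l

theorem lall_eq {α : Type} (f : α → Bool) (l : List α) :
    lall f l = true ↔ ∀ x ∈ l, f x = true := by
  induction l with
  | nil => simp [lall]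
  | cons a l ih =>
    have : lall f (a :: l) = band (f a) (lall f l) := rfl
    rw [this, band_eq, ih]
    simp

/-! ### constants -/

/-- the packed row `(e, e, …, e; 1)` with `n + 1` digits. -/
def cst (K n e : ℕ) : ℕ := Nat.add (Nat.mul e (Nat.div (Nat.pow 2 (Nat.mul K n) - 1) (Nat.pow 2 K - 1)))
  (Nat.pow 2 (Nat.mul K n))

theorem pk_const (K n e : ℕ) (hK : 0 < K) :
    pk K n (fun _ => e) = e * ((2 ^ (K * n) - 1) / (2 ^ K - 1)) := by
  have h2 : 2 ≤ 2 ^ K := by
    calc 2 = 2 ^ 1 := rfl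
      _ ≤ 2 ^ K := Nat.pow_le_pow_right (by norm_num) hK
  have key : ∀ m, pk K m (fun _ => 1) * (2 ^ K - 1) = 2 ^ (K * m) - 1 := by
    intro m
    induction m with
    | zero => simp [pk]
    | succ m ih =>
      rw [pk_succ, add_mul, ih, one_mul, mul_add K m 1, mul_one, pow_add]
      have h1 : 1 ≤ 2 ^ (K * m) := Nat.one_le_two_pow
      have h3 : 2 ^ (K * m) * (2 ^ K - 1) = 2 ^ (K * m) * 2 ^ K - 2 ^ (K * m) := by
        rw [Nat.mul_sub, mul_one]
      rw [h3]
      have h4 : 2 ^ (K * m) ≤ 2 ^ (K * m) * 2 ^ K := Nat.le_mul_of_pos_right _ (by positivity)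
      omega
  have e1 : pk K n (fun _ => e) = e * pk K n (fun _ => 1) := by
    rw [← pk_smul]; simp
  rw [e1]
  congr 1
  rw [← key n, Nat.mul_div_cancel _ (by omega)]

theorem cst_eq (K n e : ℕ) (hK : 0 < K) :
    cst K n e = pk K (n + 1) (fun j => if j = n then 1 else e) := by
  rw [pk_succ]
  have h1 : pk K n (fun j => if j = n then 1 else e) = pk K n (fun _ => e) :=
    pk_congr (fun j hj => by rw [if_neg (by omega)])
  rw [h1, pk_const K n e hK, if_pos rfl, one_mul]
  rfl

/-! ### good rows -/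

/-- `p` is a packed row with `n` digits `< 2 ^ m` and top digit `1`. -/
def Good (K n m p : ℕ) : Prop :=
  p < 2 ^ (K * (n + 1)) ∧ (∀ j < n, dg K j p < 2 ^ m) ∧ dg K n p = 1

theorem dg_pk {K N : ℕ} {f : ℕ → ℕ} (h : ∀ j < N, f j < 2 ^ K) (j : ℕ) (hj : j < N) :
    dg K j (pk K N f) = f j :=
  pk_inj (fun j _ => dg_lt K j _) h (pk_dg K N _ (pk_lt h)) j hj

/-- kernel check for `Good`. -/
noncomputable def goodB (K n mask p : ℕ) : Bool :=
  band (Nat.beq (Nat.land p mask) p) (Nat.beq (Nat.shiftRight p (Nat.mul K n)) 1)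

theorem dg_land (K j p q : ℕ) : dg K j (p &&& q) = dg K j p &&& dg K j q := by
  unfold dg
  rw [Nat.and_div_two_pow, Nat.and_mod_two_pow]

theorem good_of {K n m p : ℕ} (hK : 0 < K) (hm : m ≤ K)
    (h : goodB K n (cst K n (2 ^ m - 1)) p = true) : Good K n m p := by
  rw [goodB, band_eq, Nat.beq_eq, Nat.beq_eq] at h
  obtain ⟨h1, h2⟩ := h
  change p &&& cst K n (2 ^ m - 1) = p at h1
  change p >>> (K * n) = 1 at h2
  have hmK : 2 ^ m ≤ 2 ^ K := Nat.pow_le_pow_right (by norm_num) hm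
  have h2K : 2 ≤ 2 ^ K := by
    calc 2 = 2 ^ 1 := rfl
      _ ≤ 2 ^ K := Nat.pow_le_pow_right (by norm_num) hK
  have hm1 : 1 ≤ 2 ^ m := Nat.one_le_two_pow
  have hdig : ∀ j < n + 1, (fun j => if j = n then 1 else 2 ^ m - 1) j < 2 ^ K := by
    intro j _
    dsimp only
    split_ifs <;> omega
  refine ⟨?_, ?_, ?_⟩
  · have : p ≤ cst K n (2 ^ m - 1) := by
      conv_lhs => rw [← h1]
      exact Nat.and_le_right
    rw [cst_eq K n _ hK] at this
    exact lt_of_le_of_lt this (pk_lt hdig)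
  · intro j hj
    rw [← h1, dg_land, cst_eq K n _ hK, dg_pk hdig j (by omega)]
    simp only [if_neg (show j ≠ n by omega)]
    rw [Nat.and_two_pow_sub_one_eq_mod]
    exact Nat.mod_lt _ (by positivity)
  · unfold dg
    rw [Nat.shiftRight_eq_div_pow] at h2
    rw [h2]
    exact Nat.mod_eq_of_lt (by omega)

/-! ### the packed identity -/

theorem core {K n N M C e cp cn CB : ℕ} {pos neg : ℕ → ℕ} {ρ : ℕ → ℕ → ℕ} {ξ η : ℕ → ℕ}
    (hρ : ∀ b < N, ∀ j ≤ n, ρ b j < M) (hρn : ∀ b < N, ρ b n = 1)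
    (hpos : ∀ b < N, pos b < C) (hneg : ∀ b < N, neg b < C)
    (hξ : ∀ j ≤ n, ξ j < M) (hη : ∀ j ≤ n, η j < M) (hξη : ξ n = η n)
    (he : e < M) (hcp : cp ≤ CB) (hcn : cn ≤ CB)
    (hb : N * (C * M) + CB * M + M ≤ 2 ^ K)
    (h : ∑ b ∈ range N, pos b * pk K (n + 1) (ρ b)
          + cn * pk K (n + 1) (fun j => if j = n then 1 else e) + pk K (n + 1) ξ
        = ∑ b ∈ range N, neg b * pk K (n + 1) (ρ b)
          + cp * pk K (n + 1) (fun j => if j = n then 1 else e) + pk K (n + 1) η) :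
    ∀ j < n, ∑ b ∈ range N, ((pos b : ℤ) - neg b) * ((ρ b j : ℤ) - e) + ξ j = η j := by
  have M1 : 1 ≤ M := by have := hξ 0 (Nat.zero_le _); omega
  have hb1 : ∀ (x : ℕ → ℕ) (c : ℕ) (ζ : ℕ → ℕ), (∀ b < N, x b < C) → c ≤ CB →
      (∀ j ≤ n, ζ j < M) → ∀ j < n + 1,
      ∑ b ∈ range N, x b * ρ b j + c * (if j = n then 1 else e) + ζ j < 2 ^ K := by
    intro x c ζ hx hc hζ j hj
    have h1 : ∑ b ∈ range N, x b * ρ b j ≤ ∑ b ∈ range N, C * M :=
      sum_le_sum (fun b hb => Nat.mul_le_mul (le_of_lt (hx b (mem_range.1 hb)))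
        (le_of_lt (hρ b (mem_range.1 hb) j (by omega))))
    rw [sum_const, card_range, smul_eq_mul] at h1
    have h2 : c * (if j = n then 1 else e) ≤ CB * M := by
      apply Nat.mul_le_mul hc
      split_ifs <;> omega
    have h3 := hζ j (by omega)
    omega
  have e1 : ∀ (x : ℕ → ℕ) (c : ℕ) (ζ : ℕ → ℕ),
      ∑ b ∈ range N, x b * pk K (n + 1) (ρ b)
          + c * pk K (n + 1) (fun j => if j = n then 1 else e) + pk K (n + 1) ζ
        = pk K (n + 1) (fun j => ∑ b ∈ range N, x b * ρ b j + c * (if j = n then 1 else e) + ζ j) := by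
    intro x c ζ
    rw [pk_add, pk_add, pk_smul, pk_sum]
    congr 2
    exact sum_congr rfl (fun b _ => (pk_smul K (n + 1) (x b) (ρ b)).symm)
  rw [e1, e1] at h
  have hinj := pk_inj (hb1 pos cn ξ hpos hcn hξ) (hb1 neg cp η hneg hcp hη) h
  intro j hj
  have hj1 := hinj j (by omega)
  have hn1 := hinj n (by omega)
  rw [if_pos rfl] at hn1
  rw [if_neg (by omega)] at hj1
  rw [hξη] at hn1
  have s1 : ∑ b ∈ range N, pos b * ρ b n = ∑ b ∈ range N, pos b :=
    sum_congr rfl (fun b hb => by rw [hρn b (mem_range.1 hb), mul_one])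
  have s2 : ∑ b ∈ range N, neg b * ρ b n = ∑ b ∈ range N, neg b :=
    sum_congr rfl (fun b hb => by rw [hρn b (mem_range.1 hb), mul_one])
  rw [s1, s2] at hn1
  have hn2 : ∑ b ∈ range N, (pos b : ℤ) - ∑ b ∈ range N, (neg b : ℤ) = cp - cn := by
    have : ((∑ b ∈ range N, pos b + cn * 1 + η n : ℕ) : ℤ)
        = ((∑ b ∈ range N, neg b + cp * 1 + η n : ℕ) : ℤ) := by rw [hn1]
    push_cast at this
    linarith
  have hj2 : ∑ b ∈ range N, (pos b : ℤ) * ρ b j + cn * e + ξ j
      = ∑ b ∈ range N, (neg b : ℤ) * ρ b j + cp * e + η j := by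
    exact_mod_cast hj1
  have hs : ∑ b ∈ range N, ((pos b : ℤ) - neg b) * ((ρ b j : ℤ) - e)
      = (∑ b ∈ range N, (pos b : ℤ) * ρ b j - ∑ b ∈ range N, (neg b : ℤ) * ρ b j)
        - (∑ b ∈ range N, (pos b : ℤ) - ∑ b ∈ range N, (neg b : ℤ)) * e := by
    rw [← sum_sub_distrib, ← sum_sub_distrib, sum_mul, ← sum_sub_distrib]
    exact sum_congr rfl (fun b _ => by ring)
  rw [hs, hn2]
  linarith

end Crest.Agent.R267.EngK_95
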