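import Crest.Agent.R267.EngC_95
import Crest.Agent.R267.NLb_330

/-!
# Packed rows of the nested-level matrices (helper95)

`rowN Q ds x` is the packed row (width `Q`, entries `+ 1`) of the nested-level matrix, computed with
few operations on big numbers; `rowN_eq` is its correctness.
-/

set_option autoImplicit false

namespace Crest.Agent.R267.EngN_95

open Finset
open Crest.Agent.R267 Crest.Agent.R267.Eng_95 Crest.Agent.R267.EngK_95 Crest.Agent.R267.EngB_95

/-! ### packed lists -/

/-- little endian packing of a list. -/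
noncomputable def pkL (Q : ℕ) (l : List ℕ) : ℕ :=
  @List.rec ℕ (fun _ => ℕ) 0 (fun a _ ih => Nat.add a (Nat.mul (Nat.pow 2 Q) ih)) l

theorem pkL_nil (Q : ℕ) : pkL Q [] = 0 := rfl

theorem pkL_cons (Q a : ℕ) (l : List ℕ) : pkL Q (a :: l) = a + 2 ^ Q * pkL Q l := rfl

theorem pkL_eq (Q : ℕ) (l : List ℕ) (n : ℕ) (h : l.length = n) :
    pkL Q l = pk Q n (fun j => l.getD j 0) := by
  induction l generalizing n with
  | nil => subst h; simp [pkL_nil, pk]
  | cons a l ih =>
    subst h
    rw [pkL_cons, ih l.length rfl, List.length_cons, add_comm l.length 1, pk_add_len]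
    have e1 : pk Q 1 (fun j => (a :: l).getD j 0) = a := by simp [pk]
    rw [e1, mul_one]
    congr 2
    apply pk_congr
    intro j _
    rw [add_comm 1 j]
    rfl

theorem pkL_append (Q : ℕ) (l l' : List ℕ) :
    pkL Q (l ++ l') = pkL Q l + 2 ^ (Q * l.length) * pkL Q l' := by
  induction l with
  | nil => simp [pkL_nil]
  | cons a l ih =>
    rw [List.cons_append, pkL_cons, pkL_cons, ih, List.length_cons, mul_add Q, mul_one, pow_add]
    ring

theorem pkL_ones (Q n : ℕ) (hQ : 0 < Q) : pkL Q (List.replicate n 1) = geo Q n := by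
  rw [pkL_eq Q _ n (by simp), ← geo_eq Q n hQ]
  apply pk_congr
  intro j hj
  simp [List.getD_eq_getElem?_getD, hj]

theorem geo_zero (Q : ℕ) (hQ : 0 < Q) : geo Q 0 = 0 := by
  rw [← geo_eq Q 0 hQ, pk_zero]

theorem geo_succ' (Q n : ℕ) (hQ : 0 < Q) : geo Q (n + 1) = 1 + 2 ^ Q * geo Q n := by
  rw [← geo_eq Q (n + 1) hQ, ← geo_eq Q n hQ, add_comm n 1, pk_add_len]
  simp [pk]

/-- a run of `len` copies of lists of length `w`: first `B`, from position `i` on `A`. -/
theorem pkL_run (Q w : ℕ) (hQ : 0 < Q) (hw : 0 < w) (A B : List ℕ) (hA : A.length = w)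
    (hB : B.length = w) (i : ℕ) : ∀ len s : ℕ,
    pkL Q ((List.range' s len).flatMap (fun j => if i ≤ j then A else B))
      = geo (Q * w) (min (i - s) len) * pkL Q B
        + 2 ^ (Q * w * min (i - s) len) * (geo (Q * w) (len - min (i - s) len) * pkL Q A) := by
  have hQw : 0 < Q * w := by positivity
  intro len
  induction len with
  | zero =>
    intro s
    simp [pkL_nil, geo_zero _ hQw]
  | succ len ih =>
    intro s
    rw [List.range'_succ, List.flatMap_cons, pkL_append, ih (s + 1)]
    by_cases h : i ≤ s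
    · have e1 : min (i - s) (len + 1) = 0 := by omega
      have e2 : min (i - (s + 1)) len = 0 := by omega
      rw [if_pos h, e1, e2, geo_zero _ hQw, hA]
      simp only [zero_mul, mul_zero, pow_zero, one_mul, zero_add, Nat.sub_zero]
      rw [geo_succ' _ _ hQw]
      ring
    · have e1 : min (i - s) (len + 1) = min (i - (s + 1)) len + 1 := by omega
      have e2 : len + 1 - (min (i - (s + 1)) len + 1) = len - min (i - (s + 1)) len := by omega
      rw [if_neg h, e1, e2, hB, geo_succ' _ _ hQw, mul_add (Q * w) _ 1, mul_one, pow_add]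
      ring

theorem flatMap_ones (w : ℕ) : ∀ len s : ℕ,
    (List.range' s len).flatMap (fun _ => List.replicate w 1) = List.replicate (len * w) 1 := by
  intro len
  induction len with
  | zero => intro s; simp
  | succ len ih =>
    intro s
    rw [List.range'_succ, List.flatMap_cons, ih, ← List.replicate_add]
    congr 1
    ring

/-! ### rows of the nested-level matrices -/

open NL_330

/-- the value `L₀(u, v) + 1` as a natural number. -/
def val (C : Core) (u v : Lt) : ℕ := (L0 C u v + 1).toNat

/-- row data. -/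
structure RD where
  k : ℕ
  S : List ℕ
  O : List ℕ
  tag : ℕ
  i : ℕ
  A : List ℕ
  deriving DecidableEq, Inhabited

def tagOf : Lt → ℕ
  | .S _ => 0
  | .O _ => 0
  | .X _ => 1
  | .Y _ _ => 2
  | .Z _ _ => 3

def posOf : Lt → ℕ
  | .S _ => 0
  | .O _ => 0
  | .X i => i
  | .Y _ i => i
  | .Z _ i => i

def armOf : Lt → List ℕ
  | .S _ => []
  | .O _ => []
  | .X _ => [2]
  | .Y a _ => (List.finRange 6).map (fun b => (LP a b + 1).toNat)
  | .Z a _ => (List.finRange 6).map (fun b => (LP a b + 1).toNat)

def rd (C : Core) (x : ℕ × Lt) : RD where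
  k := x.1
  S := (List.finRange 6).map (fun b => val C x.2 (.S b))
  O := (List.finRange 6).map (fun b => val C x.2 (.O b))
  tag := tagOf x.2
  i := posOf x.2
  A := armOf x.2

/-- an arm part of a row: `len` groups of width `w`. -/
noncomputable def armN (Q t w len : ℕ) (x : RD) : ℕ :=
  @Bool.rec (fun _ => ℕ) (geo Q (Nat.mul w len))
    (Nat.add (geo Q (Nat.mul w (Nat.min (Nat.pred x.i) len)))
      (Nat.mul (Nat.pow 2 (Nat.mul Q (Nat.mul w (Nat.min (Nat.pred x.i) len))))
        (Nat.mul (geo (Nat.mul Q w) (Nat.sub len (Nat.min (Nat.pred x.i) len))) (pkL Q x.A))))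
    (Nat.beq x.tag t)

/-- description of a level: level, lengths of the three arms. -/
structure LD where
  k : ℕ
  p : ℕ
  q : ℕ
  r : ℕ
  deriving DecidableEq, Inhabited

/-- one level of a row. -/
noncomputable def segN (Q : ℕ) (d : LD) (x : RD) : ℕ :=
  @Bool.rec (fun _ => ℕ)
    (geo Q (Nat.add 12 (Nat.add d.p (Nat.add (Nat.mul 6 d.q) (Nat.mul 6 d.r)))))
    (Nat.add (pkL Q x.S) (Nat.mul (Nat.pow 2 (Nat.mul Q 6))
      (Nat.add (pkL Q x.O) (Nat.mul (Nat.pow 2 (Nat.mul Q 6))
        (Nat.add (armN Q 1 1 d.p x) (Nat.mul (Nat.pow 2 (Nat.mul Q d.p))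
          (Nat.add (armN Q 2 6 d.q x) (Nat.mul (Nat.pow 2 (Nat.mul Q (Nat.mul 6 d.q)))
            (armN Q 3 6 d.r x)))))))))
    (Nat.ble x.k d.k)

/-- the packed row. -/
noncomputable def rowN (Q : ℕ) (ds : List LD) (x : RD) : ℕ :=
  @List.rec LD (fun _ => ℕ) 0
    (fun d _ ih => Nat.add (segN Q d x)
      (Nat.mul (Nat.pow 2 (Nat.mul Q
        (Nat.add 12 (Nat.add d.p (Nat.add (Nat.mul 6 d.q) (Nat.mul 6 d.r)))))) ih)) ds

/-- row of a letter, as a list: part of one level. -/
def segL (C : Core) (R : Rows) (k : ℕ) (x : ℕ × Lt) : List ℕ :=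
  (lets R k).map (fun v => (ent C x (k, v) + 1).toNat)

theorem val_XO (C : Core) (u : Lt) (j : ℕ) : val C u (.X j) = if tagOf u = 1 ∧ posOf u ≤ j then 2 else 1 := by
  cases u <;> simp [val, L0, tagOf, posOf]
  split_ifs <;> rfl

theorem replicate_six (f : Fin 6 → ℕ) (h : ∀ b, f b = 1) :
    (List.finRange 6).map f = List.replicate 6 1 := by
  have : f = fun _ => 1 := funext h
  rw [this]
  rfl

theorem seg_X (C : Core) (Q : ℕ) (hQ : 0 < Q) (len : ℕ) (k : ℕ) (u : Lt) (hu : tagOf u ≠ 0 → 1 ≤ posOf u) :
    pkL Q ((List.range' 1 len).map (fun j => val C u (.X j))) = armN Q 1 1 len (rd C (k, u)) := by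
  have e1 : (List.range' 1 len).map (fun j => val C u (.X j))
      = (List.range' 1 len).flatMap (fun j => if tagOf u = 1 ∧ posOf u ≤ j then [2] else [1]) := by
    rw [List.flatMap_def]
    have : ∀ l : List ℕ, (l.map (fun j => val C u (.X j)))
        = (l.map (fun j => if tagOf u = 1 ∧ posOf u ≤ j then [2] else [1])).flatten := by
      intro l
      induction l with
      | nil => rfl
      | cons a l ih =>
        rw [List.map_cons, List.map_cons, List.flatten_cons, ← ih, val_XO]
        split_ifs <;> rfl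
    exact this _
  rw [e1]
  unfold armN
  by_cases h : tagOf u = 1
  · have hb : Nat.beq (rd C (k, u)).tag 1 = true := by
      rw [Nat.beq_eq]; exact h
    rw [hb]
    have hi := hu (by omega)
    have hA : (rd C (k, u)).A = [2] := by
      cases u <;> simp [tagOf] at h
      rfl
    simp only [h, true_and]
    rw [pkL_run Q 1 hQ (by norm_num) [2] [1] rfl rfl]
    have e2 : posOf u - 1 = Nat.pred (rd C (k, u)).i := rfl
    rw [e2, hA]
    change _ = geo Q (1 * min (Nat.pred (rd C (k, u)).i) len)
      + 2 ^ (Q * (1 * min (Nat.pred (rd C (k, u)).i) len))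
        * (geo (Q * 1) (len - min (Nat.pred (rd C (k, u)).i) len) * pkL Q [2])
    simp [pkL_cons, pkL_nil]
  · have hb : Nat.beq (rd C (k, u)).tag 1 = false := by
      rw [← Bool.not_eq_true, Nat.beq_eq]; exact h
    rw [hb]
    simp only [h, false_and, if_false]
    have := flatMap_ones 1 len 1
    rw [show List.replicate 1 1 = [1] from rfl] at this
    rw [this, pkL_ones Q _ hQ, mul_comm]
    rfl

theorem seg_YZ (C : Core) (Q : ℕ) (hQ : 0 < Q) (len : ℕ) (k : ℕ) (u : Lt)
    (hu : tagOf u ≠ 0 → 1 ≤ posOf u) (t : ℕ) (F : Fin 6 → ℕ → Lt)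
    (hF1 : tagOf u = t → ∀ j, (List.finRange 6).map (fun b => val C u (F b j))
      = if posOf u ≤ j then armOf u else List.replicate 6 1)
    (hF0 : tagOf u ≠ t → ∀ b j, val C u (F b j) = 1) (ht : t ≠ 0)
    (hA : tagOf u = t → (armOf u).length = 6) :
    pkL Q ((List.range' 1 len).flatMap (fun j => (List.finRange 6).map (fun b => val C u (F b j))))
      = armN Q t 6 len (rd C (k, u)) := by
  unfold armN
  by_cases h : tagOf u = t
  · have hb : Nat.beq (rd C (k, u)).tag t = true := by
      rw [Nat.beq_eq]; exact h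
    rw [hb]
    have hi := hu (by omega)
    simp only [hF1 h]
    rw [pkL_run Q 6 hQ (by norm_num) (armOf u) (List.replicate 6 1) (hA h) (by simp),
      pkL_ones Q 6 hQ]
    have hg : ∀ m, geo (Q * 6) m * geo Q 6 = geo Q (6 * m) := by
      intro m
      rw [← geo_eq (Q * 6) m (by positivity), mul_comm, ← pk_smul, mul_one, ← geo_eq Q 6 hQ,
        ← geo_eq Q (6 * m) hQ]
      exact pk_pk Q 6 m (fun _ _ => 1)
    rw [hg]
    have e2 : posOf u - 1 = Nat.pred (rd C (k, u)).i := rfl
    rw [e2, mul_assoc Q 6]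
    rfl
  · have hb : Nat.beq (rd C (k, u)).tag t = false := by
      rw [← Bool.not_eq_true, Nat.beq_eq]; exact h
    rw [hb]
    have e1 : (fun j => (List.finRange 6).map (fun b => val C u (F b j)))
        = fun _ : ℕ => List.replicate 6 1 := by
      funext j
      exact replicate_six _ (fun b => hF0 h b j)
    rw [e1, flatMap_ones, pkL_ones Q _ hQ, mul_comm]
    rfl

theorem length_lets (R : Rows) (k : ℕ) : (lets R k).length
    = 12 + ((at1 R.p k - 1) + (6 * (at1 R.q k - 1) + 6 * (at1 R.r k - 1))) := by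
  unfold lets
  simp [List.length_flatMap]
  ring

theorem segN_eq (C : Core) (R : Rows) (Q : ℕ) (hQ : 0 < Q) (d : LD)
    (hp : d.p = at1 R.p d.k - 1) (hq : d.q = at1 R.q d.k - 1) (hr : d.r = at1 R.r d.k - 1)
    (x : ℕ × Lt) (hx : tagOf x.2 ≠ 0 → 1 ≤ posOf x.2) :
    segN Q d (rd C x) = pkL Q (segL C R d.k x) := by
  obtain ⟨k, u⟩ := x
  unfold segN segL
  by_cases h : k ≤ d.k
  · have hb : Nat.ble (rd C (k, u)).k d.k = true := by
      rw [Nat.ble_eq]; exact h
    rw [hb]
    have e0 : (fun v => (ent C (k, u) (d.k, v) + 1).toNat) = fun v => val C u v := by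
      funext v
      simp only [ent, val, if_pos h]
    rw [e0]
    unfold lets
    rw [List.map_append, List.map_append, List.map_append, List.map_append, List.map_flatMap,
      List.map_flatMap, List.map_map, List.map_map, List.map_map]
    simp only [List.map_map]
    rw [pkL_append, pkL_append, pkL_append, pkL_append]
    have lS : ((List.finRange 6).map ((fun v => val C u v) ∘ Lt.S)).length = 6 := by simp
    have lO : ((List.finRange 6).map ((fun v => val C u v) ∘ Lt.O)).length = 6 := by simp
    have lX : ((List.range' 1 (at1 R.p d.k - 1)).map ((fun v => val C u v) ∘ Lt.X)).length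
        = d.p := by simp [hp]
    have lY : ((List.range' 1 (at1 R.q d.k - 1)).flatMap (fun i =>
        (List.finRange 6).map ((fun v => val C u v) ∘ fun a => Lt.Y a i))).length = 6 * d.q := by
      simp [List.length_flatMap, hq]
      ring
    rw [lS, lO, lX, lY]
    have eX := seg_X C Q hQ (at1 R.p d.k - 1) k u hx
    have eY := seg_YZ C Q hQ (at1 R.q d.k - 1) k u hx 2 (fun a i => Lt.Y a i)
      (by
        intro ht j
        cases u <;> simp [tagOf] at ht
        rename_i a i
        by_cases hij : i ≤ j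
        · rw [if_pos (show posOf (Lt.Y a i) ≤ j from hij)]
          simp only [val, L0, if_pos hij, armOf]
        · rw [if_neg (show ¬ posOf (Lt.Y a i) ≤ j from hij)]
          apply replicate_six
          intro b
          simp only [val, L0, if_neg hij]
          rfl)
      (by
        intro ht b j
        cases u <;> first | rfl | (exfalso; exact ht rfl))
      (by norm_num)
      (by
        intro ht
        cases u <;> simp [tagOf] at ht
        simp [armOf])
    have eZ := seg_YZ C Q hQ (at1 R.r d.k - 1) k u hx 3 (fun a i => Lt.Z a i)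
      (by
        intro ht j
        cases u <;> simp [tagOf] at ht
        rename_i a i
        by_cases hij : i ≤ j
        · rw [if_pos (show posOf (Lt.Z a i) ≤ j from hij)]
          simp only [val, L0, if_pos hij, armOf]
        · rw [if_neg (show ¬ posOf (Lt.Z a i) ≤ j from hij)]
          apply replicate_six
          intro b
          simp only [val, L0, if_neg hij]
          rfl)
      (by
        intro ht b j
        cases u <;> first | rfl | (exfalso; exact ht rfl))
      (by norm_num)
      (by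
        intro ht
        cases u <;> simp [tagOf] at ht
        simp [armOf])
    rw [← hp] at eX
    rw [← hq] at eY
    rw [← hr] at eZ
    rw [← hp, ← hq, ← hr]
    change pkL Q (rd C (k, u)).S + 2 ^ (Q * 6) * (pkL Q (rd C (k, u)).O + 2 ^ (Q * 6) *
      (armN Q 1 1 d.p (rd C (k, u)) + 2 ^ (Q * d.p) * (armN Q 2 6 d.q (rd C (k, u))
        + 2 ^ (Q * (6 * d.q)) * armN Q 3 6 d.r (rd C (k, u))))) = _
    rw [← eX, ← eY, ← eZ]
    rfl
  · have hb : Nat.ble (rd C (k, u)).k d.k = false := by
      rw [← Bool.not_eq_true, Nat.ble_eq]; exact h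
    rw [hb]
    have e0 : (fun v => (ent C (k, u) (d.k, v) + 1).toNat) = fun _ => 1 := by
      funext v
      simp only [ent, if_neg h]
      rfl
    rw [e0, List.map_const', pkL_ones Q _ hQ, length_lets, ← hp, ← hq, ← hr]
    rfl

/-- the level descriptions match the staircases. -/
def LDok (R : Rows) (d : LD) : Prop :=
  d.p = at1 R.p d.k - 1 ∧ d.q = at1 R.q d.k - 1 ∧ d.r = at1 R.r d.k - 1

instance (R : Rows) (d : LD) : Decidable (LDok R d) := by unfold LDok; infer_instance

theorem rowN_list (C : Core) (R : Rows) (Q : ℕ) (hQ : 0 < Q) (ds : List LD)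
    (hds : ∀ d ∈ ds, LDok R d) (x : ℕ × Lt) (hx : tagOf x.2 ≠ 0 → 1 ≤ posOf x.2) :
    rowN Q ds (rd C x) = pkL Q (ds.flatMap (fun d => segL C R d.k x)) := by
  induction ds with
  | nil => rfl
  | cons d ds ih =>
    have hd := hds d (by simp)
    have e : rowN Q (d :: ds) (rd C x) = segN Q d (rd C x)
        + 2 ^ (Q * (12 + (d.p + (6 * d.q + 6 * d.r)))) * rowN Q ds (rd C x) := rfl
    rw [e, ih (fun d hd => hds d (by simp [hd])), segN_eq C R Q hQ d hd.1 hd.2.1 hd.2.2 x hx,
      List.flatMap_cons, pkL_append]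
    congr 3
    rw [segL, List.length_map, length_lets, ← hd.1, ← hd.2.1, ← hd.2.2]

/-- **packed rows of the nested-level matrix.** -/
theorem rowN_eq (C : Core) (R : Rows) (dd : ℕ) (Q : ℕ) (hQ : 0 < Q) (ds : List LD)
    (hds : ∀ d ∈ ds, LDok R d) (hk : ds.map LD.k = List.range' 2 (dd - 1)) (n : ℕ)
    (hn : (idx R dd).length = n) (x : ℕ × Lt) (hx : x ∈ idx R dd) :
    rowN Q ds (rd C x) = pk Q n (fun j => (ent C x ((idx R dd).getD j (0, .X 0)) + 1).toNat) := by
  have hx' : tagOf x.2 ≠ 0 → 1 ≤ posOf x.2 := by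
    rw [mem_idx] at hx
    obtain ⟨k, u⟩ := x
    obtain ⟨_, _, h3⟩ := hx
    intro ht
    cases u <;> simp [tagOf] at ht <;> exact h3.1
  rw [rowN_list C R Q hQ ds hds x hx']
  have e1 : ds.flatMap (fun d => segL C R d.k x)
      = (idx R dd).map (fun y => (ent C x y + 1).toNat) := by
    unfold idx
    rw [← hk, List.flatMap_map, List.map_flatMap]
    simp only [List.map_map]
    rfl
  rw [e1, pkL_eq Q _ n (by simpa using hn)]
  apply pk_congr
  intro j hj
  rw [List.getD_eq_getElem?_getD, List.getD_eq_getElem?_getD, List.getElem?_map,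
    List.getElem?_eq_getElem (by omega)]
  rfl

end Crest.Agent.R267.EngN_95
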