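import Mathlib

/-!
# Kernel engine for integral congruences `Uᵀ * A * U = B` of size about 2000 (helper95)

Rows are packed in big naturals: the row `x : Fin n → ℕ` is `pk K n x = ∑ j, x j * 2 ^ (K * j)`.
-/

set_option autoImplicit false

namespace Crest.Agent.R267.Eng_95

open Finset

/-- packed value of the first `n` digits of `f`. -/
def pk (K n : ℕ) (f : ℕ → ℕ) : ℕ := ∑ j ∈ range n, f j * 2 ^ (K * j)

theorem pk_succ (K n : ℕ) (f : ℕ → ℕ) : pk K (n + 1) f = pk K n f + f n * 2 ^ (K * n) := by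
  simp [pk, sum_range_succ]

theorem pk_lt {K n : ℕ} {f : ℕ → ℕ} (h : ∀ j < n, f j < 2 ^ K) : pk K n f < 2 ^ (K * n) := by
  induction n with
  | zero => simp [pk]
  | succ n ih =>
    rw [pk_succ]
    have h1 := ih (fun j hj => h j (by omega))
    have h2 : f n + 1 ≤ 2 ^ K := h n (by omega)
    calc pk K n f + f n * 2 ^ (K * n) < 2 ^ (K * n) + f n * 2 ^ (K * n) := by omega
      _ = (f n + 1) * 2 ^ (K * n) := by ring
      _ ≤ 2 ^ K * 2 ^ (K * n) := Nat.mul_le_mul_right _ h2
      _ = 2 ^ (K * (n + 1)) := by rw [← pow_add]; congr 1; ring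

theorem pk_inj {K n : ℕ} {f g : ℕ → ℕ} (hf : ∀ j < n, f j < 2 ^ K) (hg : ∀ j < n, g j < 2 ^ K)
    (h : pk K n f = pk K n g) : ∀ j < n, f j = g j := by
  induction n with
  | zero => intro j hj; omega
  | succ n ih =>
    rw [pk_succ, pk_succ] at h
    have h1 := pk_lt (K := K) (fun j hj => hf j (by omega : j < n + 1)) (n := n)
    have h2 := pk_lt (K := K) (fun j hj => hg j (by omega : j < n + 1)) (n := n)
    have h3 : f n = g n := by
      have e1 : (pk K n f + f n * 2 ^ (K * n)) / 2 ^ (K * n) = f n := by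
        rw [Nat.add_mul_div_right _ _ (by positivity), Nat.div_eq_of_lt h1]; omega
      have e2 : (pk K n g + g n * 2 ^ (K * n)) / 2 ^ (K * n) = g n := by
        rw [Nat.add_mul_div_right _ _ (by positivity), Nat.div_eq_of_lt h2]; omega
      rw [← e1, ← e2, h]
    have h4 : pk K n f = pk K n g := by rw [h3] at h; omega
    intro j hj
    rcases Nat.lt_succ_iff_lt_or_eq.1 hj with h5 | h5
    · exact ih (fun j hj => hf j (by omega)) (fun j hj => hg j (by omega)) h4 j h5
    · rw [h5]; exact h3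

/-- digit `j` of `p` in base `2 ^ K`. -/
def dg (K j p : ℕ) : ℕ := p / 2 ^ (K * j) % 2 ^ K

theorem dg_lt (K j p : ℕ) : dg K j p < 2 ^ K := Nat.mod_lt _ (by positivity)

theorem pk_dg (K n p : ℕ) (h : p < 2 ^ (K * n)) : pk K n (fun j => dg K j p) = p := by
  have key : ∀ m, pk K m (fun j => dg K j p) = p % 2 ^ (K * m) := by
    intro m
    induction m with
    | zero => simp [pk, Nat.mod_one]
    | succ m ih =>
      rw [pk_succ, ih, dg]
      have e : (2 : ℕ) ^ (K * (m + 1)) = 2 ^ (K * m) * 2 ^ K := by rw [← pow_add]; congr 1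
      rw [e, Nat.mod_mul]
      ring
  rw [key, Nat.mod_eq_of_lt h]

theorem pk_add (K n : ℕ) (f g : ℕ → ℕ) : pk K n (fun j => f j + g j) = pk K n f + pk K n g := by
  simp [pk, add_mul, sum_add_distrib]

theorem pk_smul (K n c : ℕ) (f : ℕ → ℕ) : pk K n (fun j => c * f j) = c * pk K n f := by
  simp [pk, mul_sum, mul_assoc]

theorem pk_sum {ι : Type*} (K n : ℕ) (s : Finset ι) (f : ι → ℕ → ℕ) :
    pk K n (fun j => ∑ a ∈ s, f a j) = ∑ a ∈ s, pk K n (f a) := by
  simp only [pk, sum_mul]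
  rw [sum_comm]

theorem pk_congr {K n : ℕ} {f g : ℕ → ℕ} (h : ∀ j < n, f j = g j) : pk K n f = pk K n g := by
  unfold pk
  exact sum_congr rfl (fun j hj => by rw [h j (mem_range.1 hj)])

end Crest.Agent.R267.Eng_95
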