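import Crest.Agent.R267.NSLift_966
import Crest.Agent.R267.NdS_484

/-!
# Row 267, S0406, C1: entry (helper864)

The official arm `Arms b T 1 W' r v` is joined with the arm of `(S.pathA ..).tri 0` by the straight
line: where one of the two is not the raw polynomial there are no zeros on the whole line.
-/

set_option autoImplicit false
set_option linter.unusedSectionVars false

noncomputable section

open Set Filter Topology Finset
open Crest.Agent.R267.NdR_484 Crest.Agent.R267.NdS_484 Crest.Agent.R267.NdY_484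
open Crest.Agent.R267.NdQ_484 Crest.Agent.R267.PolArm_484 Crest.Agent.R267.NCut_88
open Crest.Agent.R267.NStep_88 Crest.Agent.R267.NSDefs_966 Crest.Agent.R267.NSLift_966

namespace Crest.Agent.R267.Entry_864

variable {b : Bool} {v : Fin 3}

/-! ### straight lines between arms -/

theorem arm_smooth {A : ℂ × ℂ → ℂ} (hA : Arm b v A) : ContDiffOn ℝ 2 A {q : ℂ × ℂ | q.1 ≠ 0} := by
  obtain ⟨T, -, hT, h⟩ := hA.smooth
  have h1 : ContDiffOn ℝ 2 (fun z : ℂ × ℂ => ((0 : ℝ), z)) {q : ℂ × ℂ | q.1 ≠ 0} := by fun_prop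
  exact h.comp h1 fun z hz => ⟨hT (by simp), hz⟩

theorem isOpen_ne1 : IsOpen {q : ℂ × ℂ | q.1 ≠ 0} := isOpen_ne_fun continuous_fst continuous_const

/-- **the straight line between two arms which agree near the zeros of the line**. -/
theorem astep_line {A B : ℂ × ℂ → ℂ} (hA : Arm b v A) (hB : Arm b v B)
    (h : ∀ t ∈ Icc (0 : ℝ) 1, ∀ p w : ℂ, p ≠ 0 →
      w ^ 15 + (((1 - t : ℝ) : ℂ) * A (p, w) + ((t : ℝ) : ℂ) * B (p, w)) = 0 →
      A =ᶠ[𝓝 (p, w)] B) : AStep b v A B := by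
  have sA := arm_smooth hA
  have sB := arm_smooth hB
  have hsm : ContDiffOn ℝ 2 (fun q : ℝ × (ℂ × ℂ) => ((1 - q.1 : ℝ) : ℂ) * A q.2 +
      ((q.1 : ℝ) : ℂ) * B q.2) (univ ×ˢ {q : ℂ × ℂ | q.1 ≠ 0}) := by
    have h1 : ContDiffOn ℝ 2 (fun q : ℝ × (ℂ × ℂ) => A q.2) (univ ×ˢ {q : ℂ × ℂ | q.1 ≠ 0}) :=
      sA.comp contDiff_snd.contDiffOn fun q hq => hq.2
    have h2 : ContDiffOn ℝ 2 (fun q : ℝ × (ℂ × ℂ) => B q.2) (univ ×ˢ {q : ℂ × ℂ | q.1 ≠ 0}) :=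
      sB.comp contDiff_snd.contDiffOn fun q hq => hq.2
    have h3 : ContDiff ℝ 2 (fun q : ℝ × (ℂ × ℂ) => ((q.1 : ℝ) : ℂ)) :=
      Complex.ofRealCLM.contDiff.comp contDiff_fst
    have h4 : ContDiff ℝ 2 (fun q : ℝ × (ℂ × ℂ) => ((1 - q.1 : ℝ) : ℂ)) :=
      Complex.ofRealCLM.contDiff.comp (contDiff_const.sub contDiff_fst)
    exact (h4.contDiffOn.mul h1).add (h3.contDiffOn.mul h2)
  refine ⟨fun q => ((1 - q.1 : ℝ) : ℂ) * A q.2 + ((q.1 : ℝ) : ℂ) * B q.2,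
    ⟨⟨univ, isOpen_univ, subset_univ _, hsm⟩, ?_, ?_, ?_, ?_⟩, ?_, ?_⟩
  · intro t ht l u w hl
    have h1 := hA.hom t ht l u w hl
    have h2 := hB.hom t ht l u w hl
    simp only at h1 h2 ⊢
    rw [h1, h2]
    ring
  · obtain ⟨W1, hW1, h1⟩ := hA.supp
    obtain ⟨W2, hW2, h2⟩ := hB.supp
    refine ⟨max W1 W2, lt_max_of_lt_left hW1, fun t u w hw => ?_⟩
    have h3 := h1 t u w ((mul_le_mul_of_nonneg_right (le_max_left _ _) (norm_nonneg _)).trans hw)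
    have h4 := h2 t u w ((mul_le_mul_of_nonneg_right (le_max_right _ _) (norm_nonneg _)).trans hw)
    simp only at h3 h4 ⊢
    rw [h3, h4]
    ring
  · intro t w
    have h3 := hA.zero t w
    have h4 := hB.zero t w
    simp only at h3 h4 ⊢
    rw [h3, h4]
    ring
  · intro t ht u w hu h0 c
    have hAB := h t ht u w hu h0
    have hS : {q : ℂ × ℂ | q.1 ≠ 0} ∈ 𝓝 ((u, w) : ℂ × ℂ) := isOpen_ne1.mem_nhds hu
    have hm : ((t, (u, w)) : ℝ × (ℂ × ℂ)) ∈ (univ : Set ℝ) ×ˢ {q : ℂ × ℂ | q.1 ≠ 0} :=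
      ⟨mem_univ _, hu⟩
    have d1 : DifferentiableAt ℝ (fun q : ℝ × (ℂ × ℂ) => ((1 - q.1 : ℝ) : ℂ) * A q.2 +
        ((q.1 : ℝ) : ℂ) * B q.2) (t, (u, w)) :=
      (hsm.contDiffAt ((isOpen_univ.prod isOpen_ne1).mem_nhds hm)).differentiableAt (by norm_num)
    have d2 : DifferentiableAt ℝ (fun q : ℝ × (ℂ × ℂ) => A q.2) (t, (u, w)) := by
      have : DifferentiableAt ℝ A (u, w) := (sA.contDiffAt hS).differentiableAt (by norm_num)
      exact DifferentiableAt.comp (g := A) (f := Prod.snd) (t, (u, w)) this differentiableAt_snd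
    have e0 : A (u, w) = B (u, w) := hAB.eq_of_nhds
    have h1 : w ^ 15 + A (u, w) = 0 := by
      rw [← e0] at h0
      rw [← h0]
      push_cast
      ring
    obtain ⟨y, hy⟩ := hA.reg t ht u w hu h1 c
    refine ⟨y, ?_⟩
    rw [slice d1]
    rw [slice d2] at hy
    have e1 : (fun x : ℂ × ℂ => ((1 - t : ℝ) : ℂ) * A x + ((t : ℝ) : ℂ) * B x) =ᶠ[𝓝 (u, w)] A := by
      filter_upwards [hAB] with x hx
      rw [← hx]
      push_cast
      ring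
    have e2 : fderiv ℝ (fun x : ℂ × ℂ => ((1 - t : ℝ) : ℂ) * A x + ((t : ℝ) : ℂ) * B x) (u, w) =
        fderiv ℝ A (u, w) := e1.fderiv_eq
    show 15 * w ^ 14 * y.2 + fderiv ℝ (fun x : ℂ × ℂ => ((1 - t : ℝ) : ℂ) * A x +
      ((t : ℝ) : ℂ) * B x) (u, w) y = c
    rw [e2]
    exact hy
  · intro z
    simp
  · intro z
    simp

/-! ### the official arm in polar coordinates -/

/-- the scaling factor. -/
def sc (b : Bool) (v : Fin 3) (p : ℂ) : ℝ := ‖p‖ ^ (-(1 / (aw b v : ℝ)))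

theorem sc_pos {p : ℂ} (hp : p ≠ 0) : 0 < sc b v p := Real.rpow_pos_of_pos (norm_pos_iff.2 hp) _

theorem sc_pow_mul {p : ℂ} (hp : p ≠ 0) : sc b v p ^ (aw b v) * ‖p‖ = 1 := by
  have h0 : 0 < ‖p‖ := norm_pos_iff.2 hp
  have ha := aw_pos b v
  unfold sc
  rw [← Real.rpow_natCast, ← Real.rpow_mul h0.le]
  have : -(1 / (aw b v : ℝ)) * (aw b v : ℝ) = -1 := by field_simp
  rw [this, Real.rpow_neg_one, inv_mul_cancel₀ h0.ne']

theorem r15_mul {p : ℂ} (hp : p ≠ 0) : ‖p‖ ^ (15 / (aw b v : ℝ)) * sc b v p ^ 15 = 1 := by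
  have h0 : 0 < ‖p‖ := norm_pos_iff.2 hp
  have ha := aw_pos b v
  unfold sc
  rw [← Real.rpow_natCast, ← Real.rpow_mul h0.le, ← Real.rpow_add h0]
  have : 15 / (aw b v : ℝ) + -(1 / (aw b v : ℝ)) * ((15 : ℕ) : ℝ) = 0 := by
    push_cast
    field_simp
    ring
  rw [this, Real.rpow_zero]

/-- the arm function of the official arm on `|v| = 1`. -/
def Gf (a : ℕ) (T : Finset (ℕ × ℕ)) (r : ℝ) (θ : ℝ) (w : ℂ) : ℂ :=
  ∑ q ∈ T, ((r ^ ex a q : ℝ) : ℂ) * (cis θ ^ q.1 * w ^ q.2)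

/-- cut-off of the official arm. -/
def kc (a : ℕ) (W u : ℝ) : ℝ := Real.smoothTransition (2 - u ^ (2 * a) / W ^ 2)

theorem kc_nonneg (a : ℕ) (W u : ℝ) : 0 ≤ kc a W u := Real.smoothTransition.nonneg _

theorem kc_le_one (a : ℕ) (W u : ℝ) : kc a W u ≤ 1 := Real.smoothTransition.le_one _

theorem kc_one {a : ℕ} {W u : ℝ} (hW : 0 < W) (hu : 0 ≤ u) (h : u ^ a ≤ W) : kc a W u = 1 := by
  unfold kc
  refine Real.smoothTransition.one_of_one_le ?_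
  have h1 : u ^ (2 * a) / W ^ 2 ≤ 1 := by
    rw [div_le_one (by positivity), mul_comm, pow_mul]
    exact pow_le_pow_left₀ (pow_nonneg hu _) h 2
  linarith

theorem cis_arg (p : ℂ) : (‖p‖ : ℂ) * cis (Complex.arg p) = p := by
  unfold cis
  exact Complex.norm_mul_exp_arg_mul_I p

theorem term_eq {a : ℕ} {s R n15 : ℝ} (h1 : s ^ a * R = 1) (h2 : n15 * s ^ 15 = 1) (hs : 0 < s)
    {q : ℕ × ℕ} (hq : 15 ≤ a * q.1 + q.2) {r : ℝ} (C w : ℂ) :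
    (((r * s : ℝ) : ℂ)) ^ ex a q * (((R : ℂ) * C) ^ q.1 * w ^ q.2) =
      (n15 : ℂ) * (((r ^ ex a q : ℝ) : ℂ) * (C ^ q.1 * ((s : ℂ) * w) ^ q.2)) := by
  have hex : ex a q + 15 = a * q.1 + q.2 := by unfold ex; omega
  have key : s ^ ex a q * R ^ q.1 = n15 * s ^ q.2 := by
    have e1 : s ^ (a * q.1) * R ^ q.1 = 1 := by
      rw [pow_mul, ← mul_pow, h1, one_pow]
    have h3 : s ^ (a * q.1 + q.2) = s ^ ex a q * s ^ 15 := by rw [← pow_add, hex]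
    have h4 : s ^ 15 ≠ 0 := (pow_pos hs 15).ne'
    refine mul_right_cancel₀ h4 ?_
    calc s ^ ex a q * R ^ q.1 * s ^ 15 = (s ^ ex a q * s ^ 15) * R ^ q.1 := by ring
      _ = s ^ (a * q.1 + q.2) * R ^ q.1 := by rw [h3]
      _ = (s ^ (a * q.1) * R ^ q.1) * s ^ q.2 := by rw [pow_add]; ring
      _ = (n15 * s ^ 15) * s ^ q.2 := by rw [e1, h2]
      _ = n15 * s ^ q.2 * s ^ 15 := by ring
  have keyC : (s : ℂ) ^ ex a q * (R : ℂ) ^ q.1 = (n15 : ℂ) * (s : ℂ) ^ q.2 := by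
    exact_mod_cast key
  push_cast
  rw [mul_pow, mul_pow, mul_pow]
  calc (r : ℂ) ^ ex a q * (s : ℂ) ^ ex a q * ((R : ℂ) ^ q.1 * C ^ q.1 * w ^ q.2)
      = ((s : ℂ) ^ ex a q * (R : ℂ) ^ q.1) * ((r : ℂ) ^ ex a q * C ^ q.1 * w ^ q.2) := by ring
    _ = _ := by rw [keyC]; ring

/-- **the official arm**. -/
theorem arms_eq {T : Fin 3 → Finset (ℕ × ℕ)} (hT : ∀ q ∈ T v, 15 ≤ aw b v * q.1 + q.2) {W r : ℝ}
    {p w : ℂ} (hp : p ≠ 0) :
    w ^ 15 + Arms b T (fun _ _ => 1) W r v (p, w) =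
      ((‖p‖ ^ (15 / (aw b v : ℝ)) : ℝ) : ℂ) * (((sc b v p : ℂ) * w) ^ 15 +
        (kc (aw b v) W ‖(sc b v p : ℂ) * w‖ : ℂ) *
          Gf (aw b v) (T v) r (Complex.arg p) ((sc b v p : ℂ) * w)) := by
  have h1 := sc_pow_mul (b := b) (v := v) hp
  have h2 := r15_mul (b := b) (v := v) hp
  have hs := sc_pos (b := b) (v := v) hp
  have h0 : 0 < ‖p‖ := norm_pos_iff.2 hp
  have e1 : ((‖p‖ ^ (15 / (aw b v : ℝ)) : ℝ) : ℂ) * ((sc b v p : ℂ) * w) ^ 15 = w ^ 15 := by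
    rw [mul_pow, ← mul_assoc, ← Complex.ofReal_pow, ← Complex.ofReal_mul, h2, Complex.ofReal_one,
      one_mul]
  have e2 : ct (aw b v) W p w = kc (aw b v) W ‖(sc b v p : ℂ) * w‖ := by
    unfold ct kc
    congr 2
    rw [norm_mul, Complex.norm_real, Real.norm_of_nonneg hs.le, mul_pow, mul_comm 2 (aw b v),
      pow_mul (sc b v p)]
    have h3 : (sc b v p ^ aw b v) ^ 2 = 1 / ‖p‖ ^ 2 := by
      rw [← one_div_pow, eq_div_of_mul_eq h0.ne' h1]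
    rw [h3]
    field_simp
  have e3 : E (T v) (cz (aw b v) (fun _ => 1) (r * ‖p‖ ^ (-(1 / (aw b v : ℝ))))) p w =
      ((‖p‖ ^ (15 / (aw b v : ℝ)) : ℝ) : ℂ) *
        Gf (aw b v) (T v) r (Complex.arg p) ((sc b v p : ℂ) * w) := by
    unfold E Gf cz
    rw [Finset.mul_sum]
    refine Finset.sum_congr rfl fun q hq => ?_
    have := term_eq (r := r) h1 h2 hs (hT q hq) (cis (Complex.arg p)) w
    rw [cis_arg] at this
    rw [one_mul, ← this]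
    rfl
  show w ^ 15 + (ct (aw b v) W p w : ℂ) * E (T v) (cz (aw b v) (fun _ => 1)
    (r * ‖p‖ ^ (-(1 / (aw b v : ℝ))))) p w = _
  rw [e2, e3, mul_add, e1]
  ring

theorem pa_eq {h : ℝ × ℝ × ℝ → ℂ} {p w : ℂ} (hp : p ≠ 0) :
    w ^ 15 + PA b v h (p, w) = ((‖p‖ ^ (15 / (aw b v : ℝ)) : ℝ) : ℂ) *
      h (Complex.arg p, ‖(sc b v p : ℂ) * w‖, Complex.arg ((sc b v p : ℂ) * w)) := by
  unfold PA LA
  rw [if_neg hp]
  show w ^ 15 + (_ * h (Complex.arg p, ‖(sc b v p : ℂ) * w‖, Complex.arg ((sc b v p : ℂ) * w)) -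
    w ^ 15) = _
  ring

/-! ### bounds -/

section bounds

variable {m : ℕ} (S : NS m)

/-- the exponents of the arm. -/
def Tm : Finset (ℕ × ℕ) := Finset.univ.image fun s : Fin (m + 1) => (S.i s.succ, S.j s.succ)

variable {S}

theorem sum_Tm (hS : S.Ok) (f : ℕ × ℕ → ℂ) : ∑ q ∈ Tm S, f q =
    ∑ s : Fin m, f (S.i (NS.ix s), S.j (NS.ix s)) + f (15, 0) := by
  unfold Tm
  rw [Finset.sum_image, Fin.sum_univ_castSucc]
  · have e1 : (Fin.last m).succ = Fin.last (m + 1) := rfl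
    rw [e1, hS.i1, hS.j1]
    rfl
  · intro s _ s' _ h
    have h1 : S.j s.succ = S.j s'.succ := congrArg Prod.snd h
    exact Fin.succ_injective _ (hS.hj.injective h1)

theorem j_bd (hS : S.Ok) (s : Fin m) : 1 ≤ S.j (NS.ix s) ∧ S.j (NS.ix s) ≤ 14 := by
  have h1 : S.j (Fin.last (m + 1)) < S.j (NS.ix s) := hS.hj (by
    unfold NS.ix
    rw [Fin.lt_def]
    simp)
  have h2 : S.j (NS.ix s) < S.j 0 := hS.hj (by
    unfold NS.ix
    rw [Fin.lt_def]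
    simp)
  rw [hS.j1] at h1
  rw [hS.j0] at h2
  omega

theorem Gf_eq (hS : S.Ok) (a : ℕ) (r θ : ℝ) (w : ℂ) : Gf a (Tm S) r θ w =
    ∑ s : Fin m, ((S.Mr a r s : ℝ) : ℂ) * (cis θ ^ S.i (NS.ix s) * w ^ S.j (NS.ix s)) +
      ((NS.Mvr a r : ℝ) : ℂ) * cis θ ^ 15 := by
  unfold Gf
  rw [sum_Tm hS]
  congr 1
  unfold NS.Mvr ex
  simp only [pow_zero, mul_one, add_zero]
  rw [mul_comm 15 a]

theorem Mr_pos (a : ℕ) {r : ℝ} (hr : 0 < r) (s : Fin m) : 0 < S.Mr a r s := pow_pos hr _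

theorem Mr_le (a : ℕ) {r : ℝ} (hr : 0 < r) (hr1 : r ≤ 1) (s : Fin m) : S.Mr a r s ≤ 1 :=
  pow_le_one₀ hr.le hr1

theorem Mvr_pos (a : ℕ) {r : ℝ} (hr : 0 < r) : 0 < NS.Mvr a r := pow_pos hr _

theorem Mvr_le (a : ℕ) {r : ℝ} (hr : 0 < r) (hr1 : r ≤ 1) : NS.Mvr a r ≤ 1 :=
  pow_le_one₀ hr.le hr1

theorem norm_term (a : ℕ) {r : ℝ} (hr : 0 < r) (θ : ℝ) (w : ℂ) (s : Fin m) :
    ‖((S.Mr a r s : ℝ) : ℂ) * (cis θ ^ S.i (NS.ix s) * w ^ S.j (NS.ix s))‖ =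
      S.Mr a r s * ‖w‖ ^ S.j (NS.ix s) := by
  rw [norm_mul, norm_mul, norm_pow, norm_pow, NCut_88.norm_cis, one_pow, one_mul,
    Complex.norm_real, Real.norm_of_nonneg (Mr_pos a hr s).le]

theorem low_bd (hS : S.Ok) (a : ℕ) {r : ℝ} (hr : 0 < r) (hr1 : r ≤ 1) {θ : ℝ} {w : ℂ}
    (hw : ‖w‖ ≤ 1) (hw' : (m + 2) * ‖w‖ ≤ NS.Mvr a r) :
    ‖w ^ 15 + Gf a (Tm S) r θ w - ((NS.Mvr a r : ℝ) : ℂ) * cis θ ^ 15‖ <
      ‖((NS.Mvr a r : ℝ) : ℂ) * cis θ ^ 15‖ := by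
  have hM := Mvr_pos a hr
  have h0 := norm_nonneg w
  rw [Gf_eq hS, norm_mul, norm_pow, NCut_88.norm_cis, one_pow, mul_one, Complex.norm_real,
    Real.norm_of_nonneg hM.le]
  have e1 : w ^ 15 + (∑ s : Fin m, ((S.Mr a r s : ℝ) : ℂ) *
      (cis θ ^ S.i (NS.ix s) * w ^ S.j (NS.ix s)) + ((NS.Mvr a r : ℝ) : ℂ) * cis θ ^ 15) -
      ((NS.Mvr a r : ℝ) : ℂ) * cis θ ^ 15 = w ^ 15 + ∑ s : Fin m, ((S.Mr a r s : ℝ) : ℂ) *
      (cis θ ^ S.i (NS.ix s) * w ^ S.j (NS.ix s)) := by ring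
  rw [e1]
  have h1 : ‖w ^ 15 + ∑ s : Fin m, ((S.Mr a r s : ℝ) : ℂ) *
      (cis θ ^ S.i (NS.ix s) * w ^ S.j (NS.ix s))‖ ≤ (m + 1) * ‖w‖ := by
    have h2 : ‖∑ s : Fin m, ((S.Mr a r s : ℝ) : ℂ) *
        (cis θ ^ S.i (NS.ix s) * w ^ S.j (NS.ix s))‖ ≤ m * ‖w‖ := by
      refine (norm_sum_le _ _).trans ?_
      refine (Finset.sum_le_sum fun s _ => ?_ : _ ≤ ∑ _s : Fin m, ‖w‖).trans ?_
      · rw [norm_term a hr]
        have h3 : ‖w‖ ^ S.j (NS.ix s) ≤ ‖w‖ := by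
          calc ‖w‖ ^ S.j (NS.ix s) ≤ ‖w‖ ^ 1 := pow_le_pow_of_le_one h0 hw (j_bd hS s).1
            _ = ‖w‖ := pow_one _
        calc S.Mr a r s * ‖w‖ ^ S.j (NS.ix s) ≤ 1 * ‖w‖ :=
              mul_le_mul (Mr_le a hr hr1 s) h3 (pow_nonneg h0 _) zero_le_one
          _ = ‖w‖ := one_mul _
      · rw [Finset.sum_const, Finset.card_univ, Fintype.card_fin, nsmul_eq_mul]
    have h3 : ‖w ^ 15‖ ≤ ‖w‖ := by
      rw [norm_pow]
      calc ‖w‖ ^ 15 ≤ ‖w‖ ^ 1 := pow_le_pow_of_le_one h0 hw (by norm_num)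
        _ = ‖w‖ := pow_one _
    calc _ ≤ ‖w ^ 15‖ + _ := norm_add_le _ _
      _ ≤ ‖w‖ + m * ‖w‖ := add_le_add h3 h2
      _ = _ := by ring
  rcases eq_or_lt_of_le h0 with h2 | h2
  · rw [← h2, mul_zero] at h1
    linarith
  · nlinarith

theorem high_bd (hS : S.Ok) (a : ℕ) {r : ℝ} (hr : 0 < r) (hr1 : r ≤ 1) {θ : ℝ} {w : ℂ}
    (hw : (m : ℝ) + 2 ≤ ‖w‖) : ‖Gf a (Tm S) r θ w‖ < ‖w ^ 15‖ := by
  have hm : (0 : ℝ) ≤ m := Nat.cast_nonneg m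
  have h1 : 1 ≤ ‖w‖ := by linarith
  have h14 : 1 ≤ ‖w‖ ^ 14 := one_le_pow₀ h1
  rw [Gf_eq hS]
  have h2 : ‖∑ s : Fin m, ((S.Mr a r s : ℝ) : ℂ) *
      (cis θ ^ S.i (NS.ix s) * w ^ S.j (NS.ix s))‖ ≤ m * ‖w‖ ^ 14 := by
    refine (norm_sum_le _ _).trans ?_
    refine (Finset.sum_le_sum fun s _ => ?_ : _ ≤ ∑ _s : Fin m, ‖w‖ ^ 14).trans ?_
    · rw [norm_term a hr]
      calc S.Mr a r s * ‖w‖ ^ S.j (NS.ix s) ≤ 1 * ‖w‖ ^ 14 :=
            mul_le_mul (Mr_le a hr hr1 s) (pow_le_pow_right₀ h1 (j_bd hS s).2) (by positivity)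
              zero_le_one
        _ = _ := one_mul _
    · rw [Finset.sum_const, Finset.card_univ, Fintype.card_fin, nsmul_eq_mul]
  have h3 : ‖((NS.Mvr a r : ℝ) : ℂ) * cis θ ^ 15‖ ≤ 1 := by
    rw [norm_mul, norm_pow, NCut_88.norm_cis, one_pow, mul_one, Complex.norm_real,
      Real.norm_of_nonneg (Mvr_pos a hr).le]
    exact Mvr_le a hr hr1
  have h4 := (norm_add_le (∑ s : Fin m, ((S.Mr a r s : ℝ) : ℂ) *
      (cis θ ^ S.i (NS.ix s) * w ^ S.j (NS.ix s))) (((NS.Mvr a r : ℝ) : ℂ) * cis θ ^ 15)).trans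
      (add_le_add h2 h3)
  rw [norm_pow]
  have h5 : ‖w‖ ^ 15 = ‖w‖ * ‖w‖ ^ 14 := by ring
  rw [h5]
  nlinarith

end bounds

/-! ### the triple at time `0` -/

section tri

variable {m : ℕ} {S : NS m}

theorem e_cis (x : ℝ) : e (x / (2 * Real.pi)) = cis x := by
  rw [e_eq]
  congr 1
  field_simp

theorem cis_pow' (x : ℝ) (k : ℕ) : cis x ^ k = cis (k * x) := by
  unfold cis
  rw [← Complex.exp_nat_mul]
  congr 1
  push_cast
  ring

theorem cis_add (x y : ℝ) : cis (x + y) = cis x * cis y := by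
  unfold cis
  rw [← Complex.exp_add]
  congr 1
  push_cast
  ring

theorem Q0 (M : Fin m → ℝ) (Mv : ℝ) (θ ω : ℝ) : ((S.pathA M Mv).tri 0).Q θ ω = 15 * ω := by
  show 2 * Real.pi * ((1 - 0) * (15 * ω / (2 * Real.pi)) +
    0 * (Sp (15 * ω / (2 * Real.pi)) + 1 / 2)) = 15 * ω
  field_simp
  ring

theorem P0 (hS : S.Ok) (M : Fin m → ℝ) (Mv : ℝ) (θ : ℝ) :
    ((S.pathA M Mv).tri 0).P θ = (Mv : ℂ) * cis θ ^ 15 := by
  have hn : (S.n : ℝ) ≠ 0 := by exact_mod_cast hS.hn.ne'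
  show (Mv : ℂ) * e ((1 - 0) * (15 * (S.n * θ / (2 * Real.pi)) / S.n) +
    0 * (S.hat (Fin.last (m + 1)) (S.n * θ / (2 * Real.pi)) 0 + 1 / 2)) = _
  have e1 : (1 - 0 : ℝ) * (15 * (S.n * θ / (2 * Real.pi)) / S.n) +
      0 * (S.hat (Fin.last (m + 1)) (S.n * θ / (2 * Real.pi)) 0 + 1 / 2) =
      (15 * θ) / (2 * Real.pi) := by
    field_simp
    ring
  rw [e1, e_cis, cis_pow']
  push_cast
  rfl

theorem polar_pow {w : ℂ} (k : ℕ) : w ^ k = ((‖w‖ ^ k : ℝ) : ℂ) * cis (k * Complex.arg w) := by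
  conv_lhs => rw [← cis_arg w]
  rw [mul_pow, cis_pow', Complex.ofReal_pow]

theorem F0 (hS : S.Ok) (a : ℕ) (r θ : ℝ) {w : ℂ} (hw : w ≠ 0) :
    ((S.pathA (S.Mr a r) (NS.Mvr a r)).tri 0).F (θ, ‖w‖, Complex.arg w) =
      w ^ 15 + Gf a (Tm S) r θ w := by
  have hn : (S.n : ℝ) ≠ 0 := by exact_mod_cast hS.hn.ne'
  have hu : 0 < ‖w‖ := norm_pos_iff.2 hw
  have hP := P0 hS (S.Mr a r) (NS.Mvr a r) θ
  rw [Gf_eq hS, ← hP]
  show ((Real.exp (15 * Real.log ‖w‖) : ℝ) : ℂ) * e ((1 - 0) *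
      (15 * Complex.arg w / (2 * Real.pi)) + 0 * (Sp (15 * Complex.arg w / (2 * Real.pi)) + 1 / 2)) +
      ((S.pathA (S.Mr a r) (NS.Mvr a r)).tri 0).P θ +
      ∑ s : Fin m, ((S.Mr a r s * Real.exp ((S.j (NS.ix s) : ℝ) * Real.log ‖w‖) : ℝ) : ℂ) *
        e ((1 - 0) * (S.i (NS.ix s) * (S.n * θ / (2 * Real.pi)) / S.n +
          S.j (NS.ix s) * (15 * Complex.arg w / (2 * Real.pi)) / 15) +
          0 * (S.hat (NS.ix s) (S.n * θ / (2 * Real.pi)) (15 * Complex.arg w / (2 * Real.pi)) +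
            1 / 2)) = _
  have e1 : (1 - 0 : ℝ) * (15 * Complex.arg w / (2 * Real.pi)) +
      0 * (Sp (15 * Complex.arg w / (2 * Real.pi)) + 1 / 2) =
      (15 * Complex.arg w) / (2 * Real.pi) := by ring
  have e2 : ((Real.exp (15 * Real.log ‖w‖) : ℝ) : ℂ) * e ((15 * Complex.arg w) / (2 * Real.pi)) =
      w ^ 15 := by
    rw [exp_log_pow hu, e_cis, polar_pow 15]
    push_cast
    rfl
  rw [e1, e2, add_assoc, add_comm (((S.pathA (S.Mr a r) (NS.Mvr a r)).tri 0).P θ)]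
  congr 2
  refine Finset.sum_congr rfl fun s _ => ?_
  have e3 : (1 - 0 : ℝ) * (S.i (NS.ix s) * (S.n * θ / (2 * Real.pi)) / S.n +
      S.j (NS.ix s) * (15 * Complex.arg w / (2 * Real.pi)) / 15) +
      0 * (S.hat (NS.ix s) (S.n * θ / (2 * Real.pi)) (15 * Complex.arg w / (2 * Real.pi)) + 1 / 2) =
      (S.i (NS.ix s) * θ + S.j (NS.ix s) * Complex.arg w) / (2 * Real.pi) := by
    field_simp
    ring
  have e4 : Real.exp ((S.j (NS.ix s) : ℝ) * Real.log ‖w‖) = ‖w‖ ^ S.j (NS.ix s) := by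
    rw [mul_comm, Real.exp_mul, Real.exp_log hu, Real.rpow_natCast]
  rw [e3, e4, e_cis, cis_add, polar_pow (S.j (NS.ix s)), cis_pow' θ]
  push_cast
  ring

end tri

/-! ### the entry -/

theorem ball_ne {t : ℝ} (ht : t ∈ Icc (0 : ℝ) 1) {x y P : ℂ} (hx : ‖x - P‖ < ‖P‖)
    (hy : ‖y - P‖ < ‖P‖) : ((1 - t : ℝ) : ℂ) * x + ((t : ℝ) : ℂ) * y ≠ 0 := by
  intro h
  have e1 : -P = ((1 - t : ℝ) : ℂ) * (x - P) + ((t : ℝ) : ℂ) * (y - P) := by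
    have : ((1 - t : ℝ) : ℂ) * (x - P) + ((t : ℝ) : ℂ) * (y - P) =
        (((1 - t : ℝ) : ℂ) * x + ((t : ℝ) : ℂ) * y) - P := by
      push_cast
      ring
    rw [this, h, zero_sub]
  have h1 : ‖P‖ ≤ (1 - t) * ‖x - P‖ + t * ‖y - P‖ := by
    calc ‖P‖ = ‖-P‖ := (norm_neg _).symm
      _ = ‖((1 - t : ℝ) : ℂ) * (x - P) + ((t : ℝ) : ℂ) * (y - P)‖ := by rw [e1]
      _ ≤ ‖((1 - t : ℝ) : ℂ) * (x - P)‖ + ‖((t : ℝ) : ℂ) * (y - P)‖ := norm_add_le _ _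
      _ = _ := by
          rw [norm_mul, norm_mul, Complex.norm_real, Complex.norm_real,
            Real.norm_of_nonneg (sub_nonneg.2 ht.2), Real.norm_of_nonneg ht.1]
  rcases eq_or_lt_of_le ht.1 with h2 | h2
  · rw [← h2] at h1
    linarith
  · have h3 := mul_lt_mul_of_pos_left hy h2
    have h4 := mul_le_mul_of_nonneg_left hx.le (sub_nonneg.2 ht.2)
    linarith

theorem hn_of_Cvx {m : ℕ} {S : NS m} {a : ℕ} (hC : S.Cvx a) :
    ∀ q ∈ Tm S, 15 ≤ a * q.1 + q.2 := by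
  intro q hq
  unfold Tm at hq
  obtain ⟨s, -, hs⟩ := Finset.mem_image.1 hq
  rw [← hs]
  exact hC.1 s.succ

/-- **ENTRY**. -/
theorem entry {m : ℕ} {S : NS m} (hS : S.Ok) (hC : S.Cvx (aw b v)) {T : Fin 3 → Finset (ℕ × ℕ)}
    (hT : T v = Finset.univ.image fun s : Fin (m + 1) => (S.i s.succ, S.j s.succ)) {r : ℝ}
    (hr : 0 < r)
    (hr1 : r ≤ 1) (hD : (S.pathA (S.Mr (aw b v) r) (NS.Mvr (aw b v) r)).Ok)
    (hR : (S.pathA (S.Mr (aw b v) r) (NS.Mvr (aw b v) r)).Reg) :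
    ∃ W1 : ℝ, ∀ W' ≥ W1, Arm b v (Arms b T (fun _ _ => 1) W' r v) →
      ∃ α0 > 0, ∃ β0 : ℝ, ∀ α β : ℝ, 0 < α → α ≤ α0 → β0 ≤ β → α ≤ β →
        AStep b v (Arms b T (fun _ _ => 1) W' r v)
          (((S.pathA (S.Mr (aw b v) r) (NS.Mvr (aw b v) r)).tri 0).arm b v α β) := by
  have hT' : T v = Tm S := hT
  have hm : (0 : ℝ) ≤ m := Nat.cast_nonneg m
  set a := aw b v with ha
  set X := (S.pathA (S.Mr a r) (NS.Mvr a r)).tri 0 with hX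
  have hMv := Mvr_pos a hr
  refine ⟨((m : ℝ) + 2) ^ a, fun W' hW' hA => ?_⟩
  have hW1 : (1 : ℝ) ≤ ((m : ℝ) + 2) ^ a := one_le_pow₀ (by linarith)
  have hW0 : 0 < W' := by linarith
  obtain ⟨α1, hα1, β1, hst⟩ := (upath hD hR).step (bo := b) (v := v)
  refine ⟨min α1 (min 1 (NS.Mvr a r / (m + 2))), lt_min hα1 (lt_min one_pos (by positivity)),
    max β1 (m + 2), fun α β hα hαα hββ hαβ => ?_⟩
  have hαα1 : α ≤ α1 := hαα.trans (min_le_left _ _)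
  have hα2 : α ≤ 1 := (hαα.trans (min_le_right _ _)).trans (min_le_left _ _)
  have hα3 : α ≤ NS.Mvr a r / (m + 2) := (hαα.trans (min_le_right _ _)).trans (min_le_right _ _)
  have hβ1 : β1 ≤ β := (le_max_left _ _).trans hββ
  have hβ2 : (m : ℝ) + 2 ≤ β := (le_max_right _ _).trans hββ
  have hβ0 : 0 < β := by linarith
  have hB : Arm b v (X.arm b v α β) := (hst α β hα hαα1 hβ1 hαβ).left
  -- values
  have eA : ∀ p w : ℂ, p ≠ 0 → w ^ 15 + Arms b T (fun _ _ => 1) W' r v (p, w) =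
      ((‖p‖ ^ (15 / (aw b v : ℝ)) : ℝ) : ℂ) * (((sc b v p : ℂ) * w) ^ 15 +
        (kc a W' ‖(sc b v p : ℂ) * w‖ : ℂ) *
          Gf a (Tm S) r (Complex.arg p) ((sc b v p : ℂ) * w)) := by
    intro p w hp
    have := arms_eq (b := b) (v := v) (T := T) (by rw [hT']; exact hn_of_Cvx hC) (W := W')
      (r := r) (w := w) hp
    rw [hT'] at this
    exact this
  have eB : ∀ p w : ℂ, p ≠ 0 → w ^ 15 + X.arm b v α β (p, w) =
      ((‖p‖ ^ (15 / (aw b v : ℝ)) : ℝ) : ℂ) * cut α β X.F X.P X.Q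
        (Complex.arg p, ‖(sc b v p : ℂ) * w‖, Complex.arg ((sc b v p : ℂ) * w)) := by
    intro p w hp
    exact pa_eq hp
  refine astep_line hA hB fun t ht p w hp h0 => ?_
  have hR15 : (0 : ℝ) < ‖p‖ ^ (15 / (aw b v : ℝ)) := Real.rpow_pos_of_pos (norm_pos_iff.2 hp) _
  set w' : ℂ := (sc b v p : ℂ) * w with hw'
  set θ := Complex.arg p with hθ
  set kA : ℂ := w' ^ 15 + (kc a W' ‖w'‖ : ℂ) * Gf a (Tm S) r θ w' with hkA
  set kB : ℂ := cut α β X.F X.P X.Q (θ, ‖w'‖, Complex.arg w') with hkB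
  have hk : ((1 - t : ℝ) : ℂ) * kA + ((t : ℝ) : ℂ) * kB = 0 := by
    have h1 : ((‖p‖ ^ (15 / (aw b v : ℝ)) : ℝ) : ℂ) *
        (((1 - t : ℝ) : ℂ) * kA + ((t : ℝ) : ℂ) * kB) = 0 := by
      rw [← h0]
      calc _ = ((1 - t : ℝ) : ℂ) * (((‖p‖ ^ (15 / (aw b v : ℝ)) : ℝ) : ℂ) * kA) +
            ((t : ℝ) : ℂ) * (((‖p‖ ^ (15 / (aw b v : ℝ)) : ℝ) : ℂ) * kB) := by ring
        _ = ((1 - t : ℝ) : ℂ) * (w ^ 15 + Arms b T (fun _ _ => 1) W' r v (p, w)) +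
            ((t : ℝ) : ℂ) * (w ^ 15 + X.arm b v α β (p, w)) := by rw [eA p w hp, eB p w hp]
        _ = _ := by push_cast; ring
    rcases mul_eq_zero.1 h1 with h2 | h2
    · exact absurd (Complex.ofReal_eq_zero.1 h2) hR15.ne'
    · exact h2
  have hPP : X.P θ = ((NS.Mvr a r : ℝ) : ℂ) * cis θ ^ 15 := P0 hS _ _ θ
  have hPn : ‖X.P θ‖ = NS.Mvr a r := by
    rw [hPP, norm_mul, norm_pow, NCut_88.norm_cis, one_pow, mul_one, Complex.norm_real,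
      Real.norm_of_nonneg hMv.le]
  -- the two ends
  have hlt1 : α < ‖w'‖ := by
    by_contra hcon
    push Not at hcon
    have h1 : ‖w'‖ ≤ 1 := hcon.trans hα2
    have h2 : (m + 2) * ‖w'‖ ≤ NS.Mvr a r := by
      have := hcon.trans hα3
      rw [le_div_iff₀ (by positivity)] at this
      linarith
    have h3 := low_bd hS a hr hr1 (θ := θ) h1 h2
    rw [← hPP] at h3
    have h4 : kc a W' ‖w'‖ = 1 := kc_one hW0 (norm_nonneg _)
      ((pow_le_one₀ (norm_nonneg _) h1).trans (by linarith))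
    have h5 : ‖kA - X.P θ‖ < ‖X.P θ‖ := by
      rw [hkA, h4, Complex.ofReal_one, one_mul]
      exact h3
    have h6 : ‖kB - X.P θ‖ < ‖X.P θ‖ := by
      by_cases hw0 : w' = 0
      · rw [hkB, cut_inner hα hαβ (q := (θ, ‖w'‖, Complex.arg w'))
          (by show ‖w'‖ ≤ α / 2; rw [hw0, norm_zero]; positivity)]
        show ‖X.P θ - X.P θ‖ < _
        rw [sub_self, norm_zero, hPn]
        exact hMv
      · rw [hkB, cut_low hβ0 (q := (θ, ‖w'‖, Complex.arg w')) (hcon.trans hαβ)]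
        have h7 : X.F (θ, ‖w'‖, Complex.arg w') = w' ^ 15 + Gf a (Tm S) r θ w' := F0 hS a r θ hw0
        have e1 : ((1 - lo α ‖w'‖ : ℝ) : ℂ) * X.P θ + ((lo α ‖w'‖ : ℝ) : ℂ) *
            X.F (θ, ‖w'‖, Complex.arg w') - X.P θ =
            ((lo α ‖w'‖ : ℝ) : ℂ) * (w' ^ 15 + Gf a (Tm S) r θ w' - X.P θ) := by
          rw [h7]
          push_cast
          ring
        show ‖((1 - lo α ‖w'‖ : ℝ) : ℂ) * X.P θ + ((lo α ‖w'‖ : ℝ) : ℂ) *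
            X.F (θ, ‖w'‖, Complex.arg w') - X.P θ‖ < _
        rw [e1, norm_mul, Complex.norm_real, Real.norm_of_nonneg (lo_nonneg _ _)]
        exact (mul_le_of_le_one_left (norm_nonneg _) (lo_le_one _ _)).trans_lt h3
    exact ball_ne ht h5 h6 hk
  have hw0 : w' ≠ 0 := norm_pos_iff.1 (hα.trans hlt1)
  have hlt2 : ‖w'‖ < (m : ℝ) + 2 := by
    by_contra hcon
    push Not at hcon
    have h3 := high_bd hS a hr hr1 (θ := θ) hcon
    have h5 : ‖kA - w' ^ 15‖ < ‖w' ^ 15‖ := by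
      rw [hkA, add_sub_cancel_left, norm_mul, Complex.norm_real,
        Real.norm_of_nonneg (kc_nonneg _ _ _)]
      exact (mul_le_of_le_one_left (norm_nonneg _) (kc_le_one _ _ _)).trans_lt h3
    have h6 : ‖kB - w' ^ 15‖ < ‖w' ^ 15‖ := by
      rw [hkB, cut_high hα (q := (θ, ‖w'‖, Complex.arg w')) hlt1.le]
      have h7 : X.F (θ, ‖w'‖, Complex.arg w') = w' ^ 15 + Gf a (Tm S) r θ w' := F0 hS a r θ hw0
      have h8 : ((‖w'‖ ^ 15 : ℝ) : ℂ) * cis (15 * Complex.arg w') = w' ^ 15 := by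
        rw [polar_pow 15]
        push_cast
        rfl
      have h9 : X.Q θ (Complex.arg w') = 15 * Complex.arg w' := Q0 _ _ θ _
      have h10 : Qu β X.Q (θ, ‖w'‖, Complex.arg w') = 15 * Complex.arg w' := by
        show (1 - hi β ‖w'‖) * X.Q θ (Complex.arg w') + hi β ‖w'‖ * (15 * Complex.arg w') = _
        rw [h9]
        ring
      show ‖((1 - hi β ‖w'‖ : ℝ) : ℂ) * (X.F (θ, ‖w'‖, Complex.arg w') -
        ((‖w'‖ ^ 15 : ℝ) : ℂ) * cis (X.Q θ (Complex.arg w'))) +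
        ((‖w'‖ ^ 15 : ℝ) : ℂ) * cis (Qu β X.Q (θ, ‖w'‖, Complex.arg w')) - w' ^ 15‖ < _
      rw [h10, h9, h8, h7, add_sub_cancel_right, add_sub_cancel_left, norm_mul, Complex.norm_real,
        Real.norm_of_nonneg (sub_nonneg.2 (hi_le_one _ _))]
      exact (mul_le_of_le_one_left (norm_nonneg _) (by linarith [hi_nonneg β ‖w'‖])).trans_lt h3
    exact ball_ne ht h5 h6 hk
  -- in the middle the two arms agree
  have hc : ContinuousAt (fun z : ℂ × ℂ => ‖((sc b v z.1 : ℝ) : ℂ) * z.2‖) (p, w) := by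
    have h1 : ContinuousAt (fun z : ℂ × ℂ => sc b v z.1) (p, w) := by
      unfold sc
      exact (continuous_fst.norm.continuousAt).rpow_const (Or.inl (norm_ne_zero_iff.2 hp))
    exact ((Complex.continuous_ofReal.continuousAt.comp h1).mul continuousAt_snd).norm
  have e1 := hc.eventually (lt_mem_nhds hlt1)
  have e2 := hc.eventually (gt_mem_nhds hlt2)
  have e3 : ∀ᶠ z : ℂ × ℂ in 𝓝 (p, w), z.1 ≠ 0 := isOpen_ne1.mem_nhds hp
  filter_upwards [e1, e2, e3] with z h1 h2 h3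
  have hz0 : ((sc b v z.1 : ℝ) : ℂ) * z.2 ≠ 0 := norm_pos_iff.1 (hα.trans h1)
  have h4 := eA z.1 z.2 h3
  have h5 := eB z.1 z.2 h3
  rw [kc_one hW0 (norm_nonneg _) ((pow_le_pow_left₀ (norm_nonneg _) h2.le a).trans hW'),
    Complex.ofReal_one, one_mul] at h4
  rw [cut_mid hα hβ0 (q := (Complex.arg z.1, ‖((sc b v z.1 : ℝ) : ℂ) * z.2‖,
    Complex.arg (((sc b v z.1 : ℝ) : ℂ) * z.2))) h1.le (h2.le.trans hβ2),
    F0 hS a r (Complex.arg z.1) hz0, ← h4] at h5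
  exact (add_left_cancel h5).symm

end Crest.Agent.R267.Entry_864
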