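import Crest.Agent.R267.ArmExM_649
import Crest.Agent.R267.ArmExitF_502

/-!
# Row 267, N2 EXIT (helper649): `ExitP` for `f` and `g`
-/

set_option autoImplicit false

noncomputable section

open Finset
open Crest.Agent.R267.T3aDefs_957 (st)
open Crest.Agent.R267.T3aNDefs_88 (SD)
open Crest.Agent.R267.Calc_957
open Crest.Agent.R267.NSDefs_966
open Crest.Agent.R267.NdY_484 Crest.Agent.R267.PolArm_484
open Crest.Agent.R267.SFLDc_330
open Crest.Agent.R267.ArmExC_649 Crest.Agent.R267.ArmExD_649 Crest.Agent.R267.ArmExM_649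
open Crest.Agent.R267.ArmExitB_502 Crest.Agent.R267.ArmExitE_502 Crest.Agent.R267.ArmExitF_502

namespace Crest.Agent.R267.ExitF_649

variable {D : SD 4} {v : Fin 3}

theorem co_ca {u0 W : ℝ} (h : 0 < u0) (hW : u0 ≤ W) : CO u0 W (ca u0) (cb W) where
  hu := h
  hW := hW
  si := by
    unfold ca
    exact contDiff_st.comp (((contDiff_const.mul contDiff_id).div_const u0).sub contDiff_const)
  so := by
    unfold cb
    exact contDiff_const.sub (contDiff_st.comp ((contDiff_id.div_const W).sub contDiff_const))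
  i0 := fun u hu => by
    unfold ca
    refine st_of_le ?_
    rw [sub_nonpos, div_le_one h]
    linarith
  i1 := fun u hu => by
    unfold ca
    refine st_of_ge ?_
    have : (2 : ℝ) ≤ 2 * u / u0 := by rw [le_div_iff₀ h]; linarith
    linarith
  in0 := fun u => st_nonneg _
  in1 := fun u => st_le_one _
  o0 := fun u hu => by
    unfold cb
    have hW0 := h.trans_le hW
    have : (2 : ℝ) ≤ u / W := by rw [le_div_iff₀ hW0]; linarith
    rw [st_of_ge (by linarith)]
    ring
  o1 := fun u hu => by
    unfold cb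
    have hW0 := h.trans_le hW
    have : u / W ≤ 1 := by rw [div_le_one hW0]; exact hu
    rw [st_of_le (by linarith)]
    ring
  on0 := fun u => by
    unfold cb
    linarith [st_le_one (u / W - 1)]
  on1 := fun u => by
    unfold cb
    linarith [st_nonneg (u / W - 1)]

theorem WW_eq (θ ω : ℝ) : (XV D v).WW θ ω = ArmExC_649.WW D v θ ω := by
  unfold XD.WW ArmExC_649.WW XV
  rw [Finset.sum_subtype (univ.filter fun e => (D.bx e).S = {v.castSucc, 3})
    (p := fun e => (D.bx e).S = {v.castSucc, 3}) (fun e => by simp)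
    (fun e => HubDefs_284.ww D e v.castSucc θ * HubDefs_284.ww D e 3 ω)]

theorem hE_eq (u0 W : ℝ) : (XV D v).hE (ca u0) (cb W) = HE D v u0 W := by
  funext z
  unfold XD.hE HE
  rw [WW_eq]
  rfl

theorem exit3P (hD : DOk D) (b : Bool) (v : Fin 3) : Exit3 b D v := by
  obtain ⟨u1, h1, W1, h2, H⟩ := exit3 hD.hlo hD.hM3 hD.hs3 v
  refine ⟨u1, h1, max W1 u1, fun u0 W hu0 hu hW => ?_⟩
  have := H u0 W (ca u0) (cb W) hu ((le_max_left _ _).trans hW)
    (co_ca hu0 (hu.trans ((le_max_right _ _).trans hW))) b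
  rw [hE_eq] at this
  exact this

/-- **EXIT for `f`.** -/
theorem exit_f (v : Fin 3) : NAsm_407.ExitP true DfL v := exitP_f v (exit3P dok_f true v)

/-- **EXIT for `g`.** -/
theorem exit_g (v : Fin 3) : NAsm_407.ExitP false DgL v := exitP_g v (exit3P dok_g false v)

/-- **C1 for `f`.** -/
theorem arms_f : HubAsm_284.ArmsP true DfL := NAsmF_407.armsP true DfL exit_f

/-- **C1 for `g`.** -/
theorem arms_g : HubAsm_284.ArmsP false DgL := NAsmF_407.armsP false DgL exit_g

end Crest.Agent.R267.ExitF_649
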