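import Crest.Agent.R267.GlueDefs_322
import Crest.Agent.R267.Calc2_957

/-!
# Row 267 (helper125): GLUE-LIFT, the phase of the planar function `pl`
-/

set_option autoImplicit false

noncomputable section

namespace Crest.Agent.R267.GlLift_125

open Finset
open Crest.Agent.R267.T3aDefs_957 Crest.Agent.R267.Calc_957 Crest.Agent.R267.Ang_739

/-! ### lifting -/

/-- **lift of a nonvanishing `C²` curve.** -/
theorem lift {g : ℝ → ℂ} (hg : ContDiff ℝ 2 g) (h0 : ∀ x, g x ≠ 0) (a φ0 : ℝ)
    (ha : g a = (‖g a‖ : ℂ) * cis φ0) :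
    ∃ φ : ℝ → ℝ, φ a = φ0 ∧ ContDiff ℝ 2 φ ∧ (∀ x, HasDerivAt φ (deriv g x / g x).im x) ∧
      ∀ x, g x = (‖g x‖ : ℂ) * cis (φ x) := by
  have hgd : Differentiable ℝ g := hg.differentiable (by norm_num)
  have hdg : ContDiff ℝ 1 (deriv g) := by
    have h1 : ContDiff ℝ (1 + 1) g := by norm_num; exact hg
    exact (contDiff_succ_iff_deriv.1 h1).2.2
  set q : ℝ → ℂ := fun x => deriv g x / g x with hq
  have hqc : ContDiff ℝ 1 q := by
    have h1 : q = fun x => deriv g x * (g x)⁻¹ := by
      funext x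
      exact div_eq_mul_inv _ _
    rw [h1]
    exact hdg.mul (ContDiff.inv (hg.of_le (by norm_num)) h0)
  have hqc' : Continuous q := hqc.continuous
  have hΦ : ∀ x, HasDerivAt (fun y => ∫ t in a..y, q t) (q x) x := fun x =>
    intervalIntegral.integral_hasDerivAt_right (hqc'.intervalIntegrable _ _)
      (hqc'.stronglyMeasurableAtFilter _ _) hqc'.continuousAt
  set Φ : ℝ → ℂ := fun y => ∫ t in a..y, q t with hΦdef
  have hΦa : Φ a = 0 := intervalIntegral.integral_same
  have hu : ∀ x, HasDerivAt (fun y => g y * Complex.exp (-Φ y)) 0 x := by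
    intro x
    have h1 := (hgd x).hasDerivAt.mul ((hΦ x).fun_neg.cexp)
    refine h1.congr_deriv ?_
    have h2 : deriv g x = q x * g x := by rw [hq]; field_simp [h0 x]
    rw [h2]
    ring
  have hconst : ∀ x, g x * Complex.exp (-Φ x) = g a := by
    intro x
    have h1 := is_const_of_deriv_eq_zero (f := fun y => g y * Complex.exp (-Φ y))
      (fun y => (hu y).differentiableAt) (fun y => (hu y).deriv) x a
    simpa [hΦa] using h1
  have hgx : ∀ x, g x = g a * Complex.exp (Φ x) := by
    intro x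
    rw [← hconst x, mul_assoc, ← Complex.exp_add]
    simp
  have hgx' : ∀ x, g x = ((‖g a‖ * Real.exp (Φ x).re : ℝ) : ℂ) * cis (φ0 + (Φ x).im) := by
    intro x
    rw [hgx x, ha, norm_mul, norm_cis, Complex.norm_real, norm_norm]
    have h1 : Complex.exp (Φ x) = Complex.exp ((Φ x).re : ℂ) * Complex.exp ((Φ x).im * Complex.I) := by
      rw [← Complex.exp_add, Complex.re_add_im]
    rw [h1]
    unfold cis
    push_cast
    rw [add_mul, Complex.exp_add]
    ring
  have him : ∀ x, HasDerivAt (fun y => (Φ y).im) (q x).im x := fun x =>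
    Complex.imCLM.hasFDerivAt.comp_hasDerivAt x (hΦ x)
  refine ⟨fun x => φ0 + (Φ x).im, by simp [hΦa], ?_, fun x => (him x).const_add φ0, fun x => ?_⟩
  · refine contDiff_const.add ?_
    have h1 : ContDiff ℝ (1 + 1) fun x => (Φ x).im := by
      rw [contDiff_succ_iff_deriv]
      refine ⟨fun x => (him x).differentiableAt, by simp, ?_⟩
      have : deriv (fun x => (Φ x).im) = fun x => (q x).im := funext fun x => (him x).deriv
      rw [this]
      exact Complex.imCLM.contDiff.comp hqc
    norm_num at h1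
    exact h1
  · have h1 : ‖g x‖ = ‖g a‖ * Real.exp (Φ x).re := by
      rw [hgx' x, norm_mul, norm_cis, mul_one, Complex.norm_real, Real.norm_eq_abs,
        abs_of_nonneg (by positivity)]
    rw [h1]
    exact hgx' x

theorem cis_eq_one {y : ℝ} (h : cis y = 1) : ∃ n : ℤ, y = 2 * Real.pi * n := by
  unfold cis at h
  obtain ⟨n, hn⟩ := Complex.exp_eq_one_iff.1 h
  refine ⟨n, ?_⟩
  have h1 : (y : ℂ) = ((2 * Real.pi * n : ℝ) : ℂ) := by
    have h2 : (y : ℂ) * Complex.I = (n * (2 * Real.pi)) * Complex.I := by rw [hn]; ring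
    have h3 := mul_right_cancel₀ Complex.I_ne_zero h2
    rw [h3]
    push_cast
    ring
  exact_mod_cast h1

theorem cis_re (x : ℝ) : (cis x).re = Real.cos x := Complex.exp_ofReal_mul_I_re x

theorem cis_im (x : ℝ) : (cis x).im = Real.sin x := Complex.exp_ofReal_mul_I_im x

/-- one turn between consecutive positive points. -/
theorem step {g : ℝ → ℂ} {φ : ℝ → ℝ} (hφ : Continuous φ) (hm : StrictMono φ) (h0 : ∀ x, g x ≠ 0)
    (hg : ∀ x, g x = (‖g x‖ : ℂ) * cis (φ x)) {a b : ℝ} (hab : a < b) {n : ℤ}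
    (ha : φ a = 2 * Real.pi * n) (hb : (g b).im = 0) (hb' : 0 < (g b).re)
    (hno : ∀ x, a < x → x < b → (g x).im = 0 → 0 < (g x).re → False) :
    φ b = 2 * Real.pi * (n + 1) := by
  have hpi := Real.pi_pos
  have hnb : 0 < ‖g b‖ := norm_pos_iff.2 (h0 b)
  have h1 : (g b : ℂ) = ((g b).re : ℂ) := Complex.ext rfl (by simp [hb])
  have h2 : ‖g b‖ = (g b).re := by
    rw [h1, Complex.norm_real, Real.norm_eq_abs, Complex.ofReal_re, abs_of_pos hb']
  have h3 : cis (φ b) = 1 := by
    have h4 := hg b
    rw [h1, ← h1] at h4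
    have h5 : (‖g b‖ : ℂ) * 1 = (‖g b‖ : ℂ) * cis (φ b) := by
      rw [← h4, mul_one, h2, ← h1]
    exact (mul_left_cancel₀ (by exact_mod_cast hnb.ne') h5).symm
  obtain ⟨m, hm'⟩ := cis_eq_one h3
  have h4 : φ a < φ b := hm hab
  rw [ha, hm'] at h4
  have h5 : (n : ℝ) < m := lt_of_mul_lt_mul_left h4 (by positivity)
  have h6 : n + 1 ≤ m := by exact_mod_cast h5
  rcases eq_or_lt_of_le h6 with h7 | h7
  · rw [hm', ← h7]
    push_cast
    ring
  · exfalso
    have h8 : ((n : ℝ) + 1) < m := by exact_mod_cast h7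
    have hy1 : φ a ≤ 2 * Real.pi * (n + 1) := by rw [ha]; nlinarith
    have hy2 : 2 * Real.pi * (n + 1) ≤ φ b := by rw [hm']; nlinarith
    obtain ⟨x, hx, hx'⟩ := intermediate_value_Icc hab.le hφ.continuousOn ⟨hy1, hy2⟩
    have hxa : a < x := by
      rcases eq_or_lt_of_le hx.1 with h | h
      · rw [← h, ha] at hx'
        nlinarith
      · exact h
    have hxb : x < b := by
      rcases eq_or_lt_of_le hx.2 with h | h
      · rw [h, hm'] at hx'
        nlinarith
      · exact h
    have hcx : cis (φ x) = 1 := by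
      rw [hx']
      have := cis_per 0 (n + 1)
      rw [zero_add] at this
      push_cast at this
      rw [this]
      simp [cis]
    have hgx := hg x
    rw [hcx, mul_one] at hgx
    refine hno x hxa hxb ?_ ?_
    · rw [hgx]; simp
    · rw [hgx]; simpa using h0 x

/-- an arc on which `cos φ ≥ 0`. -/
theorem arc {φ : ℝ → ℝ} (hφ : Continuous φ) {a x : ℝ} {n : ℤ} (ha : φ a = 2 * Real.pi * n)
    (hc : ∀ y ∈ Set.uIcc a x, 0 ≤ Real.cos (φ y)) : |φ x - 2 * Real.pi * n| ≤ Real.pi / 2 := by
  have hpi := Real.pi_pos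
  by_contra hcon
  rw [not_le] at hcon
  rcases le_total 0 (φ x - 2 * Real.pi * n) with h | h
  · rw [abs_of_nonneg h] at hcon
    set δ := min (φ x - 2 * Real.pi * n) Real.pi with hδ
    have hδ1 : Real.pi / 2 < δ := lt_min hcon (by linarith)
    have hδ2 : δ ≤ Real.pi := min_le_right _ _
    have hδ3 : δ ≤ φ x - 2 * Real.pi * n := min_le_left _ _
    have hmem : 2 * Real.pi * n + δ ∈ Set.uIcc (φ a) (φ x) := by
      rw [Set.mem_uIcc]
      left
      rw [ha]
      constructor <;> linarith
    obtain ⟨y, hy, hy'⟩ := intermediate_value_uIcc hφ.continuousOn hmem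
    have h1 := hc y hy
    rw [hy', add_comm, show 2 * Real.pi * (n : ℝ) = n * (2 * Real.pi) by ring,
      Real.cos_add_int_mul_two_pi] at h1
    have h2 := Real.cos_neg_of_pi_div_two_lt_of_lt hδ1 (by linarith)
    linarith
  · rw [abs_of_nonpos h] at hcon
    set δ := min (-(φ x - 2 * Real.pi * n)) Real.pi with hδ
    have hδ1 : Real.pi / 2 < δ := lt_min hcon (by linarith)
    have hδ2 : δ ≤ Real.pi := min_le_right _ _
    have hδ3 : δ ≤ -(φ x - 2 * Real.pi * n) := min_le_left _ _
    have hmem : 2 * Real.pi * n - δ ∈ Set.uIcc (φ a) (φ x) := by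
      rw [Set.mem_uIcc]
      right
      rw [ha]
      constructor <;> linarith
    obtain ⟨y, hy, hy'⟩ := intermediate_value_uIcc hφ.continuousOn hmem
    have h1 := hc y hy
    rw [hy', show 2 * Real.pi * (n : ℝ) - δ = -δ + n * (2 * Real.pi) by ring,
      Real.cos_add_int_mul_two_pi, Real.cos_neg] at h1
    have h2 := Real.cos_neg_of_pi_div_two_lt_of_lt hδ1 (by linarith)
    linarith

/-! ### the loop turns counterclockwise -/

/-- cross product. -/
def cr (p q : ℂ) : ℝ := p.re * q.im - p.im * q.re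

theorem Afd_neg (v : ℝ) : Afd (-v) = -Afd v := by unfold Afd; rw [neg_neg]; ring

theorem Bfd_neg (v : ℝ) : Bfd (-v) = Bfd v := by unfold Bfd; rw [neg_neg]; ring

theorem Af_neg (v : ℝ) : Af (-v) = Af v := by unfold Af; rw [abs_neg]

theorem st_mem {w : ℝ} (h : 0 ≤ w) (h1 : w ≤ 1) : st w = w ^ 3 * (10 - 15 * w + 6 * w ^ 2) := by
  unfold st; rw [c01_of_mem h h1]

theorem std_mem {w : ℝ} (h : 0 ≤ w) (h1 : w ≤ 1) : std w = 30 * w ^ 2 * (1 - w) ^ 2 := by
  unfold std; rw [c01_of_mem h h1]

/-- values for `v = 1 + 2 w`. -/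
theorem vals {w : ℝ} (h : 0 ≤ w) (h1 : w ≤ 1) :
    Af (1 + 2 * w) = 1 - 2 * st w ∧ Afd (1 + 2 * w) = -std w ∧
      Bf (1 + 2 * w) = 1 + 2 * w - 4 * w ^ 3 + 2 * w ^ 4 ∧
      Bfd (1 + 2 * w) = 1 - 6 * w ^ 2 + 4 * w ^ 3 := by
  refine ⟨?_, ?_, ?_, ?_⟩
  · unfold Af
    rw [abs_of_nonneg (by linarith)]
    congr 3
    ring
  · unfold Afd
    rw [std_of_le (by linarith : (-(1 + 2 * w) - 1) / 2 ≤ 0)]
    have : (1 + 2 * w - 1) / 2 = w := by ring
    rw [this]
    ring
  · rw [Bf_of_nonneg (by linarith), gf_of_mem (by linarith) (by linarith)]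
    ring
  · unfold Bfd
    rw [gfd_of_mem (by linarith) (by linarith), gfd_of_le (by linarith)]
    ring

theorem Bf_w {w : ℝ} (h : 0 ≤ w) (h1 : w ≤ 1) : 1 ≤ 1 + 2 * w - 4 * w ^ 3 + 2 * w ^ 4 := by
  have h2 : 1 + 2 * w - 4 * w ^ 3 + 2 * w ^ 4 = 1 + 2 * w * ((1 - w) * (1 + w * (1 - w))) := by ring
  rw [h2]
  have h3 : 0 ≤ 1 - w := by linarith
  have h4 : 0 ≤ 2 * w * ((1 - w) * (1 + w * (1 - w))) := by positivity
  linarith

/-- the loop, `v ≥ 0`. -/
theorem loop_pos {ga : ℝ} (h0 : 0 < ga) (h8 : ga ≤ 1 / 8) {v : ℝ} (hv : 0 ≤ v) :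
    0 < (-(1 - ga) + Af v) * Bfd v - Bf v * Afd v := by
  rcases le_total v 1 with h1 | h1
  · have ha : |v| ≤ 1 := abs_le.2 ⟨by linarith, h1⟩
    rw [Af_of_le ha, Bfd_of_abs_le ha, Afd_of_abs_le ha]
    linarith
  · rcases le_total v 3 with h3 | h3
    · set w := (v - 1) / 2 with hw
      have hv' : v = 1 + 2 * w := by rw [hw]; ring
      have hw0 : 0 ≤ w := by rw [hw]; linarith
      have hw1 : w ≤ 1 := by rw [hw]; linarith
      obtain ⟨e1, e2, e3, e4⟩ := vals hw0 hw1
      rw [hv', e1, e2, e3, e4, ]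
      have hB := Bf_w hw0 hw1
      have hs := std_nonneg w
      rcases le_total w (1 / 2) with h2 | h2
      · have hB2 : 0 ≤ 1 - 6 * w ^ 2 + 4 * w ^ 3 := by
          have : 1 - 6 * w ^ 2 + 4 * w ^ 3 = (1 - 2 * w) * (1 + 2 * w * (1 - w)) := by ring
          rw [this]
          have : 0 ≤ 1 - 2 * w := by linarith
          have : 0 ≤ 1 - w := by linarith
          positivity
        rcases eq_or_lt_of_le hw0 with h00 | h00
        · rw [← h00, st_of_le le_rfl, std_of_le le_rfl]
          linarith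
        · have key : 2 * st w * (1 - 6 * w ^ 2 + 4 * w ^ 3) < std w := by
            rw [st_mem hw0 hw1, std_mem hw0 hw1]
            have e : 2 * (w ^ 3 * (10 - 15 * w + 6 * w ^ 2)) * (1 - 6 * w ^ 2 + 4 * w ^ 3) =
                w ^ 2 * (2 * ((w * (1 - 2 * w)) * ((10 - 15 * w + 6 * w ^ 2) *
                  (1 + 2 * w * (1 - w))))) := by ring
            rw [e, show 30 * w ^ 2 * (1 - w) ^ 2 = w ^ 2 * (30 * (1 - w) ^ 2) by ring]
            refine mul_lt_mul_of_pos_left ?_ (by positivity)
            have a1 : w * (1 - 2 * w) ≤ 1 / 8 := by nlinarith [sq_nonneg (w - 1 / 4)]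
            have a1' : 0 ≤ w * (1 - 2 * w) := mul_nonneg hw0 (by linarith)
            have a2 : 10 - 15 * w + 6 * w ^ 2 ≤ 10 := by nlinarith
            have a2' : 0 ≤ 10 - 15 * w + 6 * w ^ 2 := by nlinarith
            have a3 : 1 + 2 * w * (1 - w) ≤ 3 / 2 := by nlinarith [sq_nonneg (w - 1 / 2)]
            have a3' : 0 ≤ 1 + 2 * w * (1 - w) := by
              have : 0 ≤ 1 - w := by linarith
              positivity
            have a4 : (10 - 15 * w + 6 * w ^ 2) * (1 + 2 * w * (1 - w)) ≤ 10 * (3 / 2) :=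
              mul_le_mul a2 a3 a3' (by norm_num)
            have a5 : (w * (1 - 2 * w)) * ((10 - 15 * w + 6 * w ^ 2) * (1 + 2 * w * (1 - w))) ≤
                1 / 8 * (10 * (3 / 2)) :=
              mul_le_mul a1 a4 (mul_nonneg a2' a3') (by norm_num)
            have a6 : 1 / 4 ≤ (1 - w) ^ 2 := by nlinarith
            linarith
          have b1 : std w ≤ (1 + 2 * w - 4 * w ^ 3 + 2 * w ^ 4) * std w := by nlinarith
          have b2 : 0 ≤ ga * (1 - 6 * w ^ 2 + 4 * w ^ 3) := mul_nonneg h0.le hB2
          nlinarith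
      · have hB2 : 0 ≤ -(1 - 6 * w ^ 2 + 4 * w ^ 3) := by
          have : -(1 - 6 * w ^ 2 + 4 * w ^ 3) = (2 * w - 1) * (1 + 2 * w * (1 - w)) := by ring
          rw [this]
          have : 0 ≤ 2 * w - 1 := by linarith
          have : 0 ≤ 1 - w := by linarith
          positivity
        have hst : 1 / 2 ≤ st w := by
          have := st_mono h2
          rw [st_mem (by norm_num : (0 : ℝ) ≤ 1 / 2) (by norm_num)] at this
          norm_num at this ⊢
          linarith
        have c1 : 0 ≤ (2 * st w - ga) * -(1 - 6 * w ^ 2 + 4 * w ^ 3) :=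
          mul_nonneg (by linarith) hB2
        rcases eq_or_lt_of_le hw1 with h11 | h11
        · rw [h11, st_of_ge le_rfl, std_of_ge le_rfl]
          linarith
        · have hs' : 0 < std w := std_pos (by linarith) h11
          have c2 : 0 < (1 + 2 * w - 4 * w ^ 3 + 2 * w ^ 4) * std w := by positivity
          nlinarith
    · rw [Af_of_ge (by rw [abs_of_nonneg hv]; exact h3), Bfd_of_ge h3, Afd_of_ge h3]
      linarith

theorem loop_pos' {ga : ℝ} (h0 : 0 < ga) (h8 : ga ≤ 1 / 8) (v : ℝ) :
    0 < (-(1 - ga) + Af v) * Bfd v - Bf v * Afd v := by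
  rcases le_total 0 v with h | h
  · exact loop_pos h0 h8 h
  · have := loop_pos h0 h8 (v := -v) (by linarith)
    rw [Af_neg, Bfd_neg, Bf_neg, Afd_neg] at this
    linarith

theorem cr_pv {ga : ℝ} (h0 : 0 < ga) (h8 : ga ≤ 1 / 8) (M : ℕ) (τ : ℝ) :
    0 < cr (pv ga M τ) (pvd M τ) := by
  unfold cr
  rcases cases_tau M τ with h | ⟨l, hl, h⟩ | h
  · rw [pv_low (by linarith), pvd_low (by linarith)]
    simp
    linarith
  · rw [pv_cell hl h, pvd_cell hl h]
    have := loop_pos' h0 h8 (τ - sg l)
    simpa using this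
  · rw [pv_high (by linarith), pvd_high (by linarith)]
    have h1 := std_nonneg (τ - 8 * M)
    have h2 : (0 : ℝ) ≤ M := Nat.cast_nonneg M
    have h3 : 0 < (2 - ga) * (1 + 8 * M * std (τ - 8 * M)) := by
      have : 0 < 2 - ga := by linarith
      positivity
    simp
    nlinarith

/-! ### the planar function on the circle -/

theorem contDiffAt_pl (ga : ℝ) (M : ℕ) {z : ℂ} (hz : z ≠ 0) : ContDiffAt ℝ 2 (pl ga M) z := by
  have hre : ContDiff ℝ 2 fun w : ℂ => w.re := Complex.reCLM.contDiff
  have him : ContDiff ℝ 2 fun w : ℂ => w.im := Complex.imCLM.contDiff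
  have hlin : ContDiff ℝ 2 fun w : ℂ => -((2 - ga : ℝ) : ℂ) * w.re - Complex.I * w.im :=
    (contDiff_const.mul (Complex.ofRealCLM.contDiff.comp hre)).sub
      (contDiff_const.mul (Complex.ofRealCLM.contDiff.comp him))
  rcases le_or_gt z.re 0 with h0 | h0
  · refine hlin.contDiffAt.congr_of_eventuallyEq ?_
    filter_upwards [Calc2_957.far_nhds (M := M) h0 hz] with w hw
    exact pl_of_far (Or.inl hw)
  · have h1 : ContDiffAt ℝ 2 (fun w : ℂ => (w.re : ℂ) * pv ga M (w.im / w.re)) z := by
      refine ContDiffAt.mul (Complex.ofRealCLM.contDiff.comp hre).contDiffAt ?_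
      exact (contDiff_pv ga M).contDiffAt.comp z (him.contDiffAt.div hre.contDiffAt h0.ne')
    refine h1.congr_of_eventuallyEq ?_
    filter_upwards [(isOpen_lt continuous_const Complex.continuous_re).mem_nhds h0] with w hw
    exact pl_of_pos hw

theorem cis_ne (x : ℝ) : cis x ≠ 0 := Complex.exp_ne_zero _

/-- the planar function on the circle. -/
def gg (ga : ℝ) (M : ℕ) (x : ℝ) : ℂ := pl ga M (cis x)

theorem contDiff_gg (ga : ℝ) (M : ℕ) : ContDiff ℝ 2 (gg ga M) := by
  rw [contDiff_iff_contDiffAt]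
  intro x
  exact (contDiffAt_pl ga M (cis_ne x)).comp x contDiff_cis.contDiffAt

theorem gg_per (ga : ℝ) (M : ℕ) (x : ℝ) : gg ga M (x + 2 * Real.pi) = gg ga M x := by
  unfold gg
  have := cis_per x 1
  rw [Int.cast_one, mul_one] at this
  rw [this]

theorem hasDerivAt_gg (ga : ℝ) (M : ℕ) (x : ℝ) :
    HasDerivAt (gg ga M) (-(Real.sin x) • Calc2_957.pa ga M (cis x) +
      Real.cos x • Calc2_957.pb M (cis x)) x := by
  have h := (Calc2_957.hasFDerivAt_pl ga M (cis_ne x)).comp_hasDerivAt x (hasDerivAt_cis x)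
  refine h.congr_deriv ?_
  have h1 : (Complex.I * cis x).re = -Real.sin x := by rw [← cis_im]; simp
  have h2 : (Complex.I * cis x).im = Real.cos x := by rw [← cis_re]; simp
  simp only [_root_.add_apply, ContinuousLinearMap.smulRight_apply,
    Complex.reCLM_apply, Complex.imCLM_apply, h1, h2]

theorem cr_gg {ga : ℝ} (h0 : 0 < ga) (h8 : ga ≤ 1 / 8) (M : ℕ) (x : ℝ) :
    0 < cr (gg ga M x) (deriv (gg ga M) x) := by
  rw [(hasDerivAt_gg ga M x).deriv]
  have hcs := Real.sin_sq_add_cos_sq x
  rcases le_or_gt (Real.cos x) 0 with hc | hc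
  · have hz : (cis x).re ≤ 0 := by rw [cis_re]; exact hc
    have hz' : ¬ 0 < (cis x).re := not_lt.2 hz
    unfold cr gg Calc2_957.pa Calc2_957.pb
    rw [pl_of_nonpos hz, if_neg hz', if_neg hz', cis_re, cis_im]
    clear hz hz' hc
    generalize Real.cos x = c at *
    generalize Real.sin x = s at *
    have h2 : 0 < 2 - ga := by linarith
    simp
    nlinarith
  · have hz : 0 < (cis x).re := by rw [cis_re]; exact hc
    have hp := cr_pv h0 h8 M (Real.sin x / Real.cos x)
    unfold cr gg Calc2_957.pa Calc2_957.pb at *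
    rw [pl_of_pos hz, if_pos hz, if_pos hz, cis_re, cis_im]
    obtain ⟨τ, hτ⟩ : ∃ τ, τ = Real.sin x / Real.cos x := ⟨_, rfl⟩
    have e : Real.sin x = τ * Real.cos x := by rw [hτ]; field_simp
    rw [← hτ] at hp ⊢
    rw [e] at hcs ⊢
    clear hz hτ e
    generalize pv ga M τ = p at *
    generalize pvd M τ = p' at *
    generalize Real.cos x = c at *
    have : (c * p.re) * (-(τ * c) * (p.im - τ * p'.im) + c * p'.im) -
        (c * p.im) * (-(τ * c) * (p.re - τ * p'.re) + c * p'.re) =
        p.re * p'.im - p.im * p'.re := by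
      have : (c * p.re) * (-(τ * c) * (p.im - τ * p'.im) + c * p'.im) -
        (c * p.im) * (-(τ * c) * (p.re - τ * p'.re) + c * p'.re) =
        ((τ * c) ^ 2 + c ^ 2) * (p.re * p'.im - p.im * p'.re) := by ring
      rw [this, hcs, one_mul]
    rw [← this] at hp
    simpa using hp

theorem gg_ne {ga : ℝ} (h0 : 0 < ga) (h8 : ga ≤ 1 / 8) (M : ℕ) (x : ℝ) : gg ga M x ≠ 0 := by
  intro h
  have := cr_gg h0 h8 M x
  unfold cr at this
  rw [h] at this
  simp at this

/-! ### positive points -/

theorem Bf_pos {v : ℝ} (h : 0 < v) (h4 : v < 4) : 0 < Bf v := by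
  rcases le_total v 1 with h1 | h1
  · rw [Bf_of_abs_le (abs_le.2 ⟨by linarith, h1⟩)]; exact h
  · rcases le_total v 3 with h3 | h3
    · have hv' : v = 1 + 2 * ((v - 1) / 2) := by ring
      have hw0 : 0 ≤ (v - 1) / 2 := by linarith
      have hw1 : (v - 1) / 2 ≤ 1 := by linarith
      rw [hv', (vals hw0 hw1).2.2.1]
      have := Bf_w hw0 hw1
      linarith
    · rw [Bf_of_ge h3]; linarith

/-- the only positive value in a period of the loop is at `v = 0`. -/
theorem pv_pos_real {ga : ℝ} (h8 : ga ≤ 1 / 8) {M : ℕ} {τ : ℝ}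
    (him : (pv ga M τ).im = 0) (hre : 0 < (pv ga M τ).re) : ∃ l < M, τ = sg l := by
  rcases cases_tau M τ with h | ⟨l, hl, h⟩ | h
  · rw [pv_low (by linarith)] at hre
    simp at hre
    linarith
  · refine ⟨l, hl, ?_⟩
    rw [pv_cell hl h] at him hre
    simp at him hre
    set v := τ - sg l with hv
    rw [abs_le] at h
    have hv0 : v = 0 := by
      by_contra hne
      rcases lt_or_gt_of_ne hne with h1 | h1
      · rcases eq_or_lt_of_le h.1 with h2 | h2
        · rw [← h2, Af_of_ge (by norm_num)] at hre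
          linarith
        · have := Bf_pos (v := -v) (by linarith) (by linarith)
          rw [Bf_neg] at this
          linarith
      · rcases eq_or_lt_of_le h.2 with h2 | h2
        · rw [h2, Af_of_ge (by norm_num)] at hre
          linarith
        · have := Bf_pos h1 h2
          linarith
    linarith
  · rw [pv_high (by linarith)] at hre
    simp at hre
    linarith

theorem gg_of_cos_pos {ga : ℝ} {M : ℕ} {x : ℝ} (hc : 0 < Real.cos x) :
    gg ga M x = (Real.cos x : ℂ) * pv ga M (Real.tan x) := by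
  unfold gg
  rw [pl_of_pos (by rw [cis_re]; exact hc), cis_re, cis_im, Real.tan_eq_sin_div_cos]

theorem gg_of_cos_nonpos {ga : ℝ} {M : ℕ} {x : ℝ} (hc : Real.cos x ≤ 0) :
    gg ga M x = -((2 - ga : ℝ) : ℂ) * Real.cos x - Complex.I * Real.sin x := by
  unfold gg
  rw [pl_of_nonpos (by rw [cis_re]; exact hc), cis_re, cis_im]

theorem pos_real {ga : ℝ} (h8 : ga ≤ 1 / 8) {M : ℕ} {x : ℝ} (hx : -Real.pi < x)
    (hx' : x < Real.pi) (him : (gg ga M x).im = 0) (hre : 0 < (gg ga M x).re) :
    ∃ l < M, x = Real.arctan (sg l) := by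
  rcases le_or_gt (Real.cos x) 0 with hc | hc
  · exfalso
    rw [gg_of_cos_nonpos hc] at him
    simp at him
    have h1 := (Real.sin_eq_zero_iff_of_lt_of_lt hx hx').1 him
    rw [h1, Real.cos_zero] at hc
    linarith
  · have hx1 : -(Real.pi / 2) < x := by
      by_contra hcon
      rw [not_lt] at hcon
      have := Real.cos_nonpos_of_pi_div_two_le_of_le (x := -x) (by linarith) (by linarith)
      rw [Real.cos_neg] at this
      linarith
    have hx2 : x < Real.pi / 2 := by
      by_contra hcon
      rw [not_lt] at hcon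
      have := Real.cos_nonpos_of_pi_div_two_le_of_le hcon (by linarith)
      linarith
    rw [gg_of_cos_pos hc] at him hre
    rw [Complex.im_ofReal_mul] at him
    rw [Complex.re_ofReal_mul] at hre
    have h1 : (pv ga M (Real.tan x)).im = 0 := by
      rcases mul_eq_zero.1 him with h | h
      · linarith
      · exact h
    have h2 : 0 < (pv ga M (Real.tan x)).re := by
      by_contra hcon
      rw [not_lt] at hcon
      nlinarith
    obtain ⟨l, hl, h3⟩ := pv_pos_real h8 h1 h2
    exact ⟨l, hl, by rw [← h3, Real.arctan_tan hx1 hx2]⟩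

theorem ray {ga : ℝ} (h0 : 0 < ga) {M l : ℕ} (hl : l < M) :
    (gg ga M (Real.arctan (sg l))).im = 0 ∧ 0 < (gg ga M (Real.arctan (sg l))).re := by
  have hc := Real.cos_arctan_pos (sg l)
  rw [gg_of_cos_pos hc, Real.tan_arctan, pv_cell hl (by simp), sub_self, Af_of_le (by simp),
    Bf_of_abs_le (by simp), Complex.im_ofReal_mul, Complex.re_ofReal_mul]
  constructor
  · simp
  · refine mul_pos hc ?_
    simp
    exact h0

theorem gg_neg_pi (ga : ℝ) (M : ℕ) : gg ga M (-Real.pi) = ((2 - ga : ℝ) : ℂ) := by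
  rw [gg_of_cos_nonpos (by simp)]
  simp

theorem gg_pi (ga : ℝ) (M : ℕ) : gg ga M Real.pi = ((2 - ga : ℝ) : ℂ) := by
  rw [gg_of_cos_nonpos (by simp)]
  simp

theorem sg_lt {l l' : ℕ} : sg l < sg l' ↔ l < l' := by
  constructor
  · intro h
    by_contra hcon
    rw [not_lt] at hcon
    unfold sg at h
    have : (l' : ℝ) ≤ l := by exact_mod_cast hcon
    linarith
  · intro h
    have := sg_add h
    linarith

/-! ### the theorem -/

theorem liftP {ga : ℝ} (h0 : 0 < ga) (h8 : ga ≤ 1 / 8) {M : ℕ} (hM : 1 ≤ M) :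
    GlueDefs_322.LiftP ga M := by
  have hpi := Real.pi_pos
  obtain ⟨φ, hφa, hφs, hφd, hφg⟩ := lift (contDiff_gg ga M) (gg_ne h0 h8 M) (-Real.pi)
    (2 * Real.pi) (by
      rw [gg_neg_pi, Complex.norm_real, Real.norm_eq_abs, abs_of_pos (by linarith)]
      have := cis_per 0 1
      rw [zero_add, Int.cast_one, mul_one] at this
      rw [this]
      simp [cis])
  have hφc : Continuous φ := hφs.continuous
  have hdpos : ∀ x, 0 < deriv φ x := by
    intro x
    rw [(hφd x).deriv, Complex.div_im]
    have h1 := cr_gg h0 h8 M x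
    have h2 : 0 < Complex.normSq (gg ga M x) := Complex.normSq_pos.2 (gg_ne h0 h8 M x)
    unfold cr at h1
    rw [← sub_div]
    apply div_pos _ h2
    linarith
  have hmono : StrictMono φ := strictMono_of_deriv_pos hdpos
  -- the points
  have hray : ∀ l : ℕ, l < M → φ (Real.arctan (sg l)) = 2 * Real.pi * ((l : ℤ) + 2 : ℤ) := by
    intro l
    induction l with
    | zero =>
      intro hl
      have hr := ray h0 hl
      have h1 := step (n := 1) hφc hmono (gg_ne h0 h8 M) hφg (a := -Real.pi)
        (b := Real.arctan (sg 0)) (by linarith [Real.neg_pi_div_two_lt_arctan (sg 0)])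
        (by rw [hφa]; simp) hr.1 hr.2 (by
          intro x hx hx' hi hre
          obtain ⟨l', -, hl'⟩ := pos_real h8 hx
            (by linarith [Real.arctan_lt_pi_div_two (sg 0)]) hi hre
          rw [hl'] at hx'
          have := Real.arctan_strictMono.lt_iff_lt.1 hx'
          rw [sg_lt] at this
          omega)
      rw [h1]
      push_cast
      ring
    | succ l ih =>
      intro hl
      have hr := ray h0 hl
      have h1 := step (n := (l : ℤ) + 2) hφc hmono (gg_ne h0 h8 M) hφg
        (a := Real.arctan (sg l)) (b := Real.arctan (sg (l + 1)))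
        (Real.arctan_strictMono (sg_lt.2 (by omega)))
        (ih (by omega)) hr.1 hr.2 (by
          intro x hx hx' hi hre
          obtain ⟨l', -, hl'⟩ := pos_real h8
            (by linarith [Real.neg_pi_div_two_lt_arctan (sg l)])
            (by linarith [Real.arctan_lt_pi_div_two (sg (l + 1))]) hi hre
          rw [hl'] at hx hx'
          have h2 := Real.arctan_strictMono.lt_iff_lt.1 hx'
          have h3 := Real.arctan_strictMono.lt_iff_lt.1 hx
          rw [sg_lt] at h2 h3
          omega)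
      rw [h1]
      push_cast
      ring
  have hpiv : φ Real.pi = 2 * Real.pi * ((M : ℤ) + 2 : ℤ) := by
    obtain ⟨k, rfl⟩ : ∃ k, M = k + 1 := ⟨M - 1, by omega⟩
    have h1 := step (n := (k : ℤ) + 2) hφc hmono (gg_ne h0 h8 (k + 1)) hφg
      (a := Real.arctan (sg k)) (b := Real.pi)
      (by linarith [Real.arctan_lt_pi_div_two (sg k)])
      (hray k (by omega)) (by rw [gg_pi]; simp) (by
        rw [gg_pi, Complex.ofReal_re]; linarith) (by
        intro x hx hx' hi hre
        obtain ⟨l', hl2, hl'⟩ := pos_real h8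
          (by linarith [Real.neg_pi_div_two_lt_arctan (sg k)]) hx' hi hre
        rw [hl'] at hx
        have h3 := Real.arctan_strictMono.lt_iff_lt.1 hx
        rw [sg_lt] at h3
        omega)
    rw [h1]
    push_cast
    ring
  have hcos : ∀ x, 0 ≤ (gg ga M x).re → 0 ≤ Real.cos (φ x) := by
    intro x hx
    have h1 := congrArg Complex.re (hφg x)
    rw [Complex.re_ofReal_mul, cis_re] at h1
    have h2 : 0 < ‖gg ga M x‖ := norm_pos_iff.2 (gg_ne h0 h8 M x)
    by_contra hcon
    rw [not_le] at hcon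
    nlinarith
  refine ⟨φ, ⟨hφs, ?_, hdpos⟩, hφg, ?_, ?_⟩
  · -- degree
    have hper : ∀ x, deriv φ (x + 2 * Real.pi) = deriv φ x := by
      intro x
      rw [(hφd _).deriv, (hφd x).deriv, gg_per]
      have : deriv (gg ga M) (x + 2 * Real.pi) = deriv (gg ga M) x := by
        have h1 : (fun y => gg ga M (y + 2 * Real.pi)) = gg ga M := funext (gg_per ga M)
        have h2 := deriv_comp_add_const (gg ga M) (2 * Real.pi) x
        rw [h1] at h2
        exact h2.symm
      rw [this]
    have hd : Differentiable ℝ φ := fun x => (hφd x).differentiableAt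
    have hconst : ∀ x y, φ (x + 2 * Real.pi) - φ x = φ (y + 2 * Real.pi) - φ y := by
      intro x y
      have hz : ∀ x, HasDerivAt (fun x => φ (x + 2 * Real.pi) - φ x) 0 x := by
        intro x
        have h1 := (HasDerivAt.comp_add_const x (2 * Real.pi) (hd (x + 2 * Real.pi)).hasDerivAt)
        refine (h1.sub (hd x).hasDerivAt).congr_deriv ?_
        rw [hper]
        exact sub_self _
      exact is_const_of_deriv_eq_zero (f := fun x => φ (x + 2 * Real.pi) - φ x)
        (fun x => (hz x).differentiableAt) (fun x => (hz x).deriv) x y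
    intro x
    have h1 := hconst x (-Real.pi)
    rw [show -Real.pi + 2 * Real.pi = Real.pi by ring, hpiv, hφa] at h1
    push_cast at h1 ⊢
    linarith
  · intro x hx hx'
    have h1 := arc hφc (n := (M : ℤ) + 2) hpiv (x := x) (by
      intro y hy
      apply hcos
      have hy1 : Real.pi / 2 ≤ y ∧ y ≤ Real.pi + Real.pi / 2 := by
        rw [Set.mem_uIcc] at hy
        rcases hy with hy | hy <;> constructor <;> linarith
      have hc := Real.cos_nonpos_of_pi_div_two_le_of_le hy1.1 hy1.2
      rw [gg_of_cos_nonpos hc]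
      generalize Real.cos y = c at *
      generalize Real.sin y = s at *
      simp
      nlinarith)
    push_cast at h1
    exact h1
  · intro x hx hx' hre
    have hre' : 0 ≤ (gg ga M x).re := hre
    have hc : 0 < Real.cos x := Real.cos_pos_of_mem_Ioo ⟨hx, hx'⟩
    have hre2 : 0 ≤ (pv ga M (Real.tan x)).re := by
      rw [gg_of_cos_pos hc, Complex.re_ofReal_mul] at hre'
      by_contra hcon
      rw [not_le] at hcon
      nlinarith
    rcases cases_tau M (Real.tan x) with h | ⟨l, hl, h⟩ | h
    · exfalso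
      rw [pv_low (by linarith)] at hre2
      simp at hre2
      linarith
    · have hcell := hre2
      rw [pv_cell hl h] at hcell
      have hA : 1 - ga ≤ Af (Real.tan x - sg l) := by
        have : 0 ≤ -(1 - ga) + Af (Real.tan x - sg l) := by simpa using hcell
        linarith
      have hv : |Real.tan x - sg l| ≤ 3 / 2 := by
        by_contra hcon
        rw [not_le] at hcon
        have h1 : (1 : ℝ) / 4 ≤ (|Real.tan x - sg l| - 1) / 2 := by linarith
        have h2 := st_mono h1
        rw [st_mem (by norm_num) (by norm_num)] at h2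
        unfold Af at hA
        norm_num at h2
        linarith
      refine ⟨l, hl, hv, ?_⟩
      have h1 := arc hφc (n := (l : ℤ) + 2) (hray l hl) (x := x) (by
        intro y hy
        apply hcos
        -- y between arctan (sg l) and x
        have hal := Real.neg_pi_div_two_lt_arctan (sg l)
        have hal' := Real.arctan_lt_pi_div_two (sg l)
        have hy1 : -(Real.pi / 2) < y ∧ y < Real.pi / 2 := by
          rw [Set.mem_uIcc] at hy
          rcases hy with hy | hy <;> constructor <;> linarith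
        have hcy : 0 < Real.cos y := Real.cos_pos_of_mem_Ioo hy1
        have hty : |Real.tan y - sg l| ≤ |Real.tan x - sg l| := by
          have htm : StrictMonoOn Real.tan (Set.Ioo (-(Real.pi / 2)) (Real.pi / 2)) :=
            Real.strictMonoOn_tan
          have hta : Real.tan (Real.arctan (sg l)) = sg l := Real.tan_arctan _
          rw [Set.mem_uIcc] at hy
          rcases hy with hy | hy
          · have t1 := htm.monotoneOn ⟨hal, hal'⟩ hy1 hy.1
            have t2 := htm.monotoneOn hy1 ⟨hx, hx'⟩ hy.2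
            rw [hta] at t1
            rw [abs_of_nonneg (by linarith), abs_of_nonneg (by linarith)]
            linarith
          · have t1 := htm.monotoneOn ⟨hx, hx'⟩ hy1 hy.1
            have t2 := htm.monotoneOn hy1 ⟨hal, hal'⟩ hy.2
            rw [hta] at t2
            rw [abs_of_nonpos (by linarith), abs_of_nonpos (by linarith)]
            linarith
        rw [gg_of_cos_pos hcy, Complex.re_ofReal_mul]
        refine mul_nonneg hcy.le ?_
        rw [pv_cell hl (hty.trans h)]
        have hA' : Af (Real.tan x - sg l) ≤ Af (Real.tan y - sg l) := by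
          unfold Af
          have := st_mono (show (|Real.tan y - sg l| - 1) / 2 ≤ (|Real.tan x - sg l| - 1) / 2 by
            linarith)
          linarith
        have : 0 ≤ -(1 - ga) + Af (Real.tan y - sg l) := by linarith
        simpa using this)
      push_cast at h1
      exact h1
    · exfalso
      rw [pv_high (by linarith)] at hre2
      simp at hre2
      linarith

end Crest.Agent.R267.GlLift_125
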