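import Crest.Agent.R267.GlueDefs_322

/-!
# Row 267 (helper451): GLUE-LISTS, `GL1h → GL1`

Reindexing (`SEq`, `Tame`, `F8`) along an equivalence, and the reversal of a list.
-/

set_option autoImplicit false

noncomputable section

open Finset Set
open Crest.Agent.R267.T3aDefs_957 Crest.Agent.R267.Hm_951 Crest.Agent.R267.Ang_739
open Crest.Agent.R267.Sys_808 Crest.Agent.R267.P413Def_322 Crest.Agent.R267.GS_808
open Crest.Agent.R267.Cone_808 Crest.Agent.R267.DraftB_808 Crest.Agent.R267.TopAsm_808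
open Crest.Agent.R267.GlueDefs_322

namespace Crest.Agent.R267.GlLists_451

variable {ι ι' : Type} [Fintype ι] [Fintype ι']

/-- reindexing as a homeomorphism -/
def re (e : ι ≃ ι') : (ι' → ℂ) ≃ₜ (ι → ℂ) where
  toFun x i := x (e i)
  invFun y i := y (e.symm i)
  left_inv x := by funext i; simp
  right_inv y := by funext i; simp
  continuous_toFun := continuous_pi fun i => continuous_apply _
  continuous_invFun := continuous_pi fun i => continuous_apply _

theorem re_act (e : ι ≃ ι') (w : ι → ℝ) (s : ℝ) (x : ι' → ℂ) :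
    re e (act (fun i => w (e.symm i)) s x) = act w s (re e x) := by
  funext i
  simp [re, act]

/-- `SEq` along a reindexing -/
theorem seq_re (e : ι ≃ ι') {f : (ι → ℂ) → ℂ} {g : (ι' → ℂ) → ℂ}
    (h : ∀ x, g x = f (fun i => x (e i))) : SEq f g := by
  intro κ _ u hu
  refine ⟨sphReindex (e.sumCongr (Equiv.refl κ)), fun s => ?_⟩
  have h1 : oplus g u (sphReindex (e.sumCongr (Equiv.refl κ)) s) = oplus f u s := by
    show g _ + u _ = f _ + u _
    rw [h]
    congr 1
    · congr 1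
      funext i
      rw [sphReindex_apply]
      simp
  rw [h1]

/-- `Tame` along a reindexing -/
theorem tame_re (e : ι ≃ ι') {f : (ι → ℂ) → ℂ} {g : (ι' → ℂ) → ℂ}
    (h : ∀ x, g x = f (fun i => x (e i))) (hf : Tame f) : Tame g := by
  obtain ⟨w, E, i1, i2, i3, G, Ψ, hw, hG, hΨ, hf⟩ := hf
  refine ⟨fun i => w (e.symm i), E, i1, i2, i3, G, (re e).trans Ψ, fun i => hw _, hG,
    fun s x => ?_, fun x => ?_⟩
  · show Ψ (re e (act _ s x)) = _
    rw [re_act, hΨ]
    rfl
  · rw [h]
    exact hf _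

/-- `F8` along a reindexing -/
theorem F8_re [DecidableEq ι'] (e : ι ≃ ι') (K cB ga : ℝ) {M : ι → ℕ} {M' : ι' → ℕ}
    (hM : ∀ i, M' (e i) = M i) (C : Finset (ι × ι × ℕ)) (x : ι' → ℂ) :
    F8 K cB ga M' (C.image fun t => (e t.1, e t.2.1, t.2.2)) x = F8 K cB ga M C (fun i => x (e i)) := by
  unfold F8
  have h1 : ∑ j, P8 K ga (M' j) (x j) = ∑ j, P8 K ga (M j) (x (e j)) := by
    rw [← Equiv.sum_comp e]
    refine Finset.sum_congr rfl fun i _ => ?_
    rw [hM]
  have h2 : ∑ t ∈ C.image (fun t : ι × ι × ℕ => (e t.1, e t.2.1, t.2.2)),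
      H8 K t.2.2 (M' t.1) (M' t.2.1) (x t.1) (x t.2.1) =
      ∑ t ∈ C, H8 K t.2.2 (M t.1) (M t.2.1) (x (e t.1)) (x (e t.2.1)) := by
    rw [Finset.sum_image]
    · refine Finset.sum_congr rfl fun t _ => ?_
      simp only [hM]
    · intro a _ b _ hab
      simp only [Prod.mk.injEq, EmbeddingLike.apply_eq_iff_eq] at hab
      exact Prod.ext hab.1 (Prod.ext hab.2.1 hab.2.2)
  rw [h1, h2]

/-- the reversal -/
def rv {n : ℕ} {c : List ℕ} (h : c.length = n + 1) : Fin (n + 1) ≃ Fin c.length :=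
  Fin.revPerm.trans (finCongr h.symm)

theorem rv_val {n : ℕ} {c : List ℕ} (h : c.length = n + 1) (i : Fin (n + 1)) :
    ((rv h i : Fin c.length) : ℕ) = n - i := by
  simp [rv, Fin.val_rev]

/-- the exponents, head first -/
def av {n : ℕ} {c : List ℕ} (h : c.length = n + 1) (i : Fin (n + 1)) : ℕ := c.get (rv h i)

theorem ofFn_av {n : ℕ} {c : List ℕ} (h : c.length = n + 1) :
    (List.ofFn fun i : Fin (n + 1) => av h i.rev) = c := by
  apply List.ext_get
  · rw [List.length_ofFn, h]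
  · intro k h1 h2
    rw [List.get_ofFn]
    unfold av
    congr 1
    apply Fin.ext
    rw [rv_val]
    simp only [Fin.val_rev, Fin.val_cast]
    rw [h] at h2
    omega

theorem exps_av {n : ℕ} {c : List ℕ} (h : c.length = n + 1) (hc : Pierce c) :
    LobeDefs_407.Exps (av h) := by
  constructor
  · intro i j hij
    have h1 := List.pairwise_iff_get.1 hc.2
    refine h1 _ _ ?_
    rw [Fin.lt_def, rv_val, rv_val]
    have h2 := j.2
    rw [Fin.lt_def] at hij
    omega
  · intro i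
    exact hc.1 _ (List.get_mem _ _)

theorem Mc_rv {n : ℕ} {c : List ℕ} (h : c.length = n + 1) (i : Fin (n + 1)) :
    Mc c (rv h i) = Mh (av h) i := by
  unfold Mc Mh av
  rw [rv_val]
  have h2 := i.2
  by_cases h0 : i = 0
  · subst h0
    rw [if_neg (by rw [h]; simp), if_pos rfl]
  · have h3 : (i : ℕ) ≠ 0 := fun h4 => h0 (Fin.ext h4)
    rw [if_pos (by omega), if_neg h0]

theorem Cc_rv {n : ℕ} {c : List ℕ} (h : c.length = n + 1) :
    Cc c = (Ch (av h)).image fun t => (rv h t.1, rv h t.2.1, t.2.2) := by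
  unfold Cc Ch
  ext ⟨p, q, r⟩
  simp only [Finset.mem_image, Finset.mem_filter, Finset.mem_univ, true_and, Prod.mk.injEq,
    Prod.exists]
  constructor
  · rintro ⟨x, y, h1, h2, h3, h4⟩
    subst h2 h3
    have hx : ((rv h).symm x : ℕ) + x = n := by
      have h5 := rv_val h ((rv h).symm x)
      rw [Equiv.apply_symm_apply] at h5
      have h6 := ((rv h).symm x).2
      omega
    have hy : ((rv h).symm y : ℕ) + y = n := by
      have h5 := rv_val h ((rv h).symm y)
      rw [Equiv.apply_symm_apply] at h5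
      have h6 := ((rv h).symm y).2
      omega
    have hlt : ((rv h).symm x : ℕ) < n := by omega
    refine ⟨(rv h).symm x, (rv h).symm y, r, ⟨⟨(rv h).symm x, hlt⟩, ?_, ?_, ?_⟩, ?_, ?_, rfl⟩
    · exact Fin.ext rfl
    · apply Fin.ext
      simp only [Fin.val_succ]
      omega
    · rw [← h4]
      unfold av
      congr 1
      apply Fin.ext
      rw [rv_val]
      simp only [Fin.val_succ]
      omega
    · exact Equiv.apply_symm_apply _ _
    · exact Equiv.apply_symm_apply _ _
  · rintro ⟨x, y, z, ⟨e, h1, h2, h3⟩, h4, h5, h6⟩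
    subst h1 h2 h3 h4 h5 h6
    refine ⟨_, _, ?_, rfl, rfl, ?_⟩
    · rw [rv_val, rv_val]
      simp only [Fin.val_succ, Fin.val_castSucc]
      have := e.2
      omega
    · rfl

/-- **GLUE-LISTS** -/
theorem gl1_of (H : GL1h) : GL1 := by
  intro c hne hc K ga cB h1 h2 h3 h4
  obtain ⟨n, hn⟩ : ∃ n, c.length = n + 1 :=
    Nat.exists_eq_succ_of_ne_zero (fun h => hne (List.eq_nil_of_length_eq_zero h))
  have h5 : ∀ i, 8 * (Mh (av hn) i : ℝ) + 2 ≤ K := by
    intro i
    rw [← Mc_rv hn]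
    exact h4 _
  obtain ⟨h6, h7⟩ := H n (av hn) (exps_av hn hc) K ga cB h1 h2 h3 h5
  rw [ofFn_av] at h6
  have h8 : ∀ x, L8 K cB ga c x = F8 K cB ga (Mh (av hn)) (Ch (av hn)) (fun i => x (rv hn i)) := by
    intro x
    unfold L8
    rw [Cc_rv hn, F8_re (rv hn) K cB ga (Mc_rv hn)]
  exact ⟨h6.trans (seq_re (rv hn) h8), tame_re (rv hn) h8 h7⟩

end Crest.Agent.R267.GlLists_451

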