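import Mathlib
import Crest.Agent.R267.GlBas_322
import Crest.Agent.R267.AngB_739

/-!
# Row 267: GLUE-STAR (helper52)

`star`: the lobe states of T3b (`LobeDefs_407`) with the phases of the planar functions `pl ga M`
give the function `FS` of `GlueDefs_322` (planar radial homeomorphism `z ↦ (pg z / |z|) z`).
-/

set_option autoImplicit false
set_option linter.unusedSectionVars false

noncomputable section

open Set Filter Topology Finset
open Crest.Agent.R267.T3aDefs_957 Crest.Agent.R267.GlueDefs_322 Crest.Agent.R267.Calc_957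
open Crest.Agent.R267.GlBas_322 Crest.Agent.R267.Ang_739 Crest.Agent.R267.Hm_951
open Crest.Agent.R267.Cone_808 Crest.Agent.R267.Sys_808

namespace Crest.Agent.R267.GlStar_52

/-! ### `pl ≠ 0` -/

theorem Bf_pos {v : ℝ} (h0 : 0 < v) (h4 : v < 4) : 0 < Bf v := by
  rcases le_total v 1 with h | h
  · rw [Bf_of_abs_le (by rw [abs_of_pos h0]; exact h)]
    exact h0
  · rcases le_total v 3 with h3 | h3
    · have h5 : |2 - v| ≤ 1 := by rw [abs_le]; constructor <;> linarith
      have h6 : (2 - v) ^ 2 ≤ 1 := by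
        rw [← sq_abs]
        nlinarith [abs_nonneg (2 - v)]
      unfold Bf Q1
      rw [Real.sign_of_pos h0, abs_of_pos h0, if_pos h5]
      nlinarith [sq_nonneg ((2 - v) ^ 2)]
    · rw [Bf_of_ge h3]
      linarith

theorem pl_ne {ga : ℝ} {M : ℕ} (h0 : 0 < ga) (h1 : ga ≤ 1 / 8) {z : ℂ} (hz : z ≠ 0) :
    pl ga M z ≠ 0 := by
  intro h
  rcases le_or_gt z.re 0 with hr | hr
  · rw [pl_of_nonpos hr] at h
    have e1 := congrArg Complex.re h
    have e2 := congrArg Complex.im h
    simp at e1 e2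
    apply hz
    refine Complex.ext ?_ e2
    rcases e1 with e1 | e1
    · linarith
    · exact e1
  · rw [pl_of_pos hr] at h
    have h2 : pv ga M (z.im / z.re) = 0 := by
      refine (mul_eq_zero.1 h).resolve_left ?_
      exact_mod_cast hr.ne'
    set τ := z.im / z.re
    rcases cases_tau M τ with h3 | ⟨l, hl, h3⟩ | h3
    · rw [pv_low (by linarith)] at h2
      have e1 := congrArg Complex.re h2
      simp at e1
      linarith
    · rw [pv_cell hl h3] at h2
      have e1 := congrArg Complex.re h2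
      have e2 := congrArg Complex.im h2
      simp only [Complex.add_re, Complex.ofReal_re, Complex.I_re, mul_zero,
        Complex.mul_re, zero_mul, Complex.ofReal_im, Complex.I_im, sub_self, add_zero,
        Complex.zero_re] at e1
      simp only [Complex.add_im, Complex.ofReal_im, Complex.mul_im, Complex.I_re, Complex.I_im,
        Complex.ofReal_re, one_mul, zero_add, mul_zero, Complex.zero_im] at e2
      set v := τ - sg l
      rw [abs_le] at h3
      rcases lt_trichotomy v 0 with h4 | h4 | h4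
      · rcases h3.1.lt_or_eq with h5 | h5
        · have h6 := Bf_pos (v := -v) (by linarith) (by linarith)
          rw [Bf_neg] at h6
          linarith
        · have h6 := Af_of_ge (v := v) (by rw [← h5]; norm_num)
          linarith
      · rw [h4, Af_of_le (by norm_num)] at e1
        linarith
      · rcases h3.2.lt_or_eq with h5 | h5
        · have h6 := Bf_pos (v := v) h4 h5
          linarith
        · have h6 := Af_of_ge (v := v) (by rw [h5]; norm_num)
          linarith
    · rw [pv_high (by linarith)] at h2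
      have e1 := congrArg Complex.re h2
      simp at e1
      linarith

/-! ### the window on the lobes -/

theorem win_lobe {m M l : ℕ} (hl : l < M) {τ : ℝ} (h : |τ - sg l| ≤ 3 / 2) :
    win m M τ = if m ≤ l then 1 else 0 := by
  rw [abs_le] at h
  have hM : (l : ℝ) + 1 ≤ M := by exact_mod_cast hl
  unfold sg at h
  unfold win
  rw [st_of_le (x := (τ - (8 * M - 1)) / 2) (by linarith), sub_zero, mul_one]
  split_ifs with hm
  · have : (m : ℝ) ≤ l := by exact_mod_cast hm
    exact st_of_ge (by linarith)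
  · have : (l : ℝ) + 1 ≤ m := by exact_mod_cast (not_le.1 hm)
    exact st_of_le (by linarith)

/-! ### level functions -/

/-- the block of lobes `m ≤ k < d`. -/
theorem exists_lev {d m : ℕ} (hd : 1 ≤ d) (hm : m ≤ d) : ∃ l : ℝ → ℝ, LobeDefs_407.Lev d l ∧
    ∀ k < d, ∀ x : ℝ, |x - 2 * Real.pi * (k + 1)| ≤ Real.pi / 2 →
      l x = if m ≤ k then 1 else 0 := by
  have hpi := Real.pi_pos
  -- values imply flatness
  have key : ∀ l : ℝ → ℝ, ContDiff ℝ 2 l → (∀ x, l (x + 2 * Real.pi * d) = l x) →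
      (∀ x, 0 ≤ l x) → (∀ x, l x ≤ 1) →
      (∀ k < d, ∀ x : ℝ, |x - 2 * Real.pi * (k + 1)| ≤ Real.pi / 2 →
        l x = if m ≤ k then 1 else 0) → ∀ x, 0 ≤ Real.cos x → deriv l x = 0 := by
    intro l _ hper h0 h1 hval x hx
    refine deriv_zero_of_range h0 h1 ?_
    -- nearest multiple of `2π`
    set j : ℤ := ⌊(x + Real.pi) / (2 * Real.pi)⌋ with hj
    have hj1 := Int.floor_le ((x + Real.pi) / (2 * Real.pi))
    have hj2 := Int.lt_floor_add_one ((x + Real.pi) / (2 * Real.pi))
    rw [← hj] at hj1 hj2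
    rw [le_div_iff₀ (by positivity)] at hj1
    rw [div_lt_iff₀ (by positivity)] at hj2
    have hy : |x - 2 * Real.pi * j| ≤ Real.pi / 2 := by
      by_contra hn
      push Not at hn
      have h5 : Real.cos x = Real.cos |x - 2 * Real.pi * j| := by
        rw [Real.cos_abs, show x - 2 * Real.pi * j = x - j * (2 * Real.pi) by ring,
          Real.cos_sub_int_mul_two_pi]
      have h6 : |x - 2 * Real.pi * j| ≤ Real.pi := by
        rw [abs_le]; constructor <;> nlinarith
      rw [h5] at hx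
      have h7 := Real.cos_neg_of_pi_div_two_lt_of_lt hn (by linarith)
      linarith
    -- reduce modulo `d`
    have hd0 : (d : ℤ) ≠ 0 := by exact_mod_cast (by omega : d ≠ 0)
    obtain ⟨k, hk⟩ := Int.eq_ofNat_of_zero_le (Int.emod_nonneg (j - 1) hd0)
    have hkd : k < d := by
      have := Int.emod_lt_of_pos (j - 1) (show (0 : ℤ) < d by exact_mod_cast hd)
      rw [hk] at this
      exact_mod_cast this
    have hdiv := Int.emod_add_mul_ediv (j - 1) d
    rw [hk] at hdiv
    set q := (j - 1) / (d : ℤ)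
    have hper' : l (x - 2 * Real.pi * d * q) = l x := by
      have h8 : Function.Periodic l (2 * Real.pi * d) := fun y => hper y
      have h9 := h8.sub_int_mul_eq (x := x) q
      rwa [mul_comm (q : ℝ)] at h9
    have hx' : |(x - 2 * Real.pi * d * q) - 2 * Real.pi * (k + 1)| ≤ Real.pi / 2 := by
      have h9 : (j : ℝ) = k + 1 + d * q := by
        have : j = (k : ℤ) + 1 + d * q := by
          linarith [hdiv]
        exact_mod_cast this
      have h10 : (x - 2 * Real.pi * d * q) - 2 * Real.pi * (k + 1) = x - 2 * Real.pi * j := by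
        rw [h9]; ring
      rw [h10]
      exact hy
    have h11 := hval k hkd _ hx'
    rw [← hper', h11]
    split_ifs
    · exact Or.inr rfl
    · exact Or.inl rfl
  rcases hm.lt_or_eq with hlt | heq
  · -- one bump
    have hdp : (0 : ℝ) < d := by exact_mod_cast (by omega : 0 < d)
    have hmd : (m : ℝ) + 1 ≤ d := by exact_mod_cast hlt
    have hm0 : (0 : ℝ) ≤ m := Nat.cast_nonneg m
    set c : ℝ := Real.pi * (m + 1 + d) with hc
    set w1 : ℝ := Real.pi * (d - m - 1) + Real.pi / 2 with hw1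
    set w2 : ℝ := Real.pi * (d - m) with hw2
    have a1 : 0 ≤ w1 := by
      have : 0 ≤ Real.pi * (d - m - 1) := mul_nonneg hpi.le (by linarith)
      linarith
    have a2 : w1 < w2 := by rw [hw1, hw2]; nlinarith
    have a3 : w2 ≤ Real.pi * d := mul_le_mul_of_nonneg_left (by linarith) hpi.le
    have hval : ∀ k < d, ∀ x : ℝ, |x - 2 * Real.pi * (k + 1)| ≤ Real.pi / 2 →
        sb d c w1 w2 x = if m ≤ k then 1 else 0 := by
      intro k hk x hx
      have hk' : (k : ℝ) + 1 ≤ d := by exact_mod_cast hk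
      have hk0 : (0 : ℝ) ≤ k := Nat.cast_nonneg k
      rw [abs_le] at hx
      split_ifs with hmk
      · have hmk' : (m : ℝ) ≤ k := by exact_mod_cast hmk
        refine sb_one hd a1 a2 a3 ?_
        rw [abs_le]
        constructor
        · rw [hc, hw1]; nlinarith
        · rw [hc, hw1]; nlinarith
      · have hmk' : (k : ℝ) + 1 ≤ m := by exact_mod_cast (not_le.1 hmk)
        have b1 : w2 ≤ c - x := by rw [hc, hw2]; nlinarith
        have b0 : 0 ≤ w2 := by linarith
        rcases le_total (c - x) (Real.pi * d) with h5 | h5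
        · refine sb_zero hd a1 a2 a3 ?_ ?_
          · rw [abs_sub_comm, abs_of_nonneg (by linarith)]; exact b1
          · rw [abs_sub_comm, abs_of_nonneg (by linarith)]; exact h5
        · rw [← sb_per hd]
          have b2 : w2 ≤ x + 2 * Real.pi * d - c := by rw [hc, hw2]; nlinarith
          refine sb_zero hd a1 a2 a3 ?_ ?_
          · rw [abs_of_nonneg (by linarith)]; exact b2
          · rw [abs_of_nonneg (by linarith)]; linarith
    have hsm : ContDiff ℝ 2 (sb d c w1 w2) := contDiff_sb d c w1 w2 (n := 2)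
    refine ⟨sb d c w1 w2, ⟨hsm, fun x => sb_per hd c w1 w2 x, fun x => sb_nonneg _ _ _ _ _,
      fun x => sb_le_one _ _ _ _ _, ?_⟩, hval⟩
    exact key _ hsm (fun x => sb_per hd c w1 w2 x) (fun x => sb_nonneg _ _ _ _ _)
      (fun x => sb_le_one _ _ _ _ _) hval
  · refine ⟨fun _ => 0, ⟨contDiff_const, fun _ => rfl, fun _ => le_rfl, fun _ => zero_le_one,
      fun x _ => by simp⟩, fun k hk x _ => ?_⟩
    rw [if_neg (by omega)]

/-! ### the cut-offs -/

theorem polar (z : ℂ) : z = (‖z‖ : ℂ) * cis (Complex.arg z) :=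
  (Complex.norm_mul_exp_arg_mul_I z).symm

/-- the data of `LiftP` -/
structure LiftD (ga : ℝ) (M : ℕ) (φ : ℝ → ℝ) : Prop where
  pha : LobeDefs_407.Pha (M + 1) φ
  pl : ∀ x, pl ga M (cis x) = (‖pl ga M (cis x)‖ : ℂ) * cis (φ x)
  plate : ∀ x, Real.pi / 2 ≤ x → x ≤ 3 * Real.pi / 2 → |φ x - 2 * Real.pi * (M + 2)| ≤ Real.pi / 2
  lobe : ∀ x, -(Real.pi / 2) < x → x < Real.pi / 2 → 0 ≤ (T3aDefs_957.pl ga M (cis x)).re →
    ∃ l < M, |Real.tan x - sg l| ≤ 3 / 2 ∧ |φ x - 2 * Real.pi * (l + 2)| ≤ Real.pi / 2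

theorem cut_val {ga : ℝ} {m M : ℕ} {φ l : ℝ → ℝ} (hφ : LiftD ga M φ)
    (hl : LobeDefs_407.Lev (M + 1) l)
    (hv : ∀ k < M + 1, ∀ x : ℝ, |x - 2 * Real.pi * (k + 1)| ≤ Real.pi / 2 →
      l x = if m + 1 ≤ k then 1 else 0) {z : ℂ} (hz : z ≠ 0) (hre : 0 ≤ (pl ga M z).re) :
    l (φ (Complex.arg z)) = if 0 < z.re then win m M (z.im / z.re) else 0 := by
  have hpi := Real.pi_pos
  have hzn : 0 < ‖z‖ := norm_pos_iff.2 hz
  have hre' : 0 ≤ (pl ga M (cis (Complex.arg z))).re := by
    have h1 : pl ga M z = (‖z‖ : ℂ) * pl ga M (cis (Complex.arg z)) := by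
      conv_lhs => rw [polar z]
      exact pl_smul hzn _
    rw [h1, Complex.re_ofReal_mul] at hre
    exact nonneg_of_mul_nonneg_right hre hzn
  split_ifs with hr
  · have h2 := abs_lt.1 (Complex.abs_arg_lt_pi_div_two_iff.2 (Or.inl hr))
    obtain ⟨k, hk, h3, h4⟩ := hφ.lobe _ h2.1 h2.2 hre'
    rw [Complex.tan_arg] at h3
    rw [win_lobe hk h3, hv (k + 1) (by omega) _ (by
      have e : (((k + 1 : ℕ) : ℝ) + 1) = (k : ℝ) + 2 := by push_cast; ring
      rw [e]; exact h4)]
    simp only [Nat.add_le_add_iff_right]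
  · have hr' : ¬ |Complex.arg z| < Real.pi / 2 := by
      rw [Complex.abs_arg_lt_pi_div_two_iff]
      push Not
      exact ⟨not_lt.1 hr, hz⟩
    push Not at hr'
    have h5 := Complex.neg_pi_lt_arg z
    have h6 := Complex.arg_le_pi z
    have h7 : ∀ y : ℝ, |y - 2 * Real.pi * (M + 2)| ≤ Real.pi / 2 → l y = 0 := by
      intro y hy
      have e1 := hl.per (y - 2 * Real.pi * ((M + 1 : ℕ) : ℝ))
      rw [sub_add_cancel] at e1
      rw [e1, hv 0 (by omega) _ ?_, if_neg (by omega)]
      have e2 : y - 2 * Real.pi * ((M + 1 : ℕ) : ℝ) - 2 * Real.pi * (((0 : ℕ) : ℝ) + 1) =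
          y - 2 * Real.pi * (M + 2) := by push_cast; ring
      rw [e2]
      exact hy
    rcases le_total 0 (Complex.arg z) with h8 | h8
    · rw [abs_of_nonneg h8] at hr'
      exact h7 _ (hφ.plate _ hr' (by linarith))
    · rw [abs_of_nonpos h8] at hr'
      have h9 := h7 _ (hφ.plate (Complex.arg z + 2 * Real.pi) (by linarith) (by linarith))
      rw [hφ.pha.deg] at h9
      rw [← h9, hl.per]

theorem cutL {ga : ℝ} {m M : ℕ} {φ l : ℝ → ℝ} (hφ : LiftD ga M φ)
    (hl : LobeDefs_407.Lev (M + 1) l)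
    (hv : ∀ k < M + 1, ∀ x : ℝ, |x - 2 * Real.pi * (k + 1)| ≤ Real.pi / 2 →
      l x = if m + 1 ≤ k then 1 else 0) : CutL ga m M fun z => l (φ (Complex.arg z)) := by
  have hper : Per fun x => l (φ x) := fun x => by
    change l (φ (x + 2 * Real.pi)) = l (φ x)
    rw [hφ.pha.deg, hl.per]
  have hsm : ContDiff ℝ 2 fun x => l (φ x) := hl.smooth.comp hφ.pha.smooth
  refine ⟨fun z hz => ?_, fun r hr z => ?_, fun z => hl.nn _, fun z => hl.le _,
    fun z hz hre => ?_, fun z hz hre => cut_val hφ hl hv hz hre⟩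
  · exact (contDiffAt_ang hper hz hsm.contDiffAt).contDiffWithinAt
  · rw [Complex.arg_real_mul _ hr]
  · have h1 := cut_val hφ hl hv hz hre
    have h2 : l (φ (Complex.arg z)) = 0 ∨ l (φ (Complex.arg z)) = 1 := by
      rw [h1]
      have hzn : 0 < ‖z‖ := norm_pos_iff.2 hz
      split_ifs with hr
      · have hre' : 0 ≤ (pl ga M (cis (Complex.arg z))).re := by
          have h1 : pl ga M z = (‖z‖ : ℂ) * pl ga M (cis (Complex.arg z)) := by
            conv_lhs => rw [polar z]
            exact pl_smul hzn _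
          rw [h1, Complex.re_ofReal_mul] at hre
          exact nonneg_of_mul_nonneg_right hre hzn
        have h2 := abs_lt.1 (Complex.abs_arg_lt_pi_div_two_iff.2 (Or.inl hr))
        obtain ⟨k, hk, h3, h4⟩ := hφ.lobe _ h2.1 h2.2 hre'
        rw [Complex.tan_arg] at h3
        rw [win_lobe hk h3]
        split_ifs
        · exact Or.inr rfl
        · exact Or.inl rfl
      · exact Or.inl rfl
    have h3 : HasDerivAt (fun x => l (φ x)) 0 (Complex.arg z) :=
      hasDerivAt_zero_of_range (fun x => hl.nn _) (fun x => hl.le _)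
        (hsm.differentiable (by norm_num) _) h2
    have h4 := (hasFDerivAt_ang hper hz h3).fderiv
    rw [h4]
    ext w
    simp


/-! ### the radial homeomorphism -/

theorem continuousAt_pg {K : ℝ} {z : ℂ} (hz : z ≠ 0) : ContinuousAt (pg K) z := by
  have h0 : z.re ^ 2 + z.im ^ 2 ≠ 0 := by
    intro h
    have h1 := sq_nonneg z.re
    have h2 := sq_nonneg z.im
    exact hz (Complex.ext (by simpa using (by linarith : z.re ^ 2 = 0))
      (by simpa using (by linarith : z.im ^ 2 = 0)))
  have hre : ContinuousAt (fun z : ℂ => z.re ^ 2) z := by fun_prop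
  have him : ContinuousAt (fun z : ℂ => z.im ^ 2) z := by fun_prop
  unfold pg gq
  refine (Real.continuous_sqrt.continuousAt).comp ?_
  refine hre.add (ContinuousAt.div ?_ ?_ ?_)
  · exact (continuousAt_const.max (him.sub (continuousAt_const.mul hre))).pow 3
  · exact continuousAt_const.mul ((hre.add him).pow 2)
  · exact mul_ne_zero (by positivity) (pow_ne_zero 2 h0)

/-- a bounded radial stretch is continuous. -/
theorem continuous_stretch {u : ℂ → ℝ} (hc : ∀ z, z ≠ 0 → ContinuousAt u z)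
    (hh : ∀ r : ℝ, 0 < r → ∀ z, u ((r : ℂ) * z) = u z) :
    Continuous fun z => (u z : ℂ) * z := by
  obtain ⟨C, hC⟩ : ∃ C, ∀ z ∈ Metric.sphere (0 : ℂ) 1, ‖u z‖ ≤ C := by
    refine (isCompact_sphere (0 : ℂ) 1).exists_bound_of_continuousOn fun z hz => ?_
    refine (hc z ?_).continuousWithinAt
    rintro rfl
    simp at hz
  have hb : ∀ z, z ≠ 0 → ‖u z‖ ≤ C := by
    intro z hz
    have hn : 0 < ‖z‖ := norm_pos_iff.2 hz
    have h1 := hh ‖z‖⁻¹ (inv_pos.2 hn) z
    rw [← h1]
    apply hC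
    rw [mem_sphere_zero_iff_norm, norm_mul, Complex.norm_real, norm_inv, norm_norm,
      inv_mul_cancel₀ hn.ne']
  rw [continuous_iff_continuousAt]
  intro z
  by_cases hz : z = 0
  · subst hz
    have h2 : Tendsto (fun z : ℂ => C * ‖z‖) (𝓝 0) (𝓝 0) := by
      have : Tendsto (fun z : ℂ => C * ‖z‖) (𝓝 0) (𝓝 (C * ‖(0 : ℂ)‖)) :=
        (continuous_const.mul continuous_norm).tendsto 0
      simpa using this
    have h3 : Tendsto (fun z : ℂ => (u z : ℂ) * z) (𝓝 0) (𝓝 0) := by
      rw [tendsto_zero_iff_norm_tendsto_zero]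
      refine squeeze_zero (fun z => norm_nonneg _) (fun z => ?_) h2
      by_cases hz : z = 0
      · subst hz; simp
      · rw [norm_mul, Complex.norm_real]
        exact mul_le_mul_of_nonneg_right (hb z hz) (norm_nonneg _)
    unfold ContinuousAt
    simpa using h3
  · exact (Complex.continuous_ofReal.continuousAt.comp (hc z hz)).mul continuousAt_id

/-- `|k z| = pg z` -/
def uu (K : ℝ) (z : ℂ) : ℝ := pg K z / ‖z‖

/-- the inverse factor -/
def vv (K : ℝ) (z : ℂ) : ℝ := ‖z‖ / pg K z

theorem uu_hom (K : ℝ) (r : ℝ) (hr : 0 < r) (z : ℂ) : uu K ((r : ℂ) * z) = uu K z := by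
  unfold uu
  rw [pg_smul hr, norm_mul, Complex.norm_real, Real.norm_of_nonneg hr.le]
  exact mul_div_mul_left _ _ hr.ne'

theorem vv_hom (K : ℝ) (r : ℝ) (hr : 0 < r) (z : ℂ) : vv K ((r : ℂ) * z) = vv K z := by
  unfold vv
  rw [pg_smul hr, norm_mul, Complex.norm_real, Real.norm_of_nonneg hr.le]
  exact mul_div_mul_left _ _ hr.ne'

theorem uu_pos {K : ℝ} {z : ℂ} (hz : z ≠ 0) : 0 < uu K z :=
  div_pos (pg_pos hz) (norm_pos_iff.2 hz)

theorem vv_pos {K : ℝ} {z : ℂ} (hz : z ≠ 0) : 0 < vv K z :=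
  div_pos (norm_pos_iff.2 hz) (pg_pos hz)

theorem uu_vv {K : ℝ} {z : ℂ} (hz : z ≠ 0) : uu K z * vv K z = 1 := by
  unfold uu vv
  have h1 := (pg_pos (K := K) hz).ne'
  have h2 := (norm_pos_iff.2 hz).ne'
  field_simp

/-- the planar radial homeomorphism -/
def kk (K : ℝ) : ℂ ≃ₜ ℂ where
  toFun z := (uu K z : ℂ) * z
  invFun z := (vv K z : ℂ) * z
  left_inv z := by
    by_cases hz : z = 0
    · subst hz; simp
    · simp only
      rw [vv_hom K _ (uu_pos hz), ← mul_assoc, ← Complex.ofReal_mul, mul_comm (vv K z), uu_vv hz,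
        Complex.ofReal_one, one_mul]
  right_inv z := by
    by_cases hz : z = 0
    · subst hz; simp
    · simp only
      rw [uu_hom K _ (vv_pos hz), ← mul_assoc, ← Complex.ofReal_mul, uu_vv hz,
        Complex.ofReal_one, one_mul]
  continuous_toFun := continuous_stretch (fun z hz => (continuousAt_pg hz).div
    continuous_norm.continuousAt (norm_pos_iff.2 hz).ne') (uu_hom K)
  continuous_invFun := continuous_stretch (fun z hz => continuous_norm.continuousAt.div
    (continuousAt_pg hz) (pg_pos hz).ne') (vv_hom K)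

theorem kk_apply (K : ℝ) (z : ℂ) : kk K z = (uu K z : ℂ) * z := rfl

theorem norm_kk (K : ℝ) (z : ℂ) : ‖kk K z‖ = pg K z := by
  rw [kk_apply]
  by_cases hz : z = 0
  · subst hz; rw [pg_zero]; simp
  · rw [norm_mul, Complex.norm_real, Real.norm_of_nonneg (uu_pos hz).le, uu,
      div_mul_cancel₀ _ (norm_pos_iff.2 hz).ne']

theorem arg_kk (K : ℝ) (z : ℂ) : Complex.arg (kk K z) = Complex.arg z := by
  rw [kk_apply]
  by_cases hz : z = 0
  · subst hz; simp
  · rw [Complex.arg_real_mul _ (uu_pos hz)]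

theorem kk_smul (K : ℝ) {r : ℝ} (hr : 0 < r) (z : ℂ) :
    kk K ((r : ℂ) * z) = (r : ℂ) * kk K z := by
  rw [kk_apply, kk_apply, uu_hom K r hr]
  ring

/-! ### assembly -/

theorem PS_eq {ga K : ℝ} {M : ℕ} {φ : ℝ → ℝ} (hφ : LiftD ga M φ) (h0 : 0 < ga)
    (h1 : ga ≤ 1 / 8) (z : ℂ) : PS K ga M z = pc 8 1 φ (kk K z) := by
  unfold PS pc pol
  rw [norm_kk, arg_kk]
  simp only [Complex.ofReal_one, one_mul]
  by_cases hz : z = 0
  · subst hz
    rw [pg_zero, pl_zero]
    simp
  · have hzn : 0 < ‖z‖ := norm_pos_iff.2 hz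
    have hne := pl_ne (M := M) h0 h1 hz
    have hp : pl ga M z = (‖pl ga M z‖ : ℂ) * cis (φ (Complex.arg z)) := by
      have e1 : pl ga M z = (‖z‖ : ℂ) * pl ga M (cis (Complex.arg z)) := by
        conv_lhs => rw [polar z]
        exact pl_smul hzn _
      have e2 : ‖pl ga M z‖ = ‖z‖ * ‖pl ga M (cis (Complex.arg z))‖ := by
        rw [e1, norm_mul, Complex.norm_real, norm_norm]
      rw [e2, e1]
      conv_lhs => rw [hφ.pl]
      push_cast
      ring
    have hn : 0 < ‖pl ga M z‖ := norm_pos_iff.2 hne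
    conv_lhs => rw [hp]
    rw [Complex.real_smul]
    have e3 : (‖pl ga M z‖ : ℂ) ≠ 0 := by exact_mod_cast hn.ne'
    have e4 : (pg K z ^ (8 : ℝ) : ℝ) = pg K z ^ 8 := by
      exact_mod_cast Real.rpow_natCast (pg K z) 8
    rw [e4]
    rw [norm_mul, norm_cis, mul_one, Complex.norm_real, norm_norm]
    push_cast
    field_simp

variable {n : ℕ}

theorem dg_eq {a : Fin (n + 1) → ℕ} (ha : LobeDefs_407.Exps a) (i : Fin (n + 1)) :
    LobeDefs_407.dg a i = Mh a i + 1 := by
  unfold LobeDefs_407.dg Mh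
  have := ha.two i
  split_ifs <;> omega

theorem Mh_pos {a : Fin (n + 1) → ℕ} (ha : LobeDefs_407.Exps a) (i : Fin (n + 1)) :
    1 ≤ Mh a i := by
  unfold Mh
  have := ha.two i
  split_ifs <;> omega

theorem dg_succ (a : Fin (n + 1) → ℕ) (e : Fin n) :
    LobeDefs_407.dg a e.succ = a e.succ + 1 := by
  unfold LobeDefs_407.dg
  rw [if_neg (Fin.succ_ne_zero e)]

theorem dg_le {a : Fin (n + 1) → ℕ} (ha : LobeDefs_407.Exps a) (e : Fin n) :
    LobeDefs_407.dg a e.succ ≤ LobeDefs_407.dg a e.castSucc := by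
  rw [dg_succ]
  have h1 : a e.succ < a e.castSucc := ha.anti (Fin.castSucc_lt_succ)
  unfold LobeDefs_407.dg
  split_ifs <;> omega

/-- **GLUE-STAR.** -/
theorem star (hL : ∀ (ga : ℝ) (M : ℕ), 0 < ga → ga ≤ 1 / 8 → 1 ≤ M → LiftP ga M)
    (hT : LobeDefs_407.T3bP) : StarP := by
  intro n a ha K ga hK h0 h1
  -- phases
  choose φ hφ1 hφ2 hφ3 hφ4 using fun i : Fin (n + 1) => hL ga (Mh a i) h0 h1 (Mh_pos ha i)
  have hφ : ∀ i, LiftD ga (Mh a i) (φ i) := fun i => ⟨hφ1 i, hφ2 i, hφ3 i, hφ4 i⟩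
  -- level functions
  choose lm hlm1 hlm2 using fun e : Fin n => exists_lev (d := LobeDefs_407.dg a e.castSucc)
    (m := LobeDefs_407.dg a e.succ) (by rw [dg_eq ha]; omega) (dg_le ha e)
  choose bt hbt1 hbt2 using fun e : Fin n => exists_lev (d := LobeDefs_407.dg a e.succ)
    (m := LobeDefs_407.dg a e.succ - 1) (by rw [dg_eq ha]; omega) (Nat.sub_le _ _)
  let X : LobeDefs_407.LD n :=
    { D := fun _ => 8
      ep := fun _ => 1
      ph := φ
      c := fun _ => 3
      p := fun _ => 4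
      m := fun _ => 4
      lam := lm
      bet := bt }
  have hX : X.Ok a n :=
    { hD := fun i _ => by change (2 : ℝ) < 8; norm_num
      hep := fun i _ => by change (0 : ℝ) < 1; norm_num
      hph := fun i _ => by
        change LobeDefs_407.Pha (LobeDefs_407.dg a i) (φ i)
        rw [dg_eq ha]; exact hφ1 i
      hc := fun e _ => by change (0 : ℝ) < 3; norm_num
      hp := fun e _ => by change (2 : ℝ) < 4; norm_num
      hm := fun e _ => by change (2 : ℝ) < 4; norm_num
      sum := fun e _ => by change (4 : ℝ) / 8 + 4 / 8 = 1; norm_num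
      nc := fun e _ => by
        change (1 : ℝ) ^ ((4 : ℝ) / 8) * 1 ^ ((4 : ℝ) / 8) <
          ((4 : ℝ) / 8) ^ ((4 : ℝ) / 8) * ((4 : ℝ) / 8) ^ ((4 : ℝ) / 8) * 3
        rw [Real.one_rpow, ← Real.rpow_add (by norm_num)]
        norm_num
      hlam := fun e _ => hlm1 e
      hbet := fun e _ => hbt1 e
      lam1 := fun e _ k hk x hx => hlm2 e k hk x hx
      bet1 := fun e _ k hk x hx => by
        have h2 := hbt2 e k hk x hx
        change bt e x = _
        rw [h2]
        congr 1
        apply propext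
        omega }
  obtain ⟨hseq, -⟩ := hT n a ha X hX
  let lamC : Fin n → ℂ → ℝ := fun e z => lm e (φ e.castSucc (Complex.arg z))
  let betC : Fin n → ℂ → ℝ := fun e z => bt e (φ e.succ (Complex.arg z))
  refine ⟨3, lamC, betC, by norm_num, fun e => ?_, fun e => ?_, ?_⟩
  · refine cutL (hφ e.castSucc) ?_ ?_
    · rw [← dg_eq ha]; exact hlm1 e
    · rw [← dg_eq ha, ← dg_succ]; exact hlm2 e
  · refine cutL (hφ e.succ) ?_ ?_
    · rw [← dg_eq ha]; exact hbt1 e
    · have h2 : Mh a e.succ - 1 + 1 = LobeDefs_407.dg a e.succ - 1 := by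
        rw [dg_eq ha]
        have := Mh_pos ha e.succ
        omega
      rw [h2, ← dg_eq ha]; exact hbt2 e
  · refine hseq.trans (SEq.symm ?_)
    let w : Fin (n + 1) → ℝ := fun _ => 1 / 8
    have hw : ∀ i, 0 < w i := fun i => by change (0 : ℝ) < 1 / 8; norm_num
    have hrp : ∀ s : ℝ, (Real.exp (s * (1 / 8)) : ℝ) ^ (8 : ℝ) = Real.exp s := by
      intro s
      rw [← Real.exp_mul]
      congr 1
      ring
    have hrp4 : ∀ s : ℝ, (Real.exp (s * (1 / 8)) : ℝ) ^ (4 : ℝ) *
        (Real.exp (s * (1 / 8)) : ℝ) ^ (4 : ℝ) = Real.exp s := by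
      intro s
      rw [← Real.rpow_add (Real.exp_pos _), ← hrp s]
      norm_num
    have hst : ∀ z : Fin (n + 1) → ℂ, X.st a n z = ∑ i, pc 8 1 (φ i) (z i) -
        ∑ e : Fin n, ((3 * pol 4 (fun x => lm e (φ e.castSucc x)) (z e.castSucc) : ℝ) : ℂ) *
          ((pol 4 (fun x => bt e (φ e.succ x)) (z e.succ) : ℝ) : ℂ) := by
      intro z
      unfold LobeDefs_407.LD.st LobeDefs_407.GF
      congr 1
      · refine Finset.sum_congr rfl fun i _ => ?_
        have hi : (i : ℕ) ≤ n := Nat.lt_succ_iff.1 i.2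
        simp only [if_pos hi]
        rfl
      · refine Finset.sum_congr rfl fun e _ => ?_
        have he : (e : ℕ) < n := e.2
        simp only [if_pos he]
        rfl
    refine seq_of_equiv (w := w) (w' := w) hw hw ?_ (Homeomorph.piCongrRight fun _ => kk K) ?_ ?_
    · intro s z
      rw [hst, hst]
      have hz : ∀ i, act w s z i = ((Real.exp (s * (1 / 8)) : ℝ) : ℂ) * z i := fun i => rfl
      simp only [hz, pc_hom _ _ _ _ (Real.exp_pos _), pol_hom _ _ _ (Real.exp_pos _), hrp]
      rw [Complex.real_smul, mul_sub, Finset.mul_sum, Finset.mul_sum]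
      congr 1
      refine Finset.sum_congr rfl fun e _ => ?_
      rw [← hrp4 s]
      simp only [smul_eq_mul]
      push_cast
      ring
    · intro s z
      funext i
      change kk K (((Real.exp (s * w i) : ℝ) : ℂ) * z i) = ((Real.exp (s * w i) : ℝ) : ℂ) * kk K (z i)
      exact kk_smul K (Real.exp_pos _) _
    · intro z
      rw [hst]
      unfold FS
      have h4 : ∀ i, (Homeomorph.piCongrRight fun _ : Fin (n + 1) => kk K) z i = kk K (z i) :=
        fun i => rfl
      simp only [h4]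
      congr 1
      · exact Finset.sum_congr rfl fun i _ => PS_eq (hφ i) h0 h1 (z i)
      · rw [Finset.mul_sum, Complex.ofReal_sum]
        refine Finset.sum_congr rfl fun e _ => ?_
        have e4 : ∀ z, (pg K z ^ (4 : ℝ) : ℝ) = pg K z ^ 4 := fun z => by
          exact_mod_cast Real.rpow_natCast (pg K z) 4
        unfold pol
        rw [norm_kk, norm_kk, arg_kk, arg_kk, e4, e4]
        change ((3 * ((pg K (z e.castSucc) ^ 4 * lm e (φ e.castSucc (Complex.arg (z e.castSucc)))) *
          (pg K (z e.succ) ^ 4 * bt e (φ e.succ (Complex.arg (z e.succ))))) : ℝ) : ℂ) = _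
        simp only [smul_eq_mul]
        push_cast
        ring

end Crest.Agent.R267.GlStar_52
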