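import Crest.Agent.R267.HmB_951
import Crest.Agent.R267.TopAsm_808

/-!
# Row 267 (helper951): the class `Hm`, part 3: members, paths, polynomials, systems of chains
-/

set_option autoImplicit false
set_option linter.unusedSectionVars false

noncomputable section

open Set Filter Topology Metric
open scoped NNReal ContDiff
open Crest.Agent.R267.Reg_808 Crest.Agent.R267.FlowG_951 Crest.Agent.R267.Mneg_951
open Crest.Agent.R267.Cone_808 Crest.Agent.R267.SphReg_808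
open Crest.Agent.R267.P4Defs_780 Crest.Agent.R267.ChainPoly_145 Crest.Agent.R267.Sys_808
open Crest.Agent.R267.Asm_808 Crest.Agent.R267.GS_808 Crest.Agent.R267.DraftB_808
open Crest.Agent.R267.TopAsm_808

namespace Crest.Agent.R267.Hm_951

section Path

variable {ι : Type} [Fintype ι]

theorem half_pos' : ∀ _ : ι, (0 : ℝ) < 1 / 2 := fun _ => by norm_num

theorem wh_hom2 (F : ℝ × (ι → ℂ) → ℂ) (t : ℝ) :
    WH (fun _ : ι => (1 / 2 : ℝ)) (fun x => hom2 F (t, x)) := by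
  intro s x
  show hom2 F (t, act (fun _ => (1 / 2 : ℝ)) s x) = _
  rw [act_half, hom2_hom F t (Real.exp_pos _), ← Real.exp_nat_mul]
  congr 2
  push_cast
  ring

/-- the chart of the standard form -/
theorem exists_chart {w : ι → ℝ} (hw : ∀ i, 0 < w i) {F : ℝ × (ι → ℂ) → ℂ} {t : ℝ}
    (hF : WH w (fun x => F (t, x))) :
    ∃ Ψ : (ι → ℂ) ≃ₜ (ι → ℂ), (∀ s x, Ψ (act w s x) = Real.exp (s / 2) • Ψ x) ∧
      ∀ x, F (t, x) = hom2 F (t, Ψ x) := by
  obtain ⟨φ, hφ, h1⟩ := exists_pch hw (half_pos' (ι := ι))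
  refine ⟨φ, fun s x => by rw [hφ, act_half], ?_⟩
  exact eq_comp_of_unit hw hF (wh_hom2 F t)
    (fun x hx => (hom2_unit F (p := (t, x)) hx).symm) hφ (equiv_zero half_pos' hφ) h1

/-- **a path of weighted homogeneous functions in the class `Hm`** -/
theorem HPath.tpath {F : ℝ × (ι → ℂ) → ℂ} (h : HPath F) :
    TPath (fun x => F (0, x)) (fun x => F (1, x)) := by
  obtain ⟨w, hw, hwh⟩ := h.wh 0 (by simp)
  obtain ⟨w', hw', hwh'⟩ := h.wh 1 (by simp)
  obtain ⟨Ψ, h1, h2⟩ := exists_chart hw hwh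
  obtain ⟨Ψ', h1', h2'⟩ := exists_chart hw' hwh'
  exact ⟨w, w', ι → ℂ, inferInstance, inferInstance, inferInstance, hom2 F, Ψ, Ψ', hw, hw', h.mp,
    h1, h1', h2, h2'⟩

/-- **paths give stable link equivalences** -/
theorem HPath.seq {F : ℝ × (ι → ℂ) → ℂ} (h : HPath F) :
    SEq (fun x => F (0, x)) (fun x => F (1, x)) := h.tpath.seq

/-- members of the class `Hm` -/
structure Hm (w : ι → ℝ) (f : (ι → ℂ) → ℂ) : Prop where
  pos : ∀ i, 0 < w i
  smooth : ContDiffOn ℝ 2 f {0}ᶜ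
  wh : WH w f
  reg : ∀ x : ι → ℂ, x ≠ 0 → 0 ≤ (f x).re → ∀ b : ℂ, ∃ y : ι → ℂ, fderiv ℝ f x y = b

theorem fderiv_comp_snd {f : (ι → ℂ) → ℂ} {x : ι → ℂ} (hf : DifferentiableAt ℝ f x) (t : ℝ)
    (y : ι → ℂ) : fderiv ℝ (fun p : ℝ × (ι → ℂ) => f p.2) (t, x) (0, y) = fderiv ℝ f x y := by
  have h1 : HasFDerivAt (fun p : ℝ × (ι → ℂ) => f p.2)
      ((fderiv ℝ f x).comp (ContinuousLinearMap.snd ℝ ℝ (ι → ℂ))) (t, x) :=
    HasFDerivAt.comp (t, x) (f := Prod.snd) (g := f) hf.hasFDerivAt hasFDerivAt_snd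
  rw [h1.fderiv]
  rfl

theorem Hm.hpath {w : ι → ℝ} {f : (ι → ℂ) → ℂ} (h : Hm w f) :
    HPath (fun p : ℝ × (ι → ℂ) => f p.2) where
  smooth := ⟨univ, isOpen_univ, subset_univ _,
    h.smooth.comp contDiff_snd.contDiffOn fun p hp => hp.2⟩
  wh := fun _ _ => ⟨w, h.pos, h.wh⟩
  reg := by
    intro t _ x hx hre b
    obtain ⟨y, hy⟩ := h.reg x hx hre b
    refine ⟨y, ?_⟩
    rw [fderiv_comp_snd, hy]
    exact ((h.smooth x hx).contDiffAt (isOpen_compl_singleton.mem_nhds hx)).differentiableAt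
      (by norm_num)

theorem tame_of_hpath {F : ℝ × (ι → ℂ) → ℂ} (h : HPath F) {t : ℝ} (ht : t ∈ Icc (0 : ℝ) 1) :
    HPath (fun p : ℝ × (ι → ℂ) => F (t, p.2)) where
  smooth := by
    obtain ⟨T, hT, hsub, hC⟩ := h.smooth
    refine ⟨univ, isOpen_univ, subset_univ _, hC.comp (f := fun p : ℝ × (ι → ℂ) => (t, p.2))
      (contDiff_const.prodMk contDiff_snd).contDiffOn fun p hp => ⟨hsub ht, hp.2⟩⟩
  wh := fun _ _ => h.wh t ht
  reg := by
    intro s _ x hx hre b
    obtain ⟨T, hT, hsub, hC⟩ := h.smooth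
    obtain ⟨y, hy⟩ := h.reg t ht x hx hre b
    refine ⟨y, ?_⟩
    have hmem : (t, x) ∈ T ×ˢ ({0}ᶜ : Set (ι → ℂ)) := ⟨hsub ht, hx⟩
    have hd : DifferentiableAt ℝ F (t, x) :=
      ((hC _ hmem).contDiffAt ((isOpen_dom hT).mem_nhds hmem)).differentiableAt (by norm_num)
    have h1 : HasFDerivAt (fun p : ℝ × (ι → ℂ) => F (t, p.2))
        ((fderiv ℝ F (t, x)).comp ((0 : ℝ × (ι → ℂ) →L[ℝ] ℝ).prod
          (ContinuousLinearMap.snd ℝ ℝ (ι → ℂ)))) (s, x) := by
      have h2 : HasFDerivAt (fun p : ℝ × (ι → ℂ) => (t, p.2))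
          ((0 : ℝ × (ι → ℂ) →L[ℝ] ℝ).prod (ContinuousLinearMap.snd ℝ ℝ (ι → ℂ))) (s, x) :=
        (hasFDerivAt_const t (s, x)).prodMk hasFDerivAt_snd
      exact HasFDerivAt.comp (s, x) (f := fun p : ℝ × (ι → ℂ) => (t, p.2)) (g := F)
        hd.hasFDerivAt h2
    rw [h1.fderiv]
    exact hy

theorem tame_of_const {f : (ι → ℂ) → ℂ} (h : HPath (fun p : ℝ × (ι → ℂ) => f p.2)) : Tame f := by
  obtain ⟨w, hw, hwh⟩ := h.wh 0 (by simp)
  obtain ⟨Ψ, h1, h2⟩ := exists_chart (F := fun p : ℝ × (ι → ℂ) => f p.2) hw hwh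
  exact ⟨w, ι → ℂ, inferInstance, inferInstance, inferInstance,
    fun x => nsq x • f ((Real.sqrt (nsq x))⁻¹ • x), Ψ, hw, h.mp, h1, h2⟩

/-- every time of a path is tame -/
theorem HPath.tame {F : ℝ × (ι → ℂ) → ℂ} (h : HPath F) {t : ℝ} (ht : t ∈ Icc (0 : ℝ) 1) :
    Tame (fun x => F (t, x)) := tame_of_const (tame_of_hpath h ht)

theorem Hm.tame {w : ι → ℝ} {f : (ι → ℂ) → ℂ} (h : Hm w f) : Tame f := tame_of_const h.hpath

/-- straight line between two functions with the same weights -/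
theorem HPath.line {w : ι → ℝ} (hw : ∀ i, 0 < w i) {f g : (ι → ℂ) → ℂ}
    (hf : ContDiffOn ℝ 2 f {0}ᶜ) (hg : ContDiffOn ℝ 2 g {0}ᶜ) (hwf : WH w f) (hwg : WH w g)
    (hreg : ∀ t ∈ Icc (0 : ℝ) 1, ∀ x : ι → ℂ, x ≠ 0 →
      0 ≤ ((1 - t) * (f x).re + t * (g x).re) →
      ∀ b : ℂ, ∃ y : ι → ℂ, (1 - t) • fderiv ℝ f x y + t • fderiv ℝ g x y = b) :
    HPath (fun p : ℝ × (ι → ℂ) => (1 - p.1) • f p.2 + p.1 • g p.2) where
  smooth := by
    refine ⟨univ, isOpen_univ, subset_univ _, ?_⟩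
    have h1 : ContDiffOn ℝ 2 (fun p : ℝ × (ι → ℂ) => f p.2) (univ ×ˢ {0}ᶜ) :=
      hf.comp contDiff_snd.contDiffOn fun p hp => hp.2
    have h2 : ContDiffOn ℝ 2 (fun p : ℝ × (ι → ℂ) => g p.2) (univ ×ˢ {0}ᶜ) :=
      hg.comp contDiff_snd.contDiffOn fun p hp => hp.2
    exact ((contDiff_const.sub contDiff_fst).contDiffOn.smul h1).add
      (contDiff_fst.contDiffOn.smul h2)
  wh := fun t _ => ⟨w, hw, fun s x => by
    show (1 - t) • f (act w s x) + t • g (act w s x) = _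
    rw [hwf, hwg, smul_add, smul_comm (1 - t), smul_comm t]⟩
  reg := by
    intro t ht x hx hre b
    obtain ⟨y, hy⟩ := hreg t ht x hx (by simpa using hre) b
    refine ⟨y, ?_⟩
    have hdf : DifferentiableAt ℝ f x :=
      ((hf x hx).contDiffAt (isOpen_compl_singleton.mem_nhds hx)).differentiableAt (by norm_num)
    have hdg : DifferentiableAt ℝ g x :=
      ((hg x hx).contDiffAt (isOpen_compl_singleton.mem_nhds hx)).differentiableAt (by norm_num)
    have h1 : HasFDerivAt (fun p : ℝ × (ι → ℂ) => f p.2)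
        ((fderiv ℝ f x).comp (ContinuousLinearMap.snd ℝ ℝ (ι → ℂ))) (t, x) :=
      HasFDerivAt.comp (t, x) (f := Prod.snd) (g := f) hdf.hasFDerivAt hasFDerivAt_snd
    have h2 : HasFDerivAt (fun p : ℝ × (ι → ℂ) => g p.2)
        ((fderiv ℝ g x).comp (ContinuousLinearMap.snd ℝ ℝ (ι → ℂ))) (t, x) :=
      HasFDerivAt.comp (t, x) (f := Prod.snd) (g := g) hdg.hasFDerivAt hasFDerivAt_snd
    have h3 : HasFDerivAt (fun p : ℝ × (ι → ℂ) => (1 : ℝ) - p.1)
        (-ContinuousLinearMap.fst ℝ ℝ (ι → ℂ)) (t, x) := hasFDerivAt_fst.const_sub 1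
    have h4 : HasFDerivAt (fun p : ℝ × (ι → ℂ) => p.1)
        (ContinuousLinearMap.fst ℝ ℝ (ι → ℂ)) (t, x) := hasFDerivAt_fst
    have h5 := (h3.fun_smul h1).fun_add (h4.fun_smul h2)
    rw [h5.fderiv, ← hy]
    simp

/-- the link as a set -/
theorem SEq.set_link {ι' : Type} [Fintype ι'] {f : (ι → ℂ) → ℂ} {g : (ι' → ℂ) → ℂ}
    (h : SEq f g) {n m : ℕ} {G : S n m} (hG : IsLink {z : Sph ι' | g z = 0} G) :
    IsLink {z : Sph ι | f z = 0} G := by
  obtain ⟨k, hk⟩ := h.link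
  obtain ⟨a, ha⟩ := hG
  exact ⟨k.trans a, fun x => (hk x).trans (ha (k x))⟩

end Path

/-! ### holomorphic functions, polynomials, chains -/

section Poly

variable {ι : Type} [Fintype ι]

/-- a weighted homogeneous polynomial with an isolated singularity is in the class -/
theorem hm_aeval {p : MvPolynomial ι ℝ} {w : ι → ℕ} {d : ℕ} (hd : 0 < d) (hw : ∀ i, 0 < w i)
    (hp : MvPolynomial.IsWeightedHomogeneous w p d)
    (hreg : ∀ z : ι → ℂ, z ≠ 0 → fderiv ℂ (fun z : ι → ℂ => MvPolynomial.aeval z p) z ≠ 0) :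
    Hm (fun i => (w i : ℝ) / d) (fun z : ι → ℂ => MvPolynomial.aeval z p) where
  pos := fun i => div_pos (by exact_mod_cast hw i) (by exact_mod_cast hd)
  smooth := by
    have h : ContDiff ℝ 2 (fun z : ι → ℂ => (MvPolynomial.aeval z p : ℂ)) := by
      simp only [MvPolynomial.aeval_def, MvPolynomial.eval₂_eq]
      fun_prop
    exact h.contDiffOn
  wh := by
    intro s z
    have h1 : act (fun i => (w i : ℝ) / d) s z = act (fun i => (w i : ℝ)) (s / d) z := by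
      funext i
      simp only [act]
      congr 3
      ring
    have hd' : (d : ℝ) ≠ 0 := by exact_mod_cast hd.ne'
    rw [h1]
    show MvPolynomial.aeval (act (fun i => (w i : ℝ)) (s / d) z) p =
      Real.exp s • (MvPolynomial.aeval z p : ℂ)
    rw [zero_iff_of_wh hp, div_mul_cancel₀ s hd', Complex.real_smul]
  reg := by
    intro z hz _ b
    have hdiff : DifferentiableAt ℂ (fun z : ι → ℂ => (MvPolynomial.aeval z p : ℂ)) z :=
      (hasFDerivAt_aeval p z).differentiableAt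
    exact surj_of_complex hdiff (hreg z hz) b

theorem tame_poly [DecidableEq ι] (C : Chains ι) :
    Tame (fun z : ι → ℂ => (MvPolynomial.aeval z (poly ℝ C) : ℂ)) := by
  obtain ⟨w, d, hd, hw, h⟩ := exists_natWeights C
  exact (hm_aeval hd (fun i => (hw i).1) (weightedHomogeneous C w d h)
    (fderiv_ne_zero C)).tame

theorem tame_chainFun {c : List ℕ} (hc : ∀ a ∈ c, 2 ≤ a) : Tame (chainFun c) := by
  have h := tame_poly (chainC c hc)
  have e : (fun z : Fin c.length → ℂ => (MvPolynomial.aeval z (poly ℝ (chainC c hc)) : ℂ)) =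
      chainFun c := funext (aeval_chainC c hc)
  rwa [e] at h

/-- systems with blocks `L c` -/
def sysL (L : (c : List ℕ) → (Fin c.length → ℂ) → ℂ) : (S : List (List ℕ)) → (Var S → ℂ) → ℂ
  | [], _ => 0
  | c :: S, z => L c (fun i => z (Sum.inl i)) + sysL L S (fun i => z (Sum.inr i))

theorem sysL_chainFun (S : List (List ℕ)) : sysL chainFun S = sysFun S := by
  induction S with
  | nil => rfl
  | cons c S ih =>
    funext z
    show chainFun c _ + sysL chainFun S _ = chainFun c _ + sysFun S _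
    rw [ih]

theorem tame_sysL {L : (c : List ℕ) → (Fin c.length → ℂ) → ℂ} {S : List (List ℕ)}
    (h : ∀ c ∈ S, Tame (L c)) : Tame (sysL L S) := by
  induction S with
  | nil => exact tame_empty
  | cons c S ih =>
    exact (h c List.mem_cons_self).oplus (ih fun d hd => h d (List.mem_cons_of_mem _ hd))

theorem tame_sysFun {S : List (List ℕ)} (hS : ∀ c ∈ S, ∀ a ∈ c, 2 ≤ a) : Tame (sysFun S) := by
  rw [← sysL_chainFun]
  exact tame_sysL fun c hc => tame_chainFun (hS c hc)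

/-- **one chain at a time** -/
theorem seq_sysL {L L' : (c : List ℕ) → (Fin c.length → ℂ) → ℂ} {S : List (List ℕ)}
    (h : ∀ c ∈ S, SEq (L c) (L' c)) (hL : ∀ c ∈ S, Tame (L c)) (hL' : ∀ c ∈ S, Tame (L' c)) :
    SEq (sysL L S) (sysL L' S) := by
  induction S with
  | nil => exact SEq.refl _
  | cons c S ih =>
    exact SEq.oplus (h c List.mem_cons_self) (ih (fun d hd => h d (List.mem_cons_of_mem _ hd))
      (fun d hd => hL d (List.mem_cons_of_mem _ hd))
      fun d hd => hL' d (List.mem_cons_of_mem _ hd)) (hL' c List.mem_cons_self)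
      (tame_sysL fun d hd => hL d (List.mem_cons_of_mem _ hd))

/-- **T3b, one chain at a time** -/
theorem seq_sysFun {L : (c : List ℕ) → (Fin c.length → ℂ) → ℂ} {S : List (List ℕ)}
    (hS : ∀ c ∈ S, ∀ a ∈ c, 2 ≤ a) (h : ∀ c ∈ S, SEq (chainFun c) (L c))
    (hL : ∀ c ∈ S, Tame (L c)) : SEq (sysFun S) (sysL L S) := by
  rw [← sysL_chainFun]
  exact seq_sysL h (fun c hc => tame_chainFun (hS c hc)) hL

end Poly

end Crest.Agent.R267.Hm_951
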