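import Crest.Agent.R267.LobeDefs_407

/-!
# Row 267 (helper843): T3b of #2295, step S2 (change of the power of `x`) and the base

* `pw`: `norm_pw`, `pw_pw`, `pw_smul`, `pol_pw`, the homeomorphism `pwH`;
* `wh_gf`, `exists_wt`, `wh_mid`, `wh_st`: weights of the functions of T3b;
* `s2p (ha : Exps a) (e) : S2P a e`;
* `chainFun_ofFn_rev`, `base (ha : Exps a) : BaseP a`.
-/

set_option autoImplicit false

noncomputable section

open Crest.Agent.R267.Ang_739 Crest.Agent.R267.Hm_951 Crest.Agent.R267.LemL_951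
open Crest.Agent.R267.Sys_808 Crest.Agent.R267.LobeDefs_407 Crest.Agent.R267.Cone_808
open Filter Topology

namespace Crest.Agent.R267.S2_843

/-! ### the power map -/

theorem pw_zero (Q : ℝ) : pw Q 0 = 0 := by simp [pw]

theorem norm_pw {Q : ℝ} (hQ : Q ≠ 0) (z : ℂ) : ‖pw Q z‖ = ‖z‖ ^ Q := by
  rcases eq_or_ne z 0 with rfl | hz
  · rw [pw_zero, norm_zero, Real.zero_rpow hQ]
  · have hn : 0 < ‖z‖ := norm_pos_iff.2 hz
    unfold pw
    rw [norm_mul, Complex.norm_real, Real.norm_of_nonneg (Real.rpow_nonneg hn.le _)]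
    conv_lhs => rw [← Real.rpow_one ‖z‖]
    rw [Real.rpow_one, ← Real.rpow_add_one hn.ne', sub_add_cancel]

theorem pw_one (z : ℂ) : pw 1 z = z := by simp [pw]

theorem pw_pw {Q R : ℝ} (hR : R ≠ 0) (z : ℂ) : pw Q (pw R z) = pw (Q * R) z := by
  rcases eq_or_ne z 0 with rfl | hz
  · rw [pw_zero, pw_zero, pw_zero]
  · have hn : 0 < ‖z‖ := norm_pos_iff.2 hz
    have h1 : pw Q (pw R z) = ((‖pw R z‖ ^ (Q - 1) : ℝ) : ℂ) * pw R z := rfl
    rw [h1, norm_pw hR]
    unfold pw
    rw [← mul_assoc, ← Complex.ofReal_mul, ← Real.rpow_mul hn.le, ← Real.rpow_add hn]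
    congr 3
    ring

theorem pw_smul (Q : ℝ) {r : ℝ} (hr : 0 < r) (z : ℂ) :
    pw Q ((r : ℂ) * z) = ((r ^ Q : ℝ) : ℂ) * pw Q z := by
  unfold pw
  rw [norm_mul, Complex.norm_real, Real.norm_of_nonneg hr.le, Real.mul_rpow hr.le (norm_nonneg _)]
  have h1 : r ^ Q = r ^ (Q - 1) * r := by rw [← Real.rpow_add_one hr.ne', sub_add_cancel]
  rw [h1]
  push_cast
  ring

theorem arg_pw (Q : ℝ) (z : ℂ) : Complex.arg (pw Q z) = Complex.arg z := by
  rcases eq_or_ne z 0 with rfl | hz
  · rw [pw_zero]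
  · exact Complex.arg_real_mul _ (Real.rpow_pos_of_pos (norm_pos_iff.2 hz) _)

theorem pol_pw {F : Type*} [NormedAddCommGroup F] [NormedSpace ℝ F] {Q : ℝ} (hQ : Q ≠ 0) (D : ℝ)
    (q : ℝ → F) (z : ℂ) : pol D q (pw Q z) = pol (Q * D) q z := by
  unfold pol
  rw [norm_pw hQ, arg_pw, ← Real.rpow_mul (norm_nonneg _)]

theorem pc_pw {Q : ℝ} (hQ : Q ≠ 0) (D ep : ℝ) (φ : ℝ → ℝ) (z : ℂ) :
    pc D ep φ (pw Q z) = pc (Q * D) ep φ z := pol_pw hQ D _ z

theorem continuous_pw {Q : ℝ} (hQ : 0 < Q) : Continuous (pw Q) := by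
  rw [continuous_iff_continuousAt]
  intro z
  rcases eq_or_ne z 0 with rfl | hz
  · rw [ContinuousAt, pw_zero, tendsto_zero_iff_norm_tendsto_zero]
    have h1 : Continuous fun z : ℂ => ‖z‖ ^ Q := continuous_norm.rpow_const fun _ => Or.inr hQ.le
    have h2 := h1.tendsto 0
    simp only [norm_zero, Real.zero_rpow hQ.ne'] at h2
    refine h2.congr fun z => (norm_pw hQ.ne' z).symm
  · have h1 : ContinuousAt (fun z : ℂ => ‖z‖ ^ (Q - 1)) z :=
      (continuous_norm.continuousAt).rpow_const (Or.inl (norm_ne_zero_iff.2 hz))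
    exact (Complex.continuous_ofReal.continuousAt.comp h1).mul continuousAt_id

/-- the power map as a homeomorphism -/
def pwH (Q : ℝ) (hQ : 0 < Q) : ℂ ≃ₜ ℂ where
  toFun := pw Q
  invFun := pw Q⁻¹
  left_inv z := by rw [pw_pw hQ.ne', inv_mul_cancel₀ hQ.ne', pw_one]
  right_inv z := by rw [pw_pw (inv_ne_zero hQ.ne'), mul_inv_cancel₀ hQ.ne', pw_one]
  continuous_toFun := continuous_pw hQ
  continuous_invFun := continuous_pw (inv_pos.2 hQ)

theorem pwH_apply (Q : ℝ) (hQ : 0 < Q) (z : ℂ) : pwH Q hQ z = pw Q z := rfl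

/-! ### weights -/

variable {n : ℕ}

theorem exp_rpow {w D : ℝ} (h : w * D = 1) (s : ℝ) : Real.exp (s * w) ^ D = Real.exp s := by
  rw [← Real.exp_mul, mul_assoc, h, mul_one]

theorem wh_gf {w : Fin (n + 1) → ℝ} {Q : Fin (n + 1) → ℂ → ℂ} {g h : Fin n → ℂ → ℂ}
    (hQ : ∀ i (s : ℝ) z, Q i ((Real.exp (s * w i) : ℂ) * z) = Real.exp s • Q i z)
    (hgh : ∀ e (s : ℝ) x y, g e ((Real.exp (s * w e.castSucc) : ℂ) * x) *
      h e ((Real.exp (s * w e.succ) : ℂ) * y) = Real.exp s • (g e x * h e y)) :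
    WH w (GF Q g h) := by
  intro s z
  have h1 : ∀ i, Q i (act w s z i) = Real.exp s • Q i (z i) := fun i => hQ i s (z i)
  have h2 : ∀ e : Fin n, g e (act w s z e.castSucc) * h e (act w s z e.succ) =
      Real.exp s • (g e (z e.castSucc) * h e (z e.succ)) := fun e => hgh e s _ _
  unfold GF
  rw [smul_sub, Finset.smul_sum, Finset.smul_sum]
  simp only [h1, h2]

theorem pc_wh {w D : ℝ} (h : w * D = 1) (ep : ℝ) (φ : ℝ → ℝ) (s : ℝ) (z : ℂ) :
    pc D ep φ ((Real.exp (s * w) : ℂ) * z) = Real.exp s • pc D ep φ z := by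
  rw [pc_hom D ep φ _ (Real.exp_pos _), exp_rpow h]

/-- the tail weights -/
theorem exists_wt {a : Fin (n + 1) → ℕ} (ha : ∀ i, 2 ≤ a i) (j : ℕ) (v : Fin (n + 1) → ℝ)
    (hv : ∀ i : Fin (n + 1), (i : ℕ) ≤ j → 0 < v i ∧ v i < 1) :
    ∃ w : Fin (n + 1) → ℝ, (∀ i, 0 < w i ∧ w i < 1) ∧
      (∀ i : Fin (n + 1), (i : ℕ) ≤ j → w i = v i) ∧
      ∀ e : Fin n, j ≤ (e : ℕ) → w e.castSucc + a e.succ * w e.succ = 1 := by
  let v' : ℕ → ℝ := fun k => if h : k < n + 1 then v ⟨k, h⟩ else 1 / 2
  let a' : ℕ → ℝ := fun k => if h : k < n + 1 then (a ⟨k, h⟩ : ℝ) else 2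
  have hv' : ∀ k, k ≤ j → 0 < v' k ∧ v' k < 1 := by
    intro k hk
    by_cases h : k < n + 1
    · simp only [v', dif_pos h]
      exact hv ⟨k, h⟩ hk
    · simp only [v', dif_neg h]
      norm_num
  have ha' : ∀ k, 2 ≤ a' k := by
    intro k
    by_cases h : k < n + 1
    · simp only [a', dif_pos h]
      exact_mod_cast ha ⟨k, h⟩
    · simp only [a', dif_neg h]
      norm_num
  let W : ℕ → ℝ := fun k =>
    Nat.rec (v' 0) (fun k r => if k + 1 ≤ j then v' (k + 1) else (1 - r) / a' (k + 1)) k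
  have hW0 : W 0 = v' 0 := rfl
  have hWs : ∀ k, W (k + 1) = if k + 1 ≤ j then v' (k + 1) else (1 - W k) / a' (k + 1) :=
    fun k => rfl
  have hWj : ∀ k, k ≤ j → W k = v' k := by
    intro k hk
    rcases k with _ | k
    · exact hW0
    · rw [hWs, if_pos hk]
  have hW : ∀ k, 0 < W k ∧ W k < 1 := by
    intro k
    induction k with
    | zero => rw [hW0]; exact hv' 0 (Nat.zero_le _)
    | succ k ih =>
      by_cases h : k + 1 ≤ j
      · rw [hWj _ h]; exact hv' _ h
      · rw [hWs, if_neg h]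
        have h2 := ha' (k + 1)
        refine ⟨div_pos (by linarith [ih.2]) (by linarith), ?_⟩
        rw [div_lt_one (by linarith)]
        linarith [ih.1]
  refine ⟨fun i => W i, fun i => hW i, fun i hi => ?_, fun e he => ?_⟩
  · show W i = v i
    rw [hWj i hi]
    simp only [v', dif_pos i.2]
  · have h1 : W (e.succ : ℕ) = (1 - W e) / a' (e + 1) := by
      rw [Fin.val_succ, hWs, if_neg (by omega)]
    have h2 : a' (e + 1) = a e.succ := by
      simp only [a', dif_pos (Nat.succ_lt_succ e.2)]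
      rfl
    show W e.castSucc + a e.succ * W e.succ = 1
    rw [h1, h2, Fin.val_castSucc]
    have h3 : (2 : ℝ) ≤ a e.succ := by exact_mod_cast ha e.succ
    field_simp
    ring

/-- weighted homogeneity of `mid` -/
theorem wh_mid {a : Fin (n + 1) → ℕ} (ha : ∀ i, 2 ≤ a i) {X : LD n} {e : Fin n} (hok : X.Ok a e)
    {Y η H : ℂ → ℂ} {wy : ℝ} (hwy0 : 0 < wy) (hwy1 : wy < 1)
    (hY : ∀ (s : ℝ) y, Y ((Real.exp (s * wy) : ℂ) * y) = Real.exp s • Y y)
    (hη : ∀ (s : ℝ) x y, η ((Real.exp (s * (1 / X.D e.castSucc)) : ℂ) * x) *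
      H ((Real.exp (s * wy) : ℂ) * y) = Real.exp s • (η x * H y)) :
    ∃ w : Fin (n + 1) → ℝ, (∀ i, 0 < w i) ∧ (∀ i : Fin (n + 1), (i : ℕ) ≤ e → w i = 1 / X.D i) ∧
      w e.succ = wy ∧ WH w (X.mid a e Y η H) := by
  obtain ⟨w, hw, hwj, hwt⟩ := exists_wt ha ((e : ℕ) + 1)
    (fun i => if (i : ℕ) ≤ e then 1 / X.D i else wy) (by
      intro i hi
      by_cases h : (i : ℕ) ≤ e
      · simp only [if_pos h]
        have := hok.hD i h
        refine ⟨by positivity, ?_⟩
        rw [div_lt_one (by linarith)]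
        linarith
      · simp only [if_neg h]
        exact ⟨hwy0, hwy1⟩)
  have h1 : ∀ i : Fin (n + 1), (i : ℕ) ≤ e → w i = 1 / X.D i := by
    intro i hi
    rw [hwj i (by omega), if_pos hi]
  have h2 : w e.succ = wy := by
    rw [hwj e.succ (by simp), if_neg (by simp)]
  refine ⟨w, fun i => (hw i).1, h1, h2, wh_gf ?_ ?_⟩
  · intro i s z
    by_cases hi : (i : ℕ) ≤ e
    · simp only [if_pos hi]
      have := hok.hD i hi
      exact pc_wh (by rw [h1 i hi]; field_simp) _ _ s z
    · by_cases hi' : (i : ℕ) = e + 1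
      · simp only [if_neg hi, if_pos hi']
        have : i = e.succ := Fin.ext (by simp [hi'])
        rw [this, h2]
        exact hY s z
      · simp only [if_neg hi, if_neg hi', Pi.zero_apply, smul_zero]
  · intro e' s x y
    rcases lt_trichotomy (e' : ℕ) e with he | he | he
    · simp only [if_pos he]
      have hx : w e'.castSucc = 1 / X.D e'.castSucc := h1 _ (by simp; omega)
      have hy : w e'.succ = 1 / X.D e'.succ := h1 _ (by simp; omega)
      have hDx := hok.hD e'.castSucc (by simp; omega)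
      have hDy := hok.hD e'.succ (by simp; omega)
      rw [LD.g, LD.g, LD.h, LD.h, pol_hom _ _ _ (Real.exp_pos _), pol_hom _ _ _ (Real.exp_pos _), hx,
        hy, ← Real.exp_mul, ← Real.exp_mul]
      have h3 : Real.exp (s * (1 / X.D e'.castSucc) * X.p e') *
          Real.exp (s * (1 / X.D e'.succ) * X.m e') = Real.exp s := by
        rw [← Real.exp_add]
        congr 1
        have := hok.sum e' he
        calc _ = s * (X.p e' / X.D e'.castSucc + X.m e' / X.D e'.succ) := by ring
          _ = s := by rw [this, mul_one]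
      rw [← h3]
      simp only [smul_eq_mul, Complex.real_smul]
      push_cast
      ring
    · have : e' = e := Fin.ext he
      subst this
      simp only [if_neg (lt_irrefl _), if_true]
      rw [h2, h1 e'.castSucc (by simp)]
      exact hη s x y
    · simp only [if_neg he.not_gt, if_neg he.ne']
      have h3 := hwt e' he
      simp only [id]
      rw [mul_pow, ← Complex.ofReal_pow, ← Real.exp_nat_mul, Complex.real_smul]
      have h4 : Real.exp (s * w e'.castSucc) * Real.exp (a e'.succ * (s * w e'.succ)) =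
          Real.exp s := by
        rw [← Real.exp_add]
        congr 1
        calc _ = s * (w e'.castSucc + a e'.succ * w e'.succ) := by ring
          _ = s := by rw [h3, mul_one]
      rw [← h4]
      push_cast
      ring

/-- weighted homogeneity of the states -/
theorem wh_st {a : Fin (n + 1) → ℕ} (ha : ∀ i, 2 ≤ a i) {X : LD n} {j : ℕ} (hok : X.Ok a j) :
    ∃ w : Fin (n + 1) → ℝ, (∀ i, 0 < w i) ∧ (∀ i : Fin (n + 1), (i : ℕ) ≤ j → w i = 1 / X.D i) ∧
      WH w (X.st a j) := by
  obtain ⟨w, hw, hwj, hwt⟩ := exists_wt ha j (fun i => 1 / X.D i) (by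
      intro i hi
      have := hok.hD i hi
      refine ⟨by positivity, ?_⟩
      rw [div_lt_one (by linarith)]
      linarith)
  refine ⟨w, fun i => (hw i).1, hwj, wh_gf ?_ ?_⟩
  · intro i s z
    by_cases hi : (i : ℕ) ≤ j
    · simp only [if_pos hi]
      have := hok.hD i hi
      exact pc_wh (by rw [hwj i hi]; field_simp) _ _ s z
    · simp only [if_neg hi, Pi.zero_apply, smul_zero]
  · intro e' s x y
    by_cases he : (e' : ℕ) < j
    · simp only [if_pos he]
      have hx : w e'.castSucc = 1 / X.D e'.castSucc := hwj _ (by simp; omega)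
      have hy : w e'.succ = 1 / X.D e'.succ := hwj _ (by simp; omega)
      rw [LD.g, LD.g, LD.h, LD.h, pol_hom _ _ _ (Real.exp_pos _), pol_hom _ _ _ (Real.exp_pos _), hx,
        hy, ← Real.exp_mul, ← Real.exp_mul]
      have h3 : Real.exp (s * (1 / X.D e'.castSucc) * X.p e') *
          Real.exp (s * (1 / X.D e'.succ) * X.m e') = Real.exp s := by
        rw [← Real.exp_add]
        congr 1
        have := hok.sum e' he
        calc _ = s * (X.p e' / X.D e'.castSucc + X.m e' / X.D e'.succ) := by ring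
          _ = s := by rw [this, mul_one]
      rw [← h3]
      simp only [smul_eq_mul, Complex.real_smul]
      push_cast
      ring
    · simp only [if_neg he]
      have h3 := hwt e' (not_lt.1 he)
      simp only [id]
      rw [mul_pow, ← Complex.ofReal_pow, ← Real.exp_nat_mul, Complex.real_smul]
      have h4 : Real.exp (s * w e'.castSucc) * Real.exp (a e'.succ * (s * w e'.succ)) =
          Real.exp s := by
        rw [← Real.exp_add]
        congr 1
        calc _ = s * (w e'.castSucc + a e'.succ * w e'.succ) := by ring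
          _ = s := by rw [h3, mul_one]
      rw [← h4]
      push_cast
      ring

/-! ### S2 -/

theorem pow_al {a : Fin (n + 1) → ℕ} {X : LD n} {e : Fin n} {P : ℝ} (hP : 1 ≤ P)
    (h : X.Al a e (a e.succ + 1) 1) : (X.pow e P).Al a e (a e.succ + 1) P := by
  have hP0 : (0 : ℝ) < P := by linarith
  have hok := h.ok
  have e1 : ∀ e' : Fin n, (e' : ℕ) < e → (X.pow e P).D e'.castSucc = X.D e'.castSucc := by
    intro e' he
    show (if ((e'.castSucc : Fin (n + 1)) : ℕ) = e then P * X.D e'.castSucc else X.D e'.castSucc) = _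
    rw [if_neg (by simp; omega)]
  have e2 : ∀ e' : Fin n, (e' : ℕ) < e →
      (X.pow e P).m e' / (X.pow e P).D e'.succ = X.m e' / X.D e'.succ := by
    intro e' he
    show (if (e' : ℕ) + 1 = e then P * X.m e' else X.m e') /
      (if ((e'.succ : Fin (n + 1)) : ℕ) = e then P * X.D e'.succ else X.D e'.succ) = _
    rw [Fin.val_succ]
    split_ifs
    · exact mul_div_mul_left _ _ hP0.ne'
    · rfl
  refine ⟨⟨?_, hok.hep, hok.hph, hok.hc, hok.hp, ?_, ?_, ?_, hok.hlam, hok.hbet, hok.lam1, hok.bet1⟩,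
    ?_, h.ph, h.ep⟩
  · intro i hi
    show 2 < (if (i : ℕ) = e then P * X.D i else X.D i)
    have := hok.hD i hi
    split_ifs
    · nlinarith
    · exact this
  · intro e' he
    show 2 < (if (e' : ℕ) + 1 = e then P * X.m e' else X.m e')
    have := hok.hm e' he
    split_ifs
    · nlinarith
    · exact this
  · intro e' he
    rw [e1 e' he, e2 e' he]
    exact hok.sum e' he
  · intro e' he
    rw [e1 e' he, e2 e' he]
    exact hok.nc e' he
  · intro i hi
    show (if (i : ℕ) = e then P * X.D i else X.D i) = _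
    rw [if_pos hi, h.deg i hi, mul_one, mul_comm]

theorem s2p {a : Fin (n + 1) → ℕ} (ha : Exps a) (e : Fin n) : S2P a e := by
  intro X P hP h
  have hP0 : (0 : ℝ) < P := by linarith
  have hPi : (0 : ℝ) < P⁻¹ := inv_pos.2 hP0
  have hal := pow_al hP h
  refine ⟨?_, hal⟩
  have hDe : (X.pow e P).D e.castSucc = ((a e.succ + 1 : ℕ) : ℝ) * P := hal.deg _ (by simp)
  have ha2 : (2 : ℝ) ≤ a e.succ := by exact_mod_cast ha.two e.succ
  obtain ⟨w, hw, hwj, hwe, hWH⟩ := wh_mid (Y := fun y => y ^ (a e.succ + 1)) (η := pw P)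
    (H := fun y => y ^ a e.succ) ha.two hal.ok (wy := 1 / ((a e.succ : ℝ) + 1)) (by positivity)
    (by rw [div_lt_one (by positivity)]; linarith)
    (by
      intro s y
      rw [mul_pow, ← Complex.ofReal_pow, ← Real.exp_nat_mul, Complex.real_smul]
      congr 3
      push_cast
      field_simp)
    (by
      intro s x y
      rw [hDe, pw_smul _ (Real.exp_pos _), mul_pow, ← Complex.ofReal_pow, ← Real.exp_nat_mul,
        Complex.real_smul, ← Real.exp_mul]
      have h4 : Real.exp (s * (1 / (((a e.succ + 1 : ℕ) : ℝ) * P)) * P) *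
          Real.exp ((a e.succ : ℝ) * (s * (1 / ((a e.succ : ℝ) + 1)))) = Real.exp s := by
        rw [← Real.exp_add]
        congr 1
        push_cast
        field_simp
        ring
      rw [← h4]
      push_cast
      ring)
  let F : Fin (n + 1) → (ℂ ≃ₜ ℂ) := fun i =>
    if (i : ℕ) = e then pwH P⁻¹ hPi else Homeomorph.refl ℂ
  let φ : (Fin (n + 1) → ℂ) ≃ₜ (Fin (n + 1) → ℂ) := Homeomorph.piCongrRight F
  have hφ : ∀ z i, φ z i = if (i : ℕ) = e then pw P⁻¹ (z i) else z i := by
    intro z i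
    show F i (z i) = _
    simp only [F]
    split_ifs
    · rfl
    · rfl
  refine seq_of_equiv (w := fun i => if (i : ℕ) = e then P * w i else w i) (w' := w) ?_ hw hWH φ
    ?_ ?_
  · intro i
    have := hw i
    show 0 < (if (i : ℕ) = e then P * w i else w i)
    split_ifs
    · positivity
    · exact this
  · intro s z
    funext i
    rw [hφ]
    show _ = (Real.exp (s * w i) : ℂ) * φ z i
    rw [hφ]
    show (if (i : ℕ) = e then
      pw P⁻¹ ((Real.exp (s * (if (i : ℕ) = e then P * w i else w i)) : ℂ) * z i) else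
      ((Real.exp (s * (if (i : ℕ) = e then P * w i else w i)) : ℂ) * z i)) = _
    split_ifs
    · rw [pw_smul _ (Real.exp_pos _), ← Real.exp_mul]
      congr 3
      field_simp
    · rfl
  · intro z
    unfold LD.mid GF
    congr 1
    · refine Finset.sum_congr rfl fun i _ => ?_
      rw [hφ]
      by_cases hi : (i : ℕ) ≤ e
      · simp only [if_pos hi]
        by_cases hie : (i : ℕ) = e
        · rw [if_pos hie]
          show pc (X.D i) (X.ep i) (X.ph i) (z i) =
            pc (if (i : ℕ) = e then P * X.D i else X.D i) (X.ep i) (X.ph i) (pw P⁻¹ (z i))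
          rw [if_pos hie, pc_pw hPi.ne', ← mul_assoc, inv_mul_cancel₀ hP0.ne', one_mul]
        · rw [if_neg hie]
          show pc (X.D i) (X.ep i) (X.ph i) (z i) =
            pc (if (i : ℕ) = e then P * X.D i else X.D i) (X.ep i) (X.ph i) (z i)
          rw [if_neg hie]
      · simp only [if_neg hi]
        rw [if_neg (show ¬ (i : ℕ) = e by omega)]
    · refine Finset.sum_congr rfl fun e' _ => ?_
      rw [hφ, hφ]
      rcases lt_trichotomy (e' : ℕ) e with he | he | he
      · simp only [if_pos he, Fin.val_castSucc, if_neg he.ne, Fin.val_succ]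
        have h1 : X.g e' (z e'.castSucc) = (X.pow e P).g e' (z e'.castSucc) := rfl
        rw [h1]
        congr 2
        show pol (X.m e') (fun x => X.bet e' (X.ph e'.succ x)) (z e'.succ) =
          pol (if (e' : ℕ) + 1 = e then P * X.m e' else X.m e')
            (fun x => X.bet e' (X.ph e'.succ x)) _
        split_ifs
        · rw [pol_pw hPi.ne', ← mul_assoc, inv_mul_cancel₀ hP0.ne', one_mul]
        · rfl
      · simp only [if_neg (show ¬ (e' : ℕ) < e by omega), Fin.val_castSucc, if_pos he, Fin.val_succ]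
        rw [if_neg (show ¬ (e' : ℕ) + 1 = e by omega), pw_pw hPi.ne', mul_inv_cancel₀ hP0.ne',
          pw_one]
        rfl
      · simp only [if_neg he.not_gt, if_neg he.ne', Fin.val_castSucc, Fin.val_succ]
        rw [if_neg (show ¬ (e' : ℕ) + 1 = e by omega)]

/-! ### the chain polynomial as a sum -/

theorem hd_eq (l : List ℕ) (z : Fin l.length → ℂ) :
    hd l z = if h : 0 < l.length then z ⟨0, h⟩ else 1 := by
  rcases l with _ | ⟨b, l⟩
  · simp [hd]
  · rw [dif_pos (by simp)]
    rfl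

theorem chainFun_eq (c : List ℕ) (z : Fin c.length → ℂ) :
    chainFun c z = ∑ i : Fin c.length, z i ^ c.get i *
      (if h : (i : ℕ) + 1 < c.length then z ⟨(i : ℕ) + 1, h⟩ else 1) := by
  induction c with
  | nil => simp [chainFun]
  | cons b l ih =>
    have h1 : chainFun (b :: l) z = z 0 ^ b * hd l (fun i => z i.succ) +
      chainFun l (fun i => z i.succ) := rfl
    rw [h1, ih, hd_eq]
    have h2 := Fin.sum_univ_succ (n := l.length) (fun i : Fin (l.length + 1) =>
      z i ^ (b :: l).get i * (if h : (i : ℕ) + 1 < (b :: l).length then z ⟨(i : ℕ) + 1, h⟩ else 1))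
    refine Eq.trans ?_ h2.symm
    congr 1
    · congr 1
      by_cases h : 0 < l.length
      · rw [dif_pos h, dif_pos (by simpa using h)]
        rfl
      · rw [dif_neg h, dif_neg (by simpa using h)]
    · refine Finset.sum_congr rfl fun i _ => ?_
      congr 1
      by_cases h : (i : ℕ) + 1 < l.length
      · rw [dif_pos h, dif_pos (by simpa using h)]
        rfl
      · rw [dif_neg h, dif_neg (by simpa using h)]

theorem chainFun_ofFn (b : Fin (n + 1) → ℕ) (z : Fin (List.ofFn b).length → ℂ) :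
    chainFun (List.ofFn b) z =
      ∑ e : Fin n, z (Fin.cast (List.length_ofFn (f := b)).symm e.castSucc) ^ b e.castSucc *
        z (Fin.cast (List.length_ofFn (f := b)).symm e.succ) +
      z (Fin.cast (List.length_ofFn (f := b)).symm (Fin.last n)) ^ b (Fin.last n) := by
  have hl : (List.ofFn b).length = n + 1 := List.length_ofFn
  rw [chainFun_eq]
  have h1 := Equiv.sum_comp (finCongr hl.symm) (fun i : Fin (List.ofFn b).length =>
    z i ^ (List.ofFn b).get i *
      (if h : (i : ℕ) + 1 < (List.ofFn b).length then z ⟨(i : ℕ) + 1, h⟩ else 1))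
  rw [← h1, Fin.sum_univ_castSucc]
  congr 1
  · refine Finset.sum_congr rfl fun e _ => ?_
    rw [List.get_ofFn]
    rw [dif_pos (by simp)]
    rfl
  · rw [List.get_ofFn]
    rw [dif_neg (by simp), mul_one]
    rfl

theorem chainFun_rev (a : Fin (n + 1) → ℕ)
    (z : Fin (List.ofFn fun i : Fin (n + 1) => a i.rev).length → ℂ) :
    chainFun (List.ofFn fun i : Fin (n + 1) => a i.rev) z =
      ∑ e : Fin n, z (Fin.cast (List.length_ofFn (f := fun i : Fin (n + 1) => a i.rev)).symm
          e.castSucc.rev) *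
        z (Fin.cast (List.length_ofFn (f := fun i : Fin (n + 1) => a i.rev)).symm
          e.succ.rev) ^ a e.succ +
      z (Fin.cast (List.length_ofFn (f := fun i : Fin (n + 1) => a i.rev)).symm
        (Fin.rev 0)) ^ a 0 := by
  rw [chainFun_ofFn]
  congr 1
  · rw [← Equiv.sum_comp Fin.revPerm]
    refine Finset.sum_congr rfl fun e _ => ?_
    simp only [Fin.revPerm_apply, Fin.rev_castSucc, Fin.rev_succ, Fin.rev_rev]
    rw [mul_comm]
  · simp

/-! ### the base -/

theorem exists_rot {a : Fin (n + 1) → ℕ} (ha : ∀ i, 2 ≤ a i) :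
    ∃ u : Fin (n + 1) → ℂ, u 0 = 1 ∧ (∀ i, u i ≠ 0) ∧
      ∀ e : Fin n, u e.castSucc * u e.succ ^ a e.succ = -1 := by
  let a' : ℕ → ℕ := fun k => if h : k < n + 1 then a ⟨k, h⟩ else 2
  have ha' : ∀ k, 0 < a' k := by
    intro k
    by_cases h : k < n + 1
    · simp only [a', dif_pos h]
      have := ha ⟨k, h⟩
      omega
    · simp only [a', dif_neg h]
      norm_num
  have h0 : ∀ (k : ℕ) (r : ℂ), ∃ s : ℂ, s ^ a' (k + 1) = -r⁻¹ :=
    fun k r => IsAlgClosed.exists_pow_nat_eq _ (ha' _)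
  choose S hS using h0
  let U : ℕ → ℂ := fun k => Nat.rec 1 (fun k r => S k r) k
  have hU0 : U 0 = 1 := rfl
  have hUs : ∀ k, U (k + 1) ^ a' (k + 1) = -(U k)⁻¹ := fun k => hS k (U k)
  have hU : ∀ k, U k ≠ 0 := by
    intro k
    induction k with
    | zero => rw [hU0]; exact one_ne_zero
    | succ k ih =>
      intro h
      have h1 := hUs k
      rw [h, zero_pow (ha' _).ne'] at h1
      exact ih (inv_eq_zero.1 (neg_eq_zero.1 h1.symm))
  refine ⟨fun i => U i, hU0, fun i => hU i, fun e => ?_⟩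
  have h2 : a' (e + 1) = a e.succ := by
    simp only [a', dif_pos (Nat.succ_lt_succ e.2)]
    rfl
  show U e.castSucc * U e.succ ^ a e.succ = -1
  rw [Fin.val_castSucc, Fin.val_succ, ← h2, hUs, mul_neg, mul_inv_cancel₀ (hU _)]

theorem pow_eq_pc (d : ℕ) (z : ℂ) : z ^ d = pc d 1 (fun x => d * x) z := by
  unfold pc pol cis
  conv_lhs => rw [← Complex.norm_mul_exp_arg_mul_I z]
  rw [mul_pow, ← Complex.exp_nat_mul, Real.rpow_natCast, Complex.real_smul]
  push_cast
  rw [one_mul, ← mul_assoc]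

theorem pha_lin {d : ℕ} (hd : 0 < d) : Pha d (fun x => (d : ℝ) * x) where
  smooth := by fun_prop
  deg x := by ring
  pos x := by
    have h1 : deriv (fun x : ℝ => (d : ℝ) * x) x = d := by simp
    rw [h1]
    exact_mod_cast hd

/-- the data of the base -/
def X0 (a : Fin (n + 1) → ℕ) (P : ℝ) : LD n where
  D _ := P * a 0
  ep _ := 1
  ph _ := fun x => (a 0 : ℝ) * x
  c _ := 1
  p _ := 1
  m _ := 1
  lam _ _ := 0
  bet _ _ := 0

theorem x0_ok {a : Fin (n + 1) → ℕ} {P : ℝ} (ha : 2 ≤ a 0) (hP : 2 < P * a 0) :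
    (X0 a P).Ok a 0 where
  hD _ _ := hP
  hep _ _ := one_pos
  hph i hi := by
    have : i = 0 := Fin.ext (by simpa using hi)
    subst this
    have h1 : LobeDefs_407.dg a (0 : Fin (n + 1)) = a 0 := if_pos rfl
    rw [h1]
    exact pha_lin (by omega)
  hc e he := absurd he (Nat.not_lt_zero _)
  hp e he := absurd he (Nat.not_lt_zero _)
  hm e he := absurd he (Nat.not_lt_zero _)
  sum e he := absurd he (Nat.not_lt_zero _)
  nc e he := absurd he (Nat.not_lt_zero _)
  hlam e he := absurd he (Nat.not_lt_zero _)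
  hbet e he := absurd he (Nat.not_lt_zero _)
  lam1 e he := absurd he (Nat.not_lt_zero _)
  bet1 e he := absurd he (Nat.not_lt_zero _)

/-- reindexing as a homeomorphism -/
def reH {ι ι' : Type*} (σ : ι' ≃ ι) : (ι → ℂ) ≃ₜ (ι' → ℂ) where
  toFun z i := z (σ i)
  invFun w i := w (σ.symm i)
  left_inv z := by funext i; simp
  right_inv w := by funext i; simp
  continuous_toFun := by fun_prop
  continuous_invFun := by fun_prop

theorem base_aux {a : Fin (n + 1) → ℕ} (ha : ∀ i, 2 ≤ a i) {P : ℝ} (hP : 0 < P)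
    (hP1 : P = 1 ∨ n = 0) (hPa : 2 < P * a 0) :
    SEq (chainFun (List.ofFn fun i : Fin (n + 1) => a i.rev)) ((X0 a P).st a 0) := by
  have hok := x0_ok (ha 0) hPa
  have hPi : (0 : ℝ) < P⁻¹ := inv_pos.2 hP
  obtain ⟨w, hw, -, hWH⟩ := wh_st ha hok
  obtain ⟨u, hu0, hu, hue⟩ := exists_rot ha
  have hl : (List.ofFn fun i : Fin (n + 1) => a i.rev).length = n + 1 := List.length_ofFn
  let σ : Fin (n + 1) ≃ Fin (List.ofFn fun i : Fin (n + 1) => a i.rev).length :=
    Fin.revPerm.trans (finCongr hl.symm)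
  have hσ : ∀ i, σ i = Fin.cast hl.symm i.rev := fun i => rfl
  let F : Fin (n + 1) → (ℂ ≃ₜ ℂ) := fun i =>
    if i = 0 then pwH P⁻¹ hPi else Homeomorph.mulLeft₀ (u i)⁻¹ (inv_ne_zero (hu i))
  let φ : (Fin (List.ofFn fun i : Fin (n + 1) => a i.rev).length → ℂ) ≃ₜ (Fin (n + 1) → ℂ) :=
    (reH σ).trans (Homeomorph.piCongrRight F)
  have hφ : ∀ z i, φ z i = if i = 0 then pw P⁻¹ (z (σ i)) else (u i)⁻¹ * z (σ i) := by
    intro z i
    show F i (z (σ i)) = _
    simp only [F]
    split_ifs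
    · rfl
    · rfl
  refine seq_of_equiv (w := fun k => if σ.symm k = 0 then P * w (σ.symm k) else w (σ.symm k))
    (w' := w) ?_ hw hWH φ ?_ ?_
  · intro k
    have := hw (σ.symm k)
    show 0 < (if σ.symm k = 0 then P * w (σ.symm k) else w (σ.symm k))
    split_ifs
    · positivity
    · exact this
  · intro s z
    funext i
    rw [hφ]
    show _ = (Real.exp (s * w i) : ℂ) * φ z i
    rw [hφ]
    show (if i = 0 then
      pw P⁻¹ ((Real.exp (s * (if σ.symm (σ i) = 0 then P * w (σ.symm (σ i)) else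
        w (σ.symm (σ i)))) : ℂ) * z (σ i)) else
      (u i)⁻¹ * ((Real.exp (s * (if σ.symm (σ i) = 0 then P * w (σ.symm (σ i)) else
        w (σ.symm (σ i)))) : ℂ) * z (σ i))) = _
    rw [Equiv.symm_apply_apply]
    split_ifs
    · rw [pw_smul _ (Real.exp_pos _), ← Real.exp_mul]
      congr 3
      field_simp
    · ring
  · intro z
    rw [chainFun_rev]
    have h0 : (X0 a P).st a 0 (φ z) = pc (P * a 0) 1 (fun x => (a 0 : ℝ) * x) (φ z 0) -
        ∑ e : Fin n, φ z e.castSucc * φ z e.succ ^ a e.succ := by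
      unfold LD.st GF
      congr 1
      rw [Fin.sum_univ_succ, Finset.sum_eq_zero, add_zero]
      · simp only [Fin.val_zero, le_refl]
        rfl
      · intro i _
        simp
    rw [h0, hφ, if_pos rfl, pc_pw hPi.ne', ← mul_assoc, inv_mul_cancel₀ hP.ne', one_mul,
      ← pow_eq_pc, add_comm, sub_eq_add_neg]
    congr 1
    rw [← Finset.sum_neg_distrib]
    refine Finset.sum_congr rfl fun e _ => ?_
    have hP' : P = 1 := by
      rcases hP1 with h | h
      · exact h
      · subst h; exact e.elim0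
    have h1 : ∀ i, φ z i = (u i)⁻¹ * z (σ i) := by
      intro i
      rw [hφ]
      split_ifs with h
      · rw [h, hu0, hP', inv_one, pw_one, inv_one, one_mul]
      · rfl
    rw [h1, h1, mul_pow]
    have h2 : (u e.castSucc)⁻¹ * (u e.succ)⁻¹ ^ a e.succ = -1 := by
      rw [inv_pow, ← mul_inv, hue e]
      norm_num
    calc z (σ e.castSucc) * z (σ e.succ) ^ a e.succ =
        -(-1 * (z (σ e.castSucc) * z (σ e.succ) ^ a e.succ)) := by ring
      _ = _ := by rw [← h2]; ring

theorem base {a : Fin (n + 1) → ℕ} (ha : Exps a) : BaseP a := by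
  have h0 : (2 : ℝ) ≤ a 0 := by exact_mod_cast ha.two 0
  rcases Nat.eq_zero_or_pos n with hn | hn
  · refine ⟨X0 a 2, x0_ok (ha.two 0) (by linarith), ?_⟩
    exact base_aux ha.two two_pos (Or.inr hn) (by linarith)
  · have h1 : a ⟨1, by omega⟩ < a 0 := ha.anti (by
      rw [Fin.lt_def]; simp)
    have h2 := ha.two ⟨1, by omega⟩
    have h3 : (3 : ℝ) ≤ a 0 := by exact_mod_cast (by omega : 3 ≤ a 0)
    refine ⟨X0 a 1, x0_ok (ha.two 0) (by linarith), ?_⟩
    exact base_aux ha.two one_pos (Or.inl rfl) (by linarith)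

end Crest.Agent.R267.S2_843
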