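import Crest.Agent.R267.LobeKit_407
import Crest.Agent.R267.S2_843

/-!
# Row 267 (helper82): step S3 of T3b (`S3P`)

One straight line `HPath.line` from `η = x |x|^(P-1)` to `η = |x|^P l(ξ)`.
`η_t = |x|^P w_t(ξ)`, `w_t = (1-t) e^{iξ} + t l(ξ)`; by the binomial formula
`Re (w_t ^ d) = ∑ C(d,k) (1-t)^k (t l)^(d-k) cos (k ξ)`.
-/

set_option autoImplicit false

noncomputable section

open Set Finset
open Crest.Agent.R267.LemL_951 hiding dg
open Crest.Agent.R267.Ang_739 Crest.Agent.R267.Hm_951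
open Crest.Agent.R267.Sys_808 Crest.Agent.R267.LobeDefs_407

namespace Crest.Agent.R267.S3_82

/-! ### trigonometry -/

theorem cis_re (x : ℝ) : (cis x).re = Real.cos x := by
  unfold cis
  rw [Complex.exp_ofReal_mul_I_re]

theorem cis_im (x : ℝ) : (cis x).im = Real.sin x := by
  unfold cis
  rw [Complex.exp_ofReal_mul_I_im]

theorem cis_pow (x : ℝ) (k : ℕ) : cis x ^ k = cis (k * x) := by
  unfold cis
  rw [← Complex.exp_nat_mul]
  congr 1
  push_cast
  ring

theorem cis_add_pi (x : ℝ) : cis (x + Real.pi) = - cis x := by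
  refine Complex.ext ?_ ?_
  · rw [cis_re, Complex.neg_re, cis_re, Real.cos_add_pi]
  · rw [cis_im, Complex.neg_im, cis_im, Real.sin_add_pi]

theorem cis_ne (x : ℝ) : cis x ≠ 0 := Complex.exp_ne_zero _

/-- real part of a power of `s e^{iξ} + l` -/
theorem re_pow_bin (s l ξ : ℝ) (d : ℕ) :
    (((s : ℂ) * cis ξ + (l : ℂ)) ^ d).re =
      ∑ k ∈ range (d + 1), s ^ k * l ^ (d - k) * (d.choose k) * Real.cos (k * ξ) := by
  rw [add_pow, Complex.re_sum]
  refine sum_congr rfl fun k _ => ?_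
  rw [mul_pow, cis_pow]
  have : (s : ℂ) ^ k * cis (k * ξ) * (l : ℂ) ^ (d - k) * ((d.choose k : ℕ) : ℂ) =
      ((s ^ k * l ^ (d - k) * (d.choose k) : ℝ) : ℂ) * cis (k * ξ) := by
    push_cast
    ring
  rw [this, Complex.re_ofReal_mul, cis_re]

theorem re_pow_ge {s l ξ c : ℝ} {d : ℕ} (hs : 0 ≤ s) (hl : 0 ≤ l)
    (h : ∀ k : ℕ, k ≤ d → c ≤ Real.cos (k * ξ)) :
    c * (s + l) ^ d ≤ (((s : ℂ) * cis ξ + (l : ℂ)) ^ d).re := by
  rw [re_pow_bin, add_pow, mul_sum]
  refine sum_le_sum fun k hk => ?_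
  rw [mul_comm c]
  exact mul_le_mul_of_nonneg_left (h k (Nat.lt_succ_iff.1 (mem_range.1 hk))) (by positivity)

theorem cos_mul_ge {ξ b : ℝ} {d k : ℕ} (hk : k ≤ d) (h : d * |ξ| ≤ b) (hb : b ≤ Real.pi) :
    Real.cos b ≤ Real.cos (k * ξ) := by
  have h1 : (k : ℝ) * |ξ| ≤ b :=
    le_trans (mul_le_mul_of_nonneg_right (by exact_mod_cast hk) (abs_nonneg _)) h
  have h2 : Real.cos (k * ξ) = Real.cos (k * |ξ|) := by
    rcases abs_choice ξ with h | h <;> rw [h]
    rw [mul_neg, Real.cos_neg]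
  rw [h2]
  exact Real.cos_le_cos_of_nonneg_of_le_pi (by positivity) hb h1

/-! ### polar functions of degree `> 2` are `C^2` -/

theorem contDiff_pol {F : Type*} [NormedAddCommGroup F] [NormedSpace ℝ F] {D : ℝ} (hD : 2 < D)
    {q : ℝ → F} (hper : Per q) (hq : ContDiff ℝ 2 q) : ContDiff ℝ 2 (pol D q) := by
  have h1 : ContDiffOn ℝ 2 (fun p : ℝ × ℂ => q (Complex.arg p.2)) (univ ×ˢ {0}ᶜ) :=
    contDiffOn_ang2 (q := fun p : ℝ × ℝ => q p.2) (fun _ => hper) isOpen_univ
      (hq.comp contDiff_snd).contDiffOn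
  have h2 := contDiffOn_rpow_smul (D := fun _ => D) (q := fun p : ℝ × ℂ => q (Complex.arg p.2))
    isOpen_univ contDiffOn_const (fun _ _ => hD) h1
    (fun t _ r hr z => by
      show q (Complex.arg ((r : ℂ) * z)) = q (Complex.arg z)
      rw [Complex.arg_real_mul _ hr])
  rw [univ_prod_univ, contDiffOn_univ] at h2
  exact h2.comp (f := fun z : ℂ => ((0 : ℝ), z)) (contDiff_const.prodMk contDiff_id)

theorem per_deriv {F : Type*} [NormedAddCommGroup F] [NormedSpace ℝ F] {q : ℝ → F}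
    (hper : Per q) : Per (deriv q) := fun x => by
  have h1 : (fun x => q (x + 2 * Real.pi)) = q := funext hper
  conv_rhs => rw [← h1]
  rw [deriv_comp_add_const]

/-! ### level functions -/

theorem exists_level {θ : ℝ} (h : 0 ≤ Real.cos θ) :
    ∃ N : ℤ, |θ - 2 * Real.pi * N| ≤ Real.pi / 2 := by
  have hpi := Real.pi_pos
  refine ⟨round (θ / (2 * Real.pi)), ?_⟩
  set N := round (θ / (2 * Real.pi)) with hN
  have h1 : |θ / (2 * Real.pi) - N| ≤ 1 / 2 := abs_sub_round _
  have h2 : |θ - 2 * Real.pi * N| ≤ Real.pi := by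
    have : θ - 2 * Real.pi * N = 2 * Real.pi * (θ / (2 * Real.pi) - N) := by
      field_simp
    rw [this, abs_mul, abs_of_pos (by positivity)]
    nlinarith
  by_contra hlt
  push Not at hlt
  have h3 : Real.cos |θ - 2 * Real.pi * N| < 0 :=
    Real.cos_neg_of_pi_div_two_lt_of_lt hlt (by linarith)
  rw [Real.cos_abs] at h3
  have h4 : Real.cos (θ - 2 * Real.pi * N) = Real.cos θ := by
    rw [show θ - 2 * Real.pi * N = θ - N * (2 * Real.pi) by ring, Real.cos_sub_int_mul_two_pi]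
  rw [h4] at h3
  linarith

theorem per_int {b : ℝ → ℝ} {δ : ℕ} (hper : ∀ x, b (x + 2 * Real.pi * δ) = b x) (m : ℤ) (x : ℝ) :
    b (x + 2 * Real.pi * δ * m) = b x := by
  have h : Function.Periodic b (2 * Real.pi * δ) := hper
  have := (h.int_mul m) x
  rw [← this]
  congr 1
  ring

theorem lev01 {b : ℝ → ℝ} {δ : ℕ} (hδ : 0 < δ) (hper : ∀ x, b (x + 2 * Real.pi * δ) = b x)
    {c : ℕ → ℝ} (h1 : ∀ k < δ, ∀ x : ℝ, |x - 2 * Real.pi * (k + 1)| ≤ Real.pi / 2 → b x = c k)
    {θ : ℝ} (h : 0 ≤ Real.cos θ) : ∃ k < δ, b θ = c k := by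
  obtain ⟨N, hN⟩ := exists_level h
  have hδ' : (0 : ℤ) < δ := by exact_mod_cast hδ
  set r : ℤ := (N - 1) % δ with hr
  have hr0 : 0 ≤ r := Int.emod_nonneg _ hδ'.ne'
  have hr1 : r < δ := Int.emod_lt_of_pos _ hδ'
  have hdec : N - 1 = δ * ((N - 1) / δ) + r := (Int.mul_ediv_add_emod (N - 1) δ).symm
  obtain ⟨k, hk⟩ := Int.eq_ofNat_of_zero_le hr0
  set m : ℤ := (N - 1) / δ with hm
  refine ⟨k, by rw [hk] at hr1; exact_mod_cast hr1, ?_⟩
  have h2 : b θ = b (θ - 2 * Real.pi * δ * m) := by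
    have := per_int hper m (θ - 2 * Real.pi * δ * m)
    rw [← this]
    congr 1
    ring
  rw [h2]
  refine h1 k (by rw [hk] at hr1; exact_mod_cast hr1) _ ?_
  have h3 : (N : ℝ) = δ * m + k + 1 := by
    have : (N : ℤ) = δ * m + k + 1 := by linarith
    exact_mod_cast this
  have h4 : θ - 2 * Real.pi * δ * m - 2 * Real.pi * (k + 1) = θ - 2 * Real.pi * N := by
    rw [h3]; ring
  rw [h4]
  exact hN

/-- outside of `|ξ| < π / 3d` the levels are the lobes `k < d`. -/
theorem lev_out {b : ℝ → ℝ} {δ d : ℕ} (hd : d ≤ δ) (hd0 : 0 < d) {c : ℕ → ℝ}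
    (h1 : ∀ k < δ, ∀ x : ℝ, |x - 2 * Real.pi * (k + 1)| ≤ Real.pi / 2 → b x = c k)
    {x : ℝ} (hx0 : Real.pi / (3 * d) ≤ x) (hx1 : x ≤ 2 * Real.pi - Real.pi / (3 * d))
    (h : 0 ≤ Real.cos (d * x + Real.pi)) : ∃ k < d, b (d * x + Real.pi) = c k := by
  have hpi := Real.pi_pos
  have hdr : (0 : ℝ) < d := by exact_mod_cast hd0
  obtain ⟨N, hN⟩ := exists_level h
  have h2 := abs_le.1 hN
  have e1 : (d : ℝ) * (Real.pi / (3 * d)) = Real.pi / 3 := by field_simp
  have h3 : Real.pi / 3 ≤ d * x := by rw [← e1]; exact mul_le_mul_of_nonneg_left hx0 hdr.le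
  have h4 : d * x ≤ d * (2 * Real.pi) - Real.pi / 3 := by
    rw [← e1, ← mul_sub]; exact mul_le_mul_of_nonneg_left hx1 hdr.le
  have hN1 : 0 < N := by
    have : (0 : ℝ) < N := by
      by_contra hle
      push Not at hle
      have : 2 * Real.pi * N ≤ 0 := by nlinarith
      linarith
    exact_mod_cast this
  have hN2 : N < d + 1 := by
    have : (N : ℝ) < d + 1 := by
      by_contra hle
      push Not at hle
      have : 2 * Real.pi * (d + 1) ≤ 2 * Real.pi * N := mul_le_mul_of_nonneg_left hle (by positivity)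
      nlinarith
    exact_mod_cast this
  obtain ⟨k, hk⟩ := Int.eq_ofNat_of_zero_le (show 0 ≤ N - 1 by omega)
  have hkd : k < d := by omega
  refine ⟨k, hkd, h1 k (lt_of_lt_of_le hkd hd) _ ?_⟩
  have h5 : ((k : ℝ) + 1) = N := by
    have : (N : ℤ) = k + 1 := by omega
    exact_mod_cast this.symm
  rw [h5]
  exact hN

/-! ### the pieces of a lobe datum -/

section Ok

variable {n : ℕ} {a : Fin (n + 1) → ℕ}

theorem dg_pos (ha : Exps a) (i : Fin (n + 1)) : 0 < dg a i := by
  unfold dg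
  split_ifs with h
  · have := ha.two i; omega
  · omega

theorem bet_per {X : LD n} {j : ℕ} (hX : X.Ok a j) {e : Fin n} (he : (e : ℕ) < j) :
    Per fun x => X.bet e (X.ph e.succ x) := fun x => by
  have hs : ((e.succ : Fin (n + 1)) : ℕ) ≤ j := by rw [Fin.val_succ]; exact he
  show X.bet e (X.ph e.succ (x + 2 * Real.pi)) = X.bet e (X.ph e.succ x)
  rw [(hX.hph e.succ hs).deg x, (hX.hbet e he).per]

theorem lam_per {X : LD n} {j : ℕ} (hX : X.Ok a j) {e : Fin n} (he : (e : ℕ) < j) :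
    Per fun x => X.lam e (X.ph e.castSucc x) := fun x => by
  have hs : ((e.castSucc : Fin (n + 1)) : ℕ) ≤ j := by rw [Fin.val_castSucc]; exact he.le
  show X.lam e (X.ph e.castSucc (x + 2 * Real.pi)) = X.lam e (X.ph e.castSucc x)
  rw [(hX.hph e.castSucc hs).deg x, (hX.hlam e he).per]

/-- the factor `h` does not change along the circle where `cos ≥ 0` -/
theorem fderiv_h_I {X : LD n} {j : ℕ} (hX : X.Ok a j) {e : Fin n} (he : (e : ℕ) < j) {x : ℂ}
    (hx : x ≠ 0) (hc : 0 ≤ Real.cos (X.ph e.succ (Complex.arg x))) :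
    fderiv ℝ (X.h e) x (Complex.I * x) = 0 := by
  have hs : ((e.succ : Fin (n + 1)) : ℕ) ≤ j := by rw [Fin.val_succ]; exact he
  have h1 : HasDerivAt (X.ph e.succ) (deriv (X.ph e.succ) (Complex.arg x)) (Complex.arg x) :=
    ((hX.hph e.succ hs).smooth.differentiable (by norm_num) _).hasDerivAt
  have h2 : HasDerivAt (X.bet e) (deriv (X.bet e) (X.ph e.succ (Complex.arg x)))
      (X.ph e.succ (Complex.arg x)) :=
    ((hX.hbet e he).smooth.differentiable (by norm_num) _).hasDerivAt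
  rw [(hX.hbet e he).flat _ hc] at h2
  have h3 := h2.comp (Complex.arg x) h1
  rw [zero_mul] at h3
  have h4 := fderiv_pol_I (X.m e) (bet_per hX he) hx h3
  rw [smul_zero] at h4
  exact h4

theorem contDiff_Q {X : LD n} {j : ℕ} (hX : X.Ok a j) {i : Fin (n + 1)} (hi : (i : ℕ) ≤ j) :
    ContDiff ℝ 2 (X.Q i) := by
  refine contDiff_pol (hX.hD i hi) ((hX.hph i hi).deg.per _) ?_
  exact contDiff_const.mul (contDiff_cis.comp (hX.hph i hi).smooth)

theorem contDiff_h {X : LD n} {j : ℕ} (hX : X.Ok a j) {e : Fin n} (he : (e : ℕ) < j) :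
    ContDiff ℝ 2 (X.h e) := by
  have hs : ((e.succ : Fin (n + 1)) : ℕ) ≤ j := by rw [Fin.val_succ]; exact he
  exact contDiff_pol (hX.hm e he) (bet_per hX he)
    ((hX.hbet e he).smooth.comp (hX.hph e.succ hs).smooth)

theorem contDiff_g {X : LD n} {j : ℕ} (hX : X.Ok a j) {e : Fin n} (he : (e : ℕ) < j) :
    ContDiff ℝ 2 (X.g e) := by
  have hs : ((e.castSucc : Fin (n + 1)) : ℕ) ≤ j := by rw [Fin.val_castSucc]; exact he.le
  exact contDiff_const.mul (contDiff_pol (hX.hp e he) (lam_per hX he)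
    ((hX.hlam e he).smooth.comp (hX.hph e.castSucc hs).smooth))

theorem Q_re {X : LD n} (i : Fin (n + 1)) (x : ℂ) :
    (X.Q i x).re = ‖x‖ ^ X.D i * (X.ep i * Real.cos (X.ph i (Complex.arg x))) := by
  unfold LD.Q pc pol
  rw [Complex.real_smul, Complex.re_ofReal_mul, Complex.re_ofReal_mul, cis_re]

/-- **`A` is regular** -/
theorem trReg_Q (ha : Exps a) {j : Fin (n + 1)} (hT : TrP a j) {X : LD n} (hX : X.Ok a j) :
    X.TrReg j (X.Q j) := by
  have hjj : (j : ℕ) ≤ j := le_rfl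
  have hep := hX.hep j hjj
  refine hT X (X.Q j) hX (fun r hr z => pc_hom _ _ _ r hr z)
    (fun x => (contDiff_Q hX hjj).differentiable (by norm_num) x) (fun x hx => ?_)
    fun e he x hx hh hre him => ?_
  · refine ⟨pc_ne hep _ hx, ?_⟩
    by_cases hneg : (X.Q j x).re < 0
    · exact Or.inl hneg
    right
    have hn : 0 < ‖x‖ ^ X.D j := Real.rpow_pos_of_pos (norm_pos_iff.2 hx) _
    have hcos : 0 ≤ Real.cos (X.ph j (Complex.arg x)) := by
      rw [Q_re] at hneg
      by_contra hlt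
      push Not at hlt
      exact hneg (mul_neg_of_pos_of_neg hn (mul_neg_of_pos_of_neg hep hlt))
    refine ⟨Complex.I * x, fun e he => ?_, ?_⟩
    · subst he
      exact fderiv_h_I hX (by rw [Fin.val_succ]; exact Nat.lt_succ_self _) hx hcos
    · have h1 : HasDerivAt (X.ph j) (deriv (X.ph j) (Complex.arg x)) (Complex.arg x) :=
        ((hX.hph j hjj).smooth.differentiable (by norm_num) _).hasDerivAt
      have h2 := fderiv_pc_I (D := X.D j) (eps := X.ep j) (hX.hph j hjj).deg hx h1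
      unfold LD.Q
      rw [h2]
      exact good2_of_rot ((hX.hph j hjj).pos _).ne'
  · subst he
    have he : (e : ℕ) < (e.succ : Fin (n + 1)) := by rw [Fin.val_succ]; exact Nat.lt_succ_self _
    have hn : 0 < ‖x‖ ^ X.D e.succ := Real.rpow_pos_of_pos (norm_pos_iff.2 hx) _
    have hcos : 0 ≤ Real.cos (X.ph e.succ (Complex.arg x)) := by
      rw [Q_re] at hre
      by_contra hlt
      push Not at hlt
      have := mul_neg_of_pos_of_neg hn (mul_neg_of_pos_of_neg hep hlt)
      linarith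
    refine ⟨?_, ?_⟩
    · obtain ⟨k, hk, hb⟩ := lev01 (dg_pos ha e.succ) (hX.hbet e he).per
        (c := fun k => if k + 1 = dg a e.succ then 1 else 0) (hX.bet1 e he) hcos
      have e1 : X.h e x = ‖x‖ ^ X.m e * (if k + 1 = dg a e.succ then 1 else 0) := by
        rw [← hb]; rfl
      split_ifs at e1 with h
      · rw [e1, mul_one]
      · rw [e1, mul_zero] at hh
        exact absurd hh (lt_irrefl _)
    · exact (norm_pc hep.le _ _).le

end Ok

/-! ### the function `V` of the REDUCTION -/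

/-- the angular part of `η_t` -/
def wt (t : ℝ) (l : ℝ → ℝ) (x : ℝ) : ℂ := ((1 - t : ℝ) : ℂ) * cis x + ((t * l x : ℝ) : ℂ)

theorem wt_per {l : ℝ → ℝ} (hl : Per l) (t : ℝ) : Per (wt t l) := fun x => by
  unfold wt
  rw [hl x]
  have := cis_per_nat x 1
  rw [Nat.cast_one, mul_one] at this
  rw [this]

theorem wt_smooth {l : ℝ → ℝ} (hl : ContDiff ℝ 2 l) (t : ℝ) : ContDiff ℝ 2 (wt t l) := by
  refine (contDiff_const.mul contDiff_cis).add ?_
  exact Complex.ofRealCLM.contDiff.comp (contDiff_const.mul hl)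

/-- the angular part of `V` -/
def vt (ε K : ℝ) (φ : ℝ → ℝ) (d : ℕ) (t : ℝ) (l : ℝ → ℝ) (x : ℝ) : ℂ :=
  (ε : ℂ) * cis (φ x) - (K : ℂ) * wt t l x ^ d

theorem V_eq {ε K D P : ℝ} {φ : ℝ → ℝ} {d : ℕ} {t : ℝ} {l : ℝ → ℝ} (hD : D = d * P) (x : ℂ) :
    pc D ε φ x - (K : ℂ) * pol P (wt t l) x ^ d = pol D (vt ε K φ d t l) x := by
  unfold pc pol vt
  simp only [Complex.real_smul]
  have : ((‖x‖ ^ P : ℝ) : ℂ) ^ d = ((‖x‖ ^ D : ℝ) : ℂ) := by
    rw [← Complex.ofReal_pow, ← Real.rpow_mul_natCast (norm_nonneg _), hD, mul_comm P]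
  rw [mul_pow, this]
  ring

theorem d_pi3 {d : ℕ} (hd : 0 < d) : (d : ℝ) * (Real.pi / (3 * d)) = Real.pi / 3 := by
  have : (0 : ℝ) < d := by exact_mod_cast hd
  field_simp

theorem d_pi2 {d : ℕ} (hd : 0 < d) : (d : ℝ) * (Real.pi / (2 * d)) = Real.pi / 2 := by
  have : (0 : ℝ) < d := by exact_mod_cast hd
  field_simp

/-- zone 1 -/
theorem vt_zone1 {ε K : ℝ} {φ : ℝ → ℝ} {d : ℕ} {t : ℝ} {l : ℝ → ℝ} {x : ℝ} (hε : 0 < ε)
    (hK : 2 * ε < K) (ht0 : 0 ≤ t) (ht1 : t ≤ 1) (hd : 0 < d) (hl : l x = 1)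
    (hx : |x| ≤ Real.pi / (3 * d)) : (vt ε K φ d t l x).re < 0 := by
  have hpi := Real.pi_pos
  unfold vt wt
  rw [Complex.sub_re, Complex.re_ofReal_mul, Complex.re_ofReal_mul, cis_re, hl, mul_one]
  have h1 : Real.cos (Real.pi / 3) * ((1 - t) + t) ^ d ≤
      (((((1 - t : ℝ)) : ℂ) * cis x + ((t : ℝ) : ℂ)) ^ d).re := by
    refine re_pow_ge (by linarith) ht0 fun k hk => cos_mul_ge hk ?_ (by linarith)
    rw [← d_pi3 hd]
    exact mul_le_mul_of_nonneg_left hx (by positivity)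
  rw [Real.cos_pi_div_three, show (1 - t) + t = 1 by ring, one_pow, mul_one] at h1
  have h2 := Real.cos_le_one (φ x)
  nlinarith

/-- zone 2, in the form: `cos φ < 0` -/
theorem vt_zone2 {ε K : ℝ} {φ : ℝ → ℝ} {d : ℕ} {t : ℝ} {l : ℝ → ℝ} {x : ℝ} (hε : 0 < ε)
    (hK : 0 < K) (ht0 : 0 ≤ t) (ht1 : t ≤ 1) (hd : 0 < d) (hl : 0 ≤ l x)
    (hx : |x| ≤ Real.pi / (2 * d)) (hφ : Real.cos (φ x) < 0) : (vt ε K φ d t l x).re < 0 := by
  have hpi := Real.pi_pos
  unfold vt wt
  rw [Complex.sub_re, Complex.re_ofReal_mul, Complex.re_ofReal_mul, cis_re]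
  have h1 : Real.cos (Real.pi / 2) * ((1 - t) + t * l x) ^ d ≤
      (((((1 - t : ℝ)) : ℂ) * cis x + ((t * l x : ℝ) : ℂ)) ^ d).re := by
    refine re_pow_ge (by linarith) (mul_nonneg ht0 hl) fun k hk => cos_mul_ge hk ?_ (by linarith)
    rw [← d_pi2 hd]
    exact mul_le_mul_of_nonneg_left hx (by positivity)
  rw [Real.cos_pi_div_two, zero_mul] at h1
  have h2 := mul_neg_of_pos_of_neg hε hφ
  have h3 := mul_nonneg hK.le h1
  linarith

/-- zone 3: the value -/
theorem vt_zone3 {ε K : ℝ} {φ : ℝ → ℝ} {d : ℕ} {t : ℝ} {l : ℝ → ℝ} {x : ℝ}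
    (hl : l x = 0) (hφ : φ x = d * x + Real.pi) :
    vt ε K φ d t l x = ((ε + K * (1 - t) ^ d : ℝ) : ℂ) * cis (φ x) := by
  unfold vt wt
  rw [hl, mul_zero, Complex.ofReal_zero, add_zero, mul_pow, cis_pow, hφ, cis_add_pi]
  push_cast
  ring

/-- zone 3: the derivative -/
theorem vt_deriv3 {ε K : ℝ} {φ : ℝ → ℝ} {d : ℕ} {t : ℝ} {l : ℝ → ℝ} {x : ℝ} (hd : 0 < d)
    (hl : l x = 0) (hl' : HasDerivAt l 0 x) (hφ' : HasDerivAt φ d x) :
    HasDerivAt (vt ε K φ d t l) ((d : ℂ) * (Complex.I * vt ε K φ d t l x)) x := by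
  have h1 := hasDerivAt_epscis ε hφ'
  have h2 : HasDerivAt (wt t l) (((1 - t : ℝ) : ℂ) * (Complex.I * cis x) + 0) x := by
    unfold wt
    refine ((hasDerivAt_cis x).const_mul _).add ?_
    have := (hl'.const_mul t).ofReal_comp
    rwa [mul_zero, Complex.ofReal_zero] at this
  have h3 := (h2.pow d).const_mul (K : ℂ)
  refine (h1.sub h3).congr_deriv ?_
  unfold vt
  have hw : wt t l x = ((1 - t : ℝ) : ℂ) * cis x := by
    unfold wt; rw [hl]; simp
  obtain ⟨m, rfl⟩ := Nat.exists_eq_succ_of_ne_zero hd.ne'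
  rw [hw]
  simp only [Nat.succ_eq_add_one, Nat.add_sub_cancel]
  push_cast
  ring

theorem exists_rep {d : ℕ} (hd : 0 < d) {ξ : ℝ} (h0 : -Real.pi < ξ) (h1 : ξ ≤ Real.pi) :
    ∃ x : ℝ, (x = ξ ∨ x = ξ + 2 * Real.pi) ∧ -(Real.pi / (3 * d)) ≤ x ∧
      x ≤ 2 * Real.pi - Real.pi / (3 * d) := by
  have hpi := Real.pi_pos
  have hd' : (1 : ℝ) ≤ d := by exact_mod_cast hd
  have h2 : Real.pi / (3 * d) ≤ Real.pi := by
    rw [div_le_iff₀ (by positivity)]
    nlinarith
  by_cases h : -(Real.pi / (3 * d)) ≤ ξ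
  · exact ⟨ξ, Or.inl rfl, h, by linarith⟩
  · push Not at h
    have h3 : 0 ≤ Real.pi / (3 * d) := by positivity
    exact ⟨ξ + 2 * Real.pi, Or.inr rfl, by linarith, by linarith⟩

theorem rep_eq {F : Type*} {q : ℝ → F} (hq : Per q) {x ξ : ℝ}
    (h : x = ξ ∨ x = ξ + 2 * Real.pi) : q ξ = q x := by
  rcases h with h | h
  · rw [h]
  · rw [h, hq ξ]

theorem cis_two_pi (x : ℝ) : cis (x + 2 * Real.pi) = cis x := by
  have := cis_per_nat x 1
  rwa [Nat.cast_one, mul_one] at this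

theorem wt_rep {l : ℝ → ℝ} (hl : Per l) (t x : ℝ) : wt t l (x - 2 * Real.pi) = wt t l x := by
  have := wt_per hl t (x - 2 * Real.pi)
  rwa [sub_add_cancel, eq_comm] at this

/-- **the planar condition**: `x` in the representative interval -/
theorem vt_main {ε K : ℝ} {φ : ℝ → ℝ} {d : ℕ} {t : ℝ} {l : ℝ → ℝ} {x : ℝ} (hε : 0 < ε)
    (hK : 2 * ε < K) (ht0 : 0 ≤ t) (ht1 : t ≤ 1) (hd : 0 < d) (hl : CutX d l)
    (hφ : ∀ x : ℝ, Real.pi / (3 * d) ≤ x → x ≤ 2 * Real.pi - Real.pi / (3 * d) →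
      φ x = d * x + Real.pi)
    (hx0 : -(Real.pi / (3 * d)) ≤ x) (hx1 : x ≤ 2 * Real.pi - Real.pi / (3 * d)) :
    (vt ε K φ d t l x).re < 0 ∨
      (Real.pi / (3 * d) ≤ x ∧ vt ε K φ d t l x = ((ε + K * (1 - t) ^ d : ℝ) : ℂ) * cis (φ x) ∧
        HasDerivAt (vt ε K φ d t l) ((d : ℂ) * (Complex.I * vt ε K φ d t l x)) x) := by
  have hpi := Real.pi_pos
  have hdr : (0 : ℝ) < d := by exact_mod_cast hd
  have hK0 : 0 < K := by linarith
  have h32 : Real.pi / (3 * d) < Real.pi / (2 * d) := by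
    rw [div_lt_div_iff₀ (by positivity) (by positivity)]
    nlinarith
  by_cases h1 : x ≤ Real.pi / (3 * d)
  · left
    have hx : |x| ≤ Real.pi / (3 * d) := abs_le.2 ⟨hx0, h1⟩
    exact vt_zone1 hε hK ht0 ht1 hd (hl.one x hx) hx
  push Not at h1
  have hφx := hφ x h1.le hx1
  by_cases h2 : x < Real.pi / (2 * d)
  · left
    refine vt_zone2 hε hK0 ht0 ht1 hd (hl.nn x) (abs_le.2 ⟨by linarith, h2.le⟩) ?_
    rw [hφx, Real.cos_add_pi, neg_lt_zero]
    have h3 : d * x < Real.pi / 2 := by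
      rw [← d_pi2 hd]; exact mul_lt_mul_of_pos_left h2 hdr
    have h4 : 0 < d * x := mul_pos hdr (lt_trans (by positivity) h1)
    exact Real.cos_pos_of_mem_Ioo ⟨by linarith, h3⟩
  push Not at h2
  by_cases h3 : x ≤ 2 * Real.pi - Real.pi / (2 * d)
  · right
    have hlx : l x = 0 := hl.zero x h2 h3
    refine ⟨h1.le, vt_zone3 hlx hφx, vt_deriv3 hd hlx ?_ ?_⟩
    · have h4 : HasDerivAt l (deriv l x) x :=
        (hl.smooth.differentiable (by norm_num) x).hasDerivAt
      have h5 : IsLocalMin l x := Filter.Eventually.of_forall fun y => by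
        rw [hlx]; exact hl.nn y
      rwa [h5.deriv_eq_zero] at h4
    · have h4 : HasDerivAt (fun y : ℝ => (d : ℝ) * y + Real.pi) d x := by
        simpa using ((hasDerivAt_id x).const_mul (d : ℝ)).add_const Real.pi
      refine h4.congr_of_eventuallyEq ?_
      filter_upwards [Ioo_mem_nhds (show Real.pi / (3 * d) < x by linarith)
        (show x < 2 * Real.pi - Real.pi / (3 * d) by linarith)] with y hy
      exact hφ y hy.1.le hy.2.le
  push Not at h3
  have h30 : 0 < Real.pi / (3 * d) := by positivity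
  left
  -- use the representative `x - 2π`
  have hw : vt ε K φ d t l x = vt ε K (fun _ => φ x) d t l (x - 2 * Real.pi) := by
    unfold vt
    rw [wt_rep hl.per]
  rw [hw]
  refine vt_zone2 hε hK0 ht0 ht1 hd (hl.nn _) (abs_le.2 ⟨by linarith, by linarith⟩) ?_
  rw [hφx, Real.cos_add_pi, neg_lt_zero]
  have h4 : Real.cos (d * x) = Real.cos (d * (2 * Real.pi - x)) := by
    rw [mul_sub, show (d : ℝ) * (2 * Real.pi) - d * x = (d : ℕ) * (2 * Real.pi) - d * x by rfl,
      Real.cos_nat_mul_two_pi_sub]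
  have h5 : (d : ℝ) * (2 * Real.pi - x) < Real.pi / 2 := by
    rw [← d_pi2 hd]; exact mul_lt_mul_of_pos_left (by linarith) hdr
  have h6 : 0 < (d : ℝ) * (2 * Real.pi - x) := by
    refine mul_pos hdr ?_
    have : 0 < Real.pi / (3 * d) := by positivity
    linarith
  rw [h4]
  exact Real.cos_pos_of_mem_Ioo ⟨by linarith, h5⟩

section V

variable {n : ℕ} {a : Fin (n + 1) → ℕ}

/-- **`V` is regular** -/
theorem trReg_V (ha : Exps a) (e : Fin n) {X : LD n} {P : ℝ} {l : ℝ → ℝ}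
    (hX : X.Al a e (a e.succ + 1) P) (hl : CutX (a e.succ + 1) l) {K : ℝ}
    (hK : 2 * X.ep e.castSucc < K) {t : ℝ} (ht0 : 0 ≤ t) (ht1 : t ≤ 1) :
    X.TrReg e (fun x => X.Q e.castSucc x - (K : ℂ) * pol P (wt t l) x ^ (a e.succ + 1)) := by
  have hpi := Real.pi_pos
  set j : Fin (n + 1) := e.castSucc with hj
  have hje : (j : ℕ) = e := by rw [hj, Fin.val_castSucc]
  set d : ℕ := a e.succ + 1 with hd
  have hd0 : 0 < d := Nat.succ_pos _
  have hok : X.Ok a j := by rw [hje]; exact hX.ok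
  have hjj : (j : ℕ) ≤ j := le_rfl
  have hε := hok.hep j hjj
  have hDj : X.D j = d * P := hX.deg j hje
  have hφ := hX.ph j hje
  have hpha := hok.hph j hjj
  have hD2 := hok.hD j hjj
  have hV : (fun x => X.Q j x - (K : ℂ) * pol P (wt t l) x ^ d) =
      pol (X.D j) (vt (X.ep j) K (X.ph j) d t l) := funext fun x => V_eq hDj x
  rw [hV, ← hje]
  have hcp : Per fun x => cis (X.ph j x) := fun x => by
    show cis (X.ph j (x + 2 * Real.pi)) = cis (X.ph j x)
    rw [hpha.deg x, cis_per_nat]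
  have hvper : Per (vt (X.ep j) K (X.ph j) d t l) := fun x => by
    unfold vt
    rw [wt_per hl.per t x, show cis (X.ph j (x + 2 * Real.pi)) = cis (X.ph j x) from hcp x]
  have hvsm : ContDiff ℝ 2 (vt (X.ep j) K (X.ph j) d t l) := by
    unfold vt
    exact (contDiff_const.mul (contDiff_cis.comp hpha.smooth)).sub
      (contDiff_const.mul ((wt_smooth hl.smooth t).pow d))
  -- the representative
  have hrep : ∀ x : ℂ, ∃ y : ℝ, (y = Complex.arg x ∨ y = Complex.arg x + 2 * Real.pi) ∧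
      -(Real.pi / (3 * d)) ≤ y ∧ y ≤ 2 * Real.pi - Real.pi / (3 * d) := fun x =>
    exists_rep hd0 (Complex.neg_pi_lt_arg x) (Complex.arg_le_pi x)
  have hval : ∀ (x : ℂ) (y : ℝ), (y = Complex.arg x ∨ y = Complex.arg x + 2 * Real.pi) →
      pol (X.D j) (vt (X.ep j) K (X.ph j) d t l) x =
        ((‖x‖ ^ X.D j : ℝ) : ℂ) * vt (X.ep j) K (X.ph j) d t l y := by
    intro x y hy
    rw [← rep_eq hvper hy]
    rfl
  have hcos : ∀ (x : ℂ) (y : ℝ), (y = Complex.arg x ∨ y = Complex.arg x + 2 * Real.pi) →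
      Real.cos (X.ph j (Complex.arg x)) = Real.cos (X.ph j y) := by
    intro x y hy
    rw [← cis_re, ← cis_re]
    exact congrArg Complex.re (rep_eq hcp hy)
  have hcoef : 0 < X.ep j + K * (1 - t) ^ d := by
    have : 0 ≤ K * (1 - t) ^ d := mul_nonneg (by linarith) (pow_nonneg (by linarith) _)
    linarith
  refine LobeKit_407.trP a j X _ hok (fun r hr z => pol_hom _ _ r hr z)
    (fun x => (contDiff_pol hD2 hvper hvsm).differentiable (by norm_num) x) (fun x hx => ?_)
    fun e' he' x hx hh hre him => ?_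
  · have hn : 0 < ‖x‖ ^ X.D j := Real.rpow_pos_of_pos (norm_pos_iff.2 hx) _
    obtain ⟨y, hy, hy0, hy1⟩ := hrep x
    rcases vt_main hε hK ht0 ht1 hd0 hl hφ hy0 hy1 with h | ⟨h1, h2, h3⟩
    · have hneg : (pol (X.D j) (vt (X.ep j) K (X.ph j) d t l) x).re < 0 := by
        rw [hval x y hy, Complex.re_ofReal_mul]
        exact mul_neg_of_pos_of_neg hn h
      refine ⟨fun h0 => ?_, Or.inl hneg⟩
      rw [h0, Complex.zero_re] at hneg
      exact lt_irrefl _ hneg
    · refine ⟨?_, ?_⟩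
      · rw [hval x y hy, h2]
        exact mul_ne_zero (by exact_mod_cast hn.ne')
          (mul_ne_zero (by exact_mod_cast hcoef.ne') (cis_ne _))
      by_cases hneg : (pol (X.D j) (vt (X.ep j) K (X.ph j) d t l) x).re < 0
      · exact Or.inl hneg
      right
      have hc : 0 ≤ Real.cos (X.ph j (Complex.arg x)) := by
        rw [hcos x y hy]
        rw [hval x y hy, h2, Complex.re_ofReal_mul, Complex.re_ofReal_mul, cis_re] at hneg
        by_contra hlt
        push Not at hlt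
        exact hneg (mul_neg_of_pos_of_neg hn (mul_neg_of_pos_of_neg hcoef hlt))
      refine ⟨Complex.I * x, fun e' he' => ?_, ?_⟩
      · rw [← he'] at hc
        exact fderiv_h_I hok (by rw [← he', Fin.val_succ]; exact Nat.lt_succ_self _) hx hc
      · -- the derivative at `arg x`
        have h4 : HasDerivAt (vt (X.ep j) K (X.ph j) d t l)
            (deriv (vt (X.ep j) K (X.ph j) d t l) (Complex.arg x)) (Complex.arg x) :=
          (hvsm.differentiable (by norm_num) _).hasDerivAt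
        rw [rep_eq (per_deriv hvper) hy, h3.deriv] at h4
        rw [fderiv_pol_I (X.D j) hvper hx h4]
        have h5 : ‖x‖ ^ X.D j • ((d : ℂ) * (Complex.I * vt (X.ep j) K (X.ph j) d t l y)) =
            ((d : ℝ) : ℂ) * (Complex.I * pol (X.D j) (vt (X.ep j) K (X.ph j) d t l) x) := by
          rw [hval x y hy, Complex.real_smul]
          push_cast
          ring
        rw [h5]
        exact good2_of_rot (by exact_mod_cast hd0.ne')
  · exfalso
    have hn : 0 < ‖x‖ ^ X.D j := Real.rpow_pos_of_pos (norm_pos_iff.2 hx) _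
    obtain ⟨y, hy, hy0, hy1⟩ := hrep x
    have hre' : 0 < (vt (X.ep j) K (X.ph j) d t l y).re := by
      rw [hval x y hy, Complex.re_ofReal_mul] at hre
      exact (mul_pos_iff_of_pos_left hn).1 hre
    rcases vt_main hε hK ht0 ht1 hd0 hl hφ hy0 hy1 with h | ⟨h1, h2, h3⟩
    · linarith
    rw [h2, Complex.re_ofReal_mul, cis_re] at hre'
    have hc : 0 < Real.cos (X.ph j y) := (mul_pos_iff_of_pos_left hcoef).1 hre'
    rw [hφ y h1 hy1] at hc
    have hlt : (e' : ℕ) < j := by rw [← he', Fin.val_succ]; exact Nat.lt_succ_self _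
    have hj0 : j ≠ 0 := by rw [← he']; exact Fin.succ_ne_zero _
    have hdd : d < dg a j := by
      have h6 : a e.succ < a j := ha.anti (by rw [hj]; exact Fin.castSucc_lt_succ)
      unfold LobeDefs_407.dg
      rw [if_neg hj0]
      omega
    have hbet1 := hok.bet1 e' hlt
    rw [he'] at hbet1
    obtain ⟨k, hk, hb⟩ := lev_out hdd.le hd0 (b := X.bet e')
      (c := fun k => if k + 1 = dg a j then 1 else 0) hbet1 h1 hy1 hc.le
    rw [if_neg (by omega)] at hb
    have h7 : X.h e' x = ‖x‖ ^ X.m e' * X.bet e' (X.ph j y) := by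
      have h8 := rep_eq (bet_per hok hlt) hy
      have h9 : X.h e' x = ‖x‖ ^ X.m e' * X.bet e' (X.ph e'.succ (Complex.arg x)) := rfl
      rw [h9, h8, he']
    rw [h7, hφ y h1 hy1, hb, mul_zero] at hh
    exact lt_irrefl _ hh

/-! ### smoothness of the functions of the step -/

theorem contDiff_GF {Q : Fin (n + 1) → ℂ → ℂ} {g h : Fin n → ℂ → ℂ}
    (hQ : ∀ i, ContDiff ℝ 2 (Q i)) (hg : ∀ e, ContDiff ℝ 2 (g e)) (hh : ∀ e, ContDiff ℝ 2 (h e)) :
    ContDiff ℝ 2 (GF Q g h) := by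
  unfold GF
  refine ContDiff.sub (ContDiff.sum fun i _ => (hQ i).comp (contDiff_apply ℝ ℂ i))
    (ContDiff.sum fun e _ => ?_)
  exact ((hg e).comp (contDiff_apply ℝ ℂ e.castSucc)).mul
    ((hh e).comp (contDiff_apply ℝ ℂ e.succ))

theorem contDiff_mid {X : LD n} {e : Fin n} (hX : X.Ok a e) {Y η H : ℂ → ℂ}
    (hY : ContDiff ℝ 2 Y) (hη : ContDiff ℝ 2 η) (hH : ContDiff ℝ 2 H) :
    ContDiff ℝ 2 (X.mid a e Y η H) := by
  unfold LD.mid
  refine contDiff_GF (fun i => ?_) (fun e' => ?_) fun e' => ?_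
  · by_cases h1 : (i : ℕ) ≤ e
    · simp only [if_pos h1]
      exact contDiff_Q hX h1
    · by_cases h2 : (i : ℕ) = e + 1
      · simp only [if_neg h1, if_pos h2]
        exact hY
      · simp only [if_neg h1, if_neg h2]
        exact contDiff_const
  · by_cases h1 : (e' : ℕ) < e
    · simp only [if_pos h1]
      exact Complex.ofRealCLM.contDiff.comp (contDiff_g hX h1)
    · by_cases h2 : (e' : ℕ) = e
      · simp only [if_neg h1, if_pos h2]
        exact hη
      · simp only [if_neg h1, if_neg h2]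
        exact contDiff_id
  · by_cases h1 : (e' : ℕ) < e
    · simp only [if_pos h1]
      exact Complex.ofRealCLM.contDiff.comp (contDiff_h hX h1)
    · by_cases h2 : (e' : ℕ) = e
      · simp only [if_neg h1, if_pos h2]
        exact hH
      · simp only [if_neg h1, if_neg h2]
        exact contDiff_id.pow _

/-- the coupling of the step, separated -/
theorem mid_eq (X : LD n) (e : Fin n) (Y η H : ℂ → ℂ) (z : Fin (n + 1) → ℂ) :
    X.mid a e Y η H z = X.mid a e Y 0 H z - η (z e.castSucc) * H (z e.succ) := by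
  unfold LD.mid GF
  rw [sub_sub]
  congr 1
  rw [← Finset.sum_erase_add _ _ (Finset.mem_univ e)]
  conv_rhs => rw [← Finset.sum_erase_add _ _ (Finset.mem_univ e)]
  simp only [lt_irrefl, if_false, if_true, Pi.zero_apply, zero_mul, add_zero]
  congr 1
  refine sum_congr rfl fun e' he' => ?_
  have hne : (e' : ℕ) ≠ e := fun h => (Finset.ne_of_mem_erase he') (Fin.ext h)
  simp only [if_neg hne]

theorem pw_eq (P : ℝ) (hP : 0 < P) (l : ℝ → ℝ) : pol P (wt 0 l) = pw P := by
  funext z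
  rcases eq_or_ne z 0 with rfl | hz
  · rw [pol_zero hP.ne']
    simp [pw]
  · have hn : 0 < ‖z‖ := norm_pos_iff.2 hz
    unfold pol wt pw
    rw [sub_zero, zero_mul, Complex.ofReal_zero, add_zero, Complex.ofReal_one, one_mul,
      Complex.real_smul]
    have h1 : ‖z‖ ^ P = ‖z‖ ^ (P - 1) * ‖z‖ := by
      rw [← Real.rpow_add_one hn.ne', sub_add_cancel]
    conv_rhs => rw [← Complex.norm_mul_exp_arg_mul_I z]
    rw [norm_mul, Complex.norm_exp_ofReal_mul_I, mul_one, Complex.norm_real, norm_norm, h1]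
    unfold cis
    push_cast
    ring

theorem pol_one (P : ℝ) (l : ℝ → ℝ) : pol P (wt 1 l) = fun x => ((pol P l x : ℝ) : ℂ) := by
  funext z
  unfold pol wt
  rw [sub_self, Complex.ofReal_zero, zero_mul, zero_add, one_mul, Complex.real_smul, smul_eq_mul]
  push_cast
  ring

theorem pol_t (P : ℝ) (l : ℝ → ℝ) (t : ℝ) (z : ℂ) :
    pol P (wt t l) z = (1 - t) • pol P (wt 0 l) z + t • pol P (wt 1 l) z := by
  unfold pol wt
  simp only [Complex.real_smul]
  push_cast
  ring

/-- **STEP S3** from the REDUCTION -/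
theorem s3_of_red (ha : Exps a) (e : Fin n) (hR : RedP a e) : S3P a e := by
  intro X P l hP hX hl
  have hok := hX.ok
  have hPpos : 0 < P := by linarith
  set d : ℕ := a e.succ + 1 with hd
  have hd0 : 0 < d := Nat.succ_pos _
  have hdr : (0 : ℝ) < d := by exact_mod_cast hd0
  have hcs : ((e.castSucc : Fin (n + 1)) : ℕ) = e := Fin.val_castSucc e
  have hDj : X.D e.castSucc = d * P := hX.deg e.castSucc hcs
  have hηsm : ∀ t, ContDiff ℝ 2 (pol P (wt t l)) := fun t =>
    contDiff_pol hP (wt_per hl.per t) (wt_smooth hl.smooth t)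
  have hYsm : ContDiff ℝ 2 fun y : ℂ => y ^ d := contDiff_id.pow d
  have hHsm : ContDiff ℝ 2 fun y : ℂ => y ^ a e.succ := contDiff_id.pow _
  have hpath : HPath fun p : ℝ × (Fin (n + 1) → ℂ) =>
      X.mid a e (fun y => y ^ d) (pol P (wt p.1 l)) (fun y => y ^ a e.succ) p.2 := by
    refine HPath.of_slices (T := univ) isOpen_univ (subset_univ _) ?_ (fun t ht => ?_)
      fun t ht z hz hre => ?_
    · have h1 : (fun p : ℝ × (Fin (n + 1) → ℂ) =>
          X.mid a e (fun y => y ^ d) (pol P (wt p.1 l)) (fun y => y ^ a e.succ) p.2) =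
          fun p : ℝ × (Fin (n + 1) → ℂ) =>
            X.mid a e (fun y => y ^ d) 0 (fun y => y ^ a e.succ) p.2 -
              ((1 - p.1) • pol P (wt 0 l) (p.2 e.castSucc) +
                p.1 • pol P (wt 1 l) (p.2 e.castSucc)) * p.2 e.succ ^ a e.succ := by
        funext p
        rw [mid_eq, pol_t]
      rw [h1]
      have h2 : ContDiff ℝ 2 fun p : ℝ × (Fin (n + 1) → ℂ) => p.2 e.castSucc :=
        (contDiff_apply ℝ ℂ e.castSucc).comp contDiff_snd
      have h3 : ContDiff ℝ 2 fun p : ℝ × (Fin (n + 1) → ℂ) => p.2 e.succ :=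
        (contDiff_apply ℝ ℂ e.succ).comp contDiff_snd
      refine ContDiff.contDiffOn ?_
      refine ((contDiff_mid hok hYsm contDiff_const hHsm).comp contDiff_snd).sub ?_
      refine ContDiff.mul (ContDiff.add ?_ ?_) (h3.pow _)
      · exact (contDiff_const.sub contDiff_fst).smul ((hηsm 0).comp h2)
      · exact contDiff_fst.smul ((hηsm 1).comp h2)
    · obtain ⟨w, hw, -, -, hwh⟩ := S2_843.wh_mid (a := a) ha.two (X := X) (e := e) hok
        (Y := fun y => y ^ d) (η := pol P (wt t l)) (H := fun y => y ^ a e.succ)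
        (wy := 1 / d) (by positivity)
        (by
          rw [div_lt_one hdr]
          have := ha.two e.succ
          have : (1 : ℕ) < d := by omega
          exact_mod_cast this)
        (fun s y => by
          show ((Real.exp (s * (1 / d)) : ℂ) * y) ^ d = Real.exp s • y ^ d
          rw [mul_pow, ← Complex.ofReal_pow, ← Real.exp_nat_mul, Complex.real_smul]
          congr 3
          field_simp)
        (fun s x y => by
          show pol P (wt t l) ((Real.exp (s * (1 / X.D e.castSucc)) : ℂ) * x) *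
            ((Real.exp (s * (1 / d)) : ℂ) * y) ^ a e.succ =
              Real.exp s • (pol P (wt t l) x * y ^ a e.succ)
          rw [pol_hom _ _ _ (Real.exp_pos _), mul_pow, ← Complex.ofReal_pow, ← Real.exp_nat_mul,
            Complex.real_smul, Complex.real_smul, ← Real.exp_mul, hDj]
          have h1 : Real.exp (s * (1 / (d * P)) * P) * Real.exp ((a e.succ : ℕ) * (s * (1 / d))) =
              Real.exp s := by
            rw [← Real.exp_add]
            congr 1
            have h2 : (d : ℝ) = a e.succ + 1 := by rw [hd]; push_cast; ring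
            have h3 : s * (1 / (d * P)) * P = s / d := by field_simp
            rw [h3, show s / (d : ℝ) + (a e.succ : ℕ) * (s * (1 / d)) = s * ((a e.succ + 1) / d) by
              ring, ← h2, div_self hdr.ne', mul_one]
          rw [← h1]
          push_cast
          ring)
      exact ⟨w, hw, hwh⟩
    · have hY : (fun y : ℂ => ((1 : ℝ) : ℂ) * y ^ (a e.succ + 1)) = fun y => y ^ d := by
        funext y
        rw [Complex.ofReal_one, one_mul]
      have hred := hR X 1 (pol P (wt t l)) hok one_pos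
        (fun x => (hηsm t).differentiable (by norm_num) x) (pol_zero hPpos.ne' _)
        (trReg_Q (j := e.castSucc) ha (LobeKit_407.trP a _) hok)
        (trReg_V ha e hX hl ?_ ht.1 ht.2) z hz
      · rw [hY] at hred
        exact hred hre
      · have h1 := hX.ep e.castSucc hcs
        have h2 : ((a e.succ + 1 : ℕ) : ℝ) - 1 = a e.succ := by push_cast; ring
        have h3 : ((a e.succ + 1 : ℕ) : ℝ) = (a e.succ : ℝ) + 1 := by push_cast; ring
        rw [h2, h3, Nat.add_sub_cancel] at h1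
        rw [mul_one]
        exact h1
  have h := hpath.seq
  simp only [pw_eq P hPpos l, pol_one P l] at h
  exact h

end V

end Crest.Agent.R267.S3_82
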