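import Crest.Agent.R267.RedG_951
import Crest.Agent.R267.LobeKit_407

/-!
# Row 267 (helper951): `RedP` and `Red0P` of `LobeDefs_407`
-/

set_option autoImplicit false

noncomputable section

open Finset
open Crest.Agent.R267.Ang_739 Crest.Agent.R267.Hm_951
open Crest.Agent.R267.LemL_951 hiding dg
open Crest.Agent.R267.LobeDefs_407 Crest.Agent.R267.LobeKit_407
open Crest.Agent.R267.RedG_951

namespace Crest.Agent.R267.RedP_951

variable {n : ℕ} {a : Fin (n + 1) → ℕ}

theorem low_congr {Q Q' : Fin (n + 1) → ℂ → ℂ} {g h g' h' : Fin n → ℂ → ℂ} {j : ℕ} (R : ℂ → ℂ)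
    (h1 : ∀ i : Fin (n + 1), (i : ℕ) < j → Q i = Q' i) (h2 : ∀ e : Fin n, (e : ℕ) < j → g e = g' e)
    (h3 : ∀ e : Fin n, (e : ℕ) < j → h e = h' e) : low Q g h j R = low Q' g' h' j R := by
  unfold low
  congr 1
  · funext i
    by_cases hi : (i : ℕ) < j
    · rw [if_pos hi, if_pos hi, h1 i hi]
    · rw [if_neg hi, if_neg hi]
  · funext e
    by_cases he : (e : ℕ) < j
    · rw [if_pos he, if_pos he, h2 e he]
    · rw [if_neg he, if_neg he]
  · funext e
    by_cases he : (e : ℕ) < j
    · rw [if_pos he, if_pos he, h3 e he]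
    · rw [if_neg he, if_neg he]

theorem low_eq_tr (X : LD n) {Q : Fin (n + 1) → ℂ → ℂ} {g h : Fin n → ℂ → ℂ} {j : ℕ} (R : ℂ → ℂ)
    (h1 : ∀ i : Fin (n + 1), (i : ℕ) < j → Q i = X.Q i)
    (h2 : ∀ e : Fin n, (e : ℕ) < j → g e = fun z => (X.g e z : ℂ))
    (h3 : ∀ e : Fin n, (e : ℕ) < j → h e = fun z => (X.h e z : ℂ)) : low Q g h j R = X.tr j R :=
  low_congr (Q' := X.Q) (g' := fun e z => (X.g e z : ℂ)) (h' := fun e z => (X.h e z : ℂ)) R h1 h2 h3

theorem differentiable_ofReal {f : ℂ → ℝ} (h : Differentiable ℝ f) :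
    Differentiable ℝ (fun z => (f z : ℂ)) := fun z =>
  Complex.ofRealCLM.differentiableAt.comp z (h z)

theorem differentiable_pow' (k : ℕ) : Differentiable ℝ (fun z : ℂ => z ^ k) := by fun_prop

theorem fderiv_ofReal_zero {f : ℂ → ℝ} (h : DifferentiableAt ℝ f 0) (h0 : fderiv ℝ f 0 = 0) :
    fderiv ℝ (fun z => (f z : ℂ)) 0 = 0 := by
  have h1 : HasFDerivAt (fun z => (f z : ℂ)) (Complex.ofRealCLM.comp (fderiv ℝ f 0)) 0 :=
    Complex.ofRealCLM.hasFDerivAt.comp 0 h.hasFDerivAt
  rw [h1.fderiv, h0, ContinuousLinearMap.comp_zero]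

/-- **Red0P** -/
theorem red0P (ha : ∀ i, 2 ≤ a i) (j : Fin (n + 1)) : Red0P a j := by
  intro X hX htr z hz hre
  have hd : Df (fun i : Fin (n + 1) => if (i : ℕ) ≤ j then X.Q i else 0)
      (fun e : Fin n => if (e : ℕ) < j then (fun z => (X.g e z : ℂ)) else id)
      (fun e : Fin n => if (e : ℕ) < j then (fun z => (X.h e z : ℂ)) else fun z => z ^ a e.succ) := by
    refine ⟨fun i => ?_, fun e => ?_, fun e => ?_⟩
    · show Differentiable ℝ (if (i : ℕ) ≤ j then X.Q i else 0)
      split_ifs with hi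
      · exact Q_diff hX hi
      · exact fun z => differentiableAt_zero' z
    · show Differentiable ℝ (if (e : ℕ) < j then (fun z => (X.g e z : ℂ)) else id)
      split_ifs with he
      · exact differentiable_ofReal (g_diff hX he)
      · exact differentiable_id
    · show Differentiable ℝ (if (e : ℕ) < j then (fun z => (X.h e z : ℂ)) else fun z => z ^ a e.succ)
      split_ifs with he
      · exact differentiable_ofReal (h_diff hX he)
      · exact differentiable_pow' _
  have T : Tail a (j : ℕ) (fun i : Fin (n + 1) => if (i : ℕ) ≤ j then X.Q i else 0)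
      (fun e : Fin n => if (e : ℕ) < j then (fun z => (X.g e z : ℂ)) else id)
      (fun e : Fin n => if (e : ℕ) < j then (fun z => (X.h e z : ℂ)) else
        fun z => z ^ a e.succ) := by
    refine ⟨fun i hi => ?_, fun e he => ?_, fun e he => ?_⟩
    · exact if_neg (not_le.2 hi)
    · exact if_neg (not_lt.2 he)
    · exact if_neg (not_lt.2 he)
  refine T.reg ha hd ?_ (fun e he => ?_) ?_ hz hre
  · show fderiv ℝ (if (j : ℕ) ≤ j then X.Q j else 0) 0 = 0
    rw [if_pos le_rfl]
    exact ph_fderiv_zero (Q_ph X j) (by have := hX.hD j le_rfl; linarith) (Q_diff hX le_rfl _)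
  · show fderiv ℝ (if (e : ℕ) < j then (fun z => (X.h e z : ℂ)) else fun z => z ^ a e.succ) 0 = 0
    have he' : (e : ℕ) < j := by omega
    rw [if_pos he']
    exact fderiv_ofReal_zero (h_diff hX he' _)
      (ph_fderiv_zero (h_ph X e) (by have := hX.hm e he'; linarith) (h_diff hX he' _))
  · show LowReg _ _ _ (j : ℕ) (if (j : ℕ) ≤ j then X.Q j else 0)
    rw [if_pos le_rfl]
    unfold LowReg
    rw [low_eq_tr X (X.Q j) (fun i hi => if_pos hi.le) (fun e he => if_pos he)
      (fun e he => if_pos he)]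
    exact htr

theorem KV_real (b : ℕ) (κ : ℝ) : KV b (κ : ℂ) =
    (((1 / ((b : ℝ) + 1)) * ((b : ℝ) / (((b : ℝ) + 1) * κ)) ^ b : ℝ) : ℂ) := by
  unfold KV
  push_cast
  ring

/-- **RedP** -/
theorem redP (ha : ∀ i, 2 ≤ a i) (e : Fin n) : RedP a e := by
  intro X κ η hX hκ hηd hη0 hA hV z hz hre
  have hd : Df (fun i : Fin (n + 1) => if (i : ℕ) ≤ e then X.Q i else
        if (i : ℕ) = e + 1 then (fun y => (κ : ℂ) * y ^ (a e.succ + 1)) else 0)
      (fun f : Fin n => if (f : ℕ) < e then (fun z => (X.g f z : ℂ)) else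
        if (f : ℕ) = e then η else id)
      (fun f : Fin n => if (f : ℕ) < e then (fun z => (X.h f z : ℂ)) else
        if (f : ℕ) = e then (fun y => y ^ a e.succ) else fun z => z ^ a f.succ) := by
    refine ⟨fun i => ?_, fun f => ?_, fun f => ?_⟩
    · show Differentiable ℝ (if (i : ℕ) ≤ e then X.Q i else
        if (i : ℕ) = e + 1 then (fun y => (κ : ℂ) * y ^ (a e.succ + 1)) else 0)
      split_ifs with hi hi2
      · exact Q_diff hX hi
      · exact (differentiable_pow' _).const_mul _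
      · exact fun z => differentiableAt_zero' z
    · show Differentiable ℝ (if (f : ℕ) < e then (fun z => (X.g f z : ℂ)) else
        if (f : ℕ) = e then η else id)
      split_ifs with hf hf2
      · exact differentiable_ofReal (g_diff hX hf)
      · exact hηd
      · exact differentiable_id
    · show Differentiable ℝ (if (f : ℕ) < e then (fun z => (X.h f z : ℂ)) else
        if (f : ℕ) = e then (fun y => y ^ a e.succ) else fun z => z ^ a f.succ)
      split_ifs with hf hf2
      · exact differentiable_ofReal (h_diff hX hf)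
      · exact differentiable_pow' _
      · exact differentiable_pow' _
  have T : Tail a ((e : ℕ) + 1) (fun i : Fin (n + 1) => if (i : ℕ) ≤ e then X.Q i else
        if (i : ℕ) = e + 1 then (fun y => (κ : ℂ) * y ^ (a e.succ + 1)) else 0)
      (fun f : Fin n => if (f : ℕ) < e then (fun z => (X.g f z : ℂ)) else
        if (f : ℕ) = e then η else id)
      (fun f : Fin n => if (f : ℕ) < e then (fun z => (X.h f z : ℂ)) else
        if (f : ℕ) = e then (fun y => y ^ a e.succ) else fun z => z ^ a f.succ) := by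
    refine ⟨fun i hi => ?_, fun f hf => ?_, fun f hf => ?_⟩
    · show (if (i : ℕ) ≤ e then X.Q i else
        if (i : ℕ) = e + 1 then (fun y => (κ : ℂ) * y ^ (a e.succ + 1)) else 0) = 0
      rw [if_neg (show ¬ (i : ℕ) ≤ e by omega), if_neg (show ¬ (i : ℕ) = e + 1 by omega)]
    · show (if (f : ℕ) < e then (fun z => (X.g f z : ℂ)) else
        if (f : ℕ) = e then η else id) = id
      rw [if_neg (show ¬ (f : ℕ) < e by omega), if_neg (show ¬ (f : ℕ) = e by omega)]
    · show (if (f : ℕ) < e then (fun z => (X.h f z : ℂ)) else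
        if (f : ℕ) = e then (fun y => y ^ a e.succ) else fun z => z ^ a f.succ) = _
      rw [if_neg (show ¬ (f : ℕ) < e by omega), if_neg (show ¬ (f : ℕ) = e by omega)]
  have hQe : (if ((e.castSucc : Fin (n + 1)) : ℕ) ≤ e then X.Q e.castSucc else
        if ((e.castSucc : Fin (n + 1)) : ℕ) = e + 1 then (fun y => (κ : ℂ) * y ^ (a e.succ + 1))
        else 0) = X.Q e.castSucc := if_pos (by rw [Fin.val_castSucc])
  have hlow : ∀ R : ℂ → ℂ, low (fun i : Fin (n + 1) => if (i : ℕ) ≤ e then X.Q i else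
        if (i : ℕ) = e + 1 then (fun y => (κ : ℂ) * y ^ (a e.succ + 1)) else 0)
      (fun f : Fin n => if (f : ℕ) < e then (fun z => (X.g f z : ℂ)) else
        if (f : ℕ) = e then η else id)
      (fun f : Fin n => if (f : ℕ) < e then (fun z => (X.h f z : ℂ)) else
        if (f : ℕ) = e then (fun y => y ^ a e.succ) else fun z => z ^ a f.succ) e R = X.tr e R :=
    fun R => low_eq_tr X R (fun i hi => if_pos hi.le) (fun e he => if_pos he)
      (fun e he => if_pos he)
  refine T.mid_reg ha hd (c := (κ : ℂ)) (by exact_mod_cast hκ.ne') (η := η) (b := a e.succ)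
    (ha _) hη0 ?_ ?_ ?_ ?_ ?_ hz hre
  · show (if ((e.succ : Fin (n + 1)) : ℕ) ≤ e then X.Q e.succ else
        if ((e.succ : Fin (n + 1)) : ℕ) = e + 1 then (fun y => (κ : ℂ) * y ^ (a e.succ + 1))
        else 0) = _
    rw [if_neg (by rw [Fin.val_succ]; omega), if_pos (by rw [Fin.val_succ])]
  · show (if (e : ℕ) < e then (fun z => (X.g e z : ℂ)) else if (e : ℕ) = e then η else id) = η
    rw [if_neg (lt_irrefl _), if_pos rfl]
  · show (if (e : ℕ) < e then (fun z => (X.h e z : ℂ)) else
        if (e : ℕ) = e then (fun y => y ^ a e.succ) else fun z => z ^ a e.succ) = _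
    rw [if_neg (lt_irrefl _), if_pos rfl]
  · show LowReg _ _ _ (e : ℕ) (if ((e.castSucc : Fin (n + 1)) : ℕ) ≤ e then X.Q e.castSucc else
        if ((e.castSucc : Fin (n + 1)) : ℕ) = e + 1 then (fun y => (κ : ℂ) * y ^ (a e.succ + 1))
        else 0)
    rw [hQe]
    unfold LowReg
    rw [hlow]
    exact hA
  · have h1 : (fun x => (if ((e.castSucc : Fin (n + 1)) : ℕ) ≤ e then X.Q e.castSucc else
        if ((e.castSucc : Fin (n + 1)) : ℕ) = e + 1 then (fun y => (κ : ℂ) * y ^ (a e.succ + 1))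
        else 0) x - KV (a e.succ) (κ : ℂ) * η x ^ (a e.succ + 1)) =
        fun x => X.Q e.castSucc x -
      (((1 / ((a e.succ : ℝ) + 1)) * ((a e.succ : ℝ) / (((a e.succ : ℝ) + 1) * κ)) ^ (a e.succ) : ℝ)
        : ℂ) * η x ^ (a e.succ + 1) := by
      rw [hQe, KV_real]
    show LowReg _ _ _ (e : ℕ) (fun x => (if ((e.castSucc : Fin (n + 1)) : ℕ) ≤ e then
        X.Q e.castSucc else
        if ((e.castSucc : Fin (n + 1)) : ℕ) = e + 1 then (fun y => (κ : ℂ) * y ^ (a e.succ + 1))
        else 0) x - KV (a e.succ) (κ : ℂ) * η x ^ (a e.succ + 1))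
    rw [h1]
    unfold LowReg
    rw [hlow]
    exact hV

end Crest.Agent.R267.RedP_951
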