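import Crest.Agent.R267.VP_855
import Crest.Agent.R267.S3_82
import Crest.Agent.R267.RedP_951

/-!
# Row 267 (helper855): STEP S1 of T3b
-/

set_option autoImplicit false

noncomputable section

open Set Filter Topology
open scoped ContDiff
open Crest.Agent.R267.Ang_739 Crest.Agent.R267.Hm_951
open Crest.Agent.R267.LemL_951 (PH Good2 good2_of_rot)
open Crest.Agent.R267.Sys_808 Crest.Agent.R267.LobeDefs_407

namespace Crest.Agent.R267.S1_855

variable {n : ℕ} {a : Fin (n + 1) → ℕ}

/-- `V` with the constant `K` is regular -/
theorem trReg (ha : Exps a) (e : Fin n) {X : LD n} {P : ℝ} {q : ℝ → ℂ} {K : ℝ}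
    (hX : X.Al a e (a e.succ + 1) P)
    (hK : (1 / ((a e.succ : ℝ) + 1)) * ((a e.succ : ℝ) / ((a e.succ : ℝ) + 1)) ^ (a e.succ) ≤ K)
    (hq : VP_855.QC (a e.succ + 1) q) :
    X.TrReg e (VP_855.V X e (a e.succ + 1) K P q) := by
  obtain ⟨h1, h2, h3, h4⟩ := VP_855.vp ha hX hK hq
  exact LobeKit_407.trP a e.castSucc X _ hX.ok h1 h2 h3 h4

/-- **STEP S1** -/
theorem s1P (ha : Exps a) (e : Fin n) : S1P a e := by
  intro X hX
  have hok := hX.ok
  set d : ℕ := a e.succ + 1 with hd
  have hd0 : 0 < d := Nat.succ_pos _
  have hdr : (0 : ℝ) < d := by exact_mod_cast hd0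
  have hDj : X.D e.castSucc = d := by
    have := hX.deg e.castSucc rfl
    rwa [mul_one] at this
  have hpath : HPath fun p : ℝ × (Fin (n + 1) → ℂ) =>
      X.mid a e (fun y => (p.1 : ℂ) * y ^ d) id (fun y => y ^ a e.succ) p.2 := by
    refine HPath.of_slices (T := univ) isOpen_univ (subset_univ _) ?_ (fun t ht => ?_)
      fun t ht z hz hre => ?_
    · have h1 : (fun p : ℝ × (Fin (n + 1) → ℂ) =>
          X.mid a e (fun y => (p.1 : ℂ) * y ^ d) id (fun y => y ^ a e.succ) p.2) =
          fun p : ℝ × (Fin (n + 1) → ℂ) =>
            X.mid a e 0 id (fun y => y ^ a e.succ) p.2 + (p.1 : ℂ) * p.2 e.succ ^ d := by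
        funext p
        unfold LD.mid GF
        rw [sub_add_eq_add_sub]
        congr 1
        rw [← Finset.sum_erase_add _ _ (Finset.mem_univ e.succ)]
        conv_rhs => rw [← Finset.sum_erase_add _ _ (Finset.mem_univ e.succ)]
        have h2 : ¬ ((e.succ : Fin (n + 1)) : ℕ) ≤ e := by simp
        have h3 : ((e.succ : Fin (n + 1)) : ℕ) = e + 1 := by simp
        simp only [if_neg h2, if_pos h3, Pi.zero_apply, add_zero]
        congr 1
        refine Finset.sum_congr rfl fun i hi => ?_
        have hne : (i : ℕ) ≠ e + 1 := fun h => (Finset.ne_of_mem_erase hi) (Fin.ext (by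
          rw [h, h3]))
        simp only [if_neg hne]
      rw [h1]
      have h3 : ContDiff ℝ 2 fun p : ℝ × (Fin (n + 1) → ℂ) => p.2 e.succ :=
        (contDiff_apply ℝ ℂ e.succ).comp contDiff_snd
      refine ContDiff.contDiffOn (ContDiff.add ?_ ?_)
      · exact (S3_82.contDiff_mid hok contDiff_const contDiff_id (contDiff_id.pow _)).comp
          contDiff_snd
      · exact (Complex.ofRealCLM.contDiff.comp contDiff_fst).mul (h3.pow _)
    · obtain ⟨w, hw, -, -, hwh⟩ := S2_843.wh_mid (a := a) ha.two (X := X) (e := e) hok
        (Y := fun y => (t : ℂ) * y ^ d) (η := id) (H := fun y => y ^ a e.succ)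
        (wy := 1 / d) (by positivity)
        (by
          rw [div_lt_one hdr]
          have := ha.two e.succ
          have : (1 : ℕ) < d := by omega
          exact_mod_cast this)
        (fun s y => by
          show (t : ℂ) * ((Real.exp (s * (1 / d)) : ℂ) * y) ^ d = Real.exp s • ((t : ℂ) * y ^ d)
          have h1 : Real.exp ((d : ℕ) * (s * (1 / d))) = Real.exp s := by
            congr 1
            field_simp
          rw [mul_pow, ← Complex.ofReal_pow, ← Real.exp_nat_mul, Complex.real_smul, h1]
          ring)
        (fun s x y => by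
          show ((Real.exp (s * (1 / X.D e.castSucc)) : ℂ) * x) *
            ((Real.exp (s * (1 / d)) : ℂ) * y) ^ a e.succ =
              Real.exp s • (x * y ^ a e.succ)
          rw [mul_pow, ← Complex.ofReal_pow, ← Real.exp_nat_mul, Complex.real_smul, hDj]
          have h1 : Real.exp (s * (1 / d)) * Real.exp ((a e.succ : ℕ) * (s * (1 / d))) =
              Real.exp s := by
            rw [← Real.exp_add]
            congr 1
            have h2 : (d : ℝ) = a e.succ + 1 := by rw [hd]; push_cast; ring
            rw [show s * (1 / (d : ℝ)) + (a e.succ : ℕ) * (s * (1 / d)) =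
              s * ((a e.succ + 1) / d) by ring, ← h2, div_self hdr.ne', mul_one]
          rw [← h1]
          push_cast
          ring)
      exact ⟨w, hw, hwh⟩
    · have hA : X.TrReg e (X.Q e.castSucc) :=
        S3_82.trReg_Q (j := e.castSucc) ha (LobeKit_407.trP a _) hok
      rcases ht.1.eq_or_lt with h0 | h0
      · have hst : X.mid a e (fun y => (t : ℂ) * y ^ d) id (fun y => y ^ a e.succ) =
            X.st a e := by
          rw [← h0]
          unfold LD.mid LD.st
          congr 1
          · funext i
            split_ifs <;> simp <;> rfl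
          · funext e'
            by_cases h : (e' : ℕ) = e
            · rw [if_pos h]
            · rw [if_neg h]
          · funext e'
            by_cases h : (e' : ℕ) = e
            · have : e' = e := Fin.ext h
              subst this
              rw [if_pos rfl]
            · rw [if_neg h]
        have hre' : 0 ≤ (X.mid a e (fun y => (t : ℂ) * y ^ d) id (fun y => y ^ a e.succ) z).re := hre
        show Function.Surjective (fderiv ℝ
          (X.mid a e (fun y => (t : ℂ) * y ^ d) id (fun y => y ^ a e.succ)) z)
        rw [hst] at hre' ⊢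
        exact RedP_951.red0P ha.two e.castSucc X hok hA z hz hre'
      · refine RedP_951.redP ha.two e X t id hok h0 (fun x => differentiableAt_id) rfl hA ?_ z hz hre
        have h1 := trReg ha e hX (K := (1 / ((a e.succ : ℝ) + 1)) *
          ((a e.succ : ℝ) / (((a e.succ : ℝ) + 1) * t)) ^ (a e.succ)) ?_ (VP_855.qc_S1 hd0)
        · have h2 : (VP_855.V X e (a e.succ + 1) ((1 / ((a e.succ : ℝ) + 1)) *
              ((a e.succ : ℝ) / (((a e.succ : ℝ) + 1) * t)) ^ (a e.succ)) 1 cis) =
              fun x => X.Q e.castSucc x - (((1 / ((a e.succ : ℝ) + 1)) *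
                ((a e.succ : ℝ) / (((a e.succ : ℝ) + 1) * t)) ^ (a e.succ) : ℝ) : ℂ) *
                id x ^ (a e.succ + 1) := by
            funext x
            unfold VP_855.V
            rw [VP_855.pol_one_cis, id]
          rw [h2] at h1
          exact h1
        · refine mul_le_mul_of_nonneg_left ?_ (by positivity)
          refine pow_le_pow_left₀ (by positivity) ?_ _
          refine div_le_div_of_nonneg_left (by positivity) (by positivity) ?_
          exact mul_le_of_le_one_right (by positivity) ht.2
  have h := hpath.seq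
  have e0 : (fun x : Fin (n + 1) → ℂ => X.mid a e (fun y => ((0 : ℝ) : ℂ) * y ^ d) id
      (fun y => y ^ a e.succ) x) = X.st a e := by
    unfold LD.mid LD.st
    funext z
    congr 1
    · funext i
      split_ifs <;> simp <;> rfl
    · funext e'
      by_cases h : (e' : ℕ) = e
      · rw [if_pos h]
      · rw [if_neg h]
    · funext e'
      by_cases h : (e' : ℕ) = e
      · have : e' = e := Fin.ext h
        subst this
        rw [if_pos rfl]
      · rw [if_neg h]
  have e1 : (fun x : Fin (n + 1) → ℂ => X.mid a e (fun y => ((1 : ℝ) : ℂ) * y ^ d) id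
      (fun y => y ^ a e.succ) x) = X.mid a e (fun y => y ^ d) id (fun y => y ^ a e.succ) := by
    simp only [Complex.ofReal_one, one_mul]
  simp only at h
  rw [e0, e1] at h
  exact h

end Crest.Agent.R267.S1_855
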