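import Crest.Agent.R267.LobeKit_407
import Crest.Agent.R267.S2_843
import Crest.Agent.R267.RedP_951
import Crest.Agent.R267.S3_82

/-!
# Row 267 (helper407): step S4 of #2295, function version (S4P, S4lastP of LobeDefs_407)
-/

set_option autoImplicit false
set_option linter.unusedSectionVars false

noncomputable section

open Set Filter Topology Finset
open Crest.Agent.R267.Ang_739 Crest.Agent.R267.Hm_951
open Crest.Agent.R267.LemL_951 hiding dg
open Crest.Agent.R267.Sys_808 Crest.Agent.R267.LobeDefs_407 Crest.Agent.R267.LobeKit_407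

namespace Crest.Agent.R267.S4F_407

variable {n : ℕ}

/-! ### derivatives of `mid` -/

theorem fderiv_ofReal {P : ℂ → ℝ} {x : ℂ} (h : DifferentiableAt ℝ P x) (v : ℂ) :
    fderiv ℝ (fun z => (P z : ℂ)) x v = ((fderiv ℝ P x v : ℝ) : ℂ) := by
  have h1 : HasFDerivAt (fun z => (P z : ℂ)) (Complex.ofRealCLM.comp (fderiv ℝ P x)) x :=
    Complex.ofRealCLM.hasFDerivAt.comp x h.hasFDerivAt
  rw [h1.fderiv]
  rfl

/-- pieces of `mid` -/
def mQ (X : LD n) (e : Fin n) (Y : ℂ → ℂ) (i : Fin (n + 1)) : ℂ → ℂ :=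
  if (i : ℕ) ≤ e then X.Q i else if (i : ℕ) = (e : ℕ) + 1 then Y else 0

def mg (X : LD n) (e : Fin n) (η : ℂ → ℂ) (e' : Fin n) : ℂ → ℂ :=
  if (e' : ℕ) < e then (fun z => (X.g e' z : ℂ)) else if (e' : ℕ) = e then η else id

def mh (X : LD n) (a : Fin (n + 1) → ℕ) (e : Fin n) (H : ℂ → ℂ) (e' : Fin n) : ℂ → ℂ :=
  if (e' : ℕ) < e then (fun z => (X.h e' z : ℂ)) else if (e' : ℕ) = e then H else
    fun z => z ^ a e'.succ

theorem mid_eq (X : LD n) (a : Fin (n + 1) → ℕ) (e : Fin n) (Y η H : ℂ → ℂ) :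
    X.mid a e Y η H = GF (mQ X e Y) (mg X e η) (mh X a e H) := rfl

section Mid

variable {X : LD n} {a : Fin (n + 1) → ℕ} {e : Fin n} {Y η H : ℂ → ℂ}

theorem mQ_diff (hX : X.Ok a e) (hY : Differentiable ℝ Y) (i : Fin (n + 1)) :
    Differentiable ℝ (mQ X e Y i) := by
  unfold mQ
  split_ifs with h1 h2
  · exact Q_diff hX h1
  · exact hY
  · exact differentiable_const _

theorem mg_diff (hX : X.Ok a e) (hη : Differentiable ℝ η) (e' : Fin n) :
    Differentiable ℝ (mg X e η e') := by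
  unfold mg
  split_ifs with h1 h2
  · exact Complex.ofRealCLM.differentiable.comp (g_diff hX h1)
  · exact hη
  · exact differentiable_id

theorem mh_diff (hX : X.Ok a e) (hH : Differentiable ℝ H) (e' : Fin n) :
    Differentiable ℝ (mh X a e H e') := by
  unfold mh
  split_ifs with h1 h2
  · exact Complex.ofRealCLM.differentiable.comp (h_diff hX h1)
  · exact hH
  · exact differentiable_id.pow _

/-- real part of the derivative coming from the processed couplings -/
def Bd (X : LD n) (e : Fin n) (z : Fin (n + 1) → ℂ) (i : Fin (n + 1)) (v : ℂ) : ℝ :=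
  ∑ e' : Fin n, if (e' : ℕ) < e then
    ((if e'.castSucc = i then fderiv ℝ (X.g e') (z i) v * X.h e' (z e'.succ) else 0) +
      if e'.succ = i then X.g e' (z e'.castSucc) * fderiv ℝ (X.h e') (z i) v else 0) else 0

theorem mid_single (hX : X.Ok a e) (hY : Differentiable ℝ Y) (hη : Differentiable ℝ η)
    (hH : Differentiable ℝ H) (z : Fin (n + 1) → ℂ) {i : Fin (n + 1)} (hi : (i : ℕ) ≤ e) (v : ℂ) :
    fderiv ℝ (X.mid a e Y η H) z (Pi.single i v) = fderiv ℝ (X.Q i) (z i) v -
      (Bd X e z i v : ℂ) - if i = e.castSucc then fderiv ℝ η (z i) v * H (z e.succ) else 0 := by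
  rw [mid_eq, fderiv_GF_single (fun i => mQ_diff hX hY i _) (fun e' => mg_diff hX hη e' _)
    (fun e' => mh_diff hX hH e' _)]
  have h1 : mQ X e Y i = X.Q i := if_pos hi
  rw [h1, sub_sub]
  congr 1
  have h2 : ∀ e' : Fin n, ((if e'.castSucc = i then fderiv ℝ (mg X e η e') (z i) v *
      mh X a e H e' (z e'.succ) else 0) +
        if e'.succ = i then mg X e η e' (z e'.castSucc) * fderiv ℝ (mh X a e H e') (z i) v
          else 0) =
      (((if (e' : ℕ) < e then
        ((if e'.castSucc = i then fderiv ℝ (X.g e') (z i) v * X.h e' (z e'.succ) else 0) +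
        if e'.succ = i then X.g e' (z e'.castSucc) * fderiv ℝ (X.h e') (z i) v else 0) else 0)
        : ℝ) : ℂ) + if e' = e then
          (if i = e.castSucc then fderiv ℝ η (z i) v * H (z e.succ) else 0) else 0 := by
    intro e'
    rcases lt_trichotomy (e' : ℕ) (e : ℕ) with h | h | h
    · have hg : mg X e η e' = fun z => (X.g e' z : ℂ) := if_pos h
      have hh : mh X a e H e' = fun z => (X.h e' z : ℂ) := if_pos h
      have hne : e' ≠ e := fun h3 => by rw [h3] at h; exact lt_irrefl _ h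
      rw [hg, hh, if_pos h, if_neg hne, add_zero, fderiv_ofReal (g_diff hX h _),
        fderiv_ofReal (h_diff hX h _)]
      push_cast
      split_ifs <;> simp
    · have he : e' = e := Fin.ext h
      subst he
      have hg : mg X e' η e' = η := by unfold mg; rw [if_neg (lt_irrefl _), if_pos rfl]
      have hh : mh X a e' H e' = H := by unfold mh; rw [if_neg (lt_irrefl _), if_pos rfl]
      have h3 : e'.succ ≠ i := fun h3 => by
        have := congrArg Fin.val h3
        rw [Fin.val_succ] at this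
        omega
      rw [hg, hh, if_neg (lt_irrefl _), if_pos rfl, if_neg h3, add_zero, Complex.ofReal_zero,
        zero_add]
      by_cases h4 : e'.castSucc = i
      · rw [if_pos h4, if_pos h4.symm]
      · rw [if_neg h4, if_neg (fun h5 => h4 h5.symm)]
    · have hne : e' ≠ e := fun h3 => by rw [h3] at h; exact lt_irrefl _ h
      have h3 : e'.succ ≠ i := fun h3 => by
        have := congrArg Fin.val h3
        rw [Fin.val_succ] at this
        omega
      have h4 : e'.castSucc ≠ i := fun h3 => by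
        have := congrArg Fin.val h3
        rw [Fin.val_castSucc] at this
        omega
      rw [if_neg h3, if_neg h4, if_neg h.not_gt, if_neg hne]
      simp
  rw [Finset.sum_congr rfl fun e' _ => h2 e', Finset.sum_add_distrib, Finset.sum_ite_eq' univ e]
  rw [if_pos (Finset.mem_univ _), ← Complex.ofReal_sum]
  rfl

/-- `y`-derivative of `mid`, when the tail vanishes -/
theorem mid_single_y (hX : X.Ok a e) (hY : Differentiable ℝ Y) (hη : Differentiable ℝ η)
    (hH : Differentiable ℝ H) (ha : ∀ i, 2 ≤ a i) (z : Fin (n + 1) → ℂ)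
    (hz : ∀ i : Fin (n + 1), (e : ℕ) + 1 < i → z i = 0) (v : ℂ) :
    fderiv ℝ (X.mid a e Y η H) z (Pi.single e.succ v) = fderiv ℝ Y (z e.succ) v -
      η (z e.castSucc) * fderiv ℝ H (z e.succ) v := by
  rw [mid_eq, fderiv_GF_single (fun i => mQ_diff hX hY i _) (fun e' => mg_diff hX hη e' _)
    (fun e' => mh_diff hX hH e' _)]
  have h1 : mQ X e Y e.succ = Y := by
    unfold mQ
    rw [if_neg (by rw [Fin.val_succ]; omega), if_pos (by rw [Fin.val_succ])]
  rw [h1]
  congr 1
  rw [Finset.sum_eq_single e]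
  · have hg : mg X e η e = η := by unfold mg; rw [if_neg (lt_irrefl _), if_pos rfl]
    have hh : mh X a e H e = H := by unfold mh; rw [if_neg (lt_irrefl _), if_pos rfl]
    have h3 : e.castSucc ≠ e.succ := Fin.castSucc_lt_succ.ne
    rw [if_neg h3, if_pos rfl, zero_add, hg, hh]
  · intro e' _ hne
    have h3 : e'.succ ≠ e.succ := fun h => hne (Fin.succ_injective _ h)
    rw [if_neg h3, add_zero]
    by_cases h4 : e'.castSucc = e.succ
    · rw [if_pos h4]
      have h5 : (e : ℕ) + 1 = e' := by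
        have := congrArg Fin.val h4
        rw [Fin.val_castSucc, Fin.val_succ] at this
        exact this.symm
      have hh : mh X a e H e' = fun z => z ^ a e'.succ := by
        unfold mh; rw [if_neg (by omega), if_neg (by omega)]
      have h6 : z e'.succ = 0 := hz _ (by rw [Fin.val_succ]; omega)
      rw [hh, h6]
      simp only
      rw [zero_pow (by have := ha e'.succ; omega), mul_zero]
    · rw [if_neg h4]
  · intro h; exact absurd (Finset.mem_univ e) h

/-- the value of `mid`, when the tail vanishes -/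
theorem mid_val (ha : ∀ i, 2 ≤ a i) (z : Fin (n + 1) → ℂ)
    (hz : ∀ i : Fin (n + 1), (e : ℕ) + 1 < i → z i = 0) :
    X.mid a e Y η H z = (∑ i : Fin (n + 1), if (i : ℕ) ≤ e then X.Q i (z i) else 0) -
      ((∑ e' : Fin n, if (e' : ℕ) < e then X.g e' (z e'.castSucc) * X.h e' (z e'.succ) else 0 : ℝ)
        : ℂ) + Y (z e.succ) - η (z e.castSucc) * H (z e.succ) := by
  rw [mid_eq]
  unfold GF
  have h1 : ∀ i : Fin (n + 1), mQ X e Y i (z i) = (if (i : ℕ) ≤ e then X.Q i (z i) else 0) +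
      if i = e.succ then Y (z e.succ) else 0 := by
    intro i
    unfold mQ
    by_cases h : (i : ℕ) ≤ e
    · have h2 : i ≠ e.succ := fun h3 => by
        have := congrArg Fin.val h3
        rw [Fin.val_succ] at this
        omega
      rw [if_pos h, if_pos h, if_neg h2, add_zero]
    · rw [if_neg h, if_neg h, zero_add]
      by_cases h2 : i = e.succ
      · have h3 : (i : ℕ) = (e : ℕ) + 1 := by rw [h2, Fin.val_succ]
        rw [if_pos h3, if_pos h2, h2]
      · have h3 : (i : ℕ) ≠ (e : ℕ) + 1 := fun h3 => h2 (Fin.ext (by rw [Fin.val_succ]; exact h3))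
        rw [if_neg h3, if_neg h2]; rfl
  have h2 : ∀ e' : Fin n, mg X e η e' (z e'.castSucc) * mh X a e H e' (z e'.succ) =
      (((if (e' : ℕ) < e then X.g e' (z e'.castSucc) * X.h e' (z e'.succ) else 0) : ℝ) : ℂ) +
      if e' = e then η (z e.castSucc) * H (z e.succ) else 0 := by
    intro e'
    unfold mg mh
    rcases lt_trichotomy (e' : ℕ) (e : ℕ) with h | h | h
    · have hne : e' ≠ e := fun h3 => by rw [h3] at h; exact lt_irrefl _ h
      rw [if_pos h, if_pos h, if_pos h, if_neg hne, add_zero, Complex.ofReal_mul]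
    · have he : e' = e := Fin.ext h
      subst he
      rw [if_neg (lt_irrefl _), if_neg (lt_irrefl _), if_neg (lt_irrefl _), if_pos rfl, if_pos rfl,
        if_pos rfl, Complex.ofReal_zero, zero_add]
    · have hne : e' ≠ e := fun h3 => by rw [h3] at h; exact lt_irrefl _ h
      have h6 : z e'.succ = 0 := hz _ (by rw [Fin.val_succ]; omega)
      rw [if_neg h.not_gt, if_neg h.ne', if_neg h.not_gt, if_neg h.ne', if_neg h.not_gt,
        if_neg hne, h6]
      rw [zero_pow (by have := ha e'.succ; omega), mul_zero, Complex.ofReal_zero, zero_add]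
  simp only [h1, h2]
  rw [Finset.sum_add_distrib, Finset.sum_add_distrib, Finset.sum_ite_eq' univ e.succ,
    Finset.sum_ite_eq' univ e, if_pos (Finset.mem_univ _), if_pos (Finset.mem_univ _), ← Complex.ofReal_sum]
  ring

/-- derivative of `tr` in the processed directions -/
theorem tr_single (hX : X.Ok a e) (z : Fin (n + 1) → ℂ) (i : Fin (n + 1)) (v : ℂ) :
    fderiv ℝ (X.tr e (X.Q e.castSucc)) z (Pi.single i v) =
      if (i : ℕ) ≤ e then fderiv ℝ (X.Q i) (z i) v - (Bd X e z i v : ℂ) else 0 := by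
  have hQd : ∀ i : Fin (n + 1), Differentiable ℝ
      ((fun i : Fin (n + 1) => if (i : ℕ) < e then X.Q i else if (i : ℕ) = e then
        X.Q e.castSucc else 0) i) := by
    intro i
    show Differentiable ℝ (if (i : ℕ) < e then X.Q i else if (i : ℕ) = e then
        X.Q e.castSucc else 0)
    split_ifs with h1 h2
    · exact Q_diff hX h1.le
    · exact Q_diff hX (by rw [Fin.val_castSucc])
    · exact differentiable_const _
  have hgd : ∀ e' : Fin n, Differentiable ℝ
      ((fun e' : Fin n => if (e' : ℕ) < e then (fun z => (X.g e' z : ℂ)) else 0) e') := by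
    intro e'
    show Differentiable ℝ (if (e' : ℕ) < e then (fun z => (X.g e' z : ℂ)) else 0)
    split_ifs with h1
    · exact Complex.ofRealCLM.differentiable.comp (g_diff hX h1)
    · exact differentiable_const _
  have hhd : ∀ e' : Fin n, Differentiable ℝ
      ((fun e' : Fin n => if (e' : ℕ) < e then (fun z => (X.h e' z : ℂ)) else 0) e') := by
    intro e'
    show Differentiable ℝ (if (e' : ℕ) < e then (fun z => (X.h e' z : ℂ)) else 0)
    split_ifs with h1
    · exact Complex.ofRealCLM.differentiable.comp (h_diff hX h1)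
    · exact differentiable_const _
  unfold LD.tr
  rw [fderiv_GF_single (fun i => hQd i _) (fun e' => hgd e' _) (fun e' => hhd e' _)]
  have h2 : ∀ e' : Fin n, ((if e'.castSucc = i then fderiv ℝ
      (if (e' : ℕ) < e then (fun z => (X.g e' z : ℂ)) else 0) (z i) v *
      (if (e' : ℕ) < e then (fun z => (X.h e' z : ℂ)) else 0) (z e'.succ) else 0) +
        if e'.succ = i then (if (e' : ℕ) < e then (fun z => (X.g e' z : ℂ)) else 0)
          (z e'.castSucc) * fderiv ℝ (if (e' : ℕ) < e then (fun z => (X.h e' z : ℂ)) else 0)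
          (z i) v else 0) =
      (((if (e' : ℕ) < e then
        ((if e'.castSucc = i then fderiv ℝ (X.g e') (z i) v * X.h e' (z e'.succ) else 0) +
        if e'.succ = i then X.g e' (z e'.castSucc) * fderiv ℝ (X.h e') (z i) v else 0) else 0)
        : ℝ) : ℂ) := by
    intro e'
    by_cases h : (e' : ℕ) < e
    · rw [if_pos h, if_pos h, if_pos h, fderiv_ofReal (g_diff hX h _),
        fderiv_ofReal (h_diff hX h _)]
      push_cast
      split_ifs <;> simp
    · rw [if_neg h, if_neg h, if_neg h]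
      simp
  rw [Finset.sum_congr rfl fun e' _ => h2 e', ← Complex.ofReal_sum]
  have h3 : (∑ e' : Fin n, if (e' : ℕ) < e then
    ((if e'.castSucc = i then fderiv ℝ (X.g e') (z i) v * X.h e' (z e'.succ) else 0) +
      if e'.succ = i then X.g e' (z e'.castSucc) * fderiv ℝ (X.h e') (z i) v else 0) else 0) =
      Bd X e z i v := rfl
  rw [h3]
  by_cases hi : (i : ℕ) ≤ e
  · rw [if_pos hi]
    rcases hi.lt_or_eq with h | h
    · rw [if_pos h]
    · have h' : i = e.castSucc := Fin.ext (by rw [Fin.val_castSucc]; exact h)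
      rw [if_neg h.not_lt, if_pos h, h']
  · rw [if_neg hi, if_neg (by omega), if_neg (by omega)]
    have h4 : Bd X e z i v = 0 := by
      refine Finset.sum_eq_zero fun e' _ => ?_
      split_ifs with h5 h6 h7 h7
      · have := congrArg Fin.val h6
        rw [Fin.val_castSucc] at this
        omega
      · have := congrArg Fin.val h6
        rw [Fin.val_castSucc] at this
        omega
      · have := congrArg Fin.val h7
        rw [Fin.val_succ] at this
        omega
      · simp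
      · rfl
    rw [h4]
    simp

theorem tr_val (z : Fin (n + 1) → ℂ) :
    X.tr e (X.Q e.castSucc) z = (∑ i : Fin (n + 1), if (i : ℕ) ≤ e then X.Q i (z i) else 0) -
      ((∑ e' : Fin n, if (e' : ℕ) < e then X.g e' (z e'.castSucc) * X.h e' (z e'.succ) else 0 : ℝ)
        : ℂ) := by
  unfold LD.tr GF
  rw [Complex.ofReal_sum]
  congr 1
  · refine Finset.sum_congr rfl fun i _ => ?_
    beta_reduce
    rcases lt_trichotomy (i : ℕ) (e : ℕ) with h | h | h
    · rw [if_pos h, if_pos h.le]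
    · have h' : i = e.castSucc := Fin.ext (by rw [Fin.val_castSucc]; exact h)
      rw [if_neg h.not_lt, if_pos h, if_pos h.le, h']
    · rw [if_neg h.not_gt, if_neg h.ne', if_neg (by omega)]; rfl
  · refine Finset.sum_congr rfl fun e' _ => ?_
    beta_reduce
    by_cases h : (e' : ℕ) < e
    · rw [if_pos h, if_pos h, if_pos h, Complex.ofReal_mul]
    · rw [if_neg h, if_neg h, if_neg h]; simp

/-- the case `y = 0`, tail `= 0`. -/
theorem mid_reg_zero (hX : X.Ok a e) (hY : Differentiable ℝ Y) (hη : Differentiable ℝ η)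
    (hH : Differentiable ℝ H) (ha : ∀ i, 2 ≤ a i) (hY0 : Y 0 = 0) (hH0 : H 0 = 0)
    (hreg : X.TrReg e (X.Q e.castSucc)) {z : Fin (n + 1) → ℂ} (hz0 : z ≠ 0)
    (hz : ∀ i : Fin (n + 1), (e : ℕ) < i → z i = 0) (hre : 0 ≤ (X.mid a e Y η H z).re) :
    Function.Surjective (fderiv ℝ (X.mid a e Y η H) z) := by
  have hy : z e.succ = 0 := hz _ (by rw [Fin.val_succ]; omega)
  have hval : X.mid a e Y η H z = X.tr e (X.Q e.castSucc) z := by
    rw [mid_val ha z (fun i hi => hz i (by omega)), tr_val, hy, hY0, hH0]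
    ring
  rw [hval] at hre
  have h1 := hreg z hz0 hz hre
  intro b
  obtain ⟨w, hw⟩ := h1 b
  refine ⟨fun i => if (i : ℕ) ≤ e then w i else 0, ?_⟩
  rw [← hw, fderiv_sum_single, fderiv_sum_single (L := fderiv ℝ (X.tr e (X.Q e.castSucc)) z) w]
  refine Finset.sum_congr rfl fun i _ => ?_
  by_cases hi : (i : ℕ) ≤ e
  · simp only [if_pos hi]
    rw [mid_single hX hY hη hH z hi, tr_single hX, if_pos hi, hy, hH0]
    simp
  · simp only [if_neg hi]
    rw [tr_single hX, if_neg hi]
    simp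

/-- radial derivative of the processed couplings -/
theorem Bd_rad (hX : X.Ok a e) (z : Fin (n + 1) → ℂ) (i : Fin (n + 1)) :
    Bd X e z i (z i) = ∑ e' : Fin n,
      (LemL_951.dg Fin.castSucc Fin.succ X.p X.m e' i) *
      (if (e' : ℕ) < e then X.g e' (z e'.castSucc) * X.h e' (z e'.succ) else 0) := by
  refine Finset.sum_congr rfl fun e' _ => ?_
  unfold LemL_951.dg
  by_cases h : (e' : ℕ) < e
  · rw [if_pos h, if_pos h]
    have h1 : ∀ x, fderiv ℝ (X.g e') x x = X.p e' * X.g e' x := fun x => by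
      have := (g_ph X e').euler (g_diff hX h x)
      rwa [smul_eq_mul] at this
    have h2 : ∀ x, fderiv ℝ (X.h e') x x = X.m e' * X.h e' x := fun x => by
      have := (h_ph X e').euler (h_diff hX h x)
      rwa [smul_eq_mul] at this
    by_cases h3 : e'.castSucc = i
    · by_cases h4 : e'.succ = i
      · exact absurd (h3.trans h4.symm) Fin.castSucc_lt_succ.ne
      · rw [if_pos h3, if_neg h4, if_pos h3, if_neg h4, h1, ← h3]; ring
    · by_cases h4 : e'.succ = i
      · rw [if_neg h3, if_pos h4, if_neg h3, if_pos h4, h2, ← h4]; ring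
      · rw [if_neg h3, if_neg h4, if_neg h3, if_neg h4]; ring
  · rw [if_neg h, if_neg h, mul_zero]

/-- angular derivative of the processed couplings -/
theorem Bd_ang (hX : X.Ok a e) (z : Fin (n + 1) → ℂ) {i : Fin (n + 1)} (hzi : z i ≠ 0)
    (hc : 0 ≤ Real.cos (X.ph i (Complex.arg (z i)))) : Bd X e z i (Complex.I * z i) = 0 := by
  refine Finset.sum_eq_zero fun e' _ => ?_
  by_cases h : (e' : ℕ) < e
  · rw [if_pos h]
    by_cases h3 : e'.castSucc = i
    · subst h3
      by_cases h4 : e'.succ = e'.castSucc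
      · exact absurd h4.symm Fin.castSucc_lt_succ.ne
      · rw [if_pos rfl, if_neg h4, fderiv_g_I hX h hzi hc]; ring
    · by_cases h4 : e'.succ = i
      · subst h4
        rw [if_neg h3, if_pos rfl, fderiv_h_I hX h hzi hc]; ring
      · rw [if_neg h3, if_neg h4, add_zero]
  · rw [if_neg h]

/-- **the case `y ≠ 0`, tail `= 0`**: STEP S4. `x = z e.castSucc`, `y = z e.succ`. -/
theorem mid_reg_s4 (hX : X.Ok a e) (hY : Differentiable ℝ Y) (hη : Differentiable ℝ η)
    (hH : Differentiable ℝ H) (ha : ∀ i, 2 ≤ a i) {z : Fin (n + 1) → ℂ}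
    (hz : ∀ i : Fin (n + 1), (e : ℕ) + 1 < i → z i = 0)
    {b d P P' C sx rm t β β' ξ : ℝ} (hb : 1 ≤ b) (hd : d = b + 1) (hP' : 0 < P') (hC : 0 < C)
    (hsx : 0 ≤ sx) (hrm : 0 < rm) (ht0 : 0 ≤ t) (ht1 : t ≤ 1)
    (hPD : P / X.D e.castSucc = 1 / d)
    (hYv : Y (z e.succ) = (C : ℂ) * S4_407.cis (d * ξ))
    (hHv : H (z e.succ) = (rm : ℂ) * S4_407.bb b t β ξ)
    (hηv : η (z e.castSucc) = (sx : ℂ))
    (hYr : fderiv ℝ Y (z e.succ) (z e.succ) = ((d * P' : ℝ) : ℂ) * Y (z e.succ))
    (hYa : fderiv ℝ Y (z e.succ) (Complex.I * z e.succ) =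
      ((d : ℝ) : ℂ) * (Complex.I * Y (z e.succ)))
    (hHr : fderiv ℝ H (z e.succ) (z e.succ) = ((b * P' : ℝ) : ℂ) * H (z e.succ))
    (hHa : fderiv ℝ H (z e.succ) (Complex.I * z e.succ) = (rm : ℂ) * S4_407.db b t β' ξ)
    (hηr : fderiv ℝ η (z e.castSucc) (z e.castSucc) = ((P : ℝ) : ℂ) * η (z e.castSucc))
    (hηa : sx ≠ 0 → z e.castSucc ≠ 0 ∧ ((X.Q e.castSucc (z e.castSucc)).re < 0 ∨
      fderiv ℝ η (z e.castSucc) (Complex.I * z e.castSucc) = 0))
    (hzone : (|ξ| ≤ Real.pi / (2 * d) ∧ β = 1 ∧ β' = 0) ∨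
      (Real.cos (d * ξ) < 0 ∧ 1 ≤ (2 * d - 1) * Real.cos (b * ξ) ∧ 0 ≤ β ∧ β ≤ 1) ∨
      (β = 0 ∧ β' = 0 ∧ S4_407.cis ξ ≠ 1))
    (hNC : ξ = 0 → d * C = b * (sx * rm) →
      P * (sx * rm) ≤ X.D e.castSucc * (X.Q e.castSucc (z e.castSucc)).re → False)
    (hre : 0 ≤ (X.mid a e Y η H z).re) :
    Function.Surjective (fderiv ℝ (X.mid a e Y η H) z) := by
  have hDpos : ∀ i : Fin (n + 1), 0 < (if (i : ℕ) ≤ e then X.D i else 1) := by
    intro i
    split_ifs with h
    · have := hX.hD i h; linarith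
    · exact one_pos
  have hDle : ∀ i : Fin (n + 1), (i : ℕ) ≤ e → (if (i : ℕ) ≤ e then X.D i else 1) = X.D i :=
    fun i h => if_pos h
  set D : Fin (n + 1) → ℝ := fun i => if (i : ℕ) ≤ e then X.D i else 1 with hD
  set p : Fin n → ℝ := fun e' => if (e' : ℕ) < e then X.p e' else D e'.castSucc / 2 with hp
  set m : Fin n → ℝ := fun e' => if (e' : ℕ) < e then X.m e' else D e'.succ / 2 with hm
  set B : Fin n → ℝ := fun e' => if (e' : ℕ) < e then
    X.g e' (z e'.castSucc) * X.h e' (z e'.succ) else 0 with hB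
  have hple : ∀ e' : Fin n, (e' : ℕ) < e → p e' = X.p e' := fun e' h => if_pos h
  have hmle : ∀ e' : Fin n, (e' : ℕ) < e → m e' = X.m e' := fun e' h => if_pos h
  have hB0 : ∀ e', 0 ≤ B e' := by
    intro e'
    show 0 ≤ if (e' : ℕ) < e then X.g e' (z e'.castSucc) * X.h e' (z e'.succ) else 0
    split_ifs with h
    · exact mul_nonneg (g_nonneg hX h _) (h_nonneg hX h _)
    · exact le_rfl
  have hp0 : ∀ e', 0 ≤ p e' := by
    intro e'
    show 0 ≤ if (e' : ℕ) < e then X.p e' else D e'.castSucc / 2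
    split_ifs with h
    · have := hX.hp e' h; linarith
    · exact (half_pos (hDpos _)).le
  have hm0 : ∀ e', 0 ≤ m e' := by
    intro e'
    show 0 ≤ if (e' : ℕ) < e then X.m e' else D e'.succ / 2
    split_ifs with h
    · have := hX.hm e' h; linarith
    · exact (half_pos (hDpos _)).le
  have hrad : ∀ i, (∑ e', LemL_951.dg Fin.castSucc Fin.succ X.p X.m e' i * B e') =
      ∑ e', LemL_951.dg Fin.castSucc Fin.succ p m e' i * B e' := by
    intro i
    refine Finset.sum_congr rfl fun e' _ => ?_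
    by_cases h : (e' : ℕ) < e
    · unfold LemL_951.dg
      rw [hple e' h, hmle e' h]
    · have : B e' = 0 := if_neg h
      rw [this, mul_zero, mul_zero]
  have hce : ((e.castSucc : Fin (n + 1)) : ℕ) ≤ e := by rw [Fin.val_castSucc]
  refine S4_407.s4 (ι := Fin (n + 1)) (ε := Fin n)
    (fderiv ℝ (X.mid a e Y η H) z : (Fin (n + 1) → ℂ) →ₗ[ℝ] ℂ)
    (fun i => if (i : ℕ) ≤ e then Pi.single i (z i) else 0)
    (fun i => if (i : ℕ) ≤ e then Pi.single i (Complex.I * z i) else 0)
    ((P'⁻¹ : ℝ) • Pi.single e.succ (z e.succ)) (Pi.single e.succ (Complex.I * z e.succ))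
    e.castSucc D hDpos (LemL_951.dg Fin.castSucc Fin.succ p m) ?_ ?_
    (fun i => if (i : ℕ) ≤ e then X.Q i (z i) else 0) B hB0 (a := b) (d := d) (P := P) (C := C)
    (S := sx * rm) (v := t) (β := β) (β' := β') (ξ := ξ) hd hb ?_ hC (mul_nonneg hsx hrm.le) ht0 ht1
    ?_ ?_ ?_ ?_ ?_ hzone ?_ ?_
  · intro e' i
    unfold LemL_951.dg
    refine add_nonneg ?_ ?_
    · split_ifs
      · exact hp0 e'
      · exact le_rfl
    · split_ifs
      · exact hm0 e'
      · exact le_rfl
  · intro e'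
    rw [sum_dg_div]
    by_cases h : (e' : ℕ) < e
    · rw [hple e' h, hmle e' h]
      show X.p e' / (if ((e'.castSucc : Fin (n + 1)) : ℕ) ≤ e then X.D e'.castSucc else 1) +
        X.m e' / (if ((e'.succ : Fin (n + 1)) : ℕ) ≤ e then X.D e'.succ else 1) = 1
      rw [hDle _ (le_cast h), hDle _ (lt_succ h)]
      exact hX.sum e' h
    · have h1 : p e' = D e'.castSucc / 2 := if_neg h
      have h2 : m e' = D e'.succ / 2 := if_neg h
      have h3 := (hDpos e'.castSucc).ne'
      have h4 := (hDpos e'.succ).ne'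
      rw [h1, h2]
      show D e'.castSucc / 2 / D e'.castSucc + D e'.succ / 2 / D e'.succ = 1
      have h3' : D e'.castSucc ≠ 0 := h3
      have h4' : D e'.succ ≠ 0 := h4
      field_simp
      norm_num
  · show P / (if ((e.castSucc : Fin (n + 1)) : ℕ) ≤ e then X.D e.castSucc else 1) = 1 / d
    rw [hDle _ hce]
    exact hPD
  · -- radial
    intro i
    by_cases hi : (i : ℕ) ≤ e
    · simp only [if_pos hi]
      show fderiv ℝ (X.mid a e Y η H) z (Pi.single i (z i)) = _
      have hDi : D i = X.D i := if_pos hi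
      have hBd : Bd X e z i (z i) = ∑ e', LemL_951.dg Fin.castSucc Fin.succ p m e' i * B e' :=
        (Bd_rad hX z i).trans (hrad i)
      rw [mid_single hX hY hη hH z hi, (Q_ph X i).euler (Q_diff hX hi _), Complex.real_smul,
        hBd, hDi]
      by_cases h2 : i = e.castSucc
      · subst h2
        rw [if_pos rfl, if_pos rfl, hηr, hηv, hHv]
        push_cast
        ring
      · rw [if_neg h2, if_neg h2]
    · simp only [if_neg hi]
      have h2 : i ≠ e.castSucc := fun h => hi (h ▸ hce)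
      rw [if_neg h2]
      have h3 : (∑ e', LemL_951.dg Fin.castSucc Fin.succ p m e' i * B e') = 0 := by
        refine Finset.sum_eq_zero fun e' _ => ?_
        by_cases h : (e' : ℕ) < e
        · have h4 : LemL_951.dg Fin.castSucc Fin.succ p m e' i = 0 := by
            unfold LemL_951.dg
            rw [if_neg, if_neg, add_zero]
            · intro h5
              have := congrArg Fin.val h5
              rw [Fin.val_succ] at this
              omega
            · intro h5
              have := congrArg Fin.val h5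
              rw [Fin.val_castSucc] at this
              omega
          rw [h4, zero_mul]
        · have : B e' = 0 := if_neg h
          rw [this, mul_zero]
      rw [h3, map_zero]
      simp
  · -- radial in y
    show fderiv ℝ (X.mid a e Y η H) z ((P'⁻¹ : ℝ) • Pi.single e.succ (z e.succ)) = _
    rw [map_smul, mid_single_y hX hY hη hH ha z hz, hYr, hHr, hηv, hYv, hHv, Complex.real_smul]
    have : (P' : ℂ) ≠ 0 := by exact_mod_cast hP'.ne'
    push_cast
    field_simp
  · -- angular in y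
    show fderiv ℝ (X.mid a e Y η H) z (Pi.single e.succ (Complex.I * z e.succ)) = _
    rw [mid_single_y hX hY hη hH ha z hz, hYa, hHa, hηv, hYv]
    push_cast
    ring
  · -- the other variables
    intro i hi
    by_cases h : (i : ℕ) ≤ e
    · simp only [if_pos h]
      by_cases hzi : z i = 0
      · left
        rw [hzi]
        exact (Q_ph X i).zero (by have := hX.hD i h; linarith)
      · right
        rcases Q_cases hX h hzi with h1 | h1
        · exact good_of_neg h1
        · show Good (fderiv ℝ (X.mid a e Y η H) z (Pi.single i (Complex.I * z i))) _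
          rw [mid_single hX hY hη hH z h, Bd_ang hX z hzi h1, if_neg hi, Complex.ofReal_zero,
            sub_zero, sub_zero]
          exact (good_Q hX h hzi).1
    · left
      simp only [if_neg h]
  · -- the variable x
    intro hS
    simp only [if_pos hce]
    have hs : sx ≠ 0 := fun h => hS (by rw [h, zero_mul])
    obtain ⟨hx, hcase⟩ := hηa hs
    rcases Q_cases hX hce hx with h1 | h1
    · exact Or.inl h1
    · rcases hcase with h2 | h2
      · exact Or.inl h2
      · right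
        refine ⟨deriv (X.ph e.castSucc) (Complex.arg (z e.castSucc)), ((hX.hph _ hce).pos _).ne', ?_⟩
        show fderiv ℝ (X.mid a e Y η H) z (Pi.single e.castSucc (Complex.I * z e.castSucc)) = _
        rw [mid_single hX hY hη hH z hce, Bd_ang hX z hx h1, if_pos rfl, h2, Complex.ofReal_zero,
          sub_zero, zero_mul, sub_zero]
        exact fderiv_Q_I hX hce hx
  · -- (NC)
    intro h1 h2 h3
    have h4 : D e.castSucc = X.D e.castSucc := hDle _ hce
    simp only [if_pos hce] at h3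
    rw [h4] at h3
    exact hNC h1 h2 h3
  · -- value
    rw [mid_val ha z hz, hηv, hHv, hYv] at hre
    have e1 : (∑ i : Fin (n + 1), if (i : ℕ) ≤ e then X.Q i (z i) else 0).re =
        ∑ i : Fin (n + 1), (if (i : ℕ) ≤ e then X.Q i (z i) else 0).re := Complex.re_sum _ _
    simp only [Complex.sub_re, Complex.add_re, Complex.ofReal_re, Complex.re_ofReal_mul] at hre
    rw [e1, S4_407.cis_re] at hre
    calc (0 : ℝ) ≤ _ := hre
      _ = _ := by ring

end Mid

/-! ### the functions of S4 -/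

/-- the coupling factor in `y` at time `t` -/
def Ht (b : ℕ) (P' : ℝ) (β : ℝ → ℝ) (t : ℝ) (y : ℂ) : ℂ :=
  pol ((b : ℝ) * P') (fun ξ => S4_407.bb b t (β ξ) ξ) y

theorem bb_per (b : ℕ) {β : ℝ → ℝ} (hβ : Per β) (t : ℝ) :
    Per fun ξ => S4_407.bb b t (β ξ) ξ := by
  intro x
  show S4_407.bb b t (β (x + 2 * Real.pi)) (x + 2 * Real.pi) = S4_407.bb b t (β x) x
  unfold S4_407.bb
  rw [hβ x]
  have h1 : (b : ℝ) * (x + 2 * Real.pi) = (b : ℝ) * x + 2 * Real.pi * b := by ring
  rw [h1, ← cis_eq_S4, cis_per_nat, cis_eq_S4]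

theorem cis_S4_eq : (S4_407.cis : ℝ → ℂ) = cis := funext fun x => (cis_eq_S4 x).symm

theorem bb_contDiff (b : ℕ) {β : ℝ → ℝ} (hβ : ContDiff ℝ 2 β) :
    ContDiff ℝ 2 fun p : ℝ × ℝ => S4_407.bb b p.1 (β p.2) p.2 := by
  unfold S4_407.bb
  rw [cis_S4_eq]
  have h1 : ContDiff ℝ 2 fun p : ℝ × ℝ => ((1 - p.1 : ℝ) : ℂ) :=
    Complex.ofRealCLM.contDiff.comp (contDiff_const.sub contDiff_fst)
  have h2 : ContDiff ℝ 2 fun p : ℝ × ℝ => cis ((b : ℝ) * p.2) :=
    contDiff_cis.comp (contDiff_const.mul contDiff_snd)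
  have h3 : ContDiff ℝ 2 fun p : ℝ × ℝ => ((p.1 * β p.2 : ℝ) : ℂ) :=
    Complex.ofRealCLM.contDiff.comp (contDiff_fst.mul (hβ.comp contDiff_snd))
  exact (h1.mul h2).add h3

theorem bb_contDiff1 (b : ℕ) {β : ℝ → ℝ} (hβ : ContDiff ℝ 2 β) (t : ℝ) :
    ContDiff ℝ 2 fun x : ℝ => S4_407.bb b t (β x) x :=
  (bb_contDiff b hβ).comp (contDiff_const.prodMk contDiff_id)

theorem bb_hasDerivAt (b : ℕ) {β : ℝ → ℝ} {β' x : ℝ} (hβ : HasDerivAt β β' x) (t : ℝ) :
    HasDerivAt (fun x => S4_407.bb b t (β x) x) (S4_407.db b t β' x) x := by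
  unfold S4_407.bb S4_407.db
  rw [cis_S4_eq]
  have h1 : HasDerivAt (fun x : ℝ => cis ((b : ℝ) * x)) ((b : ℝ) • (Complex.I * cis ((b : ℝ) * x)))
      x := by
    have h0 : HasDerivAt (fun x : ℝ => (b : ℝ) * x) (b : ℝ) x := by
      simpa using (hasDerivAt_id x).const_mul (b : ℝ)
    exact HasDerivAt.scomp x (hasDerivAt_cis _) h0
  have h2 : HasDerivAt (fun x => ((t * β x : ℝ) : ℂ)) ((t * β' : ℝ) : ℂ) x :=
    (hβ.const_mul t).ofReal_comp
  have h3 := (h1.const_mul (((1 - t : ℝ) : ℂ))).add h2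
  rw [Complex.real_smul] at h3
  have e : ((1 - t : ℝ) : ℂ) * (((b : ℝ) : ℂ) * (Complex.I * cis ((b : ℝ) * x))) =
      ((1 - t : ℝ) : ℂ) * ((((b : ℝ) : ℂ)) * (Complex.I * cis ((b : ℝ) * x))) := rfl
  exact h3

theorem Ht_smooth {b : ℕ} {P' : ℝ} (h2 : 2 < (b : ℝ) * P') {β : ℝ → ℝ} (hβ : ContDiff ℝ 2 β)
    (hper : Per β) : ContDiff ℝ 2 fun p : ℝ × ℂ => Ht b P' β p.1 p.2 := by
  have h1 : ContDiffOn ℝ 2 (fun p : ℝ × ℂ => ‖p.2‖ ^ ((b : ℝ) * P') •
      S4_407.bb b p.1 (β (Complex.arg p.2)) (Complex.arg p.2))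
      ((univ : Set ℝ) ×ˢ (univ : Set ℂ)) := by
    refine contDiffOn_rpow_smul (T := univ) isOpen_univ (D := fun _ => (b : ℝ) * P')
      contDiffOn_const (fun _ _ => h2)
      (q := fun p : ℝ × ℂ => S4_407.bb b p.1 (β (Complex.arg p.2)) (Complex.arg p.2)) ?_
      fun t _ r hr z => ?_
    · exact contDiffOn_ang2 (q := fun p : ℝ × ℝ => S4_407.bb b p.1 (β p.2) p.2)
        (fun t => bb_per b hper t) isOpen_univ (bb_contDiff b hβ).contDiffOn
    · show S4_407.bb b t (β (Complex.arg ((r : ℂ) * z))) (Complex.arg ((r : ℂ) * z)) = _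
      rw [arg_hom hr]
  rw [univ_prod_univ, contDiffOn_univ] at h1
  exact h1

/-! ### angular cut-offs -/

theorem cutx_zero {d : ℕ} {l : ℝ → ℝ} (h : CutX d l) {ξ : ℝ}
    (h1 : Real.pi / (2 * d) ≤ |ξ|) (h2 : |ξ| ≤ Real.pi) : l ξ = 0 := by
  have hpi := Real.pi_pos
  rcases le_total 0 ξ with h0 | h0
  · rw [abs_of_nonneg h0] at h1 h2
    have h3 : Real.pi / (2 * d) ≤ Real.pi := h1.trans h2
    exact h.zero ξ h1 (by linarith)
  · rw [abs_of_nonpos h0] at h1 h2
    rw [← h.per ξ]
    have h3 : Real.pi / (2 * d) ≤ Real.pi := h1.trans h2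
    exact h.zero _ (by linarith) (by linarith)

theorem cos_ph {a : Fin (n + 1) → ℕ} {X : LD n} {e : Fin n} {d : ℕ} {P : ℝ}
    (hA : X.Al a e d P) {ξ : ℝ} (h1 : Real.pi / (3 * d) ≤ |ξ|) (h2 : |ξ| ≤ Real.pi) :
    Real.cos (X.ph e.castSucc ξ) = -Real.cos (d * ξ) := by
  have hpi := Real.pi_pos
  have hce : ((e.castSucc : Fin (n + 1)) : ℕ) = e := by rw [Fin.val_castSucc]
  rcases le_total 0 ξ with h0 | h0
  · rw [abs_of_nonneg h0] at h1 h2
    have h3 : Real.pi / (3 * d) ≤ Real.pi := h1.trans h2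
    rw [hA.ph _ hce ξ h1 (by linarith), Real.cos_add_pi]
  · rw [abs_of_nonpos h0] at h1 h2
    have h3 : Real.pi / (3 * d) ≤ Real.pi := h1.trans h2
    have h4 := hA.ph _ hce (ξ + 2 * Real.pi) (by linarith) (by linarith)
    rw [(hA.ok.hph _ hce.le).deg ξ] at h4
    have h5 : X.ph e.castSucc ξ = d * ξ + Real.pi + (((d : ℤ) - (dg a e.castSucc : ℤ) : ℤ) : ℝ) *
        (2 * Real.pi) := by
      push_cast
      linarith
    rw [h5, Real.cos_add_int_mul_two_pi, Real.cos_add_pi]

/-- where the cut-off in `x` is not `0`: `Re Q < 0` or `l = 1`. -/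
theorem cutx_cases {a : Fin (n + 1) → ℕ} {X : LD n} {e : Fin n} {d : ℕ} {P : ℝ} (hd : 1 ≤ d)
    (hA : X.Al a e d P) {l : ℝ → ℝ} (hl : CutX d l) {x : ℂ} (hx : x ≠ 0)
    (h : l (Complex.arg x) ≠ 0) : (X.Q e.castSucc x).re < 0 ∨ l (Complex.arg x) = 1 := by
  have hpi := Real.pi_pos
  have hd0 : (0 : ℝ) < d := by exact_mod_cast hd
  have hce : ((e.castSucc : Fin (n + 1)) : ℕ) ≤ e := by rw [Fin.val_castSucc]
  have habs : |Complex.arg x| ≤ Real.pi := Complex.abs_arg_le_pi x
  rcases le_or_gt |Complex.arg x| (Real.pi / (3 * d)) with h1 | h1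
  · exact Or.inr (hl.one _ h1)
  · left
    have h2 : |Complex.arg x| < Real.pi / (2 * d) := by
      by_contra h3
      push Not at h3
      exact h (cutx_zero hl h3 habs)
    rw [Q_re, cos_ph hA h1.le habs]
    have h3 : 0 < Real.cos (d * Complex.arg x) := by
      rw [← Real.cos_abs, abs_mul, abs_of_pos hd0]
      refine Real.cos_pos_of_mem_Ioo ⟨?_, ?_⟩
      · have : 0 ≤ (d : ℝ) * |Complex.arg x| := by positivity
        linarith
      · rw [lt_div_iff₀ (by positivity)] at h2
        linarith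
    have h4 := epn_pos hA.ok hce hx
    have h5 := mul_pos h4 h3
    linarith

/-! ### regularity -/

/-- `|y|^(dP') e^{idξ}` -/
def Yp (b : ℕ) (P' : ℝ) : ℂ → ℂ :=
  pc (((b + 1 : ℕ) : ℝ) * P') 1 fun x => ((b + 1 : ℕ) : ℝ) * x

def ηp (P : ℝ) (l : ℝ → ℝ) : ℂ → ℂ := fun x => ((pol P l x : ℝ) : ℂ)

theorem pha_lin' (b : ℕ) : Pha (b + 1) fun x => ((b + 1 : ℕ) : ℝ) * x :=
  S2_843.pha_lin (Nat.succ_pos b)

theorem Yp_contDiff {b : ℕ} {P' : ℝ} (h : 2 < ((b + 1 : ℕ) : ℝ) * P') : ContDiff ℝ 2 (Yp b P') :=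
  contDiff_pc h (pha_lin' b)

theorem ηp_contDiff {P : ℝ} (hP : 2 < P) {d : ℕ} {l : ℝ → ℝ} (hl : CutX d l) :
    ContDiff ℝ 2 (ηp P l) :=
  Complex.ofRealCLM.contDiff.comp (contDiff_pol hP hl.per hl.smooth)

theorem Ht_contDiff {b : ℕ} {P' : ℝ} (h2 : 2 < (b : ℝ) * P') {β : ℝ → ℝ} (hβ : ContDiff ℝ 2 β)
    (hper : Per β) (t : ℝ) : ContDiff ℝ 2 (Ht b P' β t) :=
  contDiff_pol h2 (bb_per b hper t) (bb_contDiff1 b hβ t)

theorem s4_reg {a : Fin (n + 1) → ℕ} (ha : Exps a) {X : LD n} {e : Fin n} {P P' : ℝ}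
    {l β : ℝ → ℝ} (hP : 2 < P) (hP' : 1 ≤ P') (h2 : 2 < (a e.succ : ℝ) * P')
    (hA : X.Al a e (a e.succ + 1) P) (hl : CutX (a e.succ + 1) l) (hβ : CutY (a e.succ + 1) β)
    {t : ℝ} (ht0 : 0 ≤ t) (ht1 : t ≤ 1) {z : Fin (n + 1) → ℂ} (hz : z ≠ 0)
    (hre : 0 ≤ (X.mid a e (Yp (a e.succ) P') (ηp P l) (Ht (a e.succ) P' β t) z).re) :
    Function.Surjective
      (fderiv ℝ (X.mid a e (Yp (a e.succ) P') (ηp P l) (Ht (a e.succ) P' β t)) z) := by
  set b : ℕ := a e.succ with hbdef
  have hb2 : 2 ≤ b := ha.two _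
  have hb2' : (2 : ℝ) ≤ b := by exact_mod_cast hb2
  have hb0 : (0 : ℝ) < b := by linarith
  have hX := hA.ok
  have hP0 : (0 : ℝ) < P' := by linarith
  have hcast : ((b + 1 : ℕ) : ℝ) = (b : ℝ) + 1 := by push_cast; ring
  have hdP : 2 < ((b + 1 : ℕ) : ℝ) * P' := by rw [hcast]; nlinarith
  have hYd : Differentiable ℝ (Yp b P') := (Yp_contDiff hdP).differentiable (by norm_num)
  have hηd : Differentiable ℝ (ηp P l) := (ηp_contDiff hP hl).differentiable (by norm_num)
  have hHd : Differentiable ℝ (Ht b P' β t) :=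
    (Ht_contDiff h2 hβ.smooth hβ.per t).differentiable (by norm_num)
  have hYPH : PH (((b + 1 : ℕ) : ℝ) * P') (Yp b P') := pc_hom _ _ _
  have hHPH : PH ((b : ℝ) * P') (Ht b P' β t) := pol_hom _ _
  have hηPH : PH P (ηp P l) := ph_ofReal (P := pol P l) (pol_hom _ _)
  by_contra hns
  -- the tail vanishes
  have htail : ∀ i : Fin (n + 1), (e : ℕ) + 1 < i → z i = 0 := by
    have T : RedG_951.Tail a ((e : ℕ) + 1) (mQ X e (Yp b P')) (mg X e (ηp P l))
        (mh X a e (Ht b P' β t)) := by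
      refine ⟨fun i hi => ?_, fun e' he => ?_, fun e' he => ?_⟩
      · unfold mQ; rw [if_neg (by omega), if_neg (by omega)]
      · unfold mg; rw [if_neg (by omega), if_neg (by omega)]
      · unfold mh; rw [if_neg (by omega), if_neg (by omega)]
    refine fun i hi => T.zero ha.two (fun i => mQ_diff hX hYd i _) (fun e' => mg_diff hX hηd e' _)
      (fun e' => mh_diff hX hHd e' _) (fun i hi _ => ?_) (fun e' he _ => ?_) hns i hi
    · have h1 : mQ X e (Yp b P') i = Yp b P' := by
        unfold mQ; rw [if_neg (by omega), if_pos hi]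
      rw [h1]
      exact ph_fderiv_zero hYPH (by linarith) (hYd 0)
    · have h1 : mh X a e (Ht b P' β t) e' = Ht b P' β t := by
        unfold mh; rw [if_neg (by omega), if_pos (by omega)]
      rw [h1]
      exact ph_fderiv_zero hHPH (by linarith) (hHd 0)
  apply hns
  by_cases hy : z e.succ = 0
  · -- `y = 0`
    refine mid_reg_zero hX hYd hηd hHd ha.two (hYPH.zero (by linarith)) (hHPH.zero (by linarith))
      (S3_82.trReg_Q ha (j := e.castSucc) (trP a e.castSucc) hX) hz (fun i hi => ?_) hre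
    rcases Nat.lt_or_ge ((e : ℕ) + 1) (i : ℕ) with h1 | h1
    · exact htail i h1
    · have : i = e.succ := Fin.ext (by rw [Fin.val_succ]; omega)
      rw [this]; exact hy
  -- `y ≠ 0`
  set y : ℂ := z e.succ with hydef
  set x : ℂ := z e.castSucc with hxdef
  set ξ : ℝ := Complex.arg y with hξ
  have hny : 0 < ‖y‖ := norm_pos_iff.2 hy
  have hcastle : ((e.castSucc : Fin (n + 1)) : ℕ) ≤ e := by rw [Fin.val_castSucc]
  have hDx : X.D e.castSucc = ((b : ℝ) + 1) * P := by
    rw [hA.deg _ (by rw [Fin.val_castSucc]), hcast]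
  have hβd : HasDerivAt β (deriv β ξ) ξ := (hβ.smooth.differentiable (by norm_num) ξ).hasDerivAt
  have hπ := Real.pi_pos
  have hsx0 : 0 ≤ pol P l x := pol_nonneg hl.nn x
  refine mid_reg_s4 hX hYd hηd hHd ha.two htail (b := (b : ℝ)) (d := (b : ℝ) + 1) (P := P)
    (P' := P') (C := ‖y‖ ^ (((b + 1 : ℕ) : ℝ) * P')) (sx := pol P l x)
    (rm := ‖y‖ ^ ((b : ℝ) * P')) (t := t) (β := β ξ) (β' := deriv β ξ) (ξ := ξ) (by linarith) rfl
    hP0 (Real.rpow_pos_of_pos hny _) hsx0 (Real.rpow_pos_of_pos hny _) ht0 ht1 ?_ ?_ ?_ ?_ ?_ ?_ ?_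
    ?_ ?_ ?_ ?_ ?_ hre
  · rw [hDx]
    have : P ≠ 0 := by linarith
    field_simp
  · show pc _ 1 _ y = _
    unfold pc pol
    rw [Complex.real_smul]
    beta_reduce
    rw [Complex.ofReal_one, one_mul, cis_eq_S4, hcast]
  · show pol _ _ y = _
    unfold pol
    rw [Complex.real_smul]
  · rfl
  · have h3 := hYPH.euler (z := y) (hYd y)
    rw [Complex.real_smul] at h3
    rw [h3, hcast]
  · have h3 := fderiv_pc_I (D := ((b + 1 : ℕ) : ℝ) * P') (eps := 1) (pha_lin' b).deg hy
      (pha_hasDerivAt (pha_lin' b) (Complex.arg y))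
    have h4 : deriv (fun x : ℝ => ((b + 1 : ℕ) : ℝ) * x) (Complex.arg y) = (b : ℝ) + 1 := by
      simp
    rw [h4] at h3
    exact h3
  · have h3 := hHPH.euler (z := y) (hHd y)
    rw [Complex.real_smul] at h3
    exact h3
  · have h3 := fderiv_pol_I ((b : ℝ) * P') (bb_per b hβ.per t) hy (bb_hasDerivAt b hβd t)
    rw [Complex.real_smul] at h3
    exact h3
  · have h3 := hηPH.euler (z := x) (hηd x)
    rw [Complex.real_smul] at h3
    exact h3
  · -- the cut-off in `x`
    intro hs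
    have hx0 : x ≠ 0 := by
      intro h3
      apply hs
      rw [h3]
      exact pol_zero (by linarith) _
    refine ⟨hx0, ?_⟩
    have hl0 : l (Complex.arg x) ≠ 0 := by
      intro h3
      apply hs
      show ‖x‖ ^ P * l (Complex.arg x) = 0
      rw [h3, mul_zero]
    rcases cutx_cases (Nat.succ_pos b) hA hl hx0 hl0 with h3 | h3
    · exact Or.inl h3
    · right
      have h4 : HasDerivAt l 0 (Complex.arg x) :=
        hasDerivAt_zero_of_range hl.nn hl.le (hl.smooth.differentiable (by norm_num) _) (Or.inr h3)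
      have h5 := fderiv_pol_I P hl.per hx0 h4
      rw [smul_zero] at h5
      have h6 : fderiv ℝ (ηp P l) x (Complex.I * x) =
          ((fderiv ℝ (pol P l) x (Complex.I * x) : ℝ) : ℂ) :=
        fderiv_ofReal (differentiable_pol hP hl.per hl.smooth x) _
      show fderiv ℝ (ηp P l) x (Complex.I * x) = 0
      rw [h6, h5, Complex.ofReal_zero]
  · -- zones
    have habs : |ξ| ≤ Real.pi := Complex.abs_arg_le_pi y
    rcases le_or_gt |ξ| (Real.pi / (2 * ((b + 1 : ℕ) : ℝ))) with h3 | h3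
    · left
      refine ⟨by rw [← hcast]; exact h3, hβ.one ξ h3, ?_⟩
      exact deriv_zero_of_range hβ.nn hβ.le (Or.inr (hβ.one ξ h3))
    · rcases hβ.zero ξ h3 habs with h4 | h4
      · right; right
        refine ⟨h4, deriv_zero_of_range hβ.nn hβ.le (Or.inl h4), ?_⟩
        intro h5
        have h6 := congrArg Complex.re h5
        have h7 := congrArg Complex.im h5
        rw [S4_407.cis_re, Complex.one_re] at h6
        have h8 : ξ = 0 := by
          have h9 := (Real.cos_eq_one_iff_of_lt_of_lt (x := ξ) ?_ ?_).1 h6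
          · exact h9
          · have := (abs_le.1 habs).1; linarith
          · have := (abs_le.1 habs).2; linarith
        rw [h8, abs_zero] at h3
        have : 0 < Real.pi / (2 * ((b + 1 : ℕ) : ℝ)) := by positivity
        linarith
      · right; left
        obtain ⟨h5, h6⟩ := h4
        rw [hcast] at h5 h6
        refine ⟨h5, h6.trans (le_of_eq ?_), hβ.nn ξ, hβ.le ξ⟩
        rw [add_sub_cancel_right]
  · -- (NC)
    intro h0 h3 h4
    set ρ : ℝ := ‖y‖ ^ P' with hρ
    have hρ0 : 0 < ρ := Real.rpow_pos_of_pos hny _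
    have e1 : ‖y‖ ^ (((b + 1 : ℕ) : ℝ) * P') = ρ ^ (b + 1) := by
      rw [hρ, mul_comm, Real.rpow_mul hny.le, Real.rpow_natCast]
    have e2 : ‖y‖ ^ ((b : ℝ) * P') = ρ ^ b := by
      rw [hρ, mul_comm, Real.rpow_mul hny.le, Real.rpow_natCast]
    rw [e1, e2] at h3
    rw [e2] at h4
    have hρb : 0 < ρ ^ b := pow_pos hρ0 b
    have h5 : ((b : ℝ) + 1) * ρ = b * pol P l x := by
      have : ρ ^ b * (((b : ℝ) + 1) * ρ) = ρ ^ b * (b * pol P l x) := by
        rw [pow_succ] at h3
        linarith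
      exact mul_left_cancel₀ hρb.ne' this
    have hspos : 0 < pol P l x := by
      have : 0 < (b : ℝ) * pol P l x := by rw [← h5]; positivity
      exact (mul_pos_iff_of_pos_left hb0).1 this
    have hx0 : x ≠ 0 := by
      intro h6
      rw [h6, pol_zero (by linarith)] at hspos
      exact lt_irrefl _ hspos
    have hnx : 0 < ‖x‖ := norm_pos_iff.2 hx0
    have hl0 : l (Complex.arg x) ≠ 0 := by
      intro h6
      have : pol P l x = ‖x‖ ^ P * l (Complex.arg x) := rfl
      rw [this, h6, mul_zero] at hspos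
      exact lt_irrefl _ hspos
    have hDpos : 0 < X.D e.castSucc := by rw [hDx]; positivity
    have hQpos : 0 < (X.Q e.castSucc x).re := by
      have h6 : 0 < P * (pol P l x * ρ ^ b) := by positivity
      exact (mul_pos_iff_of_pos_left hDpos).1 (h6.trans_le h4)
    rcases cutx_cases (Nat.succ_pos b) hA hl hx0 hl0 with h6 | h6
    · exact absurd h6 (not_lt.2 hQpos.le)
    · have h7 : pol P l x = ‖x‖ ^ P := by
        show ‖x‖ ^ P * l (Complex.arg x) = _
        rw [h6, mul_one]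
      set σ : ℝ := ‖x‖ ^ P with hσ
      have hσ0 : 0 < σ := Real.rpow_pos_of_pos hnx _
      have h8 : (X.Q e.castSucc x).re ≤ X.ep e.castSucc * σ ^ (b + 1) := by
        have h9 : (X.Q e.castSucc x).re ≤ ‖X.Q e.castSucc x‖ :=
          (le_abs_self _).trans (Complex.abs_re_le_norm _)
        rw [Q_norm hX hcastle, hDx] at h9
        have h10 : ‖x‖ ^ (((b : ℝ) + 1) * P) = σ ^ (b + 1) := by
          rw [hσ, ← hcast, mul_comm, Real.rpow_mul hnx.le, Real.rpow_natCast]
        rwa [h10] at h9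
      rw [h7] at h4 h5
      have h9 : ρ = (b : ℝ) / (b + 1) * σ := by
        field_simp
        linarith
      have h10 : P * (σ * ρ ^ b) ≤ ((b : ℝ) + 1) * P * (X.ep e.castSucc * σ ^ (b + 1)) := by
        rw [hDx] at h4
        exact h4.trans (mul_le_mul_of_nonneg_left h8 (by positivity))
      rw [h9, mul_pow] at h10
      have h11 : P * σ ^ (b + 1) * ((b : ℝ) / (b + 1)) ^ b ≤
          P * σ ^ (b + 1) * (((b : ℝ) + 1) * X.ep e.castSucc) := by
        calc P * σ ^ (b + 1) * ((b : ℝ) / (b + 1)) ^ b =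
            P * (σ * (((b : ℝ) / (b + 1)) ^ b * σ ^ b)) := by ring
          _ ≤ _ := h10
          _ = _ := by ring
      have h12 : ((b : ℝ) / (b + 1)) ^ b ≤ ((b : ℝ) + 1) * X.ep e.castSucc :=
        le_of_mul_le_mul_left h11 (by positivity)
      have h13 := hA.ep e.castSucc (by rw [Fin.val_castSucc])
      rw [hcast, add_sub_cancel_right, Nat.add_sub_cancel] at h13
      have h14 := hX.hep e.castSucc hcastle
      have h15 : (1 / ((b : ℝ) + 1)) * ((b : ℝ) / (b + 1)) ^ b ≤ X.ep e.castSucc := by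
        rw [one_div, inv_mul_le_iff₀ (by positivity)]
        exact h12
      linarith

/-! ### the path -/

theorem mQ_contDiff {X : LD n} {a : Fin (n + 1) → ℕ} {e : Fin n} {Y : ℂ → ℂ} (hX : X.Ok a e)
    (hY : ContDiff ℝ 2 Y) (i : Fin (n + 1)) : ContDiff ℝ 2 (mQ X e Y i) := by
  unfold mQ
  split_ifs with h1 h2
  · exact Q_contDiff hX h1
  · exact hY
  · exact contDiff_const

theorem mg_contDiff {X : LD n} {a : Fin (n + 1) → ℕ} {e : Fin n} {η : ℂ → ℂ} (hX : X.Ok a e)
    (hη : ContDiff ℝ 2 η) (e' : Fin n) : ContDiff ℝ 2 (mg X e η e') := by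
  unfold mg
  split_ifs with h1 h2
  · exact Complex.ofRealCLM.contDiff.comp (g_contDiff hX h1)
  · exact hη
  · exact contDiff_id

theorem mh_contDiff {X : LD n} {a : Fin (n + 1) → ℕ} {e : Fin n} {H : ℝ × ℂ → ℂ} (hX : X.Ok a e)
    (hH : ContDiff ℝ 2 H) (e' : Fin n) :
    ContDiff ℝ 2 fun p : ℝ × ℂ => mh X a e (fun y => H (p.1, y)) e' p.2 := by
  unfold mh
  by_cases h1 : (e' : ℕ) < e
  · simp only [if_pos h1]
    exact (Complex.ofRealCLM.contDiff.comp (h_contDiff hX h1)).comp contDiff_snd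
  · by_cases h2 : (e' : ℕ) = e
    · simp only [if_neg h1, if_pos h2]
      exact hH
    · simp only [if_neg h1, if_neg h2]
      exact contDiff_snd.pow _

theorem contDiff_GFt {Q : Fin (n + 1) → ℝ × ℂ → ℂ} {g h : Fin n → ℝ × ℂ → ℂ}
    (hQ : ∀ i, ContDiff ℝ 2 (Q i)) (hg : ∀ e, ContDiff ℝ 2 (g e)) (hh : ∀ e, ContDiff ℝ 2 (h e)) :
    ContDiff ℝ 2 fun p : ℝ × (Fin (n + 1) → ℂ) =>
      (∑ i, Q i (p.1, p.2 i)) - ∑ e : Fin n, g e (p.1, p.2 e.castSucc) * h e (p.1, p.2 e.succ) := by
  have hc : ∀ i : Fin (n + 1), ContDiff ℝ 2 fun p : ℝ × (Fin (n + 1) → ℂ) => (p.1, p.2 i) := by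
    intro i
    have h1 : ContDiff ℝ 2 fun p : ℝ × (Fin (n + 1) → ℂ) => p.2 i := by fun_prop
    exact contDiff_fst.prodMk h1
  refine ContDiff.sub (ContDiff.sum fun i _ => ?_) (ContDiff.sum fun e' _ => ContDiff.mul ?_ ?_)
  · exact (hQ i).comp (hc i)
  · exact (hg e').comp (hc e'.castSucc)
  · exact (hh e').comp (hc e'.succ)

theorem s4_path {a : Fin (n + 1) → ℕ} (ha : Exps a) {X : LD n} {e : Fin n} {P P' : ℝ}
    {l β : ℝ → ℝ} (hP : 2 < P) (hP' : 1 ≤ P') (h2 : 2 < (a e.succ : ℝ) * P')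
    (hA : X.Al a e (a e.succ + 1) P) (hl : CutX (a e.succ + 1) l) (hβ : CutY (a e.succ + 1) β) :
    HPath fun p : ℝ × (Fin (n + 1) → ℂ) =>
      X.mid a e (Yp (a e.succ) P') (ηp P l) (Ht (a e.succ) P' β p.1) p.2 := by
  have hb2 : 2 ≤ a e.succ := ha.two _
  have hb2' : (2 : ℝ) ≤ a e.succ := by exact_mod_cast hb2
  have hcast : ((a e.succ + 1 : ℕ) : ℝ) = (a e.succ : ℝ) + 1 := by push_cast; ring
  have hdP : 2 < ((a e.succ + 1 : ℕ) : ℝ) * P' := by rw [hcast]; nlinarith
  have hX := hA.ok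
  refine HPath.of_slices (T := univ) isOpen_univ (subset_univ _) ?_ ?_ ?_
  · refine ContDiff.contDiffOn ?_
    have hQ := mQ_contDiff hX (Yp_contDiff hdP)
    have hg := mg_contDiff hX (ηp_contDiff hP hl)
    have hh := mh_contDiff (H := fun p : ℝ × ℂ => Ht (a e.succ) P' β p.1 p.2) hX
      (Ht_smooth h2 hβ.smooth hβ.per)
    have h3 := contDiff_GFt (Q := fun i p => mQ X e (Yp (a e.succ) P') i p.2)
      (g := fun e' p => mg X e (ηp P l) e' p.2)
      (h := fun e' p => mh X a e (fun y => Ht (a e.succ) P' β p.1 y) e' p.2)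
      (fun i => (hQ i).comp contDiff_snd) (fun e' => (hg e').comp contDiff_snd) hh
    exact h3
  · intro t _
    have hYPH : PH (((a e.succ + 1 : ℕ) : ℝ) * P') (Yp (a e.succ) P') := pc_hom _ _ _
    have hHPH : PH ((a e.succ : ℝ) * P') (Ht (a e.succ) P' β t) := pol_hom _ _
    have hηPH : PH P (ηp P l) := ph_ofReal (P := pol P l) (pol_hom _ _)
    have hsum : P / X.D e.castSucc +
        (a e.succ : ℝ) * P' / (((a e.succ + 1 : ℕ) : ℝ) * P') = 1 := by
      rw [hA.deg e.castSucc (by rw [Fin.val_castSucc]), hcast]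
      have h3 : P ≠ 0 := by linarith
      have h4 : P' ≠ 0 := by linarith
      field_simp
      ring
    have hD1 : 1 < ((a e.succ + 1 : ℕ) : ℝ) * P' := by linarith
    have key := LobeKit_407.wh_mid (X := X) (a := a) (e := e) ha.two hX hD1 hYPH hηPH hHPH hsum
    exact key
  · intro t ht x hx hre
    exact s4_reg ha hP hP' h2 hA hl hβ ht.1 ht.2 hx hre

theorem Ht_zero (b : ℕ) {P' : ℝ} (hP' : P' ≠ 0) (β : ℝ → ℝ) :
    Ht b P' β 0 = fun y => (pw P' y) ^ b := by
  funext y
  rw [S2_843.pow_eq_pc, S2_843.pc_pw hP', mul_comm P' (b : ℝ)]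
  show pol _ _ y = pol _ _ y
  congr 1
  funext x
  unfold S4_407.bb
  rw [cis_eq_S4]
  simp

theorem Ht_one (b : ℕ) (P' : ℝ) (β : ℝ → ℝ) :
    Ht b P' β 1 = fun y => ((pol ((b : ℝ) * P') β y : ℝ) : ℂ) := by
  funext y
  show ‖y‖ ^ ((b : ℝ) * P') • S4_407.bb b 1 (β (Complex.arg y)) (Complex.arg y) =
    ((‖y‖ ^ ((b : ℝ) * P') * β (Complex.arg y) : ℝ) : ℂ)
  unfold S4_407.bb
  rw [Complex.real_smul]
  simp

theorem Yp_eq (b : ℕ) {P' : ℝ} (hP' : P' ≠ 0) : Yp b P' = fun y => (pw P' y) ^ (b + 1) := by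
  funext y
  rw [S2_843.pow_eq_pc, S2_843.pc_pw hP', mul_comm P' ((b + 1 : ℕ) : ℝ)]
  rfl

/-- **S4.** -/
theorem s4P {a : Fin (n + 1) → ℕ} (ha : Exps a) (e : Fin n) : S4P a e := by
  intro X P l b hP hA hl hb h3
  have h3' : (3 : ℝ) ≤ a e.succ := by exact_mod_cast h3
  have h := (s4_path ha hP le_rfl (by linarith) hA hl hb).seq
  have e1 : Ht (a e.succ) 1 b 0 = fun y => y ^ a e.succ := by
    rw [Ht_zero _ one_ne_zero]
    funext y
    rw [S2_843.pw_one]
  have e2 : Yp (a e.succ) 1 = fun y => y ^ (a e.succ + 1) := by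
    rw [Yp_eq _ one_ne_zero]
    funext y
    rw [S2_843.pw_one]
  have e3 := Ht_one (a e.succ) 1 b
  rw [mul_one] at e3
  simp only [e1, e2, e3] at h
  exact h

/-- change of the power of the last variable -/
theorem pow_last {a : Fin (n + 1) → ℕ} {X : LD n} {e : Fin n} (he : (e : ℕ) + 1 = n)
    {Y η H : ℂ → ℂ} {P' : ℝ} (hP' : 0 < P') {w : Fin (n + 1) → ℝ} (hw : ∀ i, 0 < w i)
    (hWH : WH w (X.mid a e (fun y => Y (pw P' y)) η fun y => H (pw P' y))) :
    SEq (X.mid a e Y η H) (X.mid a e (fun y => Y (pw P' y)) η fun y => H (pw P' y)) := by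
  have hPi : (0 : ℝ) < P'⁻¹ := inv_pos.2 hP'
  let F : Fin (n + 1) → (ℂ ≃ₜ ℂ) := fun i =>
    if (i : ℕ) = e + 1 then S2_843.pwH P'⁻¹ hPi else Homeomorph.refl ℂ
  let φ : (Fin (n + 1) → ℂ) ≃ₜ (Fin (n + 1) → ℂ) := Homeomorph.piCongrRight F
  have hφ : ∀ z i, φ z i = if (i : ℕ) = e + 1 then pw P'⁻¹ (z i) else z i := by
    intro z i
    show F i (z i) = _
    simp only [F]
    split_ifs
    · rfl
    · rfl
  refine seq_of_equiv (w := fun i => if (i : ℕ) = e + 1 then P' * w i else w i) (w' := w) ?_ hw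
    hWH φ ?_ ?_
  · intro i
    have := hw i
    show 0 < (if (i : ℕ) = e + 1 then P' * w i else w i)
    split_ifs
    · positivity
    · exact this
  · intro s z
    funext i
    rw [hφ]
    show _ = (Real.exp (s * w i) : ℂ) * φ z i
    rw [hφ]
    show (if (i : ℕ) = e + 1 then
      pw P'⁻¹ ((Real.exp (s * (if (i : ℕ) = e + 1 then P' * w i else w i)) : ℂ) * z i) else
      ((Real.exp (s * (if (i : ℕ) = e + 1 then P' * w i else w i)) : ℂ) * z i)) = _
    split_ifs
    · rw [S2_843.pw_smul _ (Real.exp_pos _), ← Real.exp_mul]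
      congr 3
      field_simp
    · rfl
  · intro z
    have hpp : ∀ u, pw P' (pw P'⁻¹ u) = u := fun u => by
      rw [S2_843.pw_pw hPi.ne', mul_inv_cancel₀ hP'.ne', S2_843.pw_one]
    unfold LD.mid GF
    congr 1
    · refine Finset.sum_congr rfl fun i _ => ?_
      beta_reduce
      rw [hφ]
      by_cases hi : (i : ℕ) ≤ e
      · rw [if_pos hi, if_pos hi, if_neg (by omega)]
      · by_cases h : (i : ℕ) = e + 1
        · rw [if_neg hi, if_pos h, if_neg hi, if_pos h, if_pos h, hpp]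
        · rw [if_neg hi, if_neg h, if_neg hi, if_neg h]; rfl
    · refine Finset.sum_congr rfl fun e' _ => ?_
      beta_reduce
      rw [hφ, hφ]
      have he' := e'.isLt
      rcases lt_trichotomy (e' : ℕ) e with h | h | h
      · simp only [if_pos h, Fin.val_castSucc, Fin.val_succ]
        rw [if_neg (by omega), if_neg (by omega)]
      · simp only [if_neg h.not_lt, if_pos h, Fin.val_castSucc, Fin.val_succ]
        rw [if_neg (by omega), if_pos (by omega), hpp]
      · omega

/-- **S4 for the last variable.** -/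
theorem s4lastP {a : Fin (n + 1) → ℕ} (ha : Exps a) (e : Fin n) : S4lastP a e := by
  intro he X P P' l b hP hP' hA hl hb
  have h2 : (2 : ℝ) ≤ a e.succ := by exact_mod_cast ha.two e.succ
  have hP0 : 0 < P' := by linarith
  have hpath := s4_path ha (P' := P') hP (by linarith) (by nlinarith) hA hl hb
  have h := hpath.seq
  have e1 := Ht_zero (a e.succ) hP0.ne' b
  have e2 := Yp_eq (a e.succ) hP0.ne'
  have e3 := Ht_one (a e.succ) P' b
  obtain ⟨w, hw, hWH⟩ := hpath.wh 0 (by simp)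
  simp only [e1, e2, e3] at h hWH
  refine SEq.trans ?_ h
  exact pow_last he hP0 (Y := fun y => y ^ (a e.succ + 1)) (H := fun y => y ^ a e.succ) hw hWH

end Crest.Agent.R267.S4F_407
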