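import Crest.Agent.R267.T3bAsm_601
import Crest.Agent.R267.Align_504
import Crest.Agent.R267.S3_82
import Crest.Agent.R267.RedP_951
import Crest.Agent.R267.S2_843
import Crest.Agent.R267.S1_855
import Crest.Agent.R267.PathP_951
import Crest.Agent.R267.S4F_407

/-!
# Row 267 (helper855): T3b, final assembly (LEMMA 267-855-2, definitions of helper407)
-/

set_option autoImplicit false

namespace Crest.Agent.R267.T3bFin_855

open Crest.Agent.R267.LobeDefs_407

/-- all steps -/
theorem steps {n : ℕ} {a : Fin (n + 1) → ℕ} (ha : Exps a) : T3bAsm_601.Steps a where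
  path j hj := PathP_951.path ha j hj
  align e := Align_504.alignP ha e
  s1 e := S1_855.s1P ha e
  s2 e := S2_843.s2p ha e
  s3 e := S3_82.s3_of_red ha e (RedP_951.redP ha.two e)
  s4 e := S4F_407.s4P ha e
  s4l e := S4F_407.s4lastP ha e
  base := S2_843.base ha

/-- **T3b** -/
theorem t3bP : T3bP := T3bAsm_601.t3b_of fun _ _ ha => steps ha

end Crest.Agent.R267.T3bFin_855
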