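import Crest.Agent.R267.GlLine_322
import Crest.Agent.R267.GlStar_52
import Crest.Agent.R267.GlLift_125
import Crest.Agent.R267.GlLists_451
import Crest.Agent.R267.T3bFin_855

/-!
# Row 267 (helper322): GL1, unconditional
-/

set_option autoImplicit false

namespace Crest.Agent.R267.Gl1_322

open Crest.Agent.R267.GlueDefs_322

theorem starP : StarP :=
  GlStar_52.star (fun _ _ h0 h8 hM => GlLift_125.liftP h0 h8 hM) T3bFin_855.t3bP

theorem gl1h : GL1h := GlueDefs_322.gl1h starP GlLine_322.lineP

/-- **GL1**: every chain of S0407 is stably link equivalent to its lobed function -/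
theorem gl1 : GL1 := GlLists_451.gl1_of gl1h

end Crest.Agent.R267.Gl1_322
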