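import Crest.Agent.R267.GlBas_322

/-!
# Row 267 (helper322): GL2 from its pieces
-/

set_option autoImplicit false

noncomputable section

open Finset
open Crest.Agent.R267.T3aDefs_957 Crest.Agent.R267.GlueDefs_322 Crest.Agent.R267.GlBas_322
open Crest.Agent.R267.Hm_951 Crest.Agent.R267.Cone_808

namespace Crest.Agent.R267.Gl2_322

/-- two vectors with independent images -/
theorem surj_of_two {V : Type*} [AddCommGroup V] [Module ℝ V] (L : V →ₗ[ℝ] ℂ) {x y : V}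
    (h1 : (L x).im = 0) (h2 : 0 < (L x).re) (h3 : (L y).im ≠ 0) : Function.Surjective L := by
  intro b
  refine ⟨((b.re - b.im / (L y).im * (L y).re) / (L x).re) • x + (b.im / (L y).im) • y, ?_⟩
  rw [map_add, map_smul, map_smul, Complex.real_smul, Complex.real_smul]
  apply Complex.ext
  · rw [Complex.add_re, Complex.re_ofReal_mul, Complex.re_ofReal_mul, div_mul_cancel₀ _ h2.ne']
    ring
  · rw [Complex.add_im, Complex.im_ofReal_mul, Complex.im_ofReal_mul, h1,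
      div_mul_cancel₀ _ h3]
    ring

variable {N : ℕ} (D : LD N)

theorem zeq_F8 (cB ga : ℝ) :
    ZEq (F8 D.K cB ga D.M D.C) (Gx D (fun x => x ^ 7) cB ga) := by
  refine ⟨Homeomorph.refl _, fun s => ?_⟩
  have hs : (s : Fin N → ℂ) ≠ 0 := by
    intro h
    have h1 := s.2
    have h2 : nsq (s : Fin N → ℂ) = 1 := h1
    rw [h, show nsq (0 : Fin N → ℂ) = 0 from nsq_eq_zero.2 rfl] at h2
    exact zero_ne_one h2
  show F8 D.K cB ga D.M D.C s = 0 ↔ Gx D (fun x => x ^ 7) cB ga s = 0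
  rw [F8_eq]
  have h2 : ((NN D.K1 (s : Fin N → ℂ) ^ 7 : ℝ) : ℂ) ≠ 0 := by
    exact_mod_cast (pow_pos (NN_pos hs) 7).ne'
  exact ⟨fun h => (mul_eq_zero.1 h).resolve_left h2, fun h => by rw [h, mul_zero]⟩

/-- **GL2** -/
theorem gl2 (hS : D.Smooth) (h1 : D.K1Prop) (h2 : D.K2Prop) (hH : HomeoP D) (hC : C2P D)
    (hT : ContP D) (hO : OpenP) : GL2P D := by
  refine LD.Ev.mono (LD.Ev.and hS (LD.Ev.and h1 h2)) fun c g d _ _ hd ⟨hs, hk1, hk2⟩ => ?_
  have e0 : Gx D (Xe d 0) c g = D.G c g d := by rw [Xe_zero]; rfl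
  obtain ⟨hc0, hc1⟩ := hT c g d hd hs
  obtain ⟨η, hη, hz⟩ := hO N (fun η => Gx D (Xe d η) c g)
    (fun η _ r hr z => Gx_smul D _ _ _ hr z)
    (fun η hη => by
      rcases hη.lt_or_eq with h | h
      · exact hC c g d η hd h
      · rw [← h, e0]; exact hs)
    hc0 hc1
    (fun z hz0 hz1 => by
      rw [e0] at hz1 ⊢
      obtain ⟨Y, hY⟩ := hk1 z hz0 (by rw [hz1]; rfl) (by rw [hz1]; exact le_rfl)
      obtain ⟨a, Y', -, ha1, ha2⟩ := hk2 z hz0 hz1
      exact surj_of_two (fderiv ℝ (D.G c g d) z : (Fin N → ℂ) →ₗ[ℝ] ℂ) ha1 ha2 hY)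
  have hz' : ZEq (D.G c g d) (Gx D (Xe d η) c g) := by
    rw [← e0]
    exact hz
  exact (zeq_F8 D c g).trans ((hH _ prf_pow c g).trans ((hH _ (prf_Xe hd hη) c g).symm.trans
    hz'.symm))

end Crest.Agent.R267.Gl2_322
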