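import Crest.Agent.R267.GlSys_842
import Crest.Agent.R267.ClassGF_808
import Crest.Agent.R267.Gl1_322
import Crest.Agent.R267.Gl2_322

/-!
# Row 267 (helper322): S0407 from GL1 (done), GL2 in dimensions `≥ 4` and T3a
(the proof of `sysP3` is helper842's proof of `sysP`)
-/

set_option autoImplicit false
set_option linter.unusedSectionVars false

noncomputable section

open Finset Set Matrix
open Crest.Agent.R267.P4Defs_780 Crest.Agent.R267.ChainPoly_145
open Crest.Agent.R267.T3aDefs_957 Crest.Agent.R267.Hm_951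
open Crest.Agent.R267.Sys_808 Crest.Agent.R267.P413Def_322 Crest.Agent.R267.GS_808
open Crest.Agent.R267.Cone_808 Crest.Agent.R267.DraftB_808 Crest.Agent.R267.TopAsm_808
open Crest.Agent.R267.Asm_808 Crest.Agent.R267.GlueDefs_322


namespace Crest.Agent.R267.Fin407_322

open Crest.Agent.R267.GlSys_842

/-- **SYS** -/
theorem sysP3 (h1 : GL1) (n : ℕ) (h2 : ∀ D : LD (n + 3), GL2P D)
    (h3 : ∀ D : LD (n + 3), T3aP D) : T3Prop n := by
  classical
  refine ⟨1, true, fun C hA hI hN => ?_⟩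
  have hP : ∀ c ∈ C, Pierce c := fun c hc => ⟨(hA c hc).2, hI c hc⟩
  have hS : ∀ c ∈ C, ∀ a ∈ c, 2 ≤ a := fun c hc => (hA c hc).2
  have hcard : Fintype.card (Var C) = n + 3 := (card_Var C).trans hN
  let f : Var C ≃ Fin (n + 3) := Fintype.equivFinOfCardEq hcard
  let D : LD (n + 3) := DS C hS f
  obtain ⟨c0, hc0, H⟩ := (h2 D).and (h3 D)
  obtain ⟨g0, hg0, H⟩ := H (max c0 5) (le_max_left _ _)
  obtain ⟨d0, hd0, H⟩ := H (min g0 (1 / 8)) (lt_min hg0 (by norm_num)) (min_le_left _ _)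
  obtain ⟨hz, m, e, G, hG, hlink⟩ := H d0 hd0 le_rfl
  have hc : (4 : ℝ) < max c0 5 := lt_of_lt_of_le (by norm_num) (le_max_right _ _)
  have hg : (0 : ℝ) < min g0 (1 / 8) := lt_min hg0 (by norm_num)
  have hg' : min g0 (1 / 8) ≤ (1 / 8 : ℝ) := min_le_right _ _
  have hL : ∀ c ∈ C, SEq (chainFun c) (L8 D.K (max c0 5) (min g0 (1 / 8)) c) ∧
      Tame (L8 D.K (max c0 5) (min g0 (1 / 8)) c) := fun c hcC =>
    h1 c (hA c hcC).1 (hP c hcC) D.K (min g0 (1 / 8)) (max c0 5) hg hg' hc (K_bound C hS f c hcC)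
  have hs : SEq (sysFun C) (sysL (L8 D.K (max c0 5) (min g0 (1 / 8))) C) :=
    seq_sysFun hS (fun c hc => (hL c hc).1) fun c hc => (hL c hc).2
  have hz2 : ZEq (sysL (L8 D.K (max c0 5) (min g0 (1 / 8))) C)
      (F8 D.K (max c0 5) (min g0 (1 / 8)) D.M D.C) := by
    refine ⟨sphReindex f, fun s => ?_⟩
    rw [sysL_eq, F8_reindex f]
    exact Iff.rfl
  refine ⟨m, G, _, hG, ((hs.zeq.trans hz2).trans hz).isLink hlink, ?_⟩
  obtain ⟨E, hE⟩ := letters C
  let Θ : {k : Var C → ℕ // LetG (Ms C) (Cs C) k} ≃ {k : Fin (n + 3) → ℕ // D.Let k} :=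
    { toFun := fun k => ⟨fun j => k.1 (f.symm j), (let_DS C hS f _).2 (by
        simpa only [Equiv.symm_apply_apply] using k.2)⟩
      invFun := fun k => ⟨fun v => k.1 (f v), (let_DS C hS f _).1 k.2⟩
      left_inv := fun k => Subtype.ext (by funext v; simp)
      right_inv := fun k => Subtype.ext (by funext v; simp) }
  let e' : Fin m ≃ PSys C := e.trans (E.trans Θ).symm
  have he' : ∀ a, e a = Θ (E (e' a)) := fun a => by
    show e a = (E.trans Θ) ((E.trans Θ).symm (e a))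
    rw [Equiv.apply_symm_apply]
  have h5 : Cong ℤ (sysMat C) (posSys C) := P413_322.p413 hP
  have h6 := Cong.tr h5 1 true
  have h7 : (1 : ℤ) • tr true (posSys C) = (posSys C).transpose := by
    rw [one_smul]; rfl
  rw [h7] at h6
  have h8 : Cong ℤ ((posSys C).transpose) ((posSys C).transpose.submatrix e' e') :=
    T3Asm_322.cong_submatrix _ e'
  have h9 : (posSys C).transpose.submatrix e' e' = Matrix.of fun a b =>
      open Classical in if ∀ j, (e b).1 j ≤ (e a).1 j then (1 : ℤ) else 0 := by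
    ext a b
    show posSys C (e' b) (e' a) = _
    rw [hE, Matrix.of_apply, he', he']
    refine if_congr ?_ rfl rfl
    constructor
    · intro h j
      exact h (f.symm j)
    · intro h v
      have := h (f v)
      simpa [Θ] using this
  rw [h9] at h8
  exact Cong.trans h6 h8

/-- **S0407 from GL2 and T3a**. -/
theorem s0407 (h2 : ∀ n, 1 ≤ n → ∀ D : LD (n + 3), GL2P D)
    (h3 : ∀ n, 1 ≤ n → ∀ D : LD (n + 3), T3aP D) : Asm_808.S0407Stmt :=
  TopAsm_808.stmt_of (fun n hn => sysP3 Gl1_322.gl1 n (h2 n hn) (h3 n hn)) ClassGF_808.classG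

end Crest.Agent.R267.Fin407_322
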