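import Crest.Agent.R267.GlSys_842
import Crest.Agent.R267.ClassGF_808

/-!
# Row 267 (helper842): S0407 from GL1, GL2 and T3a
-/

set_option autoImplicit false

namespace Crest.Agent.R267.Fin407_842

open Crest.Agent.R267.T3aDefs_957 Crest.Agent.R267.GlueDefs_322 Crest.Agent.R267.Asm_808
open Crest.Agent.R267.TopAsm_808

/-- **S0407 from one chain (GL1), the system (GL2) and T3a.** -/
theorem s0407 (h1 : GL1) (h2 : ∀ (N : ℕ) (D : LD N), GL2P D)
    (h3 : ∀ (n : ℕ), 1 ≤ n → ∀ D : LD (n + 3), T3aP D) : S0407Stmt :=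
  stmt_of (GlSys_842.sysP h1 h2 h3) ClassGF_808.classG

end Crest.Agent.R267.Fin407_842
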