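import Mathlib

/-!
# Row 267 (helper363): flow-line lemma, topological part

A flow `φ` on a compact Hausdorff space `X`, an invariant function `c`, and two continuous functions
`g, h` such that over `{|c| ≤ δ}` the sets `{g ≥ 0} ⊇ {h ≥ 0}` are strictly forward invariant and
`φ_T {g ≥ 0} ⊆ {h ≥ 0}`. Then a homeomorphism of `X`, which preserves `c` and is the identity on
`{|c| ≥ δ}`, carries `{c = 0, g = 0}` to `{c = 0, h = 0}` and `{c = 0, g > 0}` to
`{c = 0, h > 0}`.
-/

set_option autoImplicit false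
set_option linter.unusedSectionVars false
set_option linter.unusedVariables false

noncomputable section

open Set Filter Topology

namespace Crest.Agent.R267.FlTop_363

/-! ### the tent reparametrisation of the line -/

/-- the shift `ψ_D(u) - u` -/
def sh (D u : ℝ) : ℝ := D * max 0 (min (u + 1) (1 - u / (D + 1)))

/-- the shift of the inverse -/
def shi (D v : ℝ) : ℝ := D * max 0 (min ((v + 1) / (D + 1)) (D + 1 - v))

theorem sh_nonneg {D : ℝ} (hD : 0 ≤ D) (u : ℝ) : 0 ≤ sh D u := mul_nonneg hD (le_max_left _ _)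

theorem sh_le {D : ℝ} (hD : 0 ≤ D) (u : ℝ) : sh D u ≤ D := by
  unfold sh
  have h1 : max 0 (min (u + 1) (1 - u / (D + 1))) ≤ 1 := by
    refine max_le zero_le_one ?_
    by_cases hu : u ≤ 0
    · exact (min_le_left _ _).trans (by linarith)
    · refine (min_le_right _ _).trans ?_
      have : 0 ≤ u / (D + 1) := div_nonneg (by linarith) (by linarith)
      linarith
  calc D * max 0 (min (u + 1) (1 - u / (D + 1))) ≤ D * 1 := mul_le_mul_of_nonneg_left h1 hD
    _ = D := mul_one D

theorem sh_zero (u : ℝ) : sh 0 u = 0 := by simp [sh]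

theorem sh_of_le {D u : ℝ} (hu : u ≤ -1) : sh D u = 0 := by
  unfold sh
  rw [max_eq_left, mul_zero]
  exact (min_le_left _ _).trans (by linarith)

theorem sh_of_ge {D u : ℝ} (hD : 0 ≤ D) (hu : D + 1 ≤ u) : sh D u = 0 := by
  unfold sh
  rw [max_eq_left, mul_zero]
  refine (min_le_right _ _).trans ?_
  have h1 : 1 ≤ u / (D + 1) := by
    rw [le_div_iff₀ (by linarith)]
    linarith
  linarith

theorem sh_of_mem1 {D u : ℝ} (hD : 0 ≤ D) (h1 : -1 ≤ u) (h2 : u ≤ 0) : sh D u = D * (u + 1) := by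
  unfold sh
  have h3 : min (u + 1) (1 - u / (D + 1)) = u + 1 := by
    refine min_eq_left ?_
    have : u / (D + 1) ≤ 0 := div_nonpos_of_nonpos_of_nonneg h2 (by linarith)
    linarith
  rw [h3, max_eq_right (by linarith)]

theorem sh_of_mem2 {D u : ℝ} (hD : 0 ≤ D) (h1 : 0 ≤ u) (h2 : u ≤ D + 1) :
    sh D u = D * (1 - u / (D + 1)) := by
  unfold sh
  have h3 : min (u + 1) (1 - u / (D + 1)) = 1 - u / (D + 1) := by
    refine min_eq_right ?_
    have : 0 ≤ u / (D + 1) := div_nonneg h1 (by linarith)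
    linarith
  rw [h3, max_eq_right]
  have : u / (D + 1) ≤ 1 := by
    rw [div_le_one (by linarith)]
    exact h2
  linarith

theorem shi_of_le {D v : ℝ} (hD : 0 ≤ D) (hv : v ≤ -1) : shi D v = 0 := by
  unfold shi
  rw [max_eq_left, mul_zero]
  exact (min_le_left _ _).trans (div_nonpos_of_nonpos_of_nonneg (by linarith) (by linarith))

theorem shi_of_ge {D v : ℝ} (hv : D + 1 ≤ v) : shi D v = 0 := by
  unfold shi
  rw [max_eq_left, mul_zero]
  exact (min_le_right _ _).trans (by linarith)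

theorem shi_of_mem1 {D v : ℝ} (hD : 0 ≤ D) (h1 : -1 ≤ v) (h2 : v ≤ D) :
    shi D v = D * ((v + 1) / (D + 1)) := by
  unfold shi
  have h3 : min ((v + 1) / (D + 1)) (D + 1 - v) = (v + 1) / (D + 1) := by
    refine min_eq_left ?_
    rw [div_le_iff₀ (by linarith)]
    nlinarith
  rw [h3, max_eq_right (div_nonneg (by linarith) (by linarith))]

theorem shi_of_mem2 {D v : ℝ} (hD : 0 ≤ D) (h1 : D ≤ v) (h2 : v ≤ D + 1) :
    shi D v = D * (D + 1 - v) := by
  unfold shi
  have h3 : min ((v + 1) / (D + 1)) (D + 1 - v) = D + 1 - v := by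
    refine min_eq_right ?_
    rw [le_div_iff₀ (by linarith)]
    nlinarith
  rw [h3, max_eq_right (by linarith)]

/-- `ψ_D^{-1} (ψ_D u) = u` -/
theorem sub_shi {D : ℝ} (hD : 0 ≤ D) (u : ℝ) : u + sh D u - shi D (u + sh D u) = u := by
  have hD1 : D + 1 ≠ 0 := by linarith
  rcases le_total u (-1) with h1 | h1
  · rw [sh_of_le h1, add_zero, shi_of_le hD h1, sub_zero]
  rcases le_total u 0 with h2 | h2
  · rw [sh_of_mem1 hD h1 h2, shi_of_mem1 hD (by nlinarith) (by nlinarith)]
    field_simp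
    ring
  rcases le_total u (D + 1) with h3 | h3
  · have h4 : u / (D + 1) ≤ 1 := by
      rw [div_le_one (by linarith)]
      exact h3
    have h5 : u / (D + 1) * (D + 1) = u := div_mul_cancel₀ u hD1
    have h6 : 0 ≤ u / (D + 1) := div_nonneg h2 (by linarith)
    have h7 : u + D * (1 - u / (D + 1)) = D + u / (D + 1) := by
      have : u = u / (D + 1) * (D + 1) := h5.symm
      linear_combination this
    rw [sh_of_mem2 hD h2 h3, h7, shi_of_mem2 hD (by linarith) (by linarith)]
    linear_combination h5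
  · rw [sh_of_ge hD h3, add_zero, shi_of_ge h3, sub_zero]

/-- `ψ_D (ψ_D^{-1} v) = v` -/
theorem add_sh {D : ℝ} (hD : 0 ≤ D) (v : ℝ) : v - shi D v + sh D (v - shi D v) = v := by
  have hD1 : D + 1 ≠ 0 := by linarith
  rcases le_total v (-1) with h1 | h1
  · rw [shi_of_le hD h1, sub_zero, sh_of_le h1, add_zero]
  rcases le_total v D with h2 | h2
  · have h5 : (v + 1) / (D + 1) * (D + 1) = v + 1 := div_mul_cancel₀ _ hD1
    have h6 : 0 ≤ (v + 1) / (D + 1) := div_nonneg (by linarith) (by linarith)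
    have h4 : (v + 1) / (D + 1) ≤ 1 := by
      rw [div_le_one (by linarith)]
      linarith
    have h7 : v - D * ((v + 1) / (D + 1)) = -1 + (v + 1) / (D + 1) := by linear_combination -h5
    rw [shi_of_mem1 hD h1 h2, h7, sh_of_mem1 hD (by linarith) (by linarith)]
    linear_combination h5
  rcases le_total v (D + 1) with h3 | h3
  · have h7 : v - D * (D + 1 - v) = (v - D) * (D + 1) := by ring
    rw [shi_of_mem2 hD h2 h3, h7, sh_of_mem2 hD (mul_nonneg (by linarith) (by linarith))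
      (by nlinarith)]
    rw [mul_div_cancel_right₀ _ hD1]
    ring
  · rw [shi_of_ge h3, sub_zero, sh_of_ge hD h3, add_zero]

/-- `ψ_D(u) - D` has the sign of `u` -/
theorem add_sh_lt_iff {D : ℝ} (hD : 0 ≤ D) (u : ℝ) : D < u + sh D u ↔ 0 < u := by
  rcases le_total u (-1) with h1 | h1
  · rw [sh_of_le h1]
    constructor <;> intro h <;> linarith
  rcases le_total u 0 with h2 | h2
  · rw [sh_of_mem1 hD h1 h2]
    constructor
    · intro h; nlinarith
    · intro h; nlinarith
  rcases le_total u (D + 1) with h3 | h3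
  · have h5 : u / (D + 1) * (D + 1) = u := div_mul_cancel₀ u (by linarith)
    rw [sh_of_mem2 hD h2 h3]
    have h7 : u + D * (1 - u / (D + 1)) = D + u / (D + 1) := by linear_combination -h5
    rw [h7]
    constructor
    · intro h
      have : 0 < u / (D + 1) := by linarith
      exact (div_pos_iff_of_pos_right (by linarith)).1 this
    · intro h
      have : 0 < u / (D + 1) := div_pos h (by linarith)
      linarith
  · rw [sh_of_ge hD h3]
    constructor <;> intro h <;> linarith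

theorem add_sh_eq_iff {D : ℝ} (hD : 0 ≤ D) (u : ℝ) : u + sh D u = D ↔ u = 0 := by
  constructor
  · intro h
    have h1 : sh D 0 = D := by rw [sh_of_mem1 hD (by norm_num) le_rfl]; ring
    have h2 := sub_shi hD u
    have h3 := sub_shi hD 0
    rw [h1, zero_add] at h3
    rw [h, h3] at h2
    exact h2.symm
  · rintro rfl
    rw [sh_of_mem1 hD (by norm_num) le_rfl]
    ring

theorem continuousOn_sh : ContinuousOn (fun p : ℝ × ℝ => sh p.1 p.2) {p | 0 ≤ p.1} := by
  unfold sh
  refine continuousOn_fst.mul (continuousOn_const.sup (ContinuousOn.inf (by fun_prop) ?_))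
  refine continuousOn_const.sub (continuousOn_snd.div (by fun_prop) fun p hp => ?_)
  have : (0 : ℝ) ≤ p.1 := hp
  linarith

/-! ### the flow-line lemma -/

section Top

variable {X : Type*} [TopologicalSpace X] [CompactSpace X] [T2Space X]

/-- hypotheses of the flow-line lemma -/
structure FL (φ : ℝ → X → X) (c g h : X → ℝ) (δ T : ℝ) : Prop where
  cφ : Continuous fun p : ℝ × X => φ p.1 p.2
  φ0 : ∀ x, φ 0 x = x
  φa : ∀ s t x, φ (s + t) x = φ s (φ t x)
  cc : Continuous c
  cg : Continuous g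
  ch : Continuous h
  inv : ∀ t x, c (φ t x) = c x
  hδ : 0 < δ
  hT : 0 ≤ T
  fg : ∀ x, |c x| ≤ δ → 0 ≤ g x → ∀ t, 0 < t → 0 < g (φ t x)
  fh : ∀ x, |c x| ≤ δ → 0 ≤ h x → ∀ t, 0 < t → 0 < h (φ t x)
  hg : ∀ x, |c x| ≤ δ → 0 ≤ h x → 0 ≤ g x
  gh : ∀ x, |c x| ≤ δ → 0 ≤ g x → 0 ≤ h (φ T x)

namespace FL

variable {φ : ℝ → X → X} {c g h : X → ℝ} {δ T : ℝ}

/-- points whose orbit meets `g = 0` -/
def W (φ : ℝ → X → X) (c g : X → ℝ) (δ : ℝ) : Set X := {x | |c x| ≤ δ ∧ ∃ t, g (φ t x) = 0}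

theorem cφx (H : FL φ c g h δ T) (x : X) : Continuous fun t => φ t x :=
  H.cφ.comp (by fun_prop : Continuous fun t : ℝ => (t, x))

theorem cφt (H : FL φ c g h δ T) (t : ℝ) : Continuous (φ t) :=
  H.cφ.comp (by fun_prop : Continuous fun x : X => (t, x))

theorem φneg (H : FL φ c g h δ T) (t : ℝ) (x : X) : φ (-t) (φ t x) = x := by
  rw [← H.φa, neg_add_cancel, H.φ0]

/-- sign of `g` along an orbit -/
theorem g_pos (H : FL φ c g h δ T) {x : X} (hx : |c x| ≤ δ) {s t : ℝ} (hs : 0 ≤ g (φ s x))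
    (hst : s < t) : 0 < g (φ t x) := by
  have h1 := H.fg (φ s x) (by rwa [H.inv]) hs (t - s) (by linarith)
  rwa [← H.φa, sub_add_cancel] at h1

theorem h_pos (H : FL φ c g h δ T) {x : X} (hx : |c x| ≤ δ) {s t : ℝ} (hs : 0 ≤ h (φ s x))
    (hst : s < t) : 0 < h (φ t x) := by
  have h1 := H.fh (φ s x) (by rwa [H.inv]) hs (t - s) (by linarith)
  rwa [← H.φa, sub_add_cancel] at h1

theorem g_neg (H : FL φ c g h δ T) {x : X} (hx : |c x| ≤ δ) {s t : ℝ} (hs : g (φ s x) ≤ 0)
    (hst : t < s) : g (φ t x) < 0 := by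
  by_contra h1
  exact absurd (H.g_pos hx (not_lt.1 h1) hst) (not_lt.2 hs)

theorem h_neg (H : FL φ c g h δ T) {x : X} (hx : |c x| ≤ δ) {s t : ℝ} (hs : h (φ s x) ≤ 0)
    (hst : t < s) : h (φ t x) < 0 := by
  by_contra h1
  exact absurd (H.h_pos hx (not_lt.1 h1) hst) (not_lt.2 hs)

/-- the time at which the orbit meets `g = 0` -/
def τ (φ : ℝ → X → X) (g : X → ℝ) (x : X) : ℝ :=
  open Classical in if h : ∃ t, g (φ t x) = 0 then h.choose else 0

theorem τ_spec {x : X} (hx : ∃ t, g (φ t x) = 0) : g (φ (τ φ g x) x) = 0 := by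
  unfold τ
  rw [dif_pos hx]
  exact hx.choose_spec

theorem exists_h (H : FL φ c g h δ T) {x : X} (hx : x ∈ W φ c g δ) : ∃ t, h (φ t x) = 0 := by
  obtain ⟨hc, t, ht⟩ := hx
  have h1 : h (φ (t - 1) x) ≤ 0 := by
    by_contra h2
    have h3 := H.hg (φ (t - 1) x) (by rwa [H.inv]) (not_le.1 h2).le
    exact absurd h3 (not_le.2 (H.g_neg hc ht.le (by linarith)))
  have h2 : 0 ≤ h (φ (T + t) x) := by
    rw [H.φa]
    exact H.gh _ (by rwa [H.inv]) ht.ge
  have h3 : Continuous fun s => h (φ s x) := H.ch.comp (H.cφx x)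
  obtain ⟨s, -, hs⟩ := intermediate_value_Icc (by linarith [H.hT] : t - 1 ≤ T + t) h3.continuousOn
    ⟨h1, h2⟩
  exact ⟨s, hs⟩

theorem τ_eq (H : FL φ c g h δ T) {x : X} (hx : |c x| ≤ δ) {t : ℝ} (ht : g (φ t x) = 0) :
    τ φ g x = t := by
  have h1 := τ_spec (φ := φ) ⟨t, ht⟩
  rcases lt_trichotomy (τ φ g x) t with h2 | h2 | h2
  · exact absurd (H.g_pos hx h1.ge h2) (by rw [ht]; exact lt_irrefl _)
  · exact h2
  · exact absurd (H.g_pos hx ht.ge h2) (by rw [h1]; exact lt_irrefl _)

theorem τ'_eq (H : FL φ c g h δ T) {x : X} (hx : |c x| ≤ δ) {t : ℝ} (ht : h (φ t x) = 0) :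
    τ φ h x = t := by
  have h1 := τ_spec (φ := φ) ⟨t, ht⟩
  rcases lt_trichotomy (τ φ h x) t with h2 | h2 | h2
  · exact absurd (H.h_pos hx h1.ge h2) (by rw [ht]; exact lt_irrefl _)
  · exact h2
  · exact absurd (H.h_pos hx ht.ge h2) (by rw [h1]; exact lt_irrefl _)

theorem le_τ' (H : FL φ c g h δ T) {x : X} (hx : x ∈ W φ c g δ) : τ φ g x ≤ τ φ h x := by
  by_contra h1
  have h2 := τ_spec (H.exists_h hx)
  have h3 := H.hg (φ (τ φ h x) x) (by rw [H.inv]; exact hx.1) h2.ge
  exact absurd h3 (not_le.2 (H.g_neg hx.1 (τ_spec hx.2).le (not_le.1 h1)))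

theorem τ'_le (H : FL φ c g h δ T) {x : X} (hx : x ∈ W φ c g δ) : τ φ h x ≤ τ φ g x + T := by
  by_contra h1
  have h2 := τ_spec (H.exists_h hx)
  have h3 : 0 ≤ h (φ (T + τ φ g x) x) := by
    rw [H.φa]
    exact H.gh _ (by rw [H.inv]; exact hx.1) (τ_spec hx.2).ge
  have h4 := H.h_neg hx.1 h2.le (by linarith [not_le.1 h1] : T + τ φ g x < τ φ h x)
  linarith

theorem τ_flow (H : FL φ c g h δ T) {x : X} (hx : x ∈ W φ c g δ) (s : ℝ) :
    φ s x ∈ W φ c g δ ∧ τ φ g (φ s x) = τ φ g x - s ∧ τ φ h (φ s x) = τ φ h x - s := by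
  have h1 : g (φ (τ φ g x - s) (φ s x)) = 0 := by
    rw [← H.φa, sub_add_cancel]
    exact τ_spec hx.2
  have h2 : h (φ (τ φ h x - s) (φ s x)) = 0 := by
    rw [← H.φa, sub_add_cancel]
    exact τ_spec (H.exists_h hx)
  have h3 : |c (φ s x)| ≤ δ := by rw [H.inv]; exact hx.1
  exact ⟨⟨h3, _, h1⟩, H.τ_eq h3 h1, H.τ'_eq h3 h2⟩

/-- nearby points of `{|c| ≤ δ}` are in `W`, and `τ` is continuous -/
theorem near_τ (H : FL φ c g h δ T) {x : X} (hx : x ∈ W φ c g δ) {ε : ℝ} (hε : 0 < ε) :
    ∀ᶠ y in 𝓝 x, |c y| ≤ δ → y ∈ W φ c g δ ∧ |τ φ g y - τ φ g x| < ε := by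
  have h1 : g (φ (τ φ g x - ε / 2) x) < 0 := H.g_neg hx.1 (τ_spec hx.2).le (by linarith)
  have h2 : 0 < g (φ (τ φ g x + ε / 2) x) := H.g_pos hx.1 (τ_spec hx.2).ge (by linarith)
  have c1 : Continuous fun y => g (φ (τ φ g x - ε / 2) y) := H.cg.comp (H.cφt _)
  have c2 : Continuous fun y => g (φ (τ φ g x + ε / 2) y) := H.cg.comp (H.cφt _)
  filter_upwards [c1.continuousAt.eventually_lt continuousAt_const h1,
    continuousAt_const.eventually_lt c2.continuousAt h2] with y hy1 hy2 hc
  have h3 : Continuous fun s => g (φ s y) := H.cg.comp (H.cφx y)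
  obtain ⟨s, hs1, hs2⟩ := intermediate_value_Icc
    (by linarith : τ φ g x - ε / 2 ≤ τ φ g x + ε / 2) h3.continuousOn ⟨hy1.le, hy2.le⟩
  refine ⟨⟨hc, s, hs2⟩, ?_⟩
  rw [H.τ_eq hc hs2, abs_lt]
  constructor <;> linarith [hs1.1, hs1.2]

theorem near_τ' (H : FL φ c g h δ T) {x : X} (hx : x ∈ W φ c g δ) {ε : ℝ} (hε : 0 < ε) :
    ∀ᶠ y in 𝓝 x, |c y| ≤ δ → |τ φ h y - τ φ h x| < ε := by
  have h0 := τ_spec (H.exists_h hx)
  have h1 : h (φ (τ φ h x - ε / 2) x) < 0 := H.h_neg hx.1 h0.le (by linarith)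
  have h2 : 0 < h (φ (τ φ h x + ε / 2) x) := H.h_pos hx.1 h0.ge (by linarith)
  have c1 : Continuous fun y => h (φ (τ φ h x - ε / 2) y) := H.ch.comp (H.cφt _)
  have c2 : Continuous fun y => h (φ (τ φ h x + ε / 2) y) := H.ch.comp (H.cφt _)
  filter_upwards [c1.continuousAt.eventually_lt continuousAt_const h1,
    continuousAt_const.eventually_lt c2.continuousAt h2] with y hy1 hy2 hc
  have h3 : Continuous fun s => h (φ s y) := H.ch.comp (H.cφx y)
  obtain ⟨s, hs1, hs2⟩ := intermediate_value_Icc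
    (by linarith : τ φ h x - ε / 2 ≤ τ φ h x + ε / 2) h3.continuousOn ⟨hy1.le, hy2.le⟩
  rw [H.τ'_eq hc hs2, abs_lt]
  constructor <;> linarith [hs1.1, hs1.2]

/-- the parameter `D` -/
def DD (φ : ℝ → X → X) (c g h : X → ℝ) (δ : ℝ) (x : X) : ℝ :=
  max 0 (1 - |c x| / δ) * (τ φ h x - τ φ g x)

theorem DD_nonneg (H : FL φ c g h δ T) {x : X} (hx : x ∈ W φ c g δ) : 0 ≤ DD φ c g h δ x :=
  mul_nonneg (le_max_left _ _) (by linarith [H.le_τ' hx])

theorem DD_le (H : FL φ c g h δ T) {x : X} (hx : x ∈ W φ c g δ) : DD φ c g h δ x ≤ T := by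
  have h1 : max 0 (1 - |c x| / δ) ≤ 1 := by
    refine max_le zero_le_one ?_
    have : 0 ≤ |c x| / δ := div_nonneg (abs_nonneg _) H.hδ.le
    linarith
  have h2 := H.le_τ' hx
  have h3 := H.τ'_le hx
  calc DD φ c g h δ x ≤ 1 * (τ φ h x - τ φ g x) :=
        mul_le_mul_of_nonneg_right h1 (by linarith)
    _ ≤ T := by linarith

theorem DD_flow (H : FL φ c g h δ T) {x : X} (hx : x ∈ W φ c g δ) (s : ℝ) :
    DD φ c g h δ (φ s x) = DD φ c g h δ x := by
  obtain ⟨-, h1, h2⟩ := H.τ_flow hx s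
  unfold DD
  rw [H.inv, h1, h2]
  ring

theorem DD_of_zero (H : FL φ c g h δ T) {x : X} (hx : c x = 0) :
    DD φ c g h δ x = τ φ h x - τ φ g x := by
  unfold DD
  rw [hx]
  simp

open Classical in
/-- the time for which `x` is moved -/
def S (φ : ℝ → X → X) (c g h : X → ℝ) (δ : ℝ) (x : X) : ℝ :=
  if x ∈ W φ c g δ then sh (DD φ c g h δ x) (-τ φ g x) else 0

open Classical in
/-- the time of the inverse -/
def Si (φ : ℝ → X → X) (c g h : X → ℝ) (δ : ℝ) (x : X) : ℝ :=
  if x ∈ W φ c g δ then shi (DD φ c g h δ x) (-τ φ g x) else 0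

theorem continuous_S (H : FL φ c g h δ T) : Continuous (S φ c g h δ) := by
  rw [continuous_iff_continuousAt]
  intro x
  by_cases hxW : x ∈ W φ c g δ
  · -- points of `W`
    have hb : Continuous fun y => max 0 (1 - |c y| / δ) := by
      have := H.cc
      fun_prop
    by_cases hcx : |c x| = δ
    · -- boundary: `S` is small
      have hS0 : S φ c g h δ x = 0 := by
        unfold S
        rw [if_pos hxW]
        have : DD φ c g h δ x = 0 := by
          unfold DD
          rw [hcx, div_self H.hδ.ne']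
          simp
        rw [this, sh_zero]
      unfold ContinuousAt
      rw [hS0]
      have h1 : Tendsto (fun y => max 0 (1 - |c y| / δ) * T) (𝓝 x) (𝓝 0) := by
        have h2 : Tendsto (fun y => max 0 (1 - |c y| / δ) * T) (𝓝 x)
            (𝓝 (max 0 (1 - |c x| / δ) * T)) := (hb.mul continuous_const).continuousAt
        rw [hcx, div_self H.hδ.ne'] at h2
        simpa using h2
      refine squeeze_zero (fun y => ?_) (fun y => ?_) h1
      · unfold S
        split_ifs with hy
        · exact sh_nonneg (H.DD_nonneg hy) _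
        · exact le_rfl
      · unfold S
        split_ifs with hy
        · refine (sh_le (H.DD_nonneg hy) _).trans ?_
          exact mul_le_mul_of_nonneg_left (by linarith [H.τ'_le hy]) (le_max_left _ _)
        · exact mul_nonneg (le_max_left _ _) H.hT
    · -- interior
      have hlt : |c x| < δ := lt_of_le_of_ne hxW.1 hcx
      have hev : ∀ᶠ y in 𝓝 x, |c y| < δ := H.cc.abs.continuousAt.eventually_lt continuousAt_const hlt
      have hW : ∀ᶠ y in 𝓝 x, y ∈ W φ c g δ := by
        filter_upwards [hev, H.near_τ hxW one_pos] with y h1 h2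
        exact (h2 h1.le).1
      have t1 : ContinuousAt (τ φ g) x := by
        rw [Metric.continuousAt_iff']
        intro ε hε
        filter_upwards [hev, H.near_τ hxW hε] with y h1 h2
        exact (h2 h1.le).2
      have t2 : ContinuousAt (τ φ h) x := by
        rw [Metric.continuousAt_iff']
        intro ε hε
        filter_upwards [hev, H.near_τ' hxW hε] with y h1 h2
        exact h2 h1.le
      have t3 : ContinuousAt (DD φ c g h δ) x := hb.continuousAt.mul (t2.sub t1)
      have t4 : ContinuousAt (fun y => (DD φ c g h δ y, -τ φ g y)) x := t3.prodMk t1.neg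
      have t5 : Tendsto (fun y => (DD φ c g h δ y, -τ φ g y)) (𝓝 x)
          (𝓝[{p | 0 ≤ p.1}] (DD φ c g h δ x, -τ φ g x)) := by
        refine tendsto_nhdsWithin_iff.2 ⟨t4, ?_⟩
        filter_upwards [hW] with y hy
        exact H.DD_nonneg hy
      have t6 := (continuousOn_sh (DD φ c g h δ x, -τ φ g x) (H.DD_nonneg hxW)).tendsto.comp t5
      have t7 : S φ c g h δ x = sh (DD φ c g h δ x) (-τ φ g x) := by
        unfold S
        rw [if_pos hxW]
      unfold ContinuousAt
      rw [t7]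
      refine t6.congr' ?_
      filter_upwards [hW] with y hy
      show sh (DD φ c g h δ y) (-τ φ g y) = S φ c g h δ y
      unfold S
      rw [if_pos hy]
  · -- points outside `W`
    let Z : Set X := {y | |c y| ≤ δ ∧ ∃ t ∈ Icc (-1 : ℝ) (T + 1), g (φ (-t) y) = 0}
    have hZ : IsClosed Z := by
      have h1 : IsClosed {y : X | |c y| ≤ δ} := isClosed_le H.cc.abs continuous_const
      have h2 : IsClosed {p : ℝ × X | p.1 ∈ Icc (-1 : ℝ) (T + 1) ∧ g (φ (-p.1) p.2) = 0} := by
        refine (isClosed_Icc.preimage continuous_fst).inter (isClosed_eq ?_ continuous_const)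
        exact H.cg.comp (H.cφ.comp (by fun_prop : Continuous fun p : ℝ × X => (-p.1, p.2)))
      have h3 : IsCompact {p : ℝ × X | p.1 ∈ Icc (-1 : ℝ) (T + 1) ∧ g (φ (-p.1) p.2) = 0} :=
        (isCompact_Icc.prod isCompact_univ).of_isClosed_subset h2 fun p hp =>
          ⟨hp.1, mem_univ _⟩
      have h4 := (h3.image (continuous_snd : Continuous fun p : ℝ × X => p.2)).isClosed
      have h5 : Z = {y : X | |c y| ≤ δ} ∩
          Prod.snd '' {p : ℝ × X | p.1 ∈ Icc (-1 : ℝ) (T + 1) ∧ g (φ (-p.1) p.2) = 0} := by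
        ext y
        constructor
        · rintro ⟨hy, t, ht, hg⟩
          exact ⟨hy, (t, y), ⟨ht, hg⟩, rfl⟩
        · rintro ⟨hy, ⟨t, y'⟩, ⟨ht, hg⟩, rfl⟩
          exact ⟨hy, t, ht, hg⟩
      rw [h5]
      exact h1.inter h4
    have hx : x ∉ Z := by
      rintro ⟨hc, t, -, ht⟩
      exact hxW ⟨hc, _, ht⟩
    have hSx : S φ c g h δ x = 0 := by
      unfold S
      rw [if_neg hxW]
    unfold ContinuousAt
    rw [hSx]
    refine tendsto_const_nhds.congr' ?_
    filter_upwards [hZ.isOpen_compl.mem_nhds hx] with y hy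
    by_contra hne
    have hne' : S φ c g h δ y ≠ 0 := fun h => hne h.symm
    apply hy
    unfold S at hne'
    split_ifs at hne' with hyW
    · refine ⟨hyW.1, -τ φ g y, ⟨?_, ?_⟩, by rw [neg_neg]; exact τ_spec hyW.2⟩
      · by_contra h1
        exact hne' (sh_of_le (not_le.1 h1).le)
      · by_contra h1
        exact hne' (sh_of_ge (H.DD_nonneg hyW) (by linarith [H.DD_le hyW, not_le.1 h1]))
    · exact absurd rfl hne'

/-- **the flow-line lemma** -/
theorem exists_homeo (H : FL φ c g h δ T) :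
    ∃ F : X ≃ₜ X, (∀ x, δ ≤ |c x| → F x = x) ∧ (∀ x, c (F x) = c x) ∧
      ∀ x, c x = 0 → (0 < h (F x) ↔ 0 < g x) ∧ (h (F x) = 0 ↔ g x = 0) := by
  have hnW : ∀ {x : X} (s : ℝ), x ∉ W φ c g δ → φ s x ∉ W φ c g δ := by
    intro x s hx h1
    apply hx
    have := (H.τ_flow h1 (-s)).1
    rwa [H.φneg] at this
  let F : X → X := fun x => φ (S φ c g h δ x) x
  let Fi : X → X := fun x => φ (-(Si φ c g h δ x)) x
  have hS : ∀ {x : X}, x ∈ W φ c g δ → S φ c g h δ x = sh (DD φ c g h δ x) (-τ φ g x) :=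
    fun hx => if_pos hx
  have hSi : ∀ {x : X}, x ∈ W φ c g δ → Si φ c g h δ x = shi (DD φ c g h δ x) (-τ φ g x) :=
    fun hx => if_pos hx
  have hS' : ∀ {x : X}, x ∉ W φ c g δ → S φ c g h δ x = 0 := fun hx => if_neg hx
  have hSi' : ∀ {x : X}, x ∉ W φ c g δ → Si φ c g h δ x = 0 := fun hx => if_neg hx
  have hl : ∀ x, Fi (F x) = x := by
    intro x
    show φ (-(Si φ c g h δ (φ (S φ c g h δ x) x))) (φ (S φ c g h δ x) x) = x
    by_cases hx : x ∈ W φ c g δ
    · obtain ⟨h1, h2, -⟩ := H.τ_flow hx (S φ c g h δ x)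
      rw [hSi h1, H.DD_flow hx, h2, hS hx, ← H.φa]
      have h3 := sub_shi (H.DD_nonneg hx) (-τ φ g x)
      have h4 : -(τ φ g x - sh (DD φ c g h δ x) (-τ φ g x)) =
          -τ φ g x + sh (DD φ c g h δ x) (-τ φ g x) := by ring
      rw [h4]
      have h5 : -(shi (DD φ c g h δ x) (-τ φ g x + sh (DD φ c g h δ x) (-τ φ g x))) +
          sh (DD φ c g h δ x) (-τ φ g x) = 0 := by linarith
      rw [h5, H.φ0]
    · have h1 := hnW (S φ c g h δ x) hx
      rw [hSi' h1, hS' hx, neg_zero, H.φ0, H.φ0]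
  have hr : ∀ x, F (Fi x) = x := by
    intro x
    show φ (S φ c g h δ (φ (-(Si φ c g h δ x)) x)) (φ (-(Si φ c g h δ x)) x) = x
    by_cases hx : x ∈ W φ c g δ
    · obtain ⟨h1, h2, -⟩ := H.τ_flow hx (-(Si φ c g h δ x))
      rw [hS h1, H.DD_flow hx, h2, hSi hx, ← H.φa]
      have h3 := add_sh (H.DD_nonneg hx) (-τ φ g x)
      have h4 : -(τ φ g x - -(shi (DD φ c g h δ x) (-τ φ g x))) =
          -τ φ g x - shi (DD φ c g h δ x) (-τ φ g x) := by ring
      rw [h4]
      have h5 : sh (DD φ c g h δ x) (-τ φ g x - shi (DD φ c g h δ x) (-τ φ g x)) +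
          -(shi (DD φ c g h δ x) (-τ φ g x)) = 0 := by linarith
      rw [h5, H.φ0]
    · have h1 := hnW (-(Si φ c g h δ x)) hx
      rw [hS' h1, hSi' hx, neg_zero, H.φ0, H.φ0]
  have hFc : Continuous F :=
    H.cφ.comp (H.continuous_S.prodMk continuous_id : Continuous fun x => (S φ c g h δ x, x))
  let e : X ≃ X := ⟨F, Fi, hl, hr⟩
  refine ⟨Continuous.homeoOfEquivCompactToT2 (f := e) hFc, fun x hx => ?_, fun x => H.inv _ _,
    fun x hx => ?_⟩
  · show φ (S φ c g h δ x) x = x
    have : S φ c g h δ x = 0 := by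
      by_cases hxW : x ∈ W φ c g δ
      · rw [hS hxW]
        have h1 : DD φ c g h δ x = 0 := by
          unfold DD
          have : 1 - |c x| / δ ≤ 0 := by
            have : 1 ≤ |c x| / δ := by
              rw [le_div_iff₀ H.hδ]
              linarith
            linarith
          rw [max_eq_left this, zero_mul]
        rw [h1, sh_zero]
      · exact hS' hxW
    rw [this, H.φ0]
  · show (0 < h (φ (S φ c g h δ x) x) ↔ 0 < g x) ∧ (h (φ (S φ c g h δ x) x) = 0 ↔ g x = 0)
    have hcx : |c x| ≤ δ := by rw [hx, abs_zero]; exact H.hδ.le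
    have key : ∀ y : X, |c y| ≤ δ → y ∉ W φ c g δ → (0 < h y ↔ 0 < g y) ∧ (h y ≠ 0) ∧ g y ≠ 0 := by
      intro y hy hyW
      have g0 : ∀ t, g (φ t y) ≠ 0 := fun t ht => hyW ⟨hy, t, ht⟩
      have gy : g y ≠ 0 := by have := g0 0; rwa [H.φ0] at this
      have cont : Continuous fun t => g (φ t y) := H.cg.comp (H.cφx y)
      have sgn : 0 < g y → ∀ t, 0 < g (φ t y) := by
        intro h1 t
        by_contra h2
        rcases lt_or_gt_of_ne (g0 t) with h3 | h3
        · have h4 : 0 < g (φ 0 y) := by rwa [H.φ0]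
          obtain ⟨s, hs⟩ := mem_range_of_exists_le_of_exists_ge cont ⟨t, h3.le⟩ ⟨0, h4.le⟩
          exact g0 s hs
        · exact h2 h3
      have hy1 : 0 < g y → 0 < h y := by
        intro h1
        have h2 := H.gh (φ (-T - 1) y) (by rwa [H.inv]) (sgn h1 _).le
        rw [← H.φa] at h2
        have h3 := H.h_pos hy h2 (by linarith : T + (-T - 1) < 0)
        rwa [H.φ0] at h3
      have hy2 : 0 ≤ h y → 0 < g y := fun h1 =>
        lt_of_le_of_ne (H.hg y hy h1) (Ne.symm gy)
      refine ⟨⟨fun h1 => hy2 h1.le, hy1⟩, fun h1 => ?_, gy⟩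
      have := hy1 (hy2 h1.ge)
      linarith
    by_cases hxW : x ∈ W φ c g δ
    · obtain ⟨h1, h2, h3⟩ := H.τ_flow hxW (S φ c g h δ x)
      set y := φ (S φ c g h δ x) x with hy
      have hyc := h1.1
      have hD : DD φ c g h δ x = τ φ h x - τ φ g x := H.DD_of_zero hx
      have hy0 : h (φ (τ φ h y) y) = 0 := τ_spec (H.exists_h h1)
      have hx0 : g (φ (τ φ g x) x) = 0 := τ_spec hxW.2
      have ey : 0 < h y ↔ τ φ h y < 0 := by
        constructor
        · intro h4
          by_contra h5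
          rcases eq_or_lt_of_le (not_lt.1 h5) with h6 | h6
          · rw [← h6, H.φ0] at hy0
            linarith
          · have := H.h_neg hyc hy0.le h6
            rw [H.φ0] at this
            linarith
        · intro h4
          have := H.h_pos hyc hy0.ge h4
          rwa [H.φ0] at this
      have ey0 : h y = 0 ↔ τ φ h y = 0 := by
        constructor
        · intro h4
          exact H.τ'_eq hyc (by rwa [H.φ0])
        · intro h4
          rw [h4, H.φ0] at hy0
          exact hy0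
      have ex : 0 < g x ↔ τ φ g x < 0 := by
        constructor
        · intro h4
          by_contra h5
          rcases eq_or_lt_of_le (not_lt.1 h5) with h6 | h6
          · rw [← h6, H.φ0] at hx0
            linarith
          · have := H.g_neg hxW.1 hx0.le h6
            rw [H.φ0] at this
            linarith
        · intro h4
          have := H.g_pos hxW.1 hx0.ge h4
          rwa [H.φ0] at this
      have ex0 : g x = 0 ↔ τ φ g x = 0 := by
        constructor
        · intro h4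
          exact H.τ_eq hxW.1 (by rwa [H.φ0])
        · intro h4
          rw [h4, H.φ0] at hx0
          exact hx0
      rw [ey, ey0, ex, ex0, h3, hS hxW]
      have k1 := add_sh_lt_iff (H.DD_nonneg hxW) (-τ φ g x)
      have k2 := add_sh_eq_iff (H.DD_nonneg hxW) (-τ φ g x)
      constructor
      · constructor
        · intro h4
          have := k1.1 (by rw [hD] at h4 ⊢; linarith)
          linarith
        · intro h4
          have := k1.2 (by linarith)
          rw [hD] at this ⊢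
          linarith
      · constructor
        · intro h4
          have := k2.1 (by rw [hD] at h4 ⊢; linarith)
          linarith
        · intro h4
          have := k2.2 (by linarith)
          rw [hD] at this ⊢
          linarith
    · rw [hS' hxW, H.φ0]
      obtain ⟨h1, h2, h3⟩ := key x hcx hxW
      exact ⟨h1, ⟨fun h => absurd h h2, fun h => absurd h h3⟩⟩

end FL

end Top

end Crest.Agent.R267.FlTop_363
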