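import Mathlib

/-!
Row 267, node ISOT, part 1 (helper65): the time-one map of a bounded, globally Lipschitz,
time dependent vector field on `[0,1]` is a homeomorphism, with its trajectories.
-/

set_option autoImplicit false
set_option linter.unusedSectionVars false

namespace Crest.Agent.R267.FlowT_65

open Set Metric
open scoped NNReal Topology

variable {E : Type*} [NormedAddCommGroup E] [NormedSpace ℝ E] [CompleteSpace E]

/-- `γ` solves `γ' = X t γ` on `[0,1]`. -/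
def IsSol (X : ℝ → E → E) (γ : ℝ → E) : Prop :=
  ∀ t ∈ Icc (0 : ℝ) 1, HasDerivWithinAt γ (X t (γ t)) (Icc 0 1) t

theorem IsSol.continuousOn {X : ℝ → E → E} {γ : ℝ → E} (h : IsSol X γ) :
    ContinuousOn γ (Icc 0 1) :=
  fun t ht => (h t ht).continuousWithinAt

theorem IsSol.right {X : ℝ → E → E} {γ : ℝ → E} (h : IsSol X γ) :
    ∀ t ∈ Ico (0 : ℝ) 1, HasDerivWithinAt γ (X t (γ t)) (Ici t) t := by
  intro t ht
  have h1 := h t (Ico_subset_Icc_self ht)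
  refine h1.mono_of_mem_nhdsWithin ?_
  rw [mem_nhdsWithin]
  refine ⟨Iio 1, isOpen_Iio, ht.2, ?_⟩
  rintro y ⟨hy1, hy2⟩
  exact ⟨ht.1.trans hy2, le_of_lt hy1⟩

/-- existence of a solution on `[0,1]` with prescribed initial value. -/
theorem exists_sol (X : ℝ → E → E) (K L : ℝ≥0)
    (hlip : ∀ t ∈ Icc (0 : ℝ) 1, LipschitzWith K (X t))
    (hcont : ∀ x, ContinuousOn (fun t => X t x) (Icc 0 1))
    (hbd : ∀ t ∈ Icc (0 : ℝ) 1, ∀ x, ‖X t x‖ ≤ L) (x : E) :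
    ∃ γ : ℝ → E, γ 0 = x ∧ IsSol X γ := by
  have h0 : (0 : ℝ) ∈ Icc (0 : ℝ) 1 := ⟨le_rfl, zero_le_one⟩
  have hP : IsPicardLindelof X (tmin := 0) (tmax := 1) ⟨0, h0⟩ x L 0 L K := by
    refine ⟨fun t ht => (hlip t ht).lipschitzOnWith, fun y _ => hcont y, fun t ht y _ => hbd t ht y, ?_⟩
    simp
  obtain ⟨γ, h1, h2⟩ := hP.exists_eq_forall_mem_Icc_hasDerivWithinAt₀
  exact ⟨γ, h1, h2⟩

/-- Lipschitz dependence on the initial value. -/
theorem dist_sol_le (X : ℝ → E → E) (K : ℝ≥0)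
    (hlip : ∀ t ∈ Icc (0 : ℝ) 1, LipschitzWith K (X t)) {γ δ : ℝ → E}
    (hγ : IsSol X γ) (hδ : IsSol X δ) :
    ∀ t ∈ Icc (0 : ℝ) 1, dist (γ t) (δ t) ≤ dist (γ 0) (δ 0) * Real.exp (K * (t - 0)) := by
  refine dist_le_of_trajectories_ODE_of_mem (s := fun _ => univ) (v := X)
    (fun t ht => (hlip t (Ico_subset_Icc_self ht)).lipschitzOnWith)
    hγ.continuousOn hγ.right (fun _ _ => mem_univ _)
    hδ.continuousOn hδ.right (fun _ _ => mem_univ _) le_rfl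

theorem sol_unique (X : ℝ → E → E) (K : ℝ≥0)
    (hlip : ∀ t ∈ Icc (0 : ℝ) 1, LipschitzWith K (X t)) {γ δ : ℝ → E}
    (hγ : IsSol X γ) (hδ : IsSol X δ) (h0 : γ 0 = δ 0) :
    ∀ t ∈ Icc (0 : ℝ) 1, γ t = δ t := by
  intro t ht
  have := dist_sol_le X K hlip hγ hδ t ht
  rw [h0, dist_self, zero_mul] at this
  exact dist_le_zero.1 this

theorem IsSol.left {X : ℝ → E → E} {γ : ℝ → E} (h : IsSol X γ) :
    ∀ t ∈ Ioc (0 : ℝ) 1, HasDerivWithinAt γ (X t (γ t)) (Iic t) t := by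
  intro t ht
  have h1 := h t (Ioc_subset_Icc_self ht)
  refine h1.mono_of_mem_nhdsWithin ?_
  rw [mem_nhdsWithin]
  refine ⟨Ioi 0, isOpen_Ioi, ht.1, ?_⟩
  rintro y ⟨hy1, hy2⟩
  exact ⟨le_of_lt hy1, le_trans hy2 ht.2⟩

/-- two solutions which meet at some time coincide. -/
theorem sol_unique_at (X : ℝ → E → E) (K : ℝ≥0)
    (hlip : ∀ t ∈ Icc (0 : ℝ) 1, LipschitzWith K (X t)) {γ δ : ℝ → E}
    (hγ : IsSol X γ) (hδ : IsSol X δ) (s : ℝ) (hs : s ∈ Icc (0 : ℝ) 1) (h0 : γ s = δ s) :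
    ∀ t ∈ Icc (0 : ℝ) 1, γ t = δ t := by
  have h1 : EqOn γ δ (Icc 0 s) := by
    refine ODE_solution_unique_of_mem_Icc_left (v := X) (s := fun _ => univ) (K := K)
      (fun t ht => (hlip t ⟨ht.1.le, ht.2.trans hs.2⟩).lipschitzOnWith)
      (hγ.continuousOn.mono (Icc_subset_Icc_right hs.2))
      (fun t ht => hγ.left t ⟨ht.1, ht.2.trans hs.2⟩) (fun _ _ => mem_univ _)
      (hδ.continuousOn.mono (Icc_subset_Icc_right hs.2))
      (fun t ht => hδ.left t ⟨ht.1, ht.2.trans hs.2⟩) (fun _ _ => mem_univ _) h0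
  exact sol_unique X K hlip hγ hδ (h1 ⟨le_rfl, hs.1⟩)

/-- the reversed vector field. -/
def rev (X : ℝ → E → E) : ℝ → E → E := fun t x => - X (1 - t) x

theorem one_sub_mem {t : ℝ} (ht : t ∈ Icc (0 : ℝ) 1) : 1 - t ∈ Icc (0 : ℝ) 1 :=
  ⟨by linarith [ht.2], by linarith [ht.1]⟩

theorem IsSol.rev {X : ℝ → E → E} {γ : ℝ → E} (h : IsSol X γ) :
    IsSol (rev X) (fun t => γ (1 - t)) := by
  intro t ht
  have h1 := h (1 - t) (one_sub_mem ht)
  have h2 : HasDerivWithinAt (fun t : ℝ => 1 - t) (-1) (Icc 0 1) t := by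
    simpa using ((hasDerivAt_id t).const_sub 1).hasDerivWithinAt
  have h3 := HasDerivWithinAt.scomp t h1 h2 (fun s hs => one_sub_mem hs)
  simpa [FlowT_65.rev, Function.comp_def] using h3

theorem rev_rev (X : ℝ → E → E) : rev (rev X) = X := by
  funext t x
  simp [rev]

/-- The flow data. -/
structure Flow (X : ℝ → E → E) where
  toHomeo : E ≃ₜ E
  traj : E → ℝ → E
  traj_zero : ∀ x, traj x 0 = x
  traj_one : ∀ x, traj x 1 = toHomeo x
  sol : ∀ x, IsSol X (traj x)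
  uniq : ∀ γ δ : ℝ → E, IsSol X γ → IsSol X δ → ∀ s ∈ Icc (0 : ℝ) 1, γ s = δ s →
    ∀ t ∈ Icc (0 : ℝ) 1, γ t = δ t
  lip : ∃ C : ℝ, ∀ t ∈ Icc (0 : ℝ) 1, ∀ x y, dist (traj x t) (traj y t) ≤ C * dist x y

theorem exists_flow (X : ℝ → E → E) (K L : ℝ≥0)
    (hlip : ∀ t ∈ Icc (0 : ℝ) 1, LipschitzWith K (X t))
    (hcont : ∀ x, ContinuousOn (fun t => X t x) (Icc 0 1))
    (hbd : ∀ t ∈ Icc (0 : ℝ) 1, ∀ x, ‖X t x‖ ≤ L) : Nonempty (Flow X) := by
  have hlip' : ∀ t ∈ Icc (0 : ℝ) 1, LipschitzWith K (rev X t) := fun t ht =>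
    (hlip (1 - t) (one_sub_mem ht)).neg
  have hcont' : ∀ x, ContinuousOn (fun t => rev X t x) (Icc 0 1) := by
    intro x
    have h1 : ContinuousOn (fun t : ℝ => 1 - t) (Icc 0 1) := (continuous_const.sub continuous_id).continuousOn
    exact ((hcont x).comp h1 (fun s hs => one_sub_mem hs)).neg
  have hbd' : ∀ t ∈ Icc (0 : ℝ) 1, ∀ x, ‖rev X t x‖ ≤ L := by
    intro t ht x
    simpa [rev] using hbd (1 - t) (one_sub_mem ht) x
  choose Γ hΓ0 hΓ using exists_sol X K L hlip hcont hbd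
  choose Γ' hΓ0' hΓ' using exists_sol (rev X) K L hlip' hcont' hbd'
  have h1 : (1 : ℝ) ∈ Icc (0 : ℝ) 1 := ⟨zero_le_one, le_rfl⟩
  have hc : Continuous (fun x => Γ x 1) := by
    refine (LipschitzWith.of_dist_le_mul (K := Real.toNNReal (Real.exp K)) ?_).continuous
    intro x y
    have := dist_sol_le X K hlip (hΓ x) (hΓ y) 1 h1
    rw [hΓ0, hΓ0] at this
    rw [Real.coe_toNNReal _ (Real.exp_pos _).le]
    simpa [mul_comm] using this
  have hc' : Continuous (fun x => Γ' x 1) := by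
    refine (LipschitzWith.of_dist_le_mul (K := Real.toNNReal (Real.exp K)) ?_).continuous
    intro x y
    have := dist_sol_le (rev X) K hlip' (hΓ' x) (hΓ' y) 1 h1
    rw [hΓ0', hΓ0'] at this
    rw [Real.coe_toNNReal _ (Real.exp_pos _).le]
    simpa [mul_comm] using this
  have hinv : ∀ x, Γ' (Γ x 1) 1 = x := by
    intro x
    have h2 := sol_unique (rev X) K hlip' (hΓ' (Γ x 1)) (hΓ x).rev (by simp [hΓ0']) 1 h1
    simpa [hΓ0] using h2
  have hinv' : ∀ x, Γ (Γ' x 1) 1 = x := by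
    intro x
    have h3 := (hΓ' x).rev
    rw [rev_rev] at h3
    have h2 := sol_unique X K hlip (hΓ (Γ' x 1)) h3 (by simp [hΓ0]) 1 h1
    simpa [hΓ0'] using h2
  let e : E ≃ E := ⟨fun x => Γ x 1, fun x => Γ' x 1, hinv, hinv'⟩
  let H : E ≃ₜ E := Homeomorph.mk e hc hc'
  refine ⟨⟨H, Γ, hΓ0, fun _ => rfl, hΓ, fun γ δ h2 h3 s hs h4 => sol_unique_at X K hlip h2 h3 s hs h4,
    Real.exp K, ?_⟩⟩
  intro t ht x y
  have h2 := dist_sol_le X K hlip (hΓ x) (hΓ y) t ht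
  rw [hΓ0, hΓ0, mul_comm] at h2
  refine h2.trans ?_
  gcongr
  have : (0 : ℝ) ≤ K := K.2
  nlinarith [ht.1, ht.2]

end Crest.Agent.R267.FlowT_65
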