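import Mathlib
import Crest.Agent.R267.FlowT_65

/-!
Row 267, node ISOT, part 2 (helper65): flows of compactly supported `C^1` time dependent vector
fields, and the vector field which transports the zero set of a `C^2` family of complex valued
functions having `0` as a regular value.
-/

set_option autoImplicit false
set_option linter.unusedSectionVars false

namespace Crest.Agent.R267.FlowC_65

open Set Metric Filter
open scoped NNReal Topology RealInnerProductSpace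
open Crest.Agent.R267.FlowT_65

section flow

variable {E : Type*} [NormedAddCommGroup E] [NormedSpace ℝ E] [FiniteDimensional ℝ E]

/-- flow of a compactly supported `C^1` time dependent vector field. -/
theorem flow_of_C1 (X : ℝ × E → E) (Kc : Set E) (hK : IsCompact Kc)
    (h1 : ∀ t ∈ Icc (0 : ℝ) 1, ∀ x, ContDiffAt ℝ 1 X (t, x))
    (h0 : ∀ t ∈ Icc (0 : ℝ) 1, ∀ x, x ∉ Kc → X (t, x) = 0) :
    Nonempty (Flow (fun t x => X (t, x))) := by
  have : CompleteSpace E := FiniteDimensional.complete ℝ E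
  have hcpt : IsCompact (Icc (0 : ℝ) 1 ×ˢ Kc) := isCompact_Icc.prod hK
  have hcont : ContinuousOn X (Icc (0 : ℝ) 1 ×ˢ Kc) := by
    rintro ⟨t, x⟩ ⟨ht, hx⟩
    exact (h1 t ht x).continuousAt.continuousWithinAt
  have hfd : ContinuousOn (fun z => fderiv ℝ X z) (Icc (0 : ℝ) 1 ×ˢ Kc) := by
    rintro ⟨t, x⟩ ⟨ht, hx⟩
    exact ((h1 t ht x).continuousAt_fderiv (by norm_num)).continuousWithinAt
  obtain ⟨L, hL⟩ := hcpt.exists_bound_of_continuousOn hcont
  obtain ⟨K, hKb⟩ := hcpt.exists_bound_of_continuousOn hfd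
  have hslice : ∀ t ∈ Icc (0 : ℝ) 1, ∀ x, HasFDerivAt (fun y => X (t, y))
      ((fderiv ℝ X (t, x)).comp (ContinuousLinearMap.inr ℝ ℝ E)) x := by
    intro t ht x
    have h2 : HasFDerivAt X (fderiv ℝ X (t, x)) (t, x) :=
      ((h1 t ht x).differentiableAt (by norm_num)).hasFDerivAt
    have h3 : HasFDerivAt (fun y : E => (t, y)) (ContinuousLinearMap.inr ℝ ℝ E) x := by
      exact hasFDerivAt_prodMk_right t x
    exact h2.comp x h3
  have hLip : ∀ t ∈ Icc (0 : ℝ) 1, LipschitzWith (Real.toNNReal (|K| * ‖ContinuousLinearMap.inr ℝ ℝ E‖))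
      (fun y => X (t, y)) := by
    intro t ht
    refine lipschitzWith_of_nnnorm_fderiv_le (𝕜 := ℝ) (fun x => (hslice t ht x).differentiableAt) ?_
    intro x
    rw [← NNReal.coe_le_coe, coe_nnnorm, Real.coe_toNNReal _ (by positivity)]
    by_cases hx : x ∈ Kc
    · rw [(hslice t ht x).fderiv]
      refine (ContinuousLinearMap.opNorm_comp_le _ _).trans ?_
      gcongr
      exact (hKb (t, x) ⟨ht, hx⟩).trans (le_abs_self K)
    · have : (fun y => X (t, y)) =ᶠ[𝓝 x] fun _ => 0 := by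
        filter_upwards [hK.isClosed.isOpen_compl.mem_nhds hx] with y hy
        exact h0 t ht y hy
      rw [this.fderiv_eq]
      simp
      positivity
  have hC : ∀ x, ContinuousOn (fun t => X (t, x)) (Icc 0 1) := by
    intro x t ht
    have h2 : ContinuousAt X (t, x) := (h1 t ht x).continuousAt
    have h3 : ContinuousAt (fun s : ℝ => (s, x)) t := by fun_prop
    exact (ContinuousAt.comp (f := fun s : ℝ => (s, x)) (g := X) h2 h3).continuousWithinAt
  have hB : ∀ t ∈ Icc (0 : ℝ) 1, ∀ x, ‖X (t, x)‖ ≤ Real.toNNReal |L| := by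
    intro t ht x
    rw [Real.coe_toNNReal _ (abs_nonneg L)]
    by_cases hx : x ∈ Kc
    · exact (hL (t, x) ⟨ht, hx⟩).trans (le_abs_self L)
    · rw [h0 t ht x hx]
      simp
  exact exists_flow (fun t x => X (t, x)) _ _ hLip hC hB

end flow

section field

variable {E : Type*} [NormedAddCommGroup E] [InnerProductSpace ℝ E] [FiniteDimensional ℝ E]

/-- real part of the derivative in the space directions -/
noncomputable def gA (P : ℝ × E → ℂ) (z : ℝ × E) : E :=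
  ∑ i, (fderiv ℝ P z (0, stdOrthonormalBasis ℝ E i)).re • stdOrthonormalBasis ℝ E i

/-- imaginary part of the derivative in the space directions -/
noncomputable def gB (P : ℝ × E → ℂ) (z : ℝ × E) : E :=
  ∑ i, (fderiv ℝ P z (0, stdOrthonormalBasis ℝ E i)).im • stdOrthonormalBasis ℝ E i

theorem sum_inner_smul (v : E) : ∑ i, ⟪stdOrthonormalBasis ℝ E i, v⟫ • stdOrthonormalBasis ℝ E i = v :=
  (stdOrthonormalBasis ℝ E).sum_repr' v

theorem fderiv_zero_eq (P : ℝ × E → ℂ) (z : ℝ × E) (v : E) :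
    fderiv ℝ P z (0, v) = ∑ i, ⟪stdOrthonormalBasis ℝ E i, v⟫ • fderiv ℝ P z (0, stdOrthonormalBasis ℝ E i) := by
  have h : fderiv ℝ P z (0, v) = ((fderiv ℝ P z).comp (ContinuousLinearMap.inr ℝ ℝ E)) v := by simp
  rw [h]
  conv_lhs => rw [← sum_inner_smul v]
  rw [map_sum]
  refine Finset.sum_congr rfl fun i _ => ?_
  rw [map_smul]
  simp

theorem inner_gA (P : ℝ × E → ℂ) (z : ℝ × E) (v : E) : ⟪gA P z, v⟫ = (fderiv ℝ P z (0, v)).re := by
  rw [fderiv_zero_eq, gA, sum_inner, Complex.re_sum]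
  refine Finset.sum_congr rfl fun i _ => ?_
  rw [real_inner_smul_left, Complex.smul_re, smul_eq_mul, mul_comm]

theorem inner_gB (P : ℝ × E → ℂ) (z : ℝ × E) (v : E) : ⟪gB P z, v⟫ = (fderiv ℝ P z (0, v)).im := by
  rw [fderiv_zero_eq, gB, sum_inner, Complex.im_sum]
  refine Finset.sum_congr rfl fun i _ => ?_
  rw [real_inner_smul_left, Complex.smul_im, smul_eq_mul, mul_comm]

/-- Gram determinant -/
noncomputable def gD (P : ℝ × E → ℂ) (z : ℝ × E) : ℝ :=
  ⟪gA P z, gA P z⟫ * ⟪gB P z, gB P z⟫ - ⟪gA P z, gB P z⟫ ^ 2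

theorem gD_nonneg (P : ℝ × E → ℂ) (z : ℝ × E) : 0 ≤ gD P z := by
  have := real_inner_mul_inner_self_le (gA P z) (gB P z)
  unfold gD
  nlinarith

theorem gD_pos (P : ℝ × E → ℂ) (z : ℝ × E) (h : ∀ w : ℂ, ∃ v : E, fderiv ℝ P z (0, v) = w) :
    0 < gD P z := by
  refine lt_of_le_of_ne (gD_nonneg P z) fun h0 => ?_
  obtain ⟨v, hv⟩ := h 1
  obtain ⟨w, hw⟩ := h Complex.I
  have hav : ⟪gA P z, v⟫ = 1 := by rw [inner_gA, hv]; simp
  have haw : ⟪gA P z, w⟫ = 0 := by rw [inner_gA, hw]; simp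
  have hbw : ⟪gB P z, w⟫ = 1 := by rw [inner_gB, hw]; simp
  set a := gA P z with ha
  set b := gB P z with hb
  have h1 : ⟪⟪a, a⟫ • b - ⟪a, b⟫ • a, ⟪a, a⟫ • b - ⟪a, b⟫ • a⟫ = 0 := by
    have h2 : ⟪a, a⟫ * ⟪b, b⟫ - ⟪a, b⟫ ^ 2 = 0 := by
      rw [ha, hb]; exact h0.symm
    rw [inner_sub_left, inner_sub_right, inner_sub_right, real_inner_smul_left, real_inner_smul_left,
      real_inner_smul_right, real_inner_smul_right, real_inner_smul_left, real_inner_smul_left,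
      real_inner_smul_right, real_inner_smul_right, real_inner_comm a b]
    linear_combination ⟪a, a⟫ * h2
  have h3 : ⟪a, a⟫ • b - ⟪a, b⟫ • a = 0 := inner_self_eq_zero.1 h1
  have h4 : ⟪⟪a, a⟫ • b - ⟪a, b⟫ • a, w⟫ = 0 := by rw [h3, inner_zero_left]
  rw [inner_sub_left, real_inner_smul_left, real_inner_smul_left, haw, hbw] at h4
  have h5 : ⟪a, a⟫ = 0 := by linarith
  have h6 : a = 0 := inner_self_eq_zero.1 h5
  rw [h6, inner_zero_left] at hav
  norm_num at hav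

/-- cutoff function in the values -/
noncomputable def gk (η : ℝ) (P : ℝ × E → ℂ) (z : ℝ × E) : ℝ :=
  expNegInvGlue (‖P z‖ ^ 2 - η ^ 2)

/-- the unnormalised field -/
noncomputable def gN (P : ℝ × E → ℂ) (z : ℝ × E) : E :=
  (-(fderiv ℝ P z (1, 0)).re * ⟪gB P z, gB P z⟫ + (fderiv ℝ P z (1, 0)).im * ⟪gA P z, gB P z⟫) • gA P z
  + (-(fderiv ℝ P z (1, 0)).im * ⟪gA P z, gA P z⟫ + (fderiv ℝ P z (1, 0)).re * ⟪gA P z, gB P z⟫) • gB P z

/-- the field -/
noncomputable def gX (η : ℝ) (ρ : E → ℝ) (P : ℝ × E → ℂ) (z : ℝ × E) : E :=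
  (ρ z.2 * (gD P z + gk η P z)⁻¹) • gN P z

theorem fderiv_gX (η : ℝ) (ρ : E → ℝ) (P : ℝ × E → ℂ) (z : ℝ × E) (hρ : ρ z.2 = 1)
    (hD : 0 < gD P z) (hη : 0 ≤ η) (hP : ‖P z‖ ≤ η) : fderiv ℝ P z (1, gX η ρ P z) = 0 := by
  have hk : gk η P z = 0 := by
    unfold gk
    apply expNegInvGlue.zero_of_nonpos
    have := norm_nonneg (P z)
    nlinarith
  have hsplit : fderiv ℝ P z (1, gX η ρ P z) = fderiv ℝ P z (1, 0) + fderiv ℝ P z (0, gX η ρ P z) := by
    rw [← map_add]; simp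
  have hX : gX η ρ P z = (gD P z)⁻¹ • gN P z := by
    unfold gX; rw [hρ, hk, one_mul, add_zero]
  have hD' : gD P z ≠ 0 := hD.ne'
  have hre : (fderiv ℝ P z (0, gX η ρ P z)).re = -(fderiv ℝ P z (1, 0)).re := by
    rw [← inner_gA, hX, real_inner_smul_right, gN, inner_add_right, real_inner_smul_right,
      real_inner_smul_right]
    rw [inv_mul_eq_iff_eq_mul₀ hD', gD]
    ring
  have him : (fderiv ℝ P z (0, gX η ρ P z)).im = -(fderiv ℝ P z (1, 0)).im := by
    rw [← inner_gB, hX, real_inner_smul_right, gN, inner_add_right, real_inner_smul_right,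
      real_inner_smul_right, real_inner_comm (gA P z) (gB P z)]
    rw [inv_mul_eq_iff_eq_mul₀ hD', gD]
    ring
  rw [hsplit]
  apply Complex.ext
  · simp [hre]
  · simp [him]

theorem inner_gX (η : ℝ) (ρ : E → ℝ) (P : ℝ × E → ℂ) (z : ℝ × E) (u : E)
    (hu : fderiv ℝ P z (0, u) = 0) : ⟪gX η ρ P z, u⟫ = 0 := by
  have h1 : ⟪gA P z, u⟫ = 0 := by rw [inner_gA, hu]; simp
  have h2 : ⟪gB P z, u⟫ = 0 := by rw [inner_gB, hu]; simp
  unfold gX gN
  rw [real_inner_smul_left, inner_add_left, real_inner_smul_left, real_inner_smul_left, h1, h2]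
  simp

theorem gX_eq_zero (η : ℝ) (ρ : E → ℝ) (P : ℝ × E → ℂ) (z : ℝ × E)
    (hu : fderiv ℝ P z (1, 0) = 0) : gX η ρ P z = 0 := by
  unfold gX gN
  rw [hu]
  simp

theorem contDiffAt_gA (P : ℝ × E → ℂ) (z : ℝ × E) (h : ContDiffAt ℝ 2 P z) :
    ContDiffAt ℝ 1 (gA P) z := by
  have h1 : ContDiffAt ℝ 1 (fun z => fderiv ℝ P z) z := h.fderiv_right (by norm_num)
  unfold gA
  refine ContDiffAt.sum fun i _ => ?_
  refine ContDiffAt.smul ?_ contDiffAt_const
  exact Complex.reCLM.contDiff.contDiffAt.comp z (h1.clm_apply contDiffAt_const)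

theorem contDiffAt_gB (P : ℝ × E → ℂ) (z : ℝ × E) (h : ContDiffAt ℝ 2 P z) :
    ContDiffAt ℝ 1 (gB P) z := by
  have h1 : ContDiffAt ℝ 1 (fun z => fderiv ℝ P z) z := h.fderiv_right (by norm_num)
  unfold gB
  refine ContDiffAt.sum fun i _ => ?_
  refine ContDiffAt.smul ?_ contDiffAt_const
  exact Complex.imCLM.contDiff.contDiffAt.comp z (h1.clm_apply contDiffAt_const)

theorem contDiffAt_gD (P : ℝ × E → ℂ) (z : ℝ × E) (h : ContDiffAt ℝ 2 P z) :
    ContDiffAt ℝ 1 (gD P) z := by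
  have hA := contDiffAt_gA P z h
  have hB := contDiffAt_gB P z h
  unfold gD
  exact ((hA.inner ℝ hA).mul (hB.inner ℝ hB)).sub ((hA.inner ℝ hB).pow 2)

theorem contDiffAt_gN (P : ℝ × E → ℂ) (z : ℝ × E) (h : ContDiffAt ℝ 2 P z) :
    ContDiffAt ℝ 1 (gN P) z := by
  have hA := contDiffAt_gA P z h
  have hB := contDiffAt_gB P z h
  have h1 : ContDiffAt ℝ 1 (fun z => fderiv ℝ P z) z := h.fderiv_right (by norm_num)
  have hr : ContDiffAt ℝ 1 (fun z => (fderiv ℝ P z (1, 0)).re) z :=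
    Complex.reCLM.contDiff.contDiffAt.comp z (h1.clm_apply contDiffAt_const)
  have hi : ContDiffAt ℝ 1 (fun z => (fderiv ℝ P z (1, 0)).im) z :=
    Complex.imCLM.contDiff.contDiffAt.comp z (h1.clm_apply contDiffAt_const)
  unfold gN
  exact (((hr.neg.mul (hB.inner ℝ hB)).add (hi.mul (hA.inner ℝ hB))).smul hA).add
    (((hi.neg.mul (hA.inner ℝ hA)).add (hr.mul (hA.inner ℝ hB))).smul hB)

theorem contDiffAt_gk (η : ℝ) (P : ℝ × E → ℂ) (z : ℝ × E) (h : ContDiffAt ℝ 2 P z) :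
    ContDiffAt ℝ 1 (gk η P) z := by
  unfold gk
  have h2 : ContDiffAt ℝ 1 (fun z => ‖P z‖ ^ 2 - η ^ 2) z :=
    ((h.of_le (by norm_num)).norm_sq ℝ).sub contDiffAt_const
  exact expNegInvGlue.contDiff.contDiffAt.comp z h2

theorem contDiffAt_gX (η : ℝ) (ρ : E → ℝ) (P : ℝ × E → ℂ) (z : ℝ × E) (h : ContDiffAt ℝ 2 P z)
    (hρ : ContDiffAt ℝ 1 ρ z.2) (hpos : gD P z + gk η P z ≠ 0) :
    ContDiffAt ℝ 1 (gX η ρ P) z := by
  unfold gX
  have h1 : ContDiffAt ℝ 1 (fun z : ℝ × E => ρ z.2) z := hρ.comp z contDiffAt_snd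
  exact (h1.mul (((contDiffAt_gD P z h).add (contDiffAt_gk η P z h)).inv hpos)).smul
    (contDiffAt_gN P z h)

end field

end Crest.Agent.R267.FlowC_65
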