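import Crest.Agent.R086.BFlow

/-!
# Row 267 (helper951): flows of globally Lipschitz time dependent fields, and homogeneous fields

* `exists_flow`: a jointly continuous field `X t x`, Lipschitz in `x` with a constant independent of
  `t`, has a flow `Φ : ℝ → (E ≃ₜ E)`, jointly continuous together with its inverse;
* `hext`: the extension of a field on the unit sphere, homogeneous of degree `1`.
-/

set_option autoImplicit false
set_option linter.unusedSectionVars false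

noncomputable section

open Set Filter Topology Metric
open scoped NNReal

namespace Crest.Agent.R267.FlowG_951

variable {E : Type*} [NormedAddCommGroup E] [NormedSpace ℝ E] [FiniteDimensional ℝ E]

/-- global solutions -/
def Sol (X : ℝ → E → E) (γ : ℝ → E) : Prop := ∀ t, HasDerivAt γ (X t (γ t)) t

theorem Sol.unique {X : ℝ → E → E} {K : ℝ≥0} (hK : ∀ t, LipschitzWith K (X t)) {γ δ : ℝ → E}
    (hγ : Sol X γ) (hδ : Sol X δ) {s : ℝ} (h : γ s = δ s) : γ = δ :=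
  ODE_solution_unique_univ (v := X) (s := fun _ => univ) (K := K)
    (fun t => (hK t).lipschitzOnWith) (fun t => ⟨hγ t, mem_univ _⟩) (fun t => ⟨hδ t, mem_univ _⟩) h

/-- **the flow of a Lipschitz field** -/
theorem exists_flow {X : ℝ → E → E} (hX : Continuous fun p : ℝ × E => X p.1 p.2) {K : ℝ≥0}
    (hK : ∀ t, LipschitzWith K (X t)) :
    ∃ Φ : ℝ → (E ≃ₜ E), (∀ x, Φ 0 x = x) ∧ (∀ x, Sol X fun t => Φ t x) ∧
      (Continuous fun p : ℝ × E => Φ p.1 p.2) ∧ (Continuous fun p : ℝ × E => (Φ p.1).symm p.2) ∧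
      ∀ γ : ℝ → E, Sol X γ → ∀ t, γ t = Φ t (γ 0) := by
  have : CompleteSpace E := FiniteDimensional.complete ℝ E
  have : ProperSpace E := FiniteDimensional.proper_real E
  have hex : ∀ (s : ℝ) (y : E), ∃ γ : ℝ → E, γ s = y ∧ Sol X γ := by
    intro s y
    obtain ⟨S, -, h2, h3⟩ := R086.BFlow.exists_flow (X := Unit) (F := fun _ t x => X t x)
      (by fun_prop) (K := K) (fun _ t => hK t) s (x0 := fun _ => y) continuous_const
    exact ⟨S (), h2 _, h3 _⟩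
  choose S hS0 hS using hex
  have hu : ∀ {γ δ : ℝ → E}, Sol X γ → Sol X δ → ∀ s, γ s = δ s → γ = δ :=
    fun h1 h2 _ h => Sol.unique hK h1 h2 h
  -- joint continuity
  have hcont : Continuous fun p : ℝ × E × ℝ => S p.1 p.2.1 p.2.2 := by
    rw [continuous_iff_continuousAt]
    rintro ⟨t₁, y₁, s₁⟩
    let Q : Set (ℝ × E) := closedBall (t₁, y₁) 1
    have hQ : CompactSpace Q := isCompact_iff_compactSpace.1 (isCompact_closedBall _ _)
    obtain ⟨T, hT1, hT2, hT3⟩ := R086.BFlow.exists_flow (X := Q)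
      (F := fun κ s x => X (κ.1.1 + s) x) (by fun_prop) (K := K) (fun κ s => hK _) 0
      (x0 := fun κ => κ.1.2) (by fun_prop)
    have key : ∀ (κ : Q) (s : ℝ), S κ.1.1 κ.1.2 s = T κ (s - κ.1.1) := by
      intro κ s
      have h1 : Sol X fun s => T κ (s - κ.1.1) := by
        intro s
        have h2 := hT3 κ (s - κ.1.1)
        have h3 := HasDerivAt.comp_sub_const s κ.1.1 h2
        rw [add_sub_cancel] at h3
        exact h3
      have h4 := hu (hS κ.1.1 κ.1.2) h1 κ.1.1 (by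
        show S κ.1.1 κ.1.2 κ.1.1 = T κ (κ.1.1 - κ.1.1)
        rw [hS0, sub_self, hT2])
      exact congrFun h4 s
    have hon : ContinuousOn (fun p : ℝ × E × ℝ => S p.1 p.2.1 p.2.2)
        {p | (p.1, p.2.1) ∈ Q} := by
      rw [continuousOn_iff_continuous_domRestrict]
      have h5 : Continuous fun p : {p : ℝ × E × ℝ | (p.1, p.2.1) ∈ Q} =>
          Function.uncurry T ((⟨(p.1.1, p.1.2.1), p.2⟩ : Q), p.1.2.2 - p.1.1) := by
        refine hT1.comp (Continuous.prodMk (Continuous.subtype_mk (by fun_prop) _) (by fun_prop))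
      refine h5.congr fun p => ?_
      exact (key ⟨(p.1.1, p.1.2.1), p.2⟩ p.1.2.2).symm
    refine hon.continuousAt ?_
    have h6 : Continuous fun p : ℝ × E × ℝ => (p.1, p.2.1) := by fun_prop
    exact h6.continuousAt.preimage_mem_nhds (closedBall_mem_nhds _ one_pos)
  refine ⟨fun t =>
    { toFun := fun x => S 0 x t
      invFun := fun y => S t y 0
      left_inv := fun x => ?_
      right_inv := fun y => ?_
      continuous_toFun := hcont.comp (by fun_prop : Continuous fun x : E => ((0 : ℝ), x, t))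
      continuous_invFun := hcont.comp (by fun_prop : Continuous fun x : E => (t, x, (0 : ℝ))) },
    fun x => hS0 0 x, fun x => hS 0 x,
    hcont.comp (by fun_prop : Continuous fun p : ℝ × E => ((0 : ℝ), p.2, p.1)),
    hcont.comp (by fun_prop : Continuous fun p : ℝ × E => (p.1, p.2, (0 : ℝ))),
    fun γ hγ t => ?_⟩
  · show S t (S 0 x t) 0 = x
    have h1 := hu (hS t (S 0 x t)) (hS 0 x) t (hS0 _ _)
    rw [h1, hS0]
  · show S 0 (S t y 0) t = y
    have h1 := hu (hS 0 (S t y 0)) (hS t y) 0 (hS0 _ _)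
    rw [h1, hS0]
  · show γ t = S 0 (γ 0) t
    have h1 := hu hγ (hS 0 (γ 0)) 0 (hS0 _ _).symm
    exact congrFun h1 t

/-! ### homogeneous extension of a field on the sphere -/

/-- `W` on `[0,1] × S` extended to be homogeneous of degree one -/
def hext (W : ℝ × E → E) (t : ℝ) (x : E) : E :=
  ‖x‖ • W ((projIcc (0 : ℝ) 1 zero_le_one t : ℝ), ‖x‖⁻¹ • x)

theorem hext_smul (W : ℝ × E → E) (t : ℝ) {r : ℝ} (hr : 0 < r) (x : E) :
    hext W t (r • x) = r • hext W t x := by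
  unfold hext
  have h1 : (‖r • x‖)⁻¹ • (r • x) = ‖x‖⁻¹ • x := by
    rw [norm_smul, Real.norm_of_nonneg hr.le, smul_smul, mul_inv]
    congr 1
    field_simp
  rw [h1, norm_smul, Real.norm_of_nonneg hr.le, mul_smul]

theorem hext_zero (W : ℝ × E → E) (t : ℝ) : hext W t (0 : E) = 0 := by simp [hext]

theorem hext_of_mem (W : ℝ × E → E) {t : ℝ} (ht : t ∈ Icc (0 : ℝ) 1) (x : E) :
    hext W t x = ‖x‖ • W (t, ‖x‖⁻¹ • x) := by
  unfold hext
  rw [projIcc_of_mem _ ht]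

theorem norm_unit {x : E} (hx : x ≠ 0) : ‖‖x‖⁻¹ • x‖ = 1 := norm_smul_inv_norm (𝕜 := ℝ) hx

theorem norm_mul_unit_sub (x y : E) (hx : x ≠ 0) (hy : y ≠ 0) :
    ‖x‖ * ‖‖x‖⁻¹ • x - ‖y‖⁻¹ • y‖ ≤ 2 * ‖x - y‖ := by
  have hx' : ‖x‖ ≠ 0 := norm_ne_zero_iff.2 hx
  have hy' : ‖y‖ ≠ 0 := norm_ne_zero_iff.2 hy
  have h1 : ‖x‖ * ‖‖x‖⁻¹ • x - ‖y‖⁻¹ • y‖ = ‖(x - y) + (1 - ‖x‖ / ‖y‖) • y‖ := by
    rw [← norm_norm x, ← norm_smul, norm_norm]
    congr 1
    rw [smul_sub, smul_smul, smul_smul, mul_inv_cancel₀ hx', one_smul, sub_smul, one_smul,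
      div_eq_mul_inv]
    abel
  rw [h1]
  refine (norm_add_le _ _).trans ?_
  have h2 : ‖(1 - ‖x‖ / ‖y‖) • y‖ = |‖y‖ - ‖x‖| := by
    rw [norm_smul, Real.norm_eq_abs]
    have : 1 - ‖x‖ / ‖y‖ = (‖y‖ - ‖x‖) / ‖y‖ := by field_simp
    rw [this, abs_div, abs_of_nonneg (norm_nonneg y)]
    field_simp
  rw [h2]
  have h3 := abs_norm_sub_norm_le y x
  rw [norm_sub_rev] at h3
  linarith

theorem lipschitz_hext {W : ℝ × E → E} {C : ℝ≥0}
    (hW : LipschitzOnWith C W (Icc (0 : ℝ) 1 ×ˢ sphere (0 : E) 1)) {M : ℝ≥0}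
    (hM : ∀ p ∈ Icc (0 : ℝ) 1 ×ˢ sphere (0 : E) 1, ‖W p‖ ≤ M) (t : ℝ) :
    LipschitzWith (2 * C + M) (hext W t) := by
  refine LipschitzWith.of_dist_le_mul fun x y => ?_
  rw [dist_eq_norm, dist_eq_norm]
  set τ : ℝ := (projIcc (0 : ℝ) 1 zero_le_one t : ℝ) with hτ
  have hτm : τ ∈ Icc (0 : ℝ) 1 := (projIcc (0 : ℝ) 1 zero_le_one t).2
  have hmem : ∀ z : E, z ≠ 0 → (τ, ‖z‖⁻¹ • z) ∈ Icc (0 : ℝ) 1 ×ˢ sphere (0 : E) 1 :=
    fun z hz => ⟨hτm, by rw [mem_sphere_zero_iff_norm]; exact norm_unit hz⟩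
  have hbd : ∀ z : E, ‖hext W t z‖ ≤ M * ‖z‖ := by
    intro z
    by_cases hz : z = 0
    · simp [hz, hext_zero]
    · unfold hext
      rw [norm_smul, norm_norm, mul_comm]
      exact mul_le_mul_of_nonneg_right (hM _ (hmem z hz)) (norm_nonneg _)
  push_cast
  by_cases hx : x = 0
  · rw [hx, hext_zero, zero_sub, zero_sub, norm_neg, norm_neg]
    refine (hbd y).trans ?_
    have : (0 : ℝ) ≤ C := C.2
    nlinarith [norm_nonneg y]
  by_cases hy : y = 0
  · rw [hy, hext_zero, sub_zero, sub_zero]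
    refine (hbd x).trans ?_
    have : (0 : ℝ) ≤ C := C.2
    nlinarith [norm_nonneg x]
  have h1 : hext W t x - hext W t y = ‖x‖ • (W (τ, ‖x‖⁻¹ • x) - W (τ, ‖y‖⁻¹ • y)) +
      (‖x‖ - ‖y‖) • W (τ, ‖y‖⁻¹ • y) := by
    unfold hext
    rw [smul_sub, sub_smul]
    abel
  rw [h1]
  refine (norm_add_le _ _).trans ?_
  rw [norm_smul, norm_smul, norm_norm, Real.norm_eq_abs]
  have h2 : ‖W (τ, ‖x‖⁻¹ • x) - W (τ, ‖y‖⁻¹ • y)‖ ≤ C * ‖‖x‖⁻¹ • x - ‖y‖⁻¹ • y‖ := by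
    have h3 := hW.dist_le_mul _ (hmem x hx) _ (hmem y hy)
    rw [dist_eq_norm] at h3
    refine h3.trans (mul_le_mul_of_nonneg_left ?_ C.2)
    rw [Prod.dist_eq, dist_self, dist_eq_norm]
    exact max_le (norm_nonneg _) le_rfl
  have h4 := norm_mul_unit_sub x y hx hy
  have h5 := hM _ (hmem y hy)
  have h6 := abs_norm_sub_norm_le x y
  have hC : (0 : ℝ) ≤ C := C.2
  have hM0 : (0 : ℝ) ≤ M := M.2
  calc ‖x‖ * ‖W (τ, ‖x‖⁻¹ • x) - W (τ, ‖y‖⁻¹ • y)‖ + |‖x‖ - ‖y‖| * ‖W (τ, ‖y‖⁻¹ • y)‖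
      ≤ ‖x‖ * (C * ‖‖x‖⁻¹ • x - ‖y‖⁻¹ • y‖) + ‖x - y‖ * M := by
        gcongr
    _ = C * (‖x‖ * ‖‖x‖⁻¹ • x - ‖y‖⁻¹ • y‖) + ‖x - y‖ * M := by ring
    _ ≤ C * (2 * ‖x - y‖) + ‖x - y‖ * M := by gcongr
    _ = (2 * C + M) * ‖x - y‖ := by ring

theorem continuous_hext {W : ℝ × E → E} {C : ℝ≥0}
    (hW : LipschitzOnWith C W (Icc (0 : ℝ) 1 ×ˢ sphere (0 : E) 1)) {M : ℝ≥0}
    (hM : ∀ p ∈ Icc (0 : ℝ) 1 ×ˢ sphere (0 : E) 1, ‖W p‖ ≤ M) :
    Continuous fun p : ℝ × E => hext W p.1 p.2 := by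
  refine continuous_prod_of_continuous_lipschitzWith' _ (2 * C + M)
    (fun t => lipschitz_hext hW hM t) fun x => ?_
  by_cases hx : x = 0
  · subst hx
    simp only [hext_zero]
    exact continuous_const
  · unfold hext
    have h1 : Continuous fun t : ℝ => W ((projIcc (0 : ℝ) 1 zero_le_one t : ℝ), ‖x‖⁻¹ • x) := by
      refine hW.continuousOn.comp_continuous (f := fun t : ℝ =>
        ((projIcc (0 : ℝ) 1 zero_le_one t : ℝ), ‖x‖⁻¹ • x)) ?_ fun t => ?_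
      · exact (continuous_subtype_val.comp continuous_projIcc).prodMk continuous_const
      · exact ⟨(projIcc (0 : ℝ) 1 zero_le_one t).2, by
          rw [mem_sphere_zero_iff_norm]; exact norm_unit hx⟩
    exact h1.const_smul ‖x‖

/-- **flow of a homogeneous field** -/
theorem exists_hflow {W : ℝ × E → E} {C : ℝ≥0}
    (hW : LipschitzOnWith C W (Icc (0 : ℝ) 1 ×ˢ sphere (0 : E) 1)) :
    ∃ Φ : ℝ → (E ≃ₜ E), (∀ x, Φ 0 x = x) ∧ (∀ x, Sol (hext W) fun t => Φ t x) ∧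
      (Continuous fun p : ℝ × E => Φ p.1 p.2) ∧ (Continuous fun p : ℝ × E => (Φ p.1).symm p.2) ∧
      (∀ t (r : ℝ), 0 < r → ∀ x, Φ t (r • x) = r • Φ t x) ∧ (∀ t, Φ t 0 = 0) ∧
      (∀ γ : ℝ → E, Sol (hext W) γ → ∀ t, γ t = Φ t (γ 0)) := by
  have : ProperSpace E := FiniteDimensional.proper_real E
  have hcpt : IsCompact (Icc (0 : ℝ) 1 ×ˢ sphere (0 : E) 1) := isCompact_Icc.prod (isCompact_sphere _ _)
  obtain ⟨M, hM⟩ := hcpt.exists_bound_of_continuousOn hW.continuousOn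
  have hM' : ∀ p ∈ Icc (0 : ℝ) 1 ×ˢ sphere (0 : E) 1, ‖W p‖ ≤ Real.toNNReal M := fun p hp =>
    (hM p hp).trans (Real.le_coe_toNNReal M)
  obtain ⟨Φ, h0, hs, hc, hc', hu⟩ := exists_flow (continuous_hext hW hM')
    (fun t => lipschitz_hext hW hM' t)
  refine ⟨Φ, h0, hs, hc, hc', fun t r hr x => ?_, fun t => ?_, hu⟩
  · have h1 : Sol (hext W) fun t => r • Φ t x := by
      intro t
      have h2 := (hs x t).const_smul r
      rw [hext_smul W t hr]
      exact h2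
    have h3 := hu _ h1 t
    simp only [h0] at h3
    exact h3.symm
  · have h1 : Sol (hext W) fun _ : ℝ => (0 : E) := by
      intro t
      rw [hext_zero]
      exact hasDerivAt_const t _
    exact (hu _ h1 t).symm

end Crest.Agent.R267.FlowG_951
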