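import Crest.Agent.R267.Iso_808
import Crest.Agent.R267.Cone_808

/-!
# Row 267 (helper808): Ehresmann's lemma on compact level sets (in particular on spheres)

A `C^2` path `H (t, ·)` of functions on a compact level set `K = ρ ⁻¹ {c}` all of which have `0` as
a regular value gives an isotopy `Φ_t` of `K` with `H (t, Φ_t x) = H (0, x)` whenever one of the two
sides is small.
-/

set_option autoImplicit false
set_option linter.unusedSectionVars false

noncomputable section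

open Set Filter Topology
open scoped ContDiff
open Crest.Agent.R267.Iso_808

namespace Crest.Agent.R267.Reg_808

section Metric

variable (E : Type*) [NormedAddCommGroup E] [NormedSpace ℝ E] [FiniteDimensional ℝ E]

/-- a positive definite form on the dual -/
def dm : (E →L[ℝ] ℝ) →L[ℝ] E :=
  ∑ i, (ContinuousLinearMap.apply ℝ ℝ (Module.finBasis ℝ E i)).smulRight (Module.finBasis ℝ E i)

variable {E}

theorem dm_apply (φ : E →L[ℝ] ℝ) :
    dm E φ = ∑ i, φ (Module.finBasis ℝ E i) • Module.finBasis ℝ E i := by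
  simp [dm]

theorem dm_pos {φ : E →L[ℝ] ℝ} (h : φ (dm E φ) = 0) : φ = 0 := by
  rw [dm_apply, map_sum] at h
  simp only [map_smul, smul_eq_mul] at h
  have h1 := (Finset.sum_eq_zero_iff_of_nonneg
    (fun i _ => mul_self_nonneg (φ (Module.finBasis ℝ E i)))).1 h
  have h2 : (φ : E →ₗ[ℝ] ℝ) = 0 := (Module.finBasis ℝ E).ext fun i => by
    have := h1 i (Finset.mem_univ i)
    simpa using this
  ext x
  exact congrArg (fun ψ : E →ₗ[ℝ] ℝ => ψ x) h2

variable (E) in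
/-- a smooth nonnegative function vanishing only at the origin -/
def sqn (x : E) : ℝ := ∑ i, ((Module.finBasis ℝ E).coord i x) ^ 2

theorem contDiff_sqn {n : WithTop ℕ∞} : ContDiff ℝ n (sqn E) := by
  unfold sqn
  refine ContDiff.sum fun i _ => ContDiff.pow ?_ 2
  exact (LinearMap.toContinuousLinearMap ((Module.finBasis ℝ E).coord i)).contDiff

theorem sqn_nonneg (x : E) : 0 ≤ sqn E x := Finset.sum_nonneg fun _ _ => by positivity

theorem sqn_zero : sqn E 0 = 0 := by simp [sqn]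

theorem sqn_eq_zero {x : E} (h : sqn E x = 0) : x = 0 := by
  have h1 := (Finset.sum_eq_zero_iff_of_nonneg
    (fun i _ => sq_nonneg (((Module.finBasis ℝ E).coord i) x))).1 h
  rw [← (Module.finBasis ℝ E).forall_coord_eq_zero_iff]
  intro i
  simpa using h1 i (Finset.mem_univ i)

end Metric

section RightInverse

variable {E : Type*} [NormedAddCommGroup E] [NormedSpace ℝ E] [FiniteDimensional ℝ E]
variable {P : Type*} [NormedAddCommGroup P] [NormedSpace ℝ P] [FiniteDimensional ℝ P]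

/-- transposition -/
def tr : (E →L[ℝ] P) →L[ℝ] ((P →L[ℝ] ℝ) →L[ℝ] (E →L[ℝ] ℝ)) :=
  (ContinuousLinearMap.compL ℝ E P ℝ).flip

@[simp] theorem tr_apply (A : E →L[ℝ] P) (φ : P →L[ℝ] ℝ) : tr A φ = φ.comp A := rfl

/-- `A B Aᵗ` -/
def gram (A : E →L[ℝ] P) : (P →L[ℝ] ℝ) →L[ℝ] P := A.comp ((dm E).comp (tr A))

/-- a right inverse -/
def rinv (A : E →L[ℝ] P) : P →L[ℝ] E := ((dm E).comp (tr A)).comp (gram A).inverse

theorem contDiff_tr {n : WithTop ℕ∞} : ContDiff ℝ n fun A : E →L[ℝ] P => tr A := by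
  apply ContinuousLinearMap.contDiff

theorem contDiff_dmtr {n : WithTop ℕ∞} : ContDiff ℝ n fun A : E →L[ℝ] P => (dm E).comp (tr A) :=
  ContDiff.clm_comp (g := fun _ : E →L[ℝ] P => dm E) contDiff_const contDiff_tr

theorem contDiff_gram {n : WithTop ℕ∞} : ContDiff ℝ n (gram (E := E) (P := P)) :=
  ContDiff.clm_comp (g := fun A : E →L[ℝ] P => A) contDiff_id contDiff_dmtr

theorem gram_invertible {A : E →L[ℝ] P} (hA : Function.Surjective A) :
    ∃ e : (P →L[ℝ] ℝ) ≃L[ℝ] P, (e : (P →L[ℝ] ℝ) →L[ℝ] P) = gram A := by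
  have hinj : Function.Injective (gram A) := by
    rw [injective_iff_map_eq_zero]
    intro φ hφ
    have h1 : (φ.comp A) (dm E (φ.comp A)) = 0 := by
      have : (φ.comp A) (dm E (φ.comp A)) = φ (gram A φ) := rfl
      rw [this, hφ, map_zero]
    have h2 := dm_pos h1
    ext p
    obtain ⟨x, rfl⟩ := hA p
    exact congrArg (fun ψ : E →L[ℝ] ℝ => ψ x) h2
  have hdim : Module.finrank ℝ (P →L[ℝ] ℝ) = Module.finrank ℝ P := by
    rw [← LinearEquiv.finrank_eq (LinearMap.toContinuousLinearMap (𝕜 := ℝ) (E := P) (F' := ℝ))]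
    exact Subspace.dual_finrank_eq
  let e := LinearEquiv.ofInjectiveOfFinrankEq ((gram A : (P →L[ℝ] ℝ) →L[ℝ] P) :
    (P →L[ℝ] ℝ) →ₗ[ℝ] P) hinj hdim
  refine ⟨e.toContinuousLinearEquiv, ?_⟩
  ext φ
  rfl

theorem rinv_spec {A : E →L[ℝ] P} (hA : ∃ e : (P →L[ℝ] ℝ) ≃L[ℝ] P,
    (e : (P →L[ℝ] ℝ) →L[ℝ] P) = gram A) (b : P) : A (rinv A b) = b := by
  obtain ⟨e, he⟩ := hA
  have h1 : A (rinv A b) = gram A ((gram A).inverse b) := rfl
  rw [h1, ← he, ContinuousLinearMap.inverse_equiv]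
  simp

theorem contDiffAt_rinv {n : WithTop ℕ∞} {A : E →L[ℝ] P} (hA : ∃ e : (P →L[ℝ] ℝ) ≃L[ℝ] P,
    (e : (P →L[ℝ] ℝ) →L[ℝ] P) = gram A) : ContDiffAt ℝ n (rinv (E := E) (P := P)) A := by
  obtain ⟨e, he⟩ := hA
  have h1 : ContDiffAt ℝ n (fun A : E →L[ℝ] P => (gram A).inverse) A := by
    have h2 : ContDiffAt ℝ n ContinuousLinearMap.inverse (gram A) := by
      rw [← he]
      exact contDiffAt_map_inverse e
    exact ContDiffAt.comp (f := gram (E := E) (P := P)) A h2 contDiff_gram.contDiffAt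
  exact ContDiffAt.clm_comp (g := fun A : E →L[ℝ] P => (dm E).comp (tr A))
    (f := fun A : E →L[ℝ] P => (gram A).inverse) contDiff_dmtr.contDiffAt h1

theorem isOpen_good : IsOpen {A : E →L[ℝ] P | ∃ e : (P →L[ℝ] ℝ) ≃L[ℝ] P,
    (e : (P →L[ℝ] ℝ) →L[ℝ] P) = gram A} := by
  have h1 : IsOpen (range ((↑) : ((P →L[ℝ] ℝ) ≃L[ℝ] P) → ((P →L[ℝ] ℝ) →L[ℝ] P))) :=
    ContinuousLinearEquiv.isOpen
  exact h1.preimage (contDiff_gram (n := 0)).continuous

end RightInverse

variable {E : Type*} [NormedAddCommGroup E] [NormedSpace ℝ E] [FiniteDimensional ℝ E]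
variable {F : Type*} [NormedAddCommGroup F] [NormedSpace ℝ F] [FiniteDimensional ℝ F]
variable {G : Type*} [NormedAddCommGroup G] [NormedSpace ℝ G] [FiniteDimensional ℝ G]

/-- the derivative of `(ρ, H (t, ·))` -/
def dC (ρ : E → G) (H : ℝ × E → F) (p : ℝ × E) : E →L[ℝ] G × F :=
  (ContinuousLinearMap.inl ℝ G F).comp (fderiv ℝ ρ p.2) +
    (ContinuousLinearMap.inr ℝ G F).comp ((fderiv ℝ H p).comp (ContinuousLinearMap.inr ℝ ℝ E))

theorem dC_apply (ρ : E → G) (H : ℝ × E → F) (p : ℝ × E) (y : E) :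
    dC ρ H p y = (fderiv ℝ ρ p.2 y, fderiv ℝ H p (0, y)) := by
  simp [dC]

/-- the cut off function -/
def cut (δ : ℝ) (H : ℝ × E → F) (p : ℝ × E) : ℝ :=
  1 - Real.smoothTransition (2 * sqn F (H p) / δ - 1)

/-- the vector field -/
def fld (δ : ℝ) (ρ : E → G) (H : ℝ × E → F) (p : ℝ × E) : E :=
  -(cut δ H p • rinv (dC ρ H p) (0, fderiv ℝ H p (1, 0)))

theorem cut_eq_one {δ : ℝ} (hδ : 0 < δ) {H : ℝ × E → F} {p : ℝ × E} (h : sqn F (H p) ≤ δ / 2) :
    cut δ H p = 1 := by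
  unfold cut
  rw [Real.smoothTransition.zero_of_nonpos, sub_zero]
  rw [sub_nonpos, div_le_one hδ]
  linarith

theorem cut_eq_zero {δ : ℝ} (hδ : 0 < δ) {H : ℝ × E → F} {p : ℝ × E} (h : δ ≤ sqn F (H p)) :
    cut δ H p = 0 := by
  unfold cut
  rw [Real.smoothTransition.one_of_one_le, sub_self]
  rw [le_sub_iff_add_le, le_div_iff₀ hδ]
  linarith

/-- a function whose derivative vanishes while it is small is constant if it is small once -/
theorem const_of_small {u : ℝ → F} {s : Set F} (hs : IsOpen s)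
    (hu : ∀ t ∈ Icc (0 : ℝ) 1, ContinuousAt u t)
    (hu' : ∀ t ∈ Icc (0 : ℝ) 1, u t ∈ s → HasDerivAt u 0 t) {t₀ : ℝ} (ht₀ : t₀ ∈ Icc (0 : ℝ) 1)
    (h0 : u t₀ ∈ s) : ∀ t ∈ Icc (0 : ℝ) 1, u t = u t₀ := by
  have hclopen : IsClopen {t : Icc (0 : ℝ) 1 | u t = u t₀} := by
    have hcont : Continuous fun t : Icc (0 : ℝ) 1 => u t := by
      rw [continuous_iff_continuousAt]
      intro t
      exact ContinuousAt.comp (g := u) (hu t t.2) continuous_subtype_val.continuousAt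
    refine ⟨isClosed_eq hcont continuous_const, ?_⟩
    rw [isOpen_iff_mem_nhds]
    intro t ht
    have ht' : u t = u t₀ := ht
    have h1 : ∀ᶠ r in 𝓝 (t : ℝ), u r ∈ s := (hu t t.2).eventually (hs.mem_nhds (ht' ▸ h0))
    obtain ⟨ε, hε, hball⟩ := Metric.eventually_nhds_iff_ball.1 h1
    have h2 : ∀ᶠ r : Icc (0 : ℝ) 1 in 𝓝 t, (r : ℝ) ∈ Metric.ball (t : ℝ) ε :=
      continuous_subtype_val.continuousAt.eventually (Metric.ball_mem_nhds _ hε)
    filter_upwards [h2] with r hr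
    show u r = u t₀
    rw [← ht']
    refine eq_of_hasDerivAt_zero fun q hq => ?_
    have hq1 : q ∈ Icc (0 : ℝ) 1 := (convex_Icc (0 : ℝ) 1).ordConnected.uIcc_subset t.2 r.2 hq
    refine hu' q hq1 (hball q ?_)
    rw [Metric.mem_ball, Real.dist_eq] at hr ⊢
    exact lt_of_le_of_lt (abs_sub_left_of_mem_uIcc hq) hr
  have huniv := hclopen.eq_univ ⟨⟨t₀, ht₀⟩, rfl⟩
  intro t ht
  have : (⟨t, ht⟩ : Icc (0 : ℝ) 1) ∈ {t : Icc (0 : ℝ) 1 | u t = u t₀} := by
    rw [huniv]; trivial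
  exact this

/-- **Ehresmann's lemma for a path of functions on a compact level set.** -/
theorem ehresmann {ρ : E → G} {c : G} (hK : IsCompact (ρ ⁻¹' {c}))
    {U : Set (ℝ × E)} (hU : IsOpen U) (hKU : Icc (0 : ℝ) 1 ×ˢ (ρ ⁻¹' {c}) ⊆ U)
    (hρ : ∀ p ∈ U, ContDiffAt ℝ 2 ρ p.2) {H : ℝ × E → F} (hH : ContDiffOn ℝ 2 H U)
    (hreg : ∀ t ∈ Icc (0 : ℝ) 1, ∀ x, ρ x = c → H (t, x) = 0 →
      ∀ (a : G) (b : F), ∃ y : E, fderiv ℝ ρ x y = a ∧ fderiv ℝ H (t, x) (0, y) = b) :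
    ∃ (Φ : Icc (0 : ℝ) 1 → ((ρ ⁻¹' {c} : Set E) ≃ₜ (ρ ⁻¹' {c} : Set E))) (δ : ℝ), 0 < δ ∧
      (Continuous fun p : Icc (0 : ℝ) 1 × (ρ ⁻¹' {c} : Set E) => Φ p.1 p.2) ∧
      (Continuous fun p : Icc (0 : ℝ) 1 × (ρ ⁻¹' {c} : Set E) => (Φ p.1).symm p.2) ∧
      (∀ x, Φ ⟨0, by simp⟩ x = x) ∧
      (∀ (x : (ρ ⁻¹' {c} : Set E)) (s t : Icc (0 : ℝ) 1),
        ‖H (s, Φ s x)‖ < δ → H (t, Φ t x) = H (s, Φ s x)) ∧
      (∀ x : (ρ ⁻¹' {c} : Set E), (∀ t ∈ Icc (0 : ℝ) 1, fderiv ℝ H (t, (x : E)) (1, 0) = 0) →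
        ∀ t, Φ t x = x) := by
  classical
  -- continuity of the derivative
  have hdC : ContDiffOn ℝ 1 (dC ρ H) U := by
    intro p hp
    refine ContDiffAt.contDiffWithinAt ?_
    have h1 : ContDiffAt ℝ 1 (fun p : ℝ × E => fderiv ℝ ρ p.2) p :=
      ((hρ p hp).fderiv_right (m := 1) (by norm_num)).comp p contDiffAt_snd
    have h2 : ContDiffAt ℝ 1 (fderiv ℝ H) p :=
      ((hH p hp).contDiffAt (hU.mem_nhds hp)).fderiv_right (m := 1) (by norm_num)
    exact (contDiffAt_const.clm_comp h1).add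
      (contDiffAt_const.clm_comp (h2.clm_comp contDiffAt_const))
  set Q : Set (E →L[ℝ] G × F) := {A | ∃ e : ((G × F) →L[ℝ] ℝ) ≃L[ℝ] (G × F),
    (e : ((G × F) →L[ℝ] ℝ) →L[ℝ] (G × F)) = gram A} with hQ
  have hQo : IsOpen Q := isOpen_good
  set U₁ : Set (ℝ × E) := U ∩ dC ρ H ⁻¹' Q with hU₁
  have hU₁o : IsOpen U₁ := hdC.continuousOn.isOpen_inter_preimage hU hQo
  have hNH : ContDiffOn ℝ 2 (fun p => sqn F (H p)) U := contDiff_sqn.comp_contDiffOn hH
  -- the bad set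
  set K' : Set (ℝ × E) := Icc (0 : ℝ) 1 ×ˢ (ρ ⁻¹' {c}) with hK'
  have hK'c : IsCompact K' := isCompact_Icc.prod hK
  have hbad : IsCompact (K' \ U₁) := hK'c.diff hU₁o
  obtain ⟨δ, hδ, hδb⟩ : ∃ δ : ℝ, 0 < δ ∧ ∀ p ∈ K' \ U₁, δ < sqn F (H p) := by
    rcases (K' \ U₁).eq_empty_or_nonempty with h | h
    · exact ⟨1, one_pos, fun p hp => by rw [h] at hp; exact hp.elim⟩
    · obtain ⟨p, hp, hmin⟩ := hbad.exists_isMinOn h
        (hNH.continuousOn.mono fun q hq => hKU hq.1)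
      have hpos : 0 < sqn F (H p) := by
        refine lt_of_le_of_ne (sqn_nonneg _) fun h0 => hp.2 ?_
        have h1 := sqn_eq_zero h0.symm
        refine ⟨hKU hp.1, gram_invertible ?_⟩
        rintro ⟨a, b⟩
        have hp1 := hp.1
        rw [hK'] at hp1
        obtain ⟨y, hy1, hy2⟩ := hreg p.1 hp1.1 p.2 hp1.2 h1 a b
        exact ⟨y, by rw [dC_apply]; exact Prod.ext hy1 hy2⟩
      refine ⟨sqn F (H p) / 2, by positivity, fun q hq => ?_⟩
      have := hmin hq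
      simp only [mem_ofPred_eq] at this
      linarith
  set U₂ : Set (ℝ × E) := U ∩ (fun p => sqn F (H p)) ⁻¹' Ioi δ with hU₂
  have hU₂o : IsOpen U₂ := hNH.continuousOn.isOpen_inter_preimage hU isOpen_Ioi
  have hU' : IsOpen (U₁ ∪ U₂) := hU₁o.union hU₂o
  have hsub : U₁ ∪ U₂ ⊆ U := union_subset inter_subset_left inter_subset_left
  have hKU' : K' ⊆ U₁ ∪ U₂ := by
    intro p hp
    by_cases h : p ∈ U₁
    · exact Or.inl h
    · exact Or.inr ⟨hKU hp, hδb p ⟨hp, h⟩⟩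
  -- smoothness of the field
  have hfld : ContDiffOn ℝ 1 (fld δ ρ H) (U₁ ∪ U₂) := by
    intro p hp
    refine ContDiffAt.contDiffWithinAt ?_
    rcases hp with hp | hp
    · have hHp : ContDiffAt ℝ 2 H p := (hH p hp.1).contDiffAt (hU.mem_nhds hp.1)
      have h1 : ContDiffAt ℝ 1 (cut δ H) p := by
        unfold cut
        refine contDiffAt_const.sub ?_
        refine (Real.smoothTransition.contDiff (n := 1)).contDiffAt.comp p ?_
        refine ContDiffAt.sub ?_ contDiffAt_const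
        refine ContDiffAt.div_const (contDiffAt_const.mul ?_) δ
        exact (contDiff_sqn.contDiffAt.comp p hHp).of_le (by norm_num)
      have h2 : ContDiffAt ℝ 1 (fun p => rinv (dC ρ H p)) p := by
        have h3 : ContDiffAt ℝ 1 (dC ρ H) p := (hdC p hp.1).contDiffAt (hU.mem_nhds hp.1)
        exact (contDiffAt_rinv hp.2).comp p h3
      have h4 : ContDiffAt ℝ 1 (fun p => ((0 : G), fderiv ℝ H p (1, 0))) p := by
        have h5 : ContDiffAt ℝ 1 (fderiv ℝ H) p := hHp.fderiv_right (m := 1) (by norm_num)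
        exact contDiffAt_const.prodMk (h5.clm_apply contDiffAt_const)
      exact (h1.smul (h2.clm_apply h4)).neg
    · have h1 : fld δ ρ H =ᶠ[𝓝 p] fun _ => 0 := by
        filter_upwards [hU₂o.mem_nhds hp] with q hq
        have hq2 : δ < sqn F (H q) := hq.2
        unfold fld
        rw [cut_eq_zero hδ hq2.le, zero_smul, neg_zero]
      exact contDiffAt_const.congr_of_eventuallyEq h1
  -- values
  have hval : ∀ p ∈ U₁ ∪ U₂, fderiv ℝ ρ p.2 (fld δ ρ H p) = 0 ∧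
      fderiv ℝ H p (0, fld δ ρ H p) = -(cut δ H p • fderiv ℝ H p (1, 0)) := by
    intro p hp
    rcases hp with hp | hp
    · have h1 := rinv_spec hp.2 ((0 : G), fderiv ℝ H p (1, 0))
      rw [dC_apply] at h1
      have h2 : fderiv ℝ ρ p.2 (rinv (dC ρ H p) (0, fderiv ℝ H p (1, 0))) = 0 :=
        congrArg Prod.fst h1
      have h3 : fderiv ℝ H p (0, rinv (dC ρ H p) (0, fderiv ℝ H p (1, 0))) =
        fderiv ℝ H p (1, 0) := congrArg Prod.snd h1
      constructor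
      · unfold fld
        rw [map_neg, map_smul, h2, smul_zero, neg_zero]
      · have h4 : ((0 : ℝ), fld δ ρ H p) =
            -(cut δ H p • ((0 : ℝ), rinv (dC ρ H p) (0, fderiv ℝ H p (1, 0)))) := by
          refine Prod.ext ?_ rfl
          simp
        rw [h4, map_neg, map_smul, h3]
    · have hq2 : δ < sqn F (H p) := hp.2
      have h0 : fld δ ρ H p = 0 := by
        unfold fld
        rw [cut_eq_zero hδ hq2.le, zero_smul, neg_zero]
      constructor
      · rw [h0, map_zero]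
      · rw [h0, cut_eq_zero hδ hq2.le, zero_smul, neg_zero]
        exact map_zero _
  obtain ⟨Φ, γ, hΦ, hΦs, hΦ0, hγ, hγd, hfix⟩ := exists_isotopy hK hU' hKU' hfld
    (fun p hp => (hρ p (hsub hp)).differentiableAt (by norm_num)) (fun p hp => (hval p hp).1)
  -- smallness in the norm
  obtain ⟨ε, hε, hεb⟩ : ∃ ε > 0, ∀ b : F, ‖b‖ < ε → sqn F b < δ / 2 := by
    have h1 : ∀ᶠ b in 𝓝 (0 : F), sqn F b < δ / 2 :=
      (contDiff_sqn (n := 0)).continuous.continuousAt.eventually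
        (gt_mem_nhds (by rw [sqn_zero]; positivity))
    obtain ⟨ε, hε, hb⟩ := Metric.eventually_nhds_iff_ball.1 h1
    exact ⟨ε, hε, fun b hb' => hb b (by rwa [mem_ball_zero_iff])⟩
  refine ⟨Φ, ε, hε, hΦ, hΦs, hΦ0, fun x s t hs => ?_, fun x hx t => ?_⟩
  · have hmemK : ∀ r ∈ Icc (0 : ℝ) 1, (r, γ x r) ∈ K' := fun r hr => by
      rw [show γ x r = Φ ⟨r, hr⟩ x from hγ x ⟨r, hr⟩]
      exact ⟨hr, (Φ ⟨r, hr⟩ x).2⟩
    have hder : ∀ r ∈ Icc (0 : ℝ) 1, HasDerivAt (fun r => H (r, γ x r))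
        (fderiv ℝ H (r, γ x r) (1, fld δ ρ H (r, γ x r))) r := by
      intro r hr
      have h1 : DifferentiableAt ℝ H (r, γ x r) :=
        ((hH _ (hKU (hmemK r hr))).contDiffAt (hU.mem_nhds (hKU (hmemK r hr)))).differentiableAt
          (by norm_num)
      have h2 := (hasDerivAt_id r).prodMk (hγd x r hr)
      exact h1.hasFDerivAt.comp_hasDerivAt r h2
    have key := const_of_small (F := F) (u := fun r => H (r, γ x r)) (s := {b | sqn F b < δ / 2})
      (isOpen_lt (contDiff_sqn (n := 0)).continuous continuous_const)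
      (fun r hr => (hder r hr).continuousAt) (fun r hr hsm => ?_) s.2 (?_) t t.2
    · simp only [hγ] at key
      exact key
    · have h1 := hder r hr
      have h2 := (hval _ (hKU' (hmemK r hr))).2
      have hsm' : sqn F (H (r, γ x r)) < δ / 2 := hsm
      rw [cut_eq_one hδ hsm'.le, one_smul] at h2
      have h3 : ((1 : ℝ), fld δ ρ H (r, γ x r)) = (1, 0) + (0, fld δ ρ H (r, γ x r)) := by
        simp
      rw [h3, map_add, h2, add_neg_cancel] at h1
      exact h1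
    · show sqn F (H (s, γ x s)) < δ / 2
      rw [hγ]
      exact hεb _ hs
  · refine hfix x (fun r hr => ?_) t
    unfold fld
    rw [hx r hr]
    have : ((0 : G), (0 : F)) = 0 := rfl
    rw [this, map_zero, smul_zero, neg_zero]

end Crest.Agent.R267.Reg_808
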