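import Crest.Agent.R267.FlTop_363
import Crest.Agent.R267.FlowG_951
import Crest.Agent.R267.Reg_808

/-!
# Row 267 (helper363): the flow-line theorem (FL), differentiable version on a level set `{ρ = 1}`
-/

set_option autoImplicit false
set_option linter.unusedSectionVars false
set_option linter.unusedVariables false

noncomputable section

open Set Filter Topology Metric
open scoped NNReal ContDiff Manifold
open Crest.Agent.R267.Reg_808 Crest.Agent.R267.FlowG_951 Crest.Agent.R267.FlTop_363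

namespace Crest.Agent.R267.FlowLine_363

/-! ### crossing -/

/-- `u` crosses `0` upwards at `t`. -/
def Cross (u : ℝ → ℝ) (t : ℝ) : Prop :=
  (∀ᶠ s in 𝓝[>] t, 0 < u s) ∧ (∀ᶠ s in 𝓝[<] t, u s < 0)

theorem cross_of_hasDerivAt {u : ℝ → ℝ} {t d : ℝ} (h : HasDerivAt u d t) (h0 : u t = 0)
    (hd : 0 < d) : Cross u t := by
  have h1 := h.tendsto_slope
  have h2 : ∀ᶠ s in 𝓝[≠] t, 0 < slope u t s := h1.eventually_const_lt hd
  constructor
  · have h3 : ∀ᶠ s in 𝓝[>] t, 0 < slope u t s :=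
      nhdsWithin_mono t (fun s (hs : t < s) => hs.ne') h2
    filter_upwards [h3, self_mem_nhdsWithin] with s hs hs'
    have hs'' : 0 < s - t := sub_pos.2 hs'
    rw [slope_def_field, h0, sub_zero] at hs
    have := mul_pos hs hs''
    rwa [div_mul_cancel₀ _ hs''.ne'] at this
  · have h3 : ∀ᶠ s in 𝓝[<] t, 0 < slope u t s :=
      nhdsWithin_mono t (fun s (hs : s < t) => hs.ne) h2
    filter_upwards [h3, self_mem_nhdsWithin] with s hs hs'
    have hs'' : s - t < 0 := sub_neg.2 hs'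
    rw [slope_def_field, h0, sub_zero] at hs
    have := mul_neg_of_pos_of_neg hs hs''
    rwa [div_mul_cancel₀ _ hs''.ne] at this

theorem pos_of_cross {u : ℝ → ℝ} (hu : Continuous u) (hc : ∀ t, u t = 0 → Cross u t)
    (h0 : 0 ≤ u 0) {t : ℝ} (ht : 0 < t) : 0 < u t := by
  by_contra hneg
  have hneg' : u t ≤ 0 := not_lt.1 hneg
  -- a point with `u > 0`
  obtain ⟨r, hr0, hrt, hr⟩ : ∃ r, 0 ≤ r ∧ r < t ∧ 0 < u r := by
    rcases eq_or_lt_of_le h0 with h1 | h1
    · have h2 := (hc 0 h1.symm).1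
      have h3 : ∀ᶠ s in 𝓝[>] (0 : ℝ), s < t := by
        filter_upwards [Ioo_mem_nhdsGT ht] with s hs using hs.2
      obtain ⟨s, hs1, hs2, hs3⟩ := (h2.and (h3.and self_mem_nhdsWithin)).exists
      exact ⟨s, le_of_lt hs3, hs2, hs1⟩
    · exact ⟨0, le_rfl, ht, h1⟩
  -- the first zero after `r`
  let Z : Set ℝ := {s | s ∈ Icc r t ∧ u s ≤ 0}
  have hZc : IsCompact Z := by
    have h1 : IsClosed {s | u s ≤ 0} := isClosed_le hu continuous_const
    exact isCompact_Icc.inter_right h1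
  have hZn : Z.Nonempty := ⟨t, ⟨hrt.le, le_rfl⟩, hneg'⟩
  have hs := hZc.sInf_mem hZn
  set s := sInf Z with hsdef
  have hbd : BddBelow Z := ⟨r, fun x hx => hx.1.1⟩
  have hlt : ∀ q, r ≤ q → q < s → 0 < u q := by
    intro q hq1 hq2
    by_contra h1
    have h2 : q ∈ Z := ⟨⟨hq1, hq2.le.trans hs.1.2⟩, not_lt.1 h1⟩
    exact absurd (csInf_le hbd h2) (not_le.2 hq2)
  have hrs : r < s := by
    rcases eq_or_lt_of_le hs.1.1 with h1 | h1
    · have h2 := hs.2
      rw [← h1] at h2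
      exact absurd hr (not_lt.2 h2)
    · exact h1
  have hs0 : u s = 0 := by
    refine le_antisymm hs.2 ?_
    have h1 : ∀ᶠ q in 𝓝[<] s, 0 ≤ u q := by
      filter_upwards [Ioo_mem_nhdsLT hrs] with q hq using (hlt q hq.1.le hq.2).le
    exact ge_of_tendsto (hu.continuousAt.mono_left nhdsWithin_le_nhds) h1
  have h2 := (hc s hs0).2
  have h3 : ∀ᶠ q in 𝓝[<] s, 0 < u q := by
    filter_upwards [Ioo_mem_nhdsLT hrs] with q hq using hlt q hq.1.le hq.2
  obtain ⟨q, hq1, hq2⟩ := (h2.and h3).exists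
  linarith

/-! ### Lipschitz fields of compact support -/

section Lip

variable {E F : Type*} [NormedAddCommGroup E] [NormedSpace ℝ E] [FiniteDimensional ℝ E]
  [NormedAddCommGroup F]

theorem lipschitz_of_compact_support {V : E → F} (hV : LocallyLipschitz V) {S : Set E}
    (hS : Bornology.IsBounded S) (h0 : ∀ x ∉ S, V x = 0) : ∃ K : ℝ≥0, LipschitzWith K V := by
  have : ProperSpace E := FiniteDimensional.proper_real E
  obtain ⟨R, hR⟩ := hS.subset_closedBall (0 : E)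
  have hcpt : IsCompact (closedBall (0 : E) (R + 1)) := isCompact_closedBall _ _
  obtain ⟨C, hC⟩ := (hV.locallyLipschitzOn (s := closedBall (0 : E) (R + 1))).exists_lipschitzOnWith_of_compact
    hcpt
  obtain ⟨M, hM⟩ := hcpt.exists_bound_of_continuousOn hV.continuous.continuousOn
  have hM' : ∀ x ∈ closedBall (0 : E) (R + 1), ‖V x‖ ≤ M.toNNReal := fun x hx =>
    (hM x hx).trans (Real.le_coe_toNNReal M)
  have key : ∀ x y : E, x ∈ closedBall (0 : E) (R + 1) → y ∉ closedBall (0 : E) (R + 1) →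
      dist (V x) (V y) ≤ (max C M.toNNReal : ℝ≥0) * dist x y := by
    intro x y hx hy
    have hyS : y ∉ S := fun h => hy (closedBall_subset_closedBall (by linarith) (hR h))
    rw [h0 y hyS]
    by_cases hxS : x ∈ S
    · have h1 : dist x 0 ≤ R := hR hxS
      have h2 : R + 1 < dist y 0 := by
        rw [mem_closedBall, not_le] at hy
        exact hy
      have h3 : 1 ≤ dist x y := by
        have := dist_triangle_left y 0 x
        linarith
      rw [dist_zero_right]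
      calc ‖V x‖ ≤ M.toNNReal := hM' x hx
        _ ≤ (max C M.toNNReal : ℝ≥0) := by exact_mod_cast le_max_right _ _
        _ ≤ (max C M.toNNReal : ℝ≥0) * dist x y := le_mul_of_one_le_right NNReal.zero_le_coe h3
    · rw [h0 x hxS, dist_self]
      positivity
  refine ⟨max C M.toNNReal, LipschitzWith.of_dist_le_mul fun x y => ?_⟩
  by_cases hx : x ∈ closedBall (0 : E) (R + 1) <;> by_cases hy : y ∈ closedBall (0 : E) (R + 1)
  · refine (hC.dist_le_mul x hx y hy).trans ?_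
    exact mul_le_mul_of_nonneg_right (by exact_mod_cast le_max_left _ _) dist_nonneg
  · exact key x y hx hy
  · rw [dist_comm, dist_comm x y]
    exact key y x hy hx
  · have hxS : x ∉ S := fun h => hx (closedBall_subset_closedBall (by linarith) (hR h))
    have hyS : y ∉ S := fun h => hy (closedBall_subset_closedBall (by linarith) (hR h))
    rw [h0 x hxS, h0 y hyS, dist_self]
    positivity

end Lip

/-! ### the hypotheses -/

variable {E : Type*} [NormedAddCommGroup E] [NormedSpace ℝ E] [FiniteDimensional ℝ E]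
variable {ι : Type*} [Fintype ι] [Nonempty ι]

/-- the maximum of the functions `a i` -/
def mx (a : ι → E → ℝ) (x : E) : ℝ := Finset.univ.sup' Finset.univ_nonempty fun i => a i x

theorem mx_le_iff {a : ι → E → ℝ} {x : E} {r : ℝ} : mx a x ≤ r ↔ ∀ i, a i x ≤ r := by
  unfold mx
  simp

theorem le_mx (a : ι → E → ℝ) (x : E) (i : ι) : a i x ≤ mx a x :=
  Finset.le_sup' (fun i => a i x) (Finset.mem_univ i)

theorem exists_mx (a : ι → E → ℝ) (x : E) : ∃ i, mx a x = a i x := by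
  obtain ⟨i, -, hi⟩ := Finset.exists_mem_eq_sup' Finset.univ_nonempty fun i => a i x
  exact ⟨i, hi⟩

theorem mx_lt_iff {a : ι → E → ℝ} {x : E} {r : ℝ} : mx a x < r ↔ ∀ i, a i x < r := by
  unfold mx
  simp

/-- `(dρ, dc)` -/
def dA (ρ c : E → ℝ) (x : E) : E →L[ℝ] ℝ × ℝ := (fderiv ℝ ρ x).prod (fderiv ℝ c x)

/-- projection to the kernel -/
def prj (A : E →L[ℝ] ℝ × ℝ) (y : E) : E := y - rinv A (A y)

/-- invertibility of the Gram operator -/
def Good (A : E →L[ℝ] ℝ × ℝ) : Prop :=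
  ∃ e : ((ℝ × ℝ) →L[ℝ] ℝ) ≃L[ℝ] ℝ × ℝ, (e : ((ℝ × ℝ) →L[ℝ] ℝ) →L[ℝ] ℝ × ℝ) = gram A

theorem prj_spec {A : E →L[ℝ] ℝ × ℝ} (h : Good A) (y : E) : A (prj A y) = 0 := by
  unfold prj
  rw [map_sub, rinv_spec h, sub_self]

theorem prj_of_ker {A : E →L[ℝ] ℝ × ℝ} {y : E} (h : A y = 0) : prj A y = y := by
  unfold prj
  rw [h, map_zero, sub_zero]

theorem prj_add (A : E →L[ℝ] ℝ × ℝ) (y z : E) : prj A (y + z) = prj A y + prj A z := by
  unfold prj
  rw [map_add, map_add]
  abel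

theorem prj_smul (A : E →L[ℝ] ℝ × ℝ) (r : ℝ) (y : E) : prj A (r • y) = r • prj A y := by
  unfold prj
  rw [map_smul, map_smul, smul_sub]

theorem contDiffAt_prj {q : (E →L[ℝ] ℝ × ℝ) × E} (h : Good q.1) :
    ContDiffAt ℝ 1 (fun q : (E →L[ℝ] ℝ × ℝ) × E => prj q.1 q.2) q := by
  unfold prj
  have h2 : ContDiffAt ℝ 1 (fun q : (E →L[ℝ] ℝ × ℝ) × E => rinv q.1) q :=
    ContDiffAt.comp (g := rinv) (f := fun q : (E →L[ℝ] ℝ × ℝ) × E => q.1) q
      (contDiffAt_rinv h) contDiffAt_fst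
  exact contDiffAt_snd.sub (h2.clm_apply (contDiffAt_fst.clm_apply contDiffAt_snd))

/-- hypotheses of the flow-line theorem -/
structure Hyp (ρ c g φ : E → ℝ) (a : ι → E → ℝ) (U : Set E) : Prop where
  cpt : IsCompact {x | ρ x = 1}
  oU : IsOpen U
  sub : ∀ x, ρ x = 1 → x ∈ U
  dρ : ∀ x ∈ U, DifferentiableAt ℝ ρ x
  dc : ∀ x ∈ U, DifferentiableAt ℝ c x
  lρ : LocallyLipschitzOn U (fderiv ℝ ρ)
  lc : LocallyLipschitzOn U (fderiv ℝ c)
  cg : ContinuousOn g {x | ρ x = 1}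
  ca : ∀ i, ContinuousOn (a i) {x | ρ x = 1}
  h1 : ∀ x, ρ x = 1 → c x = 0 → ∀ i, 0 ≤ a i x → 0 < g x
  h2 : ∀ x, ρ x = 1 → c x = 0 → 0 ≤ g x → (∀ i, a i x ≤ 0) →
    Function.Surjective (dA ρ c x) ∧ ContDiffAt ℝ 1 g x ∧ ContDiffAt ℝ 1 φ x ∧ 0 < φ x ∧
    ∃ y, fderiv ℝ ρ x y = 0 ∧ fderiv ℝ c x y = 0 ∧
      0 < φ x * fderiv ℝ g x y - g x * fderiv ℝ φ x y ∧
      ∀ i, a i x = 0 → ContDiffAt ℝ 1 (a i) x ∧ 0 < fderiv ℝ (a i) x y

namespace Hyp

variable {ρ c g φ : E → ℝ} {a : ι → E → ℝ} {U : Set E}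

/-- the part of the local condition not involving the vector -/
def Stat (ρ c g φ : E → ℝ) (U : Set E) (x : E) : Prop :=
  x ∈ U ∧ Good (dA ρ c x) ∧ ContDiffAt ℝ 1 g x ∧ ContDiffAt ℝ 1 φ x ∧ 0 < φ x

/-- the condition on the vector -/
def Cond (ρ c g φ : E → ℝ) (a : ι → E → ℝ) (x y : E) : Prop :=
  0 < φ x * fderiv ℝ g x (prj (dA ρ c x) y) - g x * fderiv ℝ φ x (prj (dA ρ c x) y) ∧
    ∀ i, ρ x = 1 → a i x = 0 →
      DifferentiableAt ℝ (a i) x ∧ 0 < fderiv ℝ (a i) x (prj (dA ρ c x) y)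

theorem convex_cond (x : E) : Convex ℝ {y | Cond ρ c g φ a x y} := by
  have key : ∀ (L : E → ℝ), (∀ y z, L (y + z) = L y + L z) → (∀ (r : ℝ) y, L (r • y) = r * L y) →
      Convex ℝ {y | 0 < L y} := by
    intro L h1 h2 y hy z hz s t hs ht hst
    simp only [mem_ofPred_eq] at *
    rw [h1, h2, h2]
    rcases eq_or_lt_of_le hs with h | h
    · have : t = 1 := by linarith
      rw [← h, this]
      linarith
    · have h3 : 0 < s * L y := mul_pos h hy
      have h4 : 0 ≤ t * L z := mul_nonneg ht hz.le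
      linarith
  have e : {y | Cond ρ c g φ a x y} =
      {y | 0 < φ x * fderiv ℝ g x (prj (dA ρ c x) y) - g x * fderiv ℝ φ x (prj (dA ρ c x) y)} ∩
      ⋂ i, {y | ρ x = 1 → a i x = 0 →
        DifferentiableAt ℝ (a i) x ∧ 0 < fderiv ℝ (a i) x (prj (dA ρ c x) y)} := by
    ext y
    simp only [Cond, mem_ofPred_eq, mem_inter_iff, mem_iInter]
  rw [e]
  refine Convex.inter ?_ (convex_iInter fun i => ?_)
  · refine key (fun y => φ x * fderiv ℝ g x (prj (dA ρ c x) y) -
      g x * fderiv ℝ φ x (prj (dA ρ c x) y)) (fun y z => ?_) (fun r y => ?_)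
    · simp only [prj_add, map_add]
      ring
    · simp only [prj_smul, map_smul, smul_eq_mul]
      ring
  · by_cases h1 : ρ x = 1 ∧ a i x = 0 ∧ DifferentiableAt ℝ (a i) x
    · have e2 : {y | ρ x = 1 → a i x = 0 →
          DifferentiableAt ℝ (a i) x ∧ 0 < fderiv ℝ (a i) x (prj (dA ρ c x) y)} =
          {y | 0 < fderiv ℝ (a i) x (prj (dA ρ c x) y)} := by
        ext y
        exact ⟨fun h => (h h1.1 h1.2.1).2, fun h _ _ => ⟨h1.2.2, h⟩⟩
      rw [e2]
      refine key (fun y => fderiv ℝ (a i) x (prj (dA ρ c x) y)) (fun y z => ?_) (fun r y => ?_)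
      · simp only [prj_add, map_add]
      · simp only [prj_smul, map_smul, smul_eq_mul]
    · intro y hy z hz s t _ _ _ h2 h3
      exact absurd ⟨h2, h3, (hy h2 h3).1⟩ h1

theorem continuousAt_dA (H : Hyp ρ c g φ a U) {x : E} (hx : x ∈ U) :
    ContinuousAt (dA ρ c) x := by
  have h1 : ContinuousAt (fderiv ℝ ρ) x :=
    (H.lρ.continuousOn x hx).continuousAt (H.oU.mem_nhds hx)
  have h2 : ContinuousAt (fderiv ℝ c) x :=
    (H.lc.continuousOn x hx).continuousAt (H.oU.mem_nhds hx)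
  have h3 : dA ρ c = fun x => ContinuousLinearMap.prodₗᵢ ℝ (fderiv ℝ ρ x, fderiv ℝ c x) := by
    funext x
    rfl
  rw [h3]
  exact (ContinuousLinearMap.prodₗᵢ ℝ).continuous.continuousAt.comp (h1.prodMk h2)

/-- the local condition near a point of `C₀` -/
theorem local_cond (H : Hyp ρ c g φ a U) {x : E} (hx : ρ x = 1) (hc : c x = 0) (hg : 0 ≤ g x)
    (ha : ∀ i, a i x ≤ 0) :
    ∃ y, ∀ᶠ x' in 𝓝 x, Stat ρ c g φ U x' ∧ Cond ρ c g φ a x' y := by
  obtain ⟨hs, hdg, hdφ, hφ, y, hy1, hy2, hy3, hy4⟩ := H.h2 x hx hc hg ha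
  have hxU := H.sub x hx
  have hgood : Good (dA ρ c x) := gram_invertible hs
  have hAy : dA ρ c x y = 0 := by
    show (fderiv ℝ ρ x y, fderiv ℝ c x y) = 0
    rw [hy1, hy2]
    rfl
  have hAc := H.continuousAt_dA hxU
  have hpc : ContinuousAt (fun x' => prj (dA ρ c x') y) x := by
    have h1 := (contDiffAt_prj (q := (dA ρ c x, y)) hgood).continuousAt
    exact ContinuousAt.comp (g := fun q : (E →L[ℝ] ℝ × ℝ) × E => prj q.1 q.2)
      (f := fun x' => (dA ρ c x', y)) h1 (hAc.prodMk continuousAt_const)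
  have hp : prj (dA ρ c x) y = y := prj_of_ker hAy
  have happ : ∀ {f : E → ℝ}, ContDiffAt ℝ 1 f x →
      ContinuousAt (fun x' => fderiv ℝ f x' (prj (dA ρ c x') y)) x := by
    intro f hf
    exact (hf.continuousAt_fderiv one_ne_zero).clm_apply hpc
  refine ⟨y, ?_⟩
  have e1 : ∀ᶠ x' in 𝓝 x, x' ∈ U := H.oU.mem_nhds hxU
  have e2 : ∀ᶠ x' in 𝓝 x, Good (dA ρ c x') := hAc.preimage_mem_nhds (isOpen_good.mem_nhds hgood)
  have e3 : ∀ᶠ x' in 𝓝 x, ContDiffAt ℝ 1 g x' := hdg.eventually (by simp)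
  have e4 : ∀ᶠ x' in 𝓝 x, ContDiffAt ℝ 1 φ x' := hdφ.eventually (by simp)
  have e5 : ∀ᶠ x' in 𝓝 x, 0 < φ x' := continuousAt_const.eventually_lt hdφ.continuousAt hφ
  have e6 : ∀ᶠ x' in 𝓝 x, 0 < φ x' * fderiv ℝ g x' (prj (dA ρ c x') y) -
      g x' * fderiv ℝ φ x' (prj (dA ρ c x') y) := by
    have h1 : ContinuousAt (fun x' => φ x' * fderiv ℝ g x' (prj (dA ρ c x') y) -
        g x' * fderiv ℝ φ x' (prj (dA ρ c x') y)) x :=
      (hdφ.continuousAt.mul (happ hdg)).sub (hdg.continuousAt.mul (happ hdφ))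
    refine continuousAt_const.eventually_lt h1 ?_
    rw [hp]
    exact hy3
  have e7 : ∀ i, ∀ᶠ x' in 𝓝 x, ρ x' = 1 → a i x' = 0 →
      DifferentiableAt ℝ (a i) x' ∧ 0 < fderiv ℝ (a i) x' (prj (dA ρ c x') y) := by
    intro i
    rcases eq_or_lt_of_le (ha i) with h | h
    · obtain ⟨k1, k2⟩ := hy4 i h
      have h1 := continuousAt_const.eventually_lt (happ k1) (by rw [hp]; exact k2)
      have h2 : ∀ᶠ x' in 𝓝 x, ContDiffAt ℝ 1 (a i) x' := k1.eventually (by simp)
      filter_upwards [h1, h2] with x' h3 h4 _ _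
      exact ⟨h4.differentiableAt one_ne_zero, h3⟩
    · have h1 : ∀ᶠ x' in 𝓝[{x | ρ x = 1}] x, a i x' < 0 :=
        (H.ca i x hx).eventually_lt continuousWithinAt_const h
      rw [eventually_nhdsWithin_iff] at h1
      filter_upwards [h1] with x' h2 h3 h4
      have := h2 h3
      linarith
  filter_upwards [e1, e2, e3, e4, e5, e6, eventually_all.2 e7] with x' h1 h2 h3 h4 h5 h6 h7
  exact ⟨⟨h1, h2, h3, h4, h5⟩, h6, h7⟩

theorem cc (H : Hyp ρ c g φ a U) : ContinuousOn c {x | ρ x = 1} := fun x hx =>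
  (H.dc x (H.sub x hx)).continuousAt.continuousWithinAt

theorem cm (H : Hyp ρ c g φ a U) : ContinuousOn (mx a) {x | ρ x = 1} := by
  have : ContinuousOn (fun x => Finset.univ.sup' Finset.univ_nonempty fun i => a i x)
      {x | ρ x = 1} := ContinuousOn.finset_sup'_apply Finset.univ_nonempty fun i _ => H.ca i
  exact this

/-- the open set of good points -/
def N (ρ c g φ : E → ℝ) (a : ι → E → ℝ) (U : Set E) : Set E :=
  {x | ∃ y, ∀ᶠ x' in 𝓝 x, Stat ρ c g φ U x' ∧ Cond ρ c g φ a x' y}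

theorem isOpen_N : IsOpen (N ρ c g φ a U) := by
  rw [isOpen_iff_mem_nhds]
  rintro x ⟨y, hy⟩
  filter_upwards [eventually_eventually_nhds.2 hy] with x' hx'
  exact ⟨y, hx'⟩

/-- the compact set on which the field is controlled -/
def KK (ρ c g : E → ℝ) (a : ι → E → ℝ) (δ : ℝ) : Set E :=
  {x | ρ x = 1 ∧ |c x| ≤ δ ∧ -δ ≤ g x ∧ mx a x ≤ δ}

theorem exists_delta (H : Hyp ρ c g φ a U) :
    ∃ δ > 0, KK ρ c g a δ ⊆ N ρ c g φ a U ∧
      ∀ x, ρ x = 1 → |c x| ≤ δ → 0 ≤ mx a x → 0 < g x := by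
  have hN := isOpen_N (ρ := ρ) (c := c) (g := g) (φ := φ) (a := a) (U := U)
  have c1 : ContinuousOn (fun x => max |c x| (max (-g x) (mx a x))) {x | ρ x = 1} :=
    H.cc.abs.sup (H.cg.neg.sup H.cm)
  have c2 : ContinuousOn (fun x => max |c x| (max (g x) (-mx a x))) {x | ρ x = 1} :=
    H.cc.abs.sup (H.cg.sup H.cm.neg)
  obtain ⟨δ₁, hδ₁, h1⟩ : ∃ δ₁ > 0, ∀ x, ρ x = 1 → x ∉ N ρ c g φ a U →
      δ₁ ≤ max |c x| (max (-g x) (mx a x)) := by
    have hcp : IsCompact ({x | ρ x = 1} \ N ρ c g φ a U) := H.cpt.diff hN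
    rcases ({x | ρ x = 1} \ N ρ c g φ a U).eq_empty_or_nonempty with he | hne
    · refine ⟨1, one_pos, fun x hx hxN => ?_⟩
      exact absurd (show x ∈ {x | ρ x = 1} \ N ρ c g φ a U from ⟨hx, hxN⟩) (by rw [he]; simp)
    · obtain ⟨x₀, hx₀, hmin⟩ := hcp.exists_isMinOn hne (c1.mono sdiff_subset)
      refine ⟨max |c x₀| (max (-g x₀) (mx a x₀)), ?_, fun x hx hxN => hmin ⟨hx, hxN⟩⟩
      by_contra hneg
      have h2 := not_lt.1 hneg
      have h3 : |c x₀| ≤ 0 := (le_max_left _ _).trans h2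
      have h4 : -g x₀ ≤ 0 := ((le_max_left _ _).trans (le_max_right _ _)).trans h2
      have h5 : mx a x₀ ≤ 0 := ((le_max_right _ _).trans (le_max_right _ _)).trans h2
      apply hx₀.2
      exact H.local_cond hx₀.1 (abs_nonpos_iff.1 h3) (by linarith) (mx_le_iff.1 h5)
  obtain ⟨δ₂, hδ₂, h2⟩ : ∃ δ₂ > 0, ∀ x, ρ x = 1 → δ₂ ≤ max |c x| (max (g x) (-mx a x)) := by
    rcases ({x | ρ x = 1}).eq_empty_or_nonempty with he | hne
    · refine ⟨1, one_pos, fun x hx => ?_⟩
      exact absurd (show x ∈ {x | ρ x = 1} from hx) (by rw [he]; simp)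
    · obtain ⟨x₀, hx₀, hmin⟩ := H.cpt.exists_isMinOn hne c2
      refine ⟨max |c x₀| (max (g x₀) (-mx a x₀)), ?_, fun x hx => hmin hx⟩
      by_contra hneg
      have h2 := not_lt.1 hneg
      have h3 : |c x₀| ≤ 0 := (le_max_left _ _).trans h2
      have h4 : g x₀ ≤ 0 := ((le_max_left _ _).trans (le_max_right _ _)).trans h2
      have h5 : -mx a x₀ ≤ 0 := ((le_max_right _ _).trans (le_max_right _ _)).trans h2
      obtain ⟨i, hi⟩ := exists_mx a x₀
      have h6 := H.h1 x₀ hx₀ (abs_nonpos_iff.1 h3) i (by rw [← hi]; linarith)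
      linarith
  refine ⟨min δ₁ δ₂ / 2, half_pos (lt_min hδ₁ hδ₂), ?_, ?_⟩
  · rintro x ⟨hx, k1, k2, k3⟩
    by_contra hxN
    have h3 := h1 x hx hxN
    have h4 : max |c x| (max (-g x) (mx a x)) ≤ min δ₁ δ₂ / 2 :=
      max_le k1 (max_le (by linarith) k3)
    have h5 := min_le_left δ₁ δ₂
    have h6 := lt_min hδ₁ hδ₂
    linarith
  · intro x hx k1 k2
    have h3 := h2 x hx
    have h5 := min_le_right δ₁ δ₂
    have h6 := lt_min hδ₁ hδ₂
    rcases le_max_iff.1 h3 with h | h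
    · linarith
    · rcases le_max_iff.1 h with h | h
      · linarith
      · linarith

theorem isCompact_KK (H : Hyp ρ c g φ a U) (δ : ℝ) : IsCompact (KK ρ c g a δ) := by
  have h1 : ContinuousOn (fun x => max (|c x| - δ) (max (-g x - δ) (mx a x - δ))) {x | ρ x = 1} :=
    (H.cc.abs.sub continuousOn_const).sup
      ((H.cg.neg.sub continuousOn_const).sup (H.cm.sub continuousOn_const))
  obtain ⟨t, ht1, ht2⟩ := (continuousOn_iff_isClosed.1 h1) (Iic 0) isClosed_Iic
  have h2 : KK ρ c g a δ = {x | ρ x = 1} ∩ t := by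
    ext x
    constructor
    · rintro ⟨hx, k1, k2, k3⟩
      refine ⟨hx, ?_⟩
      have h4 : max (|c x| - δ) (max (-g x - δ) (mx a x - δ)) ≤ 0 :=
        max_le (by linarith) (max_le (by linarith) (by linarith))
      have h3 : x ∈ (fun x => max (|c x| - δ) (max (-g x - δ) (mx a x - δ))) ⁻¹' Iic 0 ∩
          {x | ρ x = 1} := ⟨h4, hx⟩
      rw [ht2] at h3
      exact h3.1
    · rintro ⟨hx, hxt⟩
      have h3 : x ∈ t ∩ {x | ρ x = 1} := ⟨hxt, hx⟩
      rw [← ht2] at h3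
      have h4 : max (|c x| - δ) (max (-g x - δ) (mx a x - δ)) ≤ 0 := h3.1
      have k1 := (le_max_left _ _).trans h4
      have k2 := ((le_max_left _ _).trans (le_max_right _ _)).trans h4
      have k3 := ((le_max_right _ _).trans (le_max_right _ _)).trans h4
      exact ⟨hx, by linarith, by linarith, by linarith⟩
  rw [h2]
  exact H.cpt.inter_right ht1

/-- the smooth choice of vectors -/
theorem exists_field (H : Hyp ρ c g φ a U) {δ : ℝ} (hK : KK ρ c g a δ ⊆ N ρ c g φ a U) :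
    ∃ Y : E → E, ContDiff ℝ 1 Y ∧ ∀ x ∈ KK ρ c g a δ, Cond ρ c g φ a x (Y x) := by
  let t : E → Set E := fun x => {y | x ∈ KK ρ c g a δ → Cond ρ c g φ a x y}
  have ht : ∀ x, Convex ℝ (t x) := by
    intro x
    by_cases hx : x ∈ KK ρ c g a δ
    · have : t x = {y | Cond ρ c g φ a x y} := by
        ext y
        exact ⟨fun h => h hx, fun h _ => h⟩
      rw [this]
      exact convex_cond x
    · have : t x = univ := by
        ext y
        exact ⟨fun _ => mem_univ _, fun _ h => absurd h hx⟩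
      rw [this]
      exact convex_univ
  have hloc : ∀ x : E, ∃ y : E, ∀ᶠ x' in 𝓝 x, y ∈ t x' := by
    intro x
    by_cases hx : x ∈ KK ρ c g a δ
    · obtain ⟨y, hy⟩ := hK hx
      exact ⟨y, hy.mono fun x' h _ => h.2⟩
    · refine ⟨0, ?_⟩
      filter_upwards [(H.isCompact_KK δ).isClosed.isOpen_compl.mem_nhds hx] with x' hx' h
      exact absurd h hx'
  obtain ⟨Y, hY⟩ := exists_contMDiffMap_forall_mem_convex_of_local_const (n := 1) 𝓘(ℝ, E) ht hloc
  exact ⟨Y, Y.contMDiff.contDiff, fun x hx => hY x hx⟩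

/-- the field: Lipschitz, tangent to the levels of `ρ` and `c`, controlled on `KK` -/
theorem exists_lip_field (H : Hyp ρ c g φ a U) {δ : ℝ} (hK : KK ρ c g a δ ⊆ N ρ c g φ a U) :
    ∃ (V : E → E) (S : Set E), (∃ C : ℝ≥0, LipschitzWith C V) ∧ S ⊆ U ∧ (∀ x ∉ S, V x = 0) ∧
      (∀ x ∈ S, fderiv ℝ ρ x (V x) = 0 ∧ fderiv ℝ c x (V x) = 0) ∧
      ∀ x ∈ KK ρ c g a δ, 0 < φ x * fderiv ℝ g x (V x) - g x * fderiv ℝ φ x (V x) ∧
        ∀ i, a i x = 0 → DifferentiableAt ℝ (a i) x ∧ 0 < fderiv ℝ (a i) x (V x) := by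
  have : ProperSpace E := FiniteDimensional.proper_real E
  obtain ⟨Y, hY, hYc⟩ := H.exists_field hK
  have hKc := H.isCompact_KK δ
  -- the open set where everything is good
  let O : Set E := {x | x ∈ U ∧ Good (dA ρ c x)}
  have hO : IsOpen O := by
    rw [isOpen_iff_mem_nhds]
    rintro x ⟨hx, hg⟩
    filter_upwards [H.oU.mem_nhds hx,
      (H.continuousAt_dA hx).preimage_mem_nhds (isOpen_good.mem_nhds hg)] with x' h1 h2
    exact ⟨h1, h2⟩
  have hKO : KK ρ c g a δ ⊆ O := by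
    intro x hx
    obtain ⟨y, hy⟩ := hK hx
    have := hy.self_of_nhds.1
    exact ⟨this.1, this.2.1⟩
  obtain ⟨η, hη, hηO⟩ := hKc.exists_cthickening_subset_open hO hKO
  have hη2 : 0 < η / 2 := half_pos hη
  let θ : E → ℝ := fun x => (thickenedIndicator hη2 (KK ρ c g a δ) x : ℝ)
  have hθ1 : ∀ x ∈ KK ρ c g a δ, θ x = 1 := by
    intro x hx
    have := thickenedIndicator_one hη2 (KK ρ c g a δ) hx
    show ((thickenedIndicator hη2 (KK ρ c g a δ) x : ℝ≥0) : ℝ) = 1
    rw [this]; rfl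
  have hθ0 : ∀ x, x ∉ thickening (η / 2) (KK ρ c g a δ) → θ x = 0 := by
    intro x hx
    have := thickenedIndicator_zero hη2 (KK ρ c g a δ) hx
    show ((thickenedIndicator hη2 (KK ρ c g a δ) x : ℝ≥0) : ℝ) = 0
    rw [this]; rfl
  have hθlip : LipschitzWith (η / 2).toNNReal⁻¹ θ := by
    have h1 := lipschitzWith_thickenedIndicator hη2 (KK ρ c g a δ)
    intro p q
    exact h1 p q
  let V : E → E := fun x => θ x • prj (dA ρ c x) (Y x)
  let S : Set E := thickening (η / 2) (KK ρ c g a δ)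
  have hSO : ∀ x ∈ cthickening (η / 2) (KK ρ c g a δ), x ∈ O := fun x hx =>
    hηO (cthickening_mono (by linarith) _ hx)
  have hV0 : ∀ x ∉ S, V x = 0 := by
    intro x hx
    show θ x • prj (dA ρ c x) (Y x) = 0
    rw [hθ0 x hx, zero_smul]
  have hVloc : LocallyLipschitz V := by
    intro x
    by_cases hx : x ∈ cthickening (η / 2) (KK ρ c g a δ)
    · obtain ⟨hxU, hxg⟩ := hSO x hx
      have hc1 : ContDiffAt ℝ 1 (fun q : ℝ × (E →L[ℝ] ℝ × ℝ) × E => q.1 • prj q.2.1 q.2.2)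
          (θ x, dA ρ c x, Y x) := by
        have h1 : ContDiffAt ℝ 1 (fun q : ℝ × (E →L[ℝ] ℝ × ℝ) × E => prj q.2.1 q.2.2)
            (θ x, dA ρ c x, Y x) :=
          ContDiffAt.comp (g := fun q : (E →L[ℝ] ℝ × ℝ) × E => prj q.1 q.2)
            (f := fun q : ℝ × (E →L[ℝ] ℝ × ℝ) × E => q.2) (θ x, dA ρ c x, Y x)
            (contDiffAt_prj (q := (dA ρ c x, Y x)) hxg) contDiffAt_snd
        exact contDiffAt_fst.smul h1
      obtain ⟨K₁, T₁, hT₁, hL₁⟩ := hc1.exists_lipschitzOnWith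
      obtain ⟨K₂, T₂, hT₂, hL₂⟩ := H.lρ hxU
      obtain ⟨K₃, T₃, hT₃, hL₃⟩ := H.lc hxU
      obtain ⟨K₄, T₄, hT₄, hL₄⟩ := hY.locallyLipschitz x
      have hU' : 𝓝[U] x = 𝓝 x := H.oU.nhdsWithin_eq hxU
      rw [hU'] at hT₂ hT₃
      have hLA : LipschitzOnWith (max K₂ K₃) (dA ρ c) (T₂ ∩ T₃) := by
        have h1 : LipschitzOnWith (max K₂ K₃) (fun x => (fderiv ℝ ρ x, fderiv ℝ c x)) (T₂ ∩ T₃) :=
          (hL₂.mono inter_subset_left).prodMk (hL₃.mono inter_subset_right)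
        have h3 : dA ρ c = fun x => ContinuousLinearMap.prodₗᵢ ℝ (fderiv ℝ ρ x, fderiv ℝ c x) := by
          funext x
          rfl
        rw [h3]
        intro p hp q hq
        have hiso : Isometry (fun z : (E →L[ℝ] ℝ) × (E →L[ℝ] ℝ) =>
            ContinuousLinearMap.prodₗᵢ ℝ z) := (ContinuousLinearMap.prodₗᵢ ℝ).isometry
        have h4 := hiso.edist_eq (fderiv ℝ ρ p, fderiv ℝ c p) (fderiv ℝ ρ q, fderiv ℝ c q)
        exact h4.le.trans (h1 hp hq)
      have hL : LipschitzOnWith (max (η / 2).toNNReal⁻¹ (max (max K₂ K₃) K₄))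
          (fun x => (θ x, dA ρ c x, Y x)) (T₂ ∩ T₃ ∩ T₄) :=
        hθlip.lipschitzOnWith.prodMk
          ((hLA.mono inter_subset_left).prodMk (hL₄.mono inter_subset_right))
      have hcont : ContinuousAt (fun x => (θ x, dA ρ c x, Y x)) x :=
        hθlip.continuous.continuousAt.prodMk
          ((H.continuousAt_dA hxU).prodMk hY.continuous.continuousAt)
      refine ⟨K₁ * max (η / 2).toNNReal⁻¹ (max (max K₂ K₃) K₄),
        T₂ ∩ T₃ ∩ T₄ ∩ ((fun x => (θ x, dA ρ c x, Y x)) ⁻¹' T₁),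
        inter_mem (inter_mem (inter_mem hT₂ hT₃) hT₄) (hcont.preimage_mem_nhds hT₁), ?_⟩
      exact hL₁.comp (hL.mono inter_subset_left) fun q hq => hq.2
    · have hcl : IsClosed (cthickening (η / 2) (KK ρ c g a δ)) := isClosed_cthickening
      refine ⟨0, (cthickening (η / 2) (KK ρ c g a δ))ᶜ, hcl.isOpen_compl.mem_nhds hx, ?_⟩
      have h0 : ∀ q ∈ (cthickening (η / 2) (KK ρ c g a δ))ᶜ, V q = 0 := fun q hq =>
        hV0 q fun h => hq (thickening_subset_cthickening _ _ h)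
      intro q hq q' hq'
      rw [h0 q hq, h0 q' hq']
      simp
  have hbd : Bornology.IsBounded S := hKc.isBounded.thickening
  refine ⟨V, S, lipschitz_of_compact_support hVloc hbd hV0, fun x hx =>
    (hSO x (thickening_subset_cthickening _ _ hx)).1, hV0, fun x hx => ?_, fun x hx => ?_⟩
  · obtain ⟨hxU, hxg⟩ := hSO x (thickening_subset_cthickening _ _ hx)
    have h1 := prj_spec hxg (Y x)
    have h2 : dA ρ c x (V x) = 0 := by
      show dA ρ c x (θ x • prj (dA ρ c x) (Y x)) = 0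
      rw [map_smul, h1, smul_zero]
    exact ⟨congrArg Prod.fst h2, congrArg Prod.snd h2⟩
  · have h1 := hYc x hx
    have h2 : V x = prj (dA ρ c x) (Y x) := by
      show θ x • prj (dA ρ c x) (Y x) = _
      rw [hθ1 x hx, one_smul]
    rw [h2]
    exact ⟨h1.1, fun i hi => h1.2 i hx.1 hi⟩

end Hyp

/-- **THE FLOW-LINE THEOREM.** -/
theorem exists_homeo {ρ c g φ : E → ℝ} {a : ι → E → ℝ} {U : Set E} (H : Hyp ρ c g φ a U) :
    ∃ F : {x : E // ρ x = 1} ≃ₜ {x : E // ρ x = 1}, (∀ x, c (F x) = c x) ∧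
      ∀ x : {x : E // ρ x = 1}, c x = 0 →
        (0 < mx a (F x) ↔ 0 < g x) ∧ (mx a (F x) = 0 ↔ g x = 0) := by
  classical
  obtain ⟨δ, hδ, hKN, hpos⟩ := H.exists_delta
  obtain ⟨V, S, ⟨C, hC⟩, hSU, hV0, hVt, hVK⟩ := H.exists_lip_field hKN
  obtain ⟨Φ, hΦ0, hΦs, hΦc, hΦc', hΦu⟩ := exists_flow (X := fun _ => V)
    (hC.continuous.comp continuous_snd) (K := C) (fun _ => hC)
  have hsol : ∀ x t, HasDerivAt (fun t => Φ t x) (V (Φ t x)) t := fun x t => hΦs x t
  have hadd : ∀ s t x, Φ (s + t) x = Φ s (Φ t x) := by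
    intro s t x
    have h1 : Sol (fun _ => V) fun s => Φ (s + t) x := by
      intro s
      exact HasDerivAt.comp_add_const s t (hsol x (s + t))
    have h2 := hΦu _ h1 s
    simpa using h2
  -- along an orbit
  have hstat : ∀ x, V x = 0 → ∀ t, Φ t x = x := by
    intro x hx t
    have h1 : Sol (fun _ => V) fun _ : ℝ => x := by
      intro s
      show HasDerivAt (fun _ : ℝ => x) (V x) s
      rw [hx]
      exact hasDerivAt_const s x
    exact (hΦu _ h1 t).symm
  have hconst : ∀ f : E → ℝ, (∀ x ∈ U, DifferentiableAt ℝ f x) →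
      (∀ x ∈ S, fderiv ℝ f x (V x) = 0) → ∀ x t, f (Φ t x) = f x := by
    intro f hf hfV x t
    by_cases hx : V x = 0
    · rw [hstat x hx]
    · have hne : ∀ s, V (Φ s x) ≠ 0 := by
        intro s hs
        have h1 := hstat _ hs (-s)
        rw [← hadd, neg_add_cancel, hΦ0] at h1
        rw [← h1] at hs
        exact hx hs
      have hS : ∀ s, Φ s x ∈ S := fun s => by
        by_contra h
        exact hne s (hV0 _ h)
      have hder : ∀ s, HasDerivAt (fun s => f (Φ s x)) 0 s := by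
        intro s
        have h1 := (hf _ (hSU (hS s))).hasFDerivAt.comp_hasDerivAt s (hsol x s)
        rw [hfV _ (hS s)] at h1
        exact h1
      have h2 : Differentiable ℝ fun s => f (Φ s x) := fun s => (hder s).differentiableAt
      have h3 := is_const_of_deriv_eq_zero h2 (fun s => (hder s).deriv) t 0
      rw [h3, hΦ0]
  have hρ : ∀ x t, ρ (Φ t x) = ρ x := hconst ρ H.dρ fun x hx => (hVt x hx).1
  have hc : ∀ x t, c (Φ t x) = c x := hconst c H.dc fun x hx => (hVt x hx).2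
  -- the space
  let X := {x : E // ρ x = 1}
  have hXc : CompactSpace X := isCompact_iff_compactSpace.1 H.cpt
  let ψ : ℝ → X → X := fun t x => ⟨Φ t x, (hρ x t).trans x.2⟩
  have cψ : Continuous fun p : ℝ × X => ψ p.1 p.2 :=
    (hΦc.comp (continuous_fst.prodMk (continuous_subtype_val.comp continuous_snd) :
      Continuous fun p : ℝ × X => (p.1, p.2.1))).subtype_mk _
  have cg' : Continuous fun x : X => g x := continuousOn_iff_continuous_domRestrict.1 H.cg
  have cm' : Continuous fun x : X => mx a x := continuousOn_iff_continuous_domRestrict.1 H.cm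
  have ca' : ∀ i, Continuous fun x : X => a i x := fun i =>
    continuousOn_iff_continuous_domRestrict.1 (H.ca i)
  have cc' : Continuous fun x : X => c x := continuousOn_iff_continuous_domRestrict.1 H.cc
  have corb : ∀ x : X, Continuous fun t => ψ t x := fun x =>
    cψ.comp (by fun_prop : Continuous fun t : ℝ => (t, x))
  -- `g` crosses
  have hgK : ∀ x : X, |c x| ≤ δ → g x = 0 → (x : E) ∈ Hyp.KK ρ c g a δ := by
    intro x hx h0
    refine ⟨x.2, hx, by rw [h0]; linarith, ?_⟩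
    by_contra h1
    have := hpos x x.2 hx (by linarith [not_le.1 h1])
    linarith
  have hmK : ∀ x : X, |c x| ≤ δ → mx a x = 0 → (x : E) ∈ Hyp.KK ρ c g a δ := by
    intro x hx h0
    refine ⟨x.2, hx, ?_, by rw [h0]; exact hδ.le⟩
    have := hpos x x.2 hx h0.ge
    linarith
  have hstatK : ∀ x ∈ Hyp.KK ρ c g a δ, Hyp.Stat ρ c g φ U x := by
    intro x hx
    obtain ⟨y, hy⟩ := hKN hx
    exact hy.self_of_nhds.1
  have crossg : ∀ x : X, |c x| ≤ δ → ∀ t, g (ψ t x) = 0 → Cross (fun t => g (ψ t x)) t := by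
    intro x hx t ht
    have hmem := hgK (ψ t x) (by show |c (Φ t x)| ≤ δ; rw [hc]; exact hx) ht
    obtain ⟨-, -, hdg, -, hφ⟩ := hstatK _ hmem
    have h1 := (hVK _ hmem).1
    rw [ht, zero_mul, sub_zero] at h1
    have h2 : 0 < fderiv ℝ g (ψ t x) (V (ψ t x)) := (mul_pos_iff_of_pos_left hφ).1 h1
    have h3 : HasDerivAt (fun t => g (Φ t x)) (fderiv ℝ g (Φ t x) (V (Φ t x))) t :=
      (hdg.differentiableAt one_ne_zero).hasFDerivAt.comp_hasDerivAt t (hsol x t)
    exact cross_of_hasDerivAt h3 ht h2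
  have crossm : ∀ x : X, |c x| ≤ δ → ∀ t, mx a (ψ t x) = 0 →
      Cross (fun t => mx a (ψ t x)) t := by
    intro x hx t ht
    have hmem := hmK (ψ t x) (by show |c (Φ t x)| ≤ δ; rw [hc]; exact hx) ht
    have h1 := (hVK _ hmem).2
    have key : ∀ i, a i (ψ t x) = 0 → Cross (fun t => a i (ψ t x)) t := by
      intro i hi
      obtain ⟨h2, h3⟩ := h1 i hi
      have h4 : HasDerivAt (fun t => a i (Φ t x)) (fderiv ℝ (a i) (Φ t x) (V (Φ t x))) t :=
        h2.hasFDerivAt.comp_hasDerivAt t (hsol x t)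
      exact cross_of_hasDerivAt h4 hi h3
    have hle : ∀ i, a i (ψ t x) ≤ 0 := mx_le_iff.1 ht.le
    constructor
    · obtain ⟨i, hi⟩ := exists_mx a (ψ t x : E)
      have h2 := (key i (by rw [← hi]; exact ht)).1
      filter_upwards [h2] with s hs
      exact lt_of_lt_of_le hs (le_mx a _ i)
    · have h2 : ∀ i, ∀ᶠ s in 𝓝[<] t, a i (ψ s x) < 0 := by
        intro i
        rcases eq_or_lt_of_le (hle i) with h | h
        · exact (key i h).2
        · have h3 : Continuous fun s => a i (ψ s x) := (ca' i).comp (corb x)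
          exact (h3.continuousAt.eventually_lt continuousAt_const h).filter_mono
            nhdsWithin_le_nhds
      filter_upwards [eventually_all.2 h2] with s hs
      exact mx_lt_iff.2 hs
  have fg : ∀ x : X, |c x| ≤ δ → 0 ≤ g x → ∀ t, 0 < t → 0 < g (ψ t x) := by
    intro x hx h0 t ht
    refine pos_of_cross (u := fun t => g (ψ t x)) (cg'.comp (corb x)) (crossg x hx) ?_ ht
    show 0 ≤ g (Φ 0 x)
    rwa [hΦ0]
  have fm : ∀ x : X, |c x| ≤ δ → 0 ≤ mx a x → ∀ t, 0 < t → 0 < mx a (ψ t x) := by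
    intro x hx h0 t ht
    refine pos_of_cross (u := fun t => mx a (ψ t x)) (cm'.comp (corb x)) (crossm x hx) ?_ ht
    show 0 ≤ mx a (Φ 0 x)
    rwa [hΦ0]
  -- the Lyapunov function
  let K' : Set E := {x | x ∈ Hyp.KK ρ c g a δ ∧ 0 ≤ g x ∧ mx a x ≤ 0}
  obtain ⟨T, hT, hTK⟩ : ∃ T : ℝ, 0 < T ∧ ∀ x : X, |c x| ≤ δ → 0 ≤ g x → 0 ≤ mx a (ψ T x) := by
    have hK'c : IsCompact K' := by
      have h1 : IsCompact {x : X | |c x| ≤ δ ∧ 0 ≤ g x ∧ mx a x ≤ 0} := by
        refine IsClosed.isCompact ?_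
        exact (isClosed_le cc'.abs continuous_const).inter
          ((isClosed_le continuous_const cg').inter (isClosed_le cm' continuous_const))
      have h2 : K' = Subtype.val '' {x : X | |c x| ≤ δ ∧ 0 ≤ g x ∧ mx a x ≤ 0} := by
        ext x
        constructor
        · rintro ⟨⟨k0, k1, k2, k3⟩, k4, k5⟩
          exact ⟨⟨x, k0⟩, ⟨k1, k4, k5⟩, rfl⟩
        · rintro ⟨x, ⟨k1, k4, k5⟩, rfl⟩
          exact ⟨⟨x.2, k1, by linarith, by linarith⟩, k4, k5⟩
      rw [h2]
      exact h1.image continuous_subtype_val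
    let L : E → ℝ := fun x => g x / φ x
    let L' : E → ℝ := fun x =>
      (φ x * fderiv ℝ g x (V x) - g x * fderiv ℝ φ x (V x)) / φ x ^ 2
    have cL : ContinuousOn L K' := by
      intro x hx
      obtain ⟨-, -, hdg, hdφ, hφ⟩ := hstatK _ hx.1
      exact (hdg.continuousAt.div hdφ.continuousAt hφ.ne').continuousWithinAt
    have cL' : ContinuousOn L' K' := by
      intro x hx
      obtain ⟨-, -, hdg, hdφ, hφ⟩ := hstatK _ hx.1
      have k1 : ContinuousAt (fun x => fderiv ℝ g x (V x)) x :=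
        (hdg.continuousAt_fderiv one_ne_zero).clm_apply hC.continuous.continuousAt
      have k2 : ContinuousAt (fun x => fderiv ℝ φ x (V x)) x :=
        (hdφ.continuousAt_fderiv one_ne_zero).clm_apply hC.continuous.continuousAt
      exact (((hdφ.continuousAt.mul k1).sub (hdg.continuousAt.mul k2)).div
        (hdφ.continuousAt.pow 2) (pow_pos hφ 2).ne').continuousWithinAt
    have pL' : ∀ x ∈ K', 0 < L' x := by
      intro x hx
      obtain ⟨-, -, -, -, hφ⟩ := hstatK _ hx.1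
      exact div_pos (hVK x hx.1).1 (pow_pos hφ 2)
    obtain ⟨M, hM⟩ := hK'c.exists_bound_of_continuousOn cL
    obtain ⟨κ, hκ, hκL⟩ : ∃ κ > 0, ∀ x ∈ K', κ ≤ L' x := by
      rcases K'.eq_empty_or_nonempty with he | hne
      · exact ⟨1, one_pos, fun x hx => absurd hx (by rw [he]; simp)⟩
      · obtain ⟨x₀, hx₀, hmin⟩ := hK'c.exists_isMinOn hne cL'
        exact ⟨L' x₀, pL' x₀ hx₀, fun x hx => hmin hx⟩
    have hM' : ∀ x ∈ K', |L x| ≤ |M| := fun x hx => (hM x hx).trans (le_abs_self M)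
    refine ⟨(2 * |M| + 1) / κ, by positivity, fun x hx hgx => ?_⟩
    set T := (2 * |M| + 1) / κ with hTdef
    have hT0 : 0 < T := by positivity
    by_contra hneg
    have hneg' : mx a (ψ T x) < 0 := not_le.1 hneg
    have hin : ∀ t ∈ Icc (0 : ℝ) T, (ψ t x : E) ∈ K' := by
      intro t ht
      have k1 : |c (ψ t x)| ≤ δ := by show |c (Φ t x)| ≤ δ; rw [hc]; exact hx
      have k2 : 0 ≤ g (ψ t x) := by
        rcases eq_or_lt_of_le ht.1 with h | h
        · rw [← h]
          show 0 ≤ g (Φ 0 x)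
          rwa [hΦ0]
        · exact (fg x hx hgx t h).le
      have k3 : mx a (ψ t x) ≤ 0 := by
        by_contra h
        rcases eq_or_lt_of_le ht.2 with h4 | h4
        · rw [h4] at h
          exact h hneg'.le
        · have h5 := fm (ψ t x) k1 (not_le.1 h).le (T - t) (by linarith)
          have h6 : (ψ (T - t) (ψ t x)) = ψ T x := by
            apply Subtype.ext
            show Φ (T - t) (Φ t x) = Φ T x
            rw [← hadd, sub_add_cancel]
          rw [h6] at h5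
          linarith
      exact ⟨⟨(ψ t x).2, k1, by linarith, by linarith⟩, k2, k3⟩
    have hder : ∀ t ∈ Icc (0 : ℝ) T, HasDerivAt (fun t => L (Φ t x)) (L' (Φ t x)) t := by
      intro t ht
      obtain ⟨-, -, hdg, hdφ, hφ⟩ := hstatK _ (hin t ht).1
      have k1 : HasDerivAt (fun t => g (Φ t x)) (fderiv ℝ g (Φ t x) (V (Φ t x))) t :=
        (hdg.differentiableAt one_ne_zero).hasFDerivAt.comp_hasDerivAt t (hsol x t)
      have k2 : HasDerivAt (fun t => φ (Φ t x)) (fderiv ℝ φ (Φ t x) (V (Φ t x))) t :=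
        (hdφ.differentiableAt one_ne_zero).hasFDerivAt.comp_hasDerivAt t (hsol x t)
      have k3 := k1.div k2 hφ.ne'
      refine k3.congr_deriv ?_
      show _ = (φ (Φ t x) * fderiv ℝ g (Φ t x) (V (Φ t x)) -
        g (Φ t x) * fderiv ℝ φ (Φ t x) (V (Φ t x))) / φ (Φ t x) ^ 2
      congr 1
      ring
    -- mean value
    obtain ⟨t, ht, hmv⟩ := exists_hasDerivAt_eq_slope (fun t => L (Φ t x)) (fun t => L' (Φ t x)) hT0
      (fun t ht => (hder t ht).continuousAt.continuousWithinAt)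
      (fun t ht => hder t ⟨ht.1.le, ht.2.le⟩)
    have h1 := hκL _ (hin t ⟨ht.1.le, ht.2.le⟩)
    have h1' : κ ≤ L' (Φ t x) := h1
    rw [hmv, le_div_iff₀ (by linarith)] at h1'
    have h2 := hM' _ (hin T ⟨hT0.le, le_rfl⟩)
    have h3 := hM' _ (hin 0 ⟨le_rfl, hT0.le⟩)
    have h2' : L (Φ T x) ≤ |M| := (le_abs_self _).trans h2
    have h3' : -|M| ≤ L (Φ 0 x) := by
      have := neg_abs_le (L (Φ 0 x))
      have h4 : |L (Φ 0 x)| ≤ |M| := h3
      linarith
    have h5 : κ * (T - 0) = 2 * |M| + 1 := by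
      rw [hTdef, sub_zero]
      field_simp
    linarith
  have HFL : FL ψ (fun x : X => c x) (fun x : X => g x) (fun x : X => mx a x) δ T :=
    { cφ := cψ
      φ0 := fun x => Subtype.ext (hΦ0 x)
      φa := fun s t x => Subtype.ext (hadd s t x)
      cc := cc'
      cg := cg'
      ch := cm'
      inv := fun t x => hc x t
      hδ := hδ
      hT := hT.le
      fg := fg
      fh := fm
      hg := fun x hx h => (hpos x x.2 hx h).le
      gh := hTK }
  obtain ⟨F, -, h2, h3⟩ := HFL.exists_homeo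
  exact ⟨F, h2, h3⟩

end Crest.Agent.R267.FlowLine_363
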