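import Crest.Agent.R267.Gam_100
import Crest.Agent.R267.HarmBox_920
import Crest.Agent.R267.T3aNDefs_88

/-!
# S0406, T3N, C2 (helper920): the data of the general amalgam theorem

* `EB D ph c S l` : own words `∑ j, pc (D j) 1 (ph j) (z j)` minus harmonic boxes; `C²`
  (`contDiff_EB`), homogeneous for the weights `1 / D j` (`EB_act`).
* `Seg w E0 E1` : the straight line from `E0` to `E1` is `0`-regular on the three planes;
  `Seg.rem` : it satisfies the hypotheses `Rem` of `Gam_100.gam`.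
* `zeq_seg` : for `M ≥ M0` the links of `M P + E0` and `M P + E1` agree.
* `far_ok` : no zeros where the own term of `w` dominates.
-/

set_option autoImplicit false
set_option linter.unusedSectionVars false

noncomputable section

open Set Filter Topology Metric Finset
open scoped ContDiff
open Crest.Agent.R267.Cone_808 Crest.Agent.R267.Hm_951 Crest.Agent.R267.Ang_739
open Crest.Agent.R267.HarmBox_920 Crest.Agent.R267.Gam_100

namespace Crest.Agent.R267.GamE_920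

/-- own words minus harmonic boxes -/
def EB {nb : ℕ} (D : Fin 4 → ℝ) (ph : Fin 4 → ℝ → ℝ) (c : Fin nb → ℝ)
    (S : Fin nb → Finset (Fin 4)) (l : Fin nb → Fin 4 → ℝ → ℝ) (z : Fin 4 → ℂ) : ℂ :=
  ∑ j, pc (D j) 1 (ph j) (z j) - ((∑ e, c e * HB (S e) D (l e) z : ℝ) : ℂ)

/-- admissible data -/
structure EBD {nb : ℕ} (D : Fin 4 → ℝ) (ph : Fin 4 → ℝ → ℝ)
    (S : Fin nb → Finset (Fin 4)) (l : Fin nb → Fin 4 → ℝ → ℝ) : Prop where
  hD : ∀ j, 2 < D j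
  ph2 : ∀ j, ContDiff ℝ 2 (ph j)
  per : ∀ j, Per fun x => cis (ph j x)
  ne : ∀ e, (S e).Nonempty
  lper : ∀ e, ∀ j ∈ S e, Per (l e j)
  l2 : ∀ e, ∀ j ∈ S e, ContDiff ℝ 2 (l e j)

theorem contDiff_pc {D : ℝ} (hD : 2 < D) {φ : ℝ → ℝ} (h2 : ContDiff ℝ 2 φ)
    (hp : Per fun x => cis (φ x)) : ContDiff ℝ 2 (pc D 1 φ) := by
  unfold pc
  refine LobeKit_407.contDiff_pol hD (fun x => ?_) (contDiff_const.mul (contDiff_cis.comp h2))
  show ((1 : ℝ) : ℂ) * cis (φ (x + 2 * Real.pi)) = ((1 : ℝ) : ℂ) * cis (φ x)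
  rw [show cis (φ (x + 2 * Real.pi)) = cis (φ x) from hp x]

variable {nb : ℕ} {D : Fin 4 → ℝ} {ph : Fin 4 → ℝ → ℝ} {c : Fin nb → ℝ}
  {S : Fin nb → Finset (Fin 4)} {l : Fin nb → Fin 4 → ℝ → ℝ}

theorem contDiff_EB (h : EBD D ph S l) (c : Fin nb → ℝ) : ContDiff ℝ 2 (EB D ph c S l) := by
  unfold EB
  refine ContDiff.sub (ContDiff.sum fun j _ => ?_) ?_
  · exact (contDiff_pc (h.hD j) (h.ph2 j) (h.per j)).comp
      (by fun_prop : ContDiff ℝ 2 fun z : Fin 4 → ℂ => z j)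
  · have h1 : ContDiff ℝ 2 fun z : Fin 4 → ℂ => ∑ e, c e * HB (S e) D (l e) z :=
      ContDiff.sum fun e _ =>
        contDiff_const.mul (contDiff_HB (h.ne e) (fun j _ => h.hD j) (h.lper e) (h.l2 e))
    exact Complex.ofRealCLM.contDiff.comp h1

theorem pc_act {w : Fin 4 → ℝ} {j : Fin 4} (h : w j * D j = 1) (φ : ℝ → ℝ) (s : ℝ)
    (z : Fin 4 → ℂ) : pc (D j) 1 φ (act w s z j) = (Real.exp s : ℂ) * pc (D j) 1 φ (z j) := by
  unfold act
  rw [show ((Real.exp (s * w j) : ℝ) : ℂ) = ((Real.exp (s * w j) : ℝ) : ℂ) from rfl,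
    pc_hom _ _ _ _ (Real.exp_pos _), ← Real.exp_mul, mul_assoc, h, mul_one, Complex.real_smul]

theorem EB_act {w : Fin 4 → ℝ} (hw : ∀ j, w j * D j = 1) (s : ℝ) (z : Fin 4 → ℂ) :
    EB D ph c S l (act w s z) = Real.exp s • EB D ph c S l z := by
  unfold EB
  rw [Complex.real_smul, mul_sub, Finset.mul_sum]
  congr 1
  · exact Finset.sum_congr rfl fun j _ => pc_act (hw j) _ s z
  · rw [← Complex.ofReal_mul, Finset.mul_sum]
    congr 1
    refine Finset.sum_congr rfl fun e _ => ?_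
    rw [HB_act _ (fun j _ => hw j)]
    ring

/-! ### straight lines -/

/-- the straight line from `E0` to `E1` is admissible -/
structure Seg (w : Fin 4 → ℝ) (E0 E1 : (Fin 4 → ℂ) → ℂ) : Prop where
  smooth0 : ContDiffOn ℝ 2 E0 {0}ᶜ
  smooth1 : ContDiffOn ℝ 2 E1 {0}ᶜ
  hom0 : ∀ (s : ℝ) (z : Fin 4 → ℂ), E0 (act w s z) = Real.exp s • E0 z
  hom1 : ∀ (s : ℝ) (z : Fin 4 → ℂ), E1 (act w s z) = Real.exp s • E1 z
  axis : ∀ t ∈ Icc (0 : ℝ) 1, ∀ z : ℂ, z ≠ 0 →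
    (1 - t : ℝ) * E0 (Pi.single 3 z) + (t : ℝ) * E1 (Pi.single 3 z) ≠ 0
  reg0 : ∀ (v : Fin 3) (u z : ℂ), u ≠ 0 → E0 (pl v u z) = 0 →
    ∀ c : ℂ, ∃ y : ℂ × ℂ, fderiv ℝ (fun q : ℂ × ℂ => E0 (pl v q.1 q.2)) (u, z) y = c
  alt : ∀ (v : Fin 3) (u z : ℂ), u ≠ 0 →
    (∀ᶠ q : ℂ × ℂ in 𝓝 (u, z), E1 (pl v q.1 q.2) = E0 (pl v q.1 q.2)) ∨
    ∀ t ∈ Icc (0 : ℝ) 1, (1 - t : ℝ) * E0 (pl v u z) + (t : ℝ) * E1 (pl v u z) ≠ 0

/-- the straight line -/
def lin (E0 E1 : (Fin 4 → ℂ) → ℂ) (q : ℝ × (Fin 4 → ℂ)) : ℂ :=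
  (1 - q.1 : ℝ) * E0 q.2 + (q.1 : ℝ) * E1 q.2

theorem Seg.rem {w : Fin 4 → ℝ} {E0 E1 : (Fin 4 → ℂ) → ℂ} (h : Seg w E0 E1) :
    Rem w univ (lin E0 E1) := by
  have hsm : ContDiffOn ℝ 2 (lin E0 E1) (univ ×ˢ {0}ᶜ) := by
    have h1 : ContDiff ℝ 2 fun q : ℝ × (Fin 4 → ℂ) => ((1 - q.1 : ℝ) : ℂ) :=
      Complex.ofRealCLM.contDiff.comp (contDiff_const.sub contDiff_fst)
    have h2 : ContDiff ℝ 2 fun q : ℝ × (Fin 4 → ℂ) => ((q.1 : ℝ) : ℂ) :=
      Complex.ofRealCLM.contDiff.comp contDiff_fst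
    exact (h1.contDiffOn.mul (h.smooth0.comp contDiff_snd.contDiffOn fun q hq => hq.2)).add
      (h2.contDiffOn.mul (h.smooth1.comp contDiff_snd.contDiffOn fun q hq => hq.2))
  refine ⟨hsm, fun t _ s x => ?_, fun t ht z hz => h.axis t ht z hz, ?_⟩
  · unfold lin
    simp only
    rw [h.hom0, h.hom1]
    simp only [Complex.real_smul]
    ring
  · intro t ht v u z hu hz
    refine reg_plane isOpen_univ hsm (mem_univ t) hu fun c' => ?_
    rcases h.alt v u z hu with hev | hne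
    · have e1 := hev.self_of_nhds
      have hz0 : E0 (pl v u z) = 0 := by
        have : lin E0 E1 (t, pl v u z) = E0 (pl v u z) := by
          unfold lin
          simp only at e1 ⊢
          rw [e1]
          push_cast
          ring
        rw [← this]
        exact hz
      obtain ⟨y, hy⟩ := h.reg0 v u z hu hz0 c'
      refine ⟨y, ?_⟩
      have hev2 : (fun q : ℂ × ℂ => lin E0 E1 (t, pl v q.1 q.2)) =ᶠ[𝓝 (u, z)]
          fun q : ℂ × ℂ => E0 (pl v q.1 q.2) := by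
        filter_upwards [hev] with q hq
        unfold lin
        simp only
        rw [hq]
        push_cast
        ring
      rw [hev2.fderiv_eq]
      exact hy
    · exact absurd hz (hne t ht)

/-- **the links of `M P + E0` and `M P + E1`.** -/
theorem zeq_seg (b : Bool) {m n k : ℂ} (hm : m ≠ 0) (hn : b = false → n ≠ 0)
    (hk : b = true → n ^ 2 ≠ 4 * (m * k)) {w : Fin 4 → ℝ} (hw : ∀ i, 0 < w i)
    (h0 : w 0 = wt b 0) (h12 : w 1 + w 2 = wt b 1 + wt b 2) {E0 E1 : (Fin 4 → ℂ) → ℂ}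
    (h : Seg w E0 E1) : ∃ M0 > 0, ∀ M : ℝ, M0 ≤ M →
    ZEq (fun p : Fin 4 → ℂ => (M : ℂ) *
        P3 b (fun _ => m) (fun _ => n) (fun _ => k) (0, (p 0, p 1 * p 2)) + E0 p)
      (fun p : Fin 4 → ℂ => (M : ℂ) *
        P3 b (fun _ => m) (fun _ => n) (fun _ => k) (0, (p 0, p 1 * p 2)) + E1 p) := by
  have hP := core_P3 b (m := fun _ => m) (n := fun _ => n) (k := fun _ => k) contDiff_const
    contDiff_const contDiff_const (fun _ _ => hm) (fun hb _ _ => hn hb) (fun hb _ _ => hk hb)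
  obtain ⟨M0, hM0, H⟩ := gamW (wt_pos b) (w' := fun _ => w) (fun _ _ => hw) (fun _ _ => h0)
    (fun _ _ => h12) isOpen_univ (subset_univ _) hP h.rem.remW
  refine ⟨M0, hM0, fun M hM => ?_⟩
  have hl := (H (fun _ => M) contDiff_const fun _ _ => hM).link
  have e0 : (fun x : Fin 4 → ℂ => (M : ℂ) *
      P3 b (fun _ => m) (fun _ => n) (fun _ => k) (0, (x 0, x 1 * x 2)) +
        lin E0 E1 (0, x)) = fun p : Fin 4 → ℂ => (M : ℂ) *
        P3 b (fun _ => m) (fun _ => n) (fun _ => k) (0, (p 0, p 1 * p 2)) + E0 p := by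
    funext x
    simp [lin]
  have e1 : (fun x : Fin 4 → ℂ => (M : ℂ) *
      P3 b (fun _ => m) (fun _ => n) (fun _ => k) (1, (x 0, x 1 * x 2)) +
        lin E0 E1 (1, x)) = fun p : Fin 4 → ℂ => (M : ℂ) *
        P3 b (fun _ => m) (fun _ => n) (fun _ => k) (0, (p 0, p 1 * p 2)) + E1 p := by
    funext x
    simp [lin, P3]
  rw [← e0, ← e1]
  exact hl

/-! ### where `w` dominates -/

theorem norm_mix {α β t : ℝ} (ht : t ∈ Icc (0 : ℝ) 1) (h : |α - β| ≤ Real.pi / 2) :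
    1 / 2 ≤ ‖((1 - t : ℝ) : ℂ) * cis α + ((t : ℝ) : ℂ) * cis β‖ ^ 2 := by
  have hc : 0 ≤ Real.cos (α - β) :=
    Real.cos_nonneg_of_neg_pi_div_two_le_of_le (by linarith [neg_abs_le (α - β)])
      ((le_abs_self _).trans h)
  have e : ‖((1 - t : ℝ) : ℂ) * cis α + ((t : ℝ) : ℂ) * cis β‖ ^ 2 =
      (1 - t) ^ 2 + t ^ 2 + 2 * (1 - t) * t * Real.cos (α - β) := by
    rw [← Complex.normSq_eq_norm_sq, Complex.normSq_apply]
    have r1 : (((1 - t : ℝ) : ℂ) * cis α + ((t : ℝ) : ℂ) * cis β).re =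
        (1 - t) * Real.cos α + t * Real.cos β := by
      rw [Complex.add_re, Complex.re_ofReal_mul, Complex.re_ofReal_mul,
        LobeKit_407.cis_re, LobeKit_407.cis_re]
    have r2 : (((1 - t : ℝ) : ℂ) * cis α + ((t : ℝ) : ℂ) * cis β).im =
        (1 - t) * Real.sin α + t * Real.sin β := by
      rw [Complex.add_im, Complex.im_ofReal_mul, Complex.im_ofReal_mul,
        LobeKit_407.cis_im, LobeKit_407.cis_im]
    rw [r1, r2, Real.cos_sub]
    linear_combination (1 - t) ^ 2 * Real.sin_sq_add_cos_sq α + t ^ 2 * Real.sin_sq_add_cos_sq β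
  rw [e]
  obtain ⟨h0, h1⟩ := ht
  have h2 : 0 ≤ 2 * (1 - t) * t * Real.cos (α - β) :=
    mul_nonneg (mul_nonneg (mul_nonneg (by norm_num) (by linarith)) h0) hc
  nlinarith [sq_nonneg (t - 1 / 2)]

/-- **64's robust form**: no zeros of the mixture where `w` dominates. -/
theorem far_ok {F0 F1 e0 e1 : ℂ} {r α β t : ℝ} (hr : 0 < r) (ht : t ∈ Icc (0 : ℝ) 1)
    (h : |α - β| ≤ Real.pi / 2) (hF0 : F0 = (r : ℂ) * cis α + e0)
    (hF1 : F1 = (r : ℂ) * cis β + e1) (he0 : ‖e0‖ ≤ r / 2) (he1 : ‖e1‖ ≤ r / 2) :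
    ((1 - t : ℝ) : ℂ) * F0 + ((t : ℝ) : ℂ) * F1 ≠ 0 := by
  intro hz
  have h1 : (r : ℂ) * (((1 - t : ℝ) : ℂ) * cis α + ((t : ℝ) : ℂ) * cis β) =
      -(((1 - t : ℝ) : ℂ) * e0 + ((t : ℝ) : ℂ) * e1) := by
    rw [hF0, hF1] at hz
    linear_combination hz
  have h2 := norm_mix ht h
  have h3 : ‖((1 - t : ℝ) : ℂ) * e0 + ((t : ℝ) : ℂ) * e1‖ ≤ r / 2 := by
    refine (norm_add_le _ _).trans ?_
    rw [norm_mul, norm_mul, Complex.norm_real, Complex.norm_real, Real.norm_eq_abs,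
      Real.norm_eq_abs, abs_of_nonneg (by linarith [ht.2] : 0 ≤ 1 - t), abs_of_nonneg ht.1]
    nlinarith [mul_le_mul_of_nonneg_left he0 (by linarith [ht.2] : 0 ≤ 1 - t),
      mul_le_mul_of_nonneg_left he1 ht.1]
  have h4 : r * ‖((1 - t : ℝ) : ℂ) * cis α + ((t : ℝ) : ℂ) * cis β‖ ≤ r / 2 := by
    have := congrArg norm h1
    rw [norm_mul, norm_neg, Complex.norm_real, Real.norm_eq_abs, abs_of_pos hr] at this
    rw [this]
    exact h3
  have h5 : ‖((1 - t : ℝ) : ℂ) * cis α + ((t : ℝ) : ℂ) * cis β‖ ≤ 1 / 2 := by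
    by_contra hc
    push Not at hc
    nlinarith
  have h6 := norm_nonneg (((1 - t : ℝ) : ℂ) * cis α + ((t : ℝ) : ℂ) * cis β)
  nlinarith

end Crest.Agent.R267.GamE_920
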