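import Mathlib
import Crest.Agent.R267.Gam_100
import Crest.Agent.R267.Amal_52
import Crest.Agent.R267.HmE_951

/-!
# S0406, T3N: moving weights of `y` and `z` (helper100)

The amalgam `am b M A` (weights `wt b`) is `ZEq` to the amalgam `amW w' M A'` with weights `w'`,
`w' x = w x`, `w' y + w' z = w y + w z`, where `A'_v (u, w) = A_v (u |u|^(κ - 1), w)`,
`κ_v = w_v / w'_v`.
-/

set_option autoImplicit false
set_option linter.unusedSectionVars false

noncomputable section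

open Set Filter Topology Metric
open scoped ContDiff
open Crest.Agent.R267.Cone_808 Crest.Agent.R267.SphReg_808 Crest.Agent.R267.Hm_951
open Crest.Agent.R267.LemL_951
open Crest.Agent.R267.Gam_100
open Crest.Agent.R267.NdR_484 (th Arm aw P am t1 g N bw)

namespace Crest.Agent.R267.GamM_100

/-! ### the planar power change -/

/-- `u ↦ u |u|^(κ - 1)`. -/
def Ps (κ : ℝ) (u : ℂ) : ℂ := ((‖u‖ ^ (κ - 1) : ℝ) : ℂ) * u

theorem Ps_zero (κ : ℝ) : Ps κ 0 = 0 := by unfold Ps; simp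

theorem Ps_one (u : ℂ) : Ps 1 u = u := by unfold Ps; simp

theorem norm_Ps {κ : ℝ} (hκ : 0 < κ) (u : ℂ) : ‖Ps κ u‖ = ‖u‖ ^ κ := by
  by_cases hu : u = 0
  · rw [hu, Ps_zero, norm_zero, Real.zero_rpow hκ.ne']
  · have h0 : 0 < ‖u‖ := norm_pos_iff.2 hu
    unfold Ps
    rw [norm_mul, Complex.norm_real, Real.norm_eq_abs,
      abs_of_nonneg (Real.rpow_nonneg (norm_nonneg _) _)]
    nth_rewrite 2 [← Real.rpow_one ‖u‖]
    rw [← Real.rpow_add h0]
    congr 1
    ring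

theorem Ps_ne {κ : ℝ} {u : ℂ} (hu : u ≠ 0) : Ps κ u ≠ 0 := by
  unfold Ps
  refine mul_ne_zero ?_ hu
  exact_mod_cast (Real.rpow_pos_of_pos (norm_pos_iff.2 hu) _).ne'

/-- scaling. -/
theorem Ps_smul {κ : ℝ} (s : ℝ) (u : ℂ) :
    Ps κ ((Real.exp s : ℂ) * u) = (Real.exp (s * κ) : ℂ) * Ps κ u := by
  unfold Ps
  rw [norm_mul, Complex.norm_real, Real.norm_eq_abs, abs_of_pos (Real.exp_pos _),
    Real.mul_rpow (Real.exp_pos _).le (norm_nonneg _), ← Real.exp_mul]
  have : Real.exp (s * (κ - 1)) * Real.exp s = Real.exp (s * κ) := by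
    rw [← Real.exp_add]; congr 1; ring
  have h2 : ((Real.exp (s * (κ - 1)) : ℝ) : ℂ) * ((Real.exp s : ℝ) : ℂ) =
      ((Real.exp (s * κ) : ℝ) : ℂ) := by exact_mod_cast this
  rw [← h2]
  push_cast
  ring

theorem contDiffAt_Ps {κ : ℝ → ℝ} {t : ℝ} (hκ : ContDiffAt ℝ 2 κ t) {u : ℂ} (hu : u ≠ 0) :
    ContDiffAt ℝ 2 (fun q : ℝ × ℂ => Ps (κ q.1) q.2) (t, u) := by
  have h1 : ContDiffAt ℝ 2 (fun q : ℝ × ℂ => ‖q.2‖) (t, u) :=
    (contDiffAt_norm ℝ hu).comp (t, u) contDiffAt_snd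
  have h2 : ContDiffAt ℝ 2 (fun q : ℝ × ℂ => κ q.1 - 1) (t, u) :=
    (hκ.comp (t, u) contDiffAt_fst).sub contDiffAt_const
  have h3 : ContDiffAt ℝ 2 (fun q : ℝ × ℂ => ‖q.2‖ ^ (κ q.1 - 1)) (t, u) :=
    h1.rpow h2 (norm_ne_zero_iff.2 hu)
  exact (Complex.ofRealCLM.contDiff.contDiffAt.comp (t, u) h3).mul contDiffAt_snd

theorem contDiffAt_Ps' {κ : ℝ} {u : ℂ} (hu : u ≠ 0) : ContDiffAt ℝ 2 (Ps κ) u := by
  have h := contDiffAt_Ps (κ := fun _ => κ) (t := 0) contDiffAt_const hu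
  exact h.comp u (contDiffAt_const.prodMk contDiffAt_id)

/-- the derivative of the power change is onto. -/
theorem surj_Ps {κ : ℝ} (hκ : 0 < κ) {u : ℂ} (hu : u ≠ 0) (c : ℂ) :
    ∃ y : ℂ, fderiv ℝ (Ps κ) u y = c := by
  have hd : HasFDerivAt (Ps κ) (fderiv ℝ (Ps κ) u) u :=
    ((contDiffAt_Ps' hu).differentiableAt (by norm_num)).hasFDerivAt
  -- radial
  have e1 : HasDerivAt (fun s : ℝ => ((Real.exp s : ℝ) : ℂ) * u) u 0 := by
    have h1 : HasDerivAt (fun s : ℝ => ((Real.exp s : ℝ) : ℂ)) 1 0 := by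
      have := (Real.hasDerivAt_exp 0).ofReal_comp
      simpa using this
    simpa using h1.mul_const u
  have r1 : HasDerivAt (fun s : ℝ => Ps κ (((Real.exp s : ℝ) : ℂ) * u))
      (fderiv ℝ (Ps κ) u u) 0 := by
    have h0 : HasFDerivAt (Ps κ) (fderiv ℝ (Ps κ) u)
        ((fun s : ℝ => ((Real.exp s : ℝ) : ℂ) * u) 0) := by simpa using hd
    exact h0.comp_hasDerivAt 0 e1
  have r2 : HasDerivAt (fun s : ℝ => Ps κ (((Real.exp s : ℝ) : ℂ) * u)) ((κ : ℂ) * Ps κ u) 0 := by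
    have h1 : HasDerivAt (fun s : ℝ => ((Real.exp (s * κ) : ℝ) : ℂ)) (κ : ℂ) 0 := by
      have h2 : HasDerivAt (fun s : ℝ => Real.exp (s * κ)) κ 0 := by
        have h3 : HasDerivAt (fun s : ℝ => s * κ) κ 0 := by
          simpa using (hasDerivAt_id (0 : ℝ)).mul_const κ
        simpa using h3.exp
      exact h2.ofReal_comp
    refine (h1.mul_const (Ps κ u)).congr_of_eventuallyEq (Eventually.of_forall fun s => ?_)
    exact Ps_smul s u
  have hr : fderiv ℝ (Ps κ) u u = (κ : ℂ) * Ps κ u := r1.unique r2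
  -- angular
  have f1 : HasDerivAt (fun s : ℝ => Complex.exp ((s : ℂ) * Complex.I) * u) (Complex.I * u) 0 := by
    have h1 : HasDerivAt (fun s : ℝ => Complex.exp ((s : ℂ) * Complex.I)) Complex.I 0 := by
      have h2 : HasDerivAt (fun s : ℝ => (s : ℂ) * Complex.I) Complex.I 0 := by
        have h3 : HasDerivAt (fun h : ℝ => (h : ℂ)) 1 0 := Complex.ofRealCLM.hasDerivAt
        simpa using h3.mul_const Complex.I
      simpa using h2.cexp
    exact h1.mul_const u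
  have a1 : HasDerivAt (fun s : ℝ => Ps κ (Complex.exp ((s : ℂ) * Complex.I) * u))
      (fderiv ℝ (Ps κ) u (Complex.I * u)) 0 := by
    have h0 : HasFDerivAt (Ps κ) (fderiv ℝ (Ps κ) u)
        ((fun s : ℝ => Complex.exp ((s : ℂ) * Complex.I) * u) 0) := by simpa using hd
    exact h0.comp_hasDerivAt 0 f1
  have a2 : HasDerivAt (fun s : ℝ => Ps κ (Complex.exp ((s : ℂ) * Complex.I) * u))
      (Complex.I * Ps κ u) 0 := by
    have h1 : HasDerivAt (fun s : ℝ => Complex.exp ((s : ℂ) * Complex.I) * Ps κ u)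
        (Complex.I * Ps κ u) 0 := by
      have h2 : HasDerivAt (fun s : ℝ => Complex.exp ((s : ℂ) * Complex.I)) Complex.I 0 := by
        have h2 : HasDerivAt (fun s : ℝ => (s : ℂ) * Complex.I) Complex.I 0 := by
          have h3 : HasDerivAt (fun h : ℝ => (h : ℂ)) 1 0 := Complex.ofRealCLM.hasDerivAt
          simpa using h3.mul_const Complex.I
        simpa using h2.cexp
      exact h2.mul_const _
    refine h1.congr_of_eventuallyEq (Eventually.of_forall fun s => ?_)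
    simp only [Ps]
    rw [norm_mul, Complex.norm_exp_ofReal_mul_I, one_mul]
    ring
  have ha : fderiv ℝ (Ps κ) u (Complex.I * u) = Complex.I * Ps κ u := a1.unique a2
  have hne := Ps_ne (κ := κ) hu
  refine ⟨((c / Ps κ u).re / κ) • u + (c / Ps κ u).im • (Complex.I * u), ?_⟩
  rw [map_add, map_smul, map_smul, hr, ha]
  simp only [Complex.real_smul]
  have h1 : c = (c / Ps κ u) * Ps κ u := by field_simp
  have h2 : (c / Ps κ u) = ((c / Ps κ u).re : ℂ) + ((c / Ps κ u).im : ℂ) * Complex.I :=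
    (Complex.re_add_im _).symm
  have h3 : (((c / Ps κ u).re / κ : ℝ) : ℂ) * ((κ : ℂ) * Ps κ u) =
      ((c / Ps κ u).re : ℂ) * Ps κ u := by
    push_cast
    have : (κ : ℂ) ≠ 0 := by exact_mod_cast hκ.ne'
    field_simp
  rw [h3]
  conv_rhs => rw [h1, h2]
  ring


/-! ### moving weights -/

/-- shift of the weights. -/
def dl (b : Bool) : ℝ := bif b then 1 / 30 else 2 / 15

/-- the weights at time `t`. -/
def wm (b : Bool) (t : ℝ) : Fin 4 → ℝ := ![wt b 0, wt b 1 - t * dl b, wt b 2 + t * dl b, wt b 3]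

/-- the symmetric weights. -/
def ws (b : Bool) : Fin 4 → ℝ := bif b then ![6 / 15, 1 / 10, 1 / 10, 1 / 15]
  else ![1 / 5, 1 / 5, 1 / 5, 1 / 15]

theorem wm_zero (b : Bool) : wm b 0 = wt b := by
  funext i
  fin_cases i <;> simp [wm]

theorem wm_one (b : Bool) : wm b 1 = ws b := by
  funext i
  cases b <;> fin_cases i <;> simp [wm, ws, wt, dl] <;> norm_num

/-- times. -/
def T1 : Set ℝ := Ioo (-(1 / 4)) (5 / 4)

theorem isOpen_T1 : IsOpen T1 := isOpen_Ioo

theorem Icc_T1 : Icc (0 : ℝ) 1 ⊆ T1 := fun t ht => ⟨by linarith [ht.1], by linarith [ht.2]⟩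

theorem wm_pos {b : Bool} {t : ℝ} (ht : t ∈ T1) (i : Fin 4) : 0 < wm b t i := by
  obtain ⟨h1, h2⟩ := ht
  cases b <;> fin_cases i <;> simp [wm, wt, dl] <;> linarith

theorem wm_lt {b : Bool} {t : ℝ} (ht : t ∈ T1) (i : Fin 4) : wm b t i < 2 := by
  obtain ⟨h1, h2⟩ := ht
  cases b <;> fin_cases i <;> simp [wm, wt, dl] <;> linarith

theorem contDiff_wm (b : Bool) (i : Fin 4) : ContDiff ℝ 2 fun t => wm b t i := by
  fin_cases i <;> simp [wm] <;> fun_prop

theorem wm_sum (b : Bool) (t : ℝ) : wm b t 1 + wm b t 2 = wt b 1 + wt b 2 := by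
  simp [wm]

/-- exponent of the power change. -/
def ka (b : Bool) (v : Fin 3) (t : ℝ) : ℝ := wt b v.castSucc / wm b t v.castSucc

theorem ka_pos {b : Bool} {v : Fin 3} {t : ℝ} (ht : t ∈ T1) : 0 < ka b v t :=
  div_pos (wt_pos b _) (wm_pos ht _)

theorem ka_zero (b : Bool) (v : Fin 3) : ka b v 0 = 1 := by
  unfold ka
  rw [wm_zero, div_self (wt_pos b _).ne']

theorem contDiffOn_ka (b : Bool) (v : Fin 3) : ContDiffOn ℝ 2 (ka b v) T1 :=
  contDiffOn_const.div (contDiff_wm b _).contDiffOn fun _ ht => (wm_pos ht _).ne'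

/-- `|p_v|^{4 / w_v}`. -/
def gm (b : Bool) (v : Fin 3) (q : ℝ × E4) : ℝ := ‖q.2 v.castSucc‖ ^ (4 / wm b q.1 v.castSucc)

/-- sum. -/
def Nm (b : Bool) (q : ℝ × E4) : ℝ := ∑ v, gm b v q

theorem gm_nonneg (b : Bool) (v : Fin 3) (q : ℝ × E4) : 0 ≤ gm b v q :=
  Real.rpow_nonneg (norm_nonneg _) _

theorem gm_eq_zero {b : Bool} {v : Fin 3} {q : ℝ × E4} (ht : q.1 ∈ T1) :
    gm b v q = 0 ↔ q.2 v.castSucc = 0 := by
  unfold gm
  have h : 4 / wm b q.1 v.castSucc ≠ 0 := (div_pos (by norm_num) (wm_pos ht _)).ne'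
  rw [Real.rpow_eq_zero (norm_nonneg _) h, norm_eq_zero]

theorem gm_le_Nm (b : Bool) (v : Fin 3) (q : ℝ × E4) : gm b v q ≤ Nm b q :=
  Finset.single_le_sum (f := fun v => gm b v q) (fun v _ => gm_nonneg b v q) (Finset.mem_univ v)

theorem Nm_nonneg (b : Bool) (q : ℝ × E4) : 0 ≤ Nm b q :=
  Finset.sum_nonneg fun v _ => gm_nonneg b v q

theorem Nm_eq_zero {b : Bool} {q : ℝ × E4} (ht : q.1 ∈ T1) :
    Nm b q = 0 ↔ ∀ v : Fin 3, q.2 v.castSucc = 0 := by
  constructor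
  · intro h v
    rw [← gm_eq_zero (b := b) ht]
    exact le_antisymm (h ▸ gm_le_Nm b v q) (gm_nonneg b v q)
  · intro h
    unfold Nm
    exact Finset.sum_eq_zero fun v _ => (gm_eq_zero ht).2 (h v)

theorem contDiffOn_gm (b : Bool) (v : Fin 3) : ContDiffOn ℝ 2 (gm b v) (T1 ×ˢ univ) := by
  have h1 : ContDiffOn ℝ 2 (fun t => 4 / wm b t v.castSucc) T1 :=
    contDiffOn_const.div (contDiff_wm b _).contDiffOn fun _ ht => (wm_pos ht _).ne'
  have h2 : ∀ t ∈ T1, 2 < 4 / wm b t v.castSucc := fun t ht => by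
    rw [lt_div_iff₀ (wm_pos ht _)]
    linarith [wm_lt (b := b) ht v.castSucc]
  have h3 := contDiffOn_rpow_smul isOpen_T1 h1 h2 (q := fun _ => (1 : ℝ)) contDiffOn_const
    (fun _ _ _ _ _ => rfl)
  have h4 := contDiffOn_coord h3 (v.castSucc : Fin 4) (S := univ)
  refine h4.congr fun q _ => ?_
  simp [gm]

theorem contDiffAt_gm (b : Bool) (v : Fin 3) {q : ℝ × E4} (ht : q.1 ∈ T1) :
    ContDiffAt ℝ 2 (gm b v) q :=
  (contDiffOn_gm b v).contDiffAt ((isOpen_T1.prod isOpen_univ).mem_nhds ⟨ht, mem_univ _⟩)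

theorem contDiffAt_Nm (b : Bool) {q : ℝ × E4} (ht : q.1 ∈ T1) : ContDiffAt ℝ 2 (Nm b) q :=
  ContDiffAt.sum fun v _ => contDiffAt_gm b v ht

/-! ### facts of one arm -/

section Arm

variable {b : Bool} {v : Fin 3} {A : ℂ × ℂ → ℂ}

theorem arm_smooth (hA : Arm b v A) {u : ℂ} (hu : u ≠ 0) (w : ℂ) : ContDiffAt ℝ 2 A (u, w) := by
  obtain ⟨T, hT, hI, hC⟩ := hA.smooth
  have h0 : (0 : ℝ) ∈ T := hI ⟨le_rfl, zero_le_one⟩
  have hop : IsOpen (T ×ˢ {q : ℂ × ℂ | q.1 ≠ 0}) :=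
    hT.prod (isOpen_compl_singleton.preimage continuous_fst)
  have h1 : ContDiffAt ℝ 2 (fun q : ℝ × (ℂ × ℂ) => A q.2) (0, (u, w)) :=
    hC.contDiffAt (hop.mem_nhds ⟨h0, hu⟩)
  exact h1.comp (u, w) (f := fun q : ℂ × ℂ => ((0 : ℝ), q))
    (contDiffAt_const.prodMk contDiffAt_id)

theorem arm_hom (hA : Arm b v A) (s : ℝ) (u w : ℂ) :
    A ((Real.exp (s * wt b v.castSucc) : ℂ) * u, (Real.exp (s * (1 / 15)) : ℂ) * w) =
      Real.exp s • A (u, w) := by
  have h := hA.hom 0 ⟨le_rfl, zero_le_one⟩ (Real.exp (s * (1 / 15))) u w (Real.exp_pos _)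
  have e1 : ((Real.exp (s * (1 / 15)) : ℝ) : ℂ) ^ aw b v =
      ((Real.exp (s * wt b v.castSucc) : ℝ) : ℂ) := by
    rw [← Complex.ofReal_pow, ← Real.exp_nat_mul]
    congr 2
    cases b <;> fin_cases v <;> simp [aw, wt] <;> ring
  have e2 : ((Real.exp (s * (1 / 15)) : ℝ) : ℂ) ^ 15 = ((Real.exp s : ℝ) : ℂ) := by
    rw [← Complex.ofReal_pow, ← Real.exp_nat_mul]
    congr 2
    push_cast
    ring
  simp only at h
  rw [e1, e2] at h
  rw [h, Complex.real_smul]

theorem arm_reg (hA : Arm b v A) {u w : ℂ} (hu : u ≠ 0) (h0 : w ^ 15 + A (u, w) = 0) (c : ℂ) :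
    ∃ y : ℂ × ℂ, 15 * w ^ 14 * y.2 + fderiv ℝ A (u, w) y = c := by
  obtain ⟨y, hy⟩ := hA.reg 0 ⟨le_rfl, zero_le_one⟩ u w hu h0 c
  refine ⟨y, ?_⟩
  rw [← hy]
  congr 1
  have h1 : HasFDerivAt A (fderiv ℝ A (u, w)) (u, w) :=
    ((arm_smooth hA hu w).differentiableAt (by norm_num)).hasFDerivAt
  have h2 : HasFDerivAt (fun q : ℝ × (ℂ × ℂ) => A q.2)
      ((fderiv ℝ A (u, w)).comp (ContinuousLinearMap.snd ℝ ℝ (ℂ × ℂ))) (0, (u, w)) :=
    HasFDerivAt.comp (g := A) (f := fun q : ℝ × (ℂ × ℂ) => q.2) (0, (u, w)) h1 hasFDerivAt_snd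
  rw [h2.fderiv]
  rfl

end Arm

/-! ### the remainder -/

/-- one term. -/
def Et (b : Bool) (v : Fin 3) (A : ℂ × ℂ → ℂ) (q : ℝ × E4) : ℂ :=
  (th (gm b v q / Nm b q) : ℂ) * A (Ps (ka b v q.1) (q.2 v.castSucc), q.2 3)

/-- the remainder. -/
def Em (b : Bool) (A : Fin 3 → ℂ × ℂ → ℂ) (q : ℝ × E4) : ℂ := q.2 3 ^ 15 + ∑ v, Et b v (A v) q

theorem ev_zero {b : Bool} {v : Fin 3} {A : ℂ × ℂ → ℂ} {W : ℝ}
    (hW : ∀ u w : ℂ, W * ‖u‖ ≤ ‖w‖ ^ aw b v → A (u, w) = 0) {q : ℝ × E4} (ht : q.1 ∈ T1)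
    (hq : W * ‖q.2 v.castSucc‖ ^ ka b v q.1 < ‖q.2 3‖ ^ aw b v) : Et b v A =ᶠ[𝓝 q] 0 := by
  have hT : ∀ᶠ q' : ℝ × E4 in 𝓝 q, q'.1 ∈ T1 :=
    (isOpen_T1.preimage continuous_fst).mem_nhds ht
  have h1 : ∀ᶠ q' : ℝ × E4 in 𝓝 q,
      W * ‖q'.2 v.castSucc‖ ^ ka b v q'.1 < ‖q'.2 3‖ ^ aw b v := by
    have k1 : ContinuousAt (fun q' : ℝ × E4 => ka b v q'.1) q :=
      (((contDiffOn_ka b v).contDiffAt (isOpen_T1.mem_nhds ht)).continuousAt).comp
        (f := fun q' : ℝ × E4 => q'.1) continuousAt_fst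
    have k2 : ContinuousAt (fun q' : ℝ × E4 => ‖q'.2 v.castSucc‖) q := by fun_prop
    have c1 : ContinuousAt (fun q' : ℝ × E4 => W * ‖q'.2 v.castSucc‖ ^ ka b v q'.1) q :=
      continuousAt_const.mul (k2.rpow k1 (Or.inr (ka_pos ht)))
    have c2 : ContinuousAt (fun q' : ℝ × E4 => ‖q'.2 3‖ ^ aw b v) q := by fun_prop
    exact c1.eventually_lt c2 hq
  filter_upwards [h1, hT] with q' hq' ht'
  unfold Et
  rw [hW _ _ (by rw [norm_Ps (ka_pos ht')]; exact hq'.le), mul_zero]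
  rfl

theorem contDiffAt_Et {b : Bool} {v : Fin 3} {A : ℂ × ℂ → ℂ} (hA : Arm b v A)
    {q : ℝ × E4} (ht : q.1 ∈ T1) (hq2 : q.2 ≠ 0) : ContDiffAt ℝ 2 (Et b v A) q := by
  by_cases hu : q.2 v.castSucc = 0
  · by_cases hN : Nm b q = 0
    · obtain ⟨W, -, hW⟩ := hA.supp
      have hz := (Nm_eq_zero ht).1 hN
      have hw : q.2 3 ≠ 0 := by
        intro h
        apply hq2
        funext i
        fin_cases i
        · exact hz 0
        · exact hz 1
        · exact hz 2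
        · exact h
      have := ev_zero (b := b) (v := v) (hW 0) ht (by
        rw [hu, norm_zero, Real.zero_rpow (ka_pos ht).ne', mul_zero]
        exact pow_pos (norm_pos_iff.2 hw) _)
      exact contDiffAt_const.congr_of_eventuallyEq this
    · have hc : ContinuousAt (fun q : ℝ × E4 => gm b v q / Nm b q) q :=
        (contDiffAt_gm b v ht).continuousAt.div (contDiffAt_Nm b ht).continuousAt hN
      have h1 : ∀ᶠ q' : ℝ × E4 in 𝓝 q, gm b v q' / Nm b q' < 3 / 4 := by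
        apply hc.eventually_lt continuousAt_const
        rw [(gm_eq_zero ht).2 hu, zero_div]
        norm_num
      have : Et b v A =ᶠ[𝓝 q] 0 := by
        filter_upwards [h1] with q' hq'
        unfold Et
        rw [Amal_52.th_zero hq'.le, Complex.ofReal_zero, zero_mul]
        rfl
      exact contDiffAt_const.congr_of_eventuallyEq this
  · have hN : Nm b q ≠ 0 := fun h => hu ((Nm_eq_zero ht).1 h v)
    have h1 : ContDiffAt ℝ 2 (fun q : ℝ × E4 => gm b v q / Nm b q) q :=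
      (contDiffAt_gm b v ht).div (contDiffAt_Nm b ht) hN
    have h2 : ContDiffAt ℝ 2 (fun q : ℝ × E4 => ((th (gm b v q / Nm b q) : ℝ) : ℂ)) q :=
      Complex.ofRealCLM.contDiff.contDiffAt.comp q
        (((Amal_52.contDiff_th.of_le Amal_52.two_le).contDiffAt).comp q h1)
    have h3 : ContDiffAt ℝ 2 (fun q : ℝ × E4 => Ps (ka b v q.1) (q.2 v.castSucc)) q :=
      (contDiffAt_Ps (κ := ka b v) ((contDiffOn_ka b v).contDiffAt (isOpen_T1.mem_nhds ht))
        hu).comp q (f := fun q : ℝ × E4 => (q.1, q.2 v.castSucc)) (by fun_prop)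
    have h4 : ContDiffAt ℝ 2
        (fun q : ℝ × E4 => A (Ps (ka b v q.1) (q.2 v.castSucc), q.2 3)) q :=
      (arm_smooth hA (Ps_ne hu) (q.2 3)).comp q
        (f := fun q : ℝ × E4 => (Ps (ka b v q.1) (q.2 v.castSucc), q.2 3))
        (h3.prodMk (by fun_prop))
    exact h2.mul h4

theorem gm_act (b : Bool) (v : Fin 3) {t : ℝ} (ht : t ∈ T1) (s : ℝ) (p : E4) :
    gm b v (t, act (wm b t) s p) = Real.exp (4 * s) * gm b v (t, p) := by
  unfold gm
  simp only [act]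
  rw [norm_mul, Complex.norm_real, Real.norm_eq_abs, abs_of_pos (Real.exp_pos _),
    Real.mul_rpow (Real.exp_pos _).le (norm_nonneg _), ← Real.exp_mul]
  have := (wm_pos (b := b) ht v.castSucc).ne'
  congr 2
  field_simp

theorem Nm_act (b : Bool) {t : ℝ} (ht : t ∈ T1) (s : ℝ) (p : E4) :
    Nm b (t, act (wm b t) s p) = Real.exp (4 * s) * Nm b (t, p) := by
  unfold Nm
  rw [Finset.mul_sum]
  exact Finset.sum_congr rfl fun v _ => gm_act b v ht s p

theorem wm_three (b : Bool) (t : ℝ) : wm b t 3 = 1 / 15 := by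
  cases b <;> simp [wm, wt]

theorem Et_act {b : Bool} {v : Fin 3} {A : ℂ × ℂ → ℂ} (hA : Arm b v A) {t : ℝ} (ht : t ∈ T1)
    (s : ℝ) (p : E4) : Et b v A (t, act (wm b t) s p) = Real.exp s • Et b v A (t, p) := by
  unfold Et
  rw [gm_act b v ht, Nm_act b ht, mul_div_mul_left _ _ (Real.exp_pos _).ne']
  simp only [act]
  rw [Ps_smul, wm_three]
  have e : s * wm b t v.castSucc * ka b v t = s * wt b v.castSucc := by
    unfold ka
    have := (wm_pos (b := b) ht v.castSucc).ne'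
    field_simp
  rw [e, arm_hom hA, mul_smul_comm]

theorem Em_act {b : Bool} {A : Fin 3 → ℂ × ℂ → ℂ} (hA : ∀ v, Arm b v (A v)) {t : ℝ}
    (ht : t ∈ T1) (s : ℝ) (p : E4) :
    Em b A (t, act (wm b t) s p) = Real.exp s • Em b A (t, p) := by
  unfold Em
  rw [smul_add, Finset.smul_sum]
  congr 1
  · simp only [act]
    rw [wm_three, mul_pow, ← Complex.ofReal_pow, ← Real.exp_nat_mul, Complex.real_smul]
    congr 3
    push_cast
    ring
  · exact Finset.sum_congr rfl fun v _ => Et_act (hA v) ht s p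

theorem Et_of_zero {b : Bool} {v : Fin 3} {A : ℂ × ℂ → ℂ} {q : ℝ × E4} (ht : q.1 ∈ T1)
    (h : q.2 v.castSucc = 0) : Et b v A q = 0 := by
  unfold Et
  rw [(gm_eq_zero ht).2 h, zero_div, Amal_52.th_zero (by norm_num), Complex.ofReal_zero, zero_mul]

theorem pl_self (v : Fin 3) (u z : ℂ) : pl v u z v.castSucc = u := by
  have h2 : (3 : Fin 4) ≠ v.castSucc := (Fin.castSucc_lt_last v).ne'
  simp only [pl, Pi.add_apply, Pi.single_eq_same, Pi.single_eq_of_ne' h2, add_zero]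

theorem pl_three (v : Fin 3) (u z : ℂ) : pl v u z 3 = z := by
  have h2 : (3 : Fin 4) ≠ v.castSucc := (Fin.castSucc_lt_last v).ne'
  simp only [pl, Pi.add_apply, Pi.single_eq_same, Pi.single_eq_of_ne h2, zero_add]

theorem pl_other {v v' : Fin 3} (h : v' ≠ v) (u z : ℂ) : pl v u z v'.castSucc = 0 := by
  have h2 : (v'.castSucc : Fin 4) ≠ 3 := (Fin.castSucc_lt_last v').ne
  have h3 : (v'.castSucc : Fin 4) ≠ v.castSucc := fun e => h (Fin.castSucc_injective _ e)
  simp only [pl, Pi.add_apply, Pi.single_eq_of_ne h3, Pi.single_eq_of_ne h2, add_zero]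

/-- values on the planes. -/
theorem Em_pl {b : Bool} (A : Fin 3 → ℂ × ℂ → ℂ) {t : ℝ} (ht : t ∈ T1) (v : Fin 3) {u : ℂ}
    (hu : u ≠ 0) (z : ℂ) : Em b A (t, pl v u z) = z ^ 15 + A v (Ps (ka b v t) u, z) := by
  unfold Em
  simp only [pl_three]
  congr 1
  have hN : Nm b (t, pl v u z) = gm b v (t, pl v u z) := by
    unfold Nm
    refine Finset.sum_eq_single v (fun v' _ h => ?_) (fun h => absurd (Finset.mem_univ _) h)
    exact (gm_eq_zero (q := (t, pl v u z)) ht).2 (pl_other h u z)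
  have hg : gm b v (t, pl v u z) ≠ 0 := fun h =>
    hu ((pl_self v u z).symm.trans ((gm_eq_zero (q := (t, pl v u z)) ht).1 h))
  rw [Finset.sum_eq_single v (fun v' _ h => Et_of_zero (q := (t, pl v u z)) ht (pl_other h u z))
    (fun h => absurd (Finset.mem_univ _) h)]
  unfold Et
  rw [hN, div_self hg, Amal_52.th_one Amal_52.t1_lt.le, Complex.ofReal_one, one_mul]
  simp only [pl_self, pl_three]

theorem Em_axis {b : Bool} (A : Fin 3 → ℂ × ℂ → ℂ) {t : ℝ} (ht : t ∈ T1) (z : ℂ) :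
    Em b A (t, Pi.single 3 z) = z ^ 15 := by
  unfold Em
  rw [Finset.sum_eq_zero fun v _ => Et_of_zero (q := (t, Pi.single 3 z)) ht
    (Pi.single_eq_of_ne (Fin.castSucc_lt_last v).ne _), add_zero]
  simp

theorem contDiffOn_Em {b : Bool} {A : Fin 3 → ℂ × ℂ → ℂ} (hA : ∀ v, Arm b v (A v)) :
    ContDiffOn ℝ 2 (Em b A) (T1 ×ˢ {0}ᶜ) := by
  intro q hq
  have h1 : ContDiffAt ℝ 2 (fun q : ℝ × E4 => q.2 3 ^ 15) q := by fun_prop
  exact (h1.add (ContDiffAt.sum fun v _ => contDiffAt_Et (hA v) hq.1 hq.2)).contDiffWithinAt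

/-- **the remainder with moving weights.** -/
theorem remW {b : Bool} {A : Fin 3 → ℂ × ℂ → ℂ} (hA : ∀ v, Arm b v (A v)) :
    RemW (wm b) T1 (Em b A) where
  smooth := contDiffOn_Em hA
  axis := fun t ht z hz => by
    rw [Em_axis A (Icc_T1 ht)]
    exact pow_ne_zero _ hz
  hom := fun t ht s p => Em_act hA (Icc_T1 ht) s p
  reg := by
    intro t ht v u z hu h0
    have ht' := Icc_T1 ht
    refine reg_plane isOpen_T1 (contDiffOn_Em hA) ht' hu fun c => ?_
    rw [Em_pl A ht' v hu] at h0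
    obtain ⟨y, hy⟩ := arm_reg (hA v) (Ps_ne hu) h0 c
    obtain ⟨y1, hy1⟩ := surj_Ps (ka_pos (b := b) (v := v) ht') hu y.1
    refine ⟨(y1, y.2), ?_⟩
    have hev : (fun q : ℂ × ℂ => Em b A (t, pl v q.1 q.2)) =ᶠ[𝓝 (u, z)]
        fun q => q.2 ^ 15 + A v (Ps (ka b v t) q.1, q.2) := by
      have : ∀ᶠ q : ℂ × ℂ in 𝓝 (u, z), q.1 ≠ 0 :=
        (isOpen_compl_singleton.preimage continuous_fst).mem_nhds hu
      filter_upwards [this] with q hq
      exact Em_pl A ht' v hq q.2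
    rw [hev.fderiv_eq]
    have d1 : HasFDerivAt (Ps (ka b v t)) (fderiv ℝ (Ps (ka b v t)) u) u :=
      ((contDiffAt_Ps' hu).differentiableAt (by norm_num)).hasFDerivAt
    have d2 : HasFDerivAt (fun q : ℂ × ℂ => (Ps (ka b v t) q.1, q.2))
        (((fderiv ℝ (Ps (ka b v t)) u).comp (ContinuousLinearMap.fst ℝ ℂ ℂ)).prod
          (ContinuousLinearMap.snd ℝ ℂ ℂ)) (u, z) :=
      (HasFDerivAt.comp (g := Ps (ka b v t)) (f := fun q : ℂ × ℂ => q.1) (u, z) d1
        hasFDerivAt_fst).prodMk hasFDerivAt_snd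
    have d3 : HasFDerivAt (A v) (fderiv ℝ (A v) (Ps (ka b v t) u, z)) (Ps (ka b v t) u, z) :=
      ((arm_smooth (hA v) (Ps_ne hu) z).differentiableAt (by norm_num)).hasFDerivAt
    have d4 := HasFDerivAt.comp (g := A v)
      (f := fun q : ℂ × ℂ => (Ps (ka b v t) q.1, q.2)) (u, z) d3 d2
    have d5 : HasFDerivAt (fun q : ℂ × ℂ => q.2 ^ 15)
        ((15 * z ^ 14) • ContinuousLinearMap.snd ℝ ℂ ℂ) (u, z) := by
      have k1 : HasFDerivAt (fun q : ℂ × ℂ => q.2) (ContinuousLinearMap.snd ℝ ℂ ℂ) (u, z) :=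
        hasFDerivAt_snd
      have := k1.pow 15
      refine this.congr_fderiv ?_
      ext <;> simp
    have d6 : HasFDerivAt (fun q : ℂ × ℂ => q.2 ^ 15 + A v (Ps (ka b v t) q.1, q.2)) _ (u, z) :=
      d5.add d4
    rw [d6.fderiv]
    rw [← hy]
    simp only [_root_.add_apply, smul_apply, ContinuousLinearMap.coe_snd',
      ContinuousLinearMap.comp_apply, ContinuousLinearMap.prod_apply,
      ContinuousLinearMap.coe_fst', smul_eq_mul, hy1]

/-! ### the theorems -/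

/-- the moved amalgam: weights `wm b t`. -/
def amt (b : Bool) (M : ℝ) (A : Fin 3 → ℂ × ℂ → ℂ) (t : ℝ) (p : E4) : ℂ :=
  (M : ℂ) * P b (p 0) (p 1 * p 2) + Em b A (t, p)

theorem P3_eq_P (b : Bool) (t : ℝ) (s u : ℂ) :
    P3 b (fun _ => 1) (fun _ => 1) (fun _ => 0) (t, (s, u)) = P b s u := by
  cases b <;> simp [P3, P]

theorem gm_zero (b : Bool) (v : Fin 3) (p : E4) : gm b v (0, p) = g b v p := by
  unfold gm g
  simp only [wm_zero]
  rw [← Real.rpow_natCast]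
  congr 1
  cases b <;> fin_cases v <;> simp [wt, bw] <;> norm_num

theorem amt_zero (b : Bool) (M : ℝ) (A : Fin 3 → ℂ × ℂ → ℂ) : amt b M A 0 = am b M A := by
  funext p
  unfold amt am Em Et Nm N
  simp only [gm_zero, ka_zero, Ps_one]
  ring

/-- **moving weights**: the amalgam is equivalent to the amalgam with symmetric weights. -/
theorem move (b : Bool) {A : Fin 3 → ℂ × ℂ → ℂ} (hA : ∀ v, Arm b v (A v)) :
    ∃ M0 > 0, ∀ M : ℝ, M0 ≤ M → ZEq (am b M A) (amt b M A 1) := by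
  have hP : Core (wt b) T1 (P3 b (fun _ => 1) (fun _ => 1) (fun _ => 0))
      (P3s b (fun _ => 1) (fun _ => 1) (fun _ => 0))
      (P3u b (fun _ => 1) (fun _ => 1) (fun _ => 0)) := by
    have h := core_P3 b (m := fun _ => 1) (n := fun _ => 1) (k := fun _ => 0) contDiff_const
      contDiff_const contDiff_const (by simp) (by simp) (by simp)
    exact { smooth := h.smooth.mono (prod_mono (subset_univ _) Subset.rfl)
            cs := h.cs.mono (prod_mono (subset_univ _) Subset.rfl)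
            cu := h.cu.mono (prod_mono (subset_univ _) Subset.rfl)
            der := fun t _ => h.der t (mem_univ _)
            hom := h.hom, eul := h.eul, iso := h.iso, van := h.van }
  obtain ⟨M0, h0, H⟩ := gamW (w := wt b) (w' := wm b) (wt_pos b)
    (fun t ht i => wm_pos (Icc_T1 ht) i) (fun t _ => rfl) (fun t _ => wm_sum b t) isOpen_T1
    Icc_T1 hP (remW hA)
  refine ⟨M0, h0, fun M hM => ?_⟩
  have h1 := H (fun _ => M) contDiff_const fun _ _ => hM
  have e : (fun q : ℝ × E4 => (M : ℂ) * P3 b (fun _ => 1) (fun _ => 1) (fun _ => 0)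
      (q.1, (q.2 0, q.2 1 * q.2 2)) + Em b A q) = fun q => amt b M A q.1 q.2 := by
    funext q
    rw [P3_eq_P]
    rfl
  rw [e] at h1
  rw [← amt_zero]
  exact h1.link

theorem mem_T1_one : (1 : ℝ) ∈ T1 := ⟨by norm_num, by norm_num⟩

theorem wm_one_pos (b : Bool) (i : Fin 4) : 0 < ws b i := by
  rw [← wm_one]; exact wm_pos mem_T1_one i

/-- the constant remainder at the end of the move. -/
theorem remEnd {b : Bool} {A : Fin 3 → ℂ × ℂ → ℂ} (hA : ∀ v, Arm b v (A v)) :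
    RemW (fun _ => ws b) univ (fun q => Em b A (1, q.2)) where
  smooth := by
    have h1 : ContDiff ℝ 2 fun q : ℝ × E4 => ((1 : ℝ), q.2) := by fun_prop
    exact (contDiffOn_Em hA).comp h1.contDiffOn fun q hq => ⟨mem_T1_one, hq.2⟩
  axis := fun t _ z hz => (remW hA).axis 1 ⟨zero_le_one, le_rfl⟩ z hz
  hom := fun t _ s p => by
    have := Em_act hA mem_T1_one s p
    rwa [wm_one] at this
  reg := by
    intro t _ v u z hu h0 c
    obtain ⟨y1, y2, hy⟩ := (remW hA).reg 1 ⟨zero_le_one, le_rfl⟩ v u z hu h0 c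
    refine ⟨y1, y2, ?_⟩
    rw [← hy]
    have hne : pl v u z ≠ 0 := by
      intro h0
      have h1 := congrFun h0 v.castSucc
      rw [pl_self] at h1
      exact hu h1
    have hmem : ((1 : ℝ), pl v u z) ∈ T1 ×ˢ ({0}ᶜ : Set E4) := ⟨mem_T1_one, hne⟩
    have hd : DifferentiableAt ℝ (Em b A) (1, pl v u z) :=
      ((contDiffOn_Em hA).contDiffAt
        ((isOpen_T1.prod isOpen_compl_singleton).mem_nhds hmem)).differentiableAt (by norm_num)
    have h1 : HasFDerivAt (fun q : ℝ × E4 => ((1 : ℝ), q.2))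
        ((ContinuousLinearMap.inr ℝ ℝ E4).comp (ContinuousLinearMap.snd ℝ ℝ E4))
        (t, pl v u z) :=
      HasFDerivAt.comp (g := fun x : E4 => ((1 : ℝ), x)) (f := fun q : ℝ × E4 => q.2)
        (t, pl v u z) (hasFDerivAt_prodMk_right 1 (pl v u z)) hasFDerivAt_snd
    have h2 := HasFDerivAt.comp (g := Em b A) (f := fun q : ℝ × E4 => ((1 : ℝ), q.2))
      (t, pl v u z) hd.hasFDerivAt h1
    have h3 : fderiv ℝ (fun q : ℝ × E4 => Em b A (1, q.2)) (t, pl v u z) =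
      (fderiv ℝ (Em b A) (1, pl v u z)).comp
        ((ContinuousLinearMap.inr ℝ ℝ E4).comp (ContinuousLinearMap.snd ℝ ℝ E4)) := h2.fderiv
    rw [h3]
    rfl

/-- the final core: `s² u + u⁵` for `f`, `s u² + s³ u` for `g`. -/
def Pc (b : Bool) (s u : ℂ) : ℂ := bif b then s ^ 2 * u + u ^ 5 else s * u ^ 2 + s ^ 3 * u

/-- the end function of the move: final core, symmetric weights. -/
def ame (b : Bool) (M : ℝ) (A : Fin 3 → ℂ × ℂ → ℂ) (p : E4) : ℂ :=
  (M : ℂ) * Pc b (p 0) (p 1 * p 2) + Em b A (1, p)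

/-- core data over the symmetric weights. -/
theorem core_ws {w : Fin 4 → ℝ} {w' : Fin 4 → ℝ} {T : Set ℝ} {Q Qs Qu : ℝ × ℂ × ℂ → ℂ}
    (h : Core w T Q Qs Qu) (h0 : w' 0 = w 0) (h12 : w' 1 + w' 2 = w 1 + w 2) :
    Core w' T Q Qs Qu where
  smooth := h.smooth
  cs := h.cs
  cu := h.cu
  der := h.der
  hom := fun t ht r s u => by
    rw [← h.hom t ht r s u, h0]
    congr 4
    have e1 : Real.exp (r * w' 1) * Real.exp (r * w' 2) =
        Real.exp (r * w 1) * Real.exp (r * w 2) := by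
      rw [← Real.exp_add, ← Real.exp_add]
      congr 1
      linear_combination r * h12
    exact_mod_cast e1
  eul := fun t ht s u => by
    rw [h0, h12]
    exact h.eul t ht s u
  iso := h.iso
  van := h.van

theorem ws_sum (b : Bool) : ws b 1 + ws b 2 = wt b 1 + wt b 2 := by
  rw [← wm_one]; exact wm_sum b 1

theorem ws_zero (b : Bool) : ws b 0 = wt b 0 := by
  rw [← wm_one]; rfl

/-- **core change** at the symmetric weights. -/
theorem coreChange (b : Bool) {A : Fin 3 → ℂ × ℂ → ℂ} (hA : ∀ v, Arm b v (A v)) :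
    ∃ M0 > 0, ∀ M : ℝ, M0 ≤ M → ZEq (amt b M A 1) (ame b M A) := by
  cases b
  · refine ⟨1, one_pos, fun M _ => ?_⟩
    have : amt false M A 1 = ame false M A := by
      funext p
      simp [amt, ame, P, Pc]
    rw [this]
    exact ZEq.refl _
  · have hn : ContDiff ℝ 2 fun t : ℝ => (1 : ℂ) - (t : ℂ) :=
      contDiff_const.sub Complex.ofRealCLM.contDiff
    have hk : ContDiff ℝ 2 fun t : ℝ => (t : ℂ) ^ 2 + Complex.I * ((t : ℂ) * (1 - (t : ℂ))) :=
      (Complex.ofRealCLM.contDiff.pow 2).add (contDiff_const.mul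
        (Complex.ofRealCLM.contDiff.mul hn))
    have hP := core_P3 true (m := fun _ => 1) (n := fun t : ℝ => (1 : ℂ) - (t : ℂ))
      (k := fun t : ℝ => (t : ℂ) ^ 2 + Complex.I * ((t : ℂ) * (1 - (t : ℂ))))
      contDiff_const hn hk (by simp) (by simp) (by
        intro _ t ht h
        have him := congrArg Complex.im h
        have hre := congrArg Complex.re h
        have e1 : ((1 : ℂ) - (t : ℂ)) ^ 2 = (((1 - t) ^ 2 : ℝ) : ℂ) := by push_cast; ring
        have e2 : 4 * (1 * ((t : ℂ) ^ 2 + Complex.I * ((t : ℂ) * (1 - (t : ℂ))))) =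
            ((4 * t ^ 2 : ℝ) : ℂ) + ((4 * (t * (1 - t)) : ℝ) : ℂ) * Complex.I := by
          push_cast; ring
        rw [e1, e2] at him hre
        simp only [Complex.ofReal_im, Complex.add_im, Complex.mul_im, Complex.ofReal_re,
          Complex.I_im, Complex.I_re, mul_one, mul_zero, add_zero, zero_add, Complex.add_re,
          Complex.mul_re, sub_zero, zero_mul] at him hre
        have h3 : t * (1 - t) = 0 := by linarith
        rcases mul_eq_zero.1 h3 with h4 | h4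
        · rw [h4] at hre; norm_num at hre
        · have : t = 1 := by linarith
          rw [this] at hre; norm_num at hre)
    obtain ⟨M0, h0, H⟩ := gamW (w := wt true) (w' := fun _ => ws true) (wt_pos true)
      (fun t _ i => wm_one_pos true i) (fun t _ => ws_zero true) (fun t _ => ws_sum true)
      isOpen_univ (subset_univ _) hP (remEnd hA)
    refine ⟨M0, h0, fun M hM => ?_⟩
    have h1 := (H (fun _ => M) contDiff_const fun _ _ => hM).link
    have e0 : (fun x : E4 => (M : ℂ) * P3 true (fun _ => 1) (fun t : ℝ => (1 : ℂ) - (t : ℂ))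
        (fun t : ℝ => (t : ℂ) ^ 2 + Complex.I * ((t : ℂ) * (1 - (t : ℂ))))
          (0, (x 0, x 1 * x 2)) + Em true A (1, x)) = amt true M A 1 := by
      funext p
      simp [amt, P, P3]
    have e1 : (fun x : E4 => (M : ℂ) * P3 true (fun _ => 1) (fun t : ℝ => (1 : ℂ) - (t : ℂ))
        (fun t : ℝ => (t : ℂ) ^ 2 + Complex.I * ((t : ℂ) * (1 - (t : ℂ))))
          (1, (x 0, x 1 * x 2)) + Em true A (1, x)) = ame true M A := by
      funext p
      simp [ame, Pc, P3]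
    rw [← e0, ← e1]
    exact h1

/-- **C2 (b')**: the amalgam is equivalent to the moved amalgam with the final core. -/
theorem move_core (b : Bool) {A : Fin 3 → ℂ × ℂ → ℂ} (hA : ∀ v, Arm b v (A v)) :
    ∃ M0 > 0, ∀ M : ℝ, M0 ≤ M → ZEq (am b M A) (ame b M A) := by
  obtain ⟨M1, h1, H1⟩ := move b hA
  obtain ⟨M2, h2, H2⟩ := coreChange b hA
  exact ⟨max M1 M2, lt_max_of_lt_left h1, fun M hM =>
    (H1 M (le_trans (le_max_left _ _) hM)).trans (H2 M (le_trans (le_max_right _ _) hM))⟩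

end Crest.Agent.R267.GamM_100
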