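import Crest.Agent.R267.HubDefs_284
import Crest.Agent.R267.GamM_100
import Crest.Agent.R267.GamE_920

/-!
# S0406, hub step, C2 (helper920): `GamP b D`

`gamP : GamP b D` : the amalgam of arms in target form is equivalent to `F1 b D M` for `M ≫ 1`.
(b') is helper100's `GamM_100.move_core`; then a straight line of remainders at the symmetric
weights: on the planes it is constant near the zeros (`Tgt`, first part), and has no zeros elsewhere
(`Tgt`, second part).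
-/

set_option autoImplicit false
set_option linter.unusedSectionVars false

noncomputable section

open Set Filter Topology Metric Finset
open scoped ContDiff
open Crest.Agent.R267.Cone_808 Crest.Agent.R267.Hm_951 Crest.Agent.R267.Ang_739
open Crest.Agent.R267.T3aNDefs_88 (SD Box Hm)
open Crest.Agent.R267.GlNDefs_9
open Crest.Agent.R267.WordPh_9 Crest.Agent.R267.WordPh2_9
open Crest.Agent.R267.HarmBox_920 Crest.Agent.R267.GamE_920
open Crest.Agent.R267.HubDefs_284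
open Crest.Agent.R267.NdR_484 (Arm aw am)
open Crest.Agent.R267.Gam_100 (wt wt_pos pl pl_zero RemW Rem0 Core core_P3 P3 reg_plane gamW)
open Crest.Agent.R267.GamM_100 (Ps Ps_zero norm_Ps Ps_ne contDiffAt_Ps' ws wm wm_one ka ka_pos
  mem_T1_one Em Em_pl Em_axis Em_act contDiffOn_Em remEnd Pc ame move_core ws_sum ws_zero
  wm_one_pos pl_self pl_three pl_other)

namespace Crest.Agent.R267.GamP_920

/-! ### the data of `EX` -/

theorem DS_gt (b : Bool) (j : Fin 4) : 2 < DS b j := by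
  cases b <;> fin_cases j <;> simp [DS] <;> norm_num

theorem ws_DS (b : Bool) (j : Fin 4) : ws b j * DS b j = 1 := by
  cases b <;> fin_cases j <;> simp [DS, ws] <;> norm_num

theorem sn_pm (D : SD 4) (j : Fin 4) (l : ℕ) : D.sn j l = 1 ∨ D.sn j l = -1 := by
  unfold SD.sn
  split
  · exact Or.inr rfl
  · exact Or.inl rfl

theorem contDiff_pp (D : SD 4) (j : Fin 4) : ContDiff ℝ 2 (pp D j) := contDiff_wph (arcsE _)

theorem per_pp (D : SD 4) (j : Fin 4) : Per fun x => cis (pp D j x) := by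
  intro x
  obtain ⟨n, hn⟩ := exists_tot (sn_pm D j) (D.M j)
  show cis (pp D j (x + 2 * Real.pi)) = cis (pp D j x)
  unfold pp
  rw [wph_add, hn]
  exact cis_add_int_mul _ n

theorem contDiff_wnE (M lo hi : ℕ) : ContDiff ℝ 2 (wn (aE M) (bE M) lo hi) := by
  have hM : (0 : ℝ) < (M : ℝ) + 1 := by positivity
  have h : ∀ k : ℕ, ContDiff ℝ 2 (ps (bE M k) (aE M (k + 1))) := by
    intro k
    refine contDiff_ps ?_ ?_
    · unfold aE bE
      refine div_lt_div_of_pos_right ?_ hM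
      push_cast
      nlinarith [Real.pi_gt_three]
    · unfold aE bE
      rw [div_add' _ _ _ hM.ne']
      refine div_lt_div_of_pos_right ?_ hM
      push_cast
      have : 0 ≤ Real.pi * (M : ℝ) := by positivity
      nlinarith [Real.pi_gt_three]
  exact (h lo).sub (h hi)

theorem contDiff_ww (D : SD 4) (e : Fin D.nb) (j : Fin 4) : ContDiff ℝ 2 (ww D e j) :=
  contDiff_wnE _ _ _

theorem per_ww (D : SD 4) (e : Fin D.nb) (j : Fin 4) : Per (ww D e j) := by
  intro x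
  have := wn_add_int (aE (D.M j)) (bE (D.M j)) ((D.bx e).lo j) ((D.bx e).hi j) x 1
  simpa [ww] using this

theorem ebd (b : Bool) (D : SD 4) : EBD (DS b) (pp D) (fun e => (D.bx e).S) (ww D) where
  hD := DS_gt b
  ph2 := contDiff_pp D
  per := per_pp D
  ne := fun e => Finset.card_pos.1 (by have := D.h2 e; omega)
  lper := fun e j _ => per_ww D e j
  l2 := fun e j _ => contDiff_ww D e j

theorem EX_eq (b : Bool) (D : SD 4) : EX D (DS b) =
    EB (DS b) (pp D) (fun e => cd D e * cc D e) (fun e => (D.bx e).S) (ww D) := rfl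

theorem contDiff_EX (b : Bool) (D : SD 4) : ContDiff ℝ 2 (EX D (DS b)) := by
  rw [EX_eq]
  exact contDiff_EB (ebd b D) _

theorem EX_act (b : Bool) (D : SD 4) (s : ℝ) (z : Fin 4 → ℂ) :
    EX D (DS b) (act (ws b) s z) = Real.exp s • EX D (DS b) z := by
  rw [EX_eq]
  exact EB_act (ws_DS b) s z

/-- `EX` depends on the magnitudes and on the arguments only -/
theorem EX_congr (D : SD 4) {dg dg' : Fin 4 → ℝ} {z z' : Fin 4 → ℂ}
    (h : ∀ j, ‖z j‖ ^ dg j = ‖z' j‖ ^ dg' j) (ha : ∀ j, Complex.arg (z j) = Complex.arg (z' j)) :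
    EX D dg z = EX D dg' z' := by
  unfold EX own boxH
  congr 1
  · refine Finset.sum_congr rfl fun j _ => ?_
    unfold pc pol
    rw [h j, ha j]
  · congr 1
    refine Finset.sum_congr rfl fun e _ => ?_
    congr 1
    unfold HB
    rw [Hm_congr (R := rr dg z) (R' := rr dg' z') fun j _ => h j]
    congr 1
    exact Finset.prod_congr rfl fun j _ => by rw [ha j]

/-! ### the planes -/

theorem ka_D0 (b : Bool) (v : Fin 3) : ka b v 1 * D0 b v.castSucc = DS b v.castSucc := by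
  unfold ka
  rw [wm_one]
  cases b <;> fin_cases v <;> simp [DS, D0, wt, ws] <;> norm_num

theorem D0_three (b : Bool) : D0 b 3 = DS b 3 := by
  cases b <;> simp [D0, DS]

theorem D0_pos (b : Bool) (j : Fin 4) : 0 < D0 b j := by
  cases b <;> fin_cases j <;> simp [D0]

theorem arg_Ps {k : ℝ} (u : ℂ) : Complex.arg (Ps k u) = Complex.arg u := by
  by_cases hu : u = 0
  · rw [hu, Ps_zero]
  · unfold Ps
    exact Complex.arg_real_mul _ (Real.rpow_pos_of_pos (norm_pos_iff.2 hu) _)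

theorem EX_pl (b : Bool) (D : SD 4) (v : Fin 3) (u z : ℂ) :
    EX D (DS b) (pl v u z) = kX b D v (Ps (ka b v 1) u, z) := by
  have h3 : (3 : Fin 4) ≠ v.castSucc := (Fin.castSucc_lt_last v).ne'
  have p3 : pt v (Ps (ka b v 1) u, z) 3 = z := by
    unfold pt
    rw [Function.update_self]
  have pv : pt v (Ps (ka b v 1) u, z) v.castSucc = Ps (ka b v 1) u := by
    unfold pt
    rw [Function.update_of_ne h3.symm, Function.update_self]
  have po : ∀ v' : Fin 3, v' ≠ v → pt v (Ps (ka b v 1) u, z) v'.castSucc = 0 := by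
    intro v' hv
    unfold pt
    have h4 : (v'.castSucc : Fin 4) ≠ 3 := (Fin.castSucc_lt_last v').ne
    rw [Function.update_of_ne h4,
      Function.update_of_ne fun e => hv (Fin.castSucc_injective _ e)]
    rfl
  unfold kX
  refine EX_congr D (fun j => ?_) fun j => ?_
  · refine Fin.lastCases ?_ (fun v' => ?_) j
    · change ‖pl v u z 3‖ ^ DS b 3 = ‖pt v (Ps (ka b v 1) u, z) 3‖ ^ D0 b 3
      rw [pl_three, p3, D0_three]
    · by_cases hv : v' = v
      · subst hv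
        rw [pl_self, pv, norm_Ps (ka_pos mem_T1_one), ← Real.rpow_mul (norm_nonneg _), ka_D0]
      · rw [pl_other hv, po v' hv, norm_zero, Real.zero_rpow (D0_pos b _).ne',
          Real.zero_rpow (by linarith [DS_gt b v'.castSucc] : DS b v'.castSucc ≠ 0)]
  · refine Fin.lastCases ?_ (fun v' => ?_) j
    · change Complex.arg (pl v u z 3) = Complex.arg (pt v (Ps (ka b v 1) u, z) 3)
      rw [pl_three, p3]
    · by_cases hv : v' = v
      · subst hv
        rw [pl_self, pv, arg_Ps]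
      · rw [pl_other hv, po v' hv]

/-! ### calculus on the planes -/

/-- the plane as a linear map -/
def Lp (v : Fin 3) : ℂ × ℂ →L[ℝ] (Fin 4 → ℂ) :=
  (ContinuousLinearMap.single ℝ (fun _ : Fin 4 => ℂ) v.castSucc).comp
      (ContinuousLinearMap.fst ℝ ℂ ℂ) +
    (ContinuousLinearMap.single ℝ (fun _ : Fin 4 => ℂ) 3).comp (ContinuousLinearMap.snd ℝ ℂ ℂ)

theorem Lp_apply (v : Fin 3) (q : ℂ × ℂ) : Lp v q = pl v q.1 q.2 := rfl

theorem pl_ne {v : Fin 3} {u : ℂ} (hu : u ≠ 0) (z : ℂ) : pl v u z ≠ 0 := fun h => by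
  have h1 := congrFun h v.castSucc
  rw [pl_self] at h1
  exact hu h1

theorem contDiffAt_plane {E : (Fin 4 → ℂ) → ℂ} (h : ContDiffOn ℝ 2 E {0}ᶜ) (v : Fin 3) {u : ℂ}
    (hu : u ≠ 0) (z : ℂ) : ContDiffAt ℝ 2 (fun q : ℂ × ℂ => E (pl v q.1 q.2)) (u, z) := by
  have h1 : ContDiffAt ℝ 2 E (Lp v (u, z)) :=
    h.contDiffAt (isOpen_compl_singleton.mem_nhds (pl_ne hu z))
  exact h1.comp (u, z) (Lp v).contDiff.contDiffAt

/-- a function which vanishes for `|w|^a ≤ W |u|^k` has derivative zero there -/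
theorem fderiv_zero_of_cone {G : ℂ × ℂ → ℂ} {W k : ℝ} {a : ℕ} (hW : 0 < W) (hk : 0 < k)
    (hG : ∀ u w : ℂ, u ≠ 0 → ContDiffAt ℝ 2 G (u, w))
    (h0 : ∀ u w : ℂ, u ≠ 0 → ‖w‖ ^ a ≤ W * ‖u‖ ^ k → G (u, w) = 0) {u w : ℂ} (hu : u ≠ 0)
    (h : ‖w‖ ^ a ≤ W * ‖u‖ ^ k) : fderiv ℝ G (u, w) = 0 := by
  have hun : 0 < ‖u‖ := norm_pos_iff.2 hu
  have hc : ContinuousAt (fun r : ℝ => (((r : ℂ) * u, w) : ℂ × ℂ)) 1 := by fun_prop
  have hf : ContinuousAt (fderiv ℝ G) (u, w) :=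
    ((hG u w hu).fderiv_right (m := 1) (by norm_num)).continuousAt
  have h1 : Tendsto (fun r : ℝ => fderiv ℝ G ((r : ℂ) * u, w)) (𝓝[>] 1)
      (𝓝 (fderiv ℝ G (u, w))) := by
    have h2 : ContinuousAt (fun r : ℝ => fderiv ℝ G ((r : ℂ) * u, w)) 1 := by
      refine ContinuousAt.comp (g := fderiv ℝ G) (f := fun r : ℝ => (((r : ℂ) * u, w) : ℂ × ℂ))
        ?_ hc
      simpa using hf
    have h3 : Tendsto (fun r : ℝ => fderiv ℝ G ((r : ℂ) * u, w)) (𝓝 1)
        (𝓝 (fderiv ℝ G (u, w))) := by simpa [ContinuousAt] using h2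
    exact h3.mono_left nhdsWithin_le_nhds
  have h2 : ∀ᶠ r : ℝ in 𝓝[>] 1, fderiv ℝ G ((r : ℂ) * u, w) = 0 := by
    filter_upwards [self_mem_nhdsWithin] with r hr
    have hr1 : (1 : ℝ) < r := hr
    have hr0 : 0 < r := by linarith
    have hru : (r : ℂ) * u ≠ 0 := mul_ne_zero (by exact_mod_cast hr0.ne') hu
    have hlt : ‖w‖ ^ a < W * ‖(r : ℂ) * u‖ ^ k := by
      refine h.trans_lt (mul_lt_mul_of_pos_left ?_ hW)
      refine Real.rpow_lt_rpow hun.le ?_ hk
      rw [norm_mul, Complex.norm_real, Real.norm_eq_abs, abs_of_pos hr0]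
      nlinarith
    have hev : G =ᶠ[𝓝 ((r : ℂ) * u, w)] fun _ => 0 := by
      have e1 : ∀ᶠ q : ℂ × ℂ in 𝓝 ((r : ℂ) * u, w), q.1 ≠ 0 :=
        continuousAt_fst.eventually_ne hru
      have e2 : ∀ᶠ q : ℂ × ℂ in 𝓝 ((r : ℂ) * u, w), ‖q.2‖ ^ a < W * ‖q.1‖ ^ k := by
        have c1 : ContinuousAt (fun q : ℂ × ℂ => ‖q.2‖ ^ a) ((r : ℂ) * u, w) := by fun_prop
        have c2 : ContinuousAt (fun q : ℂ × ℂ => W * ‖q.1‖ ^ k) ((r : ℂ) * u, w) := by
          have c3 : ContinuousAt (fun q : ℂ × ℂ => ‖q.1‖) ((r : ℂ) * u, w) := by fun_prop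
          exact continuousAt_const.mul (c3.rpow_const (Or.inr hk.le))
        exact c1.eventually_lt c2 hlt
      filter_upwards [e1, e2] with q hq1 hq2
      exact h0 q.1 q.2 hq1 hq2.le
    rw [hev.fderiv_eq]
    exact fderiv_const_apply _
  exact tendsto_nhds_unique h1 (tendsto_const_nhds.congr' (h2.mono fun r hr => hr.symm))

/-! ### straight lines of remainders -/

/-- the straight line from `E0` to `E1` is admissible -/
structure Seg2 (w : Fin 4 → ℝ) (E0 E1 : (Fin 4 → ℂ) → ℂ) : Prop where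
  smooth0 : ContDiffOn ℝ 2 E0 {0}ᶜ
  smooth1 : ContDiffOn ℝ 2 E1 {0}ᶜ
  hom0 : ∀ (s : ℝ) (z : Fin 4 → ℂ), E0 (act w s z) = Real.exp s • E0 z
  hom1 : ∀ (s : ℝ) (z : Fin 4 → ℂ), E1 (act w s z) = Real.exp s • E1 z
  axis : ∀ t ∈ Icc (0 : ℝ) 1, ∀ z : ℂ, z ≠ 0 →
    (1 - t) • E0 (Pi.single 3 z) + t • E1 (Pi.single 3 z) ≠ 0
  reg0 : ∀ (v : Fin 3) (u z : ℂ), u ≠ 0 → E0 (pl v u z) = 0 →
    ∀ c : ℂ, ∃ y : ℂ × ℂ, fderiv ℝ (fun q : ℂ × ℂ => E0 (pl v q.1 q.2)) (u, z) y = c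
  alt : ∀ (v : Fin 3) (u z : ℂ), u ≠ 0 →
    (E1 (pl v u z) = E0 (pl v u z) ∧
      fderiv ℝ (fun q : ℂ × ℂ => E1 (pl v q.1 q.2) - E0 (pl v q.1 q.2)) (u, z) = 0) ∨
    ∀ t ∈ Icc (0 : ℝ) 1, (1 - t) • E0 (pl v u z) + t • E1 (pl v u z) ≠ 0

theorem lin_eq (E0 E1 : (Fin 4 → ℂ) → ℂ) (t : ℝ) (x : Fin 4 → ℂ) :
    lin E0 E1 (t, x) = (1 - t) • E0 x + t • E1 x := by
  unfold lin
  simp only [Complex.real_smul]

theorem Seg2.rem {w : Fin 4 → ℝ} {E0 E1 : (Fin 4 → ℂ) → ℂ} (h : Seg2 w E0 E1) :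
    Gam_100.Rem w univ (lin E0 E1) := by
  have hsm : ContDiffOn ℝ 2 (lin E0 E1) (univ ×ˢ {0}ᶜ) := by
    have h1 : ContDiff ℝ 2 fun q : ℝ × (Fin 4 → ℂ) => ((1 - q.1 : ℝ) : ℂ) :=
      Complex.ofRealCLM.contDiff.comp (contDiff_const.sub contDiff_fst)
    have h2 : ContDiff ℝ 2 fun q : ℝ × (Fin 4 → ℂ) => ((q.1 : ℝ) : ℂ) :=
      Complex.ofRealCLM.contDiff.comp contDiff_fst
    exact (h1.contDiffOn.mul (h.smooth0.comp contDiff_snd.contDiffOn fun q hq => hq.2)).add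
      (h2.contDiffOn.mul (h.smooth1.comp contDiff_snd.contDiffOn fun q hq => hq.2))
  refine ⟨hsm, fun t _ s x => ?_, fun t ht z hz => ?_, ?_⟩
  · rw [lin_eq, lin_eq, h.hom0, h.hom1]
    simp only [Complex.real_smul]
    ring
  · rw [lin_eq]
    exact h.axis t ht z hz
  · intro t ht v u z hu hz
    refine reg_plane isOpen_univ hsm (mem_univ t) hu fun c' => ?_
    rw [lin_eq] at hz
    rcases h.alt v u z hu with ⟨e1, hd⟩ | hne
    · have hz0 : E0 (pl v u z) = 0 := by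
        rw [← hz, e1, ← add_smul]
        simp
      obtain ⟨y, hy⟩ := h.reg0 v u z hu hz0 c'
      refine ⟨y, ?_⟩
      have hE0 : DifferentiableAt ℝ (fun q : ℂ × ℂ => E0 (pl v q.1 q.2)) (u, z) :=
        (contDiffAt_plane h.smooth0 v hu z).differentiableAt (by norm_num)
      have hE1 : DifferentiableAt ℝ (fun q : ℂ × ℂ => E1 (pl v q.1 q.2)) (u, z) :=
        (contDiffAt_plane h.smooth1 v hu z).differentiableAt (by norm_num)
      have e2 : (fun q : ℂ × ℂ => lin E0 E1 (t, pl v q.1 q.2)) = fun q : ℂ × ℂ =>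
          E0 (pl v q.1 q.2) + t • (E1 (pl v q.1 q.2) - E0 (pl v q.1 q.2)) := by
        funext q
        rw [lin_eq]
        simp only [Complex.real_smul]
        push_cast
        ring
      have h0 : HasFDerivAt (fun q : ℂ × ℂ => E1 (pl v q.1 q.2) - E0 (pl v q.1 q.2))
          (0 : ℂ × ℂ →L[ℝ] ℂ) (u, z) := by
        rw [← hd]
        exact (hE1.fun_sub hE0).hasFDerivAt
      have h1 := (hE0.hasFDerivAt.fun_add (h0.const_smul t)).fderiv
      rw [e2]
      refine (congrArg (fun l : ℂ × ℂ →L[ℝ] ℂ => l y) h1).trans ?_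
      rw [smul_zero, add_zero]
      exact hy
    · exact absurd hz (hne t ht)

/-- coefficients of the cores -/
theorem core_eq (b : Bool) (t : ℝ) (s u : ℂ) :
    P3 b (fun _ => 1) (fun _ => bif b then 0 else 1) (fun _ => 1) (t, (s, u)) = core b s u := by
  cases b
  · simp only [P3, core, cond_false]
    ring
  · simp only [P3, core, cond_true]
    ring

theorem Pc_eq (b : Bool) (s u : ℂ) : Pc b s u = core b s u := by
  cases b
  · simp only [Pc, core, cond_false]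
    ring
  · simp only [Pc, core, cond_true]

/-- **the links of `M P + E0` and `M P + E1`.** -/
theorem zeq_seg2 (b : Bool) {E0 E1 : (Fin 4 → ℂ) → ℂ} (h : Seg2 (ws b) E0 E1) :
    ∃ M0 > 0, ∀ M : ℝ, M0 ≤ M →
    ZEq (fun p : Fin 4 → ℂ => (M : ℂ) * core b (p 0) (p 1 * p 2) + E0 p)
      (fun p : Fin 4 → ℂ => (M : ℂ) * core b (p 0) (p 1 * p 2) + E1 p) := by
  have hP := core_P3 b (m := fun _ => 1) (n := fun _ => bif b then 0 else 1) (k := fun _ => 1)
    contDiff_const contDiff_const contDiff_const (fun _ _ => one_ne_zero)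
    (fun hb _ _ => by rw [hb]; exact one_ne_zero) (fun hb _ _ => by rw [hb]; norm_num)
  obtain ⟨M0, hM0, H⟩ := gamW (wt_pos b) (w' := fun _ => ws b) (fun _ _ => wm_one_pos b)
    (fun _ _ => ws_zero b) (fun _ _ => ws_sum b) isOpen_univ (subset_univ _) hP h.rem.remW
  refine ⟨M0, hM0, fun M hM => ?_⟩
  have hl := (H (fun _ => M) contDiff_const fun _ _ => hM).link
  simp only [core_eq] at hl
  have e0 : (fun x : Fin 4 → ℂ => (M : ℂ) * core b (x 0) (x 1 * x 2) + lin E0 E1 (0, x)) =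
      fun p : Fin 4 → ℂ => (M : ℂ) * core b (p 0) (p 1 * p 2) + E0 p := by
    funext x
    simp [lin]
  have e1 : (fun x : Fin 4 → ℂ => (M : ℂ) * core b (x 0) (x 1 * x 2) + lin E0 E1 (1, x)) =
      fun p : Fin 4 → ℂ => (M : ℂ) * core b (p 0) (p 1 * p 2) + E1 p := by
    funext x
    simp [lin]
  rw [← e0, ← e1]
  exact hl

/-! ### the segment from the amalgam to `EX` -/

theorem seg (b : Bool) (D : SD 4) {A : Fin 3 → ℂ × ℂ → ℂ} (hA : ∀ v, Arm b v (A v))
    (hT : ∀ v, Tgt b D v (A v)) :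
    Seg2 (ws b) (fun p => Em b A (1, p)) (EX D (DS b)) := by
  have hsm0 : ContDiffOn ℝ 2 (fun p : Fin 4 → ℂ => Em b A (1, p)) {0}ᶜ := by
    have h1 : ContDiff ℝ 2 fun p : Fin 4 → ℂ => ((1 : ℝ), p) := by fun_prop
    exact (contDiffOn_Em hA).comp h1.contDiffOn fun q hq => ⟨mem_T1_one, hq⟩
  have hsm1 : ContDiffOn ℝ 2 (EX D (DS b)) {0}ᶜ := (contDiff_EX b D).contDiffOn
  refine ⟨hsm0, hsm1, fun s z => ?_, EX_act b D, fun t ht z hz => ?_, ?_, ?_⟩
  · have := Em_act hA mem_T1_one s z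
    rwa [wm_one] at this
  · obtain ⟨W1, hW1, -, h2⟩ := hT 0
    obtain ⟨W, -, hW⟩ := (hA 0).supp
    have hpos : W1 * ‖(0 : ℂ)‖ < ‖z‖ ^ aw b 0 := by
      rw [norm_zero, mul_zero]
      exact pow_pos (norm_pos_iff.2 hz) _
    have h3 := h2 0 z hpos t ht
    have h4 : A 0 (0, z) = 0 := by
      refine hW 0 0 z ?_
      rw [norm_zero, mul_zero]
      exact pow_nonneg (norm_nonneg _) _
    rw [h4, add_zero] at h3
    have e1 : Em b A (1, Pi.single 3 z) = z ^ 15 := Em_axis A mem_T1_one z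
    have e2 : EX D (DS b) (Pi.single 3 z) = kX b D 0 (0, z) := by
      rw [← pl_zero (0 : Fin 3) z, EX_pl, Ps_zero]
    show (1 - t) • Em b A (1, Pi.single 3 z) + t • EX D (DS b) (Pi.single 3 z) ≠ 0
    rw [e1, e2]
    exact h3
  · intro v u z hu h0 c
    obtain ⟨y1, y2, hy⟩ := (remEnd hA).reg 0 ⟨le_rfl, zero_le_one⟩ v u z hu h0 c
    refine ⟨(y1, y2), ?_⟩
    rw [← hy]
    have hne : pl v u z ≠ 0 := pl_ne hu z
    have hd : DifferentiableAt ℝ (fun q : ℝ × (Fin 4 → ℂ) => Em b A (1, q.2)) (0, pl v u z) := by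
      have h1 : ContDiff ℝ 2 fun q : ℝ × (Fin 4 → ℂ) => ((1 : ℝ), q.2) := by fun_prop
      have h2 : ContDiffOn ℝ 2 (fun q : ℝ × (Fin 4 → ℂ) => Em b A (1, q.2)) (univ ×ˢ {0}ᶜ) :=
        (contDiffOn_Em hA).comp h1.contDiffOn fun q hq => ⟨mem_T1_one, hq.2⟩
      have hmem : ((0 : ℝ), pl v u z) ∈ (univ : Set ℝ) ×ˢ ({0}ᶜ : Set (Fin 4 → ℂ)) :=
        ⟨mem_univ _, hne⟩
      exact (h2.contDiffAt ((isOpen_univ.prod isOpen_compl_singleton).mem_nhds
        hmem)).differentiableAt (by norm_num)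
    have h1 : HasFDerivAt (fun q : ℂ × ℂ => (((0 : ℝ), Lp v q) : ℝ × (Fin 4 → ℂ)))
        ((ContinuousLinearMap.inr ℝ ℝ (Fin 4 → ℂ)).comp (Lp v)) (u, z) :=
      HasFDerivAt.comp (g := fun x : Fin 4 → ℂ => ((0 : ℝ), x)) (f := Lp v) (u, z)
        (hasFDerivAt_prodMk_right 0 (Lp v (u, z))) (Lp v).hasFDerivAt
    have h2 := HasFDerivAt.comp (g := fun q : ℝ × (Fin 4 → ℂ) => Em b A (1, q.2))
      (f := fun q : ℂ × ℂ => (((0 : ℝ), Lp v q) : ℝ × (Fin 4 → ℂ))) (u, z) hd.hasFDerivAt h1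
    have h3 : fderiv ℝ (fun q : ℂ × ℂ => Em b A (1, pl v q.1 q.2)) (u, z) =
      (fderiv ℝ (fun q : ℝ × (Fin 4 → ℂ) => Em b A (1, q.2)) (0, pl v u z)).comp
        ((ContinuousLinearMap.inr ℝ ℝ (Fin 4 → ℂ)).comp (Lp v)) := h2.fderiv
    rw [h3]
    rfl
  · intro v u z hu
    obtain ⟨W1, hW1, hT1, hT2⟩ := hT v
    have hk : 0 < ka b v 1 := ka_pos mem_T1_one
    have key : ∀ u z : ℂ, u ≠ 0 → ‖z‖ ^ aw b v ≤ W1 * ‖u‖ ^ ka b v 1 →
        EX D (DS b) (pl v u z) = Em b A (1, pl v u z) := by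
      intro u z hu hle
      rw [Em_pl A mem_T1_one v hu, EX_pl]
      exact (hT1 _ _ (by rw [norm_Ps hk]; exact hle)).symm
    rcases le_or_gt (‖z‖ ^ aw b v) (W1 * ‖u‖ ^ ka b v 1) with hle | hlt
    · left
      refine ⟨key u z hu hle, ?_⟩
      refine fderiv_zero_of_cone (G := fun q : ℂ × ℂ => EX D (DS b) (pl v q.1 q.2) -
        Em b A (1, pl v q.1 q.2)) hW1 hk (fun u w hu => ?_) (fun u w hu hle => ?_) hu hle
      · exact (contDiffAt_plane hsm1 v hu w).sub (contDiffAt_plane hsm0 v hu w)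
      · exact sub_eq_zero.2 (key u w hu hle)
    · right
      intro t ht
      show (1 - t) • Em b A (1, pl v u z) + t • EX D (DS b) (pl v u z) ≠ 0
      rw [Em_pl A mem_T1_one v hu, EX_pl]
      exact hT2 _ _ (by rw [norm_Ps hk]; exact hlt) t ht

/-- **C2**: the amalgam of arms in target form is equivalent to `F1 b D M`. -/
theorem gamP (b : Bool) (D : SD 4) : GamP b D := by
  intro A hA hT
  obtain ⟨M1, -, H1⟩ := move_core b hA
  obtain ⟨M2, -, H2⟩ := zeq_seg2 b (seg b D hA hT)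
  refine ⟨max M1 M2, fun M hM => ?_⟩
  have h1 := H1 M ((le_max_left _ _).trans hM)
  have h2 := H2 M ((le_max_right _ _).trans hM)
  have e : ame b M A = fun p : Fin 4 → ℂ => (M : ℂ) * core b (p 0) (p 1 * p 2) +
      Em b A (1, p) := by
    funext p
    unfold ame
    rw [Pc_eq]
  rw [e] at h1
  exact h1.trans h2

end Crest.Agent.R267.GamP_920
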