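import Crest.Agent.R267.BallExt_88

/-!
General position: a continuous map `V → W` with `dim V < dim W` can be perturbed off a finite set.
-/

set_option autoImplicit false
set_option linter.unusedSectionVars false
open Topology Filter Set Module

namespace Crest.Agent.R267.GenPos_88

open BallExt_88

variable {V W : Type*} [NormedAddCommGroup V] [NormedSpace ℝ V] [FiniteDimensional ℝ V]
  [NormedAddCommGroup W] [NormedSpace ℝ W] [FiniteDimensional ℝ W]

theorem exists_perturb (hd : finrank ℝ V < finrank ℝ W) {F : V → W} (hF : Continuous F)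
    (T : Set W) (hT : T.Countable) {ε : ℝ} (hε : 0 < ε) :
    ∃ G : V → W, Continuous G ∧ (∀ x, ‖G x - F x‖ < ε) ∧ ∀ x, G x ∉ T := by
  obtain ⟨G, hG, hGF, -⟩ := hF.exists_contDiff_approx 1 (ε := fun _ => ε / 2) continuous_const
    (fun _ => by positivity)
  have hG' : ContDiff ℝ 1 G := by simpa using hG
  have hdim : dimH (⋃ t ∈ T, (fun x => t - G x) '' univ) < finrank ℝ W := by
    rw [dimH_bUnion hT]
    refine lt_of_le_of_lt (iSup₂_le fun t _ => ?_) (Nat.cast_lt.2 hd)
    rw [image_univ]
    exact (ContDiff.dimH_range_le (contDiff_const.sub hG'))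
  have hdense := dense_compl_of_dimH_lt_finrank hdim
  obtain ⟨c, hc, hc'⟩ := hdense.inter_open_nonempty (Metric.ball (0:W) (ε/2)) Metric.isOpen_ball
    ⟨0, by simpa using half_pos hε⟩
  refine ⟨fun x => G x + c, hG'.continuous.add continuous_const, fun x => ?_, fun x hx => ?_⟩
  · have h1 : ‖G x - F x‖ < ε / 2 := by simpa [dist_eq_norm] using hGF x
    have h2 : ‖c‖ < ε / 2 := by simpa using hc
    calc ‖G x + c - F x‖ = ‖(G x - F x) + c‖ := by congr 1; abel
      _ ≤ ‖G x - F x‖ + ‖c‖ := norm_add_le _ _
      _ < ε := by linarith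
  · apply hc'
    simp only [mem_iUnion]
    exact ⟨G x + c, hx, x, mem_univ _, by simp⟩

/-- low-dimensional extension: `dim V < dim E` implies that every map of the unit sphere of `V`
into `E` minus a countable closed set extends over the ball. -/
theorem ballExt_of_lt (hd : finrank ℝ V < finrank ℝ W) {h : V → W} (hh : Continuous h)
    (T : Set W) (hT : T.Countable) (hTc : IsClosed T) (hT' : ∀ x, ‖x‖ = 1 → h x ∉ T) :
    BallExt h T := by
  -- margin on the sphere
  have hK : IsCompact (h '' Metric.sphere (0:V) 1) :=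
    (isCompact_sphere (0:V) 1).image hh
  obtain ⟨δ, hδ, hsub⟩ := hK.exists_thickening_subset_open hTc.isOpen_compl
    (by rintro _ ⟨x, hx, rfl⟩; exact hT' x (by simpa using hx))
  obtain ⟨G, hG, hGF, hGT⟩ := exists_perturb hd hh T hT hδ
  refine ballExt_of_segment hh hG (fun x _ => hGT x) fun x hx t ht => ?_
  apply hsub
  rw [Metric.mem_thickening_iff]
  refine ⟨h x, mem_image_of_mem _ (by simpa using hx), ?_⟩
  have : AffineMap.lineMap (G x) (h x) t - h x = (1 - t) • (G x - h x) := by
    rw [AffineMap.lineMap_apply_module']; module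
  rw [dist_eq_norm, this, norm_smul, Real.norm_of_nonneg (by linarith [ht.2])]
  calc (1 - t) * ‖G x - h x‖ ≤ 1 * ‖G x - h x‖ := by
        gcongr; linarith [ht.1]
    _ < δ := by rw [one_mul]; exact hGF x

end Crest.Agent.R267.GenPos_88
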