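import Crest.Agent.R267.GlueDefs_322
import Crest.Agent.R267.Pow_951
import Crest.Agent.R267.Calc2_957

/-!
# Row 267, GLUE-C2 (helper796): `C2P D`
-/

set_option autoImplicit false

noncomputable section

open Finset Set Filter Topology
open scoped ContDiff
open Crest.Agent.R267.T3aDefs_957 Crest.Agent.R267.Calc_957 Crest.Agent.R267.Calc2_957
open Crest.Agent.R267.GlueDefs_322

namespace Crest.Agent.R267.GlC2b_796

/-! ### homogeneous functions of degree `8` -/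

theorem contDiff_of_hom8 {E F : Type*} [NormedAddCommGroup E] [NormedSpace ℝ E]
    [NormedAddCommGroup F] [NormedSpace ℝ F] [FiniteDimensional ℝ E] {f : E → F}
    (hC : ∀ x, x ≠ 0 → ContDiffAt ℝ 2 f x) (h0 : f 0 = 0)
    (hom : ∀ r : ℝ, 0 < r → ∀ x, f (r • x) = (r ^ 8) • f x) : ContDiff ℝ 2 f := by
  have h := Pow_951.contDiffOn_of_hom (E := E) (F := F) (T := univ) (D := fun _ => 8)
    (H := fun p : ℝ × E => f p.2) isOpen_univ contDiffOn_const (fun t _ => by norm_num)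
    (by
      intro p hp
      exact ((hC p.2 hp.2).comp p contDiffAt_snd).contDiffWithinAt) (fun t _ => h0)
    (fun t _ r hr x => by
      show f (r • x) = _
      rw [hom r hr x, show ((8 : ℝ)) = ((8 : ℕ) : ℝ) by norm_num, Real.rpow_natCast])
  rw [univ_prod_univ, contDiffOn_univ] at h
  exact h.comp (contDiff_prodMk_right (0 : ℝ))

/-! ### planar functions -/

theorem gq_c2 {E : Type*} [NormedAddCommGroup E] [NormedSpace ℝ E] (K : ℝ) {A B : E → ℝ} {z : E}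
    (hA : ContDiffAt ℝ 2 A z) (hB : ContDiffAt ℝ 2 B z) (h : A z + B z ≠ 0) :
    ContDiffAt ℝ 2 (fun w => gq K (A w) (B w)) z := by
  have h1 : ContDiffAt ℝ 2 (fun w => tp 3 (B w - K ^ 2 * A w)) z :=
    (contDiff_tp 2 3 (by norm_num)).contDiffAt.comp z (hB.sub (contDiffAt_const.mul hA))
  have h2 : ContDiffAt ℝ 2 (fun w => (3 * K ^ 2 + 3) * (A w + B w) ^ 2) z :=
    contDiffAt_const.mul ((hA.add hB).pow 2)
  exact hA.add (h1.div h2 (mul_ne_zero (by positivity) (pow_ne_zero 2 h)))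

theorem pg_c2 (K : ℝ) {z : ℂ} (hz : z ≠ 0) : ContDiffAt ℝ 2 (pg K) z := by
  have h1 : ContDiffAt ℝ 2 (fun w : ℂ => w.re ^ 2) z := (Complex.reCLM.contDiff.contDiffAt).pow 2
  have h2 : ContDiffAt ℝ 2 (fun w : ℂ => w.im ^ 2) z := (Complex.imCLM.contDiff.contDiffAt).pow 2
  exact (gq_c2 K h1 h2 (sq_add_ne hz)).sqrt
    (gq_pos (sq_nonneg _) (sq_nonneg _) (sq_add_ne hz)).ne'

theorem tau_c2 {z : ℂ} (h : z.re ≠ 0) : ContDiffAt ℝ 2 (fun w : ℂ => w.im / w.re) z :=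
  (Complex.imCLM.contDiff.contDiffAt).div (Complex.reCLM.contDiff.contDiffAt) h

theorem pl_c2 (ga : ℝ) (M : ℕ) {z : ℂ} (hz : z ≠ 0) : ContDiffAt ℝ 2 (pl ga M) z := by
  rcases le_or_gt z.re 0 with h0 | h0
  · have h1 : pl ga M =ᶠ[nhds z] fun w : ℂ => -((2 - ga : ℝ) : ℂ) * (w.re : ℂ) +
        (-Complex.I) * (w.im : ℂ) := by
      filter_upwards [far_nhds h0 hz] with w hw
      rw [pl_of_far (Or.inl hw)]
      ring
    refine ContDiffAt.congr_of_eventuallyEq ?_ h1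
    have h2 : (fun w : ℂ => -((2 - ga : ℝ) : ℂ) * (w.re : ℂ) + (-Complex.I) * (w.im : ℂ)) =
        ⇑(Complex.reCLM.smulRight (-((2 - ga : ℝ) : ℂ)) + Complex.imCLM.smulRight (-Complex.I)) := by
      funext w
      simp [mul_comm]
    rw [h2]
    exact (Complex.reCLM.smulRight (-((2 - ga : ℝ) : ℂ)) +
      Complex.imCLM.smulRight (-Complex.I)).contDiff.contDiffAt
  · have h1 : pl ga M =ᶠ[nhds z] fun w : ℂ => (w.re : ℂ) * pv ga M (w.im / w.re) := by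
      have : ∀ᶠ w : ℂ in nhds z, 0 < w.re :=
        Complex.continuous_re.continuousAt.eventually (lt_mem_nhds h0)
      filter_upwards [this] with w hw
      exact pl_of_pos hw
    refine ContDiffAt.congr_of_eventuallyEq ?_ h1
    have h2 : ContDiffAt ℝ 2 (fun w : ℂ => (w.re : ℂ)) z :=
      Complex.ofRealCLM.contDiff.contDiffAt.comp z Complex.reCLM.contDiff.contDiffAt
    exact h2.mul ((contDiff_pv ga M).contDiffAt.comp z (tau_c2 h0.ne'))

/-- windows: `w` vanishes outside `[a, b]`, `W` is `1` on `[a, b]` -/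
structure Win (w W : ℝ → ℝ) (a b : ℝ) : Prop where
  cw : ContDiff ℝ 2 w
  cW : ContDiff ℝ 2 W
  w0 : ∀ τ, τ ≤ a ∨ b ≤ τ → w τ = 0
  W1 : ∀ τ, a ≤ τ → τ ≤ b → W τ = 1
  W0 : ∀ τ, τ ≤ a - 2 ∨ b + 2 ≤ τ → W τ = 0
  Wn : ∀ τ, 0 ≤ W τ

/-- planar window function (degree 1) -/
def pw (w : ℝ → ℝ) (z : ℂ) : ℝ := max 0 z.re * w (z.im / z.re)

theorem pw_hom (w : ℝ → ℝ) {r : ℝ} (hr : 0 < r) (z : ℂ) : pw w (r • z) = r * pw w z := by
  unfold pw
  rw [Complex.smul_re, Complex.smul_im, smul_eq_mul, smul_eq_mul, mul_div_mul_left _ _ hr.ne',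
    ← mul_assoc, mul_max_of_nonneg _ _ hr.le, mul_zero]

theorem pw_far {w : ℝ → ℝ} {c : ℝ} (hw : ∀ τ, τ ≤ -c ∨ c ≤ τ → w τ = 0) {z : ℂ}
    (h0 : z.re ≤ 0) (hz : z ≠ 0) : ∀ᶠ v in nhds z, pw w v = 0 := by
  obtain ⟨M, hM⟩ := exists_nat_ge c
  filter_upwards [far_nhds (M := M) h0 hz] with v hv
  rcases le_or_gt v.re 0 with h1 | h1
  · rw [pw, max_eq_left h1, zero_mul]
  · have h2 : c ≤ |v.im| / v.re := by
      rw [le_div_iff₀ h1]
      refine le_trans (mul_le_mul_of_nonneg_right ?_ h1.le) hv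
      have : (0 : ℝ) ≤ M := Nat.cast_nonneg _
      linarith
    have h3 : w (v.im / v.re) = 0 := by
      apply hw
      rcases abs_cases v.im with ⟨h4, -⟩ | ⟨h4, -⟩
      · rw [h4] at h2
        exact Or.inr h2
      · rw [h4, neg_div] at h2
        exact Or.inl (by linarith)
    rw [pw, h3, mul_zero]

theorem pw_c2' {w : ℝ → ℝ} {c : ℝ} (hc : ContDiff ℝ 2 w) (hw : ∀ τ, τ ≤ -c ∨ c ≤ τ → w τ = 0)
    {z : ℂ} (hz : z ≠ 0) : ContDiffAt ℝ 2 (pw w) z := by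
  rcases le_or_gt z.re 0 with h0 | h0
  · exact (contDiffAt_const (c := (0 : ℝ))).congr_of_eventuallyEq (pw_far hw h0 hz)
  · have h1 : ∀ᶠ v : ℂ in nhds z, 0 < v.re :=
      Complex.continuous_re.continuousAt.eventually (lt_mem_nhds h0)
    have h2 : pw w =ᶠ[nhds z] fun v : ℂ => v.re * w (v.im / v.re) := by
      filter_upwards [h1] with v hv
      rw [pw, max_eq_right hv.le]
    refine ContDiffAt.congr_of_eventuallyEq ?_ h2
    exact (Complex.reCLM.contDiff.contDiffAt).mul (hc.contDiffAt.comp z (tau_c2 h0.ne'))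

namespace Win

variable {w W : ℝ → ℝ} {a b : ℝ} (H : Win w W a b)

include H

theorem ow : ∀ τ, τ ≤ -(|a| + |b| + 2) ∨ |a| + |b| + 2 ≤ τ → w τ = 0 := by
  intro τ h
  apply H.w0
  have := abs_nonneg a
  have := abs_nonneg b
  have := neg_abs_le a
  have := le_abs_self b
  rcases h with h | h
  · exact Or.inl (by linarith)
  · exact Or.inr (by linarith)

theorem oW : ∀ τ, τ ≤ -(|a| + |b| + 2) ∨ |a| + |b| + 2 ≤ τ → W τ = 0 := by
  intro τ h
  apply H.W0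
  have := abs_nonneg a
  have := abs_nonneg b
  have := neg_abs_le a
  have := le_abs_self b
  rcases h with h | h
  · exact Or.inl (by linarith)
  · exact Or.inr (by linarith)

theorem c2w {z : ℂ} (hz : z ≠ 0) : ContDiffAt ℝ 2 (pw w) z := pw_c2' H.cw H.ow hz

theorem c2W {z : ℂ} (hz : z ≠ 0) : ContDiffAt ℝ 2 (pw W) z := pw_c2' H.cW H.oW hz

theorem nn (z : ℂ) : 0 ≤ pw W z := mul_nonneg (le_max_left _ _) (H.Wn _)

/-- where the wide window function vanishes, the window function vanishes nearby -/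
theorem loc {z : ℂ} (hz : z ≠ 0) (h : pw W z = 0) : ∀ᶠ v in nhds z, pw w v = 0 := by
  rcases le_or_gt z.re 0 with h0 | h0
  · exact pw_far H.ow h0 hz
  · have h1 : W (z.im / z.re) = 0 := by
      rcases mul_eq_zero.1 h with h2 | h2
      · rw [max_eq_right h0.le] at h2
        exact absurd h2 h0.ne'
      · exact h2
    have h2 : z.im / z.re < a ∨ b < z.im / z.re := by
      by_contra hcon
      push Not at hcon
      rw [H.W1 _ hcon.1 hcon.2] at h1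
      exact one_ne_zero h1
    have hc : ContinuousAt (fun v : ℂ => v.im / v.re) z := (tau_c2 h0.ne').continuousAt
    rcases h2 with h2 | h2
    · filter_upwards [hc.eventually (gt_mem_nhds h2)] with v hv
      rw [pw, H.w0 _ (Or.inl (le_of_lt hv)), mul_zero]
    · filter_upwards [hc.eventually (lt_mem_nhds h2)] with v hv
      rw [pw, H.w0 _ (Or.inr (le_of_lt hv)), mul_zero]

theorem one {τ : ℝ} (h : w τ ≠ 0) : W τ = 1 := by
  refine H.W1 _ ?_ ?_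
  · by_contra hcon
    exact h (H.w0 _ (Or.inl (not_le.1 hcon).le))
  · by_contra hcon
    exact h (H.w0 _ (Or.inr (not_le.1 hcon).le))

end Win

/-- the wide window -/
def wid (a b τ : ℝ) : ℝ := st ((τ - (a - 2)) / 2) * (1 - st ((τ - b) / 2))

theorem win_Win (m M : ℕ) : Win (win m M) (wid (8 * m - 1) (8 * M + 1)) (8 * m - 1) (8 * M + 1) where
  cw := by
    have h1 : ContDiff ℝ 2 fun τ : ℝ => st ((τ - (8 * m - 1)) / 2) :=
      contDiff_st.comp (by fun_prop)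
    have h2 : ContDiff ℝ 2 fun τ : ℝ => st ((τ - (8 * M - 1)) / 2) :=
      contDiff_st.comp (by fun_prop)
    exact h1.mul (contDiff_const.sub h2)
  cW := by
    have h1 : ContDiff ℝ 2 fun τ : ℝ => st ((τ - ((8 * m - 1 : ℝ) - 2)) / 2) :=
      contDiff_st.comp (by fun_prop)
    have h2 : ContDiff ℝ 2 fun τ : ℝ => st ((τ - (8 * M + 1)) / 2) :=
      contDiff_st.comp (by fun_prop)
    exact h1.mul (contDiff_const.sub h2)
  w0 := by
    intro τ h
    unfold win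
    rcases h with h | h
    · rw [st_of_le (by linarith : (τ - (8 * (m : ℝ) - 1)) / 2 ≤ 0), zero_mul]
    · rw [st_of_ge (by linarith : 1 ≤ (τ - (8 * (M : ℝ) - 1)) / 2), sub_self, mul_zero]
  W1 := by
    intro τ h h'
    unfold wid
    rw [st_of_ge (by linarith : 1 ≤ (τ - ((8 * (m : ℝ) - 1) - 2)) / 2),
      st_of_le (by linarith : (τ - (8 * (M : ℝ) + 1)) / 2 ≤ 0), sub_zero, mul_one]
  W0 := by
    intro τ h
    unfold wid
    rcases h with h | h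
    · rw [st_of_le (by linarith : (τ - ((8 * (m : ℝ) - 1) - 2)) / 2 ≤ 0), zero_mul]
    · rw [st_of_ge (by linarith : 1 ≤ (τ - (8 * (M : ℝ) + 1)) / 2), sub_self, mul_zero]
  Wn := by
    intro τ
    exact mul_nonneg (st_nonneg _) (sub_nonneg.2 (st_le_one _))

/-! ### quotients of window functions -/

/-- abstract coupling: `C ≤ A` etc. -/
theorem quot_c2 {E : Type*} [NormedAddCommGroup E] [NormedSpace ℝ E] {C C' A A' : E → ℝ} {z : E}
    (hC : ContDiffAt ℝ 2 C z) (hC' : ContDiffAt ℝ 2 C' z) (hA : ContDiffAt ℝ 2 A z)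
    (hA' : ContDiffAt ℝ 2 A' z) (h : A z + A' z ≠ 0) :
    ContDiffAt ℝ 2 (fun v => C v * C' v / (A v + A' v)) z :=
  (hC.mul hC').div (hA.add hA') h

/-- replacing `R` by `R W` in the denominator -/
theorem quot_eq {R R' w w' W W' : ℝ} (h : w ≠ 0 → W = 1) (h' : w' ≠ 0 → W' = 1) :
    R * R' / (R + R') * (w * w') = (R * w) * (R' * w') / (R * W + R' * W') := by
  by_cases hw : w = 0
  · simp [hw]
  by_cases hw' : w' = 0
  · simp [hw']
  rw [h hw, h' hw', mul_one, mul_one]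
  ring

/-! ### degree 8 -/

theorem pg_hom (K : ℝ) {r : ℝ} (hr : 0 < r) (z : ℂ) : pg K (r • z) = r * pg K z := by
  by_cases hz : z = 0
  · rw [hz, smul_zero, pg_zero, mul_zero]
  unfold pg
  have h1 : gq K ((r • z).re ^ 2) ((r • z).im ^ 2) = r ^ 2 * gq K (z.re ^ 2) (z.im ^ 2) := by
    have h2 := sq_add_ne hz
    have h3 : max 0 ((r * z.im) ^ 2 - K ^ 2 * (r * z.re) ^ 2) =
        r ^ 2 * max 0 (z.im ^ 2 - K ^ 2 * z.re ^ 2) := by
      rw [mul_max_of_nonneg _ _ (sq_nonneg r), mul_zero]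
      congr 1
      ring
    rw [Complex.smul_re, Complex.smul_im, smul_eq_mul, smul_eq_mul]
    unfold gq
    rw [h3]
    have h4 : (r * z.re) ^ 2 + (r * z.im) ^ 2 = r ^ 2 * (z.re ^ 2 + z.im ^ 2) := by ring
    rw [h4]
    have h5 : (3 * K ^ 2 + 3 : ℝ) ≠ 0 := by positivity
    have h6 : r ≠ 0 := hr.ne'
    field_simp
  rw [h1, Real.sqrt_mul (sq_nonneg r), Real.sqrt_sq hr.le]

/-- `pg⁷ s⁺ w` -/
def rw8 (K : ℝ) (w : ℝ → ℝ) (z : ℂ) : ℝ := pg K z ^ 7 * pw w z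

theorem rw8_eq (K : ℝ) (w : ℝ → ℝ) (z : ℂ) : rw8 K w z = rho K z * w (z.im / z.re) := by
  unfold rw8 rho pw
  ring

theorem rw8_c2 (K : ℝ) {w : ℝ → ℝ} (hw : ∀ z : ℂ, z ≠ 0 → ContDiffAt ℝ 2 (pw w) z) :
    ContDiff ℝ 2 (rw8 K w) := by
  refine contDiff_of_hom8 (fun z hz => ((pg_c2 K hz).pow 7).mul (hw z hz)) ?_ ?_
  · show pg K 0 ^ 7 * pw w 0 = 0
    rw [pg_zero]
    norm_num
  · intro r hr z
    show pg K (r • z) ^ 7 * pw w (r • z) = r ^ 8 • (pg K z ^ 7 * pw w z)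
    rw [pg_hom K hr, pw_hom w hr, smul_eq_mul]
    ring

theorem pl_hom (ga : ℝ) (M : ℕ) {r : ℝ} (hr : 0 < r) (z : ℂ) :
    pl ga M (r • z) = r • pl ga M z := by
  unfold pl
  rw [Complex.smul_re, Complex.smul_im, smul_eq_mul, smul_eq_mul, mul_div_mul_left _ _ hr.ne']
  by_cases h : 0 < z.re
  · rw [if_pos h, if_pos (mul_pos hr h), Complex.real_smul]
    push_cast
    ring
  · rw [if_neg h, if_neg (by
      rw [not_lt] at h ⊢
      exact mul_nonpos_of_nonneg_of_nonpos hr.le h), Complex.real_smul]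
    push_cast
    ring

theorem P8_c2 (K ga : ℝ) (M : ℕ) : ContDiff ℝ 2 (P8 K ga M) := by
  refine contDiff_of_hom8 (fun z hz => ?_) ?_ ?_
  · exact (Complex.ofRealCLM.contDiff.contDiffAt.comp z ((pg_c2 K hz).pow 7)).mul (pl_c2 ga M hz)
  · show ((pg K 0 ^ 7 : ℝ) : ℂ) * pl ga M 0 = 0
    rw [pg_zero]
    norm_num
  · intro r hr z
    show ((pg K (r • z) ^ 7 : ℝ) : ℂ) * pl ga M (r • z) =
      r ^ 8 • (((pg K z ^ 7 : ℝ) : ℂ) * pl ga M z)
    rw [pg_hom K hr, pl_hom ga M hr, Complex.real_smul, Complex.real_smul]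
    push_cast
    ring

theorem H8_eq (K : ℝ) (m M M' : ℕ) (x y : ℂ) : H8 K m M M' x y =
    rw8 K (win m M) x * rw8 K (win (M' - 1) M') y /
      (rw8 K (wid (8 * m - 1) (8 * M + 1)) x +
        rw8 K (wid (8 * (M' - 1 : ℕ) - 1) (8 * M' + 1)) y) := by
  rw [rw8_eq, rw8_eq, rw8_eq, rw8_eq]
  exact quot_eq (win_Win m M).one (win_Win (M' - 1) M').one

theorem rw8_nn (K : ℝ) {w W : ℝ → ℝ} {a b : ℝ} (H : Win w W a b) (z : ℂ) : 0 ≤ rw8 K W z :=
  mul_nonneg (pow_nonneg (pg_nonneg K z) 7) (H.nn z)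

theorem rw8_loc (K : ℝ) {w W : ℝ → ℝ} {a b : ℝ} (H : Win w W a b) {z : ℂ} (hz : z ≠ 0)
    (h : rw8 K W z = 0) : ∀ᶠ v in nhds z, rw8 K w v = 0 := by
  have h1 : pw W z = 0 := by
    rcases mul_eq_zero.1 h with h2 | h2
    · exact absurd h2 (pow_ne_zero 7 (pg_pos hz).ne')
    · exact h2
  filter_upwards [H.loc hz h1] with v hv
  rw [rw8, hv, mul_zero]

theorem H8_c2 (K : ℝ) (m M M' : ℕ) : ContDiff ℝ 2 fun p : ℂ × ℂ => H8 K m M M' p.1 p.2 := by
  have H1 := win_Win m M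
  have H2 := win_Win (M' - 1) M'
  refine contDiff_of_hom8 (fun p hp => ?_) ?_ ?_
  · have e : (fun p : ℂ × ℂ => H8 K m M M' p.1 p.2) = fun p : ℂ × ℂ =>
        rw8 K (win m M) p.1 * rw8 K (win (M' - 1) M') p.2 /
        (rw8 K (wid (8 * m - 1) (8 * M + 1)) p.1 +
          rw8 K (wid (8 * (M' - 1 : ℕ) - 1) (8 * M' + 1)) p.2) :=
      funext fun p => H8_eq K m M M' p.1 p.2
    rw [e]
    by_cases h : rw8 K (wid (8 * m - 1) (8 * M + 1)) p.1 +
          rw8 K (wid (8 * (M' - 1 : ℕ) - 1) (8 * M' + 1)) p.2 = 0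
    · have h1 := rw8_nn K H1 p.1
      have h2 := rw8_nn K H2 p.2
      have h3 : rw8 K (wid (8 * m - 1) (8 * M + 1)) p.1 = 0 := by linarith
      have h4 : rw8 K (wid (8 * (M' - 1 : ℕ) - 1) (8 * M' + 1)) p.2 = 0 := by linarith
      refine (contDiffAt_const (c := (0 : ℝ))).congr_of_eventuallyEq ?_
      by_cases hx : p.1 = 0
      · have hy : p.2 ≠ 0 := fun hy => hp (Prod.ext hx hy)
        filter_upwards [(continuous_snd.tendsto p).eventually (rw8_loc K H2 hy h4)] with v hv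
        rw [hv, mul_zero, zero_div]
      · filter_upwards [(continuous_fst.tendsto p).eventually (rw8_loc K H1 hx h3)] with v hv
        rw [hv, zero_mul, zero_div]
    · exact quot_c2
        (((rw8_c2 K fun z hz => H1.c2w hz).contDiffAt).comp p contDiffAt_fst)
        (((rw8_c2 K fun z hz => H2.c2w hz).contDiffAt).comp p contDiffAt_snd)
        (((rw8_c2 K fun z hz => H1.c2W hz).contDiffAt).comp p contDiffAt_fst)
        (((rw8_c2 K fun z hz => H2.c2W hz).contDiffAt).comp p contDiffAt_snd) h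
  · show H8 K m M M' 0 0 = 0
    unfold H8 rho
    rw [pg_zero]
    norm_num
  · intro r hr p
    show H8 K m M M' (r • p.1) (r • p.2) = r ^ 8 • H8 K m M M' p.1 p.2
    have h1 : ∀ z : ℂ, rho K (r • z) = r ^ 8 * rho K z := by
      intro z
      have h2 := pw_hom (fun _ => 1) hr z
      unfold pw at h2
      rw [mul_one, mul_one] at h2
      unfold rho
      rw [pg_hom K hr, h2]
      ring
    have h3 : ∀ z : ℂ, (r • z).im / (r • z).re = z.im / z.re := by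
      intro z
      rw [Complex.smul_re, Complex.smul_im, smul_eq_mul, smul_eq_mul, mul_div_mul_left _ _ hr.ne']
    unfold H8
    rw [h1, h1, h3, h3, smul_eq_mul]
    have h4 : r ^ 8 * rho K p.1 * (r ^ 8 * rho K p.2) / (r ^ 8 * rho K p.1 + r ^ 8 * rho K p.2) =
        r ^ 8 * (rho K p.1 * rho K p.2 / (rho K p.1 + rho K p.2)) := by
      rw [← mul_add, mul_assoc, mul_div_mul_left _ _ (pow_ne_zero 8 hr.ne')]
      ring
    rw [h4]
    ring

/-! ### the space -/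

section space

variable {N : ℕ} (D : LD N)

theorem sum_ne {z : Fin N → ℂ} (hz : z ≠ 0) : (∑ j, (z j).re ^ 2) + ∑ j, (z j).im ^ 2 ≠ 0 := by
  obtain ⟨j, hj⟩ := Function.ne_iff.1 hz
  rw [← Finset.sum_add_distrib]
  have h1 : (z j).re ^ 2 + (z j).im ^ 2 ≤ ∑ i, ((z i).re ^ 2 + (z i).im ^ 2) :=
    Finset.single_le_sum (f := fun i => (z i).re ^ 2 + (z i).im ^ 2)
      (fun i _ => add_nonneg (sq_nonneg _) (sq_nonneg _)) (Finset.mem_univ j)
  have h2 : 0 < (z j).re ^ 2 + (z j).im ^ 2 :=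
    lt_of_le_of_ne (add_nonneg (sq_nonneg _) (sq_nonneg _)) (sq_add_ne hj).symm
  exact (lt_of_lt_of_le h2 h1).ne'

theorem NN_c2 (K : ℝ) {z : Fin N → ℂ} (hz : z ≠ 0) : ContDiffAt ℝ 2 (NN K) z := by
  have h1 : ContDiffAt ℝ 2 (fun w : Fin N → ℂ => ∑ j, (w j).re ^ 2) z :=
    ContDiffAt.sum fun j _ => ((Complex.reCLM.contDiff.comp
      (contDiff_apply ℝ ℂ j)).contDiffAt).pow 2
  have h2 : ContDiffAt ℝ 2 (fun w : Fin N → ℂ => ∑ j, (w j).im ^ 2) z :=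
    ContDiffAt.sum fun j _ => ((Complex.imCLM.contDiff.comp
      (contDiff_apply ℝ ℂ j)).contDiffAt).pow 2
  exact (gq_c2 K h1 h2 (sum_ne hz)).sqrt
    (gq_pos (Finset.sum_nonneg fun _ _ => sq_nonneg _) (Finset.sum_nonneg fun _ _ => sq_nonneg _)
      (sum_ne hz)).ne'

theorem NN_pos (K : ℝ) {z : Fin N → ℂ} (hz : z ≠ 0) : 0 < NN K z :=
  Real.sqrt_pos.2 (gq_pos (Finset.sum_nonneg fun _ _ => sq_nonneg _)
    (Finset.sum_nonneg fun _ _ => sq_nonneg _) (sum_ne hz))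

theorem pg_cont (K : ℝ) : ContinuousAt (pg K) 0 := by
  have h1 : ∀ z : ℂ, pg K z ≤ √(z.re ^ 2 + z.im ^ 2) := fun z =>
    Real.sqrt_le_sqrt (gq_le (sq_nonneg _) (sq_nonneg _))
  have h2 : Tendsto (fun z : ℂ => √(z.re ^ 2 + z.im ^ 2)) (𝓝 0) (𝓝 0) := by
    have h3 : Continuous fun z : ℂ => √(z.re ^ 2 + z.im ^ 2) := by fun_prop
    have h4 := h3.tendsto 0
    simpa using h4
  rw [ContinuousAt, pg_zero]
  exact squeeze_zero (fun z => pg_nonneg K z) h1 h2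

theorem xr_c2 {z : Fin N → ℂ} (hz : z ≠ 0) {j : Fin N} (hj : z j ≠ 0) :
    ContDiffAt ℝ 2 (fun w => D.xr w j) z := by
  have h1 : ContDiffAt ℝ 2 (fun w : Fin N → ℂ => pg D.K (w j)) z :=
    ContDiffAt.comp (g := pg D.K) (f := fun w : Fin N → ℂ => w j) z (pg_c2 D.K hj)
      (contDiff_apply ℝ ℂ j).contDiffAt
  exact h1.div (NN_c2 D.K1 hz) (NN_pos D.K1 hz).ne'

theorem xr_pos {z : Fin N → ℂ} (hz : z ≠ 0) {j : Fin N} (hj : z j ≠ 0) : 0 < D.xr z j :=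
  div_pos (pg_pos hj) (NN_pos D.K1 hz)

/-- near a point with `z j = 0` the relative size is small -/
theorem xr_lt {z : Fin N → ℂ} (hz : z ≠ 0) {j : Fin N} (hj : z j = 0) {d : ℝ} (hd : 0 < d) :
    ∀ᶠ w in 𝓝 z, D.xr w j < d := by
  have h1 : ContinuousAt (fun w : Fin N → ℂ => pg D.K (w j)) z := by
    have h2 : ContinuousAt (pg D.K) (z j) := by
      rw [hj]
      exact pg_cont D.K
    exact ContinuousAt.comp (g := pg D.K) (f := fun w : Fin N → ℂ => w j) h2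
      (continuous_apply j).continuousAt
  have h3 : ContinuousAt (fun w => D.xr w j) z := h1.div (NN_c2 D.K1 hz).continuousAt
    (NN_pos D.K1 hz).ne'
  have h4 : D.xr z j = 0 := by
    rw [LD.xr, hj, pg_zero, zero_div]
  refine h3.eventually (gt_mem_nhds ?_)
  show D.xr z j < d
  rw [h4]
  exact hd

theorem chi_of_lt {d x : ℝ} (hd : 0 < d) (h : x < d) : chi d x = 0 :=
  st_of_le (div_nonpos_of_nonpos_of_nonneg (by linarith) hd.le)

theorem Xe_c2 (d η : ℝ) : ContDiff ℝ 2 (Xe d η) := by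
  have h1 : ContDiff ℝ 2 (chi d) := contDiff_st.comp (by fun_prop)
  exact h1.add (contDiff_const.mul (contDiff_id.pow 7))

theorem Xe_pos {d η x : ℝ} (hη : 0 < η) (hx : 0 < x) : 0 < Xe d η x :=
  add_pos_of_nonneg_of_pos (st_nonneg _) (mul_pos hη (pow_pos hx 7))

/-- near `z j = 0` the profile is `η x⁷` -/
theorem Xe_loc {z : Fin N → ℂ} (hz : z ≠ 0) {j : Fin N} (hj : z j = 0) {d : ℝ} (hd : 0 < d)
    (η : ℝ) : ∀ᶠ w in 𝓝 z, Xe d η (D.xr w j) = η / NN D.K1 w ^ 7 * pg D.K (w j) ^ 7 := by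
  filter_upwards [xr_lt D hz hj hd] with w hw
  rw [Xe, chi_of_lt hd hw, zero_add, LD.xr, div_pow]
  ring

theorem coef_c2 (η : ℝ) {z : Fin N → ℂ} (hz : z ≠ 0) :
    ContDiffAt ℝ 2 (fun w : Fin N → ℂ => η / NN D.K1 w ^ 7) z :=
  contDiffAt_const.div ((NN_c2 D.K1 hz).pow 7) (pow_ne_zero 7 (NN_pos D.K1 hz).ne')

/-- planar terms -/
theorem term_c2 {d : ℝ} (hd : 0 < d) (η ga : ℝ) (M : ℕ) {z : Fin N → ℂ} (hz : z ≠ 0)
    (j : Fin N) : ContDiffAt ℝ 2 (fun w => (Xe d η (D.xr w j) : ℂ) * pl ga M (w j)) z := by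
  by_cases hj : z j = 0
  · have h1 : (fun w : Fin N → ℂ => (Xe d η (D.xr w j) : ℂ) * pl ga M (w j)) =ᶠ[𝓝 z]
        fun w => ((η / NN D.K1 w ^ 7 : ℝ) : ℂ) * P8 D.K ga M (w j) := by
      filter_upwards [Xe_loc D hz hj hd η] with w hw
      rw [hw, P8]
      push_cast
      ring
    refine ContDiffAt.congr_of_eventuallyEq ?_ h1
    exact (Complex.ofRealCLM.contDiff.contDiffAt.comp z (coef_c2 D η hz)).mul
      (((P8_c2 D.K ga M).comp (contDiff_apply ℝ ℂ j)).contDiffAt)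
  · exact (Complex.ofRealCLM.contDiff.contDiffAt.comp z
      ((Xe_c2 d η).contDiffAt.comp z (xr_c2 D hz hj))).mul
      ((pl_c2 ga M hj).comp z (contDiff_apply ℝ ℂ j).contDiffAt)

/-- window terms -/
def Cw (d η : ℝ) (w : ℝ → ℝ) (j : Fin N) (z : Fin N → ℂ) : ℝ := Xe d η (D.xr z j) * pw w (z j)

theorem Cw_c2 {d : ℝ} (hd : 0 < d) (η : ℝ) {w : ℝ → ℝ}
    (hw : ∀ z : ℂ, z ≠ 0 → ContDiffAt ℝ 2 (pw w) z) {z : Fin N → ℂ} (hz : z ≠ 0)
    (j : Fin N) : ContDiffAt ℝ 2 (Cw D d η w j) z := by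
  by_cases hj : z j = 0
  · have h1 : Cw D d η w j =ᶠ[𝓝 z] fun v => η / NN D.K1 v ^ 7 * rw8 D.K w (v j) := by
      filter_upwards [Xe_loc D hz hj hd η] with v hv
      rw [Cw, hv, rw8]
      ring
    refine ContDiffAt.congr_of_eventuallyEq ?_ h1
    exact (coef_c2 D η hz).mul (((rw8_c2 D.K hw).comp (contDiff_apply ℝ ℂ j)).contDiffAt)
  · exact ((Xe_c2 d η).contDiffAt.comp z (xr_c2 D hz hj)).mul
      ((hw _ hj).comp z (contDiff_apply ℝ ℂ j).contDiffAt)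

theorem Xe_nn {d η : ℝ} (hη : 0 < η) (z : Fin N → ℂ) (j : Fin N) : 0 ≤ Xe d η (D.xr z j) :=
  add_nonneg (st_nonneg _) (mul_nonneg hη.le (pow_nonneg
    (div_nonneg (pg_nonneg _ _) (Real.sqrt_nonneg _)) 7))

theorem Cw_nn {d η : ℝ} (hη : 0 < η) {w W : ℝ → ℝ} {a b : ℝ} (H : Win w W a b) (j : Fin N)
    (z : Fin N → ℂ) : 0 ≤ Cw D d η W j z :=
  mul_nonneg (Xe_nn D hη z j) (H.nn _)

theorem Cw_loc {d η : ℝ} (hη : 0 < η) {w W : ℝ → ℝ} {a b : ℝ} (H : Win w W a b)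
    {z : Fin N → ℂ} (hz : z ≠ 0) {j : Fin N} (hj : z j ≠ 0) (h : Cw D d η W j z = 0) :
    ∀ᶠ v in 𝓝 z, Cw D d η w j v = 0 := by
  have h1 : pw W (z j) = 0 := by
    rcases mul_eq_zero.1 h with h2 | h2
    · exact absurd h2 (Xe_pos hη (xr_pos D hz hj)).ne'
    · exact h2
  filter_upwards [((continuous_apply j).tendsto z).eventually (H.loc hj h1)] with v hv
  rw [Cw, hv, mul_zero]

theorem Bx_eq (d η : ℝ) (e : Fin N × Fin N × ℕ) (z : Fin N → ℂ) : Bx D (Xe d η) e z =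
    Cw D d η (win e.2.2 (D.M e.1)) e.1 z * Cw D d η (win (D.M e.2.1 - 1) (D.M e.2.1)) e.2.1 z /
      (Cw D d η (wid (8 * e.2.2 - 1) (8 * D.M e.1 + 1)) e.1 z +
        Cw D d η (wid (8 * (D.M e.2.1 - 1 : ℕ) - 1) (8 * D.M e.2.1 + 1)) e.2.1 z) := by
  have h := quot_eq (R := Rx D (Xe d η) z e.1) (R' := Rx D (Xe d η) z e.2.1)
    ((win_Win e.2.2 (D.M e.1)).one (τ := (z e.1).im / (z e.1).re))
    ((win_Win (D.M e.2.1 - 1) (D.M e.2.1)).one (τ := (z e.2.1).im / (z e.2.1).re))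
  unfold Bx
  rw [h]
  unfold Rx Cw pw
  simp only [mul_assoc]

theorem Bx_c2 {d η : ℝ} (hd : 0 < d) (hη : 0 < η) (e : Fin N × Fin N × ℕ) {z : Fin N → ℂ}
    (hz : z ≠ 0) : ContDiffAt ℝ 2 (Bx D (Xe d η) e) z := by
  have H1 := win_Win e.2.2 (D.M e.1)
  have H2 := win_Win (D.M e.2.1 - 1) (D.M e.2.1)
  by_cases h0 : z e.1 = 0 ∧ z e.2.1 = 0
  · obtain ⟨hx, hy⟩ := h0
    have h1 : Bx D (Xe d η) e =ᶠ[𝓝 z] fun v => η / NN D.K1 v ^ 7 *
        H8 D.K e.2.2 (D.M e.1) (D.M e.2.1) (v e.1) (v e.2.1) := by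
      have h2 : ∀ᶠ v in 𝓝 z, v ≠ 0 := isOpen_ne.mem_nhds hz
      filter_upwards [Xe_loc D hz hx hd η, Xe_loc D hz hy hd η, h2] with v hv hv' hv0
      have h3 : η / NN D.K1 v ^ 7 ≠ 0 := (div_pos hη (pow_pos (NN_pos D.K1 hv0) 7)).ne'
      have h4 : ∀ j, Xe d η (D.xr v j) = η / NN D.K1 v ^ 7 * pg D.K (v j) ^ 7 →
          Rx D (Xe d η) v j = η / NN D.K1 v ^ 7 * rho D.K (v j) := by
        intro j hj
        rw [Rx, hj, rho]
        ring
      unfold Bx H8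
      rw [h4 _ hv, h4 _ hv', ← mul_add, mul_assoc (η / NN D.K1 v ^ 7),
        mul_div_mul_left _ _ h3]
      ring
    refine ContDiffAt.congr_of_eventuallyEq ?_ h1
    refine (coef_c2 D η hz).mul ?_
    exact ((H8_c2 D.K e.2.2 (D.M e.1) (D.M e.2.1)).comp
      ((contDiff_apply ℝ ℂ e.1).prodMk (contDiff_apply ℝ ℂ e.2.1))).contDiffAt
  · have e' : Bx D (Xe d η) e = fun z => Cw D d η (win e.2.2 (D.M e.1)) e.1 z *
        Cw D d η (win (D.M e.2.1 - 1) (D.M e.2.1)) e.2.1 z /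
      (Cw D d η (wid (8 * e.2.2 - 1) (8 * D.M e.1 + 1)) e.1 z +
        Cw D d η (wid (8 * (D.M e.2.1 - 1 : ℕ) - 1) (8 * D.M e.2.1 + 1)) e.2.1 z) :=
      funext fun z => Bx_eq D d η e z
    rw [e']
    by_cases h : Cw D d η (wid (8 * e.2.2 - 1) (8 * D.M e.1 + 1)) e.1 z +
        Cw D d η (wid (8 * (D.M e.2.1 - 1 : ℕ) - 1) (8 * D.M e.2.1 + 1)) e.2.1 z = 0
    · have h1 := Cw_nn D (d := d) hη H1 e.1 z
      have h2 := Cw_nn D (d := d) hη H2 e.2.1 z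
      have h3 : Cw D d η (wid (8 * e.2.2 - 1) (8 * D.M e.1 + 1)) e.1 z = 0 := by linarith
      have h4 : Cw D d η (wid (8 * (D.M e.2.1 - 1 : ℕ) - 1) (8 * D.M e.2.1 + 1)) e.2.1 z = 0 := by
        linarith
      refine (contDiffAt_const (c := (0 : ℝ))).congr_of_eventuallyEq ?_
      by_cases hx : z e.1 = 0
      · have hy : z e.2.1 ≠ 0 := fun hy => h0 ⟨hx, hy⟩
        filter_upwards [Cw_loc D hη H2 hz hy h4] with v hv
        rw [hv, mul_zero, zero_div]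
      · filter_upwards [Cw_loc D hη H1 hz hx h3] with v hv
        rw [hv, zero_mul, zero_div]
    · exact quot_c2 (Cw_c2 D hd η (fun z hz => H1.c2w hz) hz e.1)
        (Cw_c2 D hd η (fun z hz => H2.c2w hz) hz e.2.1)
        (Cw_c2 D hd η (fun z hz => H1.c2W hz) hz e.1)
        (Cw_c2 D hd η (fun z hz => H2.c2W hz) hz e.2.1) h

/-- **GLUE-C2** -/
theorem c2P : C2P D := by
  intro cB ga d η hd hη z hz
  refine ContDiffAt.contDiffWithinAt ?_
  have hz' : z ≠ 0 := hz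
  have h1 : ContDiffAt ℝ 2 (fun w : Fin N → ℂ =>
      ∑ j, (Xe d η (D.xr w j) : ℂ) * pl ga (D.M j) (w j)) z :=
    ContDiffAt.sum fun j _ => term_c2 D hd η ga (D.M j) hz' j
  have h2 : ContDiffAt ℝ 2 (fun w : Fin N → ℂ =>
      (cB * ga * ∑ e ∈ D.C, Bx D (Xe d η) e w : ℝ)) z :=
    contDiffAt_const.mul (ContDiffAt.sum fun e _ => Bx_c2 D hd hη e hz')
  exact h1.sub (Complex.ofRealCLM.contDiff.contDiffAt.comp z h2)

end space

end Crest.Agent.R267.GlC2b_796
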