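import Crest.Agent.R267.GlueDefs_322
import Crest.Agent.R267.Calc2_957
import Crest.Agent.R267.Pow_951

/-!
# Row 267 (S0407), GLUE-CONT (helper649): `GlueDefs_322.ContP`

* `PD U a` : families `a : ℝ → E → F` which are, for parameters `η ≥ 0` and `z ∈ U`, differentiable in
  `z`, jointly continuous together with the derivative in `z`; sums, linear images, `f + η • g`;
* `PD.quot` : `c e / (a + b)` for `0 ≤ c ≤ a`, `0 ≤ e ≤ b` (also where `a + b = 0`);
* `contDiffAt_pg`, `contDiffAt_NN`, `contDiffAt_pl`, `contDiffAt_w` : `C²` off `0`;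
* `cd_chi`, `cd_pow` : `χ_d(x_j) • g(z_j)` and `x_j⁷ • g(z_j)` are `C²` off `0`, `g` homogeneous;
* `contP`.
-/

set_option autoImplicit false

noncomputable section

open Finset Set Filter Topology
open Crest.Agent.R267.T3aDefs_957 Crest.Agent.R267.Calc_957 Crest.Agent.R267.Calc2_957
open Crest.Agent.R267.GlueDefs_322

namespace Crest.Agent.R267.GlCont_649

/-! ### families with jointly continuous derivative -/

section PD

variable {E F F' : Type*} [NormedAddCommGroup E] [NormedSpace ℝ E] [NormedAddCommGroup F]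
  [NormedSpace ℝ F] [NormedAddCommGroup F'] [NormedSpace ℝ F']

/-- families with jointly continuous derivative, parameters `η ≥ 0`. -/
structure PD (U : Set E) (a : ℝ → E → F) : Prop where
  cont : ContinuousOn (fun p : ℝ × E => a p.1 p.2) (Set.Ici (0 : ℝ) ×ˢ U)
  diff : ∀ η, 0 ≤ η → ∀ z ∈ U, DifferentiableAt ℝ (a η) z
  dcont : ContinuousOn (fun p : ℝ × E => fderiv ℝ (a p.1) p.2) (Set.Ici (0 : ℝ) ×ˢ U)

variable {U : Set E}

theorem PD.congr {a b : ℝ → E → F} (ha : PD U a) (h : ∀ η z, b η z = a η z) : PD U b := by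
  have e : b = a := funext fun η => funext fun z => h η z
  rw [e]
  exact ha

theorem PD.add {a b : ℝ → E → F} (ha : PD U a) (hb : PD U b) : PD U fun η z => a η z + b η z where
  cont := ha.cont.add hb.cont
  diff := fun η h z hz => (ha.diff η h z hz).add (hb.diff η h z hz)
  dcont := by
    refine (ha.dcont.add hb.dcont).congr fun p hp => ?_
    exact fderiv_fun_add (ha.diff _ hp.1 _ hp.2) (hb.diff _ hp.1 _ hp.2)

theorem PD.sub {a b : ℝ → E → F} (ha : PD U a) (hb : PD U b) : PD U fun η z => a η z - b η z where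
  cont := ha.cont.sub hb.cont
  diff := fun η h z hz => (ha.diff η h z hz).sub (hb.diff η h z hz)
  dcont := by
    refine (ha.dcont.sub hb.dcont).congr fun p hp => ?_
    exact fderiv_fun_sub (ha.diff _ hp.1 _ hp.2) (hb.diff _ hp.1 _ hp.2)

theorem PD.zero : PD U fun (_ : ℝ) (_ : E) => (0 : F) where
  cont := continuousOn_const
  diff := fun _ _ _ _ => differentiableAt_const _
  dcont := by
    refine (continuousOn_const (c := (0 : E →L[ℝ] F))).congr fun p _ => ?_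
    exact (hasFDerivAt_const _ _).fderiv

theorem PD.sum {ι : Type*} (s : Finset ι) {a : ι → ℝ → E → F} (ha : ∀ i ∈ s, PD U (a i)) :
    PD U fun η z => ∑ i ∈ s, a i η z := by
  classical
  induction s using Finset.induction_on with
  | empty => exact PD.zero.congr fun η z => by simp
  | insert i s hi ih =>
    refine ((ha i (mem_insert_self _ _)).add (ih fun j hj => ha j (mem_insert_of_mem hj))).congr
      fun η z => ?_
    rw [sum_insert hi]

/-- composition with a continuous linear map -/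
theorem PD.clm {a : ℝ → E → F} (ha : PD U a) (L : F →L[ℝ] F') : PD U fun η z => L (a η z) where
  cont := L.continuous.comp_continuousOn ha.cont
  diff := fun η h z hz => L.differentiableAt.comp z (ha.diff η h z hz)
  dcont := by
    have h1 : ContinuousOn (fun p : ℝ × E => L.comp (fderiv ℝ (a p.1) p.2)) (Set.Ici (0 : ℝ) ×ˢ U) :=
      ((ContinuousLinearMap.compL ℝ E F F' L).continuous).comp_continuousOn ha.dcont
    refine h1.congr fun p hp => ?_
    exact (L.hasFDerivAt.comp p.2 (ha.diff _ hp.1 _ hp.2).hasFDerivAt).fderiv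

/-- `f + η • g` -/
theorem PD.lin (hU : IsOpen U) {f g : E → F} (hf : ContDiffOn ℝ 2 f U) (hg : ContDiffOn ℝ 2 g U) :
    PD U fun η z => f z + η • g z where
  cont := by
    have h1 : ContinuousOn (fun p : ℝ × E => f p.2) (Set.Ici (0 : ℝ) ×ˢ U) :=
      hf.continuousOn.comp continuousOn_snd fun p hp => hp.2
    have h2 : ContinuousOn (fun p : ℝ × E => g p.2) (Set.Ici (0 : ℝ) ×ˢ U) :=
      hg.continuousOn.comp continuousOn_snd fun p hp => hp.2
    exact h1.add (continuousOn_fst.smul h2)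
  diff := fun η h z hz => by
    have h1 := (hf.contDiffAt (hU.mem_nhds hz)).differentiableAt two_ne_zero
    have h2 := (hg.contDiffAt (hU.mem_nhds hz)).differentiableAt two_ne_zero
    exact h1.add (h2.const_smul η)
  dcont := by
    have k1 : ContinuousOn (fderiv ℝ f) U := hf.continuousOn_fderiv_of_isOpen hU (by norm_num)
    have k2 : ContinuousOn (fderiv ℝ g) U := hg.continuousOn_fderiv_of_isOpen hU (by norm_num)
    have h1 : ContinuousOn (fun p : ℝ × E => fderiv ℝ f p.2) (Set.Ici (0 : ℝ) ×ˢ U) :=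
      k1.comp continuousOn_snd fun p hp => hp.2
    have h2 : ContinuousOn (fun p : ℝ × E => fderiv ℝ g p.2) (Set.Ici (0 : ℝ) ×ˢ U) :=
      k2.comp continuousOn_snd fun p hp => hp.2
    refine (h1.add (continuousOn_fst.smul h2)).congr fun p hp => ?_
    have d1 := (hf.contDiffAt (hU.mem_nhds hp.2)).differentiableAt two_ne_zero
    have d2 := (hg.contDiffAt (hU.mem_nhds hp.2)).differentiableAt two_ne_zero
    exact (d1.hasFDerivAt.add (d2.hasFDerivAt.const_smul p.1)).fderiv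

/-! ### the quotient -/

/-- pointwise data of the quotient. -/
theorem quot_abs {a b c e : ℝ} (hc : 0 ≤ c) (hca : c ≤ a) (he : 0 ≤ e) (heb : e ≤ b) :
    |c * e / (a + b)| ≤ c := by
  have ha : 0 ≤ a := hc.trans hca
  have hb : 0 ≤ b := he.trans heb
  rw [abs_of_nonneg (by positivity)]
  rcases eq_or_lt_of_le (add_nonneg ha hb) with h | h
  · rw [← h, div_zero]
    exact hc
  · rw [div_le_iff₀ h]
    exact mul_le_mul_of_nonneg_left (by linarith) hc

/-- derivative of the quotient. -/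
def qd (a b c e : ℝ) (a' b' c' e' : E →L[ℝ] ℝ) : E →L[ℝ] ℝ :=
  (1 / (a + b)) • (c • e' + e • c') - (c * e / (a + b) ^ 2) • (a' + b')

theorem norm_qd_le {a b c e : ℝ} (hc : 0 ≤ c) (hca : c ≤ a) (he : 0 ≤ e) (heb : e ≤ b)
    (a' b' c' e' : E →L[ℝ] ℝ) : ‖qd a b c e a' b' c' e'‖ ≤ ‖a'‖ + ‖b'‖ + ‖c'‖ + ‖e'‖ := by
  have ha : 0 ≤ a := hc.trans hca
  have hb : 0 ≤ b := he.trans heb
  rcases eq_or_lt_of_le (add_nonneg ha hb) with h | h
  · unfold qd
    rw [← h]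
    simp only [div_zero, zero_smul, ne_eq, OfNat.ofNat_ne_zero, not_false_eq_true, zero_pow,
      sub_self, norm_zero]
    positivity
  · have e1 : (1 / (a + b)) • (c • e' + e • c') = (c / (a + b)) • e' + (e / (a + b)) • c' := by
      rw [smul_add, smul_smul, smul_smul]
      congr 2 <;> ring
    unfold qd
    rw [e1]
    have k1 : ‖(c / (a + b)) • e'‖ ≤ ‖e'‖ := by
      rw [norm_smul, Real.norm_of_nonneg (by positivity)]
      refine mul_le_of_le_one_left (norm_nonneg _) ?_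
      rw [div_le_one h]
      linarith
    have k2 : ‖(e / (a + b)) • c'‖ ≤ ‖c'‖ := by
      rw [norm_smul, Real.norm_of_nonneg (by positivity)]
      refine mul_le_of_le_one_left (norm_nonneg _) ?_
      rw [div_le_one h]
      linarith
    have k3 : ‖(c * e / (a + b) ^ 2) • (a' + b')‖ ≤ ‖a'‖ + ‖b'‖ := by
      rw [norm_smul, Real.norm_of_nonneg (by positivity)]
      refine (mul_le_of_le_one_left (norm_nonneg _) ?_).trans (norm_add_le _ _)
      rw [div_le_one (by positivity), sq]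
      exact mul_le_mul (by linarith) (by linarith) he (by linarith)
    have k4 := norm_sub_le ((c / (a + b)) • e' + (e / (a + b)) • c')
      ((c * e / (a + b) ^ 2) • (a' + b'))
    have k5 := norm_add_le ((c / (a + b)) • e') ((e / (a + b)) • c')
    linarith

/-- the derivative at a zero of a nonnegative function. -/
theorem fderiv_zero_of_nonneg (hU : IsOpen U) {f : E → ℝ} {z : E} (hz : z ∈ U)
    (h : ∀ w ∈ U, 0 ≤ f w) (h0 : f z = 0) : fderiv ℝ f z = 0 := by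
  have h1 : IsLocalMin f z := by
    filter_upwards [hU.mem_nhds hz] with w hw
    rw [h0]
    exact h w hw
  exact h1.fderiv_eq_zero

theorem hasFDerivAt_quot (hU : IsOpen U) {a b c e : E → ℝ} {z : E} (hz : z ∈ U)
    (ha : DifferentiableAt ℝ a z) (hb : DifferentiableAt ℝ b z) (hc : DifferentiableAt ℝ c z)
    (he : DifferentiableAt ℝ e z) (hc0 : ∀ w ∈ U, 0 ≤ c w ∧ c w ≤ a w)
    (he0 : ∀ w ∈ U, 0 ≤ e w ∧ e w ≤ b w) :
    HasFDerivAt (fun w => c w * e w / (a w + b w))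
      (qd (a z) (b z) (c z) (e z) (fderiv ℝ a z) (fderiv ℝ b z) (fderiv ℝ c z) (fderiv ℝ e z)) z := by
  obtain ⟨c1, c2⟩ := hc0 z hz
  obtain ⟨e1, e2⟩ := he0 z hz
  rcases eq_or_lt_of_le (add_nonneg (c1.trans c2) (e1.trans e2)) with h | h
  · have a0 : a z = 0 := by linarith [c1.trans c2, e1.trans e2]
    have cz : c z = 0 := le_antisymm (c2.trans a0.le) c1
    have hq : qd (a z) (b z) (c z) (e z) (fderiv ℝ a z) (fderiv ℝ b z) (fderiv ℝ c z)
        (fderiv ℝ e z) = 0 := by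
      unfold qd
      rw [← h]
      simp
    have hcd : fderiv ℝ c z = 0 := fderiv_zero_of_nonneg hU hz (fun w hw => (hc0 w hw).1) cz
    have hc' := hc.hasFDerivAt
    rw [hcd, hasFDerivAt_iff_isLittleO] at hc'
    rw [hq, hasFDerivAt_iff_isLittleO]
    refine Asymptotics.IsBigO.trans_isLittleO ?_ hc'
    refine Asymptotics.IsBigO.of_bound 1 ?_
    filter_upwards [hU.mem_nhds hz] with w hw
    simp only [cz, zero_mul, zero_div, sub_zero, zero_apply, one_mul]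
    rw [Real.norm_eq_abs, Real.norm_eq_abs, abs_of_nonneg (hc0 w hw).1]
    exact quot_abs (hc0 w hw).1 (hc0 w hw).2 (he0 w hw).1 (he0 w hw).2
  · exact fdiv (hc.hasFDerivAt.mul he.hasFDerivAt) (ha.hasFDerivAt.add hb.hasFDerivAt) h.ne'

/-- **quotients** -/
theorem PD.quot (hU : IsOpen U) {a b c e : ℝ → E → ℝ} (ha : PD U a) (hb : PD U b) (hc : PD U c)
    (he : PD U e) (hc0 : ∀ η, 0 ≤ η → ∀ z ∈ U, 0 ≤ c η z ∧ c η z ≤ a η z)
    (he0 : ∀ η, 0 ≤ η → ∀ z ∈ U, 0 ≤ e η z ∧ e η z ≤ b η z) :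
    PD U fun η z => c η z * e η z / (a η z + b η z) := by
  have hd : ∀ p ∈ (Set.Ici (0 : ℝ) ×ˢ U : Set (ℝ × E)),
      HasFDerivAt (fun w => c p.1 w * e p.1 w / (a p.1 w + b p.1 w))
        (qd (a p.1 p.2) (b p.1 p.2) (c p.1 p.2) (e p.1 p.2) (fderiv ℝ (a p.1) p.2)
          (fderiv ℝ (b p.1) p.2) (fderiv ℝ (c p.1) p.2) (fderiv ℝ (e p.1) p.2)) p.2 :=
    fun p hp => hasFDerivAt_quot hU hp.2 (ha.diff _ hp.1 _ hp.2) (hb.diff _ hp.1 _ hp.2)
      (hc.diff _ hp.1 _ hp.2) (he.diff _ hp.1 _ hp.2) (hc0 _ hp.1) (he0 _ hp.1)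
  refine ⟨fun p hp => ?_, fun η h z hz => (hd (η, z) ⟨h, hz⟩).differentiableAt, ?_⟩
  · obtain ⟨c1, c2⟩ := hc0 _ hp.1 _ hp.2
    obtain ⟨e1, e2⟩ := he0 _ hp.1 _ hp.2
    rcases eq_or_lt_of_le (add_nonneg (c1.trans c2) (e1.trans e2)) with h | h
    · have a0 : a p.1 p.2 = 0 := by linarith [c1.trans c2, e1.trans e2]
      have cz : c p.1 p.2 = 0 := le_antisymm (c2.trans a0.le) c1
      have h1 := hc.cont p hp
      unfold ContinuousWithinAt at h1 ⊢
      simp only [cz, zero_mul, zero_div] at h1 ⊢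
      refine squeeze_zero_norm' ?_ h1
      filter_upwards [self_mem_nhdsWithin] with q hq
      exact quot_abs (hc0 _ hq.1 _ hq.2).1 (hc0 _ hq.1 _ hq.2).2 (he0 _ hq.1 _ hq.2).1
        (he0 _ hq.1 _ hq.2).2
    · exact ((hc.cont p hp).mul (he.cont p hp)).div ((ha.cont p hp).add (hb.cont p hp)) h.ne'
  · refine ContinuousOn.congr (f := fun p : ℝ × E => qd (a p.1 p.2) (b p.1 p.2) (c p.1 p.2)
      (e p.1 p.2) (fderiv ℝ (a p.1) p.2) (fderiv ℝ (b p.1) p.2) (fderiv ℝ (c p.1) p.2)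
      (fderiv ℝ (e p.1) p.2)) (fun p hp => ?_) fun p hp => (hd p hp).fderiv
    obtain ⟨c1, c2⟩ := hc0 _ hp.1 _ hp.2
    obtain ⟨e1, e2⟩ := he0 _ hp.1 _ hp.2
    rcases eq_or_lt_of_le (add_nonneg (c1.trans c2) (e1.trans e2)) with h | h
    · have a0 : a p.1 p.2 = 0 := by linarith [c1.trans c2, e1.trans e2]
      have b0 : b p.1 p.2 = 0 := by linarith [c1.trans c2, e1.trans e2]
      have cz : c p.1 p.2 = 0 := le_antisymm (c2.trans a0.le) c1
      have ez : e p.1 p.2 = 0 := le_antisymm (e2.trans b0.le) e1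
      have da : fderiv ℝ (a p.1) p.2 = 0 := fderiv_zero_of_nonneg hU hp.2
        (fun w hw => (hc0 _ hp.1 w hw).1.trans (hc0 _ hp.1 w hw).2) a0
      have db : fderiv ℝ (b p.1) p.2 = 0 := fderiv_zero_of_nonneg hU hp.2
        (fun w hw => (he0 _ hp.1 w hw).1.trans (he0 _ hp.1 w hw).2) b0
      have dc : fderiv ℝ (c p.1) p.2 = 0 := fderiv_zero_of_nonneg hU hp.2
        (fun w hw => (hc0 _ hp.1 w hw).1) cz
      have de : fderiv ℝ (e p.1) p.2 = 0 := fderiv_zero_of_nonneg hU hp.2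
        (fun w hw => (he0 _ hp.1 w hw).1) ez
      have h1 : ContinuousWithinAt (fun q : ℝ × E => ‖fderiv ℝ (a q.1) q.2‖ +
          ‖fderiv ℝ (b q.1) q.2‖ + ‖fderiv ℝ (c q.1) q.2‖ + ‖fderiv ℝ (e q.1) q.2‖)
          (Set.Ici (0 : ℝ) ×ˢ U) p :=
        (((ha.dcont p hp).norm.add (hb.dcont p hp).norm).add (hc.dcont p hp).norm).add
          (he.dcont p hp).norm
      have h2 : qd (a p.1 p.2) (b p.1 p.2) (c p.1 p.2) (e p.1 p.2) (fderiv ℝ (a p.1) p.2)
          (fderiv ℝ (b p.1) p.2) (fderiv ℝ (c p.1) p.2) (fderiv ℝ (e p.1) p.2) = 0 := by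
        unfold qd
        rw [← h]
        simp
      unfold ContinuousWithinAt at h1 ⊢
      simp only [da, db, dc, de, norm_zero, add_zero] at h1
      show Tendsto _ _ (𝓝 (qd (a p.1 p.2) (b p.1 p.2) (c p.1 p.2) (e p.1 p.2)
        (fderiv ℝ (a p.1) p.2) (fderiv ℝ (b p.1) p.2) (fderiv ℝ (c p.1) p.2)
        (fderiv ℝ (e p.1) p.2)))
      rw [h2]
      refine squeeze_zero_norm' ?_ h1
      filter_upwards [self_mem_nhdsWithin] with q hq
      exact norm_qd_le (hc0 _ hq.1 _ hq.2).1 (hc0 _ hq.1 _ hq.2).2 (he0 _ hq.1 _ hq.2).1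
        (he0 _ hq.1 _ hq.2).2 _ _ _ _
    · have hs := (ha.cont p hp).add (hb.cont p hp)
      have k1 := (continuousWithinAt_const (b := (1 : ℝ))).div hs h.ne'
      have k2 := ((hc.cont p hp).smul (he.dcont p hp)).add ((he.cont p hp).smul (hc.dcont p hp))
      have k3 := ((hc.cont p hp).mul (he.cont p hp)).div (hs.pow 2) (pow_ne_zero 2 h.ne')
      exact (k1.smul k2).sub (k3.smul ((ha.dcont p hp).add (hb.dcont p hp)))

end PD

/-! ### smoothness of the gauges and of the planar functions -/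

section gauge

variable {E : Type*} [NormedAddCommGroup E] [NormedSpace ℝ E]

theorem contDiffAt_gq (K : ℝ) {A B : E → ℝ} {z : E} (hA : ContDiffAt ℝ 2 A z)
    (hB : ContDiffAt ℝ 2 B z) (h : A z + B z ≠ 0) :
    ContDiffAt ℝ 2 (fun w => gq K (A w) (B w)) z := by
  have h1 : ContDiffAt ℝ 2 (fun w => tp 3 (B w - K ^ 2 * A w)) z :=
    (contDiff_tp 2 3 (by norm_num)).contDiffAt.comp z (hB.sub (contDiffAt_const.mul hA))
  have h2 : (3 * K ^ 2 + 3) * (A z + B z) ^ 2 ≠ 0 :=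
    mul_ne_zero (by positivity) (pow_ne_zero 2 h)
  exact hA.add (h1.div (contDiffAt_const.mul ((hA.add hB).pow 2)) h2)

theorem contDiffAt_sqrt_gq (K : ℝ) {A B : E → ℝ} {z : E} (hA : ContDiffAt ℝ 2 A z)
    (hB : ContDiffAt ℝ 2 B z) (hA0 : 0 ≤ A z) (hB0 : 0 ≤ B z) (h : A z + B z ≠ 0) :
    ContDiffAt ℝ 2 (fun w => √(gq K (A w) (B w))) z :=
  (contDiffAt_gq K hA hB h).sqrt (gq_pos hA0 hB0 h).ne'

theorem contDiffAt_re (z : ℂ) : ContDiffAt ℝ 2 (fun w : ℂ => w.re) z :=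
  Complex.reCLM.contDiff.contDiffAt

theorem contDiffAt_im (z : ℂ) : ContDiffAt ℝ 2 (fun w : ℂ => w.im) z :=
  Complex.imCLM.contDiff.contDiffAt

theorem contDiffAt_pg (K : ℝ) {z : ℂ} (hz : z ≠ 0) : ContDiffAt ℝ 2 (pg K) z :=
  contDiffAt_sqrt_gq K ((contDiffAt_re z).pow 2) ((contDiffAt_im z).pow 2) (sq_nonneg _)
    (sq_nonneg _) (sq_add_ne hz)

theorem contDiffAt_tau {z : ℂ} (h : z.re ≠ 0) : ContDiffAt ℝ 2 (fun w : ℂ => w.im / w.re) z :=
  (contDiffAt_im z).div (contDiffAt_re z) h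

theorem contDiffAt_pl (ga : ℝ) (M : ℕ) {z : ℂ} (hz : z ≠ 0) : ContDiffAt ℝ 2 (pl ga M) z := by
  rcases lt_or_ge 0 z.re with h | h
  · have h1 : ContDiffAt ℝ 2 (fun w : ℂ => (w.re : ℂ) * pv ga M (w.im / w.re)) z :=
      (Complex.ofRealCLM.contDiff.contDiffAt.comp z (contDiffAt_re z)).mul
        ((contDiff_pv ga M).contDiffAt.comp z (contDiffAt_tau h.ne'))
    refine h1.congr_of_eventuallyEq ?_
    have h2 : ∀ᶠ w : ℂ in 𝓝 z, 0 < w.re := Complex.continuous_re.continuousAt.eventually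
      (lt_mem_nhds h)
    filter_upwards [h2] with w hw
    exact pl_of_pos hw
  · have h1 : ContDiffAt ℝ 2 (fun w : ℂ => -((2 - ga : ℝ) : ℂ) * w.re - Complex.I * w.im) z :=
      (contDiffAt_const.mul (Complex.ofRealCLM.contDiff.contDiffAt.comp z (contDiffAt_re z))).sub
        (contDiffAt_const.mul (Complex.ofRealCLM.contDiff.contDiffAt.comp z (contDiffAt_im z)))
    refine h1.congr_of_eventuallyEq ?_
    filter_upwards [far_nhds (M := M) h hz] with w hw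
    exact pl_of_far (Or.inl hw)

/-- `s⁺ W(t/s)` with a window `W` of bounded support. -/
def wf (W : ℝ → ℝ) (z : ℂ) : ℝ := max 0 z.re * W (z.im / z.re)

theorem contDiffAt_wf {W : ℝ → ℝ} (hW : ContDiff ℝ 2 W) {M : ℕ}
    (h0 : ∀ τ, 8 * (M : ℝ) + 1 ≤ |τ| → W τ = 0) {z : ℂ} (hz : z ≠ 0) :
    ContDiffAt ℝ 2 (wf W) z := by
  rcases lt_or_ge 0 z.re with h | h
  · have h1 : ContDiffAt ℝ 2 (fun w : ℂ => w.re * W (w.im / w.re)) z :=
      (contDiffAt_re z).mul (hW.contDiffAt.comp z (contDiffAt_tau h.ne'))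
    refine h1.congr_of_eventuallyEq ?_
    have h2 : ∀ᶠ w : ℂ in 𝓝 z, 0 < w.re := Complex.continuous_re.continuousAt.eventually
      (lt_mem_nhds h)
    filter_upwards [h2] with w hw
    unfold wf
    rw [max_eq_right hw.le]
  · refine (contDiffAt_const (c := (0 : ℝ))).congr_of_eventuallyEq ?_
    filter_upwards [far_nhds (M := M) h hz] with w hw
    unfold wf
    rcases le_or_gt w.re 0 with h2 | h2
    · rw [max_eq_left h2, zero_mul]
    · rw [h0, mul_zero]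
      rw [abs_div, abs_of_pos h2, le_div_iff₀ h2]
      exact hw

theorem wf_hom (W : ℝ → ℝ) {r : ℝ} (hr : 0 < r) (z : ℂ) : wf W (r • z) = r • wf W z := by
  unfold wf
  have e1 : (r • z).re = r * z.re := by simp
  have e2 : (r • z).im = r * z.im := by simp
  rw [e1, e2, mul_div_mul_left _ _ hr.ne', smul_eq_mul, ← mul_assoc]
  congr 1
  rw [mul_max_of_nonneg _ _ hr.le, mul_zero]

theorem pl_hom (ga : ℝ) (M : ℕ) {r : ℝ} (hr : 0 < r) (z : ℂ) : pl ga M (r • z) = r • pl ga M z := by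
  have e1 : (r • z).re = r * z.re := by simp
  have e2 : (r • z).im = r * z.im := by simp
  unfold pl
  rw [e1, e2, mul_div_mul_left _ _ hr.ne']
  have h1 : (0 < r * z.re) ↔ 0 < z.re := by
    constructor
    · intro h
      exact (pos_iff_pos_of_mul_pos h).1 hr
    · exact mul_pos hr
  simp only [h1, Complex.real_smul, Complex.ofReal_mul]
  split_ifs <;> ring

theorem pg_hom (K : ℝ) {r : ℝ} (hr : 0 < r) (z : ℂ) : pg K (r • z) = r * pg K z := by
  have e1 : (r • z).re = r * z.re := by simp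
  have e2 : (r • z).im = r * z.im := by simp
  unfold pg gq
  rw [e1, e2]
  have h1 : (r * z.re) ^ 2 + max 0 ((r * z.im) ^ 2 - K ^ 2 * (r * z.re) ^ 2) ^ 3 /
      ((3 * K ^ 2 + 3) * ((r * z.re) ^ 2 + (r * z.im) ^ 2) ^ 2) =
      r ^ 2 * (z.re ^ 2 + max 0 (z.im ^ 2 - K ^ 2 * z.re ^ 2) ^ 3 /
      ((3 * K ^ 2 + 3) * (z.re ^ 2 + z.im ^ 2) ^ 2)) := by
    have h2 : max 0 ((r * z.im) ^ 2 - K ^ 2 * (r * z.re) ^ 2) =
        r ^ 2 * max 0 (z.im ^ 2 - K ^ 2 * z.re ^ 2) := by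
      rw [mul_max_of_nonneg _ _ (sq_nonneg r), mul_zero]
      congr 1
      ring
    rw [h2]
    have h3 : (3 * K ^ 2 + 3) * ((r * z.re) ^ 2 + (r * z.im) ^ 2) ^ 2 =
        r ^ 4 * ((3 * K ^ 2 + 3) * (z.re ^ 2 + z.im ^ 2) ^ 2) := by ring
    have h4 : (r ^ 2 * max 0 (z.im ^ 2 - K ^ 2 * z.re ^ 2)) ^ 3 =
        r ^ 4 * (r ^ 2 * max 0 (z.im ^ 2 - K ^ 2 * z.re ^ 2) ^ 3) := by ring
    rw [h3, h4, mul_div_mul_left _ _ (pow_ne_zero 4 hr.ne')]
    ring
  rw [h1, Real.sqrt_mul (sq_nonneg r), Real.sqrt_sq hr.le]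

theorem pg_le_norm (K : ℝ) (z : ℂ) : pg K z ≤ ‖z‖ := by
  have h1 : pg K z ^ 2 ≤ ‖z‖ ^ 2 := by
    rw [pg_sq, Complex.sq_norm, Complex.normSq_apply]
    have := gq_le (K := K) (sq_nonneg z.re) (sq_nonneg z.im)
    linarith
  exact (pow_le_pow_iff_left₀ (pg_nonneg _ _) (norm_nonneg _) two_ne_zero).1 h1

theorem continuous_pg (K : ℝ) : Continuous (pg K) := by
  rw [continuous_iff_continuousAt]
  intro z
  by_cases hz : z = 0
  · subst hz
    unfold ContinuousAt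
    rw [pg_zero]
    refine squeeze_zero (fun w => pg_nonneg K w) (fun w => pg_le_norm K w) ?_
    have := (continuous_norm (E := ℂ)).tendsto 0
    rwa [norm_zero] at this
  · exact (contDiffAt_pg K hz).continuousAt

end gauge

/-! ### `x_j` and the products -/

section prod

variable {N : ℕ}

theorem contDiffAt_NN (K : ℝ) {z : Fin N → ℂ} (hz : z ≠ 0) : ContDiffAt ℝ 2 (NN K) z := by
  have hp : ∀ j, ContDiffAt ℝ 2 (fun w : Fin N → ℂ => w j) z := fun j =>
    (ContinuousLinearMap.proj (R := ℝ) (φ := fun _ : Fin N => ℂ) j).contDiff.contDiffAt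
  have hre : ∀ j, ContDiffAt ℝ 2 (fun w : Fin N → ℂ => (w j).re) z := fun j =>
    (contDiffAt_re _).comp z (hp j)
  have him : ∀ j, ContDiffAt ℝ 2 (fun w : Fin N → ℂ => (w j).im) z := fun j =>
    (contDiffAt_im _).comp z (hp j)
  have hA : ContDiffAt ℝ 2 (fun w : Fin N → ℂ => ∑ j, (w j).re ^ 2) z :=
    ContDiffAt.sum fun j _ => (hre j).pow 2
  have hB : ContDiffAt ℝ 2 (fun w : Fin N → ℂ => ∑ j, (w j).im ^ 2) z :=
    ContDiffAt.sum fun j _ => (him j).pow 2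
  refine contDiffAt_sqrt_gq K hA hB (sum_nonneg fun _ _ => sq_nonneg _)
    (sum_nonneg fun _ _ => sq_nonneg _) ?_
  intro h
  apply hz
  have h1 : ∑ j, ((z j).re ^ 2 + (z j).im ^ 2) = 0 := by rw [sum_add_distrib]; exact h
  have h2 := (sum_eq_zero_iff_of_nonneg fun j _ => by positivity).1 h1
  funext j
  have h3 := h2 j (mem_univ j)
  have h4 : (z j).re ^ 2 = 0 := by nlinarith [sq_nonneg (z j).re, sq_nonneg (z j).im]
  have h5 : (z j).im ^ 2 = 0 := by nlinarith [sq_nonneg (z j).re, sq_nonneg (z j).im]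
  exact Complex.ext (pow_eq_zero_iff two_ne_zero |>.1 h4) (pow_eq_zero_iff two_ne_zero |>.1 h5)

theorem NN_pos' {K : ℝ} {z : Fin N → ℂ} (hz : z ≠ 0) : 0 < NN K z := by
  refine Real.sqrt_pos.2 (gq_pos (sum_nonneg fun _ _ => sq_nonneg _)
    (sum_nonneg fun _ _ => sq_nonneg _) ?_)
  intro h
  apply hz
  have h1 : ∑ j, ((z j).re ^ 2 + (z j).im ^ 2) = 0 := by rw [sum_add_distrib]; exact h
  have h2 := (sum_eq_zero_iff_of_nonneg fun j _ => by positivity).1 h1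
  funext j
  have h3 := h2 j (mem_univ j)
  have h4 : (z j).re ^ 2 = 0 := by nlinarith [sq_nonneg (z j).re, sq_nonneg (z j).im]
  have h5 : (z j).im ^ 2 = 0 := by nlinarith [sq_nonneg (z j).re, sq_nonneg (z j).im]
  exact Complex.ext (pow_eq_zero_iff two_ne_zero |>.1 h4) (pow_eq_zero_iff two_ne_zero |>.1 h5)

variable (D : LD N)

theorem xr_nonneg (z : Fin N → ℂ) (j : Fin N) : 0 ≤ D.xr z j :=
  div_nonneg (pg_nonneg _ _) (Real.sqrt_nonneg _)

theorem contDiffAt_xr {z : Fin N → ℂ} (hz : z ≠ 0) {j : Fin N} (hj : z j ≠ 0) :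
    ContDiffAt ℝ 2 (fun w => D.xr w j) z := by
  have hp : ContDiffAt ℝ 2 (fun w : Fin N → ℂ => w j) z :=
    (ContinuousLinearMap.proj (R := ℝ) (φ := fun _ : Fin N => ℂ) j).contDiff.contDiffAt
  exact (ContDiffAt.comp z (contDiffAt_pg D.K hj) hp).div (contDiffAt_NN D.K1 hz) (NN_pos' hz).ne'

theorem continuousAt_xr {z : Fin N → ℂ} (hz : z ≠ 0) (j : Fin N) :
    ContinuousAt (fun w => D.xr w j) z :=
  ((continuous_pg D.K).comp (continuous_apply j)).continuousAt.div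
    (contDiffAt_NN D.K1 hz).continuousAt (NN_pos' hz).ne'

theorem contDiff_chi (d : ℝ) : ContDiff ℝ 2 (chi d) :=
  contDiff_st.comp ((contDiff_id.sub contDiff_const).div_const d)

variable {F : Type*} [NormedAddCommGroup F] [NormedSpace ℝ F]

theorem cd_chi {d : ℝ} (hd : 0 < d) {g : ℂ → F} (hg : ∀ z, z ≠ 0 → ContDiffAt ℝ 2 g z) (j : Fin N) :
    ContDiffOn ℝ 2 (fun z : Fin N → ℂ => chi d (D.xr z j) • g (z j)) {0}ᶜ := by
  intro z hz
  have hz' : z ≠ 0 := hz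
  refine ContDiffAt.contDiffWithinAt ?_
  have hp : ContDiffAt ℝ 2 (fun w : Fin N → ℂ => w j) z :=
    (ContinuousLinearMap.proj (R := ℝ) (φ := fun _ : Fin N => ℂ) j).contDiff.contDiffAt
  by_cases hj : z j = 0
  · refine (contDiffAt_const (c := (0 : F))).congr_of_eventuallyEq ?_
    have h1 : D.xr z j < d := by
      unfold LD.xr
      rw [hj, pg_zero, zero_div]
      exact hd
    filter_upwards [(continuousAt_xr D hz' j).eventually (gt_mem_nhds h1)] with w hw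
    have h2 : chi d (D.xr w j) = 0 :=
      st_of_le (div_nonpos_of_nonpos_of_nonneg (by linarith) hd.le)
    rw [h2, zero_smul]
  · exact ((contDiff_chi d).contDiffAt.comp z (contDiffAt_xr D hz' hj)).smul
      (ContDiffAt.comp z (hg _ hj) hp)

theorem hom8_cd {q : ℂ → ℝ} {g : ℂ → F} (hq : ∀ z, z ≠ 0 → ContDiffAt ℝ 2 q z)
    (hg : ∀ z, z ≠ 0 → ContDiffAt ℝ 2 g z) :
    ContDiffOn ℝ 2 (fun p : ℝ × ℂ => q p.2 ^ 7 • g p.2) ((univ : Set ℝ) ×ˢ ({0}ᶜ : Set ℂ)) := by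
  intro p hp
  have hp2 : p.2 ≠ 0 := hp.2
  refine ContDiffAt.contDiffWithinAt ?_
  exact ((ContDiffAt.comp p (hq _ hp2) contDiffAt_snd).pow 7).smul
    (ContDiffAt.comp p (hg _ hp2) contDiffAt_snd)

theorem hom8_hom {q : ℂ → ℝ} {g : ℂ → F} (hqh : ∀ r : ℝ, 0 < r → ∀ z, q (r • z) = r * q z)
    (hh : ∀ r : ℝ, 0 < r → ∀ z, g (r • z) = r • g z) : ∀ t ∈ (univ : Set ℝ), ∀ r : ℝ, 0 < r →
    ∀ x : ℂ, (fun p : ℝ × ℂ => q p.2 ^ 7 • g p.2) (t, r • x) =
      (r ^ (8 : ℝ)) • (fun p : ℝ × ℂ => q p.2 ^ 7 • g p.2) (t, x) := by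
  intro t _ r hr x
  have e : r ^ (8 : ℝ) = r ^ 8 := by
    rw [show (8 : ℝ) = ((8 : ℕ) : ℝ) by norm_num, Real.rpow_natCast]
  rw [e]
  show q (r • x) ^ 7 • g (r • x) = r ^ 8 • (q x ^ 7 • g x)
  rw [hqh r hr, hh r hr, mul_pow, smul_smul, smul_smul]
  congr 1
  ring

theorem hom8_abs {H : ℝ × ℂ → F} (k1 : ContDiffOn ℝ 2 H ((univ : Set ℝ) ×ˢ ({0}ᶜ : Set ℂ)))
    (k2 : ∀ t ∈ (univ : Set ℝ), H (t, 0) = 0)
    (k3 : ∀ t ∈ (univ : Set ℝ), ∀ r : ℝ, 0 < r → ∀ x : ℂ,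
      H (t, r • x) = (r ^ (8 : ℝ)) • H (t, x)) : ContDiff ℝ 2 fun z => H (0, z) := by
  have h : ContDiffOn ℝ 2 H ((univ : Set ℝ) ×ˢ (univ : Set ℂ)) :=
    Pow_951.contDiffOn_of_hom (D := fun _ => (8 : ℝ)) isOpen_univ contDiffOn_const
      (fun _ _ => by norm_num) k1 k2 k3
  rw [univ_prod_univ, contDiffOn_univ] at h
  have h2 : ContDiff ℝ 2 fun z : ℂ => ((0 : ℝ), z) := contDiff_const.prodMk contDiff_id
  exact h.comp h2

/-- `q⁷ • g` is `C²`, also at `0`. -/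
theorem contDiff_hom8 {q : ℂ → ℝ} {g : ℂ → F} (hq : ∀ z, z ≠ 0 → ContDiffAt ℝ 2 q z) (hq0 : q 0 = 0)
    (hqh : ∀ r : ℝ, 0 < r → ∀ z, q (r • z) = r * q z) (hg : ∀ z, z ≠ 0 → ContDiffAt ℝ 2 g z)
    (hh : ∀ r : ℝ, 0 < r → ∀ z, g (r • z) = r • g z) : ContDiff ℝ 2 fun z => q z ^ 7 • g z :=
  hom8_abs (H := fun p : ℝ × ℂ => q p.2 ^ 7 • g p.2) (hom8_cd hq hg)
    (fun t _ => by simp only [hq0]; rw [zero_pow (by norm_num), zero_smul]) (hom8_hom hqh hh)

/-- `pg⁷ • g` is `C²`, also at `0`. -/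
theorem contDiff_pg7 (K : ℝ) {g : ℂ → F} (hg : ∀ z, z ≠ 0 → ContDiffAt ℝ 2 g z)
    (hh : ∀ r : ℝ, 0 < r → ∀ z, g (r • z) = r • g z) : ContDiff ℝ 2 fun z => pg K z ^ 7 • g z :=
  contDiff_hom8 (fun _ hz => contDiffAt_pg K hz) (pg_zero K) (fun _ hr z => pg_hom K hr z) hg hh

theorem cd_pow {g : ℂ → F} (hg : ∀ z, z ≠ 0 → ContDiffAt ℝ 2 g z)
    (hh : ∀ r : ℝ, 0 < r → ∀ z, g (r • z) = r • g z) (j : Fin N) :
    ContDiffOn ℝ 2 (fun z : Fin N → ℂ => D.xr z j ^ 7 • g (z j)) {0}ᶜ := by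
  intro z hz
  have hz' : z ≠ 0 := hz
  refine ContDiffAt.contDiffWithinAt ?_
  have hp : ContDiffAt ℝ 2 (fun w : Fin N → ℂ => w j) z :=
    (ContinuousLinearMap.proj (R := ℝ) (φ := fun _ : Fin N => ℂ) j).contDiff.contDiffAt
  have h1 : ContDiffAt ℝ 2 (fun w : Fin N → ℂ => (NN D.K1 w)⁻¹ ^ 7 • (pg D.K (w j) ^ 7 • g (w j)))
      z := (((contDiffAt_NN D.K1 hz').inv (NN_pos' hz').ne').pow 7).smul
        (ContDiffAt.comp z (contDiff_pg7 D.K hg hh).contDiffAt hp)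
  refine h1.congr_of_eventuallyEq (Eventually.of_forall fun w => ?_)
  show (pg D.K (w j) / NN D.K1 w) ^ 7 • g (w j) =
    (NN D.K1 w)⁻¹ ^ 7 • (pg D.K (w j) ^ 7 • g (w j))
  rw [smul_smul, div_eq_mul_inv, mul_pow, mul_comm]

end prod

/-! ### the windows -/

section win

theorem contDiff_win (m M : ℕ) : ContDiff ℝ 2 (win m M) :=
  (contDiff_st.comp ((contDiff_id.sub contDiff_const).div_const 2)).mul
    (contDiff_const.sub (contDiff_st.comp ((contDiff_id.sub contDiff_const).div_const 2)))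

theorem win_nonneg (m M : ℕ) (τ : ℝ) : 0 ≤ win m M τ :=
  mul_nonneg (st_nonneg _) (by linarith [st_le_one ((τ - (8 * M - 1)) / 2)])

theorem win_le_one (m M : ℕ) (τ : ℝ) : win m M τ ≤ 1 := by
  have h1 := st_le_one ((τ - (8 * m - 1)) / 2)
  have h2 := st_nonneg ((τ - (8 * M - 1)) / 2)
  have h3 := st_nonneg ((τ - (8 * m - 1)) / 2)
  have h4 := st_le_one ((τ - (8 * M - 1)) / 2)
  unfold win
  nlinarith

theorem win_low {m M : ℕ} {τ : ℝ} (h : τ ≤ -1) : win m M τ = 0 := by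
  unfold win
  have h1 : (0 : ℝ) ≤ m := Nat.cast_nonneg m
  rw [st_of_le (by linarith), zero_mul]

theorem win_high {m M : ℕ} {τ : ℝ} (h : 8 * (M : ℝ) + 1 ≤ τ) : win m M τ = 0 := by
  unfold win
  rw [st_of_ge (x := (τ - (8 * M - 1)) / 2) (by linarith), sub_self, mul_zero]

theorem win_far (m M : ℕ) (τ : ℝ) (h : 8 * (M : ℝ) + 1 ≤ |τ|) : win m M τ = 0 := by
  have h1 : (0 : ℝ) ≤ M := Nat.cast_nonneg M
  rcases le_total 0 τ with h2 | h2
  · exact win_high (by rwa [abs_of_nonneg h2] at h)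
  · refine win_low ?_
    rw [abs_of_nonpos h2] at h
    linarith

/-- wide window. -/
def wide (M : ℕ) (τ : ℝ) : ℝ := st (τ + 2) * (1 - st (τ - (8 * M + 1)))

theorem contDiff_wide (M : ℕ) : ContDiff ℝ 2 (wide M) :=
  (contDiff_st.comp (contDiff_id.add contDiff_const)).mul
    (contDiff_const.sub (contDiff_st.comp (contDiff_id.sub contDiff_const)))

theorem wide_nonneg (M : ℕ) (τ : ℝ) : 0 ≤ wide M τ :=
  mul_nonneg (st_nonneg _) (by linarith [st_le_one (τ - (8 * M + 1))])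

theorem wide_far (M : ℕ) (τ : ℝ) (h : 8 * ((M + 1 : ℕ) : ℝ) + 1 ≤ |τ|) : wide M τ = 0 := by
  have h1 : (0 : ℝ) ≤ M := Nat.cast_nonneg M
  push_cast at h
  unfold wide
  rcases le_total 0 τ with h2 | h2
  · rw [abs_of_nonneg h2] at h
    rw [st_of_ge (x := τ - (8 * M + 1)) (by linarith), sub_self, mul_zero]
  · rw [abs_of_nonpos h2] at h
    rw [st_of_le (by linarith), zero_mul]

theorem wide_eq_one {m M : ℕ} {τ : ℝ} (h : win m M τ ≠ 0) : wide M τ = 1 := by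
  have h1 : -1 < τ := by
    by_contra h2
    exact h (win_low (not_lt.1 h2))
  have h3 : τ < 8 * (M : ℝ) + 1 := by
    by_contra h2
    exact h (win_high (not_lt.1 h2))
  unfold wide
  rw [st_of_ge (by linarith), st_of_le (by linarith)]
  ring

theorem win_le_wide (m M : ℕ) (τ : ℝ) : win m M τ ≤ wide M τ := by
  by_cases h : win m M τ = 0
  · rw [h]
    exact wide_nonneg M τ
  · rw [wide_eq_one h]
    exact win_le_one m M τ

end win

/-! ### `ContP` -/

section main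

variable {N : ℕ} (D : LD N)

/-- `X_η(x_j) • g(z_j)` -/
theorem pd_term {F : Type*} [NormedAddCommGroup F] [NormedSpace ℝ F] {d : ℝ} (hd : 0 < d)
    {g : ℂ → F} (hg : ∀ z, z ≠ 0 → ContDiffAt ℝ 2 g z)
    (hh : ∀ r : ℝ, 0 < r → ∀ z, g (r • z) = r • g z) (j : Fin N) :
    PD ({0}ᶜ : Set (Fin N → ℂ)) fun η z => Xe d η (D.xr z j) • g (z j) := by
  refine (PD.lin isOpen_compl_singleton (cd_chi D hd hg j) (cd_pow D hg hh j)).congr
    fun η z => ?_
  unfold Xe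
  rw [add_smul, mul_smul]

theorem Xe_nonneg (d : ℝ) {η x : ℝ} (hη : 0 ≤ η) (hx : 0 ≤ x) : 0 ≤ Xe d η x :=
  add_nonneg (st_nonneg _) (mul_nonneg hη (pow_nonneg hx 7))

/-- the terms of the couplings, with any window -/
theorem pd_win {d : ℝ} (hd : 0 < d) (m M : ℕ) (j : Fin N) :
    PD ({0}ᶜ : Set (Fin N → ℂ)) fun η z => Xe d η (D.xr z j) • wf (win m M) (z j) :=
  pd_term D hd (fun _ hz => contDiffAt_wf (contDiff_win m M) (win_far m M) hz)
    (fun _ hr z => wf_hom _ hr z) j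

theorem pd_wide {d : ℝ} (hd : 0 < d) (M : ℕ) (j : Fin N) :
    PD ({0}ᶜ : Set (Fin N → ℂ)) fun η z => Xe d η (D.xr z j) • wf (wide M) (z j) :=
  pd_term D hd (fun _ hz => contDiffAt_wf (contDiff_wide M) (wide_far M) hz)
    (fun _ hr z => wf_hom _ hr z) j

theorem term_le {d : ℝ} (m M : ℕ) (j : Fin N) {η : ℝ} (hη : 0 ≤ η) (z : Fin N → ℂ) :
    0 ≤ Xe d η (D.xr z j) • wf (win m M) (z j) ∧
      Xe d η (D.xr z j) • wf (win m M) (z j) ≤ Xe d η (D.xr z j) • wf (wide M) (z j) := by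
  have h1 := Xe_nonneg d hη (xr_nonneg D z j)
  have h2 : 0 ≤ wf (win m M) (z j) := mul_nonneg (le_max_left _ _) (win_nonneg _ _ _)
  have h3 : wf (win m M) (z j) ≤ wf (wide M) (z j) :=
    mul_le_mul_of_nonneg_left (win_le_wide _ _ _) (le_max_left _ _)
  exact ⟨mul_nonneg h1 h2, mul_le_mul_of_nonneg_left h3 h1⟩

theorem Bx_eq (X : ℝ → ℝ) (e : Fin N × Fin N × ℕ) (z : Fin N → ℂ) :
    Bx D X e z = X (D.xr z e.1) • wf (win e.2.2 (D.M e.1)) (z e.1) *
      (X (D.xr z e.2.1) • wf (win (D.M e.2.1 - 1) (D.M e.2.1)) (z e.2.1)) /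
        (X (D.xr z e.1) • wf (wide (D.M e.1)) (z e.1) +
          X (D.xr z e.2.1) • wf (wide (D.M e.2.1)) (z e.2.1)) := by
  unfold Bx Rx wf
  simp only [smul_eq_mul]
  by_cases h1 : win e.2.2 (D.M e.1) ((z e.1).im / (z e.1).re) = 0
  · rw [h1]
    simp
  by_cases h2 : win (D.M e.2.1 - 1) (D.M e.2.1) ((z e.2.1).im / (z e.2.1).re) = 0
  · rw [h2]
    simp
  rw [wide_eq_one h1, wide_eq_one h2, mul_one, mul_one]
  ring

theorem pd_Bx {d : ℝ} (hd : 0 < d) (e : Fin N × Fin N × ℕ) :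
    PD ({0}ᶜ : Set (Fin N → ℂ)) fun η z => Bx D (Xe d η) e z := by
  refine (PD.quot isOpen_compl_singleton (pd_wide D hd (D.M e.1) e.1)
    (pd_wide D hd (D.M e.2.1) e.2.1) (pd_win D hd e.2.2 (D.M e.1) e.1)
    (pd_win D hd (D.M e.2.1 - 1) (D.M e.2.1) e.2.1)
    (fun η hη z _ => term_le D _ _ _ hη z) fun η hη z _ => term_le D _ _ _ hη z).congr
    fun η z => Bx_eq D _ e z

theorem pd_Gx {d : ℝ} (hd : 0 < d) (cB ga : ℝ) :
    PD ({0}ᶜ : Set (Fin N → ℂ)) fun η z => Gx D (Xe d η) cB ga z := by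
  have h1 : PD ({0}ᶜ : Set (Fin N → ℂ)) fun η z =>
      ∑ j, Xe d η (D.xr z j) • pl ga (D.M j) (z j) :=
    PD.sum univ fun j _ => pd_term D hd (fun _ hz => contDiffAt_pl ga _ hz)
      (fun _ hr z => pl_hom ga _ hr z) j
  have h2 : PD ({0}ᶜ : Set (Fin N → ℂ)) fun η z => ∑ e ∈ D.C, Bx D (Xe d η) e z :=
    PD.sum D.C fun e _ => pd_Bx D hd e
  have h3 := h2.clm ((cB * ga) • Complex.ofRealCLM)
  refine (h1.sub h3).congr fun η z => ?_
  unfold Gx
  congr 1
  simp only [smul_apply, Complex.ofRealCLM_apply, Complex.real_smul]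
  push_cast
  ring

/-- **GLUE-CONT** -/
theorem contP : ContP D := fun cB ga _ hd _ =>
  ⟨(pd_Gx D hd cB ga).cont, (pd_Gx D hd cB ga).dcont⟩

end main

end Crest.Agent.R267.GlCont_649
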