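import Crest.Agent.R267.GlBas_322
import Crest.Agent.R267.Calc3_957

/-!
# Row 267 (helper322): GLUE-HOMEO, `HomeoP`
-/

set_option autoImplicit false

noncomputable section

open Finset Filter Topology
open Crest.Agent.R267.T3aDefs_957 Crest.Agent.R267.GlueDefs_322
open Crest.Agent.R267.Hm_951 Crest.Agent.R267.Cone_808

namespace Crest.Agent.R267.GlHomeo_322

/-! ### monotonicity of the gauges -/

theorem gq_mono {K A B A' B' : ℝ} (hA : 0 ≤ A) (hB : 0 ≤ B) (h : A ≤ A') (h' : B ≤ B') :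
    gq K A B ≤ gq K A' B' := by
  rcases eq_or_ne (A + B) 0 with h0 | h0
  · have h1 : A = 0 := by linarith
    have h2 : B = 0 := by linarith
    rw [h1, h2]
    have h3 : gq K 0 0 = 0 := by simp [gq]
    rw [h3]
    exact GlBas_322.gq_nonneg (hA.trans h)
  · have hpos : 0 < A + B := lt_of_le_of_ne (add_nonneg hA hB) (Ne.symm h0)
    set f : ℝ → ℝ := fun t => gq K (A + t * (A' - A)) (B + t * (B' - B)) with hf
    have hd : ∀ t : ℝ, 0 ≤ t → HasDerivAt f (Calc2_957.gA K (A + t * (A' - A)) (B + t * (B' - B)) *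
        (A' - A) + Calc2_957.gB K (A + t * (A' - A)) (B + t * (B' - B)) * (B' - B)) t := by
      intro t ht
      have e1 : HasFDerivAt (fun t : ℝ => A + t * (A' - A))
          (ContinuousLinearMap.toSpanSingleton ℝ (A' - A)) t := by
        have : HasDerivAt (fun t : ℝ => A + t * (A' - A)) (A' - A) t := by
          simpa using ((hasDerivAt_id t).mul_const (A' - A)).const_add A
        exact this.hasFDerivAt
      have e2 : HasFDerivAt (fun t : ℝ => B + t * (B' - B))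
          (ContinuousLinearMap.toSpanSingleton ℝ (B' - B)) t := by
        have : HasDerivAt (fun t : ℝ => B + t * (B' - B)) (B' - B) t := by
          simpa using ((hasDerivAt_id t).mul_const (B' - B)).const_add B
        exact this.hasFDerivAt
      have hne : (A + t * (A' - A)) + (B + t * (B' - B)) ≠ 0 := by
        have h1 := mul_nonneg ht (sub_nonneg.2 h)
        have h2 := mul_nonneg ht (sub_nonneg.2 h')
        linarith
      have e3 := (Calc2_957.hasFDerivAt_gq K e1 e2 hne).hasDerivAt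
      refine e3.congr_deriv ?_
      simp
    have hmono : MonotoneOn f (Set.Icc 0 1) := by
      refine monotoneOn_of_deriv_nonneg (convex_Icc 0 1)
        (fun t ht => (hd t ht.1).continuousAt.continuousWithinAt)
        (fun t ht => ?_) fun t ht => ?_
      · rw [interior_Icc] at ht
        exact (hd t ht.1.le).differentiableAt.differentiableWithinAt
      · rw [interior_Icc] at ht
        rw [(hd t ht.1.le).deriv]
        have h1 := mul_nonneg ht.1.le (sub_nonneg.2 h)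
        have h2 := mul_nonneg ht.1.le (sub_nonneg.2 h')
        exact add_nonneg (mul_nonneg (Calc2_957.gA_nonneg (by linarith) (by linarith))
          (sub_nonneg.2 h)) (mul_nonneg (Calc2_957.gB_nonneg (by linarith) (by linarith))
          (sub_nonneg.2 h'))
    have h1 := hmono (Set.left_mem_Icc.2 zero_le_one) (Set.right_mem_Icc.2 zero_le_one)
      zero_le_one
    simpa [hf] using h1

variable {N : ℕ}

theorem NN_mono {K : ℝ} {z z' : Fin N → ℂ} (h : ∀ j, (z j).re ^ 2 ≤ (z' j).re ^ 2)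
    (h' : ∀ j, (z j).im ^ 2 ≤ (z' j).im ^ 2) : NN K z ≤ NN K z' := by
  unfold NN
  exact Real.sqrt_le_sqrt (gq_mono (sum_nonneg fun j _ => sq_nonneg _)
    (sum_nonneg fun j _ => sq_nonneg _) (sum_le_sum fun j _ => h j) (sum_le_sum fun j _ => h' j))

theorem NN_sq (K : ℝ) (z : Fin N → ℂ) :
    NN K z ^ 2 = gq K (∑ j, (z j).re ^ 2) (∑ j, (z j).im ^ 2) :=
  Real.sq_sqrt (GlBas_322.gq_nonneg (sum_nonneg fun j _ => sq_nonneg _))

/-- comparison with the coordinates -/
theorem pg_le_NN (K K' : ℝ) (z : Fin N → ℂ) (j : Fin N) :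
    pg K (z j) ^ 2 ≤ (96 * K' ^ 2 + 97) * NN K' z ^ 2 := by
  have h1 : pg K (z j) ^ 2 ≤ (z j).re ^ 2 + (z j).im ^ 2 := by
    rw [Calc2_957.pg_sq]
    exact Calc2_957.gq_le (sq_nonneg _) (sq_nonneg _)
  have hA : 0 ≤ ∑ j, (z j).re ^ 2 := sum_nonneg fun j _ => sq_nonneg _
  have hB : 0 ≤ ∑ j, (z j).im ^ 2 := sum_nonneg fun j _ => sq_nonneg _
  have h2 : (z j).re ^ 2 ≤ ∑ j, (z j).re ^ 2 :=
    single_le_sum (f := fun j => (z j).re ^ 2) (fun j _ => sq_nonneg _) (mem_univ j)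
  have h3 : (z j).im ^ 2 ≤ ∑ j, (z j).im ^ 2 :=
    single_le_sum (f := fun j => (z j).im ^ 2) (fun j _ => sq_nonneg _) (mem_univ j)
  have h4 := Calc2_957.le_gq (K := K') (A := ∑ j, (z j).re ^ 2) (B := ∑ j, (z j).im ^ 2)
  have h5 := Calc2_957.le_gq' (K := K') hA hB
  rw [NN_sq]
  linarith

theorem NN_le_pg (K K' : ℝ) (z : Fin N → ℂ) :
    NN K' z ^ 2 ≤ (96 * K ^ 2 + 97) * ∑ j, pg K (z j) ^ 2 := by
  have hA : 0 ≤ ∑ j, (z j).re ^ 2 := sum_nonneg fun j _ => sq_nonneg _
  have hB : 0 ≤ ∑ j, (z j).im ^ 2 := sum_nonneg fun j _ => sq_nonneg _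
  rw [NN_sq]
  refine (Calc2_957.gq_le hA hB).trans ?_
  rw [← sum_add_distrib, mul_sum]
  refine sum_le_sum fun j _ => ?_
  rw [Calc2_957.pg_sq]
  have h4 := Calc2_957.le_gq (K := K) (A := (z j).re ^ 2) (B := (z j).im ^ 2)
  have h5 := Calc2_957.le_gq' (K := K) (sq_nonneg (z j).re) (sq_nonneg (z j).im)
  linarith

/-! ### the map -/

section main

variable (D : LD N) {X : ℝ → ℝ}

/-- the map -/
def Ps (X : ℝ → ℝ) (z : Fin N → ℂ) : Fin N → ℂ := fun j => (X (D.xr z j) : ℂ) * z j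

theorem Ps_smul (X : ℝ → ℝ) {r : ℝ} (hr : 0 < r) (z : Fin N → ℂ) :
    Ps D X (r • z) = r • Ps D X z := by
  funext j
  unfold Ps
  rw [GlBas_322.xr_smul D hr, Pi.smul_apply, Pi.smul_apply, Complex.real_smul, Complex.real_smul]
  ring

theorem xr_pos {z : Fin N → ℂ} {j : Fin N} (hj : z j ≠ 0) : 0 < D.xr z j := by
  unfold LD.xr
  exact div_pos (GlBas_322.pg_pos hj) (GlBas_322.NN_pos fun h => hj (by rw [h]; rfl))

theorem Ps_ne (hX : Prf X) {z : Fin N → ℂ} {j : Fin N} (hj : z j ≠ 0) : Ps D X z j ≠ 0 :=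
  mul_ne_zero (by exact_mod_cast (hX.pos _ (xr_pos D hj)).ne') hj

theorem Ps_iff (hX : Prf X) (z : Fin N → ℂ) (j : Fin N) : Ps D X z j = 0 ↔ z j = 0 := by
  constructor
  · intro h
    by_contra hj
    exact Ps_ne D hX hj h
  · intro h
    unfold Ps
    rw [h, mul_zero]

theorem Gx_Ps (hX : Prf X) (cB ga : ℝ) (z : Fin N → ℂ) :
    Gx D X cB ga z = Gx D (fun _ => 1) cB ga (Ps D X z) := by
  have hR : ∀ j, Rx D X z j = Rx D (fun _ => 1) (Ps D X z) j := by
    intro j
    unfold Rx Ps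
    rw [Complex.re_ofReal_mul, one_mul]
    by_cases hj : z j = 0
    · rw [hj]; simp
    · rw [← mul_zero (X (D.xr z j)), ← mul_max_of_nonneg _ _ (hX.pos _ (xr_pos D hj)).le]
      simp
  have hτ : ∀ j, (Ps D X z j).im / (Ps D X z j).re = (z j).im / (z j).re := by
    intro j
    unfold Ps
    by_cases hj : z j = 0
    · rw [hj]; simp
    · rw [Complex.re_ofReal_mul, Complex.im_ofReal_mul,
        mul_div_mul_left _ _ (hX.pos _ (xr_pos D hj)).ne']
  have hp : ∀ j, (X (D.xr z j) : ℂ) * pl ga (D.M j) (z j) =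
      ((1 : ℝ) : ℂ) * pl ga (D.M j) (Ps D X z j) := by
    intro j
    unfold Ps
    by_cases hj : z j = 0
    · rw [hj]; simp [GlBas_322.pl_zero]
    · rw [GlBas_322.pl_smul (hX.pos _ (xr_pos D hj)), Complex.ofReal_one, one_mul]
  have hB : ∀ e : Fin N × Fin N × ℕ, Bx D X e z = Bx D (fun _ => 1) e (Ps D X z) := by
    intro e
    unfold Bx
    rw [hR, hR, hτ, hτ]
  unfold Gx
  simp only [hB, hp]

theorem Ps_inj (hX : Prf X) {z z' : Fin N → ℂ} (hz : z ≠ 0) (hz' : z' ≠ 0)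
    (h : Ps D X z = Ps D X z') : z = z' := by
  have hN := GlBas_322.NN_pos (K := D.K1) hz
  have hN' := GlBas_322.NN_pos (K := D.K1) hz'
  -- `z j = 0 ↔ z' j = 0`
  have h0 : ∀ j, z j = 0 ↔ z' j = 0 := by
    intro j
    rw [← Ps_iff D hX, ← Ps_iff D hX z', h]
  wlog hμ : NN D.K1 z' ≤ NN D.K1 z generalizing z z' with H
  · exact (H hz' hz h.symm hN' hN (fun j => (h0 j).symm) (le_of_not_ge hμ)).symm
  set l : Fin N → ℝ := fun j => X (D.xr z j) / X (D.xr z' j) with hl
  have hzl : ∀ j, z j ≠ 0 → 0 < l j ∧ z' j = (l j : ℂ) * z j := by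
    intro j hj
    have hj' : z' j ≠ 0 := fun h1 => hj ((h0 j).2 h1)
    have h1 := hX.pos _ (xr_pos D hj)
    have h2 := hX.pos _ (xr_pos D hj')
    refine ⟨div_pos h1 h2, ?_⟩
    have h3 : (X (D.xr z j) : ℂ) * z j = (X (D.xr z' j) : ℂ) * z' j := congrFun h j
    have h4 : (X (D.xr z' j) : ℂ) ≠ 0 := by exact_mod_cast h2.ne'
    rw [hl]
    push_cast
    rw [div_mul_eq_mul_div, h3, mul_div_cancel_left₀ _ h4]
  set μ : ℝ := NN D.K1 z' / NN D.K1 z with hμd
  have hμ0 : 0 < μ := div_pos hN' hN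
  have hμ1 : μ ≤ 1 := (div_le_one hN).2 hμ
  have hx' : ∀ j, z j ≠ 0 → D.xr z' j = l j / μ * D.xr z j := by
    intro j hj
    obtain ⟨h1, h2⟩ := hzl j hj
    unfold LD.xr
    rw [h2, GlBas_322.pg_smul h1, hμd]
    field_simp
  have hle : ∀ j, z j ≠ 0 → μ < l j → l j ≤ 1 := by
    intro j hj h1
    have h2 : D.xr z j ≤ D.xr z' j := by
      rw [hx' j hj]
      have h3 : 1 ≤ l j / μ := (one_le_div hμ0).2 h1.le
      exact le_mul_of_one_le_left (xr_pos D hj).le h3
    have h3 := hX.mono (Set.mem_Ici.2 (xr_pos D hj).le)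
      (Set.mem_Ici.2 ((xr_pos D hj).le.trans h2)) h2
    have hj' : z' j ≠ 0 := fun h1 => hj ((h0 j).2 h1)
    exact (div_le_one (hX.pos _ (xr_pos D hj'))).2 h3
  have hge : ∀ j, z j ≠ 0 → l j ≤ μ → 1 ≤ l j := by
    intro j hj h1
    have h2 : D.xr z' j ≤ D.xr z j := by
      rw [hx' j hj]
      have h3 : l j / μ ≤ 1 := (div_le_one hμ0).2 h1
      exact mul_le_of_le_one_left (xr_pos D hj).le h3
    have hj' : z' j ≠ 0 := fun h1 => hj ((h0 j).2 h1)
    have h3 := hX.mono (Set.mem_Ici.2 (xr_pos D hj').le) (Set.mem_Ici.2 (xr_pos D hj).le) h2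
    exact (one_le_div (hX.pos _ (xr_pos D hj'))).2 h3
  rcases hμ1.lt_or_eq with hμ2 | hμ2
  · -- all `l j > μ`: contradiction
    exfalso
    have hall : ∀ j, z j ≠ 0 → μ < l j := by
      intro j hj
      by_contra h1
      push Not at h1
      have := hge j hj h1
      linarith
    have hne : (univ.filter fun j => z j ≠ 0).Nonempty := by
      obtain ⟨j, hj⟩ : ∃ j, z j ≠ 0 := by
        by_contra h1
        push Not at h1
        exact hz (funext h1)
      exact ⟨j, by simp [hj]⟩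
    obtain ⟨k, hk, hmin⟩ := Finset.exists_min_image _ l hne
    have hk' : z k ≠ 0 := by simpa using hk
    have hlk := (hzl k hk').1
    have h1 : NN D.K1 (l k • z) ≤ NN D.K1 z' := by
      have key : ∀ j, z j ≠ 0 → (l k) ^ 2 ≤ (l j) ^ 2 := fun j hj =>
        pow_le_pow_left₀ hlk.le (hmin j (by simp [hj])) 2
      refine NN_mono (fun j => ?_) fun j => ?_
      · by_cases hj : z j = 0
        · have h3 : (l k • z) j = 0 := by rw [Pi.smul_apply, hj, smul_zero]
          rw [h3, Complex.zero_re]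
          nlinarith [sq_nonneg (z' j).re]
        · rw [(hzl j hj).2, Pi.smul_apply, Complex.real_smul, Complex.re_ofReal_mul,
            Complex.re_ofReal_mul, mul_pow, mul_pow]
          exact mul_le_mul_of_nonneg_right (key j hj) (sq_nonneg _)
      · by_cases hj : z j = 0
        · have h3 : (l k • z) j = 0 := by rw [Pi.smul_apply, hj, smul_zero]
          rw [h3, Complex.zero_im]
          nlinarith [sq_nonneg (z' j).im]
        · rw [(hzl j hj).2, Pi.smul_apply, Complex.real_smul, Complex.im_ofReal_mul,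
            Complex.im_ofReal_mul, mul_pow, mul_pow]
          exact mul_le_mul_of_nonneg_right (key j hj) (sq_nonneg _)
    rw [GlBas_322.NN_smul hlk] at h1
    have h2 : μ * NN D.K1 z = NN D.K1 z' := by rw [hμd, div_mul_cancel₀ _ hN.ne']
    have h3 := mul_lt_mul_of_pos_right (hall k hk') hN
    linarith
  · funext j
    by_cases hj : z j = 0
    · rw [hj, (h0 j).1 hj]
    · have h1 : l j = 1 := by
        rcases lt_or_ge μ (l j) with h2 | h2
        · have := hle j hj h2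
          linarith
        · have := hge j hj h2
          linarith
      rw [(hzl j hj).2, h1, Complex.ofReal_one, one_mul]

/-- `x X(|x|)` -/
def gt (X : ℝ → ℝ) (x : ℝ) : ℝ := x * X |x|

theorem gt_cont (hX : Prf X) : Continuous (gt X) :=
  continuous_id.mul (hX.cont.comp continuous_abs)

theorem gt_strict (hX : Prf X) : StrictMono (gt X) := by
  refine strictMono_of_odd_strictMonoOn_nonneg (fun x => by unfold gt; rw [abs_neg]; ring) ?_
  intro x hx y hy h
  have hx0 : 0 ≤ x := hx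
  have hy0 : 0 < y := lt_of_le_of_lt hx0 h
  unfold gt
  rw [abs_of_nonneg hx0, abs_of_nonneg hy0.le]
  calc x * X x ≤ x * X y := mul_le_mul_of_nonneg_left (hX.mono hx hy h.le) hx0
    _ < y * X y := mul_lt_mul_of_pos_right h (hX.pos y hy0)

theorem gt_neg (X : ℝ → ℝ) (x : ℝ) : gt X (-x) = -gt X x := by
  unfold gt; rw [abs_neg]; ring

theorem gt_surj (hX : Prf X) : Function.Surjective (gt X) := by
  have h1 : Tendsto (gt X) atTop atTop := by
    have h2 : Tendsto (fun x : ℝ => x * X 1) atTop atTop :=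
      tendsto_id.atTop_mul_const (hX.pos 1 one_pos)
    refine tendsto_atTop_mono' atTop ?_ h2
    filter_upwards [eventually_ge_atTop (1 : ℝ)] with x hx
    unfold gt
    rw [abs_of_nonneg (by linarith)]
    exact mul_le_mul_of_nonneg_left (hX.mono (Set.mem_Ici.2 zero_le_one)
      (Set.mem_Ici.2 (by linarith)) hx) (by linarith)
  have h2 : Tendsto (gt X) atBot atBot := by
    have h3 : gt X = fun x => -gt X (-x) := by
      funext x; rw [gt_neg, neg_neg]
    rw [h3]
    exact tendsto_neg_atTop_atBot.comp (h1.comp tendsto_neg_atBot_atTop)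
  exact (gt_cont hX).surjective h1 h2

/-- the order isomorphism -/
def gi (hX : Prf X) : ℝ ≃o ℝ := (gt_strict hX).orderIsoOfSurjective _ (gt_surj hX)

theorem gi_apply (hX : Prf X) (x : ℝ) : gi hX x = gt X x := rfl

theorem gt_symm (hX : Prf X) (y : ℝ) : gt X ((gi hX).symm y) = y := (gi hX).apply_symm_apply y

theorem symm_gt (hX : Prf X) (y : ℝ) : (gi hX).symm (gt X y) = y := (gi hX).symm_apply_apply y

theorem symm_zero (hX : Prf X) : (gi hX).symm 0 = 0 := by
  have h1 : gt X 0 = 0 := by unfold gt; rw [zero_mul]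
  have h2 := symm_gt hX 0
  rwa [h1] at h2

theorem symm_nonneg (hX : Prf X) {y : ℝ} (hy : 0 ≤ y) : 0 ≤ (gi hX).symm y := by
  rw [← symm_zero hX]
  exact (gi hX).symm.monotone hy

theorem symm_pos (hX : Prf X) {y : ℝ} (hy : 0 < y) : 0 < (gi hX).symm y := by
  rw [← symm_zero hX]
  exact (gi hX).symm.strictMono hy

/-- the curve of candidates -/
def vc (hX : Prf X) (w : Fin N → ℂ) (ρ : ℝ) : Fin N → ℂ := fun j =>
  (((gi hX).symm (pg D.K (w j) / ρ) / pg D.K (w j) : ℝ) : ℂ) * w j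

theorem pg_vc (hX : Prf X) (w : Fin N → ℂ) {ρ : ℝ} (hρ : 0 < ρ) (j : Fin N) :
    pg D.K (vc D hX w ρ j) = (gi hX).symm (pg D.K (w j) / ρ) := by
  unfold vc
  by_cases hj : w j = 0
  · rw [hj, mul_zero, GlBas_322.pg_zero, zero_div, symm_zero]
  · have h1 : 0 < pg D.K (w j) := GlBas_322.pg_pos hj
    have h2 : 0 < (gi hX).symm (pg D.K (w j) / ρ) := symm_pos hX (div_pos h1 hρ)
    rw [GlBas_322.pg_smul (div_pos h2 h1), div_mul_cancel₀ _ h1.ne']

theorem vc_ne (hX : Prf X) {w : Fin N → ℂ} (hw : w ≠ 0) {ρ : ℝ} (hρ : 0 < ρ) :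
    vc D hX w ρ ≠ 0 := by
  obtain ⟨j, hj⟩ : ∃ j, w j ≠ 0 := by
    by_contra h1
    push Not at h1
    exact hw (funext h1)
  intro h
  have h1 := pg_vc D hX w hρ j
  rw [h, Pi.zero_apply, GlBas_322.pg_zero] at h1
  have h2 := symm_pos hX (div_pos (GlBas_322.pg_pos (K := D.K) hj) hρ)
  linarith

theorem cont_NN {z : Fin N → ℂ} (hz : z ≠ 0) (K : ℝ) : ContinuousAt (NN K) z := by
  unfold NN gq
  have h1 : ContinuousAt (fun z : Fin N → ℂ => ∑ j, (z j).re ^ 2) z :=
    (continuous_finset_sum _ fun j _ =>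
      (Complex.continuous_re.comp (continuous_apply j)).pow 2).continuousAt
  have h2 : ContinuousAt (fun z : Fin N → ℂ => ∑ j, (z j).im ^ 2) z :=
    (continuous_finset_sum _ fun j _ =>
      (Complex.continuous_im.comp (continuous_apply j)).pow 2).continuousAt
  have h3 : (3 * K ^ 2 + 3) * (∑ j, (z j).re ^ 2 + ∑ j, (z j).im ^ 2) ^ 2 ≠ 0 := by
    have h4 : ∑ j, (z j).re ^ 2 + ∑ j, (z j).im ^ 2 ≠ 0 := by
      intro h5
      apply hz
      have hA : 0 ≤ ∑ j, (z j).re ^ 2 := sum_nonneg fun j _ => sq_nonneg _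
      have hB : 0 ≤ ∑ j, (z j).im ^ 2 := sum_nonneg fun j _ => sq_nonneg _
      have hA' : ∑ j, (z j).re ^ 2 = 0 := by linarith
      have hB' : ∑ j, (z j).im ^ 2 = 0 := by linarith
      funext j
      have a1 := (sum_eq_zero_iff_of_nonneg fun j (_ : j ∈ univ) => sq_nonneg (z j).re).1 hA' j
        (mem_univ _)
      have a2 := (sum_eq_zero_iff_of_nonneg fun j (_ : j ∈ univ) => sq_nonneg (z j).im).1 hB' j
        (mem_univ _)
      exact Complex.ext (by simpa using a1) (by simpa using a2)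
    positivity
  exact (h1.add (((continuousAt_const.max (h2.sub (continuousAt_const.mul h1))).pow 3).div
    (continuousAt_const.mul ((h1.add h2).pow 2)) h3)).sqrt

theorem cont_vc (hX : Prf X) (w : Fin N → ℂ) {ρ : ℝ} (hρ : 0 < ρ) :
    ContinuousAt (vc D hX w) ρ := by
  have h0 : Continuous (gi hX).symm := (gi hX).symm.continuous
  rw [continuousAt_pi]
  intro j
  unfold vc
  have h1 : ContinuousAt (fun ρ : ℝ => pg D.K (w j) / ρ) ρ :=
    continuousAt_const.div continuousAt_id hρ.ne'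
  have h2 : ContinuousAt (fun ρ : ℝ => (gi hX).symm (pg D.K (w j) / ρ)) ρ :=
    ContinuousAt.comp (g := (gi hX).symm) h0.continuousAt h1
  exact (Complex.continuous_ofReal.continuousAt.comp (h2.div_const _)).mul continuousAt_const

theorem Ps_surj (hX : Prf X) {w : Fin N → ℂ} (hw : w ≠ 0) : ∃ z, z ≠ 0 ∧ Ps D X z = w := by
  set f : ℝ → ℝ := fun ρ => NN D.K1 (vc D hX w ρ) with hf
  have hcont : ContinuousOn f (Set.Ioi 0) := fun ρ hρ =>
    (ContinuousAt.comp (g := NN D.K1) (cont_NN (vc_ne D hX hw hρ) _)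
      (cont_vc D hX w hρ)).continuousWithinAt
  obtain ⟨j, hj⟩ : ∃ j, w j ≠ 0 := by
    by_contra h1
    push Not at h1
    exact hw (funext h1)
  -- a point with `f ≥ 1`
  obtain ⟨ρ1, hρ1, hf1⟩ : ∃ ρ ∈ Set.Ioi (0 : ℝ), 1 ≤ f ρ := by
    set C : ℝ := √(96 * D.K1 ^ 2 + 97) with hC
    have hC0 : 0 < C := Real.sqrt_pos.2 (by positivity)
    have hCsq : C ^ 2 = 96 * D.K1 ^ 2 + 97 := Real.sq_sqrt (by positivity)
    have hg : 0 < gt X C := by
      unfold gt
      rw [abs_of_pos hC0]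
      exact mul_pos hC0 (hX.pos _ hC0)
    have hp : 0 < pg D.K (w j) := GlBas_322.pg_pos hj
    have hρ : 0 < pg D.K (w j) / gt X C := div_pos hp hg
    refine ⟨pg D.K (w j) / gt X C, hρ, ?_⟩
    have h1 := pg_le_NN D.K D.K1 (vc D hX w (pg D.K (w j) / gt X C)) j
    rw [pg_vc D hX w hρ j, div_div_cancel₀ hp.ne', symm_gt, ← hCsq] at h1
    have h2 : 1 ≤ NN D.K1 (vc D hX w (pg D.K (w j) / gt X C)) ^ 2 := by
      have h3 : C ^ 2 * 1 ≤ C ^ 2 * NN D.K1 (vc D hX w (pg D.K (w j) / gt X C)) ^ 2 := by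
        rw [mul_one]; exact h1
      exact le_of_mul_le_mul_left h3 (by positivity)
    have h3 := GlBas_322.NN_nonneg D.K1 (vc D hX w (pg D.K (w j) / gt X C))
    show 1 ≤ NN D.K1 _
    nlinarith
  -- a point with `f ≤ 1`
  obtain ⟨ρ2, hρ2, hf2⟩ : ∃ ρ ∈ Set.Ioi (0 : ℝ), f ρ ≤ 1 := by
    set C : ℝ := (96 * D.K ^ 2 + 97) * (N + 1) with hC
    have hC1 : 1 ≤ C := by
      have h1 : (0 : ℝ) ≤ N := N.cast_nonneg
      have h2 : (1 : ℝ) ≤ 96 * D.K ^ 2 + 97 := by nlinarith [sq_nonneg D.K]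
      rw [hC]
      nlinarith
    have hC0 : 0 < C := by linarith
    set ε : ℝ := 1 / C with hε
    have hε0 : 0 < ε := by positivity
    have hε1 : ε ≤ 1 := by rw [hε, div_le_one hC0]; exact hC1
    have hg : 0 < gt X ε := by
      unfold gt
      rw [abs_of_pos hε0]
      exact mul_pos hε0 (hX.pos _ hε0)
    set S : ℝ := ∑ j, pg D.K (w j) + 1 with hS
    have hS0 : 0 < S := by
      have : 0 ≤ ∑ j, pg D.K (w j) := sum_nonneg fun j _ => GlBas_322.pg_nonneg _ _
      linarith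
    have hρ : 0 < S / gt X ε := div_pos hS0 hg
    refine ⟨S / gt X ε, hρ, ?_⟩
    have hx : ∀ j, 0 ≤ (gi hX).symm (pg D.K (w j) / (S / gt X ε)) ∧
        (gi hX).symm (pg D.K (w j) / (S / gt X ε)) ≤ ε := by
      intro j
      have hp := GlBas_322.pg_nonneg D.K (w j)
      refine ⟨symm_nonneg hX (div_nonneg hp hρ.le), ?_⟩
      have h0 : pg D.K (w j) / (S / gt X ε) ≤ gt X ε := by
        rw [div_le_iff₀ hρ, mul_div_cancel₀ _ hg.ne']
        have h1 : pg D.K (w j) ≤ ∑ j, pg D.K (w j) :=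
          single_le_sum (f := fun j => pg D.K (w j)) (fun j _ => GlBas_322.pg_nonneg _ _)
            (mem_univ j)
        linarith
      have h1 := (gi hX).symm.monotone h0
      rwa [symm_gt] at h1
    have h1 := NN_le_pg D.K D.K1 (vc D hX w (S / gt X ε))
    have h2 : ∑ j, pg D.K (vc D hX w (S / gt X ε) j) ^ 2 ≤ N * ε := by
      have h3 : ∀ j ∈ (univ : Finset (Fin N)),
          pg D.K (vc D hX w (S / gt X ε) j) ^ 2 ≤ ε := by
        intro j _
        rw [pg_vc D hX w hρ j]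
        obtain ⟨h4, h5⟩ := hx j
        nlinarith
      have := sum_le_card_nsmul univ _ _ h3
      simpa using this
    have h3 : NN D.K1 (vc D hX w (S / gt X ε)) ^ 2 ≤ 1 := by
      refine h1.trans ((mul_le_mul_of_nonneg_left h2 (by positivity)).trans ?_)
      have h4 : (96 * D.K ^ 2 + 97) * (N * ε) = ((96 * D.K ^ 2 + 97) * N) / C := by
        rw [hε]; ring
      rw [h4, div_le_one hC0, hC]
      nlinarith [sq_nonneg D.K]
    show NN D.K1 _ ≤ 1
    have h4 := GlBas_322.NN_nonneg D.K1 (vc D hX w (S / gt X ε))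
    nlinarith
  obtain ⟨ρ, hρ, hfρ⟩ : ∃ ρ ∈ Set.Ioi (0 : ℝ), f ρ = 1 := by
    have h1 : IsPreconnected (Set.Ioi (0 : ℝ)) := isPreconnected_Ioi
    obtain ⟨ρ, h2, h3⟩ := h1.intermediate_value hρ2 hρ1 hcont ⟨hf2, hf1⟩
    exact ⟨ρ, h2, h3⟩
  have hρ0 : 0 < ρ := hρ
  refine ⟨ρ • vc D hX w ρ, smul_ne_zero hρ0.ne' (vc_ne D hX hw hρ0), ?_⟩
  rw [Ps_smul D X hρ0]
  funext j
  have hN1 : NN D.K1 (vc D hX w ρ) = 1 := hfρ
  have hx : D.xr (vc D hX w ρ) j = (gi hX).symm (pg D.K (w j) / ρ) := by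
    unfold LD.xr
    rw [pg_vc D hX w hρ0 j, hN1, div_one]
  rw [Pi.smul_apply]
  unfold Ps
  rw [hx]
  by_cases hj0 : w j = 0
  · unfold vc
    rw [hj0]
    simp
  · have hp : 0 < pg D.K (w j) := GlBas_322.pg_pos hj0
    have h1 : 0 ≤ (gi hX).symm (pg D.K (w j) / ρ) := symm_nonneg hX (by positivity)
    have h2 := gt_symm hX (pg D.K (w j) / ρ)
    unfold gt at h2
    rw [abs_of_nonneg h1] at h2
    unfold vc
    rw [Complex.real_smul, ← mul_assoc, ← mul_assoc, ← Complex.ofReal_mul, ← Complex.ofReal_mul]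
    have h3 : ρ * X ((gi hX).symm (pg D.K (w j) / ρ)) *
        ((gi hX).symm (pg D.K (w j) / ρ) / pg D.K (w j)) = 1 := by
      have h4 : ρ * X ((gi hX).symm (pg D.K (w j) / ρ)) *
        ((gi hX).symm (pg D.K (w j) / ρ) / pg D.K (w j)) =
          ρ * ((gi hX).symm (pg D.K (w j) / ρ) * X ((gi hX).symm (pg D.K (w j) / ρ))) /
            pg D.K (w j) := by ring
      rw [h4, h2]
      field_simp
    rw [h3, Complex.ofReal_one, one_mul]

theorem sph_ne (s : Sph (Fin N)) : (s : Fin N → ℂ) ≠ 0 := by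
  intro h
  have h1 := s.2
  have h2 : nsq (s : Fin N → ℂ) = 1 := h1
  rw [h, show nsq (0 : Fin N → ℂ) = 0 from nsq_eq_zero.2 rfl] at h2
  exact zero_ne_one h2

theorem cont_pg (K : ℝ) : Continuous (pg K) := by
  rw [continuous_iff_continuousAt]
  intro z
  by_cases hz : z = 0
  · subst hz
    have h1 : Tendsto (fun z : ℂ => √(z.re ^ 2 + z.im ^ 2)) (𝓝 0) (𝓝 0) := by
      have : Continuous fun z : ℂ => √(z.re ^ 2 + z.im ^ 2) := by fun_prop
      have h := this.tendsto 0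
      simpa using h
    unfold ContinuousAt
    rw [GlBas_322.pg_zero]
    refine squeeze_zero (fun z => GlBas_322.pg_nonneg _ _) (fun z => ?_) h1
    exact Real.sqrt_le_sqrt (Calc2_957.gq_le (sq_nonneg _) (sq_nonneg _))
  · exact (Calc2_957.hasFDerivAt_pg K hz).continuousAt

theorem cont_Ps (hX : Prf X) : Continuous fun s : Sph (Fin N) => Ps D X s := by
  rw [continuous_iff_continuousAt]
  intro s
  rw [continuousAt_pi]
  intro j
  have hs := sph_ne s
  have h1 : ContinuousAt (fun z : Fin N → ℂ => D.xr z j) (s : Fin N → ℂ) := by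
    unfold LD.xr
    exact ((cont_pg _).continuousAt.comp (continuous_apply j).continuousAt).div (cont_NN hs _)
      (GlBas_322.NN_pos hs).ne'
  have h2 : ContinuousAt (fun z : Fin N → ℂ => Ps D X z j) (s : Fin N → ℂ) := by
    unfold Ps
    exact (Complex.continuous_ofReal.continuousAt.comp
      (ContinuousAt.comp (g := X) hX.cont.continuousAt h1)).mul (continuous_apply j).continuousAt
  exact ContinuousAt.comp (g := fun z : Fin N → ℂ => Ps D X z j)
    (f := fun s : Sph (Fin N) => (s : Fin N → ℂ)) h2 continuous_subtype_val.continuousAt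

theorem isCompact_sph : IsCompact {z : Fin N → ℂ | nsq z = 1} := by
  refine Metric.isCompact_of_isClosed_isBounded ?_ ?_
  · have : Continuous (nsq (ι := Fin N)) := by unfold nsq; fun_prop
    exact isClosed_eq this continuous_const
  · rw [isBounded_iff_forall_norm_le]
    refine ⟨1, fun z hz => ?_⟩
    rw [pi_norm_le_iff_of_nonneg zero_le_one]
    intro j
    have h1 : ‖z j‖ ^ 2 ≤ nsq z :=
      single_le_sum (f := fun j => ‖z j‖ ^ 2) (fun j _ => sq_nonneg _) (mem_univ j)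
    have h2 : nsq z = 1 := hz
    rw [h2] at h1
    nlinarith [norm_nonneg (z j)]

/-- **HOMEO** -/
theorem homeoP : HomeoP D := by
  intro X hX cB ga
  have hne : ∀ s : Sph (Fin N), Ps D X s ≠ 0 := by
    intro s h
    apply sph_ne s
    funext j
    exact (Ps_iff D hX _ j).1 (congrFun h j)
  have hc0 : ∀ s : Sph (Fin N), 0 < Real.sqrt (nsq (Ps D X s)) := fun s =>
    Real.sqrt_pos.2 (nsq_pos (hne s))
  let k : Sph (Fin N) → Sph (Fin N) := fun s =>
    ⟨(Real.sqrt (nsq (Ps D X s)))⁻¹ • Ps D X s, nsq_unit (hne s)⟩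
  have hk : Continuous k := by
    refine Continuous.subtype_mk ?_ _
    have h1 : Continuous (nsq (ι := Fin N)) := by unfold nsq; fun_prop
    have h2 : Continuous fun s : Sph (Fin N) => Real.sqrt (nsq (Ps D X s)) :=
      Real.continuous_sqrt.comp (h1.comp (cont_Ps D hX))
    exact (h2.inv₀ fun s => (hc0 s).ne').smul (cont_Ps D hX)
  have hinj : Function.Injective k := by
    intro s s' h
    have h1 : (Real.sqrt (nsq (Ps D X s)))⁻¹ • Ps D X s =
        (Real.sqrt (nsq (Ps D X s')))⁻¹ • Ps D X s' := congrArg Subtype.val h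
    rw [← Ps_smul D X (inv_pos.2 (hc0 s)), ← Ps_smul D X (inv_pos.2 (hc0 s'))] at h1
    have h2 := Ps_inj D hX (smul_ne_zero (inv_pos.2 (hc0 s)).ne' (sph_ne s))
      (smul_ne_zero (inv_pos.2 (hc0 s')).ne' (sph_ne s')) h1
    have h3 := congrArg nsq h2
    have e1 : nsq (s : Fin N → ℂ) = 1 := s.2
    have e2 : nsq (s' : Fin N → ℂ) = 1 := s'.2
    rw [nsq_smul, nsq_smul, e1, e2, mul_one, mul_one] at h3
    have h4 : (Real.sqrt (nsq (Ps D X s)))⁻¹ = (Real.sqrt (nsq (Ps D X s')))⁻¹ :=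
      (sq_eq_sq₀ (inv_pos.2 (hc0 s)).le (inv_pos.2 (hc0 s')).le).1 h3
    rw [h4] at h2
    exact Subtype.ext (smul_right_injective _ (inv_pos.2 (hc0 s')).ne' h2)
  have hsurj : Function.Surjective k := by
    intro w
    obtain ⟨z, hz, hzw⟩ := Ps_surj D hX (sph_ne w)
    have hc : 0 < Real.sqrt (nsq z) := Real.sqrt_pos.2 (nsq_pos hz)
    refine ⟨⟨(Real.sqrt (nsq z))⁻¹ • z, nsq_unit hz⟩, Subtype.ext ?_⟩
    show (Real.sqrt (nsq (Ps D X ((Real.sqrt (nsq z))⁻¹ • z))))⁻¹ •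
      Ps D X ((Real.sqrt (nsq z))⁻¹ • z) = (w : Fin N → ℂ)
    have e2 : nsq (w : Fin N → ℂ) = 1 := w.2
    rw [Ps_smul D X (inv_pos.2 hc), hzw, nsq_smul, e2, mul_one, Real.sqrt_sq (inv_pos.2 hc).le,
      inv_inv, smul_smul, mul_inv_cancel₀ hc.ne', one_smul]
  have hcomp : CompactSpace (Sph (Fin N)) := isCompact_iff_compactSpace.1 isCompact_sph
  let K : Sph (Fin N) ≃ₜ Sph (Fin N) :=
    Continuous.homeoOfEquivCompactToT2 (f := Equiv.ofBijective k ⟨hinj, hsurj⟩) hk
  refine ⟨K, fun s => ?_⟩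
  show Gx D X cB ga s = 0 ↔ Gx D (fun _ => 1) cB ga (k s : Fin N → ℂ) = 0
  show _ ↔ Gx D (fun _ => 1) cB ga ((Real.sqrt (nsq (Ps D X s)))⁻¹ • Ps D X s) = 0
  rw [GlBas_322.Gx_smul D _ _ _ (inv_pos.2 (hc0 s)), Gx_Ps D hX,
    smul_eq_zero_iff_right (inv_pos.2 (hc0 s)).ne']

end main

end Crest.Agent.R267.GlHomeo_322
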