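import Crest.Agent.R267.GlueDefs_322
import Crest.Agent.R267.HmE_951

/-!
# Row 267 (helper128), leaf GLUE-OPEN: `OpenP` of `GlueDefs_322`

Stability of the link under `C¹`-small perturbations of a degree `1` homogeneous function which is
regular at its zeros.
-/

set_option autoImplicit false

noncomputable section

open Set Filter Topology Metric
open Crest.Agent.R267.Cone_808 Crest.Agent.R267.Hm_951

namespace Crest.Agent.R267.GlOpen_128

section lin

variable {E : Type*} [NormedAddCommGroup E] [NormedSpace ℝ E]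

theorem surj_of_im {L : E →L[ℝ] ℂ} {v w : E} (h : (L w * (starRingEnd ℂ) (L v)).im ≠ 0) :
    Function.Surjective L := by
  intro b
  set A := L v with hA
  set B := L w with hB
  have h1 : (B * (starRingEnd ℂ) A).im = B.im * A.re - B.re * A.im := by
    simp [Complex.mul_im]; ring
  rw [h1] at h
  refine ⟨((b.re * B.im - b.im * B.re) / (B.im * A.re - B.re * A.im)) • v +
    ((b.im * A.re - b.re * A.im) / (B.im * A.re - B.re * A.im)) • w, ?_⟩
  rw [map_add, map_smul, map_smul, ← hA, ← hB]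
  apply Complex.ext
  · simp only [Complex.add_re, Complex.real_smul, Complex.mul_re, Complex.ofReal_re,
      Complex.ofReal_im, zero_mul, sub_zero]
    field_simp
    ring
  · simp only [Complex.add_im, Complex.real_smul, Complex.mul_im, Complex.ofReal_re,
      Complex.ofReal_im, zero_mul, add_zero]
    field_simp
    ring

theorem exists_im {L : E →L[ℝ] ℂ} (h : Function.Surjective L) :
    ∃ v w : E, (L w * (starRingEnd ℂ) (L v)).im ≠ 0 := by
  obtain ⟨v, hv⟩ := h 1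
  obtain ⟨w, hw⟩ := h Complex.I
  exact ⟨v, w, by simp [hv, hw]⟩

end lin

theorem openP : GlueDefs_322.OpenP := by
  intro N F hhom hC hc hdc hreg
  -- good parameters near `0`
  have key : ∀ᶠ η : ℝ in 𝓝 0, ∀ p ∈ (Icc (0 : ℝ) 1 ×ˢ sphere (0 : Fin N → ℂ) 1), 0 ≤ η →
      ((1 - p.1) • F 0 p.2 + p.1 • F η p.2 ≠ 0 ∨ Function.Surjective
        ((1 - p.1) • fderiv ℝ (F 0) p.2 + p.1 • fderiv ℝ (F η) p.2)) := by
    refine IsCompact.eventually_forall_of_forall_eventually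
      (isCompact_Icc.prod (isCompact_sphere _ _)) ?_
    rintro ⟨t, z⟩ ⟨ht, hz⟩
    have hz0 : z ≠ 0 := by
      rintro rfl
      have : ‖(0 : Fin N → ℂ)‖ = 1 := mem_sphere_zero_iff_norm.1 hz
      rw [norm_zero] at this
      exact zero_ne_one this
    let S : Set (ℝ × ℝ × (Fin N → ℂ)) := {q | 0 ≤ q.1 ∧ q.2.2 ≠ 0}
    have hmem : ((0 : ℝ), (t, z)) ∈ S := ⟨le_rfl, hz0⟩
    have hmap : MapsTo (fun q : ℝ × ℝ × (Fin N → ℂ) => (q.1, q.2.2)) S (Ici 0 ×ˢ {0}ᶜ) :=
      fun q hq => ⟨hq.1, hq.2⟩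
    have hmap0 : MapsTo (fun q : ℝ × ℝ × (Fin N → ℂ) => ((0 : ℝ), q.2.2)) S (Ici 0 ×ˢ {0}ᶜ) :=
      fun q hq => ⟨le_rfl (a := (0 : ℝ)), hq.2⟩
    have hc1 : ContinuousOn (fun q : ℝ × ℝ × (Fin N → ℂ) => F q.1 q.2.2) S :=
      hc.comp (by fun_prop) hmap
    have hc0 : ContinuousOn (fun q : ℝ × ℝ × (Fin N → ℂ) => F 0 q.2.2) S :=
      hc.comp (f := fun q : ℝ × ℝ × (Fin N → ℂ) => ((0 : ℝ), q.2.2)) (by fun_prop) hmap0
    have hd1 : ContinuousOn (fun q : ℝ × ℝ × (Fin N → ℂ) => fderiv ℝ (F q.1) q.2.2) S :=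
      hdc.comp (by fun_prop) hmap
    have hd0 : ContinuousOn (fun q : ℝ × ℝ × (Fin N → ℂ) => fderiv ℝ (F 0) q.2.2) S :=
      hdc.comp (f := fun q : ℝ × ℝ × (Fin N → ℂ) => ((0 : ℝ), q.2.2)) (by fun_prop) hmap0
    have hΦ : ContinuousOn (fun q : ℝ × ℝ × (Fin N → ℂ) =>
        (1 - q.2.1) • F 0 q.2.2 + q.2.1 • F q.1 q.2.2) S :=
      ((by fun_prop : Continuous fun q : ℝ × ℝ × (Fin N → ℂ) => 1 - q.2.1).continuousOn.smul
        hc0).add ((by fun_prop : Continuous fun q : ℝ × ℝ × (Fin N → ℂ) => q.2.1).continuousOn.smul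
        hc1)
    have hΨ : ContinuousOn (fun q : ℝ × ℝ × (Fin N → ℂ) =>
        (1 - q.2.1) • fderiv ℝ (F 0) q.2.2 + q.2.1 • fderiv ℝ (F q.1) q.2.2) S :=
      ((by fun_prop : Continuous fun q : ℝ × ℝ × (Fin N → ℂ) => 1 - q.2.1).continuousOn.smul
        hd0).add ((by fun_prop : Continuous fun q : ℝ × ℝ × (Fin N → ℂ) => q.2.1).continuousOn.smul
        hd1)
    have hne : ∀ᶠ q : ℝ × ℝ × (Fin N → ℂ) in 𝓝 ((0 : ℝ), (t, z)), q.2.2 ≠ 0 :=
      (continuous_snd.comp continuous_snd).continuousAt.eventually_ne hz0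
    by_cases h0 : F 0 z = 0
    · obtain ⟨v, w, hvw⟩ := exists_im (hreg z hz0 h0)
      have h1 : ContinuousOn (fun q : ℝ × ℝ × (Fin N → ℂ) =>
          ((((1 - q.2.1) • fderiv ℝ (F 0) q.2.2 + q.2.1 • fderiv ℝ (F q.1) q.2.2) w) *
            (starRingEnd ℂ) (((1 - q.2.1) • fderiv ℝ (F 0) q.2.2 +
              q.2.1 • fderiv ℝ (F q.1) q.2.2) v)).im) S :=
        Complex.continuous_im.comp_continuousOn ((hΨ.clm_apply continuousOn_const).mul
          (Complex.continuous_conj.comp_continuousOn (hΨ.clm_apply continuousOn_const)))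
      have h2 : (1 - t) • fderiv ℝ (F 0) z + t • fderiv ℝ (F 0) z = fderiv ℝ (F 0) z := by
        ext1 y
        show (1 - t) • fderiv ℝ (F 0) z y + t • fderiv ℝ (F 0) z y = fderiv ℝ (F 0) z y
        rw [← add_smul, sub_add_cancel, one_smul]
      have h4 : ((((1 - t) • fderiv ℝ (F 0) z + t • fderiv ℝ (F 0) z) w) *
            (starRingEnd ℂ) (((1 - t) • fderiv ℝ (F 0) z + t • fderiv ℝ (F 0) z) v)).im ≠ 0 := by
        rw [h2]; exact hvw
      have h3 := (h1 _ hmem).eventually_ne h4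
      rw [eventually_nhdsWithin_iff] at h3
      filter_upwards [h3, hne] with q hq hq2 hq1
      exact Or.inr (surj_of_im (hq ⟨hq1, hq2⟩))
    · have h2 : (1 - t) • F 0 z + t • F 0 z = F 0 z := by
        rw [← add_smul, sub_add_cancel, one_smul]
      have h4 : (1 - t) • F 0 z + t • F 0 z ≠ 0 := by
        rw [h2]; exact h0
      have h3 := (hΦ _ hmem).eventually_ne h4
      rw [eventually_nhdsWithin_iff] at h3
      filter_upwards [h3, hne] with q hq hq2 hq1
      exact Or.inl (hq ⟨hq1, hq2⟩)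
  obtain ⟨ε, hε, hkey⟩ := Metric.eventually_nhds_iff.1 key
  have hη : (0 : ℝ) < ε / 2 := by positivity
  have hk := hkey (y := ε / 2) (by
    rw [Real.dist_eq, sub_zero, abs_of_pos hη]; linarith)
  refine ⟨ε / 2, hη, ?_⟩
  set η := ε / 2
  have hH : HPath0 (fun p : ℝ × (Fin N → ℂ) => (1 - p.1) • F 0 p.2 + p.1 • F η p.2) := by
    refine HPath0.of_slices isOpen_univ (subset_univ _) ?_ ?_ ?_
    · have h1 : ContDiffOn ℝ 2 (fun p : ℝ × (Fin N → ℂ) => F 0 p.2) (univ ×ˢ {0}ᶜ) :=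
        (hC 0 le_rfl).comp contDiff_snd.contDiffOn fun p hp => hp.2
      have h2 : ContDiffOn ℝ 2 (fun p : ℝ × (Fin N → ℂ) => F η p.2) (univ ×ˢ {0}ᶜ) :=
        (hC η hη.le).comp contDiff_snd.contDiffOn fun p hp => hp.2
      exact ((contDiff_const.sub contDiff_fst).contDiffOn.smul h1).add
        (contDiff_fst.contDiffOn.smul h2)
    · intro t _
      refine ⟨fun _ => 1, fun _ => one_pos, fun s x => ?_⟩
      have hact : act (fun _ : Fin N => (1 : ℝ)) s x = Real.exp s • x := by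
        funext i
        simp [act]
      show (1 - t) • F 0 (act (fun _ => 1) s x) + t • F η (act (fun _ => 1) s x) =
        Real.exp s • ((1 - t) • F 0 x + t • F η x)
      rw [hact, hhom 0 le_rfl _ (Real.exp_pos s), hhom η hη.le _ (Real.exp_pos s), smul_add,
        smul_comm (1 - t), smul_comm t]
    · intro t ht x hx h0
      have hr : 0 < ‖x‖⁻¹ := inv_pos.2 (norm_pos_iff.2 hx)
      have hyS : ‖x‖⁻¹ • x ∈ sphere (0 : Fin N → ℂ) 1 := by
        rw [mem_sphere_zero_iff_norm, norm_smul, norm_inv, norm_norm]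
        exact inv_mul_cancel₀ (norm_ne_zero_iff.2 hx)
      have hy0 : ‖x‖⁻¹ • x ≠ 0 := smul_ne_zero hr.ne' hx
      have h0' : (1 - t) • F 0 x + t • F η x = 0 := h0
      have hy : (1 - t) • F 0 (‖x‖⁻¹ • x) + t • F η (‖x‖⁻¹ • x) = 0 := by
        rw [hhom 0 le_rfl _ hr, hhom η hη.le _ hr, smul_comm (1 - t), smul_comm t, ← smul_add,
          h0', smul_zero]
      have hs := (hk (t, ‖x‖⁻¹ • x) ⟨ht, hyS⟩ hη.le).resolve_left (not_not.2 hy)
      simp only at hs
      -- the derivative of the slice at the point of the sphere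
      have dF : ∀ η, 0 ≤ η → ∀ z : Fin N → ℂ, z ≠ 0 →
          HasFDerivAt (F η) (fderiv ℝ (F η) z) z := fun η hη z hz =>
        (((hC η hη).contDiffAt (isOpen_compl_singleton.mem_nhds hz)).differentiableAt
          (by norm_num)).hasFDerivAt
      have hG : HasFDerivAt (fun z : Fin N → ℂ => (1 - t) • F 0 z + t • F η z)
          ((1 - t) • fderiv ℝ (F 0) (‖x‖⁻¹ • x) + t • fderiv ℝ (F η) (‖x‖⁻¹ • x))
          (‖x‖⁻¹ • x) :=
        ((dF 0 le_rfl _ hy0).const_smul (1 - t)).add ((dF η hη.le _ hy0).const_smul t)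
      have hm : HasFDerivAt (fun z : Fin N → ℂ => ‖x‖⁻¹ • z)
          (‖x‖⁻¹ • ContinuousLinearMap.id ℝ (Fin N → ℂ)) x :=
        (hasFDerivAt_id x).const_smul ‖x‖⁻¹
      have hG2 := (hG.comp x hm).const_smul (‖x‖⁻¹)⁻¹
      have hfun : ((‖x‖⁻¹)⁻¹ • ((fun z : Fin N → ℂ => (1 - t) • F 0 z + t • F η z) ∘
          fun z => ‖x‖⁻¹ • z)) = fun z => (1 - t) • F 0 z + t • F η z := by
        funext z
        show (‖x‖⁻¹)⁻¹ • ((1 - t) • F 0 (‖x‖⁻¹ • z) + t • F η (‖x‖⁻¹ • z)) = _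
        rw [hhom 0 le_rfl _ hr, hhom η hη.le _ hr, smul_comm (1 - t), smul_comm t, ← smul_add,
          smul_smul, inv_mul_cancel₀ hr.ne', one_smul]
      rw [hfun] at hG2
      show Function.Surjective (fderiv ℝ (fun z => (1 - t) • F 0 z + t • F η z) x)
      rw [hG2.fderiv]
      intro b
      obtain ⟨y, hy⟩ := hs b
      refine ⟨y, ?_⟩
      rw [← hy]
      simp only [smul_apply, ContinuousLinearMap.comp_apply,
        ContinuousLinearMap.id_apply, map_smul]
      rw [smul_smul, inv_mul_cancel₀ hr.ne', one_smul]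
  have hl := hH.link
  simpa using hl

end Crest.Agent.R267.GlOpen_128
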