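import Crest.Agent.R267.Gl2_322
import Crest.Agent.R267.GlHomeo_322
import Crest.Agent.R267.GlC2b_796
import Crest.Agent.R267.GlCont_649
import Crest.Agent.R267.GlOpen_128
import Crest.Agent.R267.Smooth_957
import Crest.Agent.R267.K1_996
import Crest.Agent.R267.Fin407_322

/-!
# Row 267 (helper322): GL2 from `K2Prop`, and S0407 from `K2Prop` and `T3aP`
-/

set_option autoImplicit false

namespace Crest.Agent.R267.Gl2Fin_322

open Crest.Agent.R267.T3aDefs_957 Crest.Agent.R267.GlueDefs_322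

/-- **GL2** -/
theorem gl2 {N : ℕ} (D : LD N) (h : D.K2Prop) : GL2P D :=
  Gl2_322.gl2 D (Smooth_957.smooth D) (K1_996.k1 D (Smooth_957.smooth D)) h
    (GlHomeo_322.homeoP D) (GlC2b_796.c2P D) (GlCont_649.contP D) GlOpen_128.openP

/-- **S0407 from K2 and T3a** -/
theorem s0407 (h2 : ∀ n, 1 ≤ n → ∀ D : LD (n + 3), D.K2Prop)
    (h3 : ∀ n, 1 ≤ n → ∀ D : LD (n + 3), T3aP D) : Asm_808.S0407Stmt :=
  Fin407_322.s0407 (fun n hn D => gl2 D (h2 n hn D)) h3

end Crest.Agent.R267.Gl2Fin_322
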