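import Crest.Agent.R267.GlLn_322
import Crest.Agent.R267.Ang_739

/-!
# Row 267 (helper322): GLUE-LINE, the couplings and the planar terms
-/

set_option autoImplicit false
set_option linter.unusedSectionVars false

noncomputable section

open Finset Filter Topology
open Crest.Agent.R267.T3aDefs_957 Crest.Agent.R267.GlueDefs_322 Crest.Agent.R267.Calc_957
open Crest.Agent.R267.GlBas_322 Crest.Agent.R267.LemL_951 Crest.Agent.R267.GlPl_322

namespace Crest.Agent.R267.GlCp_322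

/-! ### derivatives along lines -/

section

variable {E F : Type*} [NormedAddCommGroup E] [NormedSpace ℝ E] [NormedAddCommGroup F]
  [NormedSpace ℝ F]

theorem line_deriv {f : E → F} {p : E} (hd : DifferentiableAt ℝ f p) (v : E) :
    HasDerivAt (fun s : ℝ => f (p + s • v)) (fderiv ℝ f p v) 0 := by
  have h1 : HasDerivAt (fun s : ℝ => p + s • v) v 0 := by
    simpa using ((hasDerivAt_id (0 : ℝ)).smul_const v).const_add p
  have h2 : HasFDerivAt f (fderiv ℝ f p) (p + (0 : ℝ) • v) := by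
    rw [zero_smul, add_zero]; exact hd.hasFDerivAt
  exact h2.comp_hasDerivAt (0 : ℝ) h1

theorem fderiv_line {f : E → F} {p : E} (hd : DifferentiableAt ℝ f p) {v : E} {d : F}
    (h : HasDerivAt (fun s : ℝ => f (p + s • v)) d 0) : fderiv ℝ f p v = d :=
  (line_deriv hd v).unique h

theorem fderiv_line_const {f : E → F} {p : E} (hd : DifferentiableAt ℝ f p) {v : E}
    (h : ∀ᶠ s : ℝ in 𝓝 0, f (p + s • v) = f p) : fderiv ℝ f p v = 0 :=
  fderiv_line hd ((hasDerivAt_const (0 : ℝ) (f p)).congr_of_eventuallyEq h)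

end

/-! ### windows -/

theorem rho_nonneg (K : ℝ) (z : ℂ) : 0 ≤ rho K z :=
  mul_nonneg (pow_nonneg (pg_nonneg _ _) 7) (le_max_left _ _)

theorem rho_smul {K r : ℝ} (hr : 0 < r) (z : ℂ) : rho K ((r : ℂ) * z) = r ^ 8 * rho K z := by
  unfold rho
  rw [pg_smul hr, Complex.re_ofReal_mul]
  have : max 0 (r * z.re) = r * max 0 z.re := by
    rw [mul_max_of_nonneg _ _ hr.le, mul_zero]
  rw [this]
  ring

theorem rho_of_nonpos {K : ℝ} {z : ℂ} (h : z.re ≤ 0) : rho K z = 0 := by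
  unfold rho
  rw [max_eq_left h, mul_zero]

theorem rho_window {K : ℝ} {z : ℂ} (h : 0 < z.re) (hK : 0 ≤ K) (h1 : |z.im| ≤ K * z.re) :
    rho K z = z.re ^ 8 := by
  unfold rho
  rw [pg_window hK (by rwa [abs_of_pos h]), abs_of_pos h, max_eq_right h.le]
  ring

theorem win_nonneg (m M : ℕ) (τ : ℝ) : 0 ≤ win m M τ :=
  mul_nonneg (st_nonneg _) (by have := st_le_one ((τ - (8 * M - 1)) / 2); linarith)

/-- the window on the lobes -/
theorem win_zone {m M l : ℕ} (hl : l < M) {τ : ℝ} (h : |τ - sg l| < 3 / 2) :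
    win m M τ = if m ≤ l then 1 else 0 := by
  unfold win
  rw [abs_lt] at h
  have h1 : (l : ℝ) + 1 ≤ M := by exact_mod_cast hl
  unfold sg at h
  rw [st_of_le (by linarith : (τ - (8 * M - 1)) / 2 ≤ 0), sub_zero, mul_one]
  split_ifs with h2
  · have h3 : (m : ℝ) ≤ l := by exact_mod_cast h2
    exact st_of_ge (by linarith)
  · have h3 : (l : ℝ) + 1 ≤ m := by exact_mod_cast not_le.1 h2
    exact st_of_le (by linarith)

theorem win_far {m M : ℕ} {τ : ℝ} (h : 8 * (M : ℝ) + 1 ≤ |τ|) : win m M τ = 0 := by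
  unfold win
  rcases le_total 0 τ with h0 | h0
  · rw [abs_of_nonneg h0] at h
    rw [st_of_ge (by linarith : 1 ≤ (τ - (8 * M - 1)) / 2), sub_self, mul_zero]
  · rw [abs_of_nonpos h0] at h
    have h1 : (0 : ℝ) ≤ m := m.cast_nonneg
    have h2 : (0 : ℝ) ≤ M := M.cast_nonneg
    rw [st_of_le (by linarith : (τ - (8 * m - 1)) / 2 ≤ 0), zero_mul]

/-- window functions on the plane -/
structure Wn (K : ℝ) (M : ℕ) (w : ℂ → ℝ) : Prop where
  hom : ∀ r : ℝ, 0 < r → ∀ z, w ((r : ℂ) * z) = w z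
  nn : ∀ z, 0 ≤ w z
  far : ∀ z : ℂ, z ≠ 0 → z.re ≤ 0 → ∀ᶠ y in 𝓝 z, rho K y * w y = 0
  loc : ∀ z : ℂ, 0 < z.re → ∀ l < M, |z.im / z.re - sg l| < 3 / 2 →
    ∀ᶠ h : ℝ in 𝓝 0, w (z + h • Complex.I) = w z

theorem im_line (z : ℂ) (h : ℝ) : (z + h • Complex.I).im = z.im + h := by simp

theorem re_line (z : ℂ) (h : ℝ) : (z + h • Complex.I).re = z.re := by simp

theorem zone_line {z : ℂ} (hz : 0 < z.re) {c r : ℝ} (h : |z.im / z.re - c| < r) :
    ∀ᶠ h : ℝ in 𝓝 0, |(z + h • Complex.I).im / (z + h • Complex.I).re - c| < r := by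
  have h1 : Continuous fun h : ℝ => |(z + h • Complex.I).im / (z + h • Complex.I).re - c| := by
    simp only [im_line, re_line]
    fun_prop
  have h2 := h1.tendsto 0
  rw [zero_smul, add_zero] at h2
  exact h2.eventually_lt_const h

theorem wn_win (K : ℝ) (m M : ℕ) : Wn K M (fun z => win m M (z.im / z.re)) where
  hom := fun r hr z => by
    rw [Complex.re_ofReal_mul, Complex.im_ofReal_mul, mul_div_mul_left _ _ hr.ne']
  nn := fun z => win_nonneg _ _ _
  far := fun z hz hre => by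
    rcases hre.lt_or_eq with h | h
    · have h1 : ∀ᶠ y : ℂ in 𝓝 z, y.re < 0 :=
        Complex.continuous_re.continuousAt.eventually_lt_const h
      filter_upwards [h1] with y hy
      rw [rho_of_nonpos hy.le, zero_mul]
    · have him : z.im ≠ 0 := fun h0 => hz (Complex.ext h h0)
      have h1 : ∀ᶠ y : ℂ in 𝓝 z, (8 * (M : ℝ) + 1) * y.re < |y.im| := by
        have c1 : Continuous fun y : ℂ => (8 * (M : ℝ) + 1) * y.re - |y.im| := by fun_prop
        have := c1.continuousAt (x := z)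
        have h2 : (8 * (M : ℝ) + 1) * z.re - |z.im| < 0 := by
          rw [h, mul_zero, zero_sub]
          exact neg_neg_of_pos (abs_pos.2 him)
        filter_upwards [this.eventually_lt_const h2] with y hy
        linarith
      filter_upwards [h1] with y hy
      rcases le_or_gt y.re 0 with h2 | h2
      · rw [rho_of_nonpos h2, zero_mul]
      · rw [win_far, mul_zero]
        rw [abs_div, abs_of_pos h2, le_div_iff₀ h2]
        exact hy.le
  loc := fun z hz l hl h => by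
    filter_upwards [zone_line hz h] with s hs
    rw [win_zone hl hs, win_zone hl h]

/-! ### the harmonic coupling -/

/-- harmonic coupling with general windows -/
def J8 (K : ℝ) (w w' : ℂ → ℝ) (p : ℂ × ℂ) : ℝ :=
  rho K p.1 * rho K p.2 / (rho K p.1 + rho K p.2) * (w p.1 * w' p.2)

theorem J8_swap (K : ℝ) (w w' : ℂ → ℝ) (x y : ℂ) : J8 K w w' (x, y) = J8 K w' w (y, x) := by
  unfold J8
  rw [mul_comm (rho K x), add_comm (rho K x), mul_comm (w x)]

section J8

variable {K : ℝ} {M M' : ℕ} {w w' : ℂ → ℝ}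

theorem J8_rad (hw : Wn K M w) (x y : ℂ) :
    HasDerivAt (fun s : ℝ => J8 K w w' ((x, y) + s • (x, 0)))
      (8 * (rho K x * rho K y ^ 2 / (rho K x + rho K y) ^ 2 * (w x * w' y))) 0 := by
  set X := rho K x with hX
  set Y := rho K y with hY
  have hX0 : 0 ≤ X := rho_nonneg _ _
  have hY0 : 0 ≤ Y := rho_nonneg _ _
  have e1 : (fun s : ℝ => J8 K w w' ((x, y) + s • (x, 0))) =ᶠ[𝓝 0]
      fun s => ((1 + s) ^ 8 * X) * Y / ((1 + s) ^ 8 * X + Y) * (w x * w' y) := by
    filter_upwards [lt_mem_nhds (by norm_num : (-1 : ℝ) < 0)] with s hs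
    have h1 : (0 : ℝ) < 1 + s := by linarith
    have h2 : (x, y) + s • ((x, 0) : ℂ × ℂ) = (((1 + s : ℝ) : ℂ) * x, y) := by
      ext1
      · show x + s • x = _
        rw [Complex.real_smul]
        push_cast
        ring
      · show y + s • (0 : ℂ) = y
        rw [smul_zero, add_zero]
    rw [h2]
    unfold J8
    rw [rho_smul h1, hw.hom _ h1]
  refine HasDerivAt.congr_of_eventuallyEq ?_ e1
  by_cases h0 : X + Y = 0
  · have hX1 : X = 0 := by linarith
    have hY1 : Y = 0 := by linarith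
    rw [hX1, hY1]
    simpa using hasDerivAt_const (0 : ℝ) (0 : ℝ)
  · have h1 : HasDerivAt (fun s : ℝ => (1 + s) ^ 8 * X) (8 * X) 0 := by
      have h2 := (((hasDerivAt_id (0 : ℝ)).const_add 1).pow 8).mul_const X
      refine h2.congr_deriv ?_
      simp
    have h3 : (1 + (0 : ℝ)) ^ 8 * X + Y ≠ 0 := by rwa [add_zero, one_pow, one_mul]
    have h2 := ((h1.mul_const Y).div (h1.add_const Y) h3).mul_const (w x * w' y)
    refine h2.congr_deriv ?_
    rw [add_zero, one_pow, one_mul]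
    field_simp
    ring

theorem J8_vert (hw : Wn K M w) (hK : 8 * (M : ℝ) + 2 ≤ K) {x : ℂ} (y : ℂ) (hx : 0 < x.re) {l : ℕ}
    (hl : l < M) (h : |x.im / x.re - sg l| < 3 / 2) :
    ∀ᶠ s : ℝ in 𝓝 0, J8 K w w' ((x, y) + s • (Complex.I, 0)) = J8 K w w' (x, y) := by
  have hM : (l : ℝ) + 1 ≤ M := by exact_mod_cast hl
  have hK0 : (0 : ℝ) ≤ K := by
    have : (0 : ℝ) ≤ M := M.cast_nonneg
    linarith
  have hwin : ∀ u : ℂ, 0 < u.re → |u.im / u.re - sg l| < 3 / 2 → |u.im| ≤ K * u.re := by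
    intro u hu h1
    have h2 : |u.im / u.re| ≤ K := by
      rw [abs_lt] at h1
      unfold sg at h1
      rw [abs_le]
      have : (0 : ℝ) ≤ l := l.cast_nonneg
      constructor <;> linarith
    rwa [abs_div, abs_of_pos hu, div_le_iff₀ hu] at h2
  filter_upwards [hw.loc x hx l hl h, zone_line hx h] with s h1 h2
  have h3 : (x, y) + s • ((Complex.I, 0) : ℂ × ℂ) = (x + s • Complex.I, y) := by
    ext1
    · rfl
    · show y + s • (0 : ℂ) = y
      rw [smul_zero, add_zero]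
  rw [h3]
  unfold J8
  have h4 : 0 < (x + s • Complex.I).re := by rwa [re_line]
  rw [h1, rho_window h4 hK0 (hwin _ h4 h2), rho_window hx hK0 (hwin _ hx h), re_line]

theorem J8_flat (hw : Wn K M w) {x : ℂ} (y v : ℂ) (hx0 : x ≠ 0) (hx : x.re ≤ 0) :
    ∀ᶠ s : ℝ in 𝓝 0, J8 K w w' ((x, y) + s • (v, 0)) = J8 K w w' (x, y) := by
  have h1 : Tendsto (fun s : ℝ => x + s • v) (𝓝 0) (𝓝 x) := by
    have : Continuous fun s : ℝ => x + s • v := by fun_prop
    simpa using this.tendsto 0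
  have h0 := (hw.far x hx0 hx).self_of_nhds
  have key : ∀ u : ℂ, rho K u * w u = 0 → J8 K w w' (u, y) = 0 := by
    intro u hu
    unfold J8
    calc rho K u * rho K y / (rho K u + rho K y) * (w u * w' y)
        = (rho K u * w u) * (rho K y / (rho K u + rho K y) * w' y) := by ring
      _ = 0 := by rw [hu, zero_mul]
  filter_upwards [h1.eventually (hw.far x hx0 hx)] with s hs
  have h3 : (x, y) + s • ((v, 0) : ℂ × ℂ) = (x + s • v, y) := by
    ext1
    · rfl
    · show y + s • (0 : ℂ) = y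
      rw [smul_zero, add_zero]
  rw [h3, key _ hs, key _ h0]

end J8

/-! ### the planar terms -/

section Planar

variable {K ga : ℝ} {M : ℕ}

/-- derivative of `q / |q|` -/
theorem hasDerivAt_unit {q : ℝ → ℂ} {q' : ℂ} (h : HasDerivAt q q' 0) (h0 : q 0 ≠ 0) :
    HasDerivAt (fun s => ((‖q s‖⁻¹ : ℝ) : ℂ) * q s)
      ((((q 0).re * q'.im - (q 0).im * q'.re) / ‖q 0‖ ^ 3 : ℝ) *
        (⟨-(q 0).im, (q 0).re⟩ : ℂ)) 0 := by
  have hn : 0 < ‖q 0‖ := norm_pos_iff.2 h0
  have h1 : HasDerivAt (fun s => (q s).re) q'.re 0 := by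
    exact Complex.reCLM.hasFDerivAt.comp_hasDerivAt (0 : ℝ) h
  have h2 : HasDerivAt (fun s => (q s).im) q'.im 0 := by
    exact Complex.imCLM.hasFDerivAt.comp_hasDerivAt (0 : ℝ) h
  have hsq : ∀ u : ℂ, ‖u‖ = Real.sqrt (u.re ^ 2 + u.im ^ 2) := by
    intro u
    rw [Complex.norm_eq_sqrt_sq_add_sq]
  have hn2 : ‖q 0‖ ^ 2 = (q 0).re ^ 2 + (q 0).im ^ 2 := by
    rw [hsq, Real.sq_sqrt (by positivity)]
  have h3 : HasDerivAt (fun s => ‖q s‖) (((q 0).re * q'.re + (q 0).im * q'.im) / ‖q 0‖) 0 := by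
    have h4 := ((h1.fun_pow 2).fun_add (h2.fun_pow 2)).sqrt (by
      rw [← hn2]; positivity)
    have h5 : (fun s => ‖q s‖) = fun s => Real.sqrt ((q s).re ^ 2 + (q s).im ^ 2) :=
      funext fun s => hsq _
    rw [h5]
    refine h4.congr_deriv ?_
    rw [← hsq]
    field_simp
    ring
  have h4 := (h3.fun_inv hn.ne').ofReal_comp.fun_mul h
  refine h4.congr_deriv ?_
  have hn3 : ‖q 0‖ ≠ 0 := hn.ne'
  apply Complex.ext
  · simp only [Complex.add_re, Complex.mul_re, Complex.ofReal_re, Complex.ofReal_im, zero_mul,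
      sub_zero]
    field_simp
    rw [hn2]
    ring
  · simp only [Complex.add_im, Complex.mul_im, Complex.ofReal_re, Complex.ofReal_im, zero_mul,
      add_zero]
    field_simp
    rw [hn2]
    ring

/-- the planar term of the line -/
def Pt (K ga : ℝ) (M : ℕ) (t : ℝ) (z : ℂ) : ℂ := (1 - t) • PS K ga M z + t • P8 K ga M z

/-- the factor -/
def mf (K ga : ℝ) (M : ℕ) (t : ℝ) (z : ℂ) : ℝ :=
  (1 - t) * (pg K z ^ 8 / ‖pl ga M z‖) + t * pg K z ^ 7

theorem Pt_eq (t : ℝ) (z : ℂ) : Pt K ga M t z = (mf K ga M t z : ℂ) * pl ga M z := by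
  unfold Pt mf PS P8
  rw [Complex.real_smul, Complex.real_smul]
  push_cast
  ring

theorem mf_pos (hg : 0 < ga) (hg1 : ga ≤ 1 / 8) {t : ℝ} (ht : 0 ≤ t) (ht1 : t ≤ 1) {z : ℂ}
    (hz : z ≠ 0) : 0 < mf K ga M t z := by
  have h1 : 0 < pg K z := pg_pos hz
  have h2 : 0 < ‖pl ga M z‖ := norm_pos_iff.2 (pl_ne hg hg1 hz)
  unfold mf
  have h3 : 0 < pg K z ^ 8 / ‖pl ga M z‖ := by positivity
  have h4 : 0 < pg K z ^ 7 := by positivity
  rcases ht.lt_or_eq with h | h
  · exact add_pos_of_nonneg_of_pos (mul_nonneg (by linarith) h3.le) (mul_pos h h4)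
  · rw [← h]
    simpa using h3

theorem Pt_ne (hg : 0 < ga) (hg1 : ga ≤ 1 / 8) {t : ℝ} (ht : 0 ≤ t) (ht1 : t ≤ 1) {z : ℂ}
    (hz : z ≠ 0) : Pt K ga M t z ≠ 0 := by
  rw [Pt_eq]
  exact mul_ne_zero (by exact_mod_cast (mf_pos hg hg1 ht ht1 hz).ne') (pl_ne hg hg1 hz)

theorem PS_smul {r : ℝ} (hr : 0 < r) (z : ℂ) :
    PS K ga M ((r : ℂ) * z) = (r ^ 8 : ℝ) • PS K ga M z := by
  unfold PS
  rw [pg_smul hr, pl_smul hr, norm_mul, Complex.norm_real, Real.norm_of_nonneg hr.le,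
    Complex.real_smul]
  have h1 : (r * pg K z) ^ 8 / (r * ‖pl ga M z‖) * r = r ^ 8 * (pg K z ^ 8 / ‖pl ga M z‖) := by
    by_cases h0 : ‖pl ga M z‖ = 0
    · rw [h0]; simp
    · field_simp
  rw [← mul_assoc, ← Complex.ofReal_mul, h1]
  push_cast
  ring

theorem P8_smul {r : ℝ} (hr : 0 < r) (z : ℂ) :
    P8 K ga M ((r : ℂ) * z) = (r ^ 8 : ℝ) • P8 K ga M z := by
  unfold P8
  rw [pg_smul hr, pl_smul hr, Complex.real_smul]
  push_cast
  ring

theorem Pt_PH (t : ℝ) : PH (8 : ℝ) (Pt K ga M t) := by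
  intro r hr z
  unfold Pt
  rw [PS_smul hr, P8_smul hr, show r ^ (8 : ℝ) = r ^ 8 by exact_mod_cast Real.rpow_natCast r 8,
    smul_add, smul_comm (1 - t), smul_comm t]

/-- plate side: `Pt` is a submersion -/
theorem Pt_surj (hg : 0 < ga) (hg1 : ga ≤ 1 / 8) {t : ℝ} (ht : 0 ≤ t) (ht1 : t ≤ 1) {z : ℂ}
    (hz : z ≠ 0) (hre : z.re ≤ 0) (hd : DifferentiableAt ℝ (Pt K ga M t) z) :
    Function.Surjective (fderiv ℝ (Pt K ga M t) z) := by
  -- `pl` is linear near `z`
  set ℓ : ℂ → ℂ := fun w => -((2 - ga : ℝ) : ℂ) * w.re - Complex.I * w.im with hℓ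
  have hev : pl ga M =ᶠ[𝓝 z] ℓ := by
    rcases hre.lt_or_eq with h | h
    · filter_upwards [Complex.continuous_re.continuousAt.eventually_lt_const h] with y hy
      exact pl_of_nonpos hy.le
    · have him : z.im ≠ 0 := fun h0 => hz (Complex.ext h h0)
      have c1 : Continuous fun y : ℂ => (8 * (M : ℝ) + 1) * y.re - |y.im| := by fun_prop
      have h2 : (8 * (M : ℝ) + 1) * z.re - |z.im| < 0 := by
        rw [h, mul_zero, zero_sub]
        exact neg_neg_of_pos (abs_pos.2 him)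
      filter_upwards [c1.continuousAt.eventually_lt_const h2] with y hy
      exact pl_of_far (Or.inl (by linarith))
  -- along `s ↦ z + s • (I * z)`
  have hline : Tendsto (fun s : ℝ => z + s • (Complex.I * z)) (𝓝 0) (𝓝 z) := by
    have : Continuous fun s : ℝ => z + s • (Complex.I * z) := by fun_prop
    simpa using this.tendsto 0
  have h1 := line_deriv hd (Complex.I * z)
  set B := fderiv ℝ (Pt K ga M t) z (Complex.I * z) with hB
  have hℓd : HasDerivAt (fun s : ℝ => ℓ (z + s • (Complex.I * z))) (ℓ (Complex.I * z)) 0 := by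
    have e : (fun s : ℝ => ℓ (z + s • (Complex.I * z))) = fun s : ℝ => ℓ z + s • ℓ (Complex.I * z) := by
      funext s
      rw [hℓ]
      simp only [Complex.add_re, Complex.add_im, Complex.real_smul, Complex.re_ofReal_mul,
        Complex.im_ofReal_mul]
      push_cast
      ring
    rw [e]
    simpa using ((hasDerivAt_id (0 : ℝ)).smul_const (ℓ (Complex.I * z))).const_add (ℓ z)
  have hzero : ∀ᶠ s : ℝ in 𝓝 0, ((ℓ (z + s • (Complex.I * z))).re *
      (Pt K ga M t (z + s • (Complex.I * z))).im - (ℓ (z + s • (Complex.I * z))).im *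
      (Pt K ga M t (z + s • (Complex.I * z))).re) = 0 := by
    filter_upwards [hline.eventually hev] with s hs
    rw [Pt_eq, ← hs, Complex.re_ofReal_mul, Complex.im_ofReal_mul]
    ring
  have hre' : ∀ {q : ℝ → ℂ} {q' : ℂ}, HasDerivAt q q' 0 → HasDerivAt (fun s => (q s).re) q'.re 0 :=
    fun h => Complex.reCLM.hasFDerivAt.comp_hasDerivAt (0 : ℝ) h
  have him' : ∀ {q : ℝ → ℂ} {q' : ℂ}, HasDerivAt q q' 0 → HasDerivAt (fun s => (q s).im) q'.im 0 :=
    fun h => Complex.imCLM.hasFDerivAt.comp_hasDerivAt (0 : ℝ) h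
  have h2 := ((hre' hℓd).fun_mul (him' h1)).fun_sub ((him' hℓd).fun_mul (hre' h1))
  have h3 := h2.unique ((hasDerivAt_const (0 : ℝ) (0 : ℝ)).congr_of_eventuallyEq hzero)
  simp only [zero_smul, add_zero] at h3
  have hPz : Pt K ga M t z = (mf K ga M t z : ℂ) * ℓ z := by rw [Pt_eq, hev.self_of_nhds]
  have hm := mf_pos (K := K) (M := M) hg hg1 ht ht1 hz
  set m := mf K ga M t z with hmd
  have hz2 : 0 < z.re ^ 2 + z.im ^ 2 := by
    by_contra h
    push Not at h
    apply hz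
    exact Complex.ext (by nlinarith [sq_nonneg z.re, sq_nonneg z.im] : z.re = 0)
      (by nlinarith [sq_nonneg z.re, sq_nonneg z.im] : z.im = 0)
  refine Ang_739.surj_of_im (A := (8 : ℝ) • Pt K ga M t z) (B := B) ?_ ((Pt_PH t).euler hd) hB.symm
  have e1 : (ℓ z).re = -(2 - ga) * z.re := by rw [hℓ]; simp
  have e2 : (ℓ z).im = -z.im := by rw [hℓ]; simp
  have e3 : (ℓ (Complex.I * z)).re = (2 - ga) * z.im := by rw [hℓ]; simp; ring
  have e4 : (ℓ (Complex.I * z)).im = -z.re := by rw [hℓ]; simp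
  have hkey : (ℓ z).re * B.im - (ℓ z).im * B.re = m * ((2 - ga) * (z.re ^ 2 + z.im ^ 2)) := by
    rw [hPz, Complex.re_ofReal_mul, Complex.im_ofReal_mul, e1, e2, e3, e4] at h3
    rw [e1, e2]
    linarith
  have : (B * (starRingEnd ℂ) ((8 : ℝ) • Pt K ga M t z)).im =
      8 * m * ((ℓ z).re * B.im - (ℓ z).im * B.re) := by
    rw [hPz]
    simp only [Complex.real_smul, map_mul, Complex.conj_ofReal, Complex.mul_im, Complex.mul_re,
      Complex.ofReal_re, Complex.ofReal_im, Complex.conj_re, Complex.conj_im]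
    ring
  rw [this, hkey]
  have h5 : 0 < 2 - ga := by linarith
  positivity

/-- the vertical derivative of `Pt` in the zone -/
theorem Pt_good (hg : 0 < ga) (hg1 : ga ≤ 1 / 8) (hK : 8 * (M : ℝ) + 2 ≤ K) {t : ℝ} (ht : 0 ≤ t)
    (ht1 : t ≤ 1) {z : ℂ} (hz : 0 < z.re) {l : ℕ} (hl : l < M)
    (h : |z.im / z.re - sg l| < 3 / 2) (hX : 0 ≤ -(1 - ga) + Af (z.im / z.re - sg l))
    (hd : DifferentiableAt ℝ (Pt K ga M t) z) :
    Good (fderiv ℝ (Pt K ga M t) z Complex.I) (Pt K ga M t z) ∧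
      ((fderiv ℝ (Pt K ga M t) z Complex.I).re = 0 → 0 < (Pt K ga M t z).re) := by
  have hK0 : (0 : ℝ) ≤ K := by
    have : (0 : ℝ) ≤ M := M.cast_nonneg
    linarith
  have hM : (l : ℝ) + 1 ≤ M := by exact_mod_cast hl
  set s := z.re with hs
  set τ := z.im / s with hτ
  set v := τ - sg l with hv
  have hpgw : ∀ u : ℂ, 0 < u.re → |u.im / u.re - sg l| < 3 / 2 → pg K u = u.re := by
    intro u hu h1
    have h2 : |u.im / u.re| ≤ K := by
      rw [abs_lt] at h1
      unfold sg at h1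
      rw [abs_le]
      have : (0 : ℝ) ≤ l := l.cast_nonneg
      constructor <;> linarith
    rw [abs_div, abs_of_pos hu, div_le_iff₀ hu] at h2
    rw [pg_window hK0 (by rwa [abs_of_pos hu]), abs_of_pos hu]
  set q : ℝ → ℂ := fun h => pv ga M (τ + h / s) with hq
  have hq0 : q 0 = pv ga M τ := by rw [hq]; simp
  have hqne : q 0 ≠ 0 := by rw [hq0]; exact pv_ne hg hg1 τ
  have hqd : HasDerivAt q (((1 / s : ℝ) : ℂ) * pvd M τ) 0 := by
    have h1 : HasDerivAt (fun h : ℝ => τ + h / s) (1 / s) 0 :=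
      ((hasDerivAt_id (0 : ℝ)).div_const s).const_add τ
    have h2 : HasDerivAt (pv ga M) (pvd M τ) ((fun h : ℝ => τ + h / s) 0) := by
      simpa using hasDerivAt_pv ga M τ
    have h3 := HasDerivAt.scomp (0 : ℝ) h2 h1
    rw [Complex.real_smul] at h3
    exact h3
  have hcell : pv ga M τ = ((-(1 - ga) + Af v : ℝ) : ℂ) + Complex.I * ((Bf v : ℝ) : ℂ) :=
    pv_cell hl (by linarith)
  have hcelld : pvd M τ = ((Afd v : ℝ) : ℂ) + Complex.I * ((Bfd v : ℝ) : ℂ) :=
    pvd_cell hl (by linarith)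
  have hZ := zn hg hg1 h.le hX
  set X := -(1 - ga) + Af v with hXd
  set Y := Bf v with hYd
  have hq0re : (q 0).re = X := by rw [hq0, hcell]; simp
  have hq0im : (q 0).im = Y := by rw [hq0, hcell]; simp
  have hd're : (((1 / s : ℝ) : ℂ) * pvd M τ).re = Afd v / s := by
    rw [hcelld, Complex.re_ofReal_mul]
    simp
    ring
  have hd'im : (((1 / s : ℝ) : ℂ) * pvd M τ).im = Bfd v / s := by
    rw [hcelld, Complex.im_ofReal_mul]
    simp
    ring
  have hr : 0 < ‖q 0‖ := norm_pos_iff.2 hqne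
  set r := ‖q 0‖ with hrd
  have hU := hasDerivAt_unit hqd hqne
  rw [hq0re, hq0im, hd're, hd'im, ← hrd] at hU
  -- the function along the vertical line
  have hev : (fun h : ℝ => Pt K ga M t (z + h • Complex.I)) =ᶠ[𝓝 0]
      fun h => (((1 - t) * s ^ 8 : ℝ) : ℂ) * (((‖q h‖⁻¹ : ℝ) : ℂ) * q h) +
        ((t * s ^ 8 : ℝ) : ℂ) * q h := by
    filter_upwards [zone_line hz h] with x hx
    have h4 : 0 < (z + x • Complex.I).re := by rwa [re_line]
    have h5 := hpgw _ h4 hx
    have h6 : pl ga M (z + x • Complex.I) = (s : ℂ) * q x := by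
      rw [pl_of_pos h4, re_line, im_line, hq]
      simp only
      congr 2
      rw [hτ]
      ring
    rw [Pt_eq, h6]
    unfold mf
    rw [h5, h6, re_line, norm_mul, Complex.norm_real, Real.norm_of_nonneg hz.le, ← hs]
    push_cast
    have h7 : (s : ℂ) ≠ 0 := by exact_mod_cast hz.ne'
    have h8 : ((‖q x‖ : ℝ) : ℂ) ≠ 0 := by
      have : q x ≠ 0 := pv_ne hg hg1 _
      exact_mod_cast (norm_pos_iff.2 this).ne'
    field_simp
  have hD := (hU.const_mul ((((1 - t) * s ^ 8 : ℝ) : ℂ))).fun_add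
    (hqd.const_mul (((t * s ^ 8 : ℝ) : ℂ)))
  have hfd := fderiv_line hd (hD.congr_of_eventuallyEq hev)
  have hval : Pt K ga M t z = ((s ^ 8 * ((1 - t) / r + t) : ℝ) : ℂ) * ⟨X, Y⟩ := by
    have h9 := hev.self_of_nhds
    simp only [zero_smul, add_zero] at h9
    rw [h9, ← hrd]
    have h10 : q 0 = ⟨X, Y⟩ := Complex.ext hq0re hq0im
    rw [h10]
    push_cast
    ring
  refine good_zn (s := s ^ 7) (k := s ^ 8 * ((1 - t) / r + t)) (r := r ^ 3) hZ (by positivity)
    ht ht1 (by positivity) ?_ ?_ hval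
  · have h11 : 0 < (1 - t) / r + t := by
      rcases ht.lt_or_eq with h12 | h12
      · have : 0 ≤ (1 - t) / r := div_nonneg (by linarith) hr.le
        linarith
      · rw [← h12]
        simp only [sub_zero, add_zero]
        positivity
    positivity
  · rw [hfd]
    have hs' : s ≠ 0 := hz.ne'
    have hr' : r ≠ 0 := hr.ne'
    apply Complex.ext
    · simp only [Complex.add_re, Complex.re_ofReal_mul, hd're]
      field_simp
    · simp only [Complex.add_im, Complex.im_ofReal_mul, hd'im]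
      field_simp

/-- upper bound of the real part in the zone -/
theorem Pt_le (hg : 0 < ga) (hg1 : ga ≤ 1 / 8) {t : ℝ} (ht : 0 ≤ t)
    (ht1 : t ≤ 1) {z : ℂ} (hz : 0 < z.re) (hpg : pg K z = z.re) :
    (Pt K ga M t z).re ≤ ((1 - t) + t * ga) * z.re ^ 8 := by
  have h0 : pl ga M z ≠ 0 := pl_ne hg hg1 (fun h => by rw [h] at hz; simp at hz)
  have hn : 0 < ‖pl ga M z‖ := norm_pos_iff.2 h0
  have h1 : (pl ga M z).re ≤ ‖pl ga M z‖ := (le_abs_self _).trans (Complex.abs_re_le_norm _)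
  have h2 : (pl ga M z).re ≤ ga * z.re := by
    rw [pl_of_pos hz, Complex.re_ofReal_mul, mul_comm ga]
    refine mul_le_mul_of_nonneg_left ?_ hz.le
    rcases cases_tau M (z.im / z.re) with h | ⟨l, hl, h⟩ | h
    · rw [pv_low (by linarith)]
      simp
    · rw [pv_cell hl h]
      have := Af_le_one (z.im / z.re - sg l)
      simp
      linarith
    · rw [pv_high (by linarith)]
      simp
  rw [Pt_eq, Complex.re_ofReal_mul]
  unfold mf
  rw [hpg]
  have h3 : z.re ^ 8 / ‖pl ga M z‖ * (pl ga M z).re ≤ z.re ^ 8 := by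
    rw [div_mul_eq_mul_div, div_le_iff₀ hn]
    exact mul_le_mul_of_nonneg_left h1 (by positivity)
  have h4 : z.re ^ 7 * (pl ga M z).re ≤ ga * z.re ^ 8 := by
    have := mul_le_mul_of_nonneg_left h2 (by positivity : 0 ≤ z.re ^ 7)
    calc z.re ^ 7 * (pl ga M z).re ≤ z.re ^ 7 * (ga * z.re) := this
      _ = ga * z.re ^ 8 := by ring
  calc ((1 - t) * (z.re ^ 8 / ‖pl ga M z‖) + t * z.re ^ 7) * (pl ga M z).re
      = (1 - t) * (z.re ^ 8 / ‖pl ga M z‖ * (pl ga M z).re) + t * (z.re ^ 7 * (pl ga M z).re) := by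
        ring
    _ ≤ (1 - t) * z.re ^ 8 + t * (ga * z.re ^ 8) :=
        add_le_add (mul_le_mul_of_nonneg_left h3 (by linarith)) (mul_le_mul_of_nonneg_left h4 ht)
    _ = _ := by ring

end Planar

end Crest.Agent.R267.GlCp_322
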