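import Crest.Agent.R267.GlCp_322
import Crest.Agent.R267.GlC2a_930

/-!
# Row 267 (helper322): GLUE-LINE
-/

set_option autoImplicit false
set_option linter.unusedSectionVars false

noncomputable section

open Finset Filter Topology
open Crest.Agent.R267.T3aDefs_957 Crest.Agent.R267.GlueDefs_322 Crest.Agent.R267.Calc_957
open Crest.Agent.R267.LemL_951 Crest.Agent.R267.GlPl_322 Crest.Agent.R267.GlLn_322
open Crest.Agent.R267.GlCp_322 Crest.Agent.R267.Hm_951

namespace Crest.Agent.R267.GlLine_322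

/-- one side of a coupling -/
structure Sd (K ga : ℝ) (M : ℕ) (l w : ℂ → ℝ) : Prop where
  dif : Differentiable ℝ fun z => pg K z ^ 4 * l z
  hom : ∀ r : ℝ, 0 < r → ∀ z, l ((r : ℂ) * z) = l z
  nn : ∀ z, 0 ≤ l z
  ldif : ∀ z, z ≠ 0 → DifferentiableAt ℝ l z
  wn : Wn K M w
  flat : ∀ z, z ≠ 0 → 0 ≤ (pl ga M z).re → fderiv ℝ l z = 0
  val : ∀ z, z ≠ 0 → 0 ≤ (pl ga M z).re → l z = if 0 < z.re then w z else 0
  hK : 8 * (M : ℝ) + 2 ≤ K

theorem Sd.of_cut {K ga : ℝ} {m M : ℕ} {l : ℂ → ℝ} (h : CutL ga m M l)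
    (hK : 8 * (M : ℝ) + 2 ≤ K) : Sd K ga M l (fun z => win m M (z.im / z.re)) where
  dif := (GlC2a_930.CutL.contDiff K h).differentiable (by norm_num)
  hom := h.hom
  nn := h.nn
  ldif := fun z hz => ((h.smooth z hz).contDiffAt
    (isOpen_compl_singleton.mem_nhds hz)).differentiableAt (by norm_num)
  wn := wn_win K m M
  flat := h.flat
  val := h.val
  hK := hK

/-- the coupling of the line -/
def bb (K c κ t : ℝ) (l l' w w' : ℂ → ℝ) (p : ℂ × ℂ) : ℝ :=
  (1 - t) * (c * ((pg K p.1 ^ 4 * l p.1) * (pg K p.2 ^ 4 * l' p.2))) + t * (κ * J8 K w w' p)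

/-- the share of the first variable -/
def sx (K c κ t : ℝ) (l l' w w' : ℂ → ℝ) (x y : ℂ) : ℝ :=
  (1 - t) * (c * ((pg K x ^ 4 * l x) * (pg K y ^ 4 * l' y)) / 2) +
    t * (κ * (rho K x * rho K y ^ 2 / (rho K x + rho K y) ^ 2 * (w x * w' y)))

section bb

variable {K ga c κ t : ℝ} {M M' : ℕ} {l l' w w' : ℂ → ℝ}

theorem bb_swap (x y : ℂ) : bb K c κ t l l' w w' (x, y) = bb K c κ t l' l w' w (y, x) := by
  unfold bb
  rw [J8_swap]
  ring

theorem sx_nonneg (h : Sd K ga M l w) (h' : Sd K ga M' l' w') (ht : 0 ≤ t) (ht1 : t ≤ 1)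
    (hc : 0 ≤ c) (hκ : 0 ≤ κ) (x y : ℂ) : 0 ≤ sx K c κ t l l' w w' x y := by
  unfold sx
  have h1 := GlBas_322.pg_nonneg K x
  have h2 := GlBas_322.pg_nonneg K y
  have h3 := h.nn x
  have h4 := h'.nn y
  have h5 := rho_nonneg K x
  have h6 := rho_nonneg K y
  have h7 := h.wn.nn x
  have h8 := h'.wn.nn y
  have h9 : 0 ≤ 1 - t := by linarith
  positivity

theorem sx_add (x y : ℂ) : sx K c κ t l l' w w' x y + sx K c κ t l' l w' w y x =
    bb K c κ t l l' w w' (x, y) := by
  unfold sx bb J8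
  by_cases h : rho K x + rho K y = 0
  · have h' : rho K y + rho K x = 0 := by rw [add_comm]; exact h
    simp only [h, h']
    simp
    ring
  · have h' : rho K y + rho K x ≠ 0 := by rw [add_comm]; exact h
    rw [add_comm (rho K y)]
    field_simp
    ring

theorem line_pair (x y v : ℂ) (s : ℝ) : (x, y) + s • ((v, 0) : ℂ × ℂ) = (x + s • v, y) := by
  ext1
  · rfl
  · show y + s • (0 : ℂ) = y
    rw [smul_zero, add_zero]

theorem line_pair' (x y v : ℂ) (s : ℝ) : (x, y) + s • ((0, v) : ℂ × ℂ) = (x, y + s • v) := by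
  ext1
  · show x + s • (0 : ℂ) = x
    rw [smul_zero, add_zero]
  · rfl

/-- derivative of the first factor along a line -/
theorem hasDerivAt_bb {x y v : ℂ} {d e : ℝ}
    (h1 : HasDerivAt (fun s : ℝ => pg K (x + s • v) ^ 4 * l (x + s • v)) d 0)
    (h2 : HasDerivAt (fun s : ℝ => J8 K w w' ((x, y) + s • (v, 0))) e 0) :
    HasDerivAt (fun s : ℝ => bb K c κ t l l' w w' ((x, y) + s • (v, 0)))
      ((1 - t) * (c * (d * (pg K y ^ 4 * l' y))) + t * (κ * e)) 0 := by
  have h3 : (fun s : ℝ => bb K c κ t l l' w w' ((x, y) + s • (v, 0))) = fun s : ℝ =>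
      (1 - t) * (c * ((pg K (x + s • v) ^ 4 * l (x + s • v)) * (pg K y ^ 4 * l' y))) +
        t * (κ * J8 K w w' ((x, y) + s • (v, 0))) := by
    funext s
    unfold bb
    rw [line_pair]
  rw [h3]
  exact (((h1.mul_const _).const_mul c).const_mul (1 - t)).add ((h2.const_mul κ).const_mul t)

theorem bb_rad (h : Sd K ga M l w) (x y : ℂ) :
    HasDerivAt (fun s : ℝ => bb K c κ t l l' w w' ((x, y) + s • (x, 0)))
      (8 * sx K c κ t l l' w w' x y) 0 := by
  have h1 := line_deriv (h.dif x) x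
  have hPH : PH (4 : ℝ) fun z => pg K z ^ 4 * l z := by
    intro r hr z
    show pg K ((r : ℂ) * z) ^ 4 * l ((r : ℂ) * z) = r ^ (4 : ℝ) • (pg K z ^ 4 * l z)
    rw [GlBas_322.pg_smul hr, h.hom r hr, mul_pow, smul_eq_mul,
      show r ^ (4 : ℝ) = r ^ 4 by exact_mod_cast Real.rpow_natCast r 4]
    ring
  have h2 := hPH.euler (h.dif x)
  rw [h2] at h1
  refine (hasDerivAt_bb h1 (J8_rad h.wn x y)).congr_deriv ?_
  unfold sx
  simp only [smul_eq_mul]
  ring

/-- the flat side: plate -/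
theorem bb_flat (hg2 : ga ≤ 2) (h : Sd K ga M l w) {x : ℂ} (y v : ℂ) (hx0 : x ≠ 0)
    (hx : x.re ≤ 0) : HasDerivAt (fun s : ℝ => bb K c κ t l l' w w' ((x, y) + s • (v, 0))) 0 0 := by
  have hre : 0 ≤ (pl ga M x).re := by
    rw [pl_of_nonpos hx]
    simp
    nlinarith
  have h1 : HasDerivAt (fun s : ℝ => pg K (x + s • v) ^ 4 * l (x + s • v)) 0 0 := by
    have h2 := line_deriv (((GlC2a_930.contDiffAt_pg K hx0).differentiableAt
      (by norm_num)).pow 4) v
    have h3 := line_deriv (h.ldif x hx0) v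
    have h4 := h2.fun_mul h3
    refine h4.congr_deriv ?_
    rw [h.flat x hx0 hre]
    simp only [zero_smul, add_zero]
    rw [h.val x hx0 hre, if_neg (not_lt.2 hx)]
    simp
  have h2 : HasDerivAt (fun s : ℝ => J8 K w w' ((x, y) + s • (v, 0))) 0 0 :=
    (hasDerivAt_const (0 : ℝ) (J8 K w w' (x, y))).congr_of_eventuallyEq
      (J8_flat h.wn y v hx0 hx)
  exact (hasDerivAt_bb h1 h2).congr_deriv (by ring)

/-- the zone: vertical direction -/
theorem bb_vert (hg : 0 < ga) (hg1 : ga ≤ 1 / 8) (h : Sd K ga M l w) {x : ℂ} (y : ℂ)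
    (hx : 0 < x.re) (hre : 0 ≤ (pl ga M x).re) :
    HasDerivAt (fun s : ℝ => bb K c κ t l l' w w' ((x, y) + s • (Complex.I, 0))) 0 0 := by
  obtain ⟨j, hj, hz, hX⟩ := zone hg hg1 hx hre
  have hx0 : x ≠ 0 := fun h0 => by rw [h0] at hx; simp at hx
  have hK0 : (0 : ℝ) ≤ K := by
    have : (0 : ℝ) ≤ M := M.cast_nonneg
    have := h.hK
    linarith
  have hM : (j : ℝ) + 1 ≤ M := by exact_mod_cast hj
  have hpgw : ∀ u : ℂ, 0 < u.re → |u.im / u.re - sg j| < 3 / 2 → pg K u = u.re := by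
    intro u hu h1
    have h2 : |u.im / u.re| ≤ K := by
      have := h.hK
      rw [abs_lt] at h1
      unfold sg at h1
      rw [abs_le]
      have : (0 : ℝ) ≤ j := j.cast_nonneg
      constructor <;> linarith
    rw [abs_div, abs_of_pos hu, div_le_iff₀ hu] at h2
    rw [GlBas_322.pg_window hK0 (by rwa [abs_of_pos hu]), abs_of_pos hu]
  have h1 : HasDerivAt (fun s : ℝ => pg K (x + s • Complex.I) ^ 4 * l (x + s • Complex.I)) 0 0 := by
    have h3 := (line_deriv (h.ldif x hx0) Complex.I).const_mul (x.re ^ 4)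
    rw [h.flat x hx0 hre] at h3
    simp only [_root_.zero_apply, mul_zero] at h3
    refine h3.congr_of_eventuallyEq ?_
    filter_upwards [zone_line hx hz] with s hs
    rw [hpgw _ (by rwa [re_line]) hs, re_line]
  have h2 : HasDerivAt (fun s : ℝ => J8 K w w' ((x, y) + s • (Complex.I, 0))) 0 0 :=
    (hasDerivAt_const (0 : ℝ) (J8 K w w' (x, y))).congr_of_eventuallyEq
      (J8_vert h.wn h.hK y hx hj hz)
  exact (hasDerivAt_bb h1 h2).congr_deriv (by ring)

theorem swap_line (x y v : ℂ) :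
    (fun s : ℝ => bb K c κ t l l' w w' ((x, y) + s • (0, v))) =
      fun s : ℝ => bb K c κ t l' l w' w ((y, x) + s • (v, 0)) := by
  funext s
  rw [line_pair', line_pair, bb_swap]

/-- **(NC)** at a point of the zones -/
theorem bb_nc (hg : 0 < ga) (hg1 : ga ≤ 1 / 8) (ht : 0 ≤ t) (ht1 : t ≤ 1) (hc : 2 < c)
    (hκ : 4 * ga < κ) (h : Sd K ga M l w) (h' : Sd K ga M' l' w') {x y : ℂ}
    (hx : 0 < x.re) (hy : 0 < y.re) (hw : w x = 0 ∨ w x = 1) (hw' : w' y = 0 ∨ w' y = 1)
    (hxr : 0 ≤ (pl ga M x).re) (hyr : 0 ≤ (pl ga M' y).re)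
    (hpx : pg K x = x.re) (hpy : pg K y = y.re) (hb : 0 < bb K c κ t l l' w w' (x, y))
    (h1 : sx K c κ t l l' w w' x y ≤ ((1 - t) + t * ga) * x.re ^ 8)
    (h2 : sx K c κ t l' l w' w y x ≤ ((1 - t) + t * ga) * y.re ^ 8) : False := by
  have hx0 : x ≠ 0 := fun h0 => by rw [h0] at hx; simp at hx
  have hy0 : y ≠ 0 := fun h0 => by rw [h0] at hy; simp at hy
  have e1 : l x = w x := by rw [h.val x hx0 hxr, if_pos hx]
  have e2 : l' y = w' y := by rw [h'.val y hy0 hyr, if_pos hy]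
  have e3 : w x = 1 := by
    refine hw.resolve_left fun h0 => ?_
    unfold bb J8 at hb
    simp only [e1, h0] at hb
    simp at hb
  have e4 : w' y = 1 := by
    refine hw'.resolve_left fun h0 => ?_
    unfold bb J8 at hb
    simp only [e2, h0] at hb
    simp at hb
  have r1 : rho K x = (x.re ^ 4) ^ 2 := by
    unfold rho; rw [hpx, max_eq_right hx.le]; ring
  have r2 : rho K y = (y.re ^ 4) ^ 2 := by
    unfold rho; rw [hpy, max_eq_right hy.le]; ring
  unfold sx at h1 h2
  rw [e1, e2, e3, e4, r1, r2, hpx, hpy] at h1 h2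
  have hp : 0 < x.re ^ 4 := by positivity
  have hq : 0 < y.re ^ 4 := by positivity
  rw [show x.re ^ 8 = (x.re ^ 4) ^ 2 by ring] at h1
  rw [show y.re ^ 8 = (y.re ^ 4) ^ 2 by ring] at h2
  set p := x.re ^ 4
  set q := y.re ^ 4
  -- the inequality for `p ≤ q`
  have key : ∀ p q : ℝ, 0 < p → p ≤ q →
      ((1 - t) + t * ga) * p ^ 2 < (1 - t) * (c * (p * q) / 2) +
        t * (κ * (p ^ 2 * (q ^ 2) ^ 2 / (p ^ 2 + q ^ 2) ^ 2)) := by
    intro p q hp hpq
    have hq : 0 < q := lt_of_lt_of_le hp hpq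
    have a1 : p ^ 2 ≤ p * q := by nlinarith
    have a2 : p ^ 2 / 4 ≤ p ^ 2 * (q ^ 2) ^ 2 / (p ^ 2 + q ^ 2) ^ 2 := by
      rw [div_le_div_iff₀ (by norm_num) (by positivity)]
      have h5 : p ^ 2 ≤ q ^ 2 := pow_le_pow_left₀ hp.le hpq 2
      have h6 : (p ^ 2 + q ^ 2) ^ 2 ≤ (q ^ 2) ^ 2 * 4 := by nlinarith [sq_nonneg p, sq_nonneg q]
      calc p ^ 2 * (p ^ 2 + q ^ 2) ^ 2 ≤ p ^ 2 * ((q ^ 2) ^ 2 * 4) :=
            mul_le_mul_of_nonneg_left h6 (by positivity)
        _ = _ := by ring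
    have a3 : (1 - t) * (c * p ^ 2 / 2) ≤ (1 - t) * (c * (p * q) / 2) := by
      refine mul_le_mul_of_nonneg_left ?_ (by linarith)
      have := mul_le_mul_of_nonneg_left a1 (by linarith : (0 : ℝ) ≤ c)
      linarith
    have hκ0 : 0 < κ := by linarith
    have a4 : t * (κ * (p ^ 2 / 4)) ≤
        t * (κ * (p ^ 2 * (q ^ 2) ^ 2 / (p ^ 2 + q ^ 2) ^ 2)) :=
      mul_le_mul_of_nonneg_left (mul_le_mul_of_nonneg_left a2 hκ0.le) ht
    have hp2 : 0 < p ^ 2 := by positivity
    have a5 : ((1 - t) + t * ga) * p ^ 2 < (1 - t) * (c * p ^ 2 / 2) + t * (κ * (p ^ 2 / 4)) := by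
      have h7 : (1 - t) * (c * p ^ 2 / 2) + t * (κ * (p ^ 2 / 4)) - ((1 - t) + t * ga) * p ^ 2 =
          ((1 - t) * (c / 2 - 1) + t * (κ / 4 - ga)) * p ^ 2 := by ring
      have h8 : 0 < (1 - t) * (c / 2 - 1) + t * (κ / 4 - ga) := by
        rcases ht.lt_or_eq with h9 | h9
        · exact add_pos_of_nonneg_of_pos (mul_nonneg (by linarith) (by linarith))
            (mul_pos h9 (by linarith))
        · rw [← h9]
          simp only [sub_zero, one_mul, zero_mul, add_zero]
          linarith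
      have := mul_pos h8 hp2
      linarith
    linarith
  rcases le_total p q with h5 | h5
  · have h6 := key p q hp h5
    have h7 : (1 - t) * (c * (p * 1 * (q * 1)) / 2) = (1 - t) * (c * (p * q) / 2) := by ring
    have h8 : t * (κ * (p ^ 2 * (q ^ 2) ^ 2 / (p ^ 2 + q ^ 2) ^ 2 * (1 * 1))) =
        t * (κ * (p ^ 2 * (q ^ 2) ^ 2 / (p ^ 2 + q ^ 2) ^ 2)) := by ring
    rw [h7, h8] at h1
    linarith
  · have h6 := key q p hq h5
    have h7 : (1 - t) * (c * (q * 1 * (p * 1)) / 2) = (1 - t) * (c * (q * p) / 2) := by ring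
    have h8 : t * (κ * (q ^ 2 * (p ^ 2) ^ 2 / (q ^ 2 + p ^ 2) ^ 2 * (1 * 1))) =
        t * (κ * (q ^ 2 * (p ^ 2) ^ 2 / (q ^ 2 + p ^ 2) ^ 2)) := by ring
    rw [h7, h8] at h2
    linarith

end bb

theorem H8_J8 (K : ℝ) (m M M' : ℕ) (x y : ℂ) : H8 K m M M' x y =
    J8 K (fun z => win m M (z.im / z.re)) (fun z => win (M' - 1) M' (z.im / z.re)) (x, y) := rfl

/-- **LINE** -/
theorem lineP : LineP := by
  intro n a ha K ga cB c hg hg1 hcB hc hK lam bet hlam hbet
  have hg2 : ga ≤ 2 := by linarith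
  have hwS : ∀ (s : ℝ) (z : Fin (n + 1) → ℂ), FS K ga c a lam bet
      (Cone_808.act (fun _ => (1 / 8 : ℝ)) s z) = Real.exp s • FS K ga c a lam bet z :=
    GlC2a_930.wh_of_hom8 fun r hr z => GlC2a_930.FS_smul K ga c a (fun e => (hlam e).hom)
      (fun e => (hbet e).hom) hr z
  have hwF : ∀ (s : ℝ) (z : Fin (n + 1) → ℂ), F8 K cB ga (Mh a) (Ch a)
      (Cone_808.act (fun _ => (1 / 8 : ℝ)) s z) = Real.exp s • F8 K cB ga (Mh a) (Ch a) z :=
    GlC2a_930.wh_of_hom8 fun r hr z => GlC2a_930.F8_smul K cB ga _ _ hr z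
  have cFS : ContDiff ℝ 2 (FS K ga c a lam bet) := GlC2a_930.contDiff_FS K c hg (by linarith) a
    (fun e => GlC2a_930.CutL.contDiff K (hlam e)) fun e => GlC2a_930.CutL.contDiff K (hbet e)
  have cF8 : ContDiff ℝ 2 (F8 K cB ga (Mh a) (Ch a)) := GlC2a_930.contDiff_F8 hK
  refine HPath.line (w := fun _ => 1 / 8) (fun _ => by norm_num) cFS.contDiffOn cF8.contDiffOn
    hwS hwF fun t ht z hz hre b => ?_
  obtain ⟨ht0, ht1⟩ := ht
  -- the line as `lobB`
  set w : Fin n → ℂ → ℝ := fun e u => win (a e.succ) (Mh a e.castSucc) (u.im / u.re) with hw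
  set w' : Fin n → ℂ → ℝ := fun e u => win (Mh a e.succ - 1) (Mh a e.succ) (u.im / u.re) with hw'
  set κ : ℝ := cB * ga with hκ
  have hκ4 : 4 * ga < κ := by rw [hκ]; nlinarith
  have hSx : ∀ e, Sd K ga (Mh a e.castSucc) (lam e) (w e) := fun e =>
    Sd.of_cut (hlam e) (hK _)
  have hSy : ∀ e, Sd K ga (Mh a e.succ) (bet e) (w' e) := fun e =>
    Sd.of_cut (hbet e) (hK _)
  set B : Fin n → ℂ × ℂ → ℝ := fun e => bb K c κ t (lam e) (bet e) (w e) (w' e) with hB
  set P : Fin (n + 1) → ℂ → ℂ := fun i => Pt K ga (Mh a i) t with hP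
  have hPd : ∀ i u, DifferentiableAt ℝ (P i) u := by
    intro i u
    have h1 := ((GlC2a_930.contDiff_PS K hg (by linarith : ga < 2) (Mh a i)).differentiable
      (by norm_num)) u
    have h2 := ((GlC2a_930.contDiff_P8 K ga (Mh a i)).differentiable (by norm_num)) u
    exact (h1.const_smul (1 - t)).add (h2.const_smul t)
  have hBd : ∀ e p, DifferentiableAt ℝ (B e) p := by
    intro e p
    have h1 : DifferentiableAt ℝ (fun p : ℂ × ℂ => pg K p.1 ^ 4 * lam e p.1) p :=
      DifferentiableAt.comp p ((hSx e).dif p.1) differentiableAt_fst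
    have h2 : DifferentiableAt ℝ (fun p : ℂ × ℂ => pg K p.2 ^ 4 * bet e p.2) p :=
      DifferentiableAt.comp p ((hSy e).dif p.2) differentiableAt_snd
    have h3 : DifferentiableAt ℝ (fun p : ℂ × ℂ => J8 K (w e) (w' e) p) p :=
      ((GlC2a_930.contDiff_H8 (K := K) (m := a e.succ) (M := Mh a e.castSucc)
        (M' := Mh a e.succ) (hK _) (hK _)).differentiable (by norm_num)) p
    exact (((h1.mul h2).const_mul c).const_mul (1 - t)).add ((h3.const_mul κ).const_mul t)
  have hinj : Function.Injective fun e : Fin n => (e.castSucc, e.succ, a e.succ) := by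
    intro e e' h
    exact Fin.castSucc_injective _ (congrArg Prod.fst h)
  have hsum : ∀ u : Fin (n + 1) → ℂ, (1 - t) • FS K ga c a lam bet u +
      t • F8 K cB ga (Mh a) (Ch a) u = lobB P (GlLn_322.cB B) u := by
    intro u
    unfold FS F8 lobB Ch GlLn_322.cB
    rw [Finset.sum_image fun e _ e' _ h => hinj h, hP, hB]
    have hH : ∀ e : Fin n, H8 K (a e.succ) (Mh a e.castSucc) (Mh a e.succ) (u e.castSucc)
        (u e.succ) = J8 K (w e) (w' e) (u e.castSucc, u e.succ) := fun e => rfl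
    simp only [hH, Pt, bb, smul_sub, Complex.real_smul, Finset.mul_sum, Finset.sum_add_distrib]
    rw [hκ]
    push_cast
    simp only [Finset.mul_sum]
    ring
  have hfd : (1 - t) • fderiv ℝ (FS K ga c a lam bet) z + t • fderiv ℝ (F8 K cB ga (Mh a) (Ch a)) z =
      fderiv ℝ (lobB P (GlLn_322.cB B)) z := by
    have e1 : lobB P (GlLn_322.cB B) = fun u => (1 - t) • FS K ga c a lam bet u +
      t • F8 K cB ga (Mh a) (Ch a) u := funext fun u => (hsum u).symm
    have d1 := (cFS.differentiable (by norm_num) z)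
    have d2 := (cF8.differentiable (by norm_num) z)
    rw [e1]
    exact ((d1.hasFDerivAt.const_smul (1 - t)).add (d2.hasFDerivAt.const_smul t)).fderiv.symm
  have hpgz : ∀ i (u : ℂ), 0 < u.re → 0 ≤ (pl ga (Mh a i) u).re → pg K u = u.re := by
    intro i u hu hr
    obtain ⟨j, hj, h1, -⟩ := zone hg hg1 hu hr
    have hM : (j : ℝ) + 1 ≤ Mh a i := by exact_mod_cast hj
    have hKi := hK i
    have h2 : |u.im / u.re| ≤ K := by
      rw [abs_lt] at h1
      unfold sg at h1
      rw [abs_le]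
      have : (0 : ℝ) ≤ j := j.cast_nonneg
      constructor <;> linarith
    rw [abs_div, abs_of_pos hu, div_le_iff₀ hu] at h2
    have h3 : (0 : ℝ) ≤ Mh a i := (Mh a i).cast_nonneg
    rw [GlBas_322.pg_window (by linarith) (by rwa [abs_of_pos hu]), abs_of_pos hu]
  have hPre : ∀ i (u : ℂ), u ≠ 0 → (0 ≤ (P i u).re ↔ 0 ≤ (pl ga (Mh a i) u).re) := by
    intro i u hu
    have hm := mf_pos (K := K) (M := Mh a i) hg hg1 ht0 ht1 hu
    rw [hP]
    simp only
    rw [Pt_eq, Complex.re_ofReal_mul]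
    exact mul_nonneg_iff_of_pos_left hm
  have hsurj : Function.Surjective (fderiv ℝ (lobB P (GlLn_322.cB B)) z) := by
    refine chain_reg2 (px := fun e => sx K c κ t (lam e) (bet e) (w e) (w' e) (z e.castSucc)
        (z e.succ)) (py := fun e => sx K c κ t (bet e) (lam e) (w' e) (w e) (z e.succ)
        (z e.castSucc)) (fun i => Pt_PH t) (fun i => hPd i _) (fun e => hBd e _)
      (fun e => sx_nonneg (hSx e) (hSy e) ht0 ht1 (by linarith) (by linarith) _ _)
      (fun e => sx_nonneg (hSy e) (hSx e) ht0 ht1 (by linarith) (by linarith) _ _)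
      (fun e => sx_add _ _)
      (fun e => fderiv_line (hBd e _) (bb_rad (hSx e) _ _))
      (fun e => fderiv_line (hBd e _) (by
        rw [hB]
        simp only
        rw [swap_line]
        exact bb_rad (hSy e) _ _))
      (fun i hi => ?_) hz (fun e he => ?_) (fun e he h1 h2 h3 h4 => ?_) ?_
    · rcases le_or_gt (z i).re 0 with h0 | h0
      · refine Or.inl ⟨Pt_surj hg hg1 ht0 ht1 hi h0 (hPd i _), fun e v => ⟨fun he => ?_,
          fun he => ?_⟩⟩
        · refine fderiv_line (hBd e _) ?_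
          subst he
          exact bb_flat hg2 (hSx e) _ _ hi h0
        · refine fderiv_line (hBd e _) ?_
          subst he
          rw [hB]
          simp only
          rw [swap_line]
          exact bb_flat hg2 (hSy e) _ _ hi h0
      · refine Or.inr ⟨Pt_ne hg hg1 ht0 ht1 hi, ?_⟩
        rcases lt_or_ge (P i (z i)).re 0 with h1 | h1
        · exact Or.inl h1
        · have h2 := (hPre i (z i) hi).1 h1
          obtain ⟨j, hj, h3, h4⟩ := zone hg hg1 h0 h2
          refine Or.inr ⟨Complex.I, fun e => ⟨fun he => ?_, fun he => ?_⟩,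
            Pt_good hg hg1 (hK i) ht0 ht1 h0 hj h3 h4 (hPd i _)⟩
          · refine fderiv_line (hBd e _) ?_
            subst he
            exact bb_vert hg hg1 (hSx e) _ h0 h2
          · refine fderiv_line (hBd e _) ?_
            subst he
            rw [hB]
            simp only
            rw [swap_line]
            exact bb_vert hg hg1 (hSy e) _ h0 h2
    · constructor
      · intro h0
        rw [hB] at he
        simp only [bb, J8, h0, GlBas_322.pg_zero, rho] at he
        simp at he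
      · intro h0
        rw [hB] at he
        simp only [bb, J8, h0, GlBas_322.pg_zero, rho] at he
        simp at he
    · have hx0 : z e.castSucc ≠ 0 := fun h0 => by
        rw [h0, (Pt_PH t).zero (by norm_num)] at h1
        simp at h1
      have hy0 : z e.succ ≠ 0 := fun h0 => by
        rw [h0, (Pt_PH t).zero (by norm_num)] at h2
        simp at h2
      have hxr := (hPre _ _ hx0).1 h1.le
      have hyr := (hPre _ _ hy0).1 h2.le
      -- on the plate side the coupling vanishes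
      have hx : 0 < (z e.castSucc).re := by
        by_contra h0
        push Not at h0
        have h5 := (hSx e).val _ hx0 hxr
        rw [if_neg (not_lt.2 h0)] at h5
        rw [hB] at he
        simp only [bb, J8, h5, rho_of_nonpos h0] at he
        simp at he
      have hy : 0 < (z e.succ).re := by
        by_contra h0
        push Not at h0
        have h5 := (hSy e).val _ hy0 hyr
        rw [if_neg (not_lt.2 h0)] at h5
        rw [hB] at he
        simp only [bb, J8, h5, rho_of_nonpos h0] at he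
        simp at he
      have hwx : w e (z e.castSucc) = 0 ∨ w e (z e.castSucc) = 1 := by
        obtain ⟨j, hj, h3, -⟩ := zone hg hg1 hx hxr
        rw [hw]
        simp only
        rw [win_zone hj h3]
        split_ifs <;> simp
      have hwy : w' e (z e.succ) = 0 ∨ w' e (z e.succ) = 1 := by
        obtain ⟨j, hj, h3, -⟩ := zone hg hg1 hy hyr
        rw [hw']
        simp only
        rw [win_zone hj h3]
        split_ifs <;> simp
      have hpx := hpgz _ _ hx hxr
      have hpy := hpgz _ _ hy hyr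
      refine bb_nc hg hg1 ht0 ht1 hc hκ4 (hSx e) (hSy e) hx hy hwx hwy hxr hyr hpx hpy he
        (h3.trans (Pt_le hg hg1 ht0 ht1 hx hpx)) ?_
      rw [← h4]
      exact Pt_le hg hg1 ht0 ht1 hy hpy
    · rw [← hsum, Complex.add_re, Complex.smul_re, Complex.smul_re]
      exact hre
  obtain ⟨y, hy⟩ := hsurj b
  refine ⟨y, ?_⟩
  rw [← hy, ← hfd]
  rfl

end Crest.Agent.R267.GlLine_322
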