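import Crest.Agent.R267.GlPl_322

/-!
# Row 267 (helper322): GLUE-LINE, regularity along chains with general couplings of two variables
-/

set_option autoImplicit false
set_option linter.unusedSectionVars false

noncomputable section

open Finset
open Crest.Agent.R267.LemL_951

namespace Crest.Agent.R267.GlLn_322

/-! ### a variant of `lobB_reg` -/

section Fun

variable {ι : Type*} [Fintype ι] [DecidableEq ι]

/-- **LEMMA L, general coupling, weak form.** -/
theorem lobB_reg2 {P : ι → ℂ → ℂ} {B : (ι → ℂ) → ℝ} {D : ι → ℝ} (hD : ∀ i, 0 < D i)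
    (hPH : ∀ i, PH (D i) (P i)) {z : ι → ℂ} (hPd : ∀ i, DifferentiableAt ℝ (P i) (z i))
    (hBd : DifferentiableAt ℝ B z) (hb : ∀ i, 0 ≤ fderiv ℝ B z (Pi.single i (z i)))
    (hE : ∑ i, fderiv ℝ B z (Pi.single i (z i)) / D i = B z)
    (hcase : ∀ i, z i ≠ 0 →
      (Function.Surjective (fderiv ℝ (P i) (z i)) ∧ ∀ v, fderiv ℝ B z (Pi.single i v) = 0) ∨
      (P i (z i) ≠ 0 ∧ ((P i (z i)).re < 0 ∨
        ∃ v, fderiv ℝ B z (Pi.single i v) = 0 ∧ Good (fderiv ℝ (P i) (z i) v) (P i (z i)) ∧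
          ((fderiv ℝ (P i) (z i) v).re = 0 → 0 < (P i (z i)).re)))) (hz : z ≠ 0)
    (hNC : (∀ i, D i * (P i (z i)).re = fderiv ℝ B z (Pi.single i (z i))) →
      (∀ i, z i ≠ 0 → 0 < (P i (z i)).re ∧
        ∃ v, fderiv ℝ B z (Pi.single i v) = 0 ∧ Good (fderiv ℝ (P i) (z i) v) (P i (z i)) ∧
          ((fderiv ℝ (P i) (z i) v).re = 0 → 0 < (P i (z i)).re)) → False)
    (hre : 0 ≤ (lobB P B z).re) : Function.Surjective (fderiv ℝ (lobB P B) z) := by
  have hL := fderiv_lobB_single hPd hBd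
  by_cases hall : ∀ i, z i ≠ 0 → (P i (z i) ≠ 0 ∧ ((P i (z i)).re < 0 ∨
    ∃ v, fderiv ℝ B z (Pi.single i v) = 0 ∧ Good (fderiv ℝ (P i) (z i) v) (P i (z i)) ∧
      ((fderiv ℝ (P i) (z i) v).re = 0 → 0 < (P i (z i)).re)))
  swap
  · push Not at hall
    obtain ⟨i, hi, hi2⟩ := hall
    rcases hcase i hi with ⟨hs, h1⟩ | h1
    · intro b
      obtain ⟨v, hv⟩ := hs b
      refine ⟨Pi.single i v, ?_⟩
      rw [hL, hv, h1]; simp
    · exfalso
      rcases h1 with ⟨ha, hb | ⟨v, hb2, hb3, hb4⟩⟩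
      · exact absurd hb (not_lt.2 (hi2 ha).1)
      · obtain ⟨h5, h6⟩ := (hi2 ha).2 v hb2 hb3
        exact absurd (hb4 h5) (not_lt.2 h6)
  have h0Q : ∀ i, z i = 0 → P i (z i) = 0 := fun i hi => by rw [hi, (hPH i).zero (hD i)]
  have hang : ∀ i, ∃ α : ι → ℂ, (z i ≠ 0 → ¬ (P i (z i)).re < 0 →
      (Good (fderiv ℝ (lobB P B) z α) (P i (z i)) ∧
        ((fderiv ℝ (lobB P B) z α).re = 0 → 0 < (P i (z i)).re))) := by
    intro i
    by_cases hi : z i ≠ 0 ∧ ¬ (P i (z i)).re < 0
    · obtain ⟨-, h1⟩ := hall i hi.1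
      rcases h1 with h1 | ⟨v, h1, h2, h3⟩
      · exact absurd h1 hi.2
      · refine ⟨Pi.single i v, fun _ _ => ?_⟩
        rw [hL, h1]
        simpa using ⟨h2, h3⟩
    · exact ⟨0, fun h1 h2 => absurd ⟨h1, h2⟩ hi⟩
  choose α hα using hang
  refine lemG (fderiv ℝ (lobB P B) z : (ι → ℂ) →ₗ[ℝ] ℂ)
    (fun i => Pi.single i (z i)) α D hD (fun i => P i (z i))
    (fun i => fderiv ℝ B z (Pi.single i (z i))) hb (fun i => ?_) (fun i => ?_) ?_
    (fun h1 h2 h3 => ?_) ?_
  · show fderiv ℝ (lobB P B) z (Pi.single i (z i)) = _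
    rw [hL, (hPH i).euler (hPd i), Complex.real_smul]
  · by_cases hi : z i = 0
    · exact Or.inl (h0Q i hi)
    · right
      by_cases hneg : (P i (z i)).re < 0
      · exact good_of_neg hneg
      · exact (hα i hi hneg).1
  · obtain ⟨i, hi⟩ : ∃ i, z i ≠ 0 := by
      by_contra h
      push Not at h
      exact hz (funext h)
    exact ⟨i, (hall i hi).1⟩
  · refine hNC h1 fun i hi => ?_
    refine ⟨(hα i hi (h3 i)).2 (h2 i), ?_⟩
    rcases (hall i hi).2 with h4 | h4
    · exact absurd h4 (h3 i)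
    · exact h4
  · have : (lobB P B z).re =
        ∑ i, (P i (z i)).re - ∑ i, fderiv ℝ B z (Pi.single i (z i)) / D i := by
      unfold lobB
      rw [Complex.sub_re, Complex.re_sum, Complex.ofReal_re, hE]
    rw [← this]
    exact hre

end Fun

/-! ### chains with couplings of two neighbouring variables -/

section Chain

variable {n : ℕ}

/-- sum of couplings of neighbours -/
def cB (b : Fin n → ℂ × ℂ → ℝ) (z : Fin (n + 1) → ℂ) : ℝ :=
  ∑ e : Fin n, b e (z e.castSucc, z e.succ)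

theorem hasFDerivAt_cB {b : Fin n → ℂ × ℂ → ℝ} {z : Fin (n + 1) → ℂ}
    (hb : ∀ e : Fin n, DifferentiableAt ℝ (b e) (z e.castSucc, z e.succ)) :
    HasFDerivAt (cB b) (∑ e : Fin n, (fderiv ℝ (b e) (z e.castSucc, z e.succ)).comp
      ((ContinuousLinearMap.proj (R := ℝ) (φ := fun _ => ℂ) e.castSucc).prod
        (ContinuousLinearMap.proj (R := ℝ) (φ := fun _ => ℂ) e.succ))) z := by
  refine HasFDerivAt.fun_sum fun e _ => ?_
  have h1 : HasFDerivAt (fun z : Fin (n + 1) → ℂ => (z e.castSucc, z e.succ))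
      ((ContinuousLinearMap.proj (R := ℝ) (φ := fun _ => ℂ) e.castSucc).prod
        (ContinuousLinearMap.proj (R := ℝ) (φ := fun _ => ℂ) e.succ)) z :=
    (hasFDerivAt_apply e.castSucc z).prodMk (hasFDerivAt_apply e.succ z)
  exact HasFDerivAt.comp z (hb e).hasFDerivAt h1

theorem fderiv_cB_single {b : Fin n → ℂ × ℂ → ℝ} {z : Fin (n + 1) → ℂ}
    (hb : ∀ e : Fin n, DifferentiableAt ℝ (b e) (z e.castSucc, z e.succ)) (i : Fin (n + 1))
    (v : ℂ) : fderiv ℝ (cB b) z (Pi.single i v) =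
      ∑ e : Fin n, ((if e.castSucc = i then fderiv ℝ (b e) (z e.castSucc, z e.succ) (v, 0) else 0) +
        if e.succ = i then fderiv ℝ (b e) (z e.castSucc, z e.succ) (0, v) else 0) := by
  rw [(hasFDerivAt_cB hb).fderiv]
  simp only [_root_.sum_apply, ContinuousLinearMap.comp_apply, ContinuousLinearMap.prod_apply,
    ContinuousLinearMap.proj_apply]
  refine sum_congr rfl fun e _ => ?_
  have hne : e.castSucc ≠ e.succ := Fin.castSucc_lt_succ.ne
  by_cases h1 : e.castSucc = i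
  · have h2 : e.succ ≠ i := fun h => hne (h1.trans h.symm)
    rw [if_pos h1, if_neg h2, add_zero]
    subst h1
    rw [Pi.single_eq_same, Pi.single_eq_of_ne h2]
  · by_cases h2 : e.succ = i
    · rw [if_neg h1, if_pos h2, zero_add]
      subst h2
      rw [Pi.single_eq_same, Pi.single_eq_of_ne h1]
    · rw [if_neg h1, if_neg h2, add_zero, Pi.single_eq_of_ne h1, Pi.single_eq_of_ne h2]
      exact map_zero _

/-- **LEMMA L for chains, general couplings of neighbours of degree `8`.** -/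
theorem chain_reg2 {P : Fin (n + 1) → ℂ → ℂ} {b : Fin n → ℂ × ℂ → ℝ} {px py : Fin n → ℝ}
    (hPH : ∀ i, PH (8 : ℝ) (P i)) {z : Fin (n + 1) → ℂ}
    (hPd : ∀ i, DifferentiableAt ℝ (P i) (z i))
    (hbd : ∀ e : Fin n, DifferentiableAt ℝ (b e) (z e.castSucc, z e.succ))
    (hpx : ∀ e, 0 ≤ px e) (hpy : ∀ e, 0 ≤ py e)
    (hsum : ∀ e, px e + py e = b e (z e.castSucc, z e.succ))
    (hx : ∀ e : Fin n, fderiv ℝ (b e) (z e.castSucc, z e.succ) (z e.castSucc, 0) = 8 * px e)
    (hy : ∀ e : Fin n, fderiv ℝ (b e) (z e.castSucc, z e.succ) (0, z e.succ) = 8 * py e)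
    (hcase : ∀ i, z i ≠ 0 →
      (Function.Surjective (fderiv ℝ (P i) (z i)) ∧ ∀ e : Fin n, ∀ v,
        (e.castSucc = i → fderiv ℝ (b e) (z e.castSucc, z e.succ) (v, 0) = 0) ∧
        (e.succ = i → fderiv ℝ (b e) (z e.castSucc, z e.succ) (0, v) = 0)) ∨
      (P i (z i) ≠ 0 ∧ ((P i (z i)).re < 0 ∨
        ∃ v, (∀ e : Fin n, (e.castSucc = i → fderiv ℝ (b e) (z e.castSucc, z e.succ) (v, 0) = 0) ∧
            (e.succ = i → fderiv ℝ (b e) (z e.castSucc, z e.succ) (0, v) = 0)) ∧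
          Good (fderiv ℝ (P i) (z i) v) (P i (z i)) ∧
          ((fderiv ℝ (P i) (z i) v).re = 0 → 0 < (P i (z i)).re)))) (hz : z ≠ 0)
    (hb0 : ∀ e : Fin n, 0 < b e (z e.castSucc, z e.succ) → z e.castSucc ≠ 0 ∧ z e.succ ≠ 0)
    (hNC : ∀ e : Fin n, 0 < b e (z e.castSucc, z e.succ) →
      0 < (P e.castSucc (z e.castSucc)).re → 0 < (P e.succ (z e.succ)).re →
      px e ≤ (P e.castSucc (z e.castSucc)).re → (P e.succ (z e.succ)).re = py e → False)
    (hre : 0 ≤ (lobB P (cB b) z).re) : Function.Surjective (fderiv ℝ (lobB P (cB b)) z) := by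
  have hs := fderiv_cB_single hbd
  have hrad : ∀ i, fderiv ℝ (cB b) z (Pi.single i (z i)) =
      ∑ e : Fin n, ((if e.castSucc = i then 8 * px e else 0) +
        if e.succ = i then 8 * py e else 0) := by
    intro i
    rw [hs]
    refine sum_congr rfl fun e _ => ?_
    by_cases h1 : e.castSucc = i
    · by_cases h2 : e.succ = i
      · rw [if_pos h1, if_pos h2, if_pos h1, if_pos h2, ← hx, ← hy, h1, h2]
      · rw [if_pos h1, if_neg h2, if_pos h1, if_neg h2, ← hx, h1]
    · by_cases h2 : e.succ = i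
      · rw [if_neg h1, if_pos h2, if_neg h1, if_pos h2, ← hy, h2]
      · rw [if_neg h1, if_neg h2, if_neg h1, if_neg h2]
  have hfl : ∀ (i : Fin (n + 1)) (v : ℂ),
      (∀ e : Fin n, (e.castSucc = i → fderiv ℝ (b e) (z e.castSucc, z e.succ) (v, 0) = 0) ∧
        (e.succ = i → fderiv ℝ (b e) (z e.castSucc, z e.succ) (0, v) = 0)) →
      fderiv ℝ (cB b) z (Pi.single i v) = 0 := by
    intro i v h
    rw [hs]
    refine sum_eq_zero fun e _ => ?_
    by_cases h1 : e.castSucc = i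
    · by_cases h2 : e.succ = i
      · rw [if_pos h1, if_pos h2, (h e).1 h1, (h e).2 h2, add_zero]
      · rw [if_pos h1, if_neg h2, (h e).1 h1, add_zero]
    · by_cases h2 : e.succ = i
      · rw [if_neg h1, if_pos h2, (h e).2 h2, add_zero]
      · rw [if_neg h1, if_neg h2, add_zero]
  refine lobB_reg2 (D := fun _ => 8) (fun _ => by norm_num) hPH hPd
    (hasFDerivAt_cB hbd).differentiableAt (fun i => ?_) ?_ (fun i hi => ?_) hz (fun h1 h2 => ?_) hre
  · rw [hrad]
    refine sum_nonneg fun e _ => add_nonneg ?_ ?_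
    · split_ifs
      · have := hpx e; positivity
      · exact le_rfl
    · split_ifs
      · have := hpy e; positivity
      · exact le_rfl
  · show ∑ i, fderiv ℝ (cB b) z (Pi.single i (z i)) / 8 = cB b z
    rw [← sum_div]
    simp only [hrad]
    rw [sum_comm]
    have h3 : ∀ e : Fin n, ∑ i, ((if e.castSucc = i then 8 * px e else 0) +
        if e.succ = i then 8 * py e else 0) = 8 * b e (z e.castSucc, z e.succ) := by
      intro e
      rw [sum_add_distrib, sum_ite_eq, sum_ite_eq, if_pos (mem_univ _), if_pos (mem_univ _),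
        ← hsum]
      ring
    simp only [h3]
    rw [← mul_sum, mul_div_cancel_left₀ _ (by norm_num : (8 : ℝ) ≠ 0)]
    rfl
  · rcases hcase i hi with ⟨h1, h2⟩ | ⟨h1, h2 | ⟨v, h2, h3, h4⟩⟩
    · exact Or.inl ⟨h1, fun v => hfl i v fun e => h2 e v⟩
    · exact Or.inr ⟨h1, Or.inl h2⟩
    · exact Or.inr ⟨h1, Or.inr ⟨v, hfl i v h2, h3, h4⟩⟩
  · have hb : ∀ e : Fin n, 0 ≤ b e (z e.castSucc, z e.succ) := fun e => by
      rw [← hsum]; exact add_nonneg (hpx e) (hpy e)
    have hne : ∃ i, (P i (z i)).re ≠ 0 := by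
      obtain ⟨i, hi⟩ : ∃ i, z i ≠ 0 := by
        by_contra h
        push Not at h
        exact hz (funext h)
      exact ⟨i, (h2 i hi).1.ne'⟩
    have hzero : ∀ e : Fin n, b e (z e.castSucc, z e.succ) = 0 → px e = 0 ∧ py e = 0 := by
      intro e he
      have h3 := hsum e
      have h4 := hpx e
      have h5 := hpy e
      constructor <;> linarith
    obtain ⟨e, he, h3, h4⟩ := chain_last (D := fun _ : Fin (n + 1) => (8 : ℝ))
      (fun _ => by norm_num)
      (p := fun e => 8 * px e / b e (z e.castSucc, z e.succ))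
      (m := fun e => 8 * py e / b e (z e.castSucc, z e.succ))
      (fun e => div_nonneg (by have := hpx e; positivity) (hb e))
      (fun e => div_nonneg (by have := hpy e; positivity) (hb e))
      (B := fun e => b e (z e.castSucc, z e.succ)) hb
      (q := fun i => (P i (z i)).re) (fun i => by
        rw [h1 i, hrad]
        refine sum_congr rfl fun e _ => ?_
        by_cases h0 : b e (z e.castSucc, z e.succ) = 0
        · rw [(hzero e h0).1, (hzero e h0).2, h0]
          simp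
        · rw [add_mul, ite_mul, ite_mul, zero_mul, div_mul_cancel₀ _ h0, div_mul_cancel₀ _ h0])
      hne
    have he' : 0 < b e (z e.castSucc, z e.succ) := he
    simp only [div_mul_cancel₀ _ he'.ne'] at h3 h4
    obtain ⟨h5, h6⟩ := hb0 e he'
    exact hNC e he' (h2 _ h5).1 (h2 _ h6).1 (by linarith) (by linarith)

end Chain

end Crest.Agent.R267.GlLn_322
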