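import Crest.Agent.R267.GlBas_322

/-!
# Row 267 (helper322): GLUE-LINE, planar facts on `pl`
-/

set_option autoImplicit false

noncomputable section

open Finset
open Crest.Agent.R267.T3aDefs_957 Crest.Agent.R267.GlueDefs_322 Crest.Agent.R267.Calc_957
open Crest.Agent.R267.GlBas_322 Crest.Agent.R267.LemL_951

namespace Crest.Agent.R267.GlPl_322

/-! ### the curve -/

theorem st_quarter : st (1 / 4) = 53 / 512 := by
  unfold st
  rw [c01_of_mem (by norm_num) (by norm_num)]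
  norm_num

theorem Af_abs (v : ℝ) : Af v = 1 - 2 * st ((|v| - 1) / 2) := rfl

theorem Af_even (v : ℝ) : Af (-v) = Af v := by
  rw [Af_abs, Af_abs, abs_neg]

theorem Af_le_of {v : ℝ} (h : 3 / 2 ≤ |v|) : Af v < 7 / 8 := by
  rw [Af_abs]
  have h1 : st (1 / 4) ≤ st ((|v| - 1) / 2) := st_mono (by linarith)
  rw [st_quarter] at h1
  linarith

theorem Afd_neg (v : ℝ) : Afd (-v) = -Afd v := by
  unfold Afd
  rw [neg_neg]
  ring

theorem Bfd_neg (v : ℝ) : Bfd (-v) = Bfd v := by
  unfold Bfd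
  rw [neg_neg]
  ring

theorem Bf_ge_one {v : ℝ} (h : 1 ≤ v) (h1 : v ≤ 3) : 1 ≤ Bf v := by
  rw [Bf_of_nonneg (by linarith), gf_of_mem h h1]
  obtain ⟨u, hu⟩ : ∃ u, v = 1 + u := ⟨v - 1, by ring⟩
  subst hu
  have hu0 : 0 ≤ u := by linarith
  have hu2 : u ≤ 2 := by linarith
  have h2 : 0 ≤ u * ((2 - u) * (1 / 2 + u / 4 - u ^ 2 / 8)) := by
    refine mul_nonneg hu0 (mul_nonneg (by linarith) ?_)
    nlinarith
  nlinarith [h2]

theorem Bfd_ge {v : ℝ} (h : |v| ≤ 3 / 2) : 1 / 2 ≤ Bfd v := by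
  wlog hv : 0 ≤ v generalizing v with H
  · rw [← Bfd_neg]
    exact H (by rwa [abs_neg]) (by linarith)
  rw [abs_of_nonneg hv] at h
  unfold Bfd
  rw [gfd_of_le (by linarith : -v ≤ 1)]
  rcases le_total v 1 with h1 | h1
  · rw [gfd_of_le h1]; norm_num
  · rw [gfd_of_mem h1 (by linarith)]
    have h2 : 0 ≤ v - 1 := by linarith
    have h3 : v - 1 ≤ 1 / 2 := by linarith
    nlinarith [mul_nonneg h2 h2, mul_nonneg (mul_nonneg h2 h2) h2]

theorem Afd_nonpos {v : ℝ} (hv : 0 ≤ v) : Afd v ≤ 0 := by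
  unfold Afd
  rw [std_of_le (by linarith : (-v - 1) / 2 ≤ 0), add_zero]
  linarith [std_nonneg ((v - 1) / 2)]

theorem Afd_ge (v : ℝ) (hv : 0 ≤ v) : -(15 / 8) ≤ Afd v := by
  unfold Afd
  rw [std_of_le (by linarith : (-v - 1) / 2 ≤ 0), add_zero]
  linarith [std_le ((v - 1) / 2)]

theorem Bf_nonneg_of {v : ℝ} (hv : 0 ≤ v) (h : v ≤ 3) : 0 ≤ Bf v := by
  rcases le_total v 1 with h1 | h1
  · rw [Bf_of_nonneg hv, gf_of_le h1]; linarith
  · linarith [Bf_ge_one h1 h]

theorem Af_le_one (v : ℝ) : Af v ≤ 1 := by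
  rw [Af_abs]
  linarith [st_nonneg ((|v| - 1) / 2)]

/-- the numbers `X, Y, X', Y'` of a point of the curve in the zone `Re ≥ 0` -/
structure Zn (X Y X' Y' : ℝ) : Prop where
  X0 : 0 ≤ X
  Y'0 : 0 < Y'
  om : 0 < X * Y' - Y * X'
  sgn : (0 ≤ Y ∧ X' ≤ 0 ∧ 0 ≤ X * X' + Y * Y') ∨ (Y ≤ 0 ∧ 0 ≤ X' ∧ X * X' + Y * Y' ≤ 0)
  ne : X = 0 → X' ≠ 0

theorem zn_pos {ga v : ℝ} (hg : 0 < ga) (hg1 : ga ≤ 1 / 8) (hv : 0 ≤ v) (h : v ≤ 3 / 2)
    (hX : 0 ≤ -(1 - ga) + Af v) : Zn (-(1 - ga) + Af v) (Bf v) (Afd v) (Bfd v) ∧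
      0 ≤ (-(1 - ga) + Af v) * Afd v + Bf v * Bfd v ∧ 0 ≤ Bf v := by
  have hB := Bfd_ge (v := v) (by rwa [abs_of_nonneg hv])
  have hA := Afd_nonpos hv
  have hA' := Afd_ge v hv
  have hY := Bf_nonneg_of hv (by linarith)
  have hX1 : -(1 - ga) + Af v ≤ ga := by linarith [Af_le_one v]
  set X := -(1 - ga) + Af v with hXd
  have hne : X = 0 → Afd v < 0 ∧ 1 ≤ Bf v := by
    intro h0
    have h1 : 1 < v := by
      by_contra h1
      have h2 : Af v = 1 := Af_of_le (by rw [abs_of_nonneg hv]; linarith)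
      rw [hXd, h2] at h0
      linarith
    refine ⟨?_, Bf_ge_one h1.le (by linarith)⟩
    unfold Afd
    rw [std_of_le (by linarith : (-v - 1) / 2 ≤ 0), add_zero]
    have := std_pos (x := (v - 1) / 2) (by linarith) (by linarith)
    linarith
  have h3 : 0 ≤ X * Afd v + Bf v * Bfd v := by
    rcases le_total v 1 with h1 | h1
    · have : Afd v = 0 := Afd_of_abs_le (by rwa [abs_of_nonneg hv])
      rw [this, mul_zero, zero_add]
      exact mul_nonneg hY (by linarith)
    · have h4 := Bf_ge_one h1 (by linarith)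
      nlinarith [mul_nonneg hX (by linarith : (0 : ℝ) ≤ Afd v + 15 / 8),
        mul_nonneg (by linarith : (0 : ℝ) ≤ Bf v - 1) (by linarith : (0 : ℝ) ≤ Bfd v - 1 / 2)]
  refine ⟨⟨hX, by linarith, ?_, Or.inl ⟨hY, hA, h3⟩, fun h0 => (hne h0).1.ne⟩, h3, hY⟩
  rcases hX.lt_or_eq with h0 | h0
  · nlinarith [mul_pos h0 (by linarith : (0 : ℝ) < Bfd v), mul_nonneg hY (by linarith : 0 ≤ -Afd v)]
  · obtain ⟨h5, h6⟩ := hne h0.symm
    rw [← h0]
    nlinarith

theorem Zn.neg {X Y X' Y' : ℝ} (h : Zn X Y X' Y') : Zn X (-Y) (-X') Y' where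
  X0 := h.X0
  Y'0 := h.Y'0
  om := by have := h.om; linarith
  sgn := by
    rcases h.sgn with ⟨h1, h2, h3⟩ | ⟨h1, h2, h3⟩
    · exact Or.inr ⟨by linarith, by linarith, by linarith⟩
    · exact Or.inl ⟨by linarith, by linarith, by linarith⟩
  ne := fun h0 h1 => h.ne h0 (by linarith)

theorem zn {ga v : ℝ} (hg : 0 < ga) (hg1 : ga ≤ 1 / 8) (h : |v| ≤ 3 / 2)
    (hX : 0 ≤ -(1 - ga) + Af v) : Zn (-(1 - ga) + Af v) (Bf v) (Afd v) (Bfd v) := by
  rcases le_total 0 v with hv | hv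
  · exact (zn_pos hg hg1 hv (by rwa [abs_of_nonneg hv] at h) hX).1
  · have h1 := (zn_pos hg hg1 (by linarith : 0 ≤ -v) (by rwa [abs_of_nonpos hv] at h)
      (by rwa [Af_even])).1.neg
    rw [Af_even, Bf_neg, Afd_neg, Bfd_neg, neg_neg, neg_neg] at h1
    exact h1

/-- **GOOD** on the zone -/
theorem good_zn {X Y X' Y' r t s k : ℝ} (h : Zn X Y X' Y') (hr : 0 < r) (ht : 0 ≤ t) (ht1 : t ≤ 1)
    (hs : 0 < s) (hk : 0 < k) {a Q : ℂ}
    (ha : a = (s : ℂ) * ⟨-(1 - t) * (X * Y' - Y * X') * Y / r + t * X',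
      (1 - t) * (X * Y' - Y * X') * X / r + t * Y'⟩) (hQ : Q = (k : ℂ) * ⟨X, Y⟩) :
    Good a Q ∧ (a.re = 0 → 0 < Q.re) := by
  set ω := X * Y' - Y * X' with hω
  have hω0 : 0 < ω := h.om
  set a1 : ℝ := -(1 - t) * ω * Y / r + t * X' with ha1
  set a2 : ℝ := (1 - t) * ω * X / r + t * Y' with ha2
  have hq : 0 ≤ (1 - t) * ω / r := div_nonneg (mul_nonneg (by linarith) hω0.le) hr.le
  have ha1' : a1 = -((1 - t) * ω / r) * Y + t * X' := by rw [ha1]; ring
  have ha2' : a2 = ((1 - t) * ω / r) * X + t * Y' := by rw [ha2]; ring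
  set q := (1 - t) * ω / r with hqd
  have ha20 : 0 ≤ a2 := by
    rw [ha2']
    exact add_nonneg (mul_nonneg hq h.X0) (mul_nonneg ht h.Y'0.le)
  have hkey : Y * a2 + a1 * X = t * (X * X' + Y * Y') := by rw [ha1', ha2']; ring
  have hprod : 0 ≤ -a1 * (Y * a2 + a1 * X) := by
    rw [hkey]
    rcases h.sgn with ⟨h1, h2, h3⟩ | ⟨h1, h2, h3⟩
    · have h4 : a1 ≤ 0 := by
        rw [ha1']
        nlinarith [mul_nonneg hq h1, mul_nonneg ht (by linarith : 0 ≤ -X')]
      exact mul_nonneg (by linarith) (mul_nonneg ht h3)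
    · have h4 : 0 ≤ a1 := by
        rw [ha1']
        nlinarith [mul_nonneg hq (by linarith : 0 ≤ -Y), mul_nonneg ht h2]
      exact mul_nonneg_of_nonpos_of_nonpos (by linarith) (mul_nonpos_of_nonneg_of_nonpos ht h3)
  constructor
  · intro u hu h0 h1 _
    have h2 : u.re * a1 + u.im * a2 = 0 := by
      rw [ha, rf_real_mul] at h1
      have h3 := (mul_eq_zero.1 h1).resolve_left hs.ne'
      simpa [rf] using h3
    have h5 : jf u Q = k * (u.re * Y - u.im * X) := by
      rw [hQ, jf_real_mul]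
      simp [jf]
    rw [h5]
    have h6 : 0 ≤ u.im * (u.re * Y - u.im * X) := by
      rcases ha20.lt_or_eq with h7 | h7
      · have h8 : u.im = -(u.re * a1) / a2 := by
          rw [eq_div_iff h7.ne']; linarith
        have h9 : u.im * (u.re * Y - u.im * X) =
            (u.re ^ 2 / a2 ^ 2) * (-a1 * (Y * a2 + a1 * X)) := by
          rw [h8]
          field_simp
          ring
        rw [h9]
        exact mul_nonneg (div_nonneg (sq_nonneg _) (sq_nonneg _)) hprod
      · -- `a2 = 0`: `t = 0`, `X = 0`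
        have h8 : t = 0 ∧ q * X = 0 := by
          have h9 := mul_nonneg ht h.Y'0.le
          have h10 := mul_nonneg hq h.X0
          have h11 : t * Y' = 0 := by linarith
          exact ⟨(mul_eq_zero.1 h11).resolve_right h.Y'0.ne', by linarith⟩
        obtain ⟨h9, h10⟩ := h8
        have hq1 : 0 < q := by
          rw [hqd, h9]
          have : (1 - (0 : ℝ)) * ω / r = ω / r := by ring
          rw [this]
          exact div_pos hω0 hr
        have hX : X = 0 := (mul_eq_zero.1 h10).resolve_left hq1.ne'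
        have hY : Y ≠ 0 := by
          intro hY
          rw [hω, hX, hY] at hω0
          simp at hω0
        have ha1ne : a1 ≠ 0 := by
          rw [ha1', h9, zero_mul, add_zero]
          exact mul_ne_zero (neg_ne_zero.2 hq1.ne') hY
        rw [← h7, mul_zero, add_zero] at h2
        have hure : u.re = 0 := (mul_eq_zero.1 h2).resolve_right ha1ne
        rw [hure, hX]
        simp
    calc (0 : ℝ) ≤ k * (u.im * (u.re * Y - u.im * X)) := mul_nonneg hk.le h6
      _ = _ := by ring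
  · intro h1
    rw [ha, Complex.re_ofReal_mul] at h1
    have h2 : a1 = 0 := (mul_eq_zero.1 h1).resolve_left hs.ne'
    rw [hQ, Complex.re_ofReal_mul]
    refine mul_pos hk (lt_of_le_of_ne h.X0 fun h3 => ?_)
    have hX : X = 0 := h3.symm
    have hX' : X' ≠ 0 := h.ne hX
    have hY : Y ≠ 0 := by
      intro hY
      rw [hω, hX, hY] at hω0
      simp at hω0
    rw [ha1'] at h2
    have h4 : q * Y = t * X' := by linarith
    rcases h.sgn with ⟨h5, h6, _⟩ | ⟨h5, h6, _⟩
    · have h7 : 0 ≤ q * Y := mul_nonneg hq h5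
      have h8 : t * X' ≤ 0 := mul_nonpos_of_nonneg_of_nonpos ht h6
      have h9 : t * X' = 0 := by linarith
      have h10 : t = 0 := (mul_eq_zero.1 h9).resolve_right hX'
      have h11 : q * Y = 0 := by linarith
      have h12 : q = 0 := (mul_eq_zero.1 h11).resolve_right hY
      rw [hqd, h10] at h12
      have : (1 - (0 : ℝ)) * ω / r = ω / r := by ring
      rw [this] at h12
      exact (div_pos hω0 hr).ne' h12
    · have h7 : q * Y ≤ 0 := mul_nonpos_of_nonneg_of_nonpos hq h5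
      have h8 : 0 ≤ t * X' := mul_nonneg ht h6
      have h9 : t * X' = 0 := by linarith
      have h10 : t = 0 := (mul_eq_zero.1 h9).resolve_right hX'
      have h11 : q * Y = 0 := by linarith
      have h12 : q = 0 := (mul_eq_zero.1 h11).resolve_right hY
      rw [hqd, h10] at h12
      have : (1 - (0 : ℝ)) * ω / r = ω / r := by ring
      rw [this] at h12
      exact (div_pos hω0 hr).ne' h12

/-! ### the planar function -/

variable {K ga : ℝ} {M : ℕ}

theorem pv_ne (hg : 0 < ga) (hg1 : ga ≤ 1 / 8) (τ : ℝ) : pv ga M τ ≠ 0 := by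
  intro h0
  have hre : (pv ga M τ).re = 0 := by rw [h0]; rfl
  have him : (pv ga M τ).im = 0 := by rw [h0]; rfl
  rcases cases_tau M τ with h | ⟨l, hl, h⟩ | h
  · rw [pv_low (by linarith)] at hre
    simp at hre
    linarith
  · rw [pv_cell hl h] at hre him
    simp at hre him
    set v := τ - sg l
    rcases lt_or_ge |v| 1 with h1 | h1
    · rw [Af_of_le h1.le] at hre
      linarith
    · rcases lt_or_ge 3 |v| with h2 | h2
      · rw [Af_of_ge h2.le] at hre
        linarith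
      · rcases le_total 0 v with hv | hv
        · rw [abs_of_nonneg hv] at h1 h2
          have := Bf_ge_one h1 h2
          linarith
        · rw [abs_of_nonpos hv] at h1 h2
          have := Bf_ge_one h1 h2
          rw [Bf_neg] at this
          linarith
  · rw [pv_high (by linarith)] at hre
    simp at hre
    linarith

theorem pl_ne (hg : 0 < ga) (hg1 : ga ≤ 1 / 8) {z : ℂ} (hz : z ≠ 0) : pl ga M z ≠ 0 := by
  rcases lt_or_ge 0 z.re with h | h
  · rw [pl_of_pos h]
    exact mul_ne_zero (by exact_mod_cast h.ne') (pv_ne hg hg1 _)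
  · rw [pl_of_nonpos h]
    intro h0
    apply hz
    have h1 := congrArg Complex.re h0
    have h2 := congrArg Complex.im h0
    simp at h1 h2
    refine Complex.ext ?_ h2
    rcases h1 with h1 | h1
    · linarith
    · exact h1

/-- the zone `Re pl ≥ 0`, `s > 0` -/
theorem zone (hg : 0 < ga) (hg1 : ga ≤ 1 / 8) {z : ℂ} (hz : 0 < z.re) (h : 0 ≤ (pl ga M z).re) :
    ∃ l < M, |z.im / z.re - sg l| < 3 / 2 ∧ 0 ≤ -(1 - ga) + Af (z.im / z.re - sg l) := by
  rw [pl_of_pos hz, Complex.re_ofReal_mul] at h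
  have h1 : 0 ≤ (pv ga M (z.im / z.re)).re := by
    by_contra h2
    push Not at h2
    have := mul_neg_of_pos_of_neg hz h2
    linarith
  rcases cases_tau M (z.im / z.re) with h2 | ⟨l, hl, h2⟩ | h2
  · rw [pv_low (by linarith)] at h1
    simp at h1
    linarith
  · rw [pv_cell hl h2] at h1
    have h3 : 0 ≤ -(1 - ga) + Af (z.im / z.re - sg l) := by simpa using h1
    refine ⟨l, hl, ?_, h3⟩
    by_contra h4
    push Not at h4
    have := Af_le_of h4
    linarith
  · rw [pv_high (by linarith)] at h1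
    simp at h1
    linarith

end Crest.Agent.R267.GlPl_322
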