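import Crest.Agent.R267.GlnDiff_684
import Crest.Agent.R267.SegN_951

/-!
# Row 267 (helper684): GLN-ALIGN, change of degrees and arcs by a star homeomorphism

`sm p h z = |z|^p cis (h (arg z))`.
-/

set_option autoImplicit false

noncomputable section

open Set Filter Topology
open Crest.Agent.R267.Ang_739 Crest.Agent.R267.GlNDefs_9 Crest.Agent.R267.Hm_951
open Crest.Agent.R267.T3aNDefs_88 Crest.Agent.R267.Cone_808

namespace Crest.Agent.R267.GlnAlign_684

/-! ### star homeomorphisms of the plane -/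

/-- lift of a map of the circle -/
structure CL (h : ℝ → ℝ) : Prop where
  cont : Continuous h
  per : ∀ x, h (x + 2 * Real.pi) = h x + 2 * Real.pi

/-- star map -/
def sm (p : ℝ) (h : ℝ → ℝ) (z : ℂ) : ℂ := pol p (fun x => cis (h x)) z

theorem cis_two_pi (x : ℝ) : cis (x + 2 * Real.pi) = cis x := by
  have := cis_per x 1
  simpa using this

theorem CL.cis {h : ℝ → ℝ} (H : CL h) : Per fun x => cis (h x) := fun x => by
  show Ang_739.cis (h (x + 2 * Real.pi)) = _
  rw [H.per, cis_two_pi]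

theorem sm_eq (p : ℝ) (h : ℝ → ℝ) (z : ℂ) :
    sm p h z = ((‖z‖ ^ p : ℝ) : ℂ) * Complex.exp ((h (Complex.arg z) : ℝ) * Complex.I) := rfl

theorem norm_sm (p : ℝ) (h : ℝ → ℝ) (z : ℂ) : ‖sm p h z‖ = ‖z‖ ^ p := by
  unfold sm pol
  rw [norm_smul, norm_cis, mul_one, Real.norm_of_nonneg (Real.rpow_nonneg (norm_nonneg _) _)]

theorem sm_zero {p : ℝ} (hp : 0 < p) (h : ℝ → ℝ) : sm p h 0 = 0 := pol_zero hp.ne' _

/-- polar functions after a star map -/
theorem pol_sm {F : Type*} [NormedAddCommGroup F] [NormedSpace ℝ F] {q : ℝ → F} (hq : Per q)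
    {D p : ℝ} (hD : D ≠ 0) (hp : 0 < p) (h : ℝ → ℝ) (z : ℂ) :
    pol D q (sm p h z) = pol (p * D) (fun x => q (h x)) z := by
  by_cases hz : z = 0
  · rw [hz, sm_zero hp, pol_zero hD, pol_zero (mul_ne_zero hp.ne' hD)]
  · have hn : 0 < ‖z‖ := norm_pos_iff.2 hz
    rw [sm_eq, pol_polar D hq (Real.rpow_pos_of_pos hn p), ← Real.rpow_mul hn.le]
    rfl

theorem sm_cont {p : ℝ} (hp : 0 < p) {h : ℝ → ℝ} (H : CL h) : Continuous (sm p h) := by
  rw [continuous_iff_continuousAt]
  intro z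
  by_cases hz : z = 0
  · rw [hz]
    unfold ContinuousAt
    rw [sm_zero hp, tendsto_zero_iff_norm_tendsto_zero]
    simp only [norm_sm]
    have h1 : ContinuousAt (fun z : ℂ => ‖z‖ ^ p) 0 :=
      continuous_norm.continuousAt.rpow_const (Or.inr hp.le)
    have h2 := h1.tendsto
    rwa [norm_zero, Real.zero_rpow hp.ne'] at h2
  · have h1 : ContinuousAt (fun z : ℂ => ‖z‖ ^ p) z :=
      continuous_norm.continuousAt.rpow_const (Or.inr hp.le)
    have h2 : ContDiffAt ℝ 0 (fun x => cis (h x)) (Complex.arg z) :=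
      (contDiff_zero.2 ((contDiff_cis (n := 0)).continuous.comp H.cont)).contDiffAt
    exact h1.smul (contDiffAt_ang H.cis hz h2).continuousAt

theorem sm_sm {p p' : ℝ} (hp : 0 < p) (hpp : p' * p = 1) {h g : ℝ → ℝ} (H : CL h)
    (hg : ∀ x, h (g x) = x) (z : ℂ) : sm p h (sm p' g z) = z := by
  have hp' : 0 < p' := by
    rcases lt_trichotomy p' 0 with h1 | h1 | h1
    · nlinarith
    · rw [h1] at hpp; simp at hpp
    · exact h1
  show pol p (fun x => cis (h x)) (sm p' g z) = z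
  rw [pol_sm H.cis hp.ne' hp', hpp]
  show ((‖z‖ ^ (1 : ℝ)) : ℝ) • cis (h (g (Complex.arg z))) = z
  rw [hg, Real.rpow_one, Complex.real_smul]
  exact Complex.norm_mul_exp_arg_mul_I z

/-- the star homeomorphism -/
def smH (p : ℝ) (hp : 0 < p) (h g : ℝ → ℝ) (H : CL h) (G : CL g) (hg : ∀ x, h (g x) = x)
    (gh : ∀ x, g (h x) = x) : ℂ ≃ₜ ℂ where
  toFun := sm p h
  invFun := sm p⁻¹ g
  left_inv z := sm_sm (inv_pos.2 hp) (mul_inv_cancel₀ hp.ne') G gh z
  right_inv z := sm_sm hp (inv_mul_cancel₀ hp.ne') H hg z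
  continuous_toFun := sm_cont hp H
  continuous_invFun := sm_cont (inv_pos.2 hp) G

/-- inverse of a circle diffeomorphism -/
theorem exists_inv {h : ℝ → ℝ} (H : CL h) (hm : StrictMono h) :
    ∃ g : ℝ → ℝ, CL g ∧ (∀ x, h (g x) = x) ∧ ∀ x, g (h x) = x := by
  have hpi : 0 < 2 * Real.pi := by positivity
  have hn : ∀ (n : ℕ) (x : ℝ), h (x + n * (2 * Real.pi)) = h x + n * (2 * Real.pi) := by
    intro n
    induction n with
    | zero => intro x; simp
    | succ n ih =>
      intro x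
      have e : x + ((n + 1 : ℕ) : ℝ) * (2 * Real.pi) = (x + n * (2 * Real.pi)) + 2 * Real.pi := by
        push_cast; ring
      rw [e, H.per, ih]
      push_cast; ring
  have hn' : ∀ (n : ℕ) (x : ℝ), h (x - n * (2 * Real.pi)) = h x - n * (2 * Real.pi) := by
    intro n x
    have := hn n (x - n * (2 * Real.pi))
    rw [sub_add_cancel] at this
    linarith
  have hs : Function.Surjective h := by
    intro y
    obtain ⟨n, hn1⟩ := exists_nat_gt (|y - h 0| / (2 * Real.pi))
    rw [div_lt_iff₀ hpi] at hn1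
    have h1 : h (0 - n * (2 * Real.pi)) ≤ y := by
      rw [hn']; linarith [neg_abs_le (y - h 0)]
    have h2 : y ≤ h (0 + n * (2 * Real.pi)) := by
      rw [hn]; linarith [le_abs_self (y - h 0)]
    have h3 : (0 : ℝ) - n * (2 * Real.pi) ≤ 0 + n * (2 * Real.pi) := by
      have : (0 : ℝ) ≤ n * (2 * Real.pi) := by positivity
      linarith
    obtain ⟨x, -, hx⟩ := intermediate_value_Icc h3 H.cont.continuousOn ⟨h1, h2⟩
    exact ⟨x, hx⟩
  let e : ℝ ≃o ℝ := StrictMono.orderIsoOfSurjective h hm hs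
  have e1 : ∀ x, e x = h x := fun x => rfl
  refine ⟨e.symm, ⟨e.symm.continuous, fun x => ?_⟩, fun x => ?_, fun x => ?_⟩
  · apply e.injective
    rw [e.apply_symm_apply, e1, H.per, ← e1, e.apply_symm_apply]
  · rw [← e1, e.apply_symm_apply]
  · rw [← e1, e.symm_apply_apply]

/-! ### composition with a circle diffeomorphism -/

section Comp

variable {M : ℕ} {a b a' b' : ℕ → ℝ} {h : ℝ → ℝ}

/-- a circle diffeomorphism moving arcs to arcs -/
structure DF (M : ℕ) (a b a' b' : ℕ → ℝ) (h : ℝ → ℝ) : Prop where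
  smooth : ContDiff ℝ 2 h
  per : ∀ x, h (x + 2 * Real.pi) = h x + 2 * Real.pi
  pos : ∀ x, 0 < deriv h x
  val : ∀ i ≤ M + 1, h (a' i) = a i ∧ (i ≤ M → h (b' i) = b i)

theorem DF.mono (H : DF M a b a' b' h) : StrictMono h := strictMono_of_deriv_pos H.pos

theorem DF.cl (H : DF M a b a' b' h) : CL h := ⟨H.smooth.continuous, H.per⟩

theorem DF.wrd (H : DF M a b a' b' h) {e : ℕ → ℝ} {φ : ℝ → ℝ} (W : Wrd e M a b φ) :
    Wrd e M a' b' fun x => φ (h x) where
  smooth := W.smooth.comp H.smooth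
  per x := by rw [H.per, W.per]
  arc i hi x h1 h2 := by
    have h3 : a i ≤ h x := by rw [← (H.val i (by omega)).1]; exact H.mono.monotone h1
    have h4 : h x ≤ b i := by rw [← (H.val i (by omega)).2 hi]; exact H.mono.monotone h2
    obtain ⟨h5, h6⟩ := W.arc i hi (h x) h3 h4
    refine ⟨h5, ?_⟩
    have hd : HasDerivAt (fun x => φ (h x)) (deriv φ (h x) * deriv h x) x :=
      HasDerivAt.comp x ((W.smooth.differentiable (by norm_num)) (h x)).hasDerivAt
        ((H.smooth.differentiable (by norm_num)) x).hasDerivAt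
    rw [hd.deriv, ← mul_assoc]
    exact mul_pos h6 (H.pos x)
  gap i hi x h1 h2 := by
    refine W.gap i hi (h x) ?_ ?_
    · rw [← (H.val i (by omega)).2 hi]; exact H.mono h1
    · rw [← (H.val (i + 1) (by omega)).1]; exact H.mono h2

theorem DF.win (H : DF M a b a' b' h) {lo hi : ℕ} {l : ℝ → ℝ} (W : WinA M a b lo hi l) :
    WinA M a' b' lo hi fun x => l (h x) where
  smooth := W.smooth.comp H.smooth
  per x := by rw [H.per, W.per]
  nn x := W.nn _
  le x := W.le _
  val i hi' x h1 h2 := by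
    refine W.val i hi' (h x) ?_ ?_
    · rw [← (H.val i (by omega)).1]; exact H.mono.monotone h1
    · rw [← (H.val i (by omega)).2 hi']; exact H.mono.monotone h2

end Comp

/-! ### ALIGN -/

theorem sm_act {p : ℝ} (h : ℝ → ℝ) {r : ℝ} (hr : 0 < r) (z : ℂ) :
    sm p h ((r : ℂ) * z) = ((r ^ p : ℝ) : ℂ) * sm p h z := by
  unfold sm
  rw [pol_hom p _ r hr z, Complex.real_smul]

variable {N : ℕ}

/-- **GLN-ALIGN** -/
theorem alignP_of (hD : DiffP) (D : SD N) : AlignP D := by
  intro X hX dg' a' b' hdg' hdg2 har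
  choose h h1 h2 h3 h4 using fun j : Fin N =>
    hD (D.M j) (X.a j) (X.b j) (a' j) (b' j) (hX.arcs j) (har j)
  have H : ∀ j, DF (D.M j) (X.a j) (X.b j) (a' j) (b' j) (h j) := fun j =>
    ⟨h1 j, h2 j, h3 j, h4 j⟩
  choose g g1 g2 g3 using fun j : Fin N => exists_inv (H j).cl (H j).mono
  have hd0 : ∀ j, 0 < X.dg j := fun j => by have := hX.hdg j; linarith
  have hd0' : ∀ j, 0 < dg' j := fun j => by have := hdg' j; linarith
  have hp : ∀ j, 0 < dg' j / X.dg j := fun j => div_pos (hd0' j) (hd0 j)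
  let Y : PD D :=
    { dg := dg'
      ph := fun j x => X.ph j (h j x)
      a := a'
      b := b'
      c := X.c
      lam := fun e j x => X.lam e j (h j x) }
  have hY : Y.Ok :=
    { hdg := hdg'
      hdg2 := hdg2
      arcs := har
      ph := fun j => (H j).wrd (hX.ph j)
      hc := hX.hc
      lam := fun e j hj => (H j).win (hX.lam e j hj) }
  refine ⟨Y, hY, rfl, rfl, rfl, ZEq.symm ?_⟩
  let Φ : (Fin N → ℂ) ≃ₜ (Fin N → ℂ) := Homeomorph.piCongrRight fun j =>
    smH (dg' j / X.dg j) (hp j) (h j) (g j) (H j).cl (g1 j) (g2 j) (g3 j)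
  have hΦ : ∀ z j, Φ z j = sm (dg' j / X.dg j) (h j) (z j) := fun z j => rfl
  have hcd : ∀ e, 0 < cd D e := fun e => by have := SegN_951.cd_two D e; linarith
  have key : ∀ z, Y.fn z = X.fn (Φ z) := by
    intro z
    have k1 : ∀ j, pc (dg' j) 1 (fun x => X.ph j (h j x)) (z j) = pc (X.dg j) 1 (X.ph j) (Φ z j) := by
      intro j
      rw [hΦ]
      unfold pc
      rw [pol_sm (SegN_951.wrd_per (SegN_951.sn_pm D j) (hX.ph j) 1) (hd0 j).ne' (hp j),
        div_mul_cancel₀ _ (hd0 j).ne']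
    have k2 : ∀ e, ∀ j ∈ (D.bx e).S, pol (dg' j / cd D e) (fun x => X.lam e j (h j x)) (z j) =
        pol (X.dg j / cd D e) (X.lam e j) (Φ z j) := by
      intro e j hj
      rw [hΦ, pol_sm (hX.lam e j hj).per (div_pos (hd0 j) (hcd e)).ne' (hp j)]
      congr 1
      have := (hd0 j).ne'
      have := (hcd e).ne'
      field_simp
    unfold PD.fn
    show ∑ j, pc (dg' j) 1 (fun x => X.ph j (h j x)) (z j) -
      ((∑ e, X.c e * ∏ j ∈ (D.bx e).S, pol (dg' j / cd D e) (fun x => X.lam e j (h j x)) (z j) : ℝ)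
        : ℂ) = _
    have k3 : ∑ j, pc (dg' j) 1 (fun x => X.ph j (h j x)) (z j) =
        ∑ j, pc (X.dg j) 1 (X.ph j) (Φ z j) := Finset.sum_congr rfl fun j _ => k1 j
    have k4 : ∑ e, X.c e * ∏ j ∈ (D.bx e).S, pol (dg' j / cd D e) (fun x => X.lam e j (h j x))
        (z j) = ∑ e, X.c e * ∏ j ∈ (D.bx e).S, pol (X.dg j / cd D e) (X.lam e j) (Φ z j) :=
      Finset.sum_congr rfl fun e _ => by rw [Finset.prod_congr rfl (k2 e)]
    rw [k3, k4]
  refine zeq_of_equiv (w := fun j => (dg' j)⁻¹) (w' := fun j => (X.dg j)⁻¹)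
    (fun j => inv_pos.2 (hd0' j)) (fun j => inv_pos.2 (hd0 j)) ?_ Φ ?_ ?_
  · intro s x h0
    rw [SegN_951.pd_wh hX s x, h0, smul_zero]
  · intro s x
    funext j
    rw [hΦ]
    show sm (dg' j / X.dg j) (h j) ((Real.exp (s * (dg' j)⁻¹) : ℂ) * x j) =
      (Real.exp (s * (X.dg j)⁻¹) : ℂ) * Φ x j
    rw [sm_act _ (Real.exp_pos _), hΦ, ← Real.exp_mul]
    congr 3
    have := (hd0 j).ne'
    have := (hd0' j).ne'
    field_simp
  · intro x
    rw [key]

theorem alignP (D : SD N) : AlignP D := alignP_of GlnDiff_684.diffP D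

end Crest.Agent.R267.GlnAlign_684
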