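import Crest.Agent.R267.GlNDefs_9
import Crest.Agent.R267.GlC2b_796
import Crest.Agent.R267.SmoothN_957

/-!
# Row 267, GLN-C2 (helper796): smoothness of the harmonic boxes, `C2P D` for `D : SD N`
-/

set_option autoImplicit false

noncomputable section

open Finset Set Filter Topology
open scoped ContDiff
open Crest.Agent.R267.T3aDefs_957 (st Af Bf pg NN chi gq)
open Crest.Agent.R267.Calc_957 Crest.Agent.R267.Calc2_957
open Crest.Agent.R267.GlueDefs_322 (rho Xe)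
open Crest.Agent.R267.GlC2b_796
open Crest.Agent.R267.T3aNDefs_88

namespace Crest.Agent.R267.GlnC2_796

/-! ### algebra of `Hm` -/

section Hm

variable {ι : Type}

theorem Hm_of_pos {S : Finset ι} {R : ι → ℝ} (h : ∀ j ∈ S, 0 < R j) :
    Hm S R = 1 / ∑ j ∈ S, 1 / R j := by
  unfold Hm
  rw [if_pos h]

theorem Hm_of_nonpos {S : Finset ι} {R : ι → ℝ} {j : ι} (hj : j ∈ S) (h : R j ≤ 0) :
    Hm S R = 0 := by
  unfold Hm
  rw [if_neg]
  intro h'
  exact absurd (h' j hj) (not_lt.2 h)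

theorem Hm_nonneg (S : Finset ι) (R : ι → ℝ) : 0 ≤ Hm S R := by
  by_cases h : ∀ j ∈ S, 0 < R j
  · rw [Hm_of_pos h]
    exact one_div_nonneg.2 (Finset.sum_nonneg fun j hj => one_div_nonneg.2 (h j hj).le)
  · push Not at h
    obtain ⟨j, hj, h⟩ := h
    rw [Hm_of_nonpos hj h]

theorem Hm_congr {S : Finset ι} {R R' : ι → ℝ} (h : ∀ j ∈ S, R j = R' j) : Hm S R = Hm S R' := by
  by_cases h1 : ∀ j ∈ S, 0 < R j
  · rw [Hm_of_pos h1, Hm_of_pos fun j hj => (h j hj) ▸ h1 j hj]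
    congr 1
    exact Finset.sum_congr rfl fun j hj => by rw [h j hj]
  · push Not at h1
    obtain ⟨j, hj, h1⟩ := h1
    rw [Hm_of_nonpos hj h1, Hm_of_nonpos hj ((h j hj) ▸ h1)]

theorem Hm_smul {S : Finset ι} (R : ι → ℝ) {c : ℝ} (hc : 0 < c) :
    Hm S (fun j => c * R j) = c * Hm S R := by
  by_cases h1 : ∀ j ∈ S, 0 < R j
  · rw [Hm_of_pos h1, Hm_of_pos fun j hj => mul_pos hc (h1 j hj)]
    have h2 : ∑ j ∈ S, 1 / (c * R j) = (1 / c) * ∑ j ∈ S, 1 / R j := by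
      rw [Finset.mul_sum]
      exact Finset.sum_congr rfl fun j _ => by rw [one_div_mul_one_div]
    rw [h2, one_div_mul_eq_div, one_div_div, ← mul_one_div]
  · push Not at h1
    obtain ⟨j, hj, h1⟩ := h1
    rw [Hm_of_nonpos hj h1, Hm_of_nonpos hj (mul_nonpos_of_nonneg_of_nonpos hc.le h1), mul_zero]

theorem Hm_split [DecidableEq ι] {S Z : Finset ι} (hZ : Z ⊆ S) (hn : Z.Nonempty) {R : ι → ℝ}
    (h : ∀ j ∈ S \ Z, 0 < R j) :
    Hm S R = Hm Z R / (1 + Hm Z R * ∑ j ∈ S \ Z, 1 / R j) := by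
  by_cases h1 : ∀ j ∈ Z, 0 < R j
  · have h2 : ∀ j ∈ S, 0 < R j := by
      intro j hj
      by_cases hjZ : j ∈ Z
      · exact h1 j hjZ
      · exact h j (Finset.mem_sdiff.2 ⟨hj, hjZ⟩)
    rw [Hm_of_pos h1, Hm_of_pos h2, ← Finset.sum_sdiff hZ]
    have h3 : 0 < ∑ j ∈ Z, 1 / R j := Finset.sum_pos (fun j hj => one_div_pos.2 (h1 j hj)) hn
    have h4 : 0 ≤ ∑ j ∈ S \ Z, 1 / R j :=
      Finset.sum_nonneg fun j hj => one_div_nonneg.2 (h j hj).le
    have h5 : (∑ j ∈ S \ Z, 1 / R j) + ∑ j ∈ Z, 1 / R j ≠ 0 := by positivity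
    have h6 : 1 + 1 / (∑ j ∈ Z, 1 / R j) * ∑ j ∈ S \ Z, 1 / R j ≠ 0 := by positivity
    rw [div_eq_div_iff h5 h6]
    field_simp
    ring
  · push Not at h1
    obtain ⟨j, hj, h1⟩ := h1
    rw [Hm_of_nonpos hj h1, Hm_of_nonpos (hZ hj) h1, zero_div]

end Hm

/-! ### abstract smoothness -/

section Abs

variable {ι : Type} {E : Type*} [NormedAddCommGroup E] [NormedSpace ℝ E]

theorem prod_c2 {S : Finset ι} {w : ι → E → ℝ} {p : E}
    (hw : ∀ j ∈ S, ContDiffAt ℝ 2 (w j) p) : ContDiffAt ℝ 2 (fun x => ∏ j ∈ S, w j x) p :=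
  contDiffAt_prod hw

theorem al0 {S : Finset ι} (hS : S.Nonempty) {R w : ι → E → ℝ} {p : E}
    (hR : ∀ j ∈ S, ContDiffAt ℝ 2 (R j) p) (hp : ∀ j ∈ S, 0 < R j p)
    (hw : ∀ j ∈ S, ContDiffAt ℝ 2 (w j) p) :
    ContDiffAt ℝ 2 (fun x => Hm S (fun j => R j x) * ∏ j ∈ S, w j x) p := by
  have h1 : ∀ᶠ x in 𝓝 p, ∀ j ∈ S, 0 < R j x :=
    (Filter.eventually_all_finset S).2 fun j hj =>
      (hR j hj).continuousAt.eventually (lt_mem_nhds (hp j hj))
  have h2 : (fun x => Hm S (fun j => R j x) * ∏ j ∈ S, w j x) =ᶠ[𝓝 p]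
      fun x => 1 / (∑ j ∈ S, 1 / R j x) * ∏ j ∈ S, w j x := by
    filter_upwards [h1] with x hx
    rw [Hm_of_pos hx]
  refine ContDiffAt.congr_of_eventuallyEq ?_ h2
  refine ContDiffAt.mul ?_ (prod_c2 hw)
  refine contDiffAt_const.div (ContDiffAt.sum fun j hj =>
    contDiffAt_const.div (hR j hj) (hp j hj).ne') ?_
  exact (Finset.sum_pos (fun j hj => one_div_pos.2 (hp j hj)) hS).ne'

theorem al [DecidableEq ι] {S Z : Finset ι} (hZS : Z ⊆ S) (hZ : Z.Nonempty)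
    {R w W : ι → E → ℝ} {p : E}
    (hR : ∀ j ∈ S \ Z, ContDiffAt ℝ 2 (R j) p) (hp : ∀ j ∈ S \ Z, 0 < R j p)
    (hw : ∀ j ∈ S \ Z, ContDiffAt ℝ 2 (w j) p)
    (hB : ContDiffAt ℝ 2 (fun x => Hm Z (fun j => R j x) * ∏ j ∈ Z, w j x) p)
    (hB' : ContDiffAt ℝ 2 (fun x => Hm Z (fun j => R j x) * ∏ j ∈ Z, W j x) p)
    (hW : ∀ j ∈ Z, ∀ x, 0 ≤ W j x) (h1 : ∀ j ∈ Z, ∀ x, w j x ≠ 0 → W j x = 1) :
    ContDiffAt ℝ 2 (fun x => Hm S (fun j => R j x) * ∏ j ∈ S, w j x) p := by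
  have h2 : ∀ᶠ x in 𝓝 p, ∀ j ∈ S \ Z, 0 < R j x :=
    (Filter.eventually_all_finset (S \ Z)).2 fun j hj =>
      (hR j hj).continuousAt.eventually (lt_mem_nhds (hp j hj))
  have h3 : (fun x => Hm S (fun j => R j x) * ∏ j ∈ S, w j x) =ᶠ[𝓝 p]
      fun x => (Hm Z (fun j => R j x) * ∏ j ∈ Z, w j x) * (∏ j ∈ S \ Z, w j x) /
        (1 + (Hm Z (fun j => R j x) * ∏ j ∈ Z, W j x) * ∑ j ∈ S \ Z, 1 / R j x) := by
    filter_upwards [h2] with x hx
    rw [← Finset.prod_sdiff hZS, Hm_split hZS hZ hx]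
    by_cases hw0 : ∏ j ∈ Z, w j x = 0
    · rw [hw0]
      simp
    · have h4 : ∏ j ∈ Z, W j x = 1 :=
        Finset.prod_eq_one fun j hj => h1 j hj x (Finset.prod_ne_zero_iff.1 hw0 j hj)
      rw [h4, mul_one]
      ring
  refine ContDiffAt.congr_of_eventuallyEq ?_ h3
  have h4 : ContDiffAt ℝ 2 (fun x => ∑ j ∈ S \ Z, 1 / R j x) p :=
    ContDiffAt.sum fun j hj => contDiffAt_const.div (hR j hj) (hp j hj).ne'
  refine (hB.mul (prod_c2 hw)).div (contDiffAt_const.add (hB'.mul h4)) ?_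
  have h5 : 0 ≤ Hm Z (fun j => R j p) * ∏ j ∈ Z, W j p :=
    mul_nonneg (Hm_nonneg _ _) (Finset.prod_nonneg fun j hj => hW j hj p)
  have h6 : 0 ≤ ∑ j ∈ S \ Z, 1 / R j p :=
    Finset.sum_nonneg fun j hj => one_div_nonneg.2 (hp j hj).le
  positivity

end Abs

/-! ### windows with bounded support -/

theorem wid_c2 (a b : ℝ) : ContDiff ℝ 2 (wid a b) := by
  have h1 : ContDiff ℝ 2 fun τ : ℝ => st ((τ - (a - 2)) / 2) := contDiff_st.comp (by fun_prop)
  have h2 : ContDiff ℝ 2 fun τ : ℝ => st ((τ - b) / 2) := contDiff_st.comp (by fun_prop)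
  exact h1.mul (contDiff_const.sub h2)

theorem wid_zero (a b τ : ℝ) (h : τ ≤ a - 2 ∨ b + 2 ≤ τ) : wid a b τ = 0 := by
  unfold wid
  rcases h with h | h
  · rw [st_of_le (by linarith : (τ - (a - 2)) / 2 ≤ 0), zero_mul]
  · rw [st_of_ge (by linarith : 1 ≤ (τ - b) / 2), sub_self, mul_zero]

/-- bounded support -/
structure Bd (w : ℝ → ℝ) (a b : ℝ) : Prop where
  c2 : ContDiff ℝ 2 w
  z : ∀ τ, τ ≤ a ∨ b ≤ τ → w τ = 0

theorem Bd.wid (a b : ℝ) : Bd (wid a b) (a - 2) (b + 2) := ⟨wid_c2 a b, wid_zero a b⟩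

theorem Bd.win {w : ℝ → ℝ} {a b : ℝ} (h : Bd w a b) : Win w (GlC2b_796.wid a b) a b where
  cw := h.c2
  cW := wid_c2 a b
  w0 := h.z
  W1 := by
    intro τ h h'
    unfold GlC2b_796.wid
    rw [st_of_ge (by linarith : 1 ≤ (τ - (a - 2)) / 2),
      st_of_le (by linarith : (τ - b) / 2 ≤ 0), sub_zero, mul_one]
  W0 := wid_zero a b
  Wn := fun τ => mul_nonneg (st_nonneg _) (sub_nonneg.2 (st_le_one _))

theorem winN_Bd (m m' : ℕ) : Bd (winN m m') (16 * m - 1) (16 * m' + 1) where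
  c2 := by
    have h1 : ContDiff ℝ 2 fun τ : ℝ => st ((τ - (16 * m - 1)) / 2) :=
      contDiff_st.comp (by fun_prop)
    have h2 : ContDiff ℝ 2 fun τ : ℝ => st ((τ - (16 * m' - 1)) / 2) :=
      contDiff_st.comp (by fun_prop)
    exact h1.mul (contDiff_const.sub h2)
  z := by
    intro τ h
    unfold winN
    rcases h with h | h
    · rw [st_of_le (by linarith : (τ - (16 * (m : ℝ) - 1)) / 2 ≤ 0), zero_mul]
    · rw [st_of_ge (by linarith : 1 ≤ (τ - (16 * (m' : ℝ) - 1)) / 2), sub_self, mul_zero]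

/-! ### the planar boxes of degree 8 -/

section planar

variable {ι : Type} (K : ℝ)

/-- the box function of degree 8 -/
def hf (S : Finset ι) (w : ι → ℝ → ℝ) (z : ι → ℂ) : ℝ :=
  Hm S (fun j => rho K (z j)) * ∏ j ∈ S, w j ((z j).im / (z j).re)

theorem hf_congr {S : Finset ι} (w : ι → ℝ → ℝ) {z z' : ι → ℂ} (h : ∀ j ∈ S, z j = z' j) :
    hf K S w z = hf K S w z' := by
  unfold hf
  rw [Hm_congr fun j hj => by rw [h j hj], Finset.prod_congr rfl fun j hj => by rw [h j hj]]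

/-- a vanishing window kills the box -/
theorem box_zero {S : Finset ι} {R : ι → ℝ} {w : ι → ℝ → ℝ} {z : ι → ℂ} {j : ι} (hj : j ∈ S)
    (hR : (z j).re ≤ 0 → R j ≤ 0) (h : pw (w j) (z j) = 0) :
    Hm S R * ∏ j ∈ S, w j ((z j).im / (z j).re) = 0 := by
  rcases le_or_gt (z j).re 0 with h0 | h0
  · rw [Hm_of_nonpos hj (hR h0), zero_mul]
  · have h1 : w j ((z j).im / (z j).re) = 0 := by
      rcases mul_eq_zero.1 h with h2 | h2
      · rw [max_eq_right h0.le] at h2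
        exact absurd h2 h0.ne'
      · exact h2
    rw [Finset.prod_eq_zero hj h1, mul_zero]

theorem rho_nonpos {z : ℂ} (h : z.re ≤ 0) : rho K z ≤ 0 := by
  rw [rho, max_eq_left h, mul_zero]

theorem rho_pos {z : ℂ} (h : 0 < z.re) : 0 < rho K z := by
  have hz : z ≠ 0 := fun hz => by simp [hz] at h
  rw [rho, max_eq_right h.le]
  exact mul_pos (pow_pos (pg_pos hz) 7) h

theorem re_pos_of_pw {w : ℝ → ℝ} {z : ℂ} (h : pw w z ≠ 0) : 0 < z.re := by
  by_contra hcon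
  apply h
  rw [pw, max_eq_left (not_lt.1 hcon), zero_mul]

theorem rho_c2 {z : ℂ} (h : 0 < z.re) : ContDiffAt ℝ 2 (rho K) z := by
  have hz : z ≠ 0 := fun hz => by simp [hz] at h
  have h1 : ∀ᶠ v : ℂ in 𝓝 z, 0 < v.re :=
    Complex.continuous_re.continuousAt.eventually (lt_mem_nhds h)
  have h2 : rho K =ᶠ[𝓝 z] fun v => pg K v ^ 7 * v.re := by
    filter_upwards [h1] with v hv
    rw [rho, max_eq_right hv.le]
  exact (((pg_c2 K hz).pow 7).mul Complex.reCLM.contDiff.contDiffAt).congr_of_eventuallyEq h2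

variable [Fintype ι]

theorem tauj_c2 {w : ℝ → ℝ} (hw : ContDiff ℝ 2 w) {z : ι → ℂ} {j : ι} (h : 0 < (z j).re) :
    ContDiffAt ℝ 2 (fun v : ι → ℂ => w ((v j).im / (v j).re)) z := by
  have h1 : ContDiffAt ℝ 2 (fun v : ι → ℂ => (v j).im / (v j).re) z :=
    ContDiffAt.comp (g := fun v : ℂ => v.im / v.re) (f := fun v : ι → ℂ => v j) z
      (tau_c2 h.ne') (contDiff_apply ℝ ℂ j).contDiffAt
  exact hw.contDiffAt.comp z h1

theorem hf_c2_aux [DecidableEq ι] {S : Finset ι} {w : ι → ℝ → ℝ} {a b : ι → ℝ}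
    (hw : ∀ j, Bd (w j) (a j) (b j))
    (IH : ∀ Z ⊂ S, Z.Nonempty → ∀ (w : ι → ℝ → ℝ) (a b : ι → ℝ), (∀ j, Bd (w j) (a j) (b j)) →
      ContDiff ℝ 2 (hf K Z w)) {z : ι → ℂ} (hz : ∃ j ∈ S, z j ≠ 0) :
    ContDiffAt ℝ 2 (hf K S w) z := by
  classical
  obtain ⟨j₀, hj₀, hz₀⟩ := hz
  let Z : Finset ι := S.filter fun j => z j = 0
  have hZS : Z ⊆ S := Finset.filter_subset _ _
  have hZ : Z ⊂ S := Finset.filter_ssubset.2 ⟨j₀, hj₀, hz₀⟩
  have hZc : ∀ j ∈ S \ Z, z j ≠ 0 := by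
    intro j hj h
    rw [Finset.mem_sdiff] at hj
    exact hj.2 (Finset.mem_filter.2 ⟨hj.1, h⟩)
  by_cases hA : ∃ j ∈ S \ Z, pw (wid (a j) (b j)) (z j) = 0
  · obtain ⟨j, hj, hA⟩ := hA
    refine (contDiffAt_const (c := (0 : ℝ))).congr_of_eventuallyEq ?_
    filter_upwards [((continuous_apply j).tendsto z).eventually
      ((hw j).win.loc (hZc j hj) hA)] with v hv
    exact box_zero (Finset.mem_sdiff.1 hj).1 (fun h => rho_nonpos K h) hv
  · push Not at hA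
    have hre : ∀ j ∈ S \ Z, 0 < (z j).re := fun j hj => re_pos_of_pw (hA j hj)
    have hR : ∀ j ∈ S \ Z, ContDiffAt ℝ 2 (fun v : ι → ℂ => rho K (v j)) z := fun j hj =>
      ContDiffAt.comp (g := rho K) (f := fun v : ι → ℂ => v j) z (rho_c2 K (hre j hj))
        (contDiff_apply ℝ ℂ j).contDiffAt
    have hp : ∀ j ∈ S \ Z, 0 < rho K (z j) := fun j hj => rho_pos K (hre j hj)
    have hww : ∀ j ∈ S \ Z, ContDiffAt ℝ 2 (fun v : ι → ℂ => w j ((v j).im / (v j).re)) z :=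
      fun j hj => tauj_c2 (hw j).c2 (hre j hj)
    have hgoal : ContDiffAt ℝ 2 (fun v : ι → ℂ => Hm S (fun j => rho K (v j)) *
        ∏ j ∈ S, w j ((v j).im / (v j).re)) z := by
      rcases Z.eq_empty_or_nonempty with h0 | h0
      · have hSZ : S \ Z = S := by rw [h0, Finset.sdiff_empty]
        rw [hSZ] at hR hp hww
        exact al0 (R := fun j (v : ι → ℂ) => rho K (v j))
          (w := fun j (v : ι → ℂ) => w j ((v j).im / (v j).re)) ⟨j₀, hj₀⟩ hR hp hww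
      · have hB : ContDiffAt ℝ 2 (fun v : ι → ℂ => Hm Z (fun j => rho K (v j)) *
            ∏ j ∈ Z, w j ((v j).im / (v j).re)) z := (IH Z hZ h0 w a b hw).contDiffAt
        have hB' : ContDiffAt ℝ 2 (fun v : ι → ℂ => Hm Z (fun j => rho K (v j)) *
            ∏ j ∈ Z, wid (a j) (b j) ((v j).im / (v j).re)) z :=
          (IH Z hZ h0 (fun j => wid (a j) (b j)) (fun j => a j - 2) (fun j => b j + 2)
            fun j => Bd.wid _ _).contDiffAt
        have hW : ∀ j ∈ Z, ∀ v : ι → ℂ, 0 ≤ wid (a j) (b j) ((v j).im / (v j).re) :=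
          fun j _ v => (hw j).win.Wn _
        have h1 : ∀ j ∈ Z, ∀ v : ι → ℂ, w j ((v j).im / (v j).re) ≠ 0 →
            wid (a j) (b j) ((v j).im / (v j).re) = 1 := fun j _ v h => (hw j).win.one h
        exact al (R := fun j (v : ι → ℂ) => rho K (v j))
          (w := fun j (v : ι → ℂ) => w j ((v j).im / (v j).re))
          (W := fun j (v : ι → ℂ) => wid (a j) (b j) ((v j).im / (v j).re)) hZS h0 hR hp hww
          hB hB' hW h1
    exact hgoal

/-- **the boxes of degree 8 are `C²`** -/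
theorem hf_c2 [DecidableEq ι] (S : Finset ι) : S.Nonempty → ∀ (w : ι → ℝ → ℝ) (a b : ι → ℝ),
    (∀ j, Bd (w j) (a j) (b j)) → ContDiff ℝ 2 (hf K S w) := by
  induction S using Finset.strongInduction with
  | H S IH =>
    intro hS w a b hw
    -- the space of the variables of `S`
    let ext : (S → ℂ) →ₗ[ℝ] (ι → ℂ) :=
      { toFun := fun y j => if h : j ∈ S then y ⟨j, h⟩ else 0
        map_add' := by
          intro y y'
          funext j
          by_cases h : j ∈ S <;> simp [h]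
        map_smul' := by
          intro r y
          funext j
          by_cases h : j ∈ S <;> simp [h] }
    let res : (ι → ℂ) →ₗ[ℝ] (S → ℂ) :=
      { toFun := fun z j => z j
        map_add' := fun _ _ => rfl
        map_smul' := fun _ _ => rfl }
    have hext : ∀ (y : S → ℂ) (j : S), ext y j = y j := by
      intro y j
      show (if h : j.1 ∈ S then y ⟨j.1, h⟩ else 0) = y j
      rw [dif_pos j.2]
    have hextc : ContDiff ℝ 2 ext := (LinearMap.toContinuousLinearMap ext).contDiff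
    have hresc : ContDiff ℝ 2 res := (LinearMap.toContinuousLinearMap res).contDiff
    have hg : ContDiff ℝ 2 (fun y : S → ℂ => hf K S w (ext y)) := by
      refine contDiff_of_hom8 (fun y hy => ?_) ?_ ?_
      · obtain ⟨j, hj⟩ := Function.ne_iff.1 hy
        have h1 : ContDiffAt ℝ 2 (hf K S w) (ext y) :=
          hf_c2_aux K hw (fun Z hZ => IH Z hZ) ⟨j.1, j.2, by rw [hext]; exact hj⟩
        exact h1.comp y hextc.contDiffAt
      · obtain ⟨j, hj⟩ := hS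
        show hf K S w (ext 0) = 0
        rw [map_zero]
        unfold hf
        rw [Hm_of_nonpos hj (by rw [rho]; simp), zero_mul]
      · intro r hr y
        rw [map_smul]
        unfold hf
        have h1 : ∀ z : ℂ, rho K (r • z) = r ^ 8 * rho K z := by
          intro z
          have h2 := pw_hom (fun _ => 1) hr z
          unfold pw at h2
          rw [mul_one, mul_one] at h2
          unfold rho
          rw [pg_hom K hr, h2]
          ring
        have h3 : ∀ z : ℂ, (r • z).im / (r • z).re = z.im / z.re := by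
          intro z
          rw [Complex.smul_re, Complex.smul_im, smul_eq_mul, smul_eq_mul,
            mul_div_mul_left _ _ hr.ne']
        have h4 : Hm S (fun j => rho K ((r • ext y) j)) =
            r ^ 8 * Hm S (fun j => rho K (ext y j)) := by
          rw [← Hm_smul _ (pow_pos hr 8)]
          exact Hm_congr fun j _ => h1 _
        rw [h4, smul_eq_mul, mul_assoc]
        congr 2
        exact Finset.prod_congr rfl fun j _ => by rw [Pi.smul_apply, h3]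
    have h5 : hf K S w = fun z => hf K S w (ext (res z)) := by
      funext z
      exact hf_congr K w fun j hj => (hext (res z) ⟨j, hj⟩).symm
    rw [h5]
    exact hg.comp hresc

end planar

/-! ### planar terms of degree 8 -/

theorem plN_hom (ga : ℝ) (e : ℕ → ℝ) (M : ℕ) {r : ℝ} (hr : 0 < r) (z : ℂ) :
    plN ga e M (r • z) = (r : ℂ) * plN ga e M z := by
  unfold plN
  rw [Complex.smul_re, Complex.smul_im, smul_eq_mul, smul_eq_mul, mul_div_mul_left _ _ hr.ne']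
  by_cases h : 0 < z.re
  · rw [if_pos h, if_pos (mul_pos hr h)]
    push_cast
    ring
  · rw [if_neg h, if_neg (by rw [mul_pos_iff_of_pos_left hr]; exact h)]
    push_cast
    ring

theorem P8N_c2 (K ga : ℝ) (e : ℕ → ℝ) (M : ℕ) : ContDiff ℝ 2 (GlNDefs_9.P8N K ga e M) := by
  refine contDiff_of_hom8 (fun z hz => ?_) ?_ ?_
  · exact (Complex.ofRealCLM.contDiff.contDiffAt.comp z ((pg_c2 K hz).pow 7)).mul
      (SmoothN_957.contDiffAt_plN ga e M hz)
  · rw [GlNDefs_9.P8N, pg_zero]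
    simp
  · intro r hr z
    rw [GlNDefs_9.P8N, GlNDefs_9.P8N, pg_hom K hr, plN_hom ga e M hr, Complex.real_smul]
    push_cast
    ring

/-! ### the space -/

section space

open Crest.Agent.R267.GlNDefs_9 (Rx Bx Gx C2P)

variable {N : ℕ} (D : SD N)

theorem xrN_pos {z : Fin N → ℂ} (hz : z ≠ 0) {j : Fin N} (hj : z j ≠ 0) : 0 < D.xr z j :=
  div_pos (pg_pos hj) (GlC2b_796.NN_pos D.K1 hz)

/-- near `z j = 0` the profile is `η x⁷` -/
theorem XeN_loc {z : Fin N → ℂ} (hz : z ≠ 0) {j : Fin N} (hj : z j = 0) {d : ℝ} (hd : 0 < d)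
    (η : ℝ) : ∀ᶠ w in 𝓝 z, Xe d η (D.xr w j) = η / NN D.K1 w ^ 7 * pg D.K (w j) ^ 7 := by
  filter_upwards [SmoothN_957.xr_nhds D hz hj hd] with w hw
  rw [Xe, chi_of_lt hd hw, zero_add, SD.xr, div_pow]
  ring

theorem kap_c2 (η : ℝ) {z : Fin N → ℂ} (hz : z ≠ 0) :
    ContDiffAt ℝ 2 (fun w : Fin N → ℂ => η / NN D.K1 w ^ 7) z :=
  contDiffAt_const.div ((GlC2b_796.NN_c2 D.K1 hz).pow 7)
    (pow_ne_zero 7 (GlC2b_796.NN_pos D.K1 hz).ne')

/-- planar terms -/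
theorem termN_c2 {d : ℝ} (hd : 0 < d) (η ga : ℝ) (e : ℕ → ℝ) (M : ℕ) {z : Fin N → ℂ} (hz : z ≠ 0)
    (j : Fin N) : ContDiffAt ℝ 2 (fun w => (Xe d η (D.xr w j) : ℂ) * plN ga e M (w j)) z := by
  by_cases hj : z j = 0
  · have h1 : (fun w : Fin N → ℂ => (Xe d η (D.xr w j) : ℂ) * plN ga e M (w j)) =ᶠ[𝓝 z]
        fun w => ((η / NN D.K1 w ^ 7 : ℝ) : ℂ) * GlNDefs_9.P8N D.K ga e M (w j) := by
      filter_upwards [XeN_loc D hz hj hd η] with w hw
      rw [hw, GlNDefs_9.P8N]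
      push_cast
      ring
    refine ContDiffAt.congr_of_eventuallyEq ?_ h1
    exact (Complex.ofRealCLM.contDiff.contDiffAt.comp z (kap_c2 D η hz)).mul
      (((P8N_c2 D.K ga e M).comp (contDiff_apply ℝ ℂ j)).contDiffAt)
  · exact (Complex.ofRealCLM.contDiff.contDiffAt.comp z
      ((Xe_c2 d η).contDiffAt.comp z (SmoothN_957.contDiffAt_xr D hz hj))).mul
      (ContDiffAt.comp (g := plN ga e M) (f := fun v : Fin N → ℂ => v j) z
        (SmoothN_957.contDiffAt_plN ga e M hj) (contDiff_apply ℝ ℂ j).contDiffAt)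

theorem ne_of_re {z : Fin N → ℂ} {j : Fin N} (h : 0 < (z j).re) : z j ≠ 0 :=
  fun h' => by rw [h', Complex.zero_re] at h; exact lt_irrefl _ h

theorem Rx_c2 (d η : ℝ) {z : Fin N → ℂ} (hz : z ≠ 0) {j : Fin N} (h : 0 < (z j).re) :
    ContDiffAt ℝ 2 (fun v => Rx D (Xe d η) v j) z := by
  have h1 : ∀ᶠ v : Fin N → ℂ in 𝓝 z, 0 < (v j).re :=
    (Complex.continuous_re.comp (continuous_apply j)).continuousAt.eventually (lt_mem_nhds h)
  have h2 : (fun v => Rx D (Xe d η) v j) =ᶠ[𝓝 z] fun v => Xe d η (D.xr v j) * (v j).re := by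
    filter_upwards [h1] with v hv
    rw [Rx, max_eq_right hv.le]
  refine ContDiffAt.congr_of_eventuallyEq ?_ h2
  exact ((Xe_c2 d η).contDiffAt.comp z (SmoothN_957.contDiffAt_xr D hz (ne_of_re h))).mul
    (ContDiffAt.comp (g := fun v : ℂ => v.re) (f := fun v : Fin N → ℂ => v j) z
      Complex.reCLM.contDiff.contDiffAt (contDiff_apply ℝ ℂ j).contDiffAt)

theorem Rx_pos {d η : ℝ} (hη : 0 < η) {z : Fin N → ℂ} (hz : z ≠ 0) {j : Fin N}
    (h : 0 < (z j).re) : 0 < Rx D (Xe d η) z j := by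
  rw [Rx, max_eq_right h.le]
  exact mul_pos (Xe_pos hη (xrN_pos D hz (ne_of_re h))) h

theorem Rx_nonpos (X : ℝ → ℝ) {z : Fin N → ℂ} {j : Fin N} (h : (z j).re ≤ 0) :
    Rx D X z j ≤ 0 := by
  rw [Rx, max_eq_left h, mul_zero]

theorem Rx_loc {z : Fin N → ℂ} (hz : z ≠ 0) {j : Fin N} (hj : z j = 0) {d : ℝ} (hd : 0 < d)
    (η : ℝ) : ∀ᶠ v in 𝓝 z, Rx D (Xe d η) v j = η / NN D.K1 v ^ 7 * rho D.K (v j) := by
  filter_upwards [XeN_loc D hz hj hd η] with v hv
  rw [Rx, hv, rho]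
  ring

/-- the boxes over the set `Z` of small variables -/
theorem boxZ_c2 {d η : ℝ} (hd : 0 < d) (hη : 0 < η) {z : Fin N → ℂ} (hz : z ≠ 0)
    {Z : Finset (Fin N)} (hZ : Z.Nonempty) (hZ0 : ∀ j ∈ Z, z j = 0) {w : Fin N → ℝ → ℝ}
    {a b : Fin N → ℝ} (hw : ∀ j, Bd (w j) (a j) (b j)) :
    ContDiffAt ℝ 2 (fun v : Fin N → ℂ => Hm Z (fun j => Rx D (Xe d η) v j) *
      ∏ j ∈ Z, w j ((v j).im / (v j).re)) z := by
  have h1 : ∀ᶠ v in 𝓝 z, ∀ j ∈ Z, Rx D (Xe d η) v j = η / NN D.K1 v ^ 7 * rho D.K (v j) :=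
    (Filter.eventually_all_finset Z).2 fun j hj => Rx_loc D hz (hZ0 j hj) hd η
  have h2 : ∀ᶠ v in 𝓝 z, v ≠ 0 := isOpen_ne.mem_nhds hz
  have h3 : (fun v : Fin N → ℂ => Hm Z (fun j => Rx D (Xe d η) v j) *
      ∏ j ∈ Z, w j ((v j).im / (v j).re)) =ᶠ[𝓝 z]
      fun v => η / NN D.K1 v ^ 7 * hf D.K Z w v := by
    filter_upwards [h1, h2] with v hv hv0
    have h4 : 0 < η / NN D.K1 v ^ 7 := div_pos hη (pow_pos (GlC2b_796.NN_pos D.K1 hv0) 7)
    rw [hf, Hm_congr hv, Hm_smul _ h4, mul_assoc]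
  exact ((kap_c2 D η hz).mul (hf_c2 D.K Z hZ w a b hw).contDiffAt).congr_of_eventuallyEq h3

theorem box_c2 {d η : ℝ} (hd : 0 < d) (hη : 0 < η) {z : Fin N → ℂ} (hz : z ≠ 0)
    {S : Finset (Fin N)} (hS : S.Nonempty) {w : Fin N → ℝ → ℝ}
    {a b : Fin N → ℝ} (hw : ∀ j, Bd (w j) (a j) (b j)) :
    ContDiffAt ℝ 2 (fun v : Fin N → ℂ => Hm S (fun j => Rx D (Xe d η) v j) *
      ∏ j ∈ S, w j ((v j).im / (v j).re)) z := by
  classical
  let Z : Finset (Fin N) := S.filter fun j => z j = 0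
  have hZS : Z ⊆ S := Finset.filter_subset _ _
  have hZ0 : ∀ j ∈ Z, z j = 0 := fun j hj => (Finset.mem_filter.1 hj).2
  have hZc : ∀ j ∈ S \ Z, z j ≠ 0 := by
    intro j hj h
    rw [Finset.mem_sdiff] at hj
    exact hj.2 (Finset.mem_filter.2 ⟨hj.1, h⟩)
  by_cases hA : ∃ j ∈ S \ Z, pw (wid (a j) (b j)) (z j) = 0
  · obtain ⟨j, hj, hA⟩ := hA
    refine (contDiffAt_const (c := (0 : ℝ))).congr_of_eventuallyEq ?_
    filter_upwards [((continuous_apply j).tendsto z).eventually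
      ((hw j).win.loc (hZc j hj) hA)] with v hv
    exact box_zero (Finset.mem_sdiff.1 hj).1 (fun h => Rx_nonpos D _ h) hv
  · push Not at hA
    have hre : ∀ j ∈ S \ Z, 0 < (z j).re := fun j hj => re_pos_of_pw (hA j hj)
    have hR : ∀ j ∈ S \ Z, ContDiffAt ℝ 2 (fun v => Rx D (Xe d η) v j) z := fun j hj =>
      Rx_c2 D d η hz (hre j hj)
    have hp : ∀ j ∈ S \ Z, 0 < Rx D (Xe d η) z j := fun j hj => Rx_pos D hη hz (hre j hj)
    have hww : ∀ j ∈ S \ Z, ContDiffAt ℝ 2 (fun v : Fin N → ℂ => w j ((v j).im / (v j).re)) z :=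
      fun j hj => tauj_c2 (hw j).c2 (hre j hj)
    rcases Z.eq_empty_or_nonempty with h0 | h0
    · have hSZ : S \ Z = S := by rw [h0, Finset.sdiff_empty]
      rw [hSZ] at hR hp hww
      exact al0 (R := fun j (v : Fin N → ℂ) => Rx D (Xe d η) v j)
        (w := fun j (v : Fin N → ℂ) => w j ((v j).im / (v j).re)) hS hR hp hww
    · have hB := boxZ_c2 D hd hη hz h0 hZ0 hw
      have hB' := boxZ_c2 D hd hη hz h0 hZ0 (w := fun j => wid (a j) (b j)) (a := fun j => a j - 2)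
        (b := fun j => b j + 2) fun j => Bd.wid _ _
      have hW : ∀ j ∈ Z, ∀ v : Fin N → ℂ, 0 ≤ wid (a j) (b j) ((v j).im / (v j).re) :=
        fun j _ v => (hw j).win.Wn _
      have h1 : ∀ j ∈ Z, ∀ v : Fin N → ℂ, w j ((v j).im / (v j).re) ≠ 0 →
          wid (a j) (b j) ((v j).im / (v j).re) = 1 := fun j _ v h => (hw j).win.one h
      exact al (R := fun j (v : Fin N → ℂ) => Rx D (Xe d η) v j)
        (w := fun j (v : Fin N → ℂ) => w j ((v j).im / (v j).re))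
        (W := fun j (v : Fin N → ℂ) => wid (a j) (b j) ((v j).im / (v j).re)) hZS h0 hR hp hww
        hB hB' hW h1

theorem BxN_c2 {d η : ℝ} (hd : 0 < d) (hη : 0 < η) (e : Fin D.nb) {z : Fin N → ℂ}
    (hz : z ≠ 0) : ContDiffAt ℝ 2 (Bx D (Xe d η) e) z := by
  have hS : (D.bx e).S.Nonempty := by
    rw [← Finset.card_pos]
    have := D.h2 e
    omega
  exact box_c2 D hd hη hz hS (w := fun j => winN ((D.bx e).lo j) ((D.bx e).hi j))
    fun j => winN_Bd _ _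

/-- **GLN-C2** -/
theorem c2P : C2P D := by
  intro cB ga d η hd hη z hz
  refine ContDiffAt.contDiffWithinAt ?_
  have hz' : z ≠ 0 := hz
  have h1 : ContDiffAt ℝ 2 (fun w : Fin N → ℂ =>
      ∑ j, (Xe d η (D.xr w j) : ℂ) * plN ga (D.sn j) (D.M j) (w j)) z :=
    ContDiffAt.sum fun j _ => termN_c2 D hd η ga (D.sn j) (D.M j) hz' j
  have h2 : ContDiffAt ℝ 2 (fun w : Fin N → ℂ =>
      (cB * ga * ∑ e, Bx D (Xe d η) e w : ℝ)) z :=
    contDiffAt_const.mul (ContDiffAt.sum fun e _ => BxN_c2 D hd hη e hz')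
  exact h1.sub (Complex.ofRealCLM.contDiff.contDiffAt.comp z h2)

end space

/-! ### `F8N` -/

/-- the lobed function of degree 8 is `C²` -/
theorem F8N_c2 {N : ℕ} (D : SD N) (K cB ga : ℝ) : ContDiff ℝ 2 (GlNDefs_9.F8N D K cB ga) := by
  have h1 : ContDiff ℝ 2 (fun z : Fin N → ℂ =>
      ∑ j, GlNDefs_9.P8N K ga (D.sn j) (D.M j) (z j)) :=
    ContDiff.sum fun j _ => (P8N_c2 K ga (D.sn j) (D.M j)).comp (contDiff_apply ℝ ℂ j)
  have h2 : ContDiff ℝ 2 (fun z : Fin N → ℂ => (cB * ga * ∑ e, hf K (D.bx e).S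
      (fun j => winN ((D.bx e).lo j) ((D.bx e).hi j)) z : ℝ)) := by
    refine contDiff_const.mul (ContDiff.sum fun e _ => ?_)
    have hS : (D.bx e).S.Nonempty := by
      rw [← Finset.card_pos]
      have := D.h2 e
      omega
    exact hf_c2 K _ hS _ _ _ fun j => winN_Bd _ _
  exact h1.sub (Complex.ofRealCLM.contDiff.comp h2)

end Crest.Agent.R267.GlnC2_796
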