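import Crest.Agent.R267.GlNDefs_9
import Crest.Agent.R267.GlCont_649
import Crest.Agent.R267.SmoothN_957
import Crest.Agent.R267.CalcN_88

/-!
# Row 267, GLN-CONT (helper291): `GlNDefs_9.ContP`

Port of `GlCont_649` to signed lobes and boxes. `hm_insert` : the harmonic combination is an iterated
quotient `a b / (a + b)`, so `pd_Hm` (induction on the box) follows from `GlCont_649.PD.quot`.
-/

set_option autoImplicit false

noncomputable section

open Finset Set Filter Topology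
open Crest.Agent.R267.T3aDefs_957 (st Af Bf pg NN chi LD)
open Crest.Agent.R267.T3aNDefs_88 Crest.Agent.R267.GlNDefs_9
open Crest.Agent.R267.GlueDefs_322 (Xe)
open Crest.Agent.R267.GlCont_649 (wf wide contDiff_wide wide_far wide_nonneg contDiffAt_wf wf_hom
  Xe_nonneg pd_term pd_wide)

namespace Crest.Agent.R267.GlnCont_291

/-! ### the harmonic combination -/

section Hm

variable {ι : Type}

theorem hm_congr {S : Finset ι} {R R' : ι → ℝ} (h : ∀ j ∈ S, R j = R' j) : Hm S R = Hm S R' := by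
  unfold Hm
  have e1 : (∀ j ∈ S, 0 < R j) ↔ ∀ j ∈ S, 0 < R' j :=
    forall₂_congr fun j hj => by rw [h j hj]
  have e2 : ∑ j ∈ S, 1 / R j = ∑ j ∈ S, 1 / R' j := sum_congr rfl fun j hj => by rw [h j hj]
  rw [e2]
  by_cases h1 : ∀ j ∈ S, 0 < R' j
  · rw [if_pos h1, if_pos (e1.2 h1)]
  · rw [if_neg h1, if_neg fun h2 => h1 (e1.1 h2)]

theorem hm_nonneg {S : Finset ι} {R : ι → ℝ} : 0 ≤ Hm S R := by
  unfold Hm
  split_ifs with h
  · exact div_nonneg zero_le_one (sum_nonneg fun j hj => div_nonneg zero_le_one (h j hj).le)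
  · exact le_rfl

theorem hm_singleton (j : ι) {R : ι → ℝ} (h : 0 ≤ R j) : Hm {j} R = R j := by
  unfold Hm
  by_cases h1 : 0 < R j
  · rw [if_pos (by intro i hi; rw [mem_singleton.1 hi]; exact h1), sum_singleton, one_div_one_div]
  · rw [if_neg fun h2 => h1 (h2 j (mem_singleton_self j))]
    exact (le_antisymm (not_lt.1 h1) h).symm

theorem hm_insert [DecidableEq ι] {S : Finset ι} (hS : S.Nonempty) {j : ι} (hj : j ∉ S)
    {R : ι → ℝ} (h : ∀ i ∈ insert j S, 0 ≤ R i) :
    Hm (insert j S) R = R j * Hm S R / (R j + Hm S R) := by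
  by_cases h1 : 0 < R j
  · by_cases h2 : ∀ i ∈ S, 0 < R i
    · have e1 : Hm S R = 1 / ∑ i ∈ S, 1 / R i := if_pos h2
      have e2 : Hm (insert j S) R = 1 / ∑ i ∈ insert j S, 1 / R i := if_pos (by
        intro i hi
        rcases mem_insert.1 hi with rfl | hi
        · exact h1
        · exact h2 i hi)
      have h3 : 0 < ∑ i ∈ S, 1 / R i := sum_pos (fun i hi => one_div_pos.2 (h2 i hi)) hS
      rw [e1, e2, sum_insert hj]
      have h4 : R j ≠ 0 := h1.ne'
      have h5 : ∑ i ∈ S, 1 / R i ≠ 0 := h3.ne'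
      generalize ∑ i ∈ S, 1 / R i = σ at *
      have h6 : R j * σ + 1 ≠ 0 := by positivity
      have h7 : 1 + R j * σ ≠ 0 := by positivity
      field_simp
      ring
    · have e1 : Hm S R = 0 := if_neg h2
      have e2 : Hm (insert j S) R = 0 := if_neg fun h3 => h2 fun i hi =>
        h3 i (mem_insert_of_mem hi)
      rw [e1, e2]
      simp
  · have e1 : R j = 0 := le_antisymm (not_lt.1 h1) (h j (mem_insert_self _ _))
    have e2 : Hm (insert j S) R = 0 := if_neg fun h3 => h1 (h3 j (mem_insert_self _ _))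
    rw [e1, e2]
    simp

end Hm

/-! ### families -/

section fam

variable {E F : Type*} [NormedAddCommGroup E] [NormedSpace ℝ E] [NormedAddCommGroup F]
  [NormedSpace ℝ F] {U : Set E}

theorem PD.congr' (hU : IsOpen U) {a b : ℝ → E → F} (ha : GlCont_649.PD U a)
    (h : ∀ η, 0 ≤ η → ∀ z ∈ U, b η z = a η z) : GlCont_649.PD U b := by
  have he : ∀ η, 0 ≤ η → ∀ z ∈ U, b η =ᶠ[𝓝 z] a η := fun η hη z hz => by
    filter_upwards [hU.mem_nhds hz] with w hw
    exact h η hη w hw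
  refine ⟨ha.cont.congr fun p hp => h _ hp.1 _ hp.2, fun η hη z hz =>
    (ha.diff η hη z hz).congr_of_eventuallyEq (he η hη z hz), ha.dcont.congr fun p hp =>
    (he _ hp.1 _ hp.2).fderiv_eq⟩

theorem pd_Hm (hU : IsOpen U) {ι : Type} (S : Finset ι) (hS : S.Nonempty) (A C : ι → ℝ → E → ℝ)
    (W : ι → E → ℝ) (hA : ∀ j ∈ S, GlCont_649.PD U (A j)) (hC : ∀ j ∈ S, GlCont_649.PD U (C j))
    (h0 : ∀ j ∈ S, ∀ η, 0 ≤ η → ∀ z ∈ U, 0 ≤ A j η z)
    (hW : ∀ j ∈ S, ∀ z, 0 ≤ W j z ∧ W j z ≤ 1)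
    (hCW : ∀ j ∈ S, ∀ η z, C j η z = A j η z * W j z) :
    GlCont_649.PD U (fun η z => Hm S fun j => A j η z) ∧
      GlCont_649.PD U (fun η z => (Hm S fun j => A j η z) * ∏ j ∈ S, W j z) := by
  classical
  induction S using Finset.induction_on with
  | empty => exact absurd hS (by simp)
  | insert j S hj ih =>
    rcases S.eq_empty_or_nonempty with rfl | hne
    · have hj0 : j ∈ insert j (∅ : Finset ι) := mem_insert_self _ _
      have e0 : insert j (∅ : Finset ι) = {j} := rfl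
      rw [e0] at *
      refine ⟨PD.congr' hU (hA j hj0) fun η hη z hz => hm_singleton j (h0 j hj0 η hη z hz),
        PD.congr' hU (hC j hj0) fun η hη z hz => ?_⟩
      rw [hm_singleton j (h0 j hj0 η hη z hz), Finset.prod_singleton, hCW j hj0]
    · have hj0 : j ∈ insert j S := mem_insert_self _ _
      obtain ⟨ih1, ih2⟩ := ih hne (fun i hi => hA i (mem_insert_of_mem hi))
        (fun i hi => hC i (mem_insert_of_mem hi)) (fun i hi => h0 i (mem_insert_of_mem hi))
        (fun i hi => hW i (mem_insert_of_mem hi)) (fun i hi => hCW i (mem_insert_of_mem hi))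
      have hP0 : ∀ z, 0 ≤ ∏ i ∈ S, W i z := fun z =>
        prod_nonneg fun i hi => (hW i (mem_insert_of_mem hi) z).1
      have hP1 : ∀ z, ∏ i ∈ S, W i z ≤ 1 := fun z =>
        prod_le_one (fun i hi => (hW i (mem_insert_of_mem hi) z).1)
          fun i hi => (hW i (mem_insert_of_mem hi) z).2
      refine ⟨PD.congr' hU (GlCont_649.PD.quot hU (hA j hj0) ih1 (hA j hj0) ih1
        (fun η hη z hz => ⟨h0 j hj0 η hη z hz, le_rfl⟩) fun η hη z hz => ⟨hm_nonneg, le_rfl⟩)
        fun η hη z hz => hm_insert hne hj fun i hi => h0 i hi η hη z hz,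
        PD.congr' hU (GlCont_649.PD.quot hU (hA j hj0) ih1 (hC j hj0) ih2
        (fun η hη z hz => ?_) fun η hη z hz => ?_) fun η hη z hz => ?_⟩
      · rw [hCW j hj0]
        have h1 := h0 j hj0 η hη z hz
        exact ⟨mul_nonneg h1 (hW j hj0 z).1, mul_le_of_le_one_right h1 (hW j hj0 z).2⟩
      · exact ⟨mul_nonneg hm_nonneg (hP0 z), mul_le_of_le_one_right hm_nonneg (hP1 z)⟩
      · rw [hm_insert hne hj fun i hi => h0 i hi η hη z hz, prod_insert hj, hCW j hj0]
        ring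

end fam

/-! ### the gauges -/

variable {N : ℕ} (D : SD N)

/-- data of `T3aDefs_957` with the same gauges -/
def aux : LD N where
  M := fun j => 2 * D.M j
  hM := fun j => by have := D.hM j; omega
  C := ∅
  hC := by simp

theorem aux_K1 : (aux D).K1 = D.K1 := by
  unfold LD.K1 SD.K1 LD.Mx SD.Mx aux
  simp only
  rw [← Finset.mul_sum]
  push_cast
  ring

theorem aux_K : (aux D).K = D.K := by
  unfold LD.K SD.K
  rw [aux_K1]

theorem aux_xr (z : Fin N → ℂ) (j : Fin N) : (aux D).xr z j = D.xr z j := by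
  unfold LD.xr SD.xr
  rw [aux_K1, aux_K]

theorem xr_nonneg (z : Fin N → ℂ) (j : Fin N) : 0 ≤ D.xr z j := by
  rw [← aux_xr]
  exact GlCont_649.xr_nonneg _ z j

/-! ### planar functions and windows -/

theorem plN_hom (ga : ℝ) (e : ℕ → ℝ) (M : ℕ) {r : ℝ} (hr : 0 < r) (z : ℂ) :
    plN ga e M (r • z) = r • plN ga e M z := by
  have e1 : (r • z).re = r * z.re := by simp
  have e2 : (r • z).im = r * z.im := by simp
  unfold plN
  rw [e1, e2, mul_div_mul_left _ _ hr.ne']
  have h1 : (0 < r * z.re) ↔ 0 < z.re := by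
    constructor
    · intro h
      exact (pos_iff_pos_of_mul_pos h).1 hr
    · exact mul_pos hr
  simp only [h1, Complex.real_smul, Complex.ofReal_mul]
  split_ifs <;> ring

theorem winN_far' (m m' : ℕ) (τ : ℝ) (h : 8 * ((2 * m' : ℕ) : ℝ) + 1 ≤ |τ|) :
    winN m m' τ = 0 := by
  refine CalcN_88.winN_far ?_
  push_cast at h
  linarith

theorem wide_one {m m' : ℕ} {τ : ℝ} (h : winN m m' τ ≠ 0) : wide (2 * m') τ = 1 := by
  have h0 : (0 : ℝ) ≤ m := m.cast_nonneg
  have h1 : -1 < τ := by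
    by_contra h2
    exact h (SmoothN_957.winN_low (by linarith [not_lt.1 h2]))
  have h3 : τ < 16 * (m' : ℝ) + 1 := by
    by_contra h2
    exact h (SmoothN_957.winN_high (not_lt.1 h2))
  unfold wide
  push_cast
  rw [Calc_957.st_of_ge (by linarith : 1 ≤ τ + 2),
    Calc_957.st_of_le (by linarith : τ - (8 * (2 * (m' : ℝ)) + 1) ≤ 0)]
  ring

/-! ### the terms -/

theorem pd_pl {d : ℝ} (hd : 0 < d) (ga : ℝ) (j : Fin N) :
    GlCont_649.PD ({0}ᶜ : Set (Fin N → ℂ)) fun η z =>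
      Xe d η (D.xr z j) • plN ga (D.sn j) (D.M j) (z j) := by
  refine (pd_term (aux D) hd (g := plN ga (D.sn j) (D.M j))
    (fun _ hz => SmoothN_957.contDiffAt_plN ga _ _ hz) (fun _ hr z => plN_hom ga _ _ hr z) j).congr
    fun η z => ?_
  rw [aux_xr]

theorem pd_wd {d : ℝ} (hd : 0 < d) (M : ℕ) (j : Fin N) :
    GlCont_649.PD ({0}ᶜ : Set (Fin N → ℂ)) fun η z =>
      Xe d η (D.xr z j) * wf (wide M) (z j) := by
  refine (pd_wide (aux D) hd M j).congr fun η z => ?_
  rw [aux_xr, smul_eq_mul]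

theorem pd_wn {d : ℝ} (hd : 0 < d) (m m' : ℕ) (j : Fin N) :
    GlCont_649.PD ({0}ᶜ : Set (Fin N → ℂ)) fun η z =>
      Xe d η (D.xr z j) * wf (winN m m') (z j) := by
  refine (pd_term (aux D) hd (g := wf (winN m m'))
    (fun _ hz => contDiffAt_wf (SmoothN_957.contDiff_winN m m') (winN_far' m m') hz)
    (fun _ hr z => wf_hom _ hr z) j).congr fun η z => ?_
  rw [aux_xr, smul_eq_mul]

theorem Bx_eq (X : ℝ → ℝ) (e : Fin D.nb) (z : Fin N → ℂ) :
    Bx D X e z = (Hm (D.bx e).S fun j => X (D.xr z j) * wf (wide (2 * (D.bx e).hi j)) (z j)) *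
      ∏ j ∈ (D.bx e).S, winN ((D.bx e).lo j) ((D.bx e).hi j) ((z j).im / (z j).re) := by
  unfold Bx
  by_cases h : ∀ j ∈ (D.bx e).S,
      winN ((D.bx e).lo j) ((D.bx e).hi j) ((z j).im / (z j).re) ≠ 0
  · congr 1
    refine hm_congr fun j hj => ?_
    unfold Rx wf
    rw [wide_one (h j hj), mul_one]
  · simp only [not_forall, not_not] at h
    obtain ⟨j, hj, h0⟩ := h
    rw [prod_eq_zero hj h0, mul_zero, mul_zero]

theorem pd_Bx {d : ℝ} (hd : 0 < d) (e : Fin D.nb) :
    GlCont_649.PD ({0}ᶜ : Set (Fin N → ℂ)) fun η z => Bx D (Xe d η) e z := by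
  have hne : (D.bx e).S.Nonempty := card_pos.1 (by have := D.h2 e; omega)
  refine (pd_Hm isOpen_compl_singleton (D.bx e).S hne
    (fun j η z => Xe d η (D.xr z j) * wf (wide (2 * (D.bx e).hi j)) (z j))
    (fun j η z => Xe d η (D.xr z j) * wf (winN ((D.bx e).lo j) ((D.bx e).hi j)) (z j))
    (fun j z => winN ((D.bx e).lo j) ((D.bx e).hi j) ((z j).im / (z j).re))
    (fun j _ => pd_wd D hd _ j) (fun j _ => pd_wn D hd _ _ j) (fun j _ η hη z _ => ?_)
    (fun j _ z => ⟨CalcN_88.winN_nonneg _ _ _, CalcN_88.winN_le_one _ _ _⟩)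
    fun j _ η z => ?_).2.congr fun η z => Bx_eq D _ e z
  · exact mul_nonneg (Xe_nonneg d hη (xr_nonneg D z j))
      (mul_nonneg (le_max_left _ _) (wide_nonneg _ _))
  · simp only [wf]
    by_cases h : winN ((D.bx e).lo j) ((D.bx e).hi j) ((z j).im / (z j).re) = 0
    · rw [h]
      ring
    · rw [wide_one h]
      ring

theorem pd_Gx {d : ℝ} (hd : 0 < d) (cB ga : ℝ) :
    GlCont_649.PD ({0}ᶜ : Set (Fin N → ℂ)) fun η z => Gx D (Xe d η) cB ga z := by
  have h1 : GlCont_649.PD ({0}ᶜ : Set (Fin N → ℂ)) fun η z =>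
      ∑ j, Xe d η (D.xr z j) • plN ga (D.sn j) (D.M j) (z j) :=
    GlCont_649.PD.sum univ fun j _ => pd_pl D hd ga j
  have h2 : GlCont_649.PD ({0}ᶜ : Set (Fin N → ℂ)) fun η z => ∑ e, Bx D (Xe d η) e z :=
    GlCont_649.PD.sum univ fun e _ => pd_Bx D hd e
  have h3 := h2.clm ((cB * ga) • Complex.ofRealCLM)
  refine (h1.sub h3).congr fun η z => ?_
  unfold Gx
  congr 1
  simp only [smul_apply, Complex.ofRealCLM_apply, Complex.real_smul]
  push_cast
  ring

/-- **GLN-CONT** -/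
theorem contP : ContP D := fun cB ga _ hd _ =>
  ⟨(pd_Gx D hd cB ga).cont, (pd_Gx D hd cB ga).dcont⟩

end Crest.Agent.R267.GlnCont_291

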