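import Crest.Agent.R267.GlNDefs_9
import Crest.Agent.R267.GlBas_322
import Crest.Agent.R267.T3aNBas_277

/-!
# Row 267 (helper125): GLN-HOMEO and GLUE-HOMEO

`Ψ z j = X (pg K z_j / NN K1 z) z_j` is a continuous positively homogeneous bijection of `ℂ^N`
(`X` continuous, positive for `x > 0`, monotone), and `Gx X z = Gx 1 (Ψ z)`. So the links of
`Gx X` and `Gx 1` are homeomorphic.
-/

set_option autoImplicit false

noncomputable section

open Finset Set Filter Topology
open Crest.Agent.R267.T3aDefs_957 (gq pg NN LD pl win)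
open Crest.Agent.R267.Hm_951 Crest.Agent.R267.Cone_808
open Crest.Agent.R267.GlueDefs_322 (Prf)
open Crest.Agent.R267.Calc2_957 (hasFDerivAt_gq gA_nonneg gB_nonneg le_gq le_gq' gq_le gA gB)
open Crest.Agent.R267.Calc3_957 (AA BB AA_nonneg BB_nonneg re_sq_le_AA im_sq_le_BB AA_add_BB_ne NN_sq)
open Crest.Agent.R267.GlBas_322 (gq_smul gq_nonneg gq_pos pg_smul pg_real_smul pg_zero pg_nonneg
  pg_pos NN_smul NN_nonneg NN_zero NN_pos)

namespace Crest.Agent.R267.GlnHomeo_125

/-! ### homogeneous bijections -/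

section hom

variable {ι : Type} [Fintype ι]

theorem nsq_smul (l : ℝ) (x : ι → ℂ) : nsq (l • x) = l ^ 2 * nsq x := by
  unfold nsq
  rw [Finset.mul_sum]
  refine Finset.sum_congr rfl fun j _ => ?_
  rw [Pi.smul_apply, norm_smul, mul_pow, Real.norm_eq_abs, sq_abs]

theorem isCompact_sph : IsCompact {x : ι → ℂ | nsq x = 1} := by
  refine Metric.isCompact_of_isClosed_isBounded (isClosed_eq continuous_nsq continuous_const) ?_
  refine (Metric.isBounded_closedBall (x := (0 : ι → ℂ)) (r := 1)).subset fun x hx => ?_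
  rw [mem_closedBall_zero_iff, pi_norm_le_iff_of_nonneg zero_le_one]
  intro j
  have h1 : ‖x j‖ ^ 2 ≤ nsq x :=
    Finset.single_le_sum (f := fun i => ‖x i‖ ^ 2) (fun i _ => by positivity) (Finset.mem_univ j)
  have h2 : nsq x = 1 := hx
  rw [h2] at h1
  nlinarith [norm_nonneg (x j)]

/-- a positively homogeneous continuous bijection carrying zeros to zeros -/
theorem zeq_of_hom {f g : (ι → ℂ) → ℂ} {F : (ι → ℂ) → (ι → ℂ)}
    (hF : Continuous F) (hh : ∀ (l : ℝ) x, 0 < l → F (l • x) = l • F x)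
    (hi : Function.Injective F) (hs : Function.Surjective F)
    (hg : ∀ (l : ℝ) x, 0 < l → g x = 0 → g (l • x) = 0) (hfg : ∀ x, f x = 0 ↔ g (F x) = 0) :
    ZEq f g := by
  have h0 : F 0 = 0 := by
    have h1 : F 0 = (2 : ℝ) • F 0 := by
      conv_lhs => rw [← smul_zero (2 : ℝ)]
      exact hh 2 0 two_pos
    have h2 : F 0 = F 0 + F 0 := by rwa [two_smul] at h1
    exact (left_eq_add.1 h2)
  have hne : ∀ x : Sph ι, F x ≠ 0 := by
    intro x hx
    exact x.ne_zero (hi (by rw [hx, h0]))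
  have hpos : ∀ x : Sph ι, 0 < (√(nsq (F x)))⁻¹ := fun x =>
    inv_pos.2 (Real.sqrt_pos.2 (nsq_pos (hne x)))
  let g0 : Sph ι → Sph ι := fun x => ⟨(√(nsq (F x)))⁻¹ • F x, by
    rw [nsq_smul, inv_pow, Real.sq_sqrt (nsq_nonneg _), inv_mul_cancel₀ (nsq_pos (hne x)).ne']⟩
  have hg0 : Continuous g0 := by
    refine Continuous.subtype_mk ?_ _
    have h1 : Continuous fun x : Sph ι => F x := hF.comp continuous_subtype_val
    have h2 : Continuous fun x : Sph ι => √(nsq (F x)) := (continuous_nsq.comp h1).sqrt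
    exact (h2.inv₀ fun x => (Real.sqrt_pos.2 (nsq_pos (hne x))).ne').smul h1
  have hinj : Function.Injective g0 := by
    intro x y hxy
    have h1 : (√(nsq (F x)))⁻¹ • F (x : ι → ℂ) = (√(nsq (F y)))⁻¹ • F (y : ι → ℂ) :=
      congrArg Subtype.val hxy
    rw [← hh _ _ (hpos x), ← hh _ _ (hpos y)] at h1
    have h2 := hi h1
    have h3 := congrArg nsq h2
    rw [nsq_smul, nsq_smul, x.2, y.2, mul_one, mul_one] at h3
    have h4 : (√(nsq (F x)))⁻¹ = (√(nsq (F y)))⁻¹ :=
      (pow_left_inj₀ (hpos x).le (hpos y).le two_ne_zero).1 h3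
    rw [h4] at h2
    exact Subtype.ext (smul_right_injective (ι → ℂ) (hpos y).ne' h2)
  have hsur : Function.Surjective g0 := by
    intro y
    obtain ⟨p, hp⟩ := hs (y : ι → ℂ)
    have hp0 : p ≠ 0 := by
      rintro rfl
      rw [h0] at hp
      exact y.ne_zero hp.symm
    have hn : 0 < (√(nsq p))⁻¹ := inv_pos.2 (Real.sqrt_pos.2 (nsq_pos hp0))
    have hq : nsq ((√(nsq p))⁻¹ • p) = 1 := by
      rw [nsq_smul, inv_pow, Real.sq_sqrt (nsq_nonneg _), inv_mul_cancel₀ (nsq_pos hp0).ne']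
    refine ⟨⟨(√(nsq p))⁻¹ • p, hq⟩, Subtype.ext ?_⟩
    show (√(nsq (F ((√(nsq p))⁻¹ • p))))⁻¹ • F ((√(nsq p))⁻¹ • p) = y
    rw [hh _ _ hn, hp, nsq_smul, y.2, mul_one, Real.sqrt_sq hn.le, smul_smul,
      inv_mul_cancel₀ hn.ne', one_smul]
  have : CompactSpace (Sph ι) := isCompact_iff_compactSpace.1 isCompact_sph
  refine ⟨Continuous.homeoOfEquivCompactToT2 (f := Equiv.ofBijective g0 ⟨hinj, hsur⟩) hg0,
    fun x => ?_⟩
  show f x = 0 ↔ g ((√(nsq (F x)))⁻¹ • F x) = 0
  rw [hfg]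
  refine ⟨hg _ _ (hpos x), fun h => ?_⟩
  have h1 := hg _ _ (inv_pos.2 (hpos x)) h
  rwa [smul_smul, inv_mul_cancel₀ (hpos x).ne', one_smul] at h1

end hom

/-! ### the gauges -/

theorem gq_mono {K A B A' B' : ℝ} (hA : 0 ≤ A) (hB : 0 ≤ B) (h : A ≤ A') (h' : B ≤ B') :
    gq K A B ≤ gq K A' B' := by
  rcases eq_or_ne (A + B) 0 with h0 | h0
  · have h1 : A = 0 := by linarith
    have h2 : B = 0 := by linarith
    subst h1 h2
    have : gq K 0 0 = 0 := by simp [gq]
    rw [this]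
    exact gq_nonneg h
  have hp : 0 < A + B := lt_of_le_of_ne (add_nonneg hA hB) (Ne.symm h0)
  have hder : ∀ t ∈ Icc (0 : ℝ) 1, HasDerivAt
      (fun t : ℝ => gq K (A + t * (A' - A)) (B + t * (B' - B)))
      (gA K (A + t * (A' - A)) (B + t * (B' - B)) * (A' - A) +
        gB K (A + t * (A' - A)) (B + t * (B' - B)) * (B' - B)) t := by
    intro t ht
    have h1 : HasDerivAt (fun t : ℝ => A + t * (A' - A)) (A' - A) t := by
      simpa using ((hasDerivAt_id t).mul_const (A' - A)).const_add A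
    have h2 : HasDerivAt (fun t : ℝ => B + t * (B' - B)) (B' - B) t := by
      simpa using ((hasDerivAt_id t).mul_const (B' - B)).const_add B
    have h3 : A + t * (A' - A) + (B + t * (B' - B)) ≠ 0 := by
      have e1 : 0 ≤ t * (A' - A) := mul_nonneg ht.1 (by linarith)
      have e2 : 0 ≤ t * (B' - B) := mul_nonneg ht.1 (by linarith)
      linarith
    have h4 := (hasFDerivAt_gq K h1.hasFDerivAt h2.hasFDerivAt h3).hasDerivAt
    refine h4.congr_deriv ?_
    simp
  have hcont : ContinuousOn (fun t : ℝ => gq K (A + t * (A' - A)) (B + t * (B' - B)))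
      (Icc 0 1) := fun t ht => (hder t ht).continuousAt.continuousWithinAt
  have hmono : MonotoneOn (fun t : ℝ => gq K (A + t * (A' - A)) (B + t * (B' - B)))
      (Icc 0 1) := by
    refine monotoneOn_of_deriv_nonneg (convex_Icc 0 1) hcont ?_ ?_
    · intro t ht
      rw [interior_Icc] at ht
      exact (hder t ⟨ht.1.le, ht.2.le⟩).differentiableAt.differentiableWithinAt
    · intro t ht
      rw [interior_Icc] at ht
      rw [(hder t ⟨ht.1.le, ht.2.le⟩).deriv]
      have e1 : 0 ≤ t * (A' - A) := mul_nonneg ht.1.le (by linarith)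
      have e2 : 0 ≤ t * (B' - B) := mul_nonneg ht.1.le (by linarith)
      have e3 := gA_nonneg (K := K) (add_nonneg hA e1) (add_nonneg hB e2)
      have e4 := gB_nonneg (K := K) (add_nonneg hA e1) (add_nonneg hB e2)
      have e5 := mul_nonneg e3 (sub_nonneg.2 h)
      have e6 := mul_nonneg e4 (sub_nonneg.2 h')
      linarith
  have h1 := hmono (left_mem_Icc.2 zero_le_one) (right_mem_Icc.2 zero_le_one) zero_le_one
  simpa using h1

variable {N : ℕ}

theorem NN_mono {K : ℝ} {z z' : Fin N → ℂ} {a : ℝ} (ha : 0 < a)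
    (h : ∀ j, ∃ l : ℝ, a ≤ l ∧ z' j = (l : ℂ) * z j) : a * NN K z ≤ NN K z' := by
  rw [← NN_smul ha]
  unfold NN
  refine Real.sqrt_le_sqrt (gq_mono (Finset.sum_nonneg fun _ _ => sq_nonneg _)
    (Finset.sum_nonneg fun _ _ => sq_nonneg _) (Finset.sum_le_sum fun j _ => ?_)
    (Finset.sum_le_sum fun j _ => ?_))
  · obtain ⟨l, hl, hz⟩ := h j
    rw [hz, Pi.smul_apply, Complex.real_smul, Complex.re_ofReal_mul, Complex.re_ofReal_mul,
      mul_pow, mul_pow]
    exact mul_le_mul_of_nonneg_right (pow_le_pow_left₀ ha.le hl 2) (sq_nonneg _)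
  · obtain ⟨l, hl, hz⟩ := h j
    rw [hz, Pi.smul_apply, Complex.real_smul, Complex.im_ofReal_mul, Complex.im_ofReal_mul,
      mul_pow, mul_pow]
    exact mul_le_mul_of_nonneg_right (pow_le_pow_left₀ ha.le hl 2) (sq_nonneg _)

/-- `NN` is at least the planar gauge of a component -/
theorem pg_le_NN (K : ℝ) (z : Fin N → ℂ) (j : Fin N) : pg K (z j) ≤ NN K z := by
  unfold pg NN
  refine Real.sqrt_le_sqrt (gq_mono (sq_nonneg _) (sq_nonneg _) ?_ ?_)
  · exact Finset.single_le_sum (f := fun i => (z i).re ^ 2) (fun i _ => sq_nonneg _)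
      (Finset.mem_univ j)
  · exact Finset.single_le_sum (f := fun i => (z i).im ^ 2) (fun i _ => sq_nonneg _)
      (Finset.mem_univ j)

/-- comparison of the gauges -/
theorem pg_le_mul_NN (K K1 : ℝ) (z : Fin N → ℂ) (j : Fin N) :
    pg K (z j) ≤ √(96 * K1 ^ 2 + 97) * NN K1 z := by
  unfold pg NN
  rw [← Real.sqrt_mul (by positivity)]
  refine Real.sqrt_le_sqrt ((gq_le (sq_nonneg _) (sq_nonneg _)).trans ?_)
  have h1 := re_sq_le_AA z j
  have h2 := im_sq_le_BB z j
  have h3 : AA z ≤ gq K1 (AA z) (BB z) := le_gq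
  have h4 : BB z ≤ (96 * K1 ^ 2 + 96) * gq K1 (AA z) (BB z) := le_gq' (AA_nonneg z) (BB_nonneg z)
  show (z j).re ^ 2 + (z j).im ^ 2 ≤ (96 * K1 ^ 2 + 97) * gq K1 (AA z) (BB z)
  linarith

theorem continuousAt_gq (K : ℝ) {E : Type*} [TopologicalSpace E] {A B : E → ℝ} {z : E}
    (hA : ContinuousAt A z) (hB : ContinuousAt B z) (h : A z + B z ≠ 0) :
    ContinuousAt (fun w => gq K (A w) (B w)) z := by
  unfold gq
  have h1 : (3 * K ^ 2 + 3) * (A z + B z) ^ 2 ≠ 0 :=
    mul_ne_zero (by positivity) (pow_ne_zero _ h)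
  refine hA.add (ContinuousAt.div ?_ ?_ h1)
  · exact (continuousAt_const.max (hB.sub (continuousAt_const.mul hA))).pow 3
  · exact continuousAt_const.mul ((hA.add hB).pow 2)

theorem continuous_AA : Continuous (AA (N := N)) := by
  unfold AA
  exact continuous_finsetSum _ fun j _ => (Complex.continuous_re.comp (continuous_apply j)).pow 2

theorem continuous_BB : Continuous (BB (N := N)) := by
  unfold BB
  exact continuous_finsetSum _ fun j _ => (Complex.continuous_im.comp (continuous_apply j)).pow 2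

theorem continuousAt_NN (K : ℝ) {z : Fin N → ℂ} (hz : z ≠ 0) : ContinuousAt (NN K) z :=
  (continuousAt_gq K continuous_AA.continuousAt continuous_BB.continuousAt (AA_add_BB_ne hz)).sqrt

theorem continuous_NN (K : ℝ) : Continuous (NN (N := N) K) := by
  rw [continuous_iff_continuousAt]
  intro z
  by_cases hz : z = 0
  · subst hz
    have h0 : NN (N := N) K 0 = 0 := NN_zero K
    unfold ContinuousAt
    rw [h0]
    have h1 : ∀ w : Fin N → ℂ, NN K w ≤ √(AA w + BB w) := fun w =>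
      Real.sqrt_le_sqrt (gq_le (AA_nonneg w) (BB_nonneg w))
    have h2 : Continuous fun w : Fin N → ℂ => √(AA w + BB w) :=
      (continuous_AA.add continuous_BB).sqrt
    have h3 : √(AA (0 : Fin N → ℂ) + BB (0 : Fin N → ℂ)) = 0 := by
      simp [AA, BB]
    have h4 := h2.tendsto 0
    rw [h3] at h4
    exact squeeze_zero (fun w => NN_nonneg K w) h1 h4
  · exact continuousAt_NN K hz

theorem continuousAt_pg (K : ℝ) {z : ℂ} (hz : z ≠ 0) : ContinuousAt (pg K) z := by
  have h1 : ContinuousAt (fun z : ℂ => z.re ^ 2) z := by fun_prop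
  have h2 : ContinuousAt (fun z : ℂ => z.im ^ 2) z := by fun_prop
  exact (continuousAt_gq K h1 h2 (Crest.Agent.R267.Calc2_957.sq_add_ne hz)).sqrt

theorem continuous_pg (K : ℝ) : Continuous (pg K) := by
  rw [continuous_iff_continuousAt]
  intro z
  by_cases hz : z = 0
  · subst hz
    unfold ContinuousAt
    rw [pg_zero]
    have h1 : ∀ w : ℂ, pg K w ≤ √(w.re ^ 2 + w.im ^ 2) := fun w =>
      Real.sqrt_le_sqrt (gq_le (sq_nonneg _) (sq_nonneg _))
    have h2 : Continuous fun w : ℂ => √(w.re ^ 2 + w.im ^ 2) := by fun_prop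
    have h4 := h2.tendsto 0
    simp only [Complex.zero_re, Complex.zero_im, ne_eq, OfNat.ofNat_ne_zero, not_false_eq_true,
      zero_pow, add_zero, Real.sqrt_zero] at h4
    exact squeeze_zero (fun w => pg_nonneg K w) h1 h4
  · exact continuousAt_pg K hz

/-! ### the map -/

/-- relative size -/
def xx (K K1 : ℝ) (z : Fin N → ℂ) (j : Fin N) : ℝ := pg K (z j) / NN K1 z

/-- the map -/
def Psi (K K1 : ℝ) (X : ℝ → ℝ) (z : Fin N → ℂ) (j : Fin N) : ℂ := ((X (xx K K1 z j) : ℝ) : ℂ) * z j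

theorem xx_nonneg (K K1 : ℝ) (z : Fin N → ℂ) (j : Fin N) : 0 ≤ xx K K1 z j :=
  div_nonneg (pg_nonneg _ _) (NN_nonneg _ _)

theorem xx_pos (K K1 : ℝ) {z : Fin N → ℂ} {j : Fin N} (h : z j ≠ 0) : 0 < xx K K1 z j := by
  refine div_pos (pg_pos h) (NN_pos ?_)
  rintro rfl
  exact h rfl

theorem xx_le (K K1 : ℝ) (z : Fin N → ℂ) (j : Fin N) : xx K K1 z j ≤ √(96 * K1 ^ 2 + 97) := by
  unfold xx
  by_cases hz : z = 0
  · subst hz
    rw [NN_zero, div_zero]
    positivity
  · rw [div_le_iff₀ (NN_pos hz)]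
    exact pg_le_mul_NN K K1 z j

theorem xx_smul (K K1 : ℝ) {r : ℝ} (hr : 0 < r) (z : Fin N → ℂ) (j : Fin N) :
    xx K K1 (r • z) j = xx K K1 z j := by
  unfold xx
  rw [NN_smul hr, Pi.smul_apply, pg_real_smul hr]
  exact mul_div_mul_left _ _ hr.ne'

variable {X : ℝ → ℝ}

theorem X_nonneg (hX : Prf X) {x : ℝ} (hx : 0 ≤ x) : 0 ≤ X x := by
  rcases hx.eq_or_lt with h | h
  · subst h
    refine ge_of_tendsto (x := 𝓝[>] (0 : ℝ)) (f := X) hX.cont.continuousWithinAt ?_
    filter_upwards [self_mem_nhdsWithin] with x hx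
    exact (hX.pos x hx).le
  · exact (hX.pos x h).le

theorem Psi_smul (K K1 : ℝ) (X : ℝ → ℝ) {r : ℝ} (hr : 0 < r) (z : Fin N → ℂ) :
    Psi K K1 X (r • z) = r • Psi K K1 X z := by
  funext j
  unfold Psi
  rw [xx_smul K K1 hr, Pi.smul_apply]
  show _ = r • (((X (xx K K1 z j) : ℝ) : ℂ) * z j)
  rw [Complex.real_smul, Complex.real_smul]
  ring

theorem continuous_Psi (K K1 : ℝ) (hX : Prf X) : Continuous (Psi (N := N) K K1 X) := by
  rw [continuous_iff_continuousAt]
  intro z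
  refine continuousAt_pi.2 fun j => ?_
  by_cases hz : z = 0
  · subst hz
    have h0 : Psi K K1 X (0 : Fin N → ℂ) j = 0 := by
      unfold Psi
      simp
    show Tendsto (fun w : Fin N → ℂ => Psi K K1 X w j) (𝓝 0) (𝓝 (Psi K K1 X (0 : Fin N → ℂ) j))
    rw [h0]
    refine squeeze_zero_norm (a := fun w : Fin N → ℂ => X (√(96 * K1 ^ 2 + 97)) * ‖w j‖) ?_ ?_
    · intro w
      unfold Psi
      rw [norm_mul, Complex.norm_real, Real.norm_of_nonneg (X_nonneg hX (xx_nonneg _ _ _ _))]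
      exact mul_le_mul_of_nonneg_right
        (hX.mono (xx_nonneg _ _ _ _) (Real.sqrt_nonneg _) (xx_le _ _ _ _)) (norm_nonneg _)
    · have h2 : Continuous fun w : Fin N → ℂ => X (√(96 * K1 ^ 2 + 97)) * ‖w j‖ := by fun_prop
      have h4 := h2.tendsto 0
      simpa using h4
  · unfold Psi
    have h1 : ContinuousAt (fun w : Fin N → ℂ => w j) z := (continuous_apply j).continuousAt
    have h2 : ContinuousAt (fun w : Fin N → ℂ => xx K K1 w j) z := by
      unfold xx
      exact ((continuous_pg K).continuousAt.comp h1).div (continuousAt_NN K1 hz) (NN_pos hz).ne'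
    have h3 : ContinuousAt (fun w : Fin N → ℂ => X (xx K K1 w j)) z :=
      hX.cont.continuousAt.comp h2
    exact (Complex.continuous_ofReal.continuousAt.comp h3).mul h1

/-! ### injectivity -/

theorem Psi_zero_iff (K K1 : ℝ) (hX : Prf X) (z : Fin N → ℂ) (j : Fin N) :
    Psi K K1 X z j = 0 ↔ z j = 0 := by
  unfold Psi
  constructor
  · intro h
    by_contra h1
    have h2 := hX.pos _ (xx_pos K K1 h1)
    rcases mul_eq_zero.1 h with h3 | h3
    · exact h2.ne' (by exact_mod_cast h3)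
    · exact h1 h3
  · intro h
    rw [h, mul_zero]

/-- the ratios of two preimages: `z' j = l z j`, `l X(x') = X(x)`, `x' = (l / mu) x` -/
theorem ratio (K K1 : ℝ) (hX : Prf X) {z z' : Fin N → ℂ} (h : Psi K K1 X z = Psi K K1 X z')
    {j : Fin N} (hj : z j ≠ 0) : ∃ l : ℝ, 0 < l ∧ z' j = (l : ℂ) * z j ∧
      l * X (xx K K1 z' j) = X (xx K K1 z j) := by
  have hj' : z' j ≠ 0 := by
    intro h0
    rw [← Psi_zero_iff K K1 hX, ← h, Psi_zero_iff K K1 hX] at h0
    exact hj h0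
  have h1 := hX.pos _ (xx_pos K K1 hj)
  have h2 := hX.pos _ (xx_pos K K1 hj')
  refine ⟨X (xx K K1 z j) / X (xx K K1 z' j), div_pos h1 h2, ?_, div_mul_cancel₀ _ h2.ne'⟩
  have h3 := congrFun h j
  unfold Psi at h3
  have h4 : ((X (xx K K1 z' j) : ℝ) : ℂ) ≠ 0 := by exact_mod_cast h2.ne'
  rw [Complex.ofReal_div, div_mul_eq_mul_div, h3, mul_div_cancel_left₀ _ h4]

/-- if `NN z' = mu NN z`: `l > mu → l ≤ 1` and `l < mu → 1 ≤ l` and `l = mu → l = 1` -/
theorem ratio_le (K K1 : ℝ) (hX : Prf X) {z z' : Fin N → ℂ} {l : ℝ} (hl : 0 < l) {j : Fin N}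
    (hj : z j ≠ 0) (hz : z' j = (l : ℂ) * z j) (h : l * X (xx K K1 z' j) = X (xx K K1 z j))
    (hN : NN K1 z' ≤ l * NN K1 z) : l ≤ 1 := by
  have hz0 : z ≠ 0 := by
    rintro rfl
    exact hj rfl
  have hj' : z' j ≠ 0 := by
    rw [hz]
    exact mul_ne_zero (by exact_mod_cast hl.ne') hj
  have hz0' : z' ≠ 0 := by
    rintro rfl
    exact hj' rfl
  have h1 : xx K K1 z j ≤ xx K K1 z' j := by
    unfold xx
    rw [hz, pg_smul hl, div_le_div_iff₀ (NN_pos hz0) (NN_pos hz0')]
    have := mul_le_mul_of_nonneg_left hN (pg_nonneg K (z j))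
    linarith
  have h2 := hX.mono (xx_nonneg _ _ _ _) (xx_nonneg _ _ _ _) h1
  have h3 := hX.pos _ (xx_pos K K1 hj')
  rw [← h] at h2
  by_contra h4
  push Not at h4
  have := mul_lt_mul_of_pos_right h4 h3
  linarith

theorem one_le_ratio (K K1 : ℝ) (hX : Prf X) {z z' : Fin N → ℂ} {l : ℝ} (hl : 0 < l) {j : Fin N}
    (hj : z j ≠ 0) (hz : z' j = (l : ℂ) * z j) (h : l * X (xx K K1 z' j) = X (xx K K1 z j))
    (hN : l * NN K1 z ≤ NN K1 z') : 1 ≤ l := by
  have hz0 : z ≠ 0 := by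
    rintro rfl
    exact hj rfl
  have hj' : z' j ≠ 0 := by
    rw [hz]
    exact mul_ne_zero (by exact_mod_cast hl.ne') hj
  have hz0' : z' ≠ 0 := by
    rintro rfl
    exact hj' rfl
  have h1 : xx K K1 z' j ≤ xx K K1 z j := by
    unfold xx
    rw [hz, pg_smul hl, div_le_div_iff₀ (NN_pos hz0') (NN_pos hz0)]
    have := mul_le_mul_of_nonneg_left hN (pg_nonneg K (z j))
    linarith
  have h2 := hX.mono (xx_nonneg _ _ _ _) (xx_nonneg _ _ _ _) h1
  have h3 := hX.pos _ (xx_pos K K1 hj')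
  rw [← h] at h2
  by_contra h4
  push Not at h4
  have := mul_lt_mul_of_pos_right h4 h3
  linarith

/-- `NN z' < NN z` is impossible -/
theorem NN_le_of_Psi (K K1 : ℝ) (hX : Prf X) {z z' : Fin N → ℂ}
    (h : Psi K K1 X z = Psi K K1 X z') : NN K1 z ≤ NN K1 z' := by
  by_contra hlt
  push Not at hlt
  have hz : z ≠ 0 := by
    rintro rfl
    rw [NN_zero] at hlt
    exact absurd (NN_nonneg K1 z') (not_le.2 hlt)
  have hzp := NN_pos (K := K1) hz
  have hz' : z' ≠ 0 := by
    rintro rfl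
    obtain ⟨j, hj⟩ : ∃ j, z j ≠ 0 := by
      by_contra h1
      push Not at h1
      exact hz (funext h1)
    have h2 : Psi K K1 X z j = 0 := by
      rw [h, Psi_zero_iff K K1 hX]
      rfl
    exact hj ((Psi_zero_iff K K1 hX z j).1 h2)
  -- all ratios are bigger than `mu = NN z' / NN z`
  have key : ∀ j, z j ≠ 0 → ∃ l : ℝ, NN K1 z' / NN K1 z < l ∧ z' j = (l : ℂ) * z j := by
    intro j hj
    obtain ⟨l, hl, h1, h2⟩ := ratio K K1 hX h hj
    refine ⟨l, ?_, h1⟩
    by_contra h3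
    push Not at h3
    have h4 : l * NN K1 z ≤ NN K1 z' := (le_div_iff₀ hzp).1 h3
    have h5 := one_le_ratio K K1 hX hl hj h1 h2 h4
    have h6 : 1 * NN K1 z ≤ l * NN K1 z := mul_le_mul_of_nonneg_right h5 hzp.le
    linarith
  have hmu : 0 < NN K1 z' / NN K1 z := div_pos (NN_pos hz') hzp
  -- a common bound
  have key2 : ∃ a : ℝ, NN K1 z' / NN K1 z < a ∧ ∀ j, ∃ l : ℝ, a ≤ l ∧ z' j = (l : ℂ) * z j := by
    have h1 : ∀ j, ∃ l : ℝ, NN K1 z' / NN K1 z < l ∧ z' j = (l : ℂ) * z j := by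
      intro j
      by_cases hj : z j = 0
      · refine ⟨NN K1 z' / NN K1 z + 1, by linarith, ?_⟩
        have h2 : Psi K K1 X z' j = 0 := by
          rw [← h, Psi_zero_iff K K1 hX]
          exact hj
        rw [(Psi_zero_iff K K1 hX z' j).1 h2, hj, mul_zero]
      · exact key j hj
    choose l hl hl' using h1
    obtain ⟨j0, hj0⟩ : ∃ j, z j ≠ 0 := by
      by_contra h1
      push Not at h1
      exact hz (funext h1)
    have : Nonempty (Fin N) := ⟨j0⟩
    obtain ⟨i, hi⟩ := Finite.exists_min l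
    exact ⟨l i, hl i, fun j => ⟨l j, hi j, hl' j⟩⟩
  obtain ⟨a, ha, hall⟩ := key2
  have h1 := NN_mono (K := K1) (hmu.trans ha) hall
  have h2 : NN K1 z' < a * NN K1 z := (div_lt_iff₀ hzp).1 ha
  linarith

theorem Psi_injective (K K1 : ℝ) (hX : Prf X) : Function.Injective (Psi (N := N) K K1 X) := by
  intro z z' h
  have h1 := NN_le_of_Psi K K1 hX h
  have h2 := NN_le_of_Psi K K1 hX h.symm
  have h3 : NN K1 z' = NN K1 z := le_antisymm h2 h1
  funext j
  by_cases hj : z j = 0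
  · have h4 : Psi K K1 X z' j = 0 := by
      rw [← h, Psi_zero_iff K K1 hX]
      exact hj
    rw [(Psi_zero_iff K K1 hX z' j).1 h4, hj]
  · obtain ⟨l, hl, e1, e2⟩ := ratio K K1 hX h hj
    have h5 : l = 1 := by
      rcases le_total l 1 with h6 | h6
      · refine le_antisymm h6 (one_le_ratio K K1 hX hl hj e1 e2 ?_)
        rw [h3]
        exact mul_le_of_le_one_left (NN_nonneg _ _) h6
      · refine le_antisymm (ratio_le K K1 hX hl hj e1 e2 ?_) h6
        rw [h3]
        exact le_mul_of_one_le_left (NN_nonneg _ _) h6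
    rw [e1, h5, Complex.ofReal_one, one_mul]

/-! ### surjectivity -/

/-- `x X(x)`, extended by `x` for `x < 0` -/
def gg (X : ℝ → ℝ) (x : ℝ) : ℝ := max 0 x * X (max 0 x) + min 0 x

theorem gg_of_nonneg (X : ℝ → ℝ) {x : ℝ} (hx : 0 ≤ x) : gg X x = x * X x := by
  unfold gg
  rw [max_eq_right hx, min_eq_left hx, add_zero]

theorem gg_of_nonpos (X : ℝ → ℝ) {x : ℝ} (hx : x ≤ 0) : gg X x = x := by
  unfold gg
  rw [max_eq_left hx, min_eq_right hx, zero_mul, zero_add]

theorem continuous_gg (hX : Prf X) : Continuous (gg X) := by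
  have h1 := hX.cont
  unfold gg
  fun_prop

theorem strictMono_gg (hX : Prf X) : StrictMono (gg X) := by
  intro x y hxy
  rcases le_total y 0 with hy | hy
  · rw [gg_of_nonpos X hy, gg_of_nonpos X (hxy.le.trans hy)]
    exact hxy
  · rw [gg_of_nonneg X hy]
    rcases le_or_gt x 0 with hx | hx
    · rw [gg_of_nonpos X hx]
      rcases hy.eq_or_lt with h | h
      · rw [← h] at hxy ⊢
        rw [zero_mul]
        exact hxy
      · exact hx.trans_lt (mul_pos h (hX.pos y h))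
    · rw [gg_of_nonneg X hx.le]
      have h1 := hX.mono hx.le hy hxy.le
      have h2 := hX.pos y (hx.trans hxy)
      calc x * X x ≤ x * X y := mul_le_mul_of_nonneg_left h1 hx.le
        _ < y * X y := mul_lt_mul_of_pos_right hxy h2

theorem surjective_gg (hX : Prf X) : Function.Surjective (gg X) := by
  refine (continuous_gg hX).surjective ?_ ?_
  · have h1 : Tendsto (fun x : ℝ => x * X 1) atTop atTop :=
      tendsto_id.atTop_mul_const (hX.pos 1 one_pos)
    refine tendsto_atTop_mono' _ ?_ h1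
    filter_upwards [eventually_ge_atTop (1 : ℝ)] with x hx
    rw [gg_of_nonneg X (by linarith)]
    exact mul_le_mul_of_nonneg_left (hX.mono (by simp : (1 : ℝ) ∈ Set.Ici 0)
      (show (0 : ℝ) ≤ x by linarith) hx) (by linarith)
  · refine Tendsto.congr' ?_ (tendsto_id (α := ℝ) (x := atBot))
    filter_upwards [eventually_le_atBot (0 : ℝ)] with x hx
    rw [gg_of_nonpos X hx]
    rfl

/-- the inverse -/
theorem exists_inv (hX : Prf X) : ∃ h : ℝ → ℝ, Continuous h ∧ (∀ x, h (gg X x) = x) ∧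
    (∀ y, gg X (h y) = y) ∧ h 0 = 0 ∧ (∀ y, 0 ≤ y → 0 ≤ h y) ∧ Monotone h := by
  let e := StrictMono.orderIsoOfSurjective (gg X) (strictMono_gg hX) (surjective_gg hX)
  have h1 : ∀ x, e.symm (gg X x) = x := fun x => e.symm_apply_apply x
  have h2 : ∀ y, gg X (e.symm y) = y := fun y => e.apply_symm_apply y
  have h0 : e.symm 0 = 0 := by
    have : gg X 0 = 0 := by rw [gg_of_nonneg X le_rfl, zero_mul]
    have h3 := h1 0
    rwa [this] at h3
  have hm : Monotone e.symm := e.symm.monotone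
  refine ⟨e.symm, e.symm.continuous, h1, h2, h0, fun y hy => ?_, hm⟩
  have := hm hy
  rwa [h0] at this

theorem Psi_surjective (K K1 : ℝ) (hX : Prf X) : Function.Surjective (Psi (N := N) K K1 X) := by
  intro w
  by_cases hw : w = 0
  · refine ⟨0, ?_⟩
    funext j
    rw [(Psi_zero_iff K K1 hX 0 j).2 rfl, hw]
    rfl
  obtain ⟨j0, hj0⟩ : ∃ j, w j ≠ 0 := by
    by_contra h1
    push Not at h1
    exact hw (funext h1)
  obtain ⟨h, hc, h1, h2, h0, hn, hm⟩ := exists_inv hX
  -- the candidate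
  let v : ℝ → Fin N → ℂ := fun σ j => ((h (σ * pg K (w j)) / pg K (w j) : ℝ) : ℂ) * w j
  have hv : Continuous v := by
    refine continuous_pi fun j => ?_
    have : Continuous fun σ : ℝ => h (σ * pg K (w j)) / pg K (w j) :=
      (hc.comp (by fun_prop)).div_const _
    exact (Complex.continuous_ofReal.comp this).mul continuous_const
  have hcv : Continuous fun σ => NN K1 (v σ) := (continuous_NN K1).comp hv
  have hv0 : v 0 = 0 := by
    funext j
    show ((h (0 * pg K (w j)) / pg K (w j) : ℝ) : ℂ) * w j = 0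
    rw [zero_mul, h0, zero_div, Complex.ofReal_zero, zero_mul]
  have hp0 : 0 < pg K (w j0) := pg_pos hj0
  have hp1 : 0 < pg K1 (w j0) := pg_pos hj0
  -- large values
  obtain ⟨σ1, hσ1, hbig⟩ : ∃ σ1 : ℝ, 0 < σ1 ∧ 1 ≤ NN K1 (v σ1) := by
    let x := pg K (w j0) / pg K1 (w j0)
    have hx : 0 < x := div_pos hp0 hp1
    refine ⟨x * X x / pg K (w j0), div_pos (mul_pos hx (hX.pos x hx)) hp0, ?_⟩
    refine le_trans ?_ (pg_le_NN K1 _ j0)
    show 1 ≤ pg K1 (((h (x * X x / pg K (w j0) * pg K (w j0)) / pg K (w j0) : ℝ) : ℂ) * w j0)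
    rw [div_mul_cancel₀ _ hp0.ne', ← gg_of_nonneg X hx.le, h1, pg_smul (div_pos hx hp0)]
    have : x / pg K (w j0) * pg K1 (w j0) = 1 := by
      show pg K (w j0) / pg K1 (w j0) / pg K (w j0) * pg K1 (w j0) = 1
      field_simp
    rw [this]
  obtain ⟨σ, hσ, hone⟩ : ∃ σ ∈ Icc 0 σ1, NN K1 (v σ) = 1 := by
    have := intermediate_value_Icc hσ1.le (f := fun σ => NN K1 (v σ)) hcv.continuousOn
    have h3 : (1 : ℝ) ∈ Icc (NN K1 (v 0)) (NN K1 (v σ1)) := by
      rw [hv0, NN_zero]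
      exact ⟨zero_le_one, hbig⟩
    exact this h3
  have hσp : 0 < σ := by
    rcases hσ.1.eq_or_lt with h3 | h3
    · rw [← h3, hv0, NN_zero] at hone
      exact absurd hone zero_ne_one
    · exact h3
  have key : Psi K K1 X (v σ) = σ • w := by
    funext j
    by_cases hj : w j = 0
    · have h3 : v σ j = 0 := by
        show ((h (σ * pg K (w j)) / pg K (w j) : ℝ) : ℂ) * w j = 0
        rw [hj, mul_zero]
      rw [(Psi_zero_iff K K1 hX _ j).2 h3, Pi.smul_apply, hj, smul_zero]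
    · have hp : 0 < pg K (w j) := pg_pos hj
      have hs : 0 < σ * pg K (w j) := mul_pos hσp hp
      have hx0 : 0 ≤ h (σ * pg K (w j)) := hn _ hs.le
      have hx : h (σ * pg K (w j)) * X (h (σ * pg K (w j))) = σ * pg K (w j) := by
        rw [← gg_of_nonneg X hx0, h2]
      have hx1 : 0 < h (σ * pg K (w j)) := by
        refine lt_of_le_of_ne hx0 fun h4 => ?_
        rw [← h4, zero_mul] at hx
        exact hs.ne hx
      have hxx : xx K K1 (v σ) j = h (σ * pg K (w j)) := by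
        unfold xx
        rw [hone, div_one]
        show pg K (((h (σ * pg K (w j)) / pg K (w j) : ℝ) : ℂ) * w j) = _
        rw [pg_smul (div_pos hx1 hp), div_mul_cancel₀ _ hp.ne']
      show ((X (xx K K1 (v σ) j) : ℝ) : ℂ) *
        (((h (σ * pg K (w j)) / pg K (w j) : ℝ) : ℂ) * w j) = σ • w j
      rw [hxx, ← mul_assoc, ← Complex.ofReal_mul, mul_div_assoc', mul_comm (X _), hx,
        mul_div_assoc, div_self hp.ne', mul_one, Complex.real_smul]
  refine ⟨σ⁻¹ • v σ, ?_⟩
  rw [Psi_smul K K1 X (inv_pos.2 hσp), key, smul_smul, inv_mul_cancel₀ hσp.ne', one_smul]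

/-! ### the functions -/

theorem max_Psi (K K1 : ℝ) (hX : Prf X) (z : Fin N → ℂ) (j : Fin N) :
    max 0 (Psi K K1 X z j).re = X (xx K K1 z j) * max 0 (z j).re := by
  unfold Psi
  rw [Complex.re_ofReal_mul, mul_max_of_nonneg _ _ (X_nonneg hX (xx_nonneg _ _ _ _)), mul_zero]

theorem slope_Psi (K K1 : ℝ) (hX : Prf X) (z : Fin N → ℂ) (j : Fin N) :
    (Psi K K1 X z j).im / (Psi K K1 X z j).re = (z j).im / (z j).re := by
  by_cases hj : z j = 0
  · rw [(Psi_zero_iff K K1 hX z j).2 hj, hj]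
  · have h1 := hX.pos _ (xx_pos K K1 hj)
    unfold Psi
    rw [Complex.re_ofReal_mul, Complex.im_ofReal_mul, mul_div_mul_left _ _ h1.ne']

/-- **GLUE-HOMEO** -/
theorem homeoP (D : LD N) : Crest.Agent.R267.GlueDefs_322.HomeoP D := by
  intro X hX cB ga
  refine zeq_of_hom (F := Psi D.K D.K1 X) (continuous_Psi D.K D.K1 hX)
    (fun l x hl => Psi_smul D.K D.K1 X hl x) (Psi_injective D.K D.K1 hX)
    (Psi_surjective D.K D.K1 hX) (fun l x hl h => ?_) (fun z => ?_)
  · rw [Crest.Agent.R267.GlBas_322.Gx_smul D _ cB ga hl, h, smul_zero]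
  · have h1 : Crest.Agent.R267.GlueDefs_322.Gx D X cB ga z =
        Crest.Agent.R267.GlueDefs_322.Gx D (fun _ => 1) cB ga (Psi D.K D.K1 X z) := by
      have e1 : ∀ j, Crest.Agent.R267.GlueDefs_322.Rx D (fun _ => 1) (Psi D.K D.K1 X z) j =
          Crest.Agent.R267.GlueDefs_322.Rx D X z j := by
        intro j
        unfold Crest.Agent.R267.GlueDefs_322.Rx
        rw [one_mul, max_Psi D.K D.K1 hX]
        rfl
      have e2 : ∀ j, (X (D.xr z j) : ℂ) * pl ga (D.M j) (z j) =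
          (((1 : ℝ) : ℝ) : ℂ) * pl ga (D.M j) (Psi D.K D.K1 X z j) := by
        intro j
        rw [Complex.ofReal_one, one_mul]
        by_cases hj : z j = 0
        · rw [(Psi_zero_iff D.K D.K1 hX z j).2 hj, hj, Crest.Agent.R267.GlBas_322.pl_zero, mul_zero]
        · exact (Crest.Agent.R267.GlBas_322.pl_smul (hX.pos _ (xx_pos D.K D.K1 hj)) _).symm
      unfold Crest.Agent.R267.GlueDefs_322.Gx
      congr 1
      · exact Finset.sum_congr rfl fun j _ => e2 j
      · unfold Crest.Agent.R267.GlueDefs_322.Bx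
        simp only [e1, slope_Psi D.K D.K1 hX]
    rw [h1]

section SD

open Crest.Agent.R267.T3aNDefs_88 Crest.Agent.R267.GlNDefs_9

theorem plN_zero (ga : ℝ) (e : ℕ → ℝ) (M : ℕ) : plN ga e M 0 = 0 := by
  simp [plN]

theorem Gx_one_smul (D : SD N) (cB ga : ℝ) {r : ℝ} (hr : 0 < r) (z : Fin N → ℂ) :
    Gx D (fun _ => 1) cB ga (r • z) = r • Gx D (fun _ => 1) cB ga z := by
  have e1 : ∀ j, Rx D (fun _ => 1) (r • z) j = r * Rx D (fun _ => 1) z j := by
    intro j
    unfold Rx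
    rw [Pi.smul_apply, Complex.real_smul, Complex.re_ofReal_mul, one_mul, one_mul,
      mul_max_of_nonneg _ _ hr.le, mul_zero]
  have e2 : ∀ j, plN ga (D.sn j) (D.M j) ((r • z) j) = (r : ℂ) * plN ga (D.sn j) (D.M j) (z j) := by
    intro j
    rw [Pi.smul_apply, Complex.real_smul, Crest.Agent.R267.T3aNBas_277.plN_smul hr]
  have e3 : ∀ j, ((r • z) j).im / ((r • z) j).re = (z j).im / (z j).re := by
    intro j
    rw [Pi.smul_apply, Complex.real_smul, Complex.re_ofReal_mul, Complex.im_ofReal_mul]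
    exact mul_div_mul_left _ _ hr.ne'
  have e4 : ∀ e, Bx D (fun _ => 1) e (r • z) = r * Bx D (fun _ => 1) e z := by
    intro e
    unfold Bx
    have h1 : Rx D (fun _ => 1) (r • z) = fun j => r * Rx D (fun _ => 1) z j := funext e1
    rw [h1, Crest.Agent.R267.T3aNBas_277.Hm_smul _ _ hr]
    simp only [e3]
    ring
  have e5 : ∑ e, Bx D (fun _ => 1) e (r • z) = r * ∑ e, Bx D (fun _ => 1) e z := by
    rw [Finset.mul_sum]
    exact Finset.sum_congr rfl fun e _ => e4 e
  have e6 : ∑ j, (((1 : ℝ) : ℝ) : ℂ) * plN ga (D.sn j) (D.M j) ((r • z) j) =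
      (r : ℂ) * ∑ j, (((1 : ℝ) : ℝ) : ℂ) * plN ga (D.sn j) (D.M j) (z j) := by
    rw [Finset.mul_sum]
    refine Finset.sum_congr rfl fun j _ => ?_
    rw [e2]
    ring
  unfold Gx
  rw [e5, e6, Complex.real_smul, mul_sub]
  congr 1
  rw [mul_left_comm, Complex.ofReal_mul]

/-- **GLN-HOMEO** -/
theorem homeoN (D : SD N) : HomeoP D := by
  intro X hX cB ga
  refine zeq_of_hom (F := Psi D.K D.K1 X) (continuous_Psi D.K D.K1 hX)
    (fun l x hl => Psi_smul D.K D.K1 X hl x) (Psi_injective D.K D.K1 hX)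
    (Psi_surjective D.K D.K1 hX) (fun l x hl h => ?_) (fun z => ?_)
  · rw [Gx_one_smul D cB ga hl, h, smul_zero]
  · have h1 : Gx D X cB ga z = Gx D (fun _ => 1) cB ga (Psi D.K D.K1 X z) := by
      have e1 : Rx D (fun _ => 1) (Psi D.K D.K1 X z) = Rx D X z := by
        funext j
        unfold Rx
        rw [one_mul, max_Psi D.K D.K1 hX]
        rfl
      have e2 : ∀ j, (X (D.xr z j) : ℂ) * plN ga (D.sn j) (D.M j) (z j) =
          (((1 : ℝ) : ℝ) : ℂ) * plN ga (D.sn j) (D.M j) (Psi D.K D.K1 X z j) := by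
        intro j
        rw [Complex.ofReal_one, one_mul]
        by_cases hj : z j = 0
        · rw [(Psi_zero_iff D.K D.K1 hX z j).2 hj, hj, plN_zero, mul_zero]
        · exact (Crest.Agent.R267.T3aNBas_277.plN_smul (hX.pos _ (xx_pos D.K D.K1 hj)) _).symm
      unfold Gx
      congr 1
      · exact Finset.sum_congr rfl fun j _ => e2 j
      · unfold Bx
        simp only [e1, slope_Psi D.K D.K1 hX]
    rw [h1]

end SD

end Crest.Agent.R267.GlnHomeo_125
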