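import Crest.Agent.R267.GlNDefs_9
import Crest.Agent.R267.GlStar_52
import Crest.Agent.R267.CalcN_88
import Crest.Agent.R267.T3aNBas_277

/-!
# Row 267: GLN-STAR (helper649)

`starP`: every polar function of `GlNDefs_9` is equivalent to `FSN`: ALIGN and SEG move it to the
polar function with degree `8`, the phases of `plN` (LIFT) and the cut-offs `wz (cis x)`; the planar
radial homeomorphism `z ↦ (pg z / |z|) z` (`GlStar_52.kk`) turns that function into `FSN`.
-/

set_option autoImplicit false

noncomputable section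

open Finset Set
open Crest.Agent.R267.T3aDefs_957 (st Af Bf pg NN chi)
open Crest.Agent.R267.T3aNDefs_88 Crest.Agent.R267.Hm_951 Crest.Agent.R267.Ang_739
open Crest.Agent.R267.Calc_957 Crest.Agent.R267.CalcN_88
open Crest.Agent.R267.GlBas_322 Crest.Agent.R267.GlNDefs_9
open Crest.Agent.R267.GlStar_52 (kk norm_kk arg_kk kk_smul polar)
open Crest.Agent.R267.Cone_808 Crest.Agent.R267.Sys_808

namespace Crest.Agent.R267.GlnStar_649

/-! ### `plN ≠ 0` -/

theorem plN_ne {ga : ℝ} {e : ℕ → ℝ} {M : ℕ} (h0 : 0 < ga) (h1 : ga ≤ 1 / 8)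
    (he : ∀ l, e l = 1 ∨ e l = -1) {z : ℂ} (hz : z ≠ 0) : plN ga e M z ≠ 0 := by
  intro h
  rcases le_or_gt z.re 0 with hr | hr
  · rw [CalcN_88.plN_of_nonpos hr] at h
    have e1 := congrArg Complex.re h
    have e2 := congrArg Complex.im h
    simp at e1 e2
    apply hz
    refine Complex.ext ?_ e2
    rcases e1 with e1 | e1
    · linarith
    · exact e1
  · rw [plN_of_pos hr] at h
    have h2 : pvN ga e M (z.im / z.re) = 0 := by
      refine (mul_eq_zero.1 h).resolve_left ?_
      exact_mod_cast hr.ne'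
    set τ := z.im / z.re
    rcases casesN_tau M τ with h3 | ⟨l, hl, h3⟩ | h3
    · rw [pvN_low (by linarith)] at h2
      have e1 := congrArg Complex.re h2
      simp at e1
      linarith
    · rw [pvN_cell hl h3] at h2
      have e1 := congrArg Complex.re h2
      have e2 := congrArg Complex.im h2
      simp only [Complex.add_re, Complex.ofReal_re, Complex.I_re, mul_zero,
        Complex.mul_re, zero_mul, Complex.ofReal_im, Complex.I_im, sub_self, add_zero,
        Complex.zero_re] at e1
      simp only [Complex.add_im, Complex.ofReal_im, Complex.mul_im, Complex.I_re, Complex.I_im,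
        Complex.ofReal_re, one_mul, zero_add, mul_zero, Complex.zero_im] at e2
      set v := τ - sgN l
      rcases le_or_gt 3 |v| with h5 | h5
      · have h6 := Af_of_ge h5
        linarith
      · rw [(yc_in (by linarith : |v| ≤ 6)).1] at e2
        have h6 : Bf v = 0 := by
          rcases he l with h7 | h7 <;> rw [h7] at e2 <;> linarith
        rw [abs_lt] at h5
        rcases lt_trichotomy v 0 with h4 | h4 | h4
        · have h7 := GlStar_52.Bf_pos (v := -v) (by linarith) (by linarith)
          rw [Bf_neg] at h7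
          linarith
        · rw [h4, Af_of_le (by norm_num)] at e1
          linarith
        · have h7 := GlStar_52.Bf_pos (v := v) h4 (by linarith)
          linarith
    · rw [pvN_high (by linarith)] at h2
      have e1 := congrArg Complex.re h2
      simp at e1
      linarith

/-! ### the planar term -/

theorem plN_zero (ga : ℝ) (e : ℕ → ℝ) (M : ℕ) : plN ga e M 0 = 0 := by
  simp [plN]

theorem PSN_eq {ga K : ℝ} {e : ℕ → ℝ} {M : ℕ} {φ : ℝ → ℝ}
    (hφ : ∀ x, plN ga e M (cis x) = (‖plN ga e M (cis x)‖ : ℂ) * cis (φ x)) (h0 : 0 < ga)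
    (h1 : ga ≤ 1 / 8) (he : ∀ l, e l = 1 ∨ e l = -1) (z : ℂ) :
    PSN K ga e M z = pc 8 1 φ (kk K z) := by
  unfold PSN pc pol
  rw [norm_kk, arg_kk]
  simp only [Complex.ofReal_one, one_mul]
  by_cases hz : z = 0
  · subst hz
    rw [pg_zero, plN_zero]
    simp
  · have hzn : 0 < ‖z‖ := norm_pos_iff.2 hz
    have hne := plN_ne (M := M) h0 h1 he hz
    have e1 : plN ga e M z = (‖z‖ : ℂ) * plN ga e M (cis (Complex.arg z)) := by
      conv_lhs => rw [polar z]
      exact T3aNBas_277.plN_smul hzn _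
    have e2 : ‖plN ga e M z‖ = ‖z‖ * ‖plN ga e M (cis (Complex.arg z))‖ := by
      rw [e1, norm_mul, Complex.norm_real, norm_norm]
    have hp : plN ga e M z = (‖plN ga e M z‖ : ℂ) * cis (φ (Complex.arg z)) := by
      rw [e2, e1]
      conv_lhs => rw [hφ]
      push_cast
      ring
    have hn : 0 < ‖plN ga e M z‖ := norm_pos_iff.2 hne
    conv_lhs => rw [hp]
    rw [Complex.real_smul]
    have e3 : (‖plN ga e M z‖ : ℂ) ≠ 0 := by exact_mod_cast hn.ne'
    have e4 : (pg K z ^ (8 : ℝ) : ℝ) = pg K z ^ 8 := by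
      exact_mod_cast Real.rpow_natCast (pg K z) 8
    rw [e4]
    rw [norm_mul, norm_cis, mul_one, Complex.norm_real, norm_norm]
    push_cast
    field_simp

/-! ### the windows -/

theorem wz_smul (m m' : ℕ) {r : ℝ} (hr : 0 < r) (z : ℂ) : wz m m' ((r : ℂ) * z) = wz m m' z := by
  unfold wz
  rw [Complex.re_ofReal_mul, Complex.im_ofReal_mul, mul_div_mul_left _ _ hr.ne']
  by_cases h : 0 < z.re
  · rw [if_pos h, if_pos (mul_pos hr h)]
  · rw [if_neg h, if_neg (by rw [mul_pos_iff_of_pos_left hr]; exact h)]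

theorem wz_arg (m m' : ℕ) {z : ℂ} (hz : z ≠ 0) : wz m m' (cis (Complex.arg z)) = wz m m' z := by
  conv_rhs => rw [polar z]
  exact (wz_smul m m' (norm_pos_iff.2 hz) _).symm

theorem pol_wz (m m' : ℕ) (K : ℝ) {p : ℝ} (hp : 0 < p) (z : ℂ) :
    pol p (fun x => wz m m' (cis x)) (kk K z) = pg K z ^ p * wz m m' z := by
  unfold pol
  rw [norm_kk, arg_kk, smul_eq_mul]
  by_cases hz : z = 0
  · subst hz
    rw [pg_zero, Real.zero_rpow hp.ne', zero_mul, zero_mul]
  · rw [← wz_arg m m' hz]

/-! ### homogeneity of the polar functions with all degrees `8` -/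

section Hom

variable {N : ℕ} {D : SD N}

theorem cd_two (D : SD N) (e : Fin D.nb) : 2 ≤ cd D e := by
  unfold cd
  exact_mod_cast D.h2 e

theorem fn_hom (X : PD D) (hX : ∀ j, X.dg j = 8) {r : ℝ} (hr : 0 < r) (z : Fin N → ℂ) :
    X.fn (fun j => (r : ℂ) * z j) = (r ^ (8 : ℝ)) • X.fn z := by
  unfold PD.fn
  simp only [hX]
  rw [smul_sub]
  congr 1
  · rw [Finset.smul_sum]
    exact Finset.sum_congr rfl fun j _ => pc_hom _ _ _ _ hr _
  · rw [Complex.real_smul, ← Complex.ofReal_mul]
    congr 1
    rw [Finset.mul_sum]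
    refine Finset.sum_congr rfl fun e _ => ?_
    have h1 : ∏ j ∈ (D.bx e).S, pol (8 / cd D e) (X.lam e j) ((r : ℂ) * z j) =
        r ^ (8 : ℝ) * ∏ j ∈ (D.bx e).S, pol (8 / cd D e) (X.lam e j) (z j) := by
      have h2 : ∀ j ∈ (D.bx e).S, pol (8 / cd D e) (X.lam e j) ((r : ℂ) * z j) =
          r ^ (8 / cd D e) * pol (8 / cd D e) (X.lam e j) (z j) := fun j _ => by
        rw [pol_hom _ _ _ hr, smul_eq_mul]
      rw [Finset.prod_congr rfl h2, Finset.prod_mul_distrib, Finset.prod_const]
      congr 1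
      rw [← Real.rpow_natCast, ← Real.rpow_mul hr.le]
      congr 1
      have h3 : ((D.bx e).S.card : ℝ) = cd D e := rfl
      rw [h3]
      have h4 := cd_two D e
      exact div_mul_cancel₀ _ (by linarith : cd D e ≠ 0)
    rw [h1]
    ring

end Hom

/-! ### assembly -/

theorem sn_pm {N : ℕ} (D : SD N) (j : Fin N) (l : ℕ) : D.sn j l = 1 ∨ D.sn j l = -1 := by
  unfold SD.sn
  split_ifs
  · exact Or.inr rfl
  · exact Or.inl rfl

/-- **GLN-STAR**: every polar function is equivalent to `FSN`. -/
theorem starP {N : ℕ} (D : SD N) (hA : AlignP D) (hS : SegP D)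
    (hL : ∀ (ga : ℝ) (e : ℕ → ℝ) (M : ℕ), 0 < ga → ga ≤ 1 / 8 → 1 ≤ M →
      (∀ l, e l = 1 ∨ e l = -1) → LiftP ga e M) : StarP D := by
  intro K ga hK h0 h1 X hX
  choose φ a b harc hwrd hpl hwin using fun j : Fin N =>
    hL ga (D.sn j) (D.M j) h0 h1 (D.hM j) (sn_pm D j)
  let Y : PD D :=
    { dg := fun _ => 8
      ph := φ
      a := a
      b := b
      c := fun _ => 4
      lam := fun e j x => wz ((D.bx e).lo j) ((D.bx e).hi j) (cis x) }
  have hcd : ∀ e, 2 * cd D e < 8 := fun e => by
    have := hK.cd3 e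
    linarith
  have hY : Y.Ok :=
    { hdg := fun j => by change (2 : ℝ) < 8; norm_num
      hdg2 := fun e j _ => hcd e
      arcs := harc
      ph := hwrd
      hc := fun e => by
        change cd D e < 4
        have := hK.cd3 e
        linarith
      lam := fun e j hj => hwin j ((D.bx e).lo j) ((D.bx e).hi j) (D.hhi e j hj) }
  obtain ⟨X', hX', hdg, ha, hb, hz⟩ := hA X hX (fun _ => 8) a b (fun j => by norm_num)
    (fun e j _ => hcd e) harc
  have h2 : ZEq X'.fn Y.fn := hS X' Y hX' hY hdg ha hb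
  refine (hz.trans h2).trans (ZEq.symm ?_)
  let w : Fin N → ℝ := fun _ => 1 / 8
  have hw : ∀ i, 0 < w i := fun i => by change (0 : ℝ) < 1 / 8; norm_num
  refine zeq_of_equiv (w := w) (w' := w) hw hw ?_ (Homeomorph.piCongrRight fun _ => kk K) ?_ ?_
  · intro s z hz0
    have h3 : act w s z = fun j => ((Real.exp (s * (1 / 8)) : ℝ) : ℂ) * z j := rfl
    rw [h3, fn_hom Y (fun _ => rfl) (Real.exp_pos _), hz0, smul_zero]
  · intro s z
    funext i
    change kk K (((Real.exp (s * w i) : ℝ) : ℂ) * z i) = ((Real.exp (s * w i) : ℝ) : ℂ) * kk K (z i)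
    exact kk_smul K (Real.exp_pos _) _
  · intro z
    have h4 : FSN D K ga 4 z = Y.fn ((Homeomorph.piCongrRight fun _ : Fin N => kk K) z) := by
      have h5 : ∀ i, (Homeomorph.piCongrRight fun _ : Fin N => kk K) z i = kk K (z i) :=
        fun i => rfl
      unfold FSN PD.fn
      simp only [h5]
      congr 1
      · exact Finset.sum_congr rfl fun j _ => PSN_eq (hpl j) h0 h1 (sn_pm D j) (z j)
      · congr 1
        rw [Finset.mul_sum]
        refine Finset.sum_congr rfl fun e _ => ?_
        congr 1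
        refine Finset.prod_congr rfl fun j _ => ?_
        have h6 : 0 < 8 / cd D e := by
          have := cd_two D e
          exact div_pos (by norm_num) (by linarith)
        exact (pol_wz _ _ K h6 (z j)).symm
    rw [h4]

end Crest.Agent.R267.GlnStar_649
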