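import Crest.Agent.R267.GlNDefs_9
import Crest.Agent.R267.CalcN_88
import Crest.Agent.R267.T3aNBas_277
import Crest.Agent.R267.GlnStar_649
import Crest.Agent.R267.GlCp_322
import Crest.Agent.R267.GlC2a_930

/-!
# Row 267 (helper984): GLN-LINE, planar facts on `plN`
-/

set_option autoImplicit false
set_option linter.unusedSectionVars false

noncomputable section

open Finset Filter Topology
open Crest.Agent.R267.T3aDefs_957 (st Af Bf pg pl NN chi)
open Crest.Agent.R267.T3aNDefs_88 Crest.Agent.R267.GlNDefs_9 Crest.Agent.R267.LemL_951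
open Crest.Agent.R267.GlueDefs_322 (rho PS P8)
open Crest.Agent.R267.Calc_957 (Afd Bfd)
open Crest.Agent.R267.GlPl_322 (Zn zn good_zn Af_le_of Af_le_one)
open Crest.Agent.R267.GlCp_322 (line_deriv fderiv_line fderiv_line_const hasDerivAt_unit im_line
  re_line zone_line)
open Crest.Agent.R267.CalcN_88 (pvdN hasDerivAt_pvN plN_of_pos)

namespace Crest.Agent.R267.GlnPl_984

/-! ### conjugation -/

theorem good_conj {a Q : ℂ} (h : Good a Q) : Good (starRingEnd ℂ a) (starRingEnd ℂ Q) := by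
  intro u hu h0 h1 h2
  have e1 : ∀ v : ℂ, rf (starRingEnd ℂ u) v = rf u (starRingEnd ℂ v) := fun v => by simp [rf]
  have h3 := h (starRingEnd ℂ u) (by rw [Complex.norm_conj]; exact hu)
    (by rw [Complex.conj_re]; exact h0) (by rw [e1]; exact h1) (by rw [e1]; exact h2)
  have h4 : (starRingEnd ℂ u).im * jf (starRingEnd ℂ u) Q = u.im * jf u (starRingEnd ℂ Q) := by
    simp only [jf, Complex.conj_re, Complex.conj_im]
    ring
  rw [← h4]
  exact h3

/-- **GOOD** on the zone, with a sign -/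
theorem good_znE {X Y X' Y' r t s k e : ℝ} (he : e = 1 ∨ e = -1) (h : Zn X Y X' Y') (hr : 0 < r)
    (ht : 0 ≤ t) (ht1 : t ≤ 1) (hs : 0 < s) (hk : 0 < k) {a Q : ℂ}
    (ha : a = (s : ℂ) * ⟨-(1 - t) * (X * Y' - Y * X') * Y / r + t * X',
      e * ((1 - t) * (X * Y' - Y * X') * X / r + t * Y')⟩) (hQ : Q = (k : ℂ) * ⟨X, e * Y⟩) :
    Good a Q ∧ (a.re = 0 → 0 < Q.re) := by
  rcases he with he | he
  · subst he
    rw [one_mul] at ha hQ
    exact good_zn h hr ht ht1 hs hk ha hQ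
  · subst he
    obtain ⟨h1, h2⟩ := good_zn h hr ht ht1 hs hk (a := starRingEnd ℂ a) (Q := starRingEnd ℂ Q)
      (by
        rw [ha]
        apply Complex.ext
        · simp
        · simp) (by
        rw [hQ]
        apply Complex.ext
        · simp
        · simp)
    have h3 := good_conj h1
    rw [Complex.conj_conj, Complex.conj_conj] at h3
    exact ⟨h3, by simpa using h2⟩

/-! ### the zone -/

variable {K ga : ℝ} {e : ℕ → ℝ} {M : ℕ}

theorem far_re {τ : ℝ} (h : ∀ l < M, 3 ≤ |τ - sgN l|) (he : ∀ l, e l = 1 ∨ e l = -1) :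
    (pvN ga e M τ).re = -(2 - ga) :=
  (CalcN_88.pvN_vert (fun l => by rcases he l with h | h <;> rw [h] <;> norm_num) h).1 ga

theorem pvN_ne (hg : 0 < ga) (hg1 : ga ≤ 1 / 8) (he : ∀ l, e l = 1 ∨ e l = -1) (τ : ℝ) :
    pvN ga e M τ ≠ 0 := by
  have h1 := GlnStar_649.plN_ne (M := M) hg hg1 he (z := ⟨1, τ⟩) (by
    intro h
    have := congrArg Complex.re h
    simp at this)
  intro h2
  apply h1
  rw [plN_of_pos (by norm_num)]
  simp [h2]

/-- the zone `Re plN ≥ 0`, `s > 0` -/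
theorem zoneN (hg : 0 < ga) (hg1 : ga ≤ 1 / 8) (he : ∀ l, e l = 1 ∨ e l = -1) {z : ℂ}
    (hz : 0 < z.re) (h : 0 ≤ (plN ga e M z).re) :
    ∃ l < M, |z.im / z.re - sgN l| < 3 / 2 ∧ 0 ≤ -(1 - ga) + Af (z.im / z.re - sgN l) := by
  rw [plN_of_pos hz, Complex.re_ofReal_mul] at h
  have h1 : 0 ≤ (pvN ga e M (z.im / z.re)).re := by
    by_contra h2
    push Not at h2
    have := mul_neg_of_pos_of_neg hz h2
    linarith
  by_cases h2 : ∀ l < M, 3 ≤ |z.im / z.re - sgN l|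
  · rw [far_re h2 he] at h1
    linarith
  · push Not at h2
    obtain ⟨l, hl, h3⟩ := h2
    have h4 := (CalcN_88.pvN_lobe (ga := ga) (e := e) hl (by linarith : |z.im / z.re - sgN l| ≤ 6)).1
    rw [h4] at h1
    refine ⟨l, hl, ?_, h1⟩
    by_contra h5
    push Not at h5
    have := Af_le_of h5
    linarith

theorem win_abs {l : ℕ} (hl : l < M) (hK : 16 * (M : ℝ) + 2 ≤ K) {u : ℂ} (hu : 0 < u.re)
    (h : |u.im / u.re - sgN l| < 3 / 2) : |u.im| ≤ K * |u.re| := by
  have hM : (l : ℝ) + 1 ≤ M := by exact_mod_cast hl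
  have h2 : |u.im / u.re| ≤ K := by
    rw [abs_lt] at h
    unfold sgN at h
    rw [abs_le]
    have : (0 : ℝ) ≤ l := l.cast_nonneg
    constructor <;> linarith
  rw [abs_div, abs_of_pos hu, div_le_iff₀ hu] at h2
  rwa [abs_of_pos hu]

theorem pg_zone {l : ℕ} (hl : l < M) (hK : 16 * (M : ℝ) + 2 ≤ K) {u : ℂ} (hu : 0 < u.re)
    (h : |u.im / u.re - sgN l| < 3 / 2) : pg K u = u.re := by
  have hM : (l : ℝ) + 1 ≤ M := by exact_mod_cast hl
  have hK0 : (0 : ℝ) ≤ K := by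
    have : (0 : ℝ) ≤ l := l.cast_nonneg
    linarith
  rw [GlBas_322.pg_window hK0 (win_abs hl hK hu h), abs_of_pos hu]

theorem rho_zone {l : ℕ} (hl : l < M) (hK : 16 * (M : ℝ) + 2 ≤ K) {u : ℂ} (hu : 0 < u.re)
    (h : |u.im / u.re - sgN l| < 3 / 2) : rho K u = u.re ^ 8 := by
  unfold rho
  rw [pg_zone hl hK hu h, max_eq_right hu.le]
  ring

/-! ### the planar terms -/

/-- the planar term of the line -/
def PtN (K ga : ℝ) (e : ℕ → ℝ) (M : ℕ) (t : ℝ) (z : ℂ) : ℂ :=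
  (1 - t) • PSN K ga e M z + t • P8N K ga e M z

/-- the factor -/
def mfN (K ga : ℝ) (e : ℕ → ℝ) (M : ℕ) (t : ℝ) (z : ℂ) : ℝ :=
  (1 - t) * (pg K z ^ 8 / ‖plN ga e M z‖) + t * pg K z ^ 7

theorem PtN_eq (t : ℝ) (z : ℂ) : PtN K ga e M t z = (mfN K ga e M t z : ℂ) * plN ga e M z := by
  unfold PtN mfN PSN P8N
  rw [Complex.real_smul, Complex.real_smul]
  push_cast
  ring

theorem mfN_pos (hg : 0 < ga) (hg1 : ga ≤ 1 / 8) (he : ∀ l, e l = 1 ∨ e l = -1) {t : ℝ}
    (ht : 0 ≤ t) (ht1 : t ≤ 1) {z : ℂ} (hz : z ≠ 0) : 0 < mfN K ga e M t z := by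
  have h1 : 0 < pg K z := GlBas_322.pg_pos hz
  have h2 : 0 < ‖plN ga e M z‖ := norm_pos_iff.2 (GlnStar_649.plN_ne hg hg1 he hz)
  unfold mfN
  have h3 : 0 < pg K z ^ 8 / ‖plN ga e M z‖ := by positivity
  have h4 : 0 < pg K z ^ 7 := by positivity
  rcases ht.lt_or_eq with h | h
  · exact add_pos_of_nonneg_of_pos (mul_nonneg (by linarith) h3.le) (mul_pos h h4)
  · rw [← h]
    simpa using h3

theorem PtN_ne (hg : 0 < ga) (hg1 : ga ≤ 1 / 8) (he : ∀ l, e l = 1 ∨ e l = -1) {t : ℝ}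
    (ht : 0 ≤ t) (ht1 : t ≤ 1) {z : ℂ} (hz : z ≠ 0) : PtN K ga e M t z ≠ 0 := by
  rw [PtN_eq]
  exact mul_ne_zero (by exact_mod_cast (mfN_pos hg hg1 he ht ht1 hz).ne')
    (GlnStar_649.plN_ne hg hg1 he hz)

theorem PSN_smul {r : ℝ} (hr : 0 < r) (z : ℂ) :
    PSN K ga e M ((r : ℂ) * z) = (r ^ 8 : ℝ) • PSN K ga e M z := by
  unfold PSN
  rw [GlBas_322.pg_smul hr, T3aNBas_277.plN_smul hr, norm_mul, Complex.norm_real,
    Real.norm_of_nonneg hr.le, Complex.real_smul]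
  have h1 : (r * pg K z) ^ 8 / (r * ‖plN ga e M z‖) * r = r ^ 8 * (pg K z ^ 8 / ‖plN ga e M z‖) := by
    by_cases h0 : ‖plN ga e M z‖ = 0
    · rw [h0]; simp
    · field_simp
  rw [← mul_assoc, ← Complex.ofReal_mul, h1]
  push_cast
  ring

theorem P8N_smul {r : ℝ} (hr : 0 < r) (z : ℂ) :
    P8N K ga e M ((r : ℂ) * z) = (r ^ 8 : ℝ) • P8N K ga e M z := by
  unfold P8N
  rw [GlBas_322.pg_smul hr, T3aNBas_277.plN_smul hr, Complex.real_smul]
  push_cast
  ring

theorem PtN_PH (t : ℝ) : PH (8 : ℝ) (PtN K ga e M t) := by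
  intro r hr z
  unfold PtN
  rw [PSN_smul hr, P8N_smul hr, show r ^ (8 : ℝ) = r ^ 8 by exact_mod_cast Real.rpow_natCast r 8,
    smul_add, smul_comm (1 - t), smul_comm t]

/-! ### differentiability -/

theorem contDiffAt_plN {z : ℂ} (hz : z ≠ 0) : ContDiffAt ℝ 2 (plN ga e M) z := by
  rcases le_or_gt z.re 0 with h0 | h0
  · have h1 : plN ga e M =ᶠ[nhds z] fun w : ℂ => -((2 - ga : ℝ) : ℂ) * (w.re : ℂ) -
        Complex.I * (w.im : ℂ) := by
      filter_upwards [CalcN_88.farN_nhds (M := M) h0 hz] with w hw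
      rw [CalcN_88.plN_of_far (Or.inl (by linarith))]
    refine ContDiffAt.congr_of_eventuallyEq ?_ h1
    exact ((contDiff_const.mul (GlC2a_930.contDiff_ofReal.comp GlC2a_930.contDiff_re)).sub
      (contDiff_const.mul (GlC2a_930.contDiff_ofReal.comp GlC2a_930.contDiff_im))).contDiffAt
  · have h1 : plN ga e M =ᶠ[nhds z] fun w : ℂ => (w.re : ℂ) * pvN ga e M (w.im / w.re) := by
      have : ∀ᶠ w : ℂ in nhds z, 0 < w.re :=
        Complex.continuous_re.continuousAt.eventually (lt_mem_nhds h0)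
      filter_upwards [this] with w hw
      exact plN_of_pos hw
    refine ContDiffAt.congr_of_eventuallyEq ?_ h1
    exact (GlC2a_930.contDiff_ofReal.comp GlC2a_930.contDiff_re).contDiffAt.mul
      ((CalcN_88.contDiff_pvN ga e M).contDiffAt.comp z (GlC2a_930.contDiffAt_slope h0.ne'))

theorem contDiff_P8N : ContDiff ℝ 2 (P8N K ga e M) := by
  refine GlC2a_930.contDiff_of_hom (n := 8) (by norm_num) (fun z hz => ?_) fun r hr z => ?_
  · have h1 := ((GlC2a_930.contDiffAt_pg K hz).pow 7)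
    exact ((GlC2a_930.contDiff_ofReal.contDiffAt.comp z h1).mul
      (contDiffAt_plN hz)).contDiffWithinAt
  · rw [Complex.real_smul]
    exact P8N_smul hr z

theorem contDiff_PSN (hg : 0 < ga) (hg1 : ga ≤ 1 / 8) (he : ∀ l, e l = 1 ∨ e l = -1) :
    ContDiff ℝ 2 (PSN K ga e M) := by
  refine GlC2a_930.contDiff_of_hom (n := 8) (by norm_num) (fun z hz => ?_) fun r hr z => ?_
  · have hne := GlnStar_649.plN_ne (M := M) hg hg1 he (show z ≠ 0 from hz)
    have h1 : ContDiffAt ℝ 2 (fun w => pg K w ^ 8 / ‖plN ga e M w‖) z :=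
      ((GlC2a_930.contDiffAt_pg K hz).pow 8).div ((contDiffAt_plN hz).norm ℝ hne)
        (norm_pos_iff.2 hne).ne'
    exact ((GlC2a_930.contDiff_ofReal.contDiffAt.comp z h1).mul
      (contDiffAt_plN hz)).contDiffWithinAt
  · rw [Complex.real_smul]
    exact PSN_smul hr z

theorem PtN_dif (hg : 0 < ga) (hg1 : ga ≤ 1 / 8) (he : ∀ l, e l = 1 ∨ e l = -1) (t : ℝ) :
    Differentiable ℝ (PtN K ga e M t) :=
  (((contDiff_PSN hg hg1 he).differentiable (by norm_num)).const_smul (1 - t)).add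
    ((contDiff_P8N.differentiable (by norm_num)).const_smul t)

/-- plate side: `PtN` is a submersion -/
theorem PtN_surj (hg : 0 < ga) (hg1 : ga ≤ 1 / 8) {t : ℝ} (ht : 0 ≤ t) (ht1 : t ≤ 1) {z : ℂ}
    (hz : z ≠ 0) (hre : z.re ≤ 0) : Function.Surjective (fderiv ℝ (PtN K ga e M t) z) := by
  have hev : plN ga e M =ᶠ[𝓝 z] pl ga M := by
    filter_upwards [CalcN_88.farN_nhds (M := M) hre hz, Calc2_957.far_nhds (M := M) hre hz]
      with w hw hw2
    rw [CalcN_88.plN_of_far (Or.inl (by linarith)), Calc_957.pl_of_far (Or.inl (by linarith))]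
  have hev2 : PtN K ga e M t =ᶠ[𝓝 z] GlCp_322.Pt K ga M t := by
    filter_upwards [hev] with w hw
    unfold PtN GlCp_322.Pt PSN P8N PS P8
    rw [hw]
  rw [hev2.fderiv_eq]
  refine GlCp_322.Pt_surj hg hg1 ht ht1 hz hre ?_
  have h1 := ((GlC2a_930.contDiff_PS K hg (by linarith : ga < 2) M).differentiable
    (by norm_num)) z
  have h2 := ((GlC2a_930.contDiff_P8 K ga M).differentiable (by norm_num)) z
  exact (h1.const_smul (1 - t)).add (h2.const_smul t)

/-- the vertical derivative of `PtN` in the zone -/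
theorem PtN_good (hg : 0 < ga) (hg1 : ga ≤ 1 / 8) (he : ∀ l, e l = 1 ∨ e l = -1)
    (hK : 16 * (M : ℝ) + 2 ≤ K) {t : ℝ} (ht : 0 ≤ t)
    (ht1 : t ≤ 1) {z : ℂ} (hz : 0 < z.re) {l : ℕ} (hl : l < M)
    (h : |z.im / z.re - sgN l| < 3 / 2) (hX : 0 ≤ -(1 - ga) + Af (z.im / z.re - sgN l)) :
    Good (fderiv ℝ (PtN K ga e M t) z Complex.I) (PtN K ga e M t z) ∧
      ((fderiv ℝ (PtN K ga e M t) z Complex.I).re = 0 → 0 < (PtN K ga e M t z).re) := by
  have hd := PtN_dif (K := K) (M := M) hg hg1 he t z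
  set s := z.re with hs
  set τ := z.im / s with hτ
  set v := τ - sgN l with hv
  set q : ℝ → ℂ := fun h => pvN ga e M (τ + h / s) with hq
  have hq0 : q 0 = pvN ga e M τ := by rw [hq]; simp
  have hqne : q 0 ≠ 0 := by rw [hq0]; exact pvN_ne hg hg1 he τ
  have hqd : HasDerivAt q (((1 / s : ℝ) : ℂ) * pvdN e M τ) 0 := by
    have h1 : HasDerivAt (fun h : ℝ => τ + h / s) (1 / s) 0 :=
      ((hasDerivAt_id (0 : ℝ)).div_const s).const_add τ
    have h2 : HasDerivAt (pvN ga e M) (pvdN e M τ) ((fun h : ℝ => τ + h / s) 0) := by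
      simpa using hasDerivAt_pvN ga e M τ
    have h3 := HasDerivAt.scomp (0 : ℝ) h2 h1
    rw [Complex.real_smul] at h3
    exact h3
  obtain ⟨c1, c2, c3, c4⟩ := CalcN_88.pvN_lobe (ga := ga) (e := e) hl
    (by linarith : |τ - sgN l| ≤ 6)
  rw [← hv] at c1 c2 c3 c4
  have hZ := zn hg hg1 h.le hX
  set X := -(1 - ga) + Af v with hXd
  set Y := Bf v with hYd
  have hq0re : (q 0).re = X := by rw [hq0, c1]
  have hq0im : (q 0).im = e l * Y := by rw [hq0, c2]
  have hd're : (((1 / s : ℝ) : ℂ) * pvdN e M τ).re = Afd v / s := by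
    rw [Complex.re_ofReal_mul, c3]
    ring
  have hd'im : (((1 / s : ℝ) : ℂ) * pvdN e M τ).im = e l * Bfd v / s := by
    rw [Complex.im_ofReal_mul, c4]
    ring
  have hr : 0 < ‖q 0‖ := norm_pos_iff.2 hqne
  set r := ‖q 0‖ with hrd
  have hU := hasDerivAt_unit hqd hqne
  rw [hq0re, hq0im, hd're, hd'im, ← hrd] at hU
  -- the function along the vertical line
  have hev : (fun h : ℝ => PtN K ga e M t (z + h • Complex.I)) =ᶠ[𝓝 0]
      fun h => (((1 - t) * s ^ 8 : ℝ) : ℂ) * (((‖q h‖⁻¹ : ℝ) : ℂ) * q h) +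
        ((t * s ^ 8 : ℝ) : ℂ) * q h := by
    filter_upwards [zone_line hz h] with x hx
    have h4 : 0 < (z + x • Complex.I).re := by rwa [re_line]
    have h5 := pg_zone hl hK h4 hx
    have h6 : plN ga e M (z + x • Complex.I) = (s : ℂ) * q x := by
      rw [plN_of_pos h4, re_line, im_line, hq]
      simp only
      congr 2
      rw [hτ]
      ring
    rw [PtN_eq, h6]
    unfold mfN
    rw [h5, h6, re_line, norm_mul, Complex.norm_real, Real.norm_of_nonneg hz.le, ← hs]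
    push_cast
    have h7 : (s : ℂ) ≠ 0 := by exact_mod_cast hz.ne'
    have h8 : ((‖q x‖ : ℝ) : ℂ) ≠ 0 := by
      have : q x ≠ 0 := pvN_ne hg hg1 he _
      exact_mod_cast (norm_pos_iff.2 this).ne'
    field_simp
  have hD := (hU.const_mul ((((1 - t) * s ^ 8 : ℝ) : ℂ))).fun_add
    (hqd.const_mul (((t * s ^ 8 : ℝ) : ℂ)))
  have hfd := fderiv_line hd (hD.congr_of_eventuallyEq hev)
  have hval : PtN K ga e M t z = ((s ^ 8 * ((1 - t) / r + t) : ℝ) : ℂ) * ⟨X, e l * Y⟩ := by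
    have h9 := hev.self_of_nhds
    simp only [zero_smul, add_zero] at h9
    rw [h9, ← hrd]
    have h10 : q 0 = ⟨X, e l * Y⟩ := Complex.ext hq0re hq0im
    rw [h10]
    push_cast
    ring
  have hee : e l * e l = 1 := by rcases he l with h | h <;> rw [h] <;> norm_num
  refine good_znE (s := s ^ 7) (k := s ^ 8 * ((1 - t) / r + t)) (r := r ^ 3) (he l) hZ
    (by positivity) ht ht1 (by positivity) ?_ ?_ hval
  · have h11 : 0 < (1 - t) / r + t := by
      rcases ht.lt_or_eq with h12 | h12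
      · have : 0 ≤ (1 - t) / r := div_nonneg (by linarith) hr.le
        linarith
      · rw [← h12]
        simp only [sub_zero, add_zero]
        positivity
    positivity
  · rw [hfd]
    have hs' : s ≠ 0 := hz.ne'
    have hr' : r ≠ 0 := hr.ne'
    apply Complex.ext
    · simp only [Complex.add_re, Complex.re_ofReal_mul, hd're]
      field_simp
      linear_combination (-(1 - t) * (X * Bfd v - Y * Afd v) * Y) * hee
    · simp only [Complex.add_im, Complex.im_ofReal_mul, hd'im]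
      field_simp

/-- upper bound of the real part in the zone -/
theorem PtN_le (hg : 0 < ga) (hg1 : ga ≤ 1 / 8) (he : ∀ l, e l = 1 ∨ e l = -1) {t : ℝ} (ht : 0 ≤ t)
    (ht1 : t ≤ 1) {z : ℂ} (hz : 0 < z.re) (hpg : pg K z = z.re) {l : ℕ} (hl : l < M)
    (h : |z.im / z.re - sgN l| < 3 / 2) :
    (PtN K ga e M t z).re ≤ ((1 - t) + t * ga) * z.re ^ 8 := by
  have h0 : plN ga e M z ≠ 0 :=
    GlnStar_649.plN_ne hg hg1 he (fun h => by rw [h] at hz; simp at hz)
  have hn : 0 < ‖plN ga e M z‖ := norm_pos_iff.2 h0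
  have h1 : (plN ga e M z).re ≤ ‖plN ga e M z‖ := (le_abs_self _).trans (Complex.abs_re_le_norm _)
  have h2 : (plN ga e M z).re ≤ ga * z.re := by
    rw [plN_of_pos hz, Complex.re_ofReal_mul, mul_comm ga]
    refine mul_le_mul_of_nonneg_left ?_ hz.le
    rw [(CalcN_88.pvN_lobe (ga := ga) (e := e) hl
      (by linarith : |z.im / z.re - sgN l| ≤ 6)).1]
    have := Af_le_one (z.im / z.re - sgN l)
    linarith
  rw [PtN_eq, Complex.re_ofReal_mul]
  unfold mfN
  rw [hpg]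
  have h3 : z.re ^ 8 / ‖plN ga e M z‖ * (plN ga e M z).re ≤ z.re ^ 8 := by
    rw [div_mul_eq_mul_div, div_le_iff₀ hn]
    exact mul_le_mul_of_nonneg_left h1 (by positivity)
  have h4 : z.re ^ 7 * (plN ga e M z).re ≤ ga * z.re ^ 8 := by
    have := mul_le_mul_of_nonneg_left h2 (by positivity : 0 ≤ z.re ^ 7)
    calc z.re ^ 7 * (plN ga e M z).re ≤ z.re ^ 7 * (ga * z.re) := this
      _ = ga * z.re ^ 8 := by ring
  calc ((1 - t) * (z.re ^ 8 / ‖plN ga e M z‖) + t * z.re ^ 7) * (plN ga e M z).re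
      = (1 - t) * (z.re ^ 8 / ‖plN ga e M z‖ * (plN ga e M z).re) +
        t * (z.re ^ 7 * (plN ga e M z).re) := by
        ring
    _ ≤ (1 - t) * z.re ^ 8 + t * (ga * z.re ^ 8) :=
        add_le_add (mul_le_mul_of_nonneg_left h3 (by linarith)) (mul_le_mul_of_nonneg_left h4 ht)
    _ = _ := by ring

end Crest.Agent.R267.GlnPl_984
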