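import Crest.Agent.R267.GlNDefs_9
import Crest.Agent.R267.GlLift_125
import Crest.Agent.R267.GlnPl_984

/-!
# Row 267 (helper9): GLN-LIFT, phase, arcs and windows of `plN`
-/

set_option autoImplicit false

noncomputable section

open Finset Filter Topology
open Crest.Agent.R267.T3aDefs_957 (st Af Bf)
open Crest.Agent.R267.T3aNDefs_88 Crest.Agent.R267.GlNDefs_9 Crest.Agent.R267.Ang_739
open Crest.Agent.R267.Calc_957 Crest.Agent.R267.CalcN_88
open Crest.Agent.R267.GlLift_125 (cr cis_re cis_im cis_ne cis_eq_one)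

namespace Crest.Agent.R267.GlnLift_9

/-! ### the width of a lobe -/

theorem Af_anti {v w : ℝ} (h : |v| ≤ |w|) : Af w ≤ Af v := by
  unfold Af
  have := st_mono (show (|v| - 1) / 2 ≤ (|w| - 1) / 2 by linarith)
  linarith

theorem st_strict {x y : ℝ} (h0 : 0 ≤ x) (h1 : x < 1) (h : x < y) : st x < st y := by
  rcases le_or_gt 1 y with hy | hy
  · rw [st_of_ge hy]
    exact st_lt_one h1
  · have hm : StrictMonoOn st (Set.Icc 0 1) := by
      refine strictMonoOn_of_deriv_pos (convex_Icc 0 1) contDiff_st.continuous.continuousOn ?_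
      intro z hz
      rw [interior_Icc] at hz
      rw [(hasDerivAt_st z).deriv]
      exact std_pos hz.1 hz.2
    exact hm ⟨h0, h1.le⟩ ⟨by linarith, hy.le⟩ h

theorem exists_v0 {ga : ℝ} (h0 : 0 < ga) (h8 : ga ≤ 1 / 8) : ∃ v0 : ℝ, 1 < v0 ∧ v0 < 2 ∧
    Af v0 = 1 - ga ∧
    (∀ v, |v| ≤ v0 → 0 ≤ -(1 - ga) + Af v) ∧ (∀ v, v0 < |v| → -(1 - ga) + Af v < 0) := by
  have hc : ContinuousOn Af (Set.Icc 1 2) := contDiff_Af.continuous.continuousOn
  have h1 : Af 1 = 1 := Af_of_le (by norm_num)
  have h2 : Af 2 ≤ 0 := by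
    unfold Af
    have : (1 : ℝ) / 2 ≤ st ((|2| - 1) / 2) := by
      rw [show ((|2| : ℝ) - 1) / 2 = 1 / 2 by norm_num,
        GlLift_125.st_mem (by norm_num) (by norm_num)]
      norm_num
    linarith
  have hm : 1 - ga ∈ Set.Icc (Af 2) (Af 1) := by
    rw [h1]
    constructor <;> linarith
  obtain ⟨v0, hv, hv'⟩ := intermediate_value_Icc' (by norm_num : (1 : ℝ) ≤ 2) hc hm
  have hv1 : 1 < v0 := by
    rcases eq_or_lt_of_le hv.1 with h | h
    · rw [← h, h1] at hv'
      linarith
    · exact h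
  have hv2 : v0 < 2 := by
    rcases eq_or_lt_of_le hv.2 with h | h
    · rw [h] at hv'
      linarith
    · exact h
  refine ⟨v0, hv1, hv2, hv', fun v hvv => ?_, fun v hvv => ?_⟩
  · have := Af_anti (v := v) (w := v0) (by rwa [abs_of_pos (by linarith : 0 < v0)])
    linarith
  · have h3 : st ((v0 - 1) / 2) < st ((|v| - 1) / 2) :=
      st_strict (by linarith) (by linarith) (by linarith)
    have h4 : Af v0 = 1 - 2 * st ((v0 - 1) / 2) := by
      unfold Af
      rw [abs_of_pos (by linarith : 0 < v0)]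
    have h5 : Af v = 1 - 2 * st ((|v| - 1) / 2) := rfl
    linarith

/-! ### continuity arguments -/

/-- boundary values -/
theorem bd {y c s : ℝ} {n : ℤ} (hc : c = 2 * Real.pi * n) (h : |y - c| ≤ Real.pi / 2)
    (h0 : Real.cos y = 0) (hs : s = 1 ∨ s = -1) (h1 : 0 < s * Real.sin y) :
    y = c + s * (Real.pi / 2) := by
  have hpi := Real.pi_pos
  have e1 : Real.cos y = Real.cos (y - c) := by
    rw [hc, show y - 2 * Real.pi * n = y - n * (2 * Real.pi) by ring, Real.cos_sub_int_mul_two_pi]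
  have e2 : Real.sin y = Real.sin (y - c) := by
    rw [hc, show y - 2 * Real.pi * n = y - n * (2 * Real.pi) by ring, Real.sin_sub_int_mul_two_pi]
  rw [e1] at h0
  rw [e2] at h1
  obtain ⟨h2, h3⟩ := abs_le.1 h
  have h4 : |y - c| = Real.pi / 2 := by
    by_contra h5
    have h6 : |y - c| < Real.pi / 2 := lt_of_le_of_ne h h5
    obtain ⟨h7, h8⟩ := abs_lt.1 h6
    have := Real.cos_pos_of_mem_Ioo ⟨h7, h8⟩
    linarith
  rcases (abs_eq (by positivity)).1 h4 with h5 | h5
  · rw [h5, Real.sin_pi_div_two] at h1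
    rcases hs with hs | hs
    · rw [hs]; linarith
    · rw [hs] at h1; linarith
  · rw [h5, Real.sin_neg, Real.sin_pi_div_two] at h1
    rcases hs with hs | hs
    · rw [hs] at h1; linarith
    · rw [hs]; linarith

/-- boundary values, odd centre -/
theorem bd' {y c s : ℝ} {n : ℤ} (hc : c = 2 * Real.pi * n + Real.pi) (h : |y - c| ≤ Real.pi / 2)
    (h0 : Real.cos y = 0) (hs : s = 1 ∨ s = -1) (h1 : 0 < s * Real.sin y) :
    y = c - s * (Real.pi / 2) := by
  have h2 := bd (y := y - Real.pi) (c := c - Real.pi) (s := -s) (n := n) (by rw [hc]; ring)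
    (by rwa [show y - Real.pi - (c - Real.pi) = y - c by ring])
    (by rw [Real.cos_sub_pi, h0, neg_zero]) (by rcases hs with h | h <;> rw [h] <;> norm_num)
    (by rw [Real.sin_sub_pi]; linarith)
  linarith

/-- an arc entered at its end -/
theorem arcE {φ : ℝ → ℝ} (hφ : Continuous φ) {a x c s : ℝ} {n : ℤ} (hc : c = 2 * Real.pi * n)
    (hs : s = 1 ∨ s = -1) (ha : φ a = c - s * (Real.pi / 2)) (hax : a ≤ x)
    (hp : ∀ y, a ≤ y → y ≤ x → 0 ≤ Real.cos (φ y)) : |φ x - c| ≤ Real.pi / 2 := by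
  have hpi := Real.pi_pos
  have hcos : ∀ y, Real.cos y = Real.cos (y - c) := fun y => by
    rw [hc, show y - 2 * Real.pi * n = y - n * (2 * Real.pi) by ring, Real.cos_sub_int_mul_two_pi]
  have ha' : |φ a - c| ≤ Real.pi / 2 := by
    rw [ha]
    rcases hs with h | h <;> rw [h, abs_le] <;> constructor <;> linarith
  obtain ⟨ha1, ha2⟩ := abs_le.1 ha'
  by_contra h
  push Not at h
  rcases lt_abs.1 h with h1 | h1
  · -- `φ x > c + π / 2`
    have hmem : min (φ x) (c + Real.pi) ∈ Set.Icc (φ a) (φ x) :=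
      ⟨le_min (by linarith) (by linarith), min_le_left _ _⟩
    obtain ⟨y, hy, hy'⟩ := intermediate_value_Icc hax hφ.continuousOn hmem
    have h2 := hp y hy.1 hy.2
    rw [hcos, hy'] at h2
    have h3 : Real.pi / 2 < min (φ x) (c + Real.pi) - c := by
      rw [lt_sub_iff_add_lt]
      exact lt_min (by linarith) (by linarith)
    have h4 : min (φ x) (c + Real.pi) - c < Real.pi + Real.pi / 2 := by
      have := min_le_right (φ x) (c + Real.pi)
      linarith
    have := Real.cos_neg_of_pi_div_two_lt_of_lt h3 h4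
    linarith
  · have hmem : max (φ x) (c - Real.pi) ∈ Set.Icc (φ x) (φ a) :=
      ⟨le_max_left _ _, max_le (by linarith) (by linarith)⟩
    obtain ⟨y, hy, hy'⟩ := intermediate_value_Icc' hax hφ.continuousOn hmem
    have h2 := hp y hy.1 hy.2
    rw [hcos, hy', ← Real.cos_neg] at h2
    have h3 : Real.pi / 2 < -(max (φ x) (c - Real.pi) - c) := by
      have : max (φ x) (c - Real.pi) < c - Real.pi / 2 := max_lt (by linarith) (by linarith)
      linarith
    have h4 : -(max (φ x) (c - Real.pi) - c) < Real.pi + Real.pi / 2 := by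
      have := le_max_right (φ x) (c - Real.pi)
      linarith
    have := Real.cos_neg_of_pi_div_two_lt_of_lt h3 h4
    linarith

/-- a gap, entered from its left end -/
theorem gapE {φ : ℝ → ℝ} (hφ : Continuous φ) {b x c s : ℝ} {n : ℤ} (hc : c = 2 * Real.pi * n)
    (hs : s = 1 ∨ s = -1) (hb : φ b = c + s * (Real.pi / 2)) (hbx : b < x)
    (hp : ∀ y, b < y → y ≤ x → Real.cos (φ y) < 0) :
    |φ x - (c + Real.pi * s)| < Real.pi / 2 := by
  have hpi := Real.pi_pos
  have hcos : ∀ y, Real.cos y = Real.cos (s * (y - c)) := fun y => by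
    rcases hs with h | h
    · rw [h, one_mul, hc, show y - 2 * Real.pi * n = y - n * (2 * Real.pi) by ring,
        Real.cos_sub_int_mul_two_pi]
    · rw [h, neg_one_mul, Real.cos_neg, hc,
        show y - 2 * Real.pi * n = y - n * (2 * Real.pi) by ring, Real.cos_sub_int_mul_two_pi]
  set ψ : ℝ → ℝ := fun y => s * (φ y - c) with hψ
  have hψc : Continuous ψ := continuous_const.mul (hφ.sub continuous_const)
  have hs2 : s * s = 1 := by rcases hs with h | h <;> rw [h] <;> norm_num
  have hb' : ψ b = Real.pi / 2 := by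
    simp only [hψ]
    rw [hb, add_sub_cancel_left, ← mul_assoc, hs2, one_mul]
  have hp' : ∀ y, b < y → y ≤ x → Real.cos (ψ y) < 0 := fun y h1 h2 => by
    have := hp y h1 h2
    rwa [hcos] at this
  have key : |ψ x - Real.pi| < Real.pi / 2 := by
    rw [abs_lt]
    constructor
    · by_contra h
      push Not at h
      have h1 : ψ x ≤ Real.pi / 2 := by linarith
      have h2 : ψ x ≠ Real.pi / 2 := by
        intro h3
        have := hp' x hbx le_rfl
        rw [h3, Real.cos_pi_div_two] at this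
        exact lt_irrefl _ this
      have h3 : ψ x < Real.pi / 2 := lt_of_le_of_ne h1 h2
      have hmem : max (ψ x) 0 ∈ Set.Icc (ψ x) (ψ b) :=
        ⟨le_max_left _ _, by rw [hb']; exact max_le h3.le (by positivity)⟩
      obtain ⟨y, hy, hy'⟩ := intermediate_value_Icc' hbx.le hψc.continuousOn hmem
      have h4 : max (ψ x) 0 < Real.pi / 2 := max_lt h3 (by positivity)
      have h5 : b < y := by
        rcases eq_or_lt_of_le hy.1 with h6 | h6
        · rw [← h6, hb'] at hy'
          linarith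
        · exact h6
      have h6 := hp' y h5 hy.2
      rw [hy'] at h6
      have h7 := Real.cos_pos_of_mem_Ioo
        ⟨by linarith [le_max_right (ψ x) 0] , h4⟩
      linarith
    · by_contra h
      push Not at h
      have h1 : Real.pi + Real.pi / 2 ≤ ψ x := by linarith
      obtain ⟨y, hy, hy'⟩ := intermediate_value_Icc hbx.le hψc.continuousOn
        (show Real.pi + Real.pi / 2 ∈ Set.Icc (ψ b) (ψ x) from
          ⟨by rw [hb']; linarith, h1⟩)
      have h5 : b < y := by
        rcases eq_or_lt_of_le hy.1 with h6 | h6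
        · rw [← h6, hb'] at hy'
          linarith
        · exact h6
      have h6 := hp' y h5 hy.2
      rw [hy', show Real.pi + Real.pi / 2 = Real.pi / 2 + Real.pi by ring, Real.cos_add_pi,
        Real.cos_pi_div_two] at h6
      simp at h6
  have e : φ x - (c + Real.pi * s) = s * (ψ x - Real.pi) := by
    simp only [hψ]
    linear_combination (-(φ x - c)) * hs2
  rw [e, abs_mul]
  have : |s| = 1 := by rcases hs with h | h <;> rw [h] <;> norm_num
  rw [this, one_mul]
  exact key

/-! ### the function on the circle -/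

section

variable {ga : ℝ} {e : ℕ → ℝ} {M : ℕ}

/-- the planar function on the circle. -/
def gN (ga : ℝ) (e : ℕ → ℝ) (M : ℕ) (x : ℝ) : ℂ := plN ga e M (cis x)

theorem contDiff_gN : ContDiff ℝ 2 (gN ga e M) := by
  rw [contDiff_iff_contDiffAt]
  intro x
  exact (GlnPl_984.contDiffAt_plN (cis_ne x)).comp x contDiff_cis.contDiffAt

theorem gN_ne (h0 : 0 < ga) (h8 : ga ≤ 1 / 8) (he : ∀ l, e l = 1 ∨ e l = -1) (x : ℝ) :
    gN ga e M x ≠ 0 := GlnStar_649.plN_ne h0 h8 he (cis_ne x)

theorem cis_per1 (x : ℝ) : cis (x + 2 * Real.pi) = cis x := by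
  have := cis_per x 1
  rwa [Int.cast_one, mul_one] at this

theorem gN_per (x : ℝ) : gN ga e M (x + 2 * Real.pi) = gN ga e M x := by
  unfold gN
  rw [cis_per1]

theorem gN_of_cos_pos {x : ℝ} (hc : 0 < Real.cos x) :
    gN ga e M x = (Real.cos x : ℂ) * pvN ga e M (Real.tan x) := by
  unfold gN
  rw [plN_of_pos (by rw [cis_re]; exact hc), cis_re, cis_im, Real.tan_eq_sin_div_cos]

theorem gN_of_cos_nonpos {x : ℝ} (hc : Real.cos x ≤ 0) :
    gN ga e M x = -((2 - ga : ℝ) : ℂ) * Real.cos x - Complex.I * Real.sin x := by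
  unfold gN
  rw [plN_of_nonpos (by rw [cis_re]; exact hc), cis_re, cis_im]

theorem hasDerivAt_gN (x : ℝ) :
    HasDerivAt (gN ga e M) (-(Real.sin x) • paN ga e M (cis x) +
      Real.cos x • pbN e M (cis x)) x := by
  have h := (hasFDerivAt_plN ga e M (cis_ne x)).comp_hasDerivAt x (hasDerivAt_cis x)
  refine h.congr_deriv ?_
  have h1 : (Complex.I * cis x).re = -Real.sin x := by rw [← cis_im]; simp
  have h2 : (Complex.I * cis x).im = Real.cos x := by rw [← cis_re]; simp
  simp only [_root_.add_apply, ContinuousLinearMap.smulRight_apply,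
    Complex.reCLM_apply, Complex.imCLM_apply, h1, h2]

/-- plate -/
theorem cr_plate (h8 : ga ≤ 1 / 8) {x : ℝ} (hc : Real.cos x ≤ 0) :
    0 < cr (gN ga e M x) (deriv (gN ga e M) x) := by
  rw [(hasDerivAt_gN x).deriv]
  have hcs := Real.sin_sq_add_cos_sq x
  have hz : (cis x).re ≤ 0 := by rw [cis_re]; exact hc
  have hz' : ¬ 0 < (cis x).re := not_lt.2 hz
  unfold cr gN paN pbN
  rw [plN_of_nonpos hz, if_neg hz', if_neg hz', cis_re, cis_im]
  clear hz hz' hc
  generalize Real.cos x = c at *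
  generalize Real.sin x = s at *
  have h2 : 0 < 2 - ga := by linarith
  simp
  nlinarith

/-- `s > 0` -/
theorem cr_pos {x : ℝ} (hc : 0 < Real.cos x) :
    cr (gN ga e M x) (deriv (gN ga e M) x) =
      cr (pvN ga e M (Real.tan x)) (pvdN e M (Real.tan x)) := by
  rw [(hasDerivAt_gN x).deriv]
  have hcs := Real.sin_sq_add_cos_sq x
  have hz : 0 < (cis x).re := by rw [cis_re]; exact hc
  rw [Real.tan_eq_sin_div_cos]
  unfold cr gN paN pbN
  rw [plN_of_pos hz, if_pos hz, if_pos hz, cis_re, cis_im]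
  obtain ⟨τ, hτ⟩ : ∃ τ, τ = Real.sin x / Real.cos x := ⟨_, rfl⟩
  have e : Real.sin x = τ * Real.cos x := by rw [hτ]; field_simp
  rw [← hτ]
  rw [e] at hcs ⊢
  clear hz hτ e
  generalize pvN ga _ M τ = p at *
  generalize pvdN _ M τ = p' at *
  generalize Real.cos x = c at *
  have : (c * p.re) * (-(τ * c) * (p.im - τ * p'.im) + c * p'.im) -
      (c * p.im) * (-(τ * c) * (p.re - τ * p'.re) + c * p'.re) =
      p.re * p'.im - p.im * p'.re := by
    have : (c * p.re) * (-(τ * c) * (p.im - τ * p'.im) + c * p'.im) -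
      (c * p.im) * (-(τ * c) * (p.re - τ * p'.re) + c * p'.re) =
      ((τ * c) ^ 2 + c ^ 2) * (p.re * p'.im - p.im * p'.re) := by ring
    rw [this, hcs, one_mul]
  rw [← this]
  simp

/-- lobes -/
theorem cr_lobe (h0 : 0 < ga) (h8 : ga ≤ 1 / 8) (he : ∀ l, e l = 1 ∨ e l = -1) {l : ℕ}
    (hl : l < M) {x : ℝ} (hc : 0 < Real.cos x) (h : |Real.tan x - sgN l| ≤ 6) :
    0 < e l * cr (gN ga e M x) (deriv (gN ga e M) x) := by
  rw [cr_pos hc]
  obtain ⟨c1, c2, c3, c4⟩ := pvN_lobe (ga := ga) (e := e) hl h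
  unfold cr
  rw [c1, c2, c3, c4]
  have h1 := GlLift_125.loop_pos' h0 h8 (Real.tan x - sgN l)
  have hee : e l * e l = 1 := by rcases he l with h | h <;> rw [h] <;> norm_num
  have : e l * ((-(1 - ga) + Af (Real.tan x - sgN l)) * (e l * Bfd (Real.tan x - sgN l)) -
      e l * Bf (Real.tan x - sgN l) * Afd (Real.tan x - sgN l)) =
      (-(1 - ga) + Af (Real.tan x - sgN l)) * Bfd (Real.tan x - sgN l) -
      Bf (Real.tan x - sgN l) * Afd (Real.tan x - sgN l) := by
    linear_combination ((-(1 - ga) + Af (Real.tan x - sgN l)) * Bfd (Real.tan x - sgN l) -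
      Bf (Real.tan x - sgN l) * Afd (Real.tan x - sgN l)) * hee
  rw [this]
  exact h1

/-! ### arcs -/

/-- starts of the arcs -/
def aN (v0 : ℝ) (M i : ℕ) : ℝ :=
  if i = 0 then Real.pi / 2 else
    if i ≤ M then 2 * Real.pi + Real.arctan (sgN (i - 1) - v0) else 2 * Real.pi + Real.pi / 2

/-- ends of the arcs -/
def bN (v0 : ℝ) (i : ℕ) : ℝ :=
  if i = 0 then Real.pi + Real.pi / 2 else 2 * Real.pi + Real.arctan (sgN (i - 1) + v0)

theorem aN_zero (v0 : ℝ) (M : ℕ) : aN v0 M 0 = Real.pi / 2 := if_pos rfl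

theorem bN_zero (v0 : ℝ) : bN v0 0 = Real.pi + Real.pi / 2 := if_pos rfl

theorem aN_succ (v0 : ℝ) {M l : ℕ} (h : l < M) :
    aN v0 M (l + 1) = 2 * Real.pi + Real.arctan (sgN l - v0) := by
  unfold aN
  rw [if_neg (by omega), if_pos (by omega), Nat.add_sub_cancel]

theorem bN_succ (v0 : ℝ) (l : ℕ) : bN v0 (l + 1) = 2 * Real.pi + Real.arctan (sgN l + v0) := by
  unfold bN
  rw [if_neg (by omega), Nat.add_sub_cancel]

theorem aN_last (v0 : ℝ) (M : ℕ) : aN v0 M (M + 1) = 2 * Real.pi + Real.pi / 2 := by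
  unfold aN
  rw [if_neg (by omega), if_neg (by omega)]

theorem sgN_succ (l : ℕ) : sgN (l + 1) = sgN l + 16 := by
  unfold sgN
  push_cast
  ring

theorem arcsN {v0 : ℝ} (h1 : 1 < v0) (h2 : v0 < 2) (M : ℕ) : Arcs M (aN v0 M) (bN v0) where
  ab := by
    have hpi := Real.pi_pos
    intro i hi
    rcases i with _ | l
    · rw [aN_zero, bN_zero]; linarith
    · rw [aN_succ v0 (by omega), bN_succ]
      have := Real.arctan_strictMono (show sgN l - v0 < sgN l + v0 by linarith)
      linarith
  ba := by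
    have hpi := Real.pi_pos
    intro i hi
    rcases i with _ | l
    · rw [bN_zero]
      rcases Nat.eq_zero_or_pos M with h | h
      · subst h
        rw [aN_last]; linarith
      · rw [aN_succ v0 h]
        have := Real.neg_pi_div_two_lt_arctan (sgN 0 - v0)
        linarith
    · rw [bN_succ]
      rcases lt_or_eq_of_le hi with h | h
      · rw [aN_succ v0 h, sgN_succ]
        have := Real.arctan_strictMono (show sgN l + v0 < sgN l + 16 - v0 by linarith)
        linarith
      · rw [h, aN_last]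
        have := Real.arctan_lt_pi_div_two (sgN l + v0)
        linarith
  last := by rw [aN_last, aN_zero]; ring

/-- a point over the right half plane -/
theorem sub_tan {x : ℝ} (h1 : Real.pi + Real.pi / 2 < x) (h2 : x < 2 * Real.pi + Real.pi / 2) :
    0 < Real.cos x ∧ Real.tan x = Real.tan (x - 2 * Real.pi) ∧
      Real.arctan (Real.tan x) = x - 2 * Real.pi := by
  have h3 : 0 < Real.cos (x - 2 * Real.pi) := Real.cos_pos_of_mem_Ioo ⟨by linarith, by linarith⟩
  have h4 : Real.tan x = Real.tan (x - 2 * Real.pi) := by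
    rw [Real.tan_eq_sin_div_cos, Real.tan_eq_sin_div_cos, Real.cos_sub_two_pi,
      Real.sin_sub_two_pi]
  refine ⟨by rwa [Real.cos_sub_two_pi] at h3, h4, ?_⟩
  rw [h4, Real.arctan_tan (by linarith) (by linarith)]

theorem lobe_tan {v0 : ℝ} {l : ℕ} (hl : l < M) {x : ℝ}
    (ha : aN v0 M (l + 1) ≤ x) (hb : x ≤ bN v0 (l + 1)) :
    0 < Real.cos x ∧ |Real.tan x - sgN l| ≤ v0 := by
  rw [aN_succ v0 hl] at ha
  rw [bN_succ] at hb
  have h3 := Real.neg_pi_div_two_lt_arctan (sgN l - v0)
  have h4 := Real.arctan_lt_pi_div_two (sgN l + v0)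
  have hpi := Real.pi_pos
  obtain ⟨c1, c2, c3⟩ := sub_tan (x := x) (by linarith) (by linarith)
  refine ⟨c1, ?_⟩
  have h5 : sgN l - v0 ≤ Real.tan x := by
    rw [← Real.arctan_strictMono.le_iff_le, c3]
    linarith
  have h6 : Real.tan x ≤ sgN l + v0 := by
    rw [← Real.arctan_strictMono.le_iff_le, c3]
    linarith
  rw [abs_le]
  constructor <;> linarith

/-- the gaps: `Re < 0` -/
theorem gap_neg (h0 : 0 < ga) (h8 : ga ≤ 1 / 8) (he : ∀ l, e l = 1 ∨ e l = -1) {v0 : ℝ}
    (hv : ∀ v, v0 < |v| → -(1 - ga) + Af v < 0) {i : ℕ} (hi : i ≤ M) {x : ℝ}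
    (hb : bN v0 i < x) (ha : x < aN v0 M (i + 1)) : (gN ga e M x).re < 0 := by
  have hpi := Real.pi_pos
  -- `x` is over the right half plane
  have hx1 : Real.pi + Real.pi / 2 < x := by
    rcases i with _ | l
    · rwa [bN_zero] at hb
    · rw [bN_succ] at hb
      have := Real.neg_pi_div_two_lt_arctan (sgN l + v0)
      linarith
  have hx2 : x < 2 * Real.pi + Real.pi / 2 := by
    rcases lt_or_eq_of_le hi with h | h
    · rw [aN_succ v0 h] at ha
      have := Real.arctan_lt_pi_div_two (sgN i - v0)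
      linarith
    · rwa [h, aN_last] at ha
  obtain ⟨c1, c2, c3⟩ := sub_tan hx1 hx2
  by_contra hcon
  push Not at hcon
  have h3 : 0 < (cis x).re := by rw [cis_re]; exact c1
  obtain ⟨l, hl, h4, h5⟩ := GlnPl_984.zoneN h0 h8 he h3 (show 0 ≤ (plN ga e M (cis x)).re from hcon)
  rw [cis_re, cis_im, ← Real.tan_eq_sin_div_cos] at h4 h5
  have h6 : |Real.tan x - sgN l| ≤ v0 := by
    by_contra h7
    push Not at h7
    have := hv _ h7
    linarith
  obtain ⟨h7, h8⟩ := abs_le.1 h6
  rcases lt_or_ge l i with h9 | h9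
  · -- `x > b i`
    rcases i with _ | i
    · omega
    · rw [bN_succ] at hb
      have h10 : sgN i + v0 < Real.tan x := by
        rw [← Real.arctan_strictMono.lt_iff_lt, c3]
        linarith
      have h11 : sgN l ≤ sgN i := by
        rcases eq_or_lt_of_le (show l ≤ i by omega) with h | h
        · rw [h]
        · have := sgN_add h
          linarith
      linarith
  · rw [aN_succ v0 (by omega : i < M)] at ha
    have h10 : Real.tan x < sgN i - v0 := by
      rw [← Real.arctan_strictMono.lt_iff_lt, c3]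
      linarith
    have h11 : sgN i ≤ sgN l := by
      rcases eq_or_lt_of_le h9 with h | h
      · rw [h]
      · have := sgN_add h
        linarith
    linarith

/-! ### boundary points -/

theorem gN_vert {x : ℝ} (hc : Real.cos x = 0) :
    (gN ga e M x).re = 0 ∧ (gN ga e M x).im = -Real.sin x := by
  rw [gN_of_cos_nonpos hc.le, hc]
  generalize Real.sin x = s
  constructor <;> simp

theorem gN_lobe {l : ℕ} (hl : l < M) {x : ℝ} (hc : 0 < Real.cos x)
    (h : |Real.tan x - sgN l| ≤ 6) :
    (gN ga e M x).re = Real.cos x * (-(1 - ga) + Af (Real.tan x - sgN l)) ∧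
      (gN ga e M x).im = Real.cos x * (e l * Bf (Real.tan x - sgN l)) := by
  obtain ⟨c1, c2, -, -⟩ := pvN_lobe (ga := ga) (e := e) hl h
  rw [gN_of_cos_pos hc, Complex.re_ofReal_mul, Complex.im_ofReal_mul, c1, c2]
  exact ⟨rfl, rfl⟩

theorem gN_end {v0 : ℝ} (h1 : 1 < v0) (h2 : v0 < 2) (hA : Af v0 = 1 - ga) {l : ℕ} (hl : l < M)
    (he : ∀ l, e l = 1 ∨ e l = -1) :
    ((gN ga e M (aN v0 M (l + 1))).re = 0 ∧ 0 < -e l * (gN ga e M (aN v0 M (l + 1))).im) ∧
      ((gN ga e M (bN v0 (l + 1))).re = 0 ∧ 0 < e l * (gN ga e M (bN v0 (l + 1))).im) := by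
  have hpi := Real.pi_pos
  have hee : e l * e l = 1 := by rcases he l with h | h <;> rw [h] <;> norm_num
  have hB := GlLift_125.Bf_pos (v := v0) (by linarith) (by linarith)
  constructor
  · rw [aN_succ v0 hl]
    obtain ⟨c1, c2, -⟩ := sub_tan (x := 2 * Real.pi + Real.arctan (sgN l - v0))
      (by linarith [Real.neg_pi_div_two_lt_arctan (sgN l - v0)])
      (by linarith [Real.arctan_lt_pi_div_two (sgN l - v0)])
    rw [add_sub_cancel_left, Real.tan_arctan] at c2
    obtain ⟨d1, d2⟩ := gN_lobe (ga := ga) (e := e) hl c1 (by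
      rw [c2, show sgN l - v0 - sgN l = -v0 by ring, abs_neg, abs_of_pos (by linarith)]
      linarith)
    rw [d1, d2, c2, show sgN l - v0 - sgN l = -v0 by ring, GlLift_125.Af_neg, hA, Bf_neg]
    refine ⟨by ring, ?_⟩
    have : -e l * (Real.cos (2 * Real.pi + Real.arctan (sgN l - v0)) * (e l * -Bf v0)) =
        Real.cos (2 * Real.pi + Real.arctan (sgN l - v0)) * Bf v0 := by
      linear_combination (Real.cos (2 * Real.pi + Real.arctan (sgN l - v0)) * Bf v0) * hee
    rw [this]
    positivity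
  · rw [bN_succ]
    obtain ⟨c1, c2, -⟩ := sub_tan (x := 2 * Real.pi + Real.arctan (sgN l + v0))
      (by linarith [Real.neg_pi_div_two_lt_arctan (sgN l + v0)])
      (by linarith [Real.arctan_lt_pi_div_two (sgN l + v0)])
    rw [add_sub_cancel_left, Real.tan_arctan] at c2
    obtain ⟨d1, d2⟩ := gN_lobe (ga := ga) (e := e) hl c1 (by
      rw [c2, show sgN l + v0 - sgN l = v0 by ring, abs_of_pos (by linarith)]
      linarith)
    rw [d1, d2, c2, show sgN l + v0 - sgN l = v0 by ring, hA]
    refine ⟨by ring, ?_⟩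
    have : e l * (Real.cos (2 * Real.pi + Real.arctan (sgN l + v0)) * (e l * Bf v0)) =
        Real.cos (2 * Real.pi + Real.arctan (sgN l + v0)) * Bf v0 := by
      linear_combination (Real.cos (2 * Real.pi + Real.arctan (sgN l + v0)) * Bf v0) * hee
    rw [this]
    positivity

/-! ### the word -/

theorem se_pm (he : ∀ l, e l = 1 ∨ e l = -1) (i : ℕ) : se e i = 1 ∨ se e i = -1 := by
  unfold se
  split_ifs
  · exact Or.inl rfl
  · exact he _

theorem exists_cen (he : ∀ l, e l = 1 ∨ e l = -1) (i : ℕ) : ∃ n : ℤ, cen e i = 2 * Real.pi * n := by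
  induction i with
  | zero => exact ⟨0, by simp [cen]⟩
  | succ i ih =>
    obtain ⟨n, hn⟩ := ih
    rw [cen, hn]
    rcases se_pm he i with h | h <;> rcases se_pm he (i + 1) with h' | h' <;> rw [h, h']
    · exact ⟨n + 1, by push_cast; ring⟩
    · exact ⟨n, by ring⟩
    · exact ⟨n, by ring⟩
    · exact ⟨n - 1, by push_cast; ring⟩

theorem se_succ (l : ℕ) : se e (l + 1) = e l := by
  unfold se
  rw [if_neg (by omega), Nat.add_sub_cancel]

theorem se_zero : se e 0 = 1 := if_pos rfl

/-! ### windows -/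

theorem wz_smooth (m m' : ℕ) : ContDiff ℝ 2 fun x => wz m m' (cis x) := by
  rw [contDiff_iff_contDiffAt]
  intro x
  have key : ContDiffAt ℝ 2 (wz m m') (cis x) := by
    rcases le_or_gt (cis x).re 0 with h0 | h0
    · have h1 : wz m m' =ᶠ[nhds (cis x)] fun _ => (0 : ℝ) := by
        filter_upwards [farN_nhds (M := m') h0 (cis_ne x)] with w hw
        unfold wz
        split_ifs with h2
        · refine winN_far ?_
          rwa [abs_div, abs_of_pos h2, le_div_iff₀ h2]
        · rfl
      exact contDiffAt_const.congr_of_eventuallyEq h1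
    · have h1 : wz m m' =ᶠ[nhds (cis x)] fun w : ℂ => winN m m' (w.im / w.re) := by
        filter_upwards [(isOpen_lt continuous_const Complex.continuous_re).mem_nhds h0] with w hw
        unfold wz
        exact if_pos hw
      refine ContDiffAt.congr_of_eventuallyEq ?_ h1
      exact (contDiff_winN m m').contDiffAt.comp (cis x) (GlC2a_930.contDiffAt_slope h0.ne')
  exact key.comp x contDiff_cis.contDiffAt

theorem winA {v0 : ℝ} (h2 : v0 < 2) (m m' : ℕ) :
    WinA M (aN v0 M) (bN v0) m m' fun x => wz m m' (cis x) where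
  smooth := wz_smooth m m'
  per x := by rw [cis_per1]
  nn x := by
    unfold wz
    split_ifs
    · exact winN_nonneg _ _ _
    · exact le_rfl
  le x := by
    unfold wz
    split_ifs
    · exact winN_le_one _ _ _
    · exact zero_le_one
  val := by
    intro i hi x ha hb
    rcases i with _ | l
    · rw [aN_zero] at ha
      rw [bN_zero] at hb
      have hc := Real.cos_nonpos_of_pi_div_two_le_of_le ha hb
      unfold wz
      rw [cis_re, if_neg (not_lt.2 hc), if_neg (by omega)]
    · obtain ⟨c1, c2⟩ := lobe_tan (M := M) (show l < M by omega) ha hb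
      unfold wz
      rw [cis_re, if_pos c1, cis_im, ← Real.tan_eq_sin_div_cos,
        (winN_cell (show |Real.tan x - sgN l| ≤ 7 by linarith)).1]
      congr 1
      refine propext ?_
      constructor <;> intro h <;> omega

/-! ### the theorem -/

theorem liftP (h0 : 0 < ga) (h8 : ga ≤ 1 / 8) (he : ∀ l, e l = 1 ∨ e l = -1) : LiftP ga e M := by
  have hpi := Real.pi_pos
  obtain ⟨v0, h1, h2, hA, hv, hv'⟩ := exists_v0 h0 h8
  have hgπ : gN ga e M Real.pi = ((2 - ga : ℝ) : ℂ) := by
    rw [gN_of_cos_nonpos (by simp)]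
    simp
  obtain ⟨φ, hφa, hφs, hφd, hφg⟩ := GlLift_125.lift (contDiff_gN (ga := ga) (e := e) (M := M))
    (gN_ne h0 h8 he) Real.pi 0 (by
      rw [hgπ, Complex.norm_real, Real.norm_eq_abs, abs_of_pos (by linarith)]
      simp [cis])
  have hφc : Continuous φ := hφs.continuous
  have hn : ∀ x, 0 < ‖gN ga e M x‖ := fun x => norm_pos_iff.2 (gN_ne h0 h8 he x)
  have hre : ∀ x, (gN ga e M x).re = ‖gN ga e M x‖ * Real.cos (φ x) := fun x => by
    have h := congrArg Complex.re (hφg x)
    rwa [Complex.re_ofReal_mul, cis_re] at h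
  have him : ∀ x, (gN ga e M x).im = ‖gN ga e M x‖ * Real.sin (φ x) := fun x => by
    have h := congrArg Complex.im (hφg x)
    rwa [Complex.im_ofReal_mul, cis_im] at h
  have hcn : ∀ x, 0 ≤ (gN ga e M x).re → 0 ≤ Real.cos (φ x) := fun x hx => by
    rw [hre] at hx
    exact nonneg_of_mul_nonneg_right hx (hn x)
  have hcneg : ∀ x, (gN ga e M x).re < 0 → Real.cos (φ x) < 0 := fun x hx => by
    rw [hre] at hx
    exact neg_of_mul_neg_right hx (hn x).le
  have hc0 : ∀ x, (gN ga e M x).re = 0 → Real.cos (φ x) = 0 := fun x hx => by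
    rw [hre] at hx
    exact (mul_eq_zero.1 hx).resolve_left (hn x).ne'
  have hsn : ∀ s x, 0 < s * (gN ga e M x).im → 0 < s * Real.sin (φ x) := fun s x hx => by
    rw [him] at hx
    have : 0 < ‖gN ga e M x‖ * (s * Real.sin (φ x)) := by linarith
    exact pos_of_mul_pos_right this (hn x).le
  -- plate
  have hplate : ∀ x, Real.pi / 2 ≤ x → x ≤ Real.pi + Real.pi / 2 →
      |φ x - cen e 0| ≤ Real.pi / 2 := by
    intro x hx hx'
    have h3 := GlLift_125.arc hφc (n := 0) (a := Real.pi) (x := x) (by rw [hφa]; simp) (by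
      intro y hy
      apply hcn
      have hy1 : Real.pi / 2 ≤ y ∧ y ≤ Real.pi + Real.pi / 2 := by
        rw [Set.mem_uIcc] at hy
        rcases hy with hy | hy <;> constructor <;> linarith
      have hc := Real.cos_nonpos_of_pi_div_two_le_of_le hy1.1 hy1.2
      rw [gN_of_cos_nonpos hc]
      generalize Real.cos y = c at *
      generalize Real.sin y = s at *
      simp
      nlinarith)
    simpa [cen] using h3
  have hP0 : φ (aN v0 M 0) = cen e 0 - se e 0 * (Real.pi / 2) := by
    have h3 := gN_vert (ga := ga) (e := e) (M := M) (x := Real.pi / 2) Real.cos_pi_div_two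
    rw [Real.sin_pi_div_two] at h3
    have h4 := bd (y := φ (Real.pi / 2)) (c := cen e 0) (s := -1) (n := 0) (by simp [cen])
      (hplate _ le_rfl (by linarith)) (hc0 _ h3.1) (Or.inr rfl)
      (hsn _ _ (by rw [h3.2]; norm_num))
    rw [aN_zero, h4, se_zero]
    ring
  have hQ0 : φ (bN v0 0) = cen e 0 + se e 0 * (Real.pi / 2) := by
    have hc : Real.cos (Real.pi + Real.pi / 2) = 0 := by
      rw [add_comm, Real.cos_add_pi, Real.cos_pi_div_two, neg_zero]
    have h3 := gN_vert (ga := ga) (e := e) (M := M) hc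
    rw [add_comm Real.pi, Real.sin_add_pi, Real.sin_pi_div_two, add_comm] at h3
    have h4 := bd (y := φ (Real.pi + Real.pi / 2)) (c := cen e 0) (s := 1) (n := 0) (by simp [cen])
      (hplate _ (by linarith) le_rfl) (hc0 _ h3.1) (Or.inl rfl)
      (hsn _ _ (by rw [h3.2]; norm_num))
    rw [bN_zero, h4, se_zero]
  -- arcs and gaps
  have hab : Arcs M (aN v0 M) (bN v0) := arcsN h1 h2 M
  have harc : ∀ l, l < M → φ (aN v0 M (l + 1)) = cen e (l + 1) - se e (l + 1) * (Real.pi / 2) →
      (∀ x, aN v0 M (l + 1) ≤ x → x ≤ bN v0 (l + 1) → |φ x - cen e (l + 1)| ≤ Real.pi / 2) ∧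
      φ (bN v0 (l + 1)) = cen e (l + 1) + se e (l + 1) * (Real.pi / 2) := by
    intro l hl hP
    obtain ⟨n, hn'⟩ := exists_cen he (l + 1)
    have h3 : ∀ x, aN v0 M (l + 1) ≤ x → x ≤ bN v0 (l + 1) →
        |φ x - cen e (l + 1)| ≤ Real.pi / 2 := by
      intro x ha hb
      refine arcE hφc hn' (se_pm he _) hP ha fun y hy hy' => ?_
      obtain ⟨c1, c2⟩ := lobe_tan (M := M) hl hy (hy'.trans hb)
      refine hcn _ ?_
      rw [(gN_lobe hl c1 (by linarith)).1]
      exact mul_nonneg c1.le (hv _ c2)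
    refine ⟨h3, ?_⟩
    obtain ⟨-, h4, h5⟩ := gN_end h1 h2 hA hl he
    refine bd hn' (h3 _ (hab.ab (l + 1) (by omega)).le le_rfl) (hc0 _ h4) (se_pm he _) ?_
    rw [se_succ]
    exact hsn _ _ h5
  have hgap : ∀ i ≤ M, φ (bN v0 i) = cen e i + se e i * (Real.pi / 2) →
      (∀ x, bN v0 i < x → x < aN v0 M (i + 1) →
        |φ x - (cen e i + Real.pi * se e i)| < Real.pi / 2) ∧
      |φ (aN v0 M (i + 1)) - (cen e i + Real.pi * se e i)| ≤ Real.pi / 2 := by
    intro i hi hQ
    obtain ⟨n, hn'⟩ := exists_cen he i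
    have h3 : ∀ x, bN v0 i < x → x < aN v0 M (i + 1) →
        |φ x - (cen e i + Real.pi * se e i)| < Real.pi / 2 := by
      intro x hb ha
      exact gapE hφc hn' (se_pm he i) hQ hb fun y hy hy' =>
        hcneg _ (gap_neg h0 h8 he hv' hi hy (hy'.trans_lt ha))
    refine ⟨h3, ?_⟩
    have hlt := hab.ba i hi
    have hcont : Continuous fun x => |φ x - (cen e i + Real.pi * se e i)| :=
      (hφc.sub continuous_const).abs
    have hcl : aN v0 M (i + 1) ∈ closure (Set.Ioo (bN v0 i) (aN v0 M (i + 1))) := by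
      rw [closure_Ioo hlt.ne]
      exact ⟨hlt.le, le_rfl⟩
    have hsub : closure (Set.Ioo (bN v0 i) (aN v0 M (i + 1))) ⊆
        {x | |φ x - (cen e i + Real.pi * se e i)| ≤ Real.pi / 2} :=
      closure_minimal (fun x hx => (h3 x hx.1 hx.2).le) (isClosed_le hcont continuous_const)
    exact hsub hcl
  have hnext : ∀ i ≤ M, φ (bN v0 i) = cen e i + se e i * (Real.pi / 2) →
      ∀ s : ℝ, (s = 1 ∨ s = -1) → (gN ga e M (aN v0 M (i + 1))).re = 0 →
        0 < -s * (gN ga e M (aN v0 M (i + 1))).im →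
        φ (aN v0 M (i + 1)) = cen e i + Real.pi * se e i + s * (Real.pi / 2) := by
    intro i hi hQ s hs h3 h4
    obtain ⟨n, hn'⟩ := exists_cen he i
    have h5 := (hgap i hi hQ).2
    have h6 : ∃ n' : ℤ, cen e i + Real.pi * se e i = 2 * Real.pi * n' + Real.pi := by
      rcases se_pm he i with h | h
      · exact ⟨n, by rw [h, hn']; ring⟩
      · exact ⟨n - 1, by rw [h, hn']; push_cast; ring⟩
    obtain ⟨n', h6⟩ := h6
    have h7 := bd' h6 h5 (hc0 _ h3) (s := -s) (by rcases hs with h | h <;> rw [h] <;> norm_num)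
      (hsn _ _ h4)
    rw [h7]
    ring
  have hPQ : ∀ i ≤ M, φ (aN v0 M i) = cen e i - se e i * (Real.pi / 2) ∧
      φ (bN v0 i) = cen e i + se e i * (Real.pi / 2) := by
    intro i
    induction i with
    | zero => exact fun _ => ⟨hP0, hQ0⟩
    | succ l ih =>
      intro hl
      obtain ⟨-, h3⟩ := ih (by omega)
      obtain ⟨⟨h4, h5⟩, -⟩ := gN_end h1 h2 hA (show l < M by omega) he
      have h6 := hnext l (by omega) h3 (e l) (he l) h4 h5
      have h7 : φ (aN v0 M (l + 1)) = cen e (l + 1) - se e (l + 1) * (Real.pi / 2) := by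
        rw [h6, cen, se_succ]
        ring
      exact ⟨h7, (harc l (by omega) h7).2⟩
  have hlast : φ (aN v0 M (M + 1)) = cen e M + Real.pi * se e M + Real.pi / 2 := by
    have hc : Real.cos (2 * Real.pi + Real.pi / 2) = 0 := by
      rw [add_comm, Real.cos_add_two_pi, Real.cos_pi_div_two]
    have h3 := gN_vert (ga := ga) (e := e) (M := M) hc
    rw [add_comm (2 * Real.pi), Real.sin_add_two_pi, Real.sin_pi_div_two, add_comm,
      ← aN_last v0 M] at h3
    have h4 := hnext M le_rfl (hPQ M le_rfl).2 1 (Or.inl rfl) h3.1 (by rw [h3.2]; norm_num)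
    rw [h4]
    ring
  refine ⟨φ, aN v0 M, bN v0, hab, ⟨hφs, ?_, ?_, ?_⟩, hφg, fun m m' _ => winA h2 m m'⟩
  · -- period
    have hper : ∀ x, deriv φ (x + 2 * Real.pi) = deriv φ x := by
      intro x
      rw [(hφd _).deriv, (hφd x).deriv, gN_per]
      have : deriv (gN ga e M) (x + 2 * Real.pi) = deriv (gN ga e M) x := by
        have h3 : (fun y => gN ga e M (y + 2 * Real.pi)) = gN ga e M := funext gN_per
        have h4 := deriv_comp_add_const (gN ga e M) (2 * Real.pi) x
        rw [h3] at h4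
        exact h4.symm
      rw [this]
    have hd : Differentiable ℝ φ := fun x => (hφd x).differentiableAt
    have hconst : ∀ x y, φ (x + 2 * Real.pi) - φ x = φ (y + 2 * Real.pi) - φ y := by
      intro x y
      have hz : ∀ x, HasDerivAt (fun x => φ (x + 2 * Real.pi) - φ x) 0 x := by
        intro x
        have h3 := (HasDerivAt.comp_add_const x (2 * Real.pi) (hd (x + 2 * Real.pi)).hasDerivAt)
        refine (h3.sub (hd x).hasDerivAt).congr_deriv ?_
        rw [hper]
        exact sub_self _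
      exact is_const_of_deriv_eq_zero (f := fun x => φ (x + 2 * Real.pi) - φ x)
        (fun x => (hz x).differentiableAt) (fun x => (hz x).deriv) x y
    intro x
    have h3 := hconst x (aN v0 M 0)
    rw [← hab.last, hlast, hP0, se_zero] at h3
    unfold tot
    have h4 : cen e 0 = 0 := rfl
    rw [h4] at h3
    linarith
  · -- arcs
    intro i hi x ha hb
    have hcr : ∀ x, deriv φ x = cr (gN ga e M x) (deriv (gN ga e M) x) /
        Complex.normSq (gN ga e M x) := by
      intro x
      rw [(hφd x).deriv, Complex.div_im, ← sub_div]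
      unfold cr
      congr 1
      ring
    have hns : 0 < Complex.normSq (gN ga e M x) := Complex.normSq_pos.2 (gN_ne h0 h8 he x)
    rcases i with _ | l
    · rw [aN_zero] at ha
      rw [bN_zero] at hb
      refine ⟨hplate x ha hb, ?_⟩
      rw [se_zero, one_mul, hcr]
      exact div_pos (cr_plate h8 (Real.cos_nonpos_of_pi_div_two_le_of_le ha hb)) hns
    · obtain ⟨c1, c2⟩ := lobe_tan (M := M) (show l < M by omega) ha hb
      refine ⟨(harc l (by omega) (hPQ (l + 1) hi).1).1 x ha hb, ?_⟩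
      rw [se_succ, hcr, ← mul_div_assoc]
      exact div_pos (cr_lobe h0 h8 he (by omega) c1 (by linarith)) hns
  · intro i hi x hb ha
    exact (hgap i hi (hPQ i hi).2).1 x hb ha

end

end Crest.Agent.R267.GlnLift_9
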