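import Crest.Agent.R267.GlNDefs_9
import Crest.Agent.R267.GlC2a_930
import Crest.Agent.R267.SmoothN_957
import Crest.Agent.R267.CalcN_88

/-!
# Row 267 (helper433), GLN-C2a: `FSN` and `F8N` are `C²` and homogeneous of degree `8`

* `pvN_ne`, `plN_ne`: the signed planar function has no zero off `0` (`0 < ga < 2`, signs `±1`);
* `contDiff_PSN`, `contDiff_P8N`, `contDiff_wzr` (`pg^a wz`, `a > 2`), `contDiff_GS` (harmonic
  combination of `(s⁺)⁸` with windows), `boxN_eq` (the deletions of `F8N` in this form);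
* `contDiff_FSN`, `contDiff_F8N`, `FSN_smul`, `F8N_smul`; weights `1 / 8`: `FSN_act`, `F8N_act`.
-/

set_option autoImplicit false

noncomputable section

open Finset Set
open Crest.Agent.R267.T3aDefs_957 (st Af Bf pg NN chi)
open Crest.Agent.R267.T3aNDefs_88 Crest.Agent.R267.GlNDefs_9
open Crest.Agent.R267.GlueDefs_322 (rho)
open Crest.Agent.R267.Calc_957 (tp tp_of_nonpos tp_of_nonneg tp_nonneg contDiff_tp)
open Crest.Agent.R267.CalcN_88 (casesN_tau pvN_low pvN_high pvN_cell pvN_vert yc_in abs_sn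
  winN_nonneg winN_le_one)
open Crest.Agent.R267.SmoothN_957 (contDiffAt_plN farN_nhds contDiff_winN winN_far)
open Crest.Agent.R267.HmC2_957 (Hm_congr Hm_of_nonpos Hm_of_pos Hm_nonneg Hm_erase contDiffAt_Hm)

namespace Crest.Agent.R267.GlnC2a_433

/-! ### homogeneous functions of degree `> 2` -/

section Hom

variable {E F : Type*} [NormedAddCommGroup E] [NormedSpace ℝ E]
  [NormedAddCommGroup F] [NormedSpace ℝ F]

/-- homogeneous of real degree `a > 2` and `C²` off the origin: `C²`. -/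
theorem contDiff_of_homr [FiniteDimensional ℝ E] {f : E → F} {a : ℝ} (ha : 2 < a)
    (hC : ∀ x, x ≠ 0 → ContDiffAt ℝ 2 f x) (h0 : f 0 = 0)
    (hom : ∀ r : ℝ, 0 < r → ∀ x, f (r • x) = r ^ a • f x) : ContDiff ℝ 2 f := by
  have h1 := Pow_951.contDiffOn_of_hom (T := Set.univ) (D := fun _ => a)
    (H := fun p : ℝ × E => f p.2) isOpen_univ contDiffOn_const (fun _ _ => ha)
    (fun p hp => ((hC p.2 hp.2).comp p contDiffAt_snd).contDiffWithinAt) (fun _ _ => h0)
    (fun _ _ r hr x => hom r hr x)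
  rw [Set.univ_prod_univ, contDiffOn_univ] at h1
  exact h1.comp ((contDiff_const (c := (0 : ℝ))).prodMk contDiff_id)

end Hom

/-! ### homogeneity of the planar functions -/

theorem plN_smul (ga : ℝ) (e : ℕ → ℝ) (M : ℕ) {r : ℝ} (hr : 0 < r) (z : ℂ) :
    plN ga e M (r • z) = r • plN ga e M z := by
  unfold plN
  rw [GlC2a_930.slope_smul hr, GlC2a_930.re_smul', GlC2a_930.im_smul']
  by_cases h : 0 < z.re
  · rw [if_pos h, if_pos (mul_pos hr h), Complex.real_smul]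
    push_cast
    ring
  · rw [if_neg h, if_neg fun h' => h ((mul_pos_iff_of_pos_left hr).1 h'), Complex.real_smul]
    push_cast
    ring

theorem wz_smul (m m' : ℕ) {r : ℝ} (hr : 0 < r) (z : ℂ) : wz m m' (r • z) = wz m m' z := by
  unfold wz
  rw [GlC2a_930.slope_smul hr, GlC2a_930.re_smul']
  by_cases h : 0 < z.re
  · rw [if_pos h, if_pos (mul_pos hr h)]
  · rw [if_neg h, if_neg fun h' => h ((mul_pos_iff_of_pos_left hr).1 h')]

theorem P8N_smul (K ga : ℝ) (e : ℕ → ℝ) (M : ℕ) {r : ℝ} (hr : 0 < r) (z : ℂ) :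
    P8N K ga e M (r • z) = r ^ 8 • P8N K ga e M z := by
  unfold P8N
  rw [GlC2a_930.pg_smul K hr, plN_smul ga e M hr, Complex.real_smul, Complex.real_smul]
  push_cast
  ring

theorem PSN_smul (K ga : ℝ) (e : ℕ → ℝ) (M : ℕ) {r : ℝ} (hr : 0 < r) (z : ℂ) :
    PSN K ga e M (r • z) = r ^ 8 • PSN K ga e M z := by
  unfold PSN
  rw [GlC2a_930.pg_smul K hr, plN_smul ga e M hr, norm_smul, Real.norm_of_nonneg hr.le,
    Complex.real_smul, Complex.real_smul]
  rcases eq_or_ne (plN ga e M z) 0 with h | h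
  · rw [h]; simp
  · have h1 : (‖plN ga e M z‖ : ℂ) ≠ 0 := by exact_mod_cast (norm_pos_iff.2 h).ne'
    have h2 : (r : ℂ) ≠ 0 := by exact_mod_cast hr.ne'
    push_cast
    field_simp

/-! ### no zeros -/

theorem pvN_ne {ga : ℝ} (h0 : 0 < ga) (h2 : ga < 2) {e : ℕ → ℝ} (he : ∀ l, |e l| = 1) (M : ℕ)
    (τ : ℝ) : pvN ga e M τ ≠ 0 := by
  by_cases hv : ∀ l < M, 3 ≤ |τ - sgN l|
  · intro h
    have hre := congrArg Complex.re h
    rw [(pvN_vert he hv).1 ga] at hre
    simp at hre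
    linarith
  · push Not at hv
    obtain ⟨l, hl, h3⟩ := hv
    intro h
    have hre := congrArg Complex.re h
    have him := congrArg Complex.im h
    rw [pvN_cell hl (by linarith), (yc_in (by linarith)).1] at hre him
    simp at hre him
    have hel : e l ≠ 0 := by
      intro h4
      have := he l
      rw [h4, abs_zero] at this
      exact zero_ne_one this
    have hB : Bf (τ - sgN l) = 0 := by
      rcases him with h4 | h4
      · exact absurd h4 hel
      · exact h4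
    rcases GlC2a_930.Bf_eq_zero hB with h4 | h4
    · rw [h4, Calc_957.Af_of_le (by simp)] at hre
      linarith
    · linarith

/-- **the planar function has no zero off the origin** -/
theorem plN_ne {ga : ℝ} (h0 : 0 < ga) (h2 : ga < 2) {e : ℕ → ℝ} (he : ∀ l, |e l| = 1) (M : ℕ)
    {z : ℂ} (hz : z ≠ 0) : plN ga e M z ≠ 0 := by
  rcases le_or_gt z.re 0 with h | h
  · rw [CalcN_88.plN_of_nonpos h]
    intro h1
    have hre := congrArg Complex.re h1
    have him := congrArg Complex.im h1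
    simp at hre him
    refine hz (Complex.ext ?_ him)
    rcases hre with h3 | h3
    · exfalso; linarith
    · exact h3
  · rw [CalcN_88.plN_of_pos h]
    exact mul_ne_zero (by exact_mod_cast h.ne') (pvN_ne h0 h2 he M _)

/-! ### `C²` on the plane -/

theorem contDiffOn_plN (ga : ℝ) (e : ℕ → ℝ) (M : ℕ) : ContDiffOn ℝ 2 (plN ga e M) {0}ᶜ :=
  fun _ hz => (contDiffAt_plN ga e M hz).contDiffWithinAt

/-- **`P8N` is `C²`** -/
theorem contDiff_P8N (K ga : ℝ) (e : ℕ → ℝ) (M : ℕ) : ContDiff ℝ 2 (P8N K ga e M) := by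
  refine GlC2a_930.contDiff_of_hom (n := 8) (by norm_num) (fun z hz => ?_)
    fun r hr z => P8N_smul K ga e M hr z
  have h1 := ((GlC2a_930.contDiffAt_pg K hz).pow 7)
  exact ((GlC2a_930.contDiff_ofReal.contDiffAt.comp z h1).mul
    (contDiffAt_plN ga e M hz)).contDiffWithinAt

/-- **`PSN` is `C²`** -/
theorem contDiff_PSN (K : ℝ) {ga : ℝ} (h0 : 0 < ga) (h2 : ga < 2) {e : ℕ → ℝ}
    (he : ∀ l, |e l| = 1) (M : ℕ) : ContDiff ℝ 2 (PSN K ga e M) := by
  refine GlC2a_930.contDiff_of_hom (n := 8) (by norm_num) (fun z hz => ?_)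
    fun r hr z => PSN_smul K ga e M hr z
  have hne := plN_ne h0 h2 he M (show z ≠ 0 from hz)
  have h1 : ContDiffAt ℝ 2 (fun w => pg K w ^ 8 / ‖plN ga e M w‖) z :=
    ((GlC2a_930.contDiffAt_pg K hz).pow 8).div ((contDiffAt_plN ga e M hz).norm ℝ hne)
      (norm_pos_iff.2 hne).ne'
  exact ((GlC2a_930.contDiff_ofReal.contDiffAt.comp z h1).mul
    (contDiffAt_plN ga e M hz)).contDiffWithinAt

/-! ### windows -/

theorem wz_of_pos {m m' : ℕ} {z : ℂ} (h : 0 < z.re) : wz m m' z = winN m m' (z.im / z.re) :=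
  if_pos h

theorem wz_of_nonpos {m m' : ℕ} {z : ℂ} (h : z.re ≤ 0) : wz m m' z = 0 := if_neg (not_lt.2 h)

theorem wz_nonneg (m m' : ℕ) (z : ℂ) : 0 ≤ wz m m' z := by
  unfold wz
  split_ifs
  · exact winN_nonneg _ _ _
  · exact le_rfl

theorem wz_le_one (m m' : ℕ) (z : ℂ) : wz m m' z ≤ 1 := by
  unfold wz
  split_ifs
  · exact winN_le_one _ _ _
  · exact zero_le_one

theorem wz_far {m m' M : ℕ} (hm : m' ≤ M) {z : ℂ} (h : (16 * (M : ℝ) + 1) * z.re ≤ |z.im|) :
    wz m m' z = 0 := by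
  rcases le_or_gt z.re 0 with h0 | h0
  · exact wz_of_nonpos h0
  · rw [wz_of_pos h0, winN_far hm h0 h]

/-- near a point `z ≠ 0`, `Re z ≤ 0` the window function vanishes -/
theorem wz_nhds {m m' : ℕ} {z : ℂ} (h0 : z.re ≤ 0) (hz : z ≠ 0) :
    ∀ᶠ w in nhds z, wz m m' w = 0 := by
  filter_upwards [farN_nhds (M := m') h0 hz] with w hw
  exact wz_far le_rfl hw

theorem re_pos_nhds {z : ℂ} (h : 0 < z.re) : ∀ᶠ w : ℂ in nhds z, 0 < w.re :=
  Complex.continuous_re.continuousAt.eventually (lt_mem_nhds h)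

theorem contDiffAt_wz (m m' : ℕ) {z : ℂ} (hz : z ≠ 0) : ContDiffAt ℝ 2 (wz m m') z := by
  rcases le_or_gt z.re 0 with h0 | h0
  · exact (contDiffAt_const (c := (0 : ℝ))).congr_of_eventuallyEq (wz_nhds h0 hz)
  · have h1 : wz m m' =ᶠ[nhds z] fun w : ℂ => winN m m' (w.im / w.re) := by
      filter_upwards [re_pos_nhds h0] with w hw
      exact wz_of_pos hw
    exact (ContDiffAt.comp z (g := winN m m') (contDiff_winN m m').contDiffAt
      (GlC2a_930.contDiffAt_slope h0.ne')).congr_of_eventuallyEq h1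

/-- **`pg^a wz` is `C²` for `a > 2`** -/
theorem contDiff_wzr (K : ℝ) {a : ℝ} (ha : 2 < a) (m m' : ℕ) :
    ContDiff ℝ 2 fun z => pg K z ^ a * wz m m' z := by
  refine contDiff_of_homr ha (fun z hz => ?_) ?_ fun r hr z => ?_
  · exact ((GlC2a_930.contDiffAt_pg K hz).rpow_const_of_ne (Calc2_957.pg_pos hz).ne').mul
      (contDiffAt_wz m m' hz)
  · show pg K 0 ^ a * wz m m' 0 = 0
    rw [wz_of_nonpos (by simp), mul_zero]
  · show pg K (r • z) ^ a * wz m m' (r • z) = r ^ a • (pg K z ^ a * wz m m' z)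
    rw [GlC2a_930.pg_smul K hr, wz_smul m m' hr, Real.mul_rpow hr.le (Calc2_957.pg_nonneg K z),
      smul_eq_mul, mul_assoc]

/-! ### the harmonic combination with windows -/

section GS

variable {ι : Type} [Fintype ι]

/-- the root: `(s⁺)^(8/3)` -/
def rt (y : ℝ) : ℝ := max 0 y ^ (8 / 3 : ℝ)

theorem contDiff_rt : ContDiff ℝ 2 rt := by
  refine contDiff_of_homr (a := 8 / 3) (by norm_num) (fun y hy => ?_) ?_ fun r hr y => ?_
  · rcases lt_or_gt_of_ne hy with h | h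
    · refine (contDiffAt_const (c := (0 : ℝ))).congr_of_eventuallyEq ?_
      filter_upwards [gt_mem_nhds h] with w hw
      unfold rt
      rw [max_eq_left (le_of_lt hw), Real.zero_rpow (by norm_num)]
    · refine ((contDiffAt_id (x := y)).rpow_const_of_ne (p := 8 / 3)
        h.ne').congr_of_eventuallyEq ?_
      filter_upwards [lt_mem_nhds h] with w hw
      unfold rt
      rw [max_eq_right (le_of_lt hw)]
      rfl
  · unfold rt
    rw [max_self, Real.zero_rpow (by norm_num)]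
  · unfold rt
    rw [smul_eq_mul, smul_eq_mul, ← Real.mul_rpow hr.le (le_max_left _ _),
      mul_max_of_nonneg _ _ hr.le, mul_zero]

theorem tp_rt (y : ℝ) : tp 3 (rt y) = tp 8 y := by
  have h0 : 0 ≤ rt y := Real.rpow_nonneg (le_max_left _ _) _
  rw [tp_of_nonneg h0]
  unfold rt tp
  rw [← Real.rpow_natCast, ← Real.rpow_mul (le_max_left _ _), ← Real.rpow_natCast]
  norm_num

theorem tp8_pos {x : ℝ} (h : 0 < x) : 0 < tp 8 x := by
  rw [tp_of_nonneg h.le]; positivity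

theorem tp8_mul {r : ℝ} (hr : 0 < r) (x : ℝ) : tp 8 (r * x) = r ^ 8 * tp 8 x := by
  unfold tp
  rw [← mul_pow, mul_max_of_nonneg _ _ hr.le, mul_zero]

/-- the harmonic combination of eighth powers of positive parts is `C²` -/
theorem contDiffAt_H8 {E : Type*} [NormedAddCommGroup E] [NormedSpace ℝ E] {S : Finset ι}
    {R : E → ι → ℝ} {z : E} (h : ∀ j ∈ S, ContDiffAt ℝ 2 (fun w => R w j) z) :
    ContDiffAt ℝ 2 (fun w => Hm S fun j => tp 8 (R w j)) z :=
  contDiffAt_Hm (R := fun w j => tp 8 (R w j)) fun j hj =>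
    ⟨fun w => rt (R w j), contDiff_rt.contDiffAt.comp z (h j hj),
      Filter.Eventually.of_forall fun _ => (tp_rt _).symm⟩

/-- harmonic combination of `(s⁺)⁸` with windows -/
def GS (lo hi : ι → ℕ) (S : Finset ι) (z : ι → ℂ) : ℝ :=
  Hm S (fun j => tp 8 (z j).re) * ∏ j ∈ S, winN (lo j) (hi j) ((z j).im / (z j).re)

theorem GS_congr (lo hi : ι → ℕ) {S : Finset ι} {z w : ι → ℂ} (h : ∀ j ∈ S, z j = w j) :
    GS lo hi S z = GS lo hi S w := by
  unfold GS
  rw [Hm_congr (R' := fun j => tp 8 (w j).re) fun j hj => by rw [h j hj],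
    Finset.prod_congr rfl fun j hj => by rw [h j hj]]

theorem GS_smul (lo hi : ι → ℕ) (S : Finset ι) {r : ℝ} (hr : 0 < r) (z : ι → ℂ) :
    GS lo hi S (r • z) = r ^ 8 * GS lo hi S z := by
  unfold GS
  have h1 : Hm S (fun j => tp 8 ((r • z) j).re) = r ^ 8 * Hm S fun j => tp 8 (z j).re := by
    rw [← HmC2_957.Hm_smul (by positivity : 0 < r ^ 8)]
    refine Hm_congr fun j _ => ?_
    rw [Pi.smul_apply, GlC2a_930.re_smul', tp8_mul hr]
  have h2 : ∏ j ∈ S, winN (lo j) (hi j) (((r • z) j).im / ((r • z) j).re) =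
      ∏ j ∈ S, winN (lo j) (hi j) ((z j).im / (z j).re) :=
    Finset.prod_congr rfl fun j _ => by rw [Pi.smul_apply, GlC2a_930.slope_smul hr]
  rw [h1, h2, mul_assoc]

theorem GS_of_nonpos (lo hi : ι → ℕ) {S : Finset ι} {z : ι → ℂ} {j : ι} (hj : j ∈ S)
    (h : (z j).re ≤ 0) : GS lo hi S z = 0 := by
  unfold GS
  rw [Hm_of_nonpos hj (tp_of_nonpos (by norm_num) h).le, zero_mul]

/-- near a point with `z j ≠ 0`, `Re z j ≤ 0` it vanishes -/
theorem GS_nhds (lo hi : ι → ℕ) {S : Finset ι} {z : ι → ℂ} {j : ι} (hj : j ∈ S)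
    (h : (z j).re ≤ 0) (hz : z j ≠ 0) : ∀ᶠ w in nhds z, GS lo hi S w = 0 := by
  have h1 : ∀ᶠ w : ι → ℂ in nhds z, (16 * (hi j : ℝ) + 1) * (w j).re ≤ |(w j).im| :=
    (continuous_apply j).continuousAt.eventually (farN_nhds h hz)
  filter_upwards [h1] with w hw
  rcases le_or_gt (w j).re 0 with h2 | h2
  · exact GS_of_nonpos lo hi hj h2
  · unfold GS
    rw [Finset.prod_eq_zero hj (winN_far le_rfl h2 hw), mul_zero]

theorem contDiffAt_re (z : ι → ℂ) (j : ι) : ContDiffAt ℝ 2 (fun w : ι → ℂ => (w j).re) z :=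
  (Complex.reCLM.contDiff.comp (contDiff_apply ℝ ℂ j)).contDiffAt

theorem contDiffAt_im (z : ι → ℂ) (j : ι) : ContDiffAt ℝ 2 (fun w : ι → ℂ => (w j).im) z :=
  (Complex.imCLM.contDiff.comp (contDiff_apply ℝ ℂ j)).contDiffAt

theorem contDiffAt_rw (lo hi : ι → ℕ) {z : ι → ℂ} {j : ι} (h : 0 < (z j).re) :
    ContDiffAt ℝ 2 (fun w : ι → ℂ => tp 8 (w j).re *
      winN (lo j) (hi j) ((w j).im / (w j).re)) z :=
  (((contDiff_tp 2 8 (by norm_num)).contDiffAt).comp z (contDiffAt_re z j)).mul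
    (ContDiffAt.comp z (g := winN (lo j) (hi j)) (contDiff_winN _ _).contDiffAt
      ((contDiffAt_im z j).div (contDiffAt_re z j) h.ne'))

open Classical in
theorem contDiffAt_GS_of_ne (lo hi : ι → ℕ) {S : Finset ι}
    (ih : ∀ j ∈ S, ContDiff ℝ 2 (GS lo hi (S.erase j))) {z : ι → ℂ} (h : ∃ j ∈ S, z j ≠ 0) :
    ContDiffAt ℝ 2 (GS lo hi S) z := by
  obtain ⟨j, hj, hz⟩ := h
  rcases le_or_gt (z j).re 0 with h0 | h0
  · exact (contDiffAt_const (c := (0 : ℝ))).congr_of_eventuallyEq (GS_nhds lo hi hj h0 hz)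
  · have hn : ∀ᶠ w : ι → ℂ in nhds z, 0 < (w j).re :=
      (continuous_apply j).continuousAt.eventually (re_pos_nhds h0)
    rcases (S.erase j).eq_empty_or_nonempty with hS | hS
    · refine (contDiffAt_rw lo hi h0).congr_of_eventuallyEq ?_
      have hS' : S = {j} := by
        rw [← insert_erase hj, hS]
        rfl
      filter_upwards [hn] with w hw
      unfold GS
      rw [hS', Hm_of_pos (fun i hi => by rw [Finset.mem_singleton.1 hi]; exact tp8_pos hw),
        Finset.sum_singleton, one_div_one_div, Finset.prod_singleton]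
    · have c1 := contDiffAt_rw lo hi h0
      have c2 := (ih j hj).contDiffAt (x := z)
      have c3 : ContDiffAt ℝ 2 (fun w : ι → ℂ => tp 8 (w j).re) z :=
        ((contDiff_tp 2 8 (by norm_num)).contDiffAt).comp z (contDiffAt_re z j)
      have c4 : ContDiffAt ℝ 2 (fun w : ι → ℂ => Hm (S.erase j) fun i => tp 8 (w i).re) z :=
        contDiffAt_H8 (R := fun (w : ι → ℂ) i => (w i).re) fun i _ => contDiffAt_re z i
      have h1 := tp8_pos h0
      have h2 := Hm_nonneg (S.erase j) fun i => tp 8 (z i).re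
      refine ((c1.mul c2).div (c3.add c4) (by
        show tp 8 (z j).re + Hm (S.erase j) (fun i => tp 8 (z i).re) ≠ 0
        linarith)).congr_of_eventuallyEq ?_
      filter_upwards [hn] with w hw
      show GS lo hi S w = tp 8 (w j).re * winN (lo j) (hi j) ((w j).im / (w j).re) *
        GS lo hi (S.erase j) w / (tp 8 (w j).re + Hm (S.erase j) fun i => tp 8 (w i).re)
      unfold GS
      rw [Hm_erase (R := fun i => tp 8 (w i).re) hj (tp8_pos hw) hS fun i _ => tp_nonneg 8 _,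
        ← Finset.mul_prod_erase S _ hj]
      unfold Smooth_957.hm
      ring

/-- extension by zero. -/
def extC (S : Finset ι) : (S → ℂ) →L[ℝ] (ι → ℂ) :=
  open Classical in
  ContinuousLinearMap.pi fun i => if h : i ∈ S then ContinuousLinearMap.proj ⟨i, h⟩ else 0

/-- restriction. -/
def resC (S : Finset ι) : (ι → ℂ) →L[ℝ] (S → ℂ) :=
  ContinuousLinearMap.pi fun i => ContinuousLinearMap.proj (i : ι)

omit [Fintype ι] in
theorem extC_apply {S : Finset ι} (y : S → ℂ) {i : ι} (hi : i ∈ S) :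
    extC S y i = y ⟨i, hi⟩ := by
  unfold extC
  simp [hi]

open Classical in
/-- **the harmonic combination with windows is `C²`.** -/
theorem contDiff_GS (lo hi : ι → ℕ) (S : Finset ι) : ContDiff ℝ 2 (GS lo hi S) := by
  induction S using Finset.strongInduction with
  | H S ih =>
    have ih' : ∀ j ∈ S, ContDiff ℝ 2 (GS lo hi (S.erase j)) := fun j hj =>
      ih _ (erase_ssubset hj)
    have h2 : GS lo hi S = fun z : ι → ℂ => GS lo hi S (extC S (resC S z)) := by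
      funext z
      refine GS_congr lo hi fun j hj => ?_
      rw [extC_apply _ hj]
      rfl
    rw [h2]
    have key : ContDiff ℝ 2 fun y : S → ℂ => GS lo hi S (extC S y) := by
      refine GlC2a_930.contDiff_of_hom (n := 8) (by norm_num) (fun y hy => ?_) fun r hr y => ?_
      · have hne : ∃ j ∈ S, extC S y j ≠ 0 := by
          by_contra h
          push Not at h
          apply hy
          funext j
          have := h j j.2
          rwa [extC_apply _ j.2] at this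
        exact (ContDiffAt.comp y (g := GS lo hi S) (contDiffAt_GS_of_ne lo hi ih' hne)
          (extC S).contDiff.contDiffAt).contDiffWithinAt
      · show GS lo hi S (extC S (r • y)) = r ^ 8 • GS lo hi S (extC S y)
        rw [map_smul, GS_smul lo hi S hr, smul_eq_mul]
    exact key.comp (resC S).contDiff

end GS

/-! ### the deletions of `F8N` -/

theorem pgN_of_win {K : ℝ} {m m' M : ℕ} (hm : m' ≤ M) (hK : 16 * (M : ℝ) + 2 ≤ K) {z : ℂ}
    (h0 : 0 < z.re) (h : winN m m' (z.im / z.re) ≠ 0) : pg K z = z.re := by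
  have h1 : |z.im| < (16 * (M : ℝ) + 1) * z.re := by
    by_contra h2
    exact h (winN_far hm h0 (not_lt.1 h2))
  have h2 : (0 : ℝ) ≤ M := M.cast_nonneg
  have h3 := Calc2_957.pg_of_le (K := K) (by linarith) (z := z)
    (by rw [abs_of_pos h0]; nlinarith)
  rw [h3, abs_of_pos h0]

theorem rhoN_of_win {K : ℝ} {m m' M : ℕ} (hm : m' ≤ M) (hK : 16 * (M : ℝ) + 2 ≤ K) {z : ℂ}
    (h : winN m m' (z.im / z.re) ≠ 0) : rho K z = tp 8 z.re := by
  rcases le_or_gt z.re 0 with h0 | h0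
  · rw [GlC2a_930.rho_of_nonpos K h0, tp_of_nonpos (by norm_num) h0]
  · unfold rho tp
    rw [pgN_of_win hm hK h0 h, max_eq_right h0.le]
    ring

section Box

variable {N : ℕ} (D : SD N)

/-- deletion of the box `e`, degree `8` -/
def Bx8 (K : ℝ) (e : Fin D.nb) (z : Fin N → ℂ) : ℝ :=
  Hm (D.bx e).S (fun j => rho K (z j)) *
    ∏ j ∈ (D.bx e).S, winN ((D.bx e).lo j) ((D.bx e).hi j) ((z j).im / (z j).re)

theorem Bx8_eq {K : ℝ} (hK : ∀ j, 16 * (D.M j : ℝ) + 2 ≤ K) (e : Fin D.nb) (z : Fin N → ℂ) :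
    Bx8 D K e z = GS (D.bx e).lo (D.bx e).hi (D.bx e).S z := by
  unfold Bx8 GS
  by_cases h : ∀ j ∈ (D.bx e).S, winN ((D.bx e).lo j) ((D.bx e).hi j) ((z j).im / (z j).re) ≠ 0
  · rw [Hm_congr (R' := fun j => tp 8 (z j).re) fun j hj =>
      rhoN_of_win (D.hhi e j hj) (hK j) (h j hj)]
  · push Not at h
    obtain ⟨j, hj, h0⟩ := h
    rw [Finset.prod_eq_zero hj h0, mul_zero, mul_zero]

theorem contDiff_Bx8 {K : ℝ} (hK : ∀ j, 16 * (D.M j : ℝ) + 2 ≤ K) (e : Fin D.nb) :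
    ContDiff ℝ 2 (Bx8 D K e) := by
  have h1 : Bx8 D K e = GS (D.bx e).lo (D.bx e).hi (D.bx e).S := funext fun z => Bx8_eq D hK e z
  rw [h1]
  exact contDiff_GS _ _ _

theorem Bx8_smul (K : ℝ) (e : Fin D.nb) {r : ℝ} (hr : 0 < r) (z : Fin N → ℂ) :
    Bx8 D K e (r • z) = r ^ 8 * Bx8 D K e z := by
  unfold Bx8
  have h1 : Hm (D.bx e).S (fun j => rho K ((r • z) j)) =
      r ^ 8 * Hm (D.bx e).S fun j => rho K (z j) := by
    rw [← HmC2_957.Hm_smul (by positivity : 0 < r ^ 8)]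
    refine Hm_congr fun j _ => ?_
    rw [Pi.smul_apply, GlC2a_930.rho_smul K hr]
  have h2 : ∏ j ∈ (D.bx e).S, winN ((D.bx e).lo j) ((D.bx e).hi j)
        (((r • z) j).im / ((r • z) j).re) =
      ∏ j ∈ (D.bx e).S, winN ((D.bx e).lo j) ((D.bx e).hi j) ((z j).im / (z j).re) :=
    Finset.prod_congr rfl fun j _ => by rw [Pi.smul_apply, GlC2a_930.slope_smul hr]
  rw [h1, h2, mul_assoc]

/-- cut-off of the box `e` in `FSN` -/
def Cx8 (K : ℝ) (e : Fin D.nb) (z : Fin N → ℂ) : ℝ :=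
  ∏ j ∈ (D.bx e).S,
    (pg K (z j) ^ (8 / cd D e) * wz ((D.bx e).lo j) ((D.bx e).hi j) (z j))

theorem cd_pos (e : Fin D.nb) : 0 < cd D e := by
  have h := D.h2 e
  have h1 : (2 : ℝ) ≤ (D.bx e).S.card := by exact_mod_cast h
  unfold cd
  linarith

theorem deg_gt (h3 : ∀ e, cd D e ≤ 3) (e : Fin D.nb) : 2 < 8 / cd D e := by
  rw [lt_div_iff₀ (cd_pos D e)]
  have := h3 e
  linarith

theorem contDiff_Cx8 (K : ℝ) (h3 : ∀ e, cd D e ≤ 3) (e : Fin D.nb) :
    ContDiff ℝ 2 (Cx8 D K e) := by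
  unfold Cx8
  exact contDiff_prod fun j _ => (contDiff_wzr K (deg_gt D h3 e) _ _).comp (contDiff_apply ℝ ℂ j)

theorem Cx8_smul (K : ℝ) (e : Fin D.nb) {r : ℝ} (hr : 0 < r) (z : Fin N → ℂ) :
    Cx8 D K e (r • z) = r ^ 8 * Cx8 D K e z := by
  unfold Cx8
  have h1 : ∀ j ∈ (D.bx e).S, (pg K ((r • z) j) ^ (8 / cd D e) *
      wz ((D.bx e).lo j) ((D.bx e).hi j) ((r • z) j)) = r ^ (8 / cd D e) *
      (pg K (z j) ^ (8 / cd D e) * wz ((D.bx e).lo j) ((D.bx e).hi j) (z j)) := by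
    intro j _
    rw [Pi.smul_apply, GlC2a_930.pg_smul K hr, wz_smul _ _ hr,
      Real.mul_rpow hr.le (Calc2_957.pg_nonneg K _), mul_assoc]
  rw [Finset.prod_congr rfl h1, Finset.prod_mul_distrib, Finset.prod_const]
  congr 1
  rw [← Real.rpow_natCast, ← Real.rpow_mul hr.le]
  have h2 : 8 / cd D e * ((D.bx e).S.card : ℝ) = ((8 : ℕ) : ℝ) := by
    have h3 := (cd_pos D e).ne'
    unfold cd at h3 ⊢
    field_simp
    norm_num
  rw [h2, Real.rpow_natCast]

/-! ### the functions of several variables -/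

theorem F8N_eq (K cB ga : ℝ) (z : Fin N → ℂ) : F8N D K cB ga z =
    ∑ j, P8N K ga (D.sn j) (D.M j) (z j) - ((cB * ga * ∑ e, Bx8 D K e z : ℝ) : ℂ) := rfl

theorem FSN_eq (K ga c : ℝ) (z : Fin N → ℂ) : FSN D K ga c z =
    ∑ j, PSN K ga (D.sn j) (D.M j) (z j) - ((c * ∑ e, Cx8 D K e z : ℝ) : ℂ) := rfl

theorem F8N_smul (K cB ga : ℝ) {r : ℝ} (hr : 0 < r) (z : Fin N → ℂ) :
    F8N D K cB ga (r • z) = r ^ 8 • F8N D K cB ga z := by
  rw [F8N_eq, F8N_eq]
  simp only [Pi.smul_apply, P8N_smul K ga _ _ hr, Bx8_smul D K _ hr]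
  rw [← Finset.smul_sum, ← Finset.mul_sum, smul_sub]
  congr 1
  rw [Complex.real_smul, ← Complex.ofReal_mul, mul_left_comm]

theorem FSN_smul (K ga c : ℝ) {r : ℝ} (hr : 0 < r) (z : Fin N → ℂ) :
    FSN D K ga c (r • z) = r ^ 8 • FSN D K ga c z := by
  rw [FSN_eq, FSN_eq]
  simp only [Pi.smul_apply, PSN_smul K ga _ _ hr, Cx8_smul D K _ hr]
  rw [← Finset.smul_sum, ← Finset.mul_sum, smul_sub]
  congr 1
  rw [Complex.real_smul, ← Complex.ofReal_mul, mul_left_comm]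

/-- **`F8N` is `C²`** -/
theorem contDiff_F8N {K : ℝ} (hK : ∀ j, 16 * (D.M j : ℝ) + 2 ≤ K) (cB ga : ℝ) :
    ContDiff ℝ 2 (F8N D K cB ga) := by
  have h1 : ContDiff ℝ 2 fun z : Fin N → ℂ => ∑ j, P8N K ga (D.sn j) (D.M j) (z j) :=
    ContDiff.sum fun j _ => (contDiff_P8N K ga (D.sn j) (D.M j)).comp (contDiff_apply ℝ ℂ j)
  have h2 : ContDiff ℝ 2 fun z : Fin N → ℂ => cB * ga * ∑ e, Bx8 D K e z :=
    contDiff_const.mul (ContDiff.sum fun e _ => contDiff_Bx8 D hK e)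
  exact h1.sub (GlC2a_930.contDiff_ofReal.comp h2)

/-- **`FSN` is `C²`** -/
theorem contDiff_FSN (K : ℝ) (h3 : ∀ e, cd D e ≤ 3) {ga : ℝ} (h0 : 0 < ga) (h2 : ga < 2)
    (c : ℝ) : ContDiff ℝ 2 (FSN D K ga c) := by
  have h1 : ContDiff ℝ 2 fun z : Fin N → ℂ => ∑ j, PSN K ga (D.sn j) (D.M j) (z j) :=
    ContDiff.sum fun j _ =>
      (contDiff_PSN K h0 h2 (abs_sn D j) (D.M j)).comp (contDiff_apply ℝ ℂ j)
  have h4 : ContDiff ℝ 2 fun z : Fin N → ℂ => c * ∑ e, Cx8 D K e z :=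
    contDiff_const.mul (ContDiff.sum fun e _ => contDiff_Cx8 D K h3 e)
  exact h1.sub (GlC2a_930.contDiff_ofReal.comp h4)

variable {D}

/-- **GLN-C2a**: `FSN` is `C²` -/
theorem fsnC {K ga : ℝ} (hS : Std D K) (h0 : 0 < ga) (h2 : ga < 2) (c : ℝ) :
    ContDiff ℝ 2 (FSN D K ga c) := contDiff_FSN D K hS.cd3 h0 h2 c

/-- **GLN-C2a**: `F8N` is `C²` -/
theorem f8nC {K : ℝ} (hS : Std D K) (cB ga : ℝ) : ContDiff ℝ 2 (F8N D K cB ga) :=
  contDiff_F8N D hS.K16 cB ga

theorem fsnC_on {K ga : ℝ} (hS : Std D K) (h0 : 0 < ga) (h2 : ga ≤ 1 / 8) (c : ℝ) :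
    ContDiffOn ℝ 2 (FSN D K ga c) {0}ᶜ := (fsnC hS h0 (by linarith) c).contDiffOn

theorem f8nC_on {K : ℝ} (hS : Std D K) (cB ga : ℝ) : ContDiffOn ℝ 2 (F8N D K cB ga) {0}ᶜ :=
  (f8nC hS cB ga).contDiffOn

/-- weights `1 / 8` -/
theorem FSN_act (K ga c : ℝ) (s : ℝ) (z : Fin N → ℂ) :
    FSN D K ga c (Cone_808.act (fun _ => 1 / 8) s z) = Real.exp s • FSN D K ga c z :=
  GlC2a_930.wh_of_hom8 (fun _ hr z => FSN_smul D K ga c hr z) s z

/-- weights `1 / 8` -/
theorem F8N_act (K cB ga : ℝ) (s : ℝ) (z : Fin N → ℂ) :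
    F8N D K cB ga (Cone_808.act (fun _ => 1 / 8) s z) = Real.exp s • F8N D K cB ga z :=
  GlC2a_930.wh_of_hom8 (fun _ hr z => F8N_smul D K cB ga hr z) s z

end Box

end Crest.Agent.R267.GlnC2a_433
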