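import Crest.Agent.R267.GlnPl_984
import Crest.Agent.R267.GlLn_322
import Crest.Agent.R267.GlnC2a_433
import Crest.Agent.R267.HmC_951
import Crest.Agent.R267.HmD_951

/-!
# Row 267 (helper984): GLN-LINE

`lineP`: the straight line from `FSN` to `F8N` is `0`-regular (in fact regular over `Re ≥ 0`).
-/

set_option autoImplicit false
set_option linter.unusedSectionVars false

noncomputable section

open Finset Filter Topology
open Crest.Agent.R267.T3aDefs_957 (st Af Bf pg pl NN chi)
open Crest.Agent.R267.T3aNDefs_88 Crest.Agent.R267.GlNDefs_9 Crest.Agent.R267.LemL_951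
open Crest.Agent.R267.Hm_951 Crest.Agent.R267.GlnPl_984
open Crest.Agent.R267.GlueDefs_322 (rho)
open Crest.Agent.R267.GlCp_322 (line_deriv fderiv_line im_line re_line zone_line rho_nonneg
  rho_of_nonpos)
open Crest.Agent.R267.GlLn_322 (lobB_reg2)

namespace Crest.Agent.R267.GlnLine_984

variable {N : ℕ}

/-! ### the couplings -/

/-- the product coupling of a box -/
def TT (D : SD N) (K : ℝ) (e : Fin D.nb) (z : Fin N → ℂ) : ℝ :=
  ∏ j ∈ (D.bx e).S, (pg K (z j) ^ (8 / cd D e) * wz ((D.bx e).lo j) ((D.bx e).hi j) (z j))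

/-- the window of a box -/
def WW (D : SD N) (e : Fin D.nb) (z : Fin N → ℂ) : ℝ :=
  ∏ j ∈ (D.bx e).S, winN ((D.bx e).lo j) ((D.bx e).hi j) ((z j).im / (z j).re)

/-- harmonic mean of a box -/
def HR (D : SD N) (K : ℝ) (e : Fin D.nb) (z : Fin N → ℂ) : ℝ :=
  Hm (D.bx e).S fun j => rho K (z j)

/-- the coupling of the line -/
def bN (D : SD N) (K κ t : ℝ) (e : Fin D.nb) (z : Fin N → ℂ) : ℝ :=
  (1 - t) * (4 * TT D K e z) + t * (κ * (HR D K e z * WW D e z))

/-- share of the variable `i` -/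
def shN (D : SD N) (K κ t : ℝ) (e : Fin D.nb) (z : Fin N → ℂ) (i : Fin N) : ℝ :=
  (1 - t) * (4 * (TT D K e z / cd D e)) +
    t * (κ * (HR D K e z ^ 2 / rho K (z i) * WW D e z))

variable {D : SD N} {K κ t : ℝ}

theorem wz_nonneg (m m' : ℕ) (z : ℂ) : 0 ≤ wz m m' z := by
  unfold wz
  split_ifs
  · exact CalcN_88.winN_nonneg _ _ _
  · exact le_rfl

theorem TT_nonneg (e : Fin D.nb) (z : Fin N → ℂ) : 0 ≤ TT D K e z :=
  prod_nonneg fun _ _ => mul_nonneg (Real.rpow_nonneg (GlBas_322.pg_nonneg _ _) _)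
    (wz_nonneg _ _ _)

theorem WW_nonneg (e : Fin D.nb) (z : Fin N → ℂ) : 0 ≤ WW D e z :=
  prod_nonneg fun _ _ => CalcN_88.winN_nonneg _ _ _

theorem Hm_nonneg {ι : Type} (S : Finset ι) (R : ι → ℝ) : 0 ≤ Hm S R := by
  classical
  unfold T3aNDefs_88.Hm
  split_ifs with h
  · exact one_div_nonneg.2 (sum_nonneg fun j hj => one_div_nonneg.2 (h j hj).le)
  · exact le_rfl

theorem cd_pos (e : Fin D.nb) : 0 < cd D e := by
  have := GlnStar_649.cd_two D e
  linarith

theorem shN_nonneg (ht : 0 ≤ t) (ht1 : t ≤ 1) (hκ : 0 ≤ κ) (e : Fin D.nb) (z : Fin N → ℂ)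
    (i : Fin N) : 0 ≤ shN D K κ t e z i := by
  unfold shN
  have h1 := TT_nonneg (K := K) e z
  have h2 := WW_nonneg e z
  have h3 := rho_nonneg K (z i)
  have h4 := cd_pos e
  have h5 : 0 ≤ 1 - t := by linarith
  positivity

theorem Hm_pos {ι : Type} {S : Finset ι} {R : ι → ℝ} (hS : S.Nonempty) (h : ∀ j ∈ S, 0 < R j) :
    0 < Hm S R := by
  classical
  unfold T3aNDefs_88.Hm
  rw [if_pos h]
  exact one_div_pos.2 (sum_pos (fun j hj => one_div_pos.2 (h j hj)) hS)

theorem S_ne (e : Fin D.nb) : (D.bx e).S.Nonempty :=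
  card_pos.1 (lt_of_lt_of_le two_pos (D.h2 e))

/-- the shares add up -/
theorem sum_shN (e : Fin D.nb) (z : Fin N → ℂ) :
    ∑ i ∈ (D.bx e).S, shN D K κ t e z i = bN D K κ t e z := by
  unfold shN bN
  rw [sum_add_distrib, sum_const, ← mul_sum, ← mul_sum, ← sum_mul, nsmul_eq_mul]
  have h1 : ((D.bx e).S.card : ℝ) = cd D e := rfl
  have h2 := (cd_pos e).ne'
  have h3 : ∑ i ∈ (D.bx e).S, HR D K e z ^ 2 / rho K (z i) = HR D K e z := by
    by_cases h : ∀ j ∈ (D.bx e).S, 0 < rho K (z j)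
    · have h4 : HR D K e z = 1 / ∑ j ∈ (D.bx e).S, 1 / rho K (z j) := by
        classical
        unfold HR T3aNDefs_88.Hm
        exact if_pos h
      have h5 : 0 < HR D K e z := Hm_pos (S_ne e) h
      have h6 : ∑ i ∈ (D.bx e).S, HR D K e z ^ 2 / rho K (z i) =
          HR D K e z ^ 2 * ∑ j ∈ (D.bx e).S, 1 / rho K (z j) := by
        rw [mul_sum]
        exact sum_congr rfl fun i _ => by ring
      have h7 : ∑ j ∈ (D.bx e).S, 1 / rho K (z j) = 1 / HR D K e z := by
        rw [h4, one_div_one_div]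
      rw [h6, h7]
      field_simp
    · have h4 : HR D K e z = 0 := by
        classical
        unfold HR T3aNDefs_88.Hm
        exact if_neg h
      rw [h4]
      simp
  rw [h3, h1]
  congr 1
  field_simp

/-! ### lines -/

theorem line_single (z : Fin N → ℂ) (i : Fin N) (v : ℂ) (s : ℝ) :
    z + s • (Pi.single i v : Fin N → ℂ) = Function.update z i (z i + s • v) := by
  funext j
  by_cases h : j = i
  · subst h
    simp
  · simp [h]

/-- nothing happens outside `S` -/
theorem bN_off {e : Fin D.nb} {i : Fin N} (hi : i ∉ (D.bx e).S) (z : Fin N → ℂ) (w : ℂ) :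
    bN D K κ t e (Function.update z i w) = bN D K κ t e z := by
  have h : ∀ j ∈ (D.bx e).S, Function.update z i w j = z j := by
    intro j hj
    have hji : j ≠ i := by
      rintro rfl
      exact hi hj
    exact Function.update_of_ne hji _ _
  have e1 : TT D K e (Function.update z i w) = TT D K e z := by
    unfold TT
    exact prod_congr rfl fun j hj => by rw [h j hj]
  have e2 : WW D e (Function.update z i w) = WW D e z := by
    unfold WW
    exact prod_congr rfl fun j hj => by rw [h j hj]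
  have e3 : HR D K e (Function.update z i w) = HR D K e z := by
    classical
    unfold HR T3aNDefs_88.Hm
    have h1 : (∀ j ∈ (D.bx e).S, 0 < rho K (Function.update z i w j)) ↔
        ∀ j ∈ (D.bx e).S, 0 < rho K (z j) :=
      forall₂_congr fun j hj => by rw [h j hj]
    have h2 : ∑ j ∈ (D.bx e).S, 1 / rho K (Function.update z i w j) =
        ∑ j ∈ (D.bx e).S, 1 / rho K (z j) := sum_congr rfl fun j hj => by rw [h j hj]
    rw [h2]
    by_cases h3 : ∀ j ∈ (D.bx e).S, 0 < rho K (z j)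
    · rw [if_pos h3, if_pos (h1.2 h3)]
    · rw [if_neg h3, if_neg (fun h4 => h3 (h1.1 h4))]
  unfold bN
  rw [e1, e2, e3]

/-- the coupling only depends on pg, wz, rho, win of the variable -/
theorem bN_congr (e : Fin D.nb) {i : Fin N} (z : Fin N → ℂ) {w : ℂ} (h1 : pg K w = pg K (z i))
    (h2 : wz ((D.bx e).lo i) ((D.bx e).hi i) w = wz ((D.bx e).lo i) ((D.bx e).hi i) (z i))
    (h3 : rho K w = rho K (z i))
    (h4 : winN ((D.bx e).lo i) ((D.bx e).hi i) (w.im / w.re) =
      winN ((D.bx e).lo i) ((D.bx e).hi i) ((z i).im / (z i).re)) :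
    bN D K κ t e (Function.update z i w) = bN D K κ t e z := by
  have e1 : TT D K e (Function.update z i w) = TT D K e z := by
    unfold TT
    refine prod_congr rfl fun j _ => ?_
    by_cases hj : j = i
    · subst hj
      rw [Function.update_self, h1, h2]
    · rw [Function.update_of_ne hj]
  have e2 : WW D e (Function.update z i w) = WW D e z := by
    unfold WW
    refine prod_congr rfl fun j _ => ?_
    by_cases hj : j = i
    · subst hj
      rw [Function.update_self, h4]
    · rw [Function.update_of_ne hj]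
  have e3 : HR D K e (Function.update z i w) = HR D K e z := by
    unfold HR
    congr 1
    funext j
    by_cases hj : j = i
    · subst hj
      rw [Function.update_self, h3]
    · rw [Function.update_of_ne hj]
  unfold bN
  rw [e1, e2, e3]

/-- the coupling vanishes if one variable is out -/
theorem bN_zero {e : Fin D.nb} {i : Fin N} (hi : i ∈ (D.bx e).S) (z : Fin N → ℂ)
    (h1 : wz ((D.bx e).lo i) ((D.bx e).hi i) (z i) = 0)
    (h2 : rho K (z i) = 0 ∨ winN ((D.bx e).lo i) ((D.bx e).hi i) ((z i).im / (z i).re) = 0) :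
    bN D K κ t e z = 0 := by
  have e1 : TT D K e z = 0 := prod_eq_zero hi (by rw [h1, mul_zero])
  have e2 : HR D K e z * WW D e z = 0 := by
    rcases h2 with h2 | h2
    · unfold HR
      rw [T3aNBas_277.Hm_eq_zero hi h2.le, zero_mul]
    · rw [show WW D e z = 0 from prod_eq_zero hi h2, mul_zero]
  unfold bN
  rw [e1, e2]
  simp

/-- far from the window -/
theorem out_far {m m' : ℕ} {u : ℂ} (h : (16 * (m' : ℝ) + 1) * u.re ≤ |u.im|) :
    wz m m' u = 0 ∧ (rho K u = 0 ∨ winN m m' (u.im / u.re) = 0) := by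
  rcases le_or_gt u.re 0 with h0 | h0
  · refine ⟨?_, Or.inl (rho_of_nonpos h0)⟩
    unfold wz
    rw [if_neg (not_lt.2 h0)]
  · have h1 : winN m m' (u.im / u.re) = 0 := by
      refine CalcN_88.winN_far ?_
      rw [abs_div, abs_of_pos h0, le_div_iff₀ h0]
      exact h
    refine ⟨?_, Or.inr h1⟩
    unfold wz
    rw [if_pos h0, h1]

/-- the flat side: plate -/
theorem bN_flat (e : Fin D.nb) {i : Fin N} {z : Fin N → ℂ} (hz : z i ≠ 0) (hre : (z i).re ≤ 0)
    (v : ℂ) : ∀ᶠ s : ℝ in 𝓝 0, bN D K κ t e (z + s • (Pi.single i v : Fin N → ℂ)) =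
      bN D K κ t e z := by
  by_cases hi : i ∈ (D.bx e).S
  swap
  · filter_upwards with s
    rw [line_single, bN_off hi]
  have h1 : Tendsto (fun s : ℝ => z i + s • v) (𝓝 0) (𝓝 (z i)) := by
    have : Continuous fun s : ℝ => z i + s • v := by fun_prop
    simpa using this.tendsto 0
  have h2 := CalcN_88.farN_nhds (M := (D.bx e).hi i) hre hz
  have h0 := h2.self_of_nhds
  obtain ⟨a1, a2⟩ := out_far (K := K) (m := (D.bx e).lo i) h0
  rw [bN_zero hi z a1 a2]
  filter_upwards [h1.eventually h2] with s hs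
  obtain ⟨b1, b2⟩ := out_far (K := K) (m := (D.bx e).lo i) hs
  rw [line_single]
  exact bN_zero hi _ (by rw [Function.update_self]; exact b1)
    (by rw [Function.update_self]; exact b2)

/-- the zone: vertical direction -/
theorem bN_vert (e : Fin D.nb) {i : Fin N} {z : Fin N → ℂ} (hre : 0 < (z i).re) {l : ℕ}
    (hl : l < D.M i) (hK : 16 * (D.M i : ℝ) + 2 ≤ K) (h : |(z i).im / (z i).re - sgN l| < 3 / 2) :
    ∀ᶠ s : ℝ in 𝓝 0, bN D K κ t e (z + s • (Pi.single i Complex.I : Fin N → ℂ)) =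
      bN D K κ t e z := by
  filter_upwards [zone_line hre h] with s hs
  rw [line_single]
  have h4 : 0 < (z i + s • Complex.I).re := by rwa [re_line]
  have hw : ∀ m m' : ℕ, winN m m' ((z i + s • Complex.I).im / (z i + s • Complex.I).re) =
      winN m m' ((z i).im / (z i).re) := by
    intro m m'
    rw [(CalcN_88.winN_cell (by linarith)).1,
      (CalcN_88.winN_cell (by linarith : |(z i).im / (z i).re - sgN l| ≤ 7)).1]
  refine bN_congr e z ?_ ?_ ?_ (hw _ _)
  · rw [pg_zone hl hK h4 hs, pg_zone hl hK hre h, re_line]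
  · unfold wz
    rw [if_pos h4, if_pos hre, hw]
  · rw [rho_zone hl hK h4 hs, rho_zone hl hK hre h, re_line]

/-! ### radial derivative -/

/-- harmonic mean with one variable scaled -/
theorem hasDerivAt_hm {C R : ℝ} (hC : 0 ≤ C) (hR : 0 < R) :
    HasDerivAt (fun s : ℝ => 1 / (C + 1 / ((1 + s) ^ 8 * R)))
      (8 * ((1 / (C + 1 / R)) ^ 2 / R)) 0 := by
  have h1 : HasDerivAt (fun s : ℝ => (1 + s) ^ 8 * R) (8 * R) 0 := by
    have h2 := (((hasDerivAt_id (0 : ℝ)).const_add 1).fun_pow 8).mul_const R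
    refine h2.congr_deriv ?_
    simp
  have h2 : HasDerivAt (fun s : ℝ => C + 1 / ((1 + s) ^ 8 * R)) (-(8 / R)) 0 := by
    have h3 := (h1.fun_inv (by simpa using hR.ne')).const_add C
    simp only [one_div]
    refine h3.congr_deriv ?_
    simp
    field_simp
  have h4 : (0 : ℝ) < C + 1 / R := by positivity
  have h3 := h2.fun_inv (by simpa using h4.ne')
  simp only [one_div] at h3 ⊢
  refine h3.congr_deriv ?_
  simp only [add_zero, one_pow, one_mul]
  have h5 : C + R⁻¹ ≠ 0 := by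
    rw [one_div] at h4
    exact h4.ne'
  field_simp

/-- radial derivative of the harmonic mean -/
theorem HR_rad {e : Fin D.nb} {i : Fin N} (hi : i ∈ (D.bx e).S) (z : Fin N → ℂ) :
    HasDerivAt (fun s : ℝ => HR D K e (z + s • (Pi.single i (z i) : Fin N → ℂ)))
      (8 * (HR D K e z ^ 2 / rho K (z i))) 0 := by
  classical
  have hs : ∀ᶠ s : ℝ in 𝓝 0, 0 < 1 + s := by
    have : Continuous fun s : ℝ => 1 + s := by fun_prop
    exact this.continuousAt.eventually (lt_mem_nhds (by norm_num))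
  have hval : ∀ s : ℝ, 0 < 1 + s → ∀ j, rho K ((z + s • (Pi.single i (z i) : Fin N → ℂ)) j) =
      if j = i then (1 + s) ^ 8 * rho K (z i) else rho K (z j) := by
    intro s hs j
    rw [line_single]
    by_cases hj : j = i
    · subst hj
      rw [if_pos rfl, Function.update_self,
        show z j + s • z j = ((1 + s : ℝ) : ℂ) * z j by
          rw [Complex.real_smul]; push_cast; ring, GlCp_322.rho_smul hs]
    · rw [if_neg hj, Function.update_of_ne hj]
  by_cases h : ∀ j ∈ (D.bx e).S, 0 < rho K (z j)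
  · set C : ℝ := ∑ j ∈ (D.bx e).S.erase i, 1 / rho K (z j) with hC
    have hC0 : 0 ≤ C := sum_nonneg fun j hj => one_div_nonneg.2 (h j (mem_of_mem_erase hj)).le
    have hH : HR D K e z = 1 / (C + 1 / rho K (z i)) := by
      unfold HR T3aNDefs_88.Hm
      rw [if_pos h, hC, sum_erase_add _ _ hi]
    rw [hH]
    refine (hasDerivAt_hm hC0 (h i hi)).congr_of_eventuallyEq ?_
    filter_upwards [hs] with s hs
    unfold HR T3aNDefs_88.Hm
    have h1 : ∀ j ∈ (D.bx e).S, 0 < rho K ((z + s • (Pi.single i (z i) : Fin N → ℂ)) j) := by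
      intro j hj
      rw [hval s hs]
      split_ifs
      · exact mul_pos (by positivity) (h i hi)
      · exact h j hj
    rw [if_pos h1, hC, ← sum_erase_add _ _ hi]
    simp only
    rw [hval s hs i, if_pos rfl]
    congr 2
    refine sum_congr rfl fun j hj => ?_
    rw [hval s hs j, if_neg (ne_of_mem_erase hj)]
  · have hH : ∀ s : ℝ, 0 < 1 + s → HR D K e (z + s • (Pi.single i (z i) : Fin N → ℂ)) = 0 := by
      intro s hs
      push Not at h
      obtain ⟨j, hj, hj2⟩ := h
      refine T3aNBas_277.Hm_eq_zero hj ?_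
      rw [hval s hs]
      split_ifs with h1
      · subst h1
        exact mul_nonpos_of_nonneg_of_nonpos (by positivity) hj2
      · exact hj2
    have h0 : HR D K e z = 0 := by
      have := hH 0 (by norm_num)
      simpa using this
    rw [h0]
    simp only [ne_eq, OfNat.ofNat_ne_zero, not_false_eq_true, zero_pow, zero_div, mul_zero]
    refine (hasDerivAt_const (0 : ℝ) (0 : ℝ)).congr_of_eventuallyEq ?_
    filter_upwards [hs] with s hs
    exact hH s hs

theorem TT_rad {e : Fin D.nb} {i : Fin N} (hi : i ∈ (D.bx e).S) (z : Fin N → ℂ) :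
    HasDerivAt (fun s : ℝ => TT D K e (z + s • (Pi.single i (z i) : Fin N → ℂ)))
      (8 * (TT D K e z / cd D e)) 0 := by
  have hs : ∀ᶠ s : ℝ in 𝓝 0, 0 < 1 + s := by
    have : Continuous fun s : ℝ => 1 + s := by fun_prop
    exact this.continuousAt.eventually (lt_mem_nhds (by norm_num))
  have h1 : HasDerivAt (fun s : ℝ => (1 + s) ^ (8 / cd D e) * TT D K e z)
      (8 * (TT D K e z / cd D e)) 0 := by
    have h2 := ((hasDerivAt_id (0 : ℝ)).const_add 1).rpow_const (p := 8 / cd D e)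
      (Or.inl (by simp))
    refine (h2.mul_const (TT D K e z)).congr_deriv ?_
    simp
    ring
  refine h1.congr_of_eventuallyEq ?_
  filter_upwards [hs] with s hs
  unfold TT
  rw [← mul_prod_erase _ _ hi, ← mul_prod_erase _ _ hi, line_single, Function.update_self,
    show z i + s • z i = ((1 + s : ℝ) : ℂ) * z i by
      rw [Complex.real_smul]; push_cast; ring, GlBas_322.pg_smul hs,
    GlnStar_649.wz_smul _ _ hs, Real.mul_rpow hs.le (GlBas_322.pg_nonneg _ _)]
  have h2 : ∏ j ∈ (D.bx e).S.erase i, (pg K (Function.update z i (((1 + s : ℝ) : ℂ) * z i) j) ^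
      (8 / cd D e) * wz ((D.bx e).lo j) ((D.bx e).hi j)
        (Function.update z i (((1 + s : ℝ) : ℂ) * z i) j)) =
      ∏ j ∈ (D.bx e).S.erase i, (pg K (z j) ^ (8 / cd D e) *
        wz ((D.bx e).lo j) ((D.bx e).hi j) (z j)) :=
    prod_congr rfl fun j hj => by rw [Function.update_of_ne (ne_of_mem_erase hj)]
  rw [h2]
  ring

theorem WW_rad (e : Fin D.nb) (i : Fin N) (z : Fin N → ℂ) :
    ∀ᶠ s : ℝ in 𝓝 0, WW D e (z + s • (Pi.single i (z i) : Fin N → ℂ)) = WW D e z := by
  have hs : ∀ᶠ s : ℝ in 𝓝 0, 0 < 1 + s := by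
    have : Continuous fun s : ℝ => 1 + s := by fun_prop
    exact this.continuousAt.eventually (lt_mem_nhds (by norm_num))
  filter_upwards [hs] with s hs
  unfold WW
  refine prod_congr rfl fun j _ => ?_
  rw [line_single]
  by_cases hj : j = i
  · subst hj
    rw [Function.update_self, show z j + s • z j = ((1 + s : ℝ) : ℂ) * z j by
          rw [Complex.real_smul]; push_cast; ring, Complex.re_ofReal_mul, Complex.im_ofReal_mul,
      mul_div_mul_left _ _ hs.ne']
  · rw [Function.update_of_ne hj]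

theorem bN_rad {e : Fin D.nb} {i : Fin N} (hi : i ∈ (D.bx e).S) (z : Fin N → ℂ) :
    HasDerivAt (fun s : ℝ => bN D K κ t e (z + s • (Pi.single i (z i) : Fin N → ℂ)))
      (8 * shN D K κ t e z i) 0 := by
  have h1 := ((TT_rad (K := K) hi z).const_mul 4).const_mul (1 - t)
  have h2 := (((HR_rad (K := K) hi z).mul_const (WW D e z)).const_mul κ).const_mul t
  refine ((h1.fun_add h2).congr_deriv ?_).congr_of_eventuallyEq ?_
  · unfold shN
    ring
  · filter_upwards [WW_rad e i z] with s hs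
    unfold bN
    rw [hs]

/-! ### (NC) -/

theorem rpow_card {n : ℝ} (hn : 0 < n) {x : ℝ} (hx : 0 ≤ x) (m : ℕ) (hm : (m : ℝ) = n) :
    (x ^ (8 / n)) ^ m = x ^ 8 := by
  rw [← Real.rpow_natCast, ← Real.rpow_mul hx, hm, div_mul_cancel₀ _ hn.ne',
    show (8 : ℝ) = ((8 : ℕ) : ℝ) by norm_num, Real.rpow_natCast]

/-- **(NC)** at a point of the zones -/
theorem bN_nc {ga : ℝ} (hg : 0 < ga) (ht : 0 ≤ t) (ht1 : t ≤ 1) (hκ : 9 * ga < κ)
    (e : Fin D.nb) (hcd : cd D e ≤ 3) {z : Fin N → ℂ}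
    (hre : ∀ j ∈ (D.bx e).S, 0 < (z j).re) (hpg : ∀ j ∈ (D.bx e).S, pg K (z j) = (z j).re)
    (hw : ∀ j ∈ (D.bx e).S, winN ((D.bx e).lo j) ((D.bx e).hi j) ((z j).im / (z j).re) = 1) :
    ∃ i ∈ (D.bx e).S, ((1 - t) + t * ga) * (z i).re ^ 8 < shN D K κ t e z i := by
  obtain ⟨i, hi, hmin⟩ := exists_min_image (D.bx e).S (fun j => (z j).re) (S_ne e)
  refine ⟨i, hi, ?_⟩
  have hn := cd_pos e
  have hn2 := GlnStar_649.cd_two D e
  have hcard : ((D.bx e).S.card : ℝ) = cd D e := rfl
  set n := cd D e with hnd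
  set x := (z i).re with hx
  have hx0 : 0 < x := hre i hi
  have hrho : ∀ j ∈ (D.bx e).S, rho K (z j) = (z j).re ^ 8 := by
    intro j hj
    unfold rho
    rw [hpg j hj, max_eq_right (hre j hj).le]
    ring
  have hWW : WW D e z = 1 := prod_eq_one hw
  have hTT : x ^ 8 ≤ TT D K e z := by
    have h1 : ∏ _j ∈ (D.bx e).S, x ^ (8 / n) ≤ TT D K e z := by
      refine prod_le_prod (fun _ _ => Real.rpow_nonneg hx0.le _) fun j hj => ?_
      rw [hpg j hj]
      unfold wz
      rw [if_pos (hre j hj), hw j hj, mul_one]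
      exact Real.rpow_le_rpow hx0.le (hmin j hj) (by positivity)
    rw [prod_const, rpow_card hn hx0.le _ hcard] at h1
    exact h1
  have hpos : ∀ j ∈ (D.bx e).S, 0 < rho K (z j) := fun j hj => by
    rw [hrho j hj]
    have := hre j hj
    positivity
  have hHR : x ^ 8 / n ≤ HR D K e z := by
    classical
    unfold HR T3aNDefs_88.Hm
    rw [if_pos hpos, div_le_div_iff₀ hn (sum_pos (fun j hj => one_div_pos.2 (hpos j hj)) (S_ne e)),
      one_mul]
    have h1 : ∑ j ∈ (D.bx e).S, 1 / rho K (z j) ≤ ∑ _j ∈ (D.bx e).S, 1 / x ^ 8 := by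
      refine sum_le_sum fun j hj => ?_
      rw [hrho j hj]
      exact one_div_le_one_div_of_le (by positivity) (pow_le_pow_left₀ hx0.le (hmin j hj) 8)
    rw [sum_const, nsmul_eq_mul, hcard] at h1
    calc x ^ 8 * ∑ j ∈ (D.bx e).S, 1 / rho K (z j) ≤ x ^ 8 * (n * (1 / x ^ 8)) :=
          mul_le_mul_of_nonneg_left h1 (by positivity)
      _ = n := by field_simp
  have hH2 : x ^ 8 / 9 ≤ HR D K e z ^ 2 / x ^ 8 := by
    rw [div_le_div_iff₀ (by norm_num) (by positivity)]
    have h1 : x ^ 8 / 3 ≤ HR D K e z :=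
      (div_le_div_of_nonneg_left (by positivity) hn hcd).trans hHR
    have h2 : (x ^ 8 / 3) ^ 2 ≤ HR D K e z ^ 2 := pow_le_pow_left₀ (by positivity) h1 2
    nlinarith [h2]
  have hT3 : x ^ 8 * (4 / 3) ≤ 4 * (TT D K e z / n) := by
    have h1 : x ^ 8 / 3 ≤ TT D K e z / n :=
      div_le_div₀ (le_trans (by positivity) hTT) hTT hn hcd
    linarith
  unfold shN
  rw [hWW, hrho i hi, mul_one]
  have hκ0 : 0 < κ := by linarith
  have a1 : (1 - t) * (x ^ 8 * (4 / 3)) ≤ (1 - t) * (4 * (TT D K e z / n)) :=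
    mul_le_mul_of_nonneg_left hT3 (by linarith)
  have a2 : t * (κ * (x ^ 8 / 9)) ≤ t * (κ * (HR D K e z ^ 2 / x ^ 8)) :=
    mul_le_mul_of_nonneg_left (mul_le_mul_of_nonneg_left hH2 hκ0.le) ht
  have a3 : ((1 - t) + t * ga) * x ^ 8 < (1 - t) * (x ^ 8 * (4 / 3)) + t * (κ * (x ^ 8 / 9)) := by
    have h7 : (1 - t) * (x ^ 8 * (4 / 3)) + t * (κ * (x ^ 8 / 9)) - ((1 - t) + t * ga) * x ^ 8 =
        ((1 - t) * (1 / 3) + t * (κ / 9 - ga)) * x ^ 8 := by ring
    have h8 : 0 < (1 - t) * (1 / 3) + t * (κ / 9 - ga) := by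
      rcases ht.lt_or_eq with h9 | h9
      · exact add_pos_of_nonneg_of_pos (mul_nonneg (by linarith) (by norm_num))
          (mul_pos h9 (by linarith))
      · rw [← h9]
        norm_num
    have := mul_pos h8 (by positivity : 0 < x ^ 8)
    linarith
  linarith

/-! ### homogeneity -/

theorem TT_smul (e : Fin D.nb) {r : ℝ} (hr : 0 < r) (z : Fin N → ℂ) :
    TT D K e (r • z) = r ^ 8 * TT D K e z := by
  have hn := cd_pos e
  unfold TT
  have h1 : ∀ j ∈ (D.bx e).S, pg K ((r • z) j) ^ (8 / cd D e) *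
      wz ((D.bx e).lo j) ((D.bx e).hi j) ((r • z) j) = r ^ (8 / cd D e) *
      (pg K (z j) ^ (8 / cd D e) * wz ((D.bx e).lo j) ((D.bx e).hi j) (z j)) := by
    intro j _
    rw [Pi.smul_apply, Complex.real_smul, GlBas_322.pg_smul hr, GlnStar_649.wz_smul _ _ hr,
      Real.mul_rpow hr.le (GlBas_322.pg_nonneg _ _)]
    ring
  rw [prod_congr rfl h1, prod_mul_distrib, prod_const, rpow_card hn hr.le _ rfl]

theorem WW_smul (e : Fin D.nb) {r : ℝ} (hr : 0 < r) (z : Fin N → ℂ) :
    WW D e (r • z) = WW D e z := by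
  unfold WW
  refine prod_congr rfl fun j _ => ?_
  rw [Pi.smul_apply, GlC2a_930.slope_smul hr]

theorem HR_smul (e : Fin D.nb) {r : ℝ} (hr : 0 < r) (z : Fin N → ℂ) :
    HR D K e (r • z) = r ^ 8 * HR D K e z := by
  unfold HR
  rw [← T3aNBas_277.Hm_smul _ _ (by positivity : 0 < r ^ 8)]
  congr 1
  funext j
  rw [Pi.smul_apply, Complex.real_smul, GlCp_322.rho_smul hr]

theorem FSN_eq (D : SD N) (K ga c : ℝ) (z : Fin N → ℂ) : FSN D K ga c z =
    ∑ j, PSN K ga (D.sn j) (D.M j) (z j) - ((c * ∑ e, TT D K e z : ℝ) : ℂ) := rfl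

theorem F8N_eq (D : SD N) (K cB ga : ℝ) (z : Fin N → ℂ) : F8N D K cB ga z =
    ∑ j, P8N K ga (D.sn j) (D.M j) (z j) -
      ((cB * ga * ∑ e, HR D K e z * WW D e z : ℝ) : ℂ) := rfl

theorem FSN_smul (D : SD N) (K ga c : ℝ) {r : ℝ} (hr : 0 < r) (z : Fin N → ℂ) :
    FSN D K ga c (r • z) = r ^ 8 • FSN D K ga c z := by
  rw [FSN_eq, FSN_eq]
  simp only [TT_smul _ hr, Pi.smul_apply, ← mul_sum]
  have h1 : ∀ j, PSN K ga (D.sn j) (D.M j) (r • z j) =
      (r ^ 8 : ℝ) • PSN K ga (D.sn j) (D.M j) (z j) := fun j => by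
    rw [Complex.real_smul, PSN_smul hr]
  simp only [h1, ← smul_sum, smul_sub]
  congr 1
  rw [Complex.real_smul, ← Complex.ofReal_mul]
  congr 1
  ring

theorem F8N_smul (D : SD N) (K cB ga : ℝ) {r : ℝ} (hr : 0 < r) (z : Fin N → ℂ) :
    F8N D K cB ga (r • z) = r ^ 8 • F8N D K cB ga z := by
  rw [F8N_eq, F8N_eq]
  simp only [HR_smul _ hr, WW_smul _ hr, Pi.smul_apply]
  have h1 : ∀ j, P8N K ga (D.sn j) (D.M j) (r • z j) =
      (r ^ 8 : ℝ) • P8N K ga (D.sn j) (D.M j) (z j) := fun j => by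
    rw [Complex.real_smul, P8N_smul hr]
  simp only [h1, ← smul_sum, smul_sub, mul_assoc, ← mul_sum]
  congr 1
  rw [Complex.real_smul, ← Complex.ofReal_mul]
  congr 1
  ring

/-! ### the line -/

/-- **GLN-C2a** -/
def C2aP (D : SD N) : Prop := ∀ K ga cB : ℝ, Std D K → 0 < ga → ga ≤ 1 / 8 →
  ContDiffOn ℝ 2 (FSN D K ga 4) {0}ᶜ ∧ ContDiffOn ℝ 2 (F8N D K cB ga) {0}ᶜ

/-- **GLN-LINE**, given GLN-C2a -/
theorem lineP_of (D : SD N) (hC : C2aP D) : LineP D := by
  intro K ga cB hD hg hg1 hcB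
  obtain ⟨cFS, cF8⟩ := hC K ga cB hD hg hg1
  have hwS : ∀ (s : ℝ) (z : Fin N → ℂ), FSN D K ga 4
      (Cone_808.act (fun _ => (1 / 8 : ℝ)) s z) = Real.exp s • FSN D K ga 4 z :=
    GlC2a_930.wh_of_hom8 fun r hr z => FSN_smul D K ga 4 hr z
  have hwF : ∀ (s : ℝ) (z : Fin N → ℂ), F8N D K cB ga
      (Cone_808.act (fun _ => (1 / 8 : ℝ)) s z) = Real.exp s • F8N D K cB ga z :=
    GlC2a_930.wh_of_hom8 fun r hr z => F8N_smul D K cB ga hr z
  refine HPath.hpath0 (HPath.line (w := fun _ => 1 / 8) (fun _ => by norm_num) cFS cF8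
    hwS hwF fun t ht z hz hre b => ?_)
  obtain ⟨ht0, ht1⟩ := ht
  set κ : ℝ := cB * ga with hκ
  have hκ9 : 9 * ga < κ := by rw [hκ]; nlinarith
  have hκ0 : 0 < κ := by linarith
  have he : ∀ i : Fin N, ∀ l, D.sn i l = 1 ∨ D.sn i l = -1 := fun i l => CalcN_88.sn_eq D i l
  set P : Fin N → ℂ → ℂ := fun i => PtN K ga (D.sn i) (D.M i) t with hP
  set B : (Fin N → ℂ) → ℝ := fun z => ∑ e, bN D K κ t e z with hB
  have hPd : ∀ i u, DifferentiableAt ℝ (P i) u := fun i u => PtN_dif hg hg1 (he i) t u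
  have hsum : ∀ u : Fin N → ℂ, (1 - t) • FSN D K ga 4 u + t • F8N D K cB ga u = lobB P B u := by
    intro u
    rw [FSN_eq, F8N_eq]
    unfold lobB
    rw [hP, hB]
    simp only [PtN, bN, smul_sub, Complex.real_smul, Finset.mul_sum, Finset.sum_add_distrib]
    rw [hκ]
    push_cast
    simp only [Finset.mul_sum]
    ring
  have dFS : DifferentiableAt ℝ (FSN D K ga 4) z :=
    ((cFS z hz).contDiffAt (isOpen_compl_singleton.mem_nhds hz)).differentiableAt (by norm_num)
  have dF8 : DifferentiableAt ℝ (F8N D K cB ga) z :=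
    ((cF8 z hz).contDiffAt (isOpen_compl_singleton.mem_nhds hz)).differentiableAt (by norm_num)
  have hfd : (1 - t) • fderiv ℝ (FSN D K ga 4) z + t • fderiv ℝ (F8N D K cB ga) z =
      fderiv ℝ (lobB P B) z := by
    have e1 : lobB P B = fun u => (1 - t) • FSN D K ga 4 u + t • F8N D K cB ga u :=
      funext fun u => (hsum u).symm
    rw [e1]
    exact ((dFS.hasFDerivAt.const_smul (1 - t)).add (dF8.hasFDerivAt.const_smul t)).fderiv.symm
  have hBd : DifferentiableAt ℝ B z := by
    have e1 : B = fun u => (∑ i, P i (u i) -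
        ((1 - t) • FSN D K ga 4 u + t • F8N D K cB ga u)).re := by
      funext u
      rw [hsum u]
      unfold lobB
      simp
    have h1 : DifferentiableAt ℝ (fun u : Fin N → ℂ => ∑ i, P i (u i) -
        ((1 - t) • FSN D K ga 4 u + t • F8N D K cB ga u)) z := by
      refine DifferentiableAt.sub (DifferentiableAt.fun_sum fun i _ => ?_)
        ((dFS.const_smul (1 - t)).add (dF8.const_smul t))
      exact DifferentiableAt.comp z (hPd i (z i)) (hasFDerivAt_apply (𝕜 := ℝ) i z).differentiableAt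
    rw [e1]
    exact DifferentiableAt.comp z Complex.reCLM.differentiableAt h1
  -- directional derivatives of the coupling
  have hBrad : ∀ i, fderiv ℝ B z (Pi.single i (z i)) =
      ∑ e, if i ∈ (D.bx e).S then 8 * shN D K κ t e z i else 0 := by
    intro i
    refine fderiv_line hBd ?_
    rw [hB]
    refine HasDerivAt.fun_sum fun e _ => ?_
    split_ifs with hi
    · exact bN_rad hi z
    · simp only [line_single, bN_off hi]
      exact hasDerivAt_const _ _
  have hBflat : ∀ (i : Fin N) (v : ℂ), (∀ e, ∀ᶠ s : ℝ in 𝓝 0,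
      bN D K κ t e (z + s • (Pi.single i v : Fin N → ℂ)) = bN D K κ t e z) →
      fderiv ℝ B z (Pi.single i v) = 0 := by
    intro i v h
    refine GlCp_322.fderiv_line_const hBd ?_
    rw [hB]
    filter_upwards [eventually_all.2 h] with s hs
    exact sum_congr rfl fun e _ => hs e
  have hshn : ∀ e i, 0 ≤ shN D K κ t e z i := fun e i => shN_nonneg ht0 ht1 hκ0.le e z i
  have hbn : ∀ e, 0 ≤ bN D K κ t e z := fun e => by
    rw [← sum_shN]
    exact sum_nonneg fun i _ => hshn e i
  have hPre : ∀ i (u : ℂ), u ≠ 0 → (0 ≤ (P i u).re ↔ 0 ≤ (plN ga (D.sn i) (D.M i) u).re) := by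
    intro i u hu
    have hm := mfN_pos (K := K) (M := D.M i) hg hg1 (he i) ht0 ht1 hu
    rw [hP]
    simp only
    rw [PtN_eq, Complex.re_ofReal_mul]
    exact mul_nonneg_iff_of_pos_left hm
  have hsurj : Function.Surjective (fderiv ℝ (lobB P B) z) := by
    refine lobB_reg2 (D := fun _ => 8) (fun _ => by norm_num) (fun i => PtN_PH t)
      (fun i => hPd i _) hBd (fun i => ?_) ?_ (fun i hi => ?_) hz (fun h1 h2 => ?_) ?_
    · rw [hBrad]
      refine sum_nonneg fun e _ => ?_
      split_ifs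
      · have := hshn e i
        positivity
      · exact le_rfl
    · rw [← sum_div]
      simp only [hBrad]
      rw [sum_comm]
      have h3 : ∀ e, ∑ i, (if i ∈ (D.bx e).S then 8 * shN D K κ t e z i else 0) =
          8 * bN D K κ t e z := by
        intro e
        rw [← sum_shN, mul_sum, ← sum_filter]
        congr 1
        ext i
        simp
      simp only [h3]
      rw [← mul_sum, mul_div_cancel_left₀ _ (by norm_num : (8 : ℝ) ≠ 0)]
    · rcases le_or_gt (z i).re 0 with h0 | h0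
      · exact Or.inl ⟨PtN_surj hg hg1 ht0 ht1 hi h0, fun v =>
          hBflat i v fun e => bN_flat e hi h0 v⟩
      · refine Or.inr ⟨PtN_ne hg hg1 (he i) ht0 ht1 hi, ?_⟩
        rcases lt_or_ge (P i (z i)).re 0 with h1 | h1
        · exact Or.inl h1
        · have h2 := (hPre i (z i) hi).1 h1
          obtain ⟨l, hl, h3, h4⟩ := zoneN hg hg1 (he i) h0 h2
          exact Or.inr ⟨Complex.I, hBflat i _ fun e => bN_vert e h0 hl (hD.K16 i) h3,
            PtN_good hg hg1 (he i) (hD.K16 i) ht0 ht1 h0 hl h3 h4⟩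
    · -- (NC)
      obtain ⟨i, hi⟩ : ∃ i, z i ≠ 0 := by
        by_contra h
        push Not at h
        exact hz (funext h)
      have h3 : 0 < fderiv ℝ B z (Pi.single i (z i)) := by
        rw [← h1 i]
        have := (h2 i hi).1
        positivity
      rw [hBrad] at h3
      obtain ⟨e, -, h4⟩ := exists_lt_of_sum_lt (s := univ)
        (f := fun _ : Fin D.nb => (0 : ℝ)) (by simpa using h3)
      have hie : i ∈ (D.bx e).S := by
        by_contra h
        rw [if_neg h] at h4
        exact lt_irrefl _ h4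
      rw [if_pos hie] at h4
      have hbpos : 0 < bN D K κ t e z := by
        rw [← sum_shN]
        exact sum_pos' (fun i _ => hshn e i) ⟨i, hie, by linarith⟩
      have hz0 : ∀ j ∈ (D.bx e).S, z j ≠ 0 := by
        intro j hj h0
        rw [bN_zero hj z (by rw [h0]; simp [wz]) (Or.inl (by rw [h0]; simp [rho]))] at hbpos
        exact lt_irrefl _ hbpos
      have hre0 : ∀ j ∈ (D.bx e).S, 0 < (z j).re := by
        intro j hj
        by_contra h0
        push Not at h0
        rw [bN_zero hj z (by unfold wz; rw [if_neg (not_lt.2 h0)])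
          (Or.inl (rho_of_nonpos h0))] at hbpos
        exact lt_irrefl _ hbpos
      have hzone : ∀ j ∈ (D.bx e).S, ∃ l < D.M j, |(z j).im / (z j).re - sgN l| < 3 / 2 ∧
          0 ≤ -(1 - ga) + Af ((z j).im / (z j).re - sgN l) := fun j hj =>
        zoneN hg hg1 (he j) (hre0 j hj) ((hPre j (z j) (hz0 j hj)).1 (h2 j (hz0 j hj)).1.le)
      have hpg : ∀ j ∈ (D.bx e).S, pg K (z j) = (z j).re := by
        intro j hj
        obtain ⟨l, hl, h5, -⟩ := hzone j hj
        exact pg_zone hl (hD.K16 j) (hre0 j hj) h5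
      have hwin : ∀ j ∈ (D.bx e).S,
          winN ((D.bx e).lo j) ((D.bx e).hi j) ((z j).im / (z j).re) = 1 := by
        intro j hj
        obtain ⟨l, hl, h5, -⟩ := hzone j hj
        rcases (CalcN_88.winN_const_of_cell (m := (D.bx e).lo j) (m' := (D.bx e).hi j)
          (by linarith : |(z j).im / (z j).re - sgN l| ≤ 7)).1 with h6 | h6
        · rw [bN_zero hj z (by unfold wz; rw [if_pos (hre0 j hj), h6]) (Or.inr h6)] at hbpos
          exact absurd hbpos (lt_irrefl _)
        · exact h6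
      obtain ⟨k, hk, h5⟩ := bN_nc hg ht0 ht1 hκ9 e (hD.cd3 e) hre0 hpg hwin
      obtain ⟨l, hl, h6, -⟩ := hzone k hk
      have h7 := PtN_le (K := K) (t := t) hg hg1 (he k) ht0 ht1 (hre0 k hk) (hpg k hk) hl h6
      have h8 := h1 k
      rw [hBrad] at h8
      have h9 : 8 * shN D K κ t e z k ≤
          ∑ e, if k ∈ (D.bx e).S then 8 * shN D K κ t e z k else 0 := by
        refine le_trans (le_of_eq (if_pos hk).symm) (single_le_sum
          (f := fun e => if k ∈ (D.bx e).S then 8 * shN D K κ t e z k else 0)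
          (fun e _ => ?_) (mem_univ e))
        split_ifs
        · have := hshn e k
          positivity
        · exact le_rfl
      have h10 : (P k (z k)).re ≤ ((1 - t) + t * ga) * (z k).re ^ 8 := h7
      linarith
    · rw [← hsum, Complex.add_re, Complex.smul_re, Complex.smul_re]
      exact hre
  obtain ⟨y, hy⟩ := hsurj b
  refine ⟨y, ?_⟩
  rw [← hy, ← hfd]
  rfl

theorem c2aP (D : SD N) : C2aP D := fun _ ga cB hD hg hg1 =>
  ⟨GlnC2a_433.fsnC_on hD hg hg1 4, GlnC2a_433.f8nC_on hD cB ga⟩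

/-- **GLN-LINE** -/
theorem lineP (D : SD N) : LineP D := lineP_of D (c2aP D)

end Crest.Agent.R267.GlnLine_984
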