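import Crest.Agent.R267.GlNDefs_9
import Crest.Agent.R267.GlBas_322
import Crest.Agent.R267.T3aNBas_277
import Crest.Agent.R267.Gl2_322

/-!
# Row 267 (helper9): GLUE-N, basic facts and `GL2P` from its pieces (port of GlBas_322, Gl2_322)
-/

set_option autoImplicit false

noncomputable section

open Finset Set
open Crest.Agent.R267.T3aDefs_957 (st Af Bf pg NN chi)
open Crest.Agent.R267.T3aDefs_957.LD (Ev vt vs)
open Crest.Agent.R267.T3aNDefs_88 Crest.Agent.R267.Hm_951 Crest.Agent.R267.Ang_739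
open Crest.Agent.R267.Cone_808
open Crest.Agent.R267.GlueDefs_322 (rho Prf Xe OpenP)
open Crest.Agent.R267.GlBas_322 (NN_pos NN_zero NN_nonneg pg_nonneg pg_pos pg_zero prf_pow prf_Xe
  Xe_zero)
open Crest.Agent.R267.GlNDefs_9

namespace Crest.Agent.R267.GlnBas_9

/-! ### slopes -/

variable {N : ℕ} (D : SD N)

theorem M_le_Mx (j : Fin N) : D.M j ≤ D.Mx := by
  unfold SD.Mx
  exact Finset.single_le_sum (f := fun j => D.M j) (fun _ _ => Nat.zero_le _) (Finset.mem_univ j)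

theorem le_K (j : Fin N) : 16 * (D.M j : ℝ) + 2 ≤ D.K := by
  have hN : 1 ≤ N := Nat.one_le_of_lt (Fin.pos j)
  have hN' : (1 : ℝ) ≤ N := by exact_mod_cast hN
  have h1 : (D.M j : ℝ) ≤ D.Mx := by exact_mod_cast M_le_Mx D j
  have h2 : (0 : ℝ) ≤ D.Mx := Nat.cast_nonneg _
  have h3 : 16 * (D.Mx : ℝ) + 2 ≤ D.K1 := by
    unfold SD.K1
    nlinarith
  have h4 : D.K1 ≤ D.K := by
    unfold SD.K
    have : 0 ≤ D.K1 := T3aNBas_277.K1_nonneg D
    nlinarith
  linarith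

theorem std_K (h : ∀ e, cd D e ≤ 3) : Std D D.K := ⟨h, le_K D⟩

/-! ### homogeneity -/

theorem plN_zero (ga : ℝ) (e : ℕ → ℝ) (M : ℕ) : plN ga e M 0 = 0 := by
  simp [plN]

theorem plN_real_smul {ga : ℝ} {e : ℕ → ℝ} {M : ℕ} {r : ℝ} (hr : 0 < r) (z : ℂ) :
    plN ga e M (r • z) = r • plN ga e M z := by
  rw [Complex.real_smul, T3aNBas_277.plN_smul hr, Complex.real_smul]

theorem xr_smul {r : ℝ} (hr : 0 < r) (z : Fin N → ℂ) (j : Fin N) :
    D.xr (r • z) j = D.xr z j := by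
  unfold SD.xr
  rw [GlBas_322.NN_smul hr, Pi.smul_apply, GlBas_322.pg_real_smul hr]
  exact mul_div_mul_left _ _ hr.ne'

theorem xr_nonneg (z : Fin N → ℂ) (j : Fin N) : 0 ≤ D.xr z j :=
  div_nonneg (pg_nonneg _ _) (NN_nonneg _ _)

theorem Rx_smul (X : ℝ → ℝ) {r : ℝ} (hr : 0 < r) (z : Fin N → ℂ) (j : Fin N) :
    Rx D X (r • z) j = r * Rx D X z j := by
  unfold Rx
  rw [xr_smul D hr, Pi.smul_apply, Complex.real_smul, Complex.re_ofReal_mul]
  have : max 0 (r * (z j).re) = r * max 0 (z j).re := by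
    rw [mul_max_of_nonneg _ _ hr.le, mul_zero]
  rw [this]
  ring

theorem tau_smul {r : ℝ} (hr : 0 < r) (z : Fin N → ℂ) (j : Fin N) :
    ((r • z) j).im / ((r • z) j).re = (z j).im / (z j).re := by
  rw [Pi.smul_apply, Complex.real_smul, Complex.re_ofReal_mul, Complex.im_ofReal_mul]
  exact mul_div_mul_left _ _ hr.ne'

theorem Bx_smul (X : ℝ → ℝ) {r : ℝ} (hr : 0 < r) (e : Fin D.nb) (z : Fin N → ℂ) :
    Bx D X e (r • z) = r * Bx D X e z := by
  unfold Bx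
  have h1 : Rx D X (r • z) = fun j => r * Rx D X z j := by
    funext j
    exact Rx_smul D X hr z j
  rw [h1, T3aNBas_277.Hm_smul _ _ hr]
  simp only [tau_smul hr]
  ring

theorem Gx_smul (X : ℝ → ℝ) (cB ga : ℝ) {r : ℝ} (hr : 0 < r) (z : Fin N → ℂ) :
    Gx D X cB ga (r • z) = r • Gx D X cB ga z := by
  unfold Gx
  have h1 : ∀ j, (X (D.xr (r • z) j) : ℂ) * plN ga (D.sn j) (D.M j) ((r • z) j) =
      (r : ℂ) * ((X (D.xr z j) : ℂ) * plN ga (D.sn j) (D.M j) (z j)) := by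
    intro j
    rw [xr_smul D hr, Pi.smul_apply, plN_real_smul hr, Complex.real_smul]
    ring
  simp only [h1, Bx_smul D X hr, ← Finset.mul_sum, Complex.real_smul]
  push_cast
  ring

theorem box_nonempty (e : Fin D.nb) : (D.bx e).S.Nonempty := by
  rw [← Finset.card_pos]
  exact lt_of_lt_of_le two_pos (D.h2 e)

/-- `F8N = NN⁷ Gx (x⁷)` -/
theorem F8N_eq (cB ga : ℝ) (z : Fin N → ℂ) :
    F8N D D.K cB ga z = ((NN D.K1 z ^ 7 : ℝ) : ℂ) * Gx D (fun x => x ^ 7) cB ga z := by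
  by_cases hz : z = 0
  · subst hz
    have h1 : ∀ j, P8N D.K ga (D.sn j) (D.M j) ((0 : Fin N → ℂ) j) = 0 := by
      intro j
      unfold P8N
      rw [Pi.zero_apply, plN_zero, mul_zero]
    have h2 : ∀ e : Fin D.nb, Hm (D.bx e).S (fun j => rho D.K ((0 : Fin N → ℂ) j)) = 0 := by
      intro e
      obtain ⟨j, hj⟩ := box_nonempty D e
      refine T3aNBas_277.Hm_eq_zero hj ?_
      unfold rho
      simp
    unfold F8N
    simp only [h1, h2]
    rw [NN_zero]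
    simp
  · have hN : 0 < NN D.K1 z := NN_pos hz
    have hx : ∀ j, pg D.K (z j) = D.xr z j * NN D.K1 z := by
      intro j
      unfold SD.xr
      rw [div_mul_cancel₀ _ hN.ne']
    have h1 : ∀ j, P8N D.K ga (D.sn j) (D.M j) (z j) =
        ((NN D.K1 z ^ 7 : ℝ) : ℂ) *
          (((D.xr z j ^ 7 : ℝ) : ℂ) * plN ga (D.sn j) (D.M j) (z j)) := by
      intro j
      unfold P8N
      rw [hx, mul_pow]
      push_cast
      ring
    have h3 : (fun j => rho D.K (z j)) =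
        fun j => NN D.K1 z ^ 7 * Rx D (fun x => x ^ 7) z j := by
      funext j
      unfold rho Rx
      rw [hx, mul_pow]
      ring
    have h2 : ∀ e : Fin D.nb, Hm (D.bx e).S (fun j => rho D.K (z j)) *
        ∏ j ∈ (D.bx e).S, winN ((D.bx e).lo j) ((D.bx e).hi j) ((z j).im / (z j).re) =
        NN D.K1 z ^ 7 * Bx D (fun x => x ^ 7) e z := by
      intro e
      unfold Bx
      rw [h3, T3aNBas_277.Hm_smul _ _ (pow_pos hN 7), mul_assoc]
    unfold F8N Gx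
    simp only [h1, h2, ← Finset.mul_sum]
    push_cast
    ring

theorem zeq_F8N (cB ga : ℝ) : ZEq (F8N D D.K cB ga) (Gx D (fun x => x ^ 7) cB ga) := by
  refine ⟨Homeomorph.refl _, fun s => ?_⟩
  have hs : (s : Fin N → ℂ) ≠ 0 := by
    intro h
    have h1 := s.2
    have h2 : nsq (s : Fin N → ℂ) = 1 := h1
    rw [h, show nsq (0 : Fin N → ℂ) = 0 from nsq_eq_zero.2 rfl] at h2
    exact zero_ne_one h2
  show F8N D D.K cB ga s = 0 ↔ Gx D (fun x => x ^ 7) cB ga s = 0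
  rw [F8N_eq]
  have h2 : ((NN D.K1 (s : Fin N → ℂ) ^ 7 : ℝ) : ℂ) ≠ 0 := by
    exact_mod_cast (pow_pos (NN_pos hs) 7).ne'
  exact ⟨fun h => (mul_eq_zero.1 h).resolve_left h2, fun h => by rw [h, mul_zero]⟩

/-- **GL2N from its pieces** -/
theorem gl2 (hS : D.Smooth) (h1 : D.K1Prop) (h2 : D.K2Prop) (hH : HomeoP D) (hC : C2P D)
    (hT : ContP D) (hO : OpenP) : GL2P D := by
  refine T3aDefs_957.LD.Ev.mono (T3aDefs_957.LD.Ev.and hS (T3aDefs_957.LD.Ev.and h1 h2))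
    fun c g d _ _ hd ⟨hs, hk1, hk2⟩ => ?_
  have e0 : Gx D (Xe d 0) c g = D.G c g d := by rw [Xe_zero]; rfl
  obtain ⟨hc0, hc1⟩ := hT c g d hd hs
  obtain ⟨η, hη, hz⟩ := hO N (fun η => Gx D (Xe d η) c g)
    (fun η _ r hr z => Gx_smul D _ _ _ hr z)
    (fun η hη => by
      rcases hη.lt_or_eq with h | h
      · exact hC c g d η hd h
      · rw [← h, e0]; exact hs)
    hc0 hc1
    (fun z hz0 hz1 => by
      rw [e0] at hz1 ⊢
      obtain ⟨Y, hY⟩ := hk1 z hz0 (by rw [hz1]; rfl) (by rw [hz1]; exact le_rfl)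
      obtain ⟨a, Y', -, ha1, ha2⟩ := hk2 z hz0 hz1
      exact Gl2_322.surj_of_two (fderiv ℝ (D.G c g d) z : (Fin N → ℂ) →ₗ[ℝ] ℂ) ha1 ha2 hY)
  have hz' : ZEq (D.G c g d) (Gx D (Xe d η) c g) := by
    rw [← e0]
    exact hz
  exact (zeq_F8N D c g).trans ((hH _ prf_pow c g).trans ((hH _ (prf_Xe hd hη) c g).symm.trans
    hz'.symm))

/-- **GLUE-N from its pieces** -/
theorem glu (hStar : StarP D) (hLine : LineP D) (hG : GL2P D) : GluP D := by
  intro h3 X hX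
  refine T3aDefs_957.LD.Ev.mono (T3aDefs_957.LD.Ev.and hG
    (Q := fun c g _ => 9 < c ∧ g ≤ 1 / 8) ⟨10, by norm_num, fun c hc => ⟨1 / 8, by norm_num,
      fun g _ hg => ⟨1, one_pos, fun d _ _ => ⟨by linarith, hg⟩⟩⟩⟩)
    fun c g d hc hg _ ⟨hz, hc9, hg8⟩ => ?_
  have hs := std_K D h3
  have h1 := hStar D.K g hs hg hg8 X hX
  have h2 := (hLine D.K g c hs hg hg8 hc9).link
  have e1 : (fun x : Fin N → ℂ => (1 - (0 : ℝ)) • FSN D D.K g 4 x + (0 : ℝ) • F8N D D.K c g x) =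
      FSN D D.K g 4 := by
    funext x; simp
  have e2 : (fun x : Fin N → ℂ => (1 - (1 : ℝ)) • FSN D D.K g 4 x + (1 : ℝ) • F8N D D.K c g x) =
      F8N D D.K c g := by
    funext x; simp
  simp only at h2
  rw [e1, e2] at h2
  exact h1.trans (h2.trans hz)

end Crest.Agent.R267.GlnBas_9
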