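import Crest.Agent.R267.GlNDefs_9
import Crest.Agent.R267.AngB_739

/-!
# Row 267 (helper684): GLN-DIFF, a circle diffeomorphism moving arcs to arcs
-/

set_option autoImplicit false

noncomputable section

open Crest.Agent.R267.Ang_739 Crest.Agent.R267.GlNDefs_9

namespace Crest.Agent.R267.GlnDiff_684

/-- smooth monotone function growing only on `[u, v] + 2 π ℤ` -/
def stp (u v x : ℝ) : ℝ := stair ((v - u) / 2) (x - (u + v) / 2) + 1

section Stp

variable {u v : ℝ}

theorem contDiff_stp (u v : ℝ) : ContDiff ℝ 2 (stp u v) := by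
  have h : ContDiff ℝ 2 (stair ((v - u) / 2)) := contDiff_stair _ (n := 2)
  exact (h.comp (contDiff_id.sub contDiff_const)).add contDiff_const

theorem stp_per (h0 : u < v) (h1 : v < u + 2 * Real.pi) (x : ℝ) :
    stp u v (x + 2 * Real.pi) = stp u v x + 1 := by
  unfold stp
  have e : x + 2 * Real.pi - (u + v) / 2 = x - (u + v) / 2 + 2 * Real.pi := by ring
  rw [e, stair_per (by linarith) (by linarith)]

theorem stp_mono (h0 : u < v) (h1 : v < u + 2 * Real.pi) : Monotone (stp u v) := fun x y hxy => by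
  unfold stp
  have := stair_mono (J := (v - u) / 2) (by linarith) (by linarith)
    (show x - (u + v) / 2 ≤ y - (u + v) / 2 by linarith)
  linarith

theorem stp_one (h0 : u < v) (h1 : v < u + 2 * Real.pi) {x : ℝ} (hx : v ≤ x)
    (hx2 : x ≤ u + 2 * Real.pi) : stp u v x = 1 := by
  unfold stp
  rw [stair_const (by linarith) (by linarith) (by linarith) (by linarith), zero_add]

theorem stp_zero (h0 : u < v) (h1 : v < u + 2 * Real.pi) {x : ℝ} (hx : v - 2 * Real.pi ≤ x)
    (hx2 : x ≤ u) : stp u v x = 0 := by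
  have h2 := stp_per h0 h1 x
  rw [stp_one h0 h1 (by linarith) (by linarith)] at h2
  linarith

end Stp

/-- circle diffeomorphism with prescribed values at `p' 0 < p' 1 < ... < p' n = p' 0 + 2π` -/
theorem exists_diffeo {n : ℕ} (hn : 2 ≤ n) {p' p : ℕ → ℝ} (h' : ∀ i < n, p' i < p' (i + 1))
    (h : ∀ i < n, p i < p (i + 1)) (e' : p' n = p' 0 + 2 * Real.pi)
    (e : p n = p 0 + 2 * Real.pi) :
    ∃ f : ℝ → ℝ, ContDiff ℝ 2 f ∧ (∀ x, f (x + 2 * Real.pi) = f x + 2 * Real.pi) ∧
      (∀ x, 0 < deriv f x) ∧ ∀ k ≤ n, f (p' k) = p k := by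
  have hpi := Real.pi_pos
  -- monotonicity
  have mono : ∀ i k, i ≤ k → k ≤ n → p' i ≤ p' k := by
    intro i k hik
    induction k, hik using Nat.le_induction with
    | base => intro _; exact le_rfl
    | succ k _ ih => intro hk; exact (ih (by omega)).trans (h' k (by omega)).le
  have len : ∀ i < n, p' (i + 1) < p' i + 2 * Real.pi := by
    intro i hi
    rcases Nat.eq_zero_or_pos i with rfl | hi0
    · have h1 := h' 1 (by omega)
      have h2 := mono 2 n hn le_rfl
      have h3 : p' (0 + 1) = p' 1 := rfl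
      rw [h3]
      have h4 : p' (1 + 1) = p' 2 := rfl
      linarith
    · have h1 := mono (i + 1) n (by omega) le_rfl
      have h2 := mono 1 i hi0 (by omega)
      have h3 := h' 0 (by omega)
      have h4 : p' (0 + 1) = p' 1 := rfl
      linarith
  -- the small slope
  obtain ⟨i₀, hi₀, hmin⟩ := Finset.exists_min_image (Finset.range n) (fun i => p (i + 1) - p i)
    ⟨0, Finset.mem_range.2 (by omega)⟩
  have hδ : 0 < p (i₀ + 1) - p i₀ := sub_pos.2 (h i₀ (Finset.mem_range.1 hi₀))
  obtain ⟨ε, hε, hε2⟩ : ∃ ε : ℝ, 0 < ε ∧ ε * (2 * Real.pi) < p (i₀ + 1) - p i₀ :=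
    ⟨(p (i₀ + 1) - p i₀) / (4 * Real.pi), by positivity, by
      rw [div_mul_eq_mul_div, div_lt_iff₀ (by positivity)]
      nlinarith⟩
  set c : ℕ → ℝ := fun i => (p (i + 1) - p i) - ε * (p' (i + 1) - p' i) with hc
  have cpos : ∀ i < n, 0 < c i := by
    intro i hi
    have h1 := hmin i (Finset.mem_range.2 hi)
    have h2 := len i hi
    have h3 : ε * (p' (i + 1) - p' i) ≤ ε * (2 * Real.pi) :=
      mul_le_mul_of_nonneg_left (by linarith) hε.le
    simp only [hc]
    linarith
  have csum : ∀ k, ∑ i ∈ Finset.range k, c i = (p k - p 0) - ε * (p' k - p' 0) := by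
    intro k
    simp only [hc]
    rw [Finset.sum_sub_distrib, ← Finset.mul_sum, Finset.sum_range_sub, Finset.sum_range_sub]
  refine ⟨fun x => p 0 + ε * (x - p' 0) + ∑ i ∈ Finset.range n, c i * stp (p' i) (p' (i + 1)) x,
    ?_, ?_, ?_, ?_⟩
  · refine (contDiff_const.add (contDiff_const.mul (contDiff_id.sub contDiff_const))).add ?_
    exact ContDiff.sum fun i _ => contDiff_const.mul (contDiff_stp _ _)
  · intro x
    have h1 : ∑ i ∈ Finset.range n, c i * stp (p' i) (p' (i + 1)) (x + 2 * Real.pi) =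
        ∑ i ∈ Finset.range n, c i * stp (p' i) (p' (i + 1)) x + ∑ i ∈ Finset.range n, c i := by
      rw [← Finset.sum_add_distrib]
      refine Finset.sum_congr rfl fun i hi => ?_
      rw [stp_per (h' i (Finset.mem_range.1 hi)) (len i (Finset.mem_range.1 hi))]
      ring
    simp only
    rw [h1, csum, e, e']
    ring
  · intro x
    have hd : ∀ i ∈ Finset.range n, HasDerivAt (fun x => c i * stp (p' i) (p' (i + 1)) x)
        (c i * deriv (stp (p' i) (p' (i + 1))) x) x := fun i _ =>
      (((contDiff_stp (p' i) (p' (i + 1))).differentiable (by norm_num)) x).hasDerivAt.const_mul _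
    have h1 : HasDerivAt (fun x => p 0 + ε * (x - p' 0) +
        ∑ i ∈ Finset.range n, c i * stp (p' i) (p' (i + 1)) x)
        (ε * 1 + ∑ i ∈ Finset.range n, c i * deriv (stp (p' i) (p' (i + 1))) x) x := by
      have h2 : HasDerivAt (fun x : ℝ => p 0 + ε * (x - p' 0)) (ε * 1) x :=
        (((hasDerivAt_id x).sub_const _).const_mul _).const_add _
      exact h2.add (HasDerivAt.fun_sum hd)
    rw [h1.deriv]
    have h3 : 0 ≤ ∑ i ∈ Finset.range n, c i * deriv (stp (p' i) (p' (i + 1))) x := by
      refine Finset.sum_nonneg fun i hi => mul_nonneg (cpos i (Finset.mem_range.1 hi)).le ?_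
      exact (stp_mono (h' i (Finset.mem_range.1 hi)) (len i (Finset.mem_range.1 hi))).deriv_nonneg
    linarith
  · intro k hk
    have h1 : ∑ i ∈ Finset.range n, c i * stp (p' i) (p' (i + 1)) (p' k) =
        ∑ i ∈ Finset.range k, c i := by
      rw [← Finset.sum_subset (Finset.range_subset_range.2 hk)
        (f := fun i => c i * stp (p' i) (p' (i + 1)) (p' k))]
      · refine Finset.sum_congr rfl fun i hi => ?_
        have hi' := Finset.mem_range.1 hi
        rw [stp_one (h' i (by omega)) (len i (by omega)) (mono (i + 1) k (by omega) hk), mul_one]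
        have h2 := mono k n hk le_rfl
        have h3 := mono 0 i (by omega) (by omega)
        linarith
      · intro i hi hi2
        have hi' := Finset.mem_range.1 hi
        have hki : k ≤ i := by
          by_contra hcon
          exact hi2 (Finset.mem_range.2 (by omega))
        rw [stp_zero (h' i hi') (len i hi') ?_ (mono k i hki hi'.le), mul_zero]
        have h2 := mono (i + 1) n (by omega) le_rfl
        have h3 := mono 0 k (by omega) hk
        linarith
    simp only
    rw [h1, csum]
    ring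

/-- interleaving of two sequences -/
def itl (a b : ℕ → ℝ) (k : ℕ) : ℝ := if k % 2 = 0 then a (k / 2) else b (k / 2)

theorem itl_even (a b : ℕ → ℝ) (i : ℕ) : itl a b (2 * i) = a i := by
  unfold itl
  rw [if_pos (by omega), Nat.mul_div_cancel_left i (by norm_num)]

theorem itl_odd (a b : ℕ → ℝ) (i : ℕ) : itl a b (2 * i + 1) = b i := by
  unfold itl
  rw [if_neg (by omega)]
  congr 1
  omega

theorem itl_zero (a b : ℕ → ℝ) : itl a b 0 = a 0 := itl_even a b 0

theorem itl_lt {M : ℕ} {a b : ℕ → ℝ} (h : Arcs M a b) : ∀ k < 2 * (M + 1),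
    itl a b k < itl a b (k + 1) := by
  intro k hk
  rcases Nat.even_or_odd' k with ⟨i, rfl | rfl⟩
  · rw [itl_even, itl_odd]
    exact h.ab i (by omega)
  · rw [itl_odd, show 2 * i + 1 + 1 = 2 * (i + 1) by ring, itl_even]
    exact h.ba i (by omega)

/-- **GLN-DIFF** -/
theorem diffP : DiffP := by
  intro M a b a' b' h h'
  obtain ⟨f, hf, hper, hpos, hval⟩ := exists_diffeo (n := 2 * (M + 1)) (by omega)
    (p' := itl a' b') (p := itl a b) (itl_lt h') (itl_lt h)
    (by rw [itl_even, h'.last, itl_zero]) (by rw [itl_even, h.last, itl_zero])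
  refine ⟨f, hf, hper, hpos, fun i hi => ⟨?_, fun hi2 => ?_⟩⟩
  · have h1 := hval (2 * i) (by omega)
    rwa [itl_even, itl_even] at h1
  · have h1 := hval (2 * i + 1) (by omega)
    rwa [itl_odd, itl_odd] at h1

end Crest.Agent.R267.GlnDiff_684
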