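import Mathlib
import Crest.Agent.R267.GlNDefs_9
import Crest.Agent.R267.GlStar_52
import Crest.Agent.R267.CalcN_88

/-!
# Row 267: GLN-STAR (helper52)

`star`: `AlignP D`, `SegP D` and `LiftP` give `StarP D` (`GlNDefs_9`): every admissible polar
function is equivalent to the special one (degree `8`, phases of `plN`, constants `4`, windows
`wz`), which is `FSN D K ga 4` after the planar radial homeomorphisms `kk` of `GlStar_52`.
-/

set_option autoImplicit false
set_option linter.unusedSectionVars false

noncomputable section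

open Set Filter Topology Finset
open Crest.Agent.R267.T3aDefs_957 (st Af Bf pg NN chi)
open Crest.Agent.R267.T3aNDefs_88 Crest.Agent.R267.Hm_951 Crest.Agent.R267.Ang_739
open Crest.Agent.R267.Cone_808 Crest.Agent.R267.GlNDefs_9
open Crest.Agent.R267.GlStar_52 (kk norm_kk arg_kk kk_smul Bf_pos polar)

namespace Crest.Agent.R267.GlnStar_52

theorem plN_smul {ga : ℝ} {e : ℕ → ℝ} {M : ℕ} {r : ℝ} (hr : 0 < r) (z : ℂ) :
    plN ga e M ((r : ℂ) * z) = (r : ℂ) * plN ga e M z := by
  unfold plN
  have h1 : ((r : ℂ) * z).re = r * z.re := by simp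
  have h2 : ((r : ℂ) * z).im = r * z.im := by simp
  rw [h1, h2, mul_div_mul_left _ _ hr.ne']
  have h3 : 0 < r * z.re ↔ 0 < z.re := by
    constructor
    · intro h; exact (pos_iff_pos_of_mul_pos h).1 hr
    · intro h; exact mul_pos hr h
  simp only [h3]
  split_ifs <;> push_cast <;> ring

theorem plN_ne {ga : ℝ} {e : ℕ → ℝ} {M : ℕ} (h0 : 0 < ga) (h1 : ga ≤ 1 / 8)
    (he : ∀ l < M, e l ≠ 0) {z : ℂ} (hz : z ≠ 0) : plN ga e M z ≠ 0 := by
  intro h
  rcases le_or_gt z.re 0 with hr | hr
  · rw [CalcN_88.plN_of_nonpos hr] at h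
    have e1 := congrArg Complex.re h
    have e2 := congrArg Complex.im h
    simp at e1 e2
    apply hz
    refine Complex.ext ?_ e2
    rcases e1 with e1 | e1
    · linarith
    · exact e1
  · rw [CalcN_88.plN_of_pos hr] at h
    have h2 : pvN ga e M (z.im / z.re) = 0 := by
      refine (mul_eq_zero.1 h).resolve_left ?_
      exact_mod_cast hr.ne'
    set τ := z.im / z.re
    by_cases hlow : τ ≤ 1
    · rw [CalcN_88.pvN_low hlow] at h2
      have e1 := congrArg Complex.re h2
      simp at e1
      linarith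
    push Not at hlow
    by_cases hhigh : 16 * (M : ℝ) - 1 ≤ τ
    · rw [CalcN_88.pvN_high hhigh] at h2
      have e1 := congrArg Complex.re h2
      simp at e1
      linarith
    push Not at hhigh
    -- the cell
    obtain ⟨l, hl, h3⟩ : ∃ l < M, |τ - sgN l| ≤ 8 := by
      refine ⟨⌊τ / 16⌋₊, ?_, ?_⟩
      · rw [Nat.floor_lt (by linarith [div_pos (show 0 < τ by linarith) (show (0 : ℝ) < 16 by norm_num)])]
        linarith
      · have a1 := Nat.floor_le (show 0 ≤ τ / 16 by linarith)
        have a2 := Nat.lt_floor_add_one (τ / 16)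
        unfold sgN
        rw [abs_le]
        constructor <;> linarith
    rw [CalcN_88.pvN_cell hl h3] at h2
    have e1 := congrArg Complex.re h2
    have e2 := congrArg Complex.im h2
    simp only [Complex.add_re, Complex.ofReal_re, Complex.I_re, mul_zero,
      Complex.mul_re, zero_mul, Complex.ofReal_im, Complex.I_im, sub_self, add_zero,
      Complex.zero_re] at e1
    simp only [Complex.add_im, Complex.ofReal_im, Complex.mul_im, Complex.I_re, Complex.I_im,
      Complex.ofReal_re, one_mul, zero_add, mul_zero, Complex.zero_im] at e2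
    set v := τ - sgN l
    by_cases h6 : |v| < 3
    · rw [(CalcN_88.yc_in (e := e l) (by linarith : |v| ≤ 6)).1] at e2
      have e3 : Bf v = 0 := (mul_eq_zero.1 e2).resolve_left (he l hl)
      rw [abs_lt] at h6
      rcases lt_trichotomy v 0 with h4 | h4 | h4
      · have h7 := Bf_pos (v := -v) (by linarith) (by linarith)
        rw [Calc_957.Bf_neg] at h7
        linarith
      · rw [h4, Calc_957.Af_of_le (by norm_num)] at e1
        linarith
      · have h7 := Bf_pos (v := v) h4 (by linarith)
        linarith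
    · push Not at h6
      have h7 := Calc_957.Af_of_ge h6
      linarith

/-! ### windows -/

theorem wz_smul (m m' : ℕ) {r : ℝ} (hr : 0 < r) (z : ℂ) :
    wz m m' ((r : ℂ) * z) = wz m m' z := by
  unfold wz
  have h1 : ((r : ℂ) * z).re = r * z.re := by simp
  have h2 : ((r : ℂ) * z).im = r * z.im := by simp
  rw [h1, h2, mul_div_mul_left _ _ hr.ne']
  have h3 : 0 < r * z.re ↔ 0 < z.re := by
    constructor
    · intro h; exact (pos_iff_pos_of_mul_pos h).1 hr
    · intro h; exact mul_pos hr h
  simp only [h3]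

theorem wz_arg (m m' : ℕ) {z : ℂ} (hz : z ≠ 0) : wz m m' (cis (Complex.arg z)) = wz m m' z := by
  conv_rhs => rw [polar z]
  exact (wz_smul m m' (norm_pos_iff.2 hz) _).symm

/-! ### the planar term -/

theorem PSN_eq {ga K : ℝ} {e : ℕ → ℝ} {M : ℕ} {φ : ℝ → ℝ}
    (hφ : ∀ x, plN ga e M (cis x) = (‖plN ga e M (cis x)‖ : ℂ) * cis (φ x)) (h0 : 0 < ga)
    (h1 : ga ≤ 1 / 8) (he : ∀ l < M, e l ≠ 0) (z : ℂ) :
    PSN K ga e M z = pc 8 1 φ (kk K z) := by
  unfold PSN pc pol
  rw [norm_kk, arg_kk]
  simp only [Complex.ofReal_one, one_mul]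
  by_cases hz : z = 0
  · subst hz
    rw [GlBas_322.pg_zero]
    simp
  · have hzn : 0 < ‖z‖ := norm_pos_iff.2 hz
    have hne := plN_ne (M := M) h0 h1 he hz
    have hp : plN ga e M z = (‖plN ga e M z‖ : ℂ) * cis (φ (Complex.arg z)) := by
      have e1 : plN ga e M z = (‖z‖ : ℂ) * plN ga e M (cis (Complex.arg z)) := by
        conv_lhs => rw [polar z]
        exact plN_smul hzn _
      have e2 : ‖plN ga e M z‖ = ‖z‖ * ‖plN ga e M (cis (Complex.arg z))‖ := by
        rw [e1, norm_mul, Complex.norm_real, norm_norm]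
      rw [e2, e1]
      conv_lhs => rw [hφ]
      push_cast
      ring
    have hn : 0 < ‖plN ga e M z‖ := norm_pos_iff.2 hne
    conv_lhs => rw [hp]
    rw [Complex.real_smul]
    have e3 : (‖plN ga e M z‖ : ℂ) ≠ 0 := by exact_mod_cast hn.ne'
    have e4 : (pg K z ^ (8 : ℝ) : ℝ) = pg K z ^ 8 := by
      exact_mod_cast Real.rpow_natCast (pg K z) 8
    rw [e4]
    rw [norm_mul, norm_cis, mul_one, Complex.norm_real, norm_norm]
    push_cast
    field_simp

/-! ### assembly -/

variable {N : ℕ} (D : SD N)

theorem sn_ne (j : Fin N) (l : ℕ) : D.sn j l ≠ 0 := by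
  unfold SD.sn
  split_ifs <;> norm_num

theorem sn_cases (j : Fin N) (l : ℕ) : D.sn j l = 1 ∨ D.sn j l = -1 := by
  unfold SD.sn
  split_ifs
  · exact Or.inr rfl
  · exact Or.inl rfl

theorem cd_pos (e : Fin D.nb) : 0 < cd D e := by
  unfold cd
  have := D.h2 e
  exact_mod_cast (by omega : 0 < (D.bx e).S.card)

/-- **GLN-STAR.** -/
theorem star (hA : AlignP D) (hS : SegP D)
    (hL : ∀ (ga : ℝ) (e : ℕ → ℝ) (M : ℕ), 0 < ga → ga ≤ 1 / 8 → (∀ l, e l = 1 ∨ e l = -1) →
      1 ≤ M → LiftP ga e M) : StarP D := by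
  intro K ga hK h0 h1 X hX
  choose φ a b har hw hpl hwin using fun j : Fin N =>
    hL ga (D.sn j) (D.M j) h0 h1 (sn_cases D j) (D.hM j)
  have h68 : ∀ e, 2 * cd D e < 8 := fun e => by linarith [hK.cd3 e]
  -- alignment
  obtain ⟨X', hX', hdg, ha, hb, hz⟩ := hA X hX (fun _ => 8) a b (fun _ => by norm_num)
    (fun e _ _ => h68 e) har
  let Y : PD D :=
    { dg := fun _ => 8
      ph := φ
      a := a
      b := b
      c := fun _ => 4
      lam := fun e j x => wz ((D.bx e).lo j) ((D.bx e).hi j) (cis x) }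
  have hY : Y.Ok :=
    { hdg := fun _ => by change (2 : ℝ) < 8; norm_num
      hdg2 := fun e _ _ => h68 e
      arcs := har
      ph := hw
      hc := fun e => by change cd D e < 4; linarith [hK.cd3 e]
      lam := fun e j hj => hwin j _ _ (D.hhi e j hj) }
  refine hz.trans ((hS X' Y hX' hY hdg ha hb).trans (ZEq.symm ?_))
  -- the radial homeomorphism
  let w : Fin N → ℝ := fun _ => 1 / 8
  have hw0 : ∀ i, 0 < w i := fun i => by change (0 : ℝ) < 1 / 8; norm_num
  have hrp : ∀ s : ℝ, (Real.exp (s * (1 / 8)) : ℝ) ^ (8 : ℝ) = Real.exp s := by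
    intro s
    rw [← Real.exp_mul]
    congr 1
    ring
  refine zeq_of_equiv (w := w) (w' := w) hw0 hw0 ?_ (Homeomorph.piCongrRight fun _ => kk K) ?_ ?_
  · intro s z hz0
    have hz : ∀ i, act w s z i = ((Real.exp (s * (1 / 8)) : ℝ) : ℂ) * z i := fun i => rfl
    have key : Y.fn (act w s z) = Real.exp s • Y.fn z := by
      unfold PD.fn
      simp only [hz]
      rw [Complex.real_smul, mul_sub, Finset.mul_sum, ← Complex.ofReal_mul, Finset.mul_sum]
      congr 1
      · refine Finset.sum_congr rfl fun j _ => ?_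
        change pc 8 1 (φ j) _ = _ * pc 8 1 (φ j) _
        rw [pc_hom _ _ _ _ (Real.exp_pos _), hrp, Complex.real_smul]
      · congr 1
        refine Finset.sum_congr rfl fun e _ => ?_
        have hcd := cd_pos D e
        have h5 : ∀ j ∈ (D.bx e).S, pol (Y.dg j / cd D e) (Y.lam e j)
            (((Real.exp (s * (1 / 8)) : ℝ) : ℂ) * z j) =
            Real.exp (s / cd D e) * pol (Y.dg j / cd D e) (Y.lam e j) (z j) := by
          intro j _
          rw [pol_hom _ _ _ (Real.exp_pos _), smul_eq_mul]
          congr 1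
          rw [← Real.exp_mul]
          congr 1
          change s * (1 / 8) * (8 / cd D e) = _
          field_simp
        rw [Finset.prod_congr rfl h5, Finset.prod_mul_distrib, Finset.prod_const,
          ← Real.exp_nat_mul]
        have h6 : (((D.bx e).S.card : ℕ) : ℝ) * (s / cd D e) = s := by
          change cd D e * (s / cd D e) = s
          field_simp
        rw [h6]
        ring
    rw [key, hz0, smul_zero]
  · intro s z
    funext i
    change kk K (((Real.exp (s * w i) : ℝ) : ℂ) * z i) = ((Real.exp (s * w i) : ℝ) : ℂ) * kk K (z i)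
    exact kk_smul K (Real.exp_pos _) _
  · intro z
    have h4 : ∀ i, (Homeomorph.piCongrRight fun _ : Fin N => kk K) z i = kk K (z i) :=
      fun i => rfl
    have key : FSN D K ga 4 z = Y.fn ((Homeomorph.piCongrRight fun _ : Fin N => kk K) z) := by
      unfold PD.fn FSN
      simp only [h4]
      congr 1
      · exact Finset.sum_congr rfl fun j _ =>
          PSN_eq (hpl j) h0 h1 (fun l _ => sn_ne D j l) (z j)
      · congr 1
        rw [Finset.mul_sum]
        refine Finset.sum_congr rfl fun e _ => ?_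
        change (4 : ℝ) * _ = 4 * _
        congr 1
        refine Finset.prod_congr rfl fun j _ => ?_
        unfold pol
        rw [norm_kk, arg_kk, smul_eq_mul]
        change pg K (z j) ^ (8 / cd D e) * wz ((D.bx e).lo j) ((D.bx e).hi j) (z j) =
          pg K (z j) ^ (8 / cd D e) *
            wz ((D.bx e).lo j) ((D.bx e).hi j) (cis (Complex.arg (z j)))
        by_cases hzj : z j = 0
        · rw [hzj, GlBas_322.pg_zero, Real.zero_rpow (by
            have := cd_pos D e
            positivity), zero_mul, zero_mul]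
        · rw [wz_arg _ _ hzj]
    rw [key]

end Crest.Agent.R267.GlnStar_52
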