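import Crest.Agent.R267.GlnBas_9
import Crest.Agent.R267.GlnAlign_684
import Crest.Agent.R267.GlnLift_9
import Crest.Agent.R267.GlnStar_52
import Crest.Agent.R267.GlnLine_984
import Crest.Agent.R267.GlnHomeo_125
import Crest.Agent.R267.GlnC2_796
import Crest.Agent.R267.GlnCont_291
import Crest.Agent.R267.GlOpen_128
import Crest.Agent.R267.K1N_957
import Crest.Agent.R267.K2N_957

/-!
# Row 267 (helper684): GLUE-N, `GluP D` for every `D : SD N` with `3 ≤ N`
-/

set_option autoImplicit false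

noncomputable section

open Crest.Agent.R267.T3aNDefs_88 Crest.Agent.R267.GlNDefs_9

namespace Crest.Agent.R267.GlnFin_684

variable {N : ℕ}

theorem starP (D : SD N) : StarP D :=
  GlnStar_52.star D (GlnAlign_684.alignP D) (SegN_951.segP D)
    fun _ _ _ h0 h8 he _ => GlnLift_9.liftP h0 h8 he

theorem gl2P (D : SD N) (hN : 3 ≤ N) : GL2P D :=
  GlnBas_9.gl2 D (SmoothN_957.smoothN D) (K1N_957.k1N D) (K2N_957.k2N D hN)
    (GlnHomeo_125.homeoN D) (GlnC2_796.c2P (D := D)) (GlnCont_291.contP D) GlOpen_128.openP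

/-- **GLUE-N** -/
theorem gluP (D : SD N) (hN : 3 ≤ N) : GluP D :=
  GlnBas_9.glu D (starP D) (GlnLine_984.lineP D) (gl2P D hN)

end Crest.Agent.R267.GlnFin_684
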