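import Crest.Agent.R267.StairFn_739

/-!
# Row 267 (helper739): staircase phases from integer grid functions (any number of variables)

`N : (ι → ℤ) → ℤ` monotone with `N (k + 1) ≤ N k + 1` (`1` = all ones).
`K0 N x = ∫ τ in 0..1, N ⌊x + τ⌋` is its Kuhn interpolation (unit: turns), `Ph0 N` the exact phase
(unit: radians, lobe `m` of a variable is `[2πm - π, 2πm + π]`), `MolE hd (Ph0 N)` the smooth phase.
-/

set_option autoImplicit false

noncomputable section

open Set Filter Topology MeasureTheory intervalIntegral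
open scoped ContDiff Convolution

namespace Crest.Agent.R267.GridPh_739

open Crest.Agent.R267.Ang_739 Crest.Agent.R267.StairFn_739

variable {ι : Type*} [Fintype ι] [DecidableEq ι]

/-- grid functions -/
structure Grid (N : (ι → ℤ) → ℤ) : Prop where
  mono : Monotone N
  step : ∀ k, N (k + 1) ≤ N k + 1

/-- the value at the time `τ` -/
def Fv (N : (ι → ℤ) → ℤ) (x : ι → ℝ) (τ : ℝ) : ℝ := N fun i => ⌊x i + τ⌋

/-- Kuhn interpolation -/
def K0 (N : (ι → ℤ) → ℤ) (x : ι → ℝ) : ℝ := ∫ τ in (0 : ℝ)..1, Fv N x τ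

variable {N : (ι → ℤ) → ℤ}

omit [Fintype ι] [DecidableEq ι] in
theorem Fv_mono (h : Grid N) {x y : ι → ℝ} {s t : ℝ} (hxy : x ≤ y) (hst : s ≤ t) :
    Fv N x s ≤ Fv N y t := by
  have : N (fun i => ⌊x i + s⌋) ≤ N (fun i => ⌊y i + t⌋) :=
    h.mono fun i => Int.floor_mono (add_le_add (hxy i) hst)
  simp only [Fv]
  exact_mod_cast this

omit [Fintype ι] [DecidableEq ι] in
theorem Fv_int (h : Grid N) (x : ι → ℝ) (a b : ℝ) : IntervalIntegrable (Fv N x) volume a b :=
  (show Monotone (Fv N x) from fun _ _ hst => Fv_mono h le_rfl hst).intervalIntegrable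

omit [Fintype ι] [DecidableEq ι] in
theorem Fv_step (h : Grid N) (x : ι → ℝ) (τ : ℝ) : Fv N x (τ + 1) ≤ Fv N x τ + 1 := by
  have e : (fun i => ⌊x i + (τ + 1)⌋) = (fun i => ⌊x i + τ⌋) + 1 := by
    ext i
    simp only [Pi.add_apply, Pi.one_apply]
    rw [← add_assoc, Int.floor_add_one]
  have := h.step (fun i => ⌊x i + τ⌋)
  rw [← e] at this
  simp only [Fv]
  exact_mod_cast this

omit [Fintype ι] [DecidableEq ι] in
theorem K0_mono (h : Grid N) : Monotone (K0 N) := fun x y hxy => by
  refine integral_mono_on zero_le_one (Fv_int h x 0 1) (Fv_int h y 0 1) fun τ _ => ?_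
  exact Fv_mono h hxy le_rfl

omit [Fintype ι] [DecidableEq ι] in
theorem K0_shift_eq (h : Grid N) (x : ι → ℝ) (s : ℝ) :
    K0 N (x + fun _ => s) - K0 N x = ∫ τ in (0 : ℝ)..s, (Fv N x (τ + 1) - Fv N x τ) := by
  have e1 : K0 N (x + fun _ => s) = ∫ τ in s..(s + 1), Fv N x τ := by
    have : (fun τ => Fv N (x + fun _ => s) τ) = fun τ => Fv N x (s + τ) := by
      ext τ
      simp only [Fv, Pi.add_apply, add_assoc]
    rw [K0, show (∫ τ in (0 : ℝ)..1, Fv N (x + fun _ => s) τ) = ∫ τ in (0 : ℝ)..1, Fv N x (s + τ)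
      from by rw [this], integral_comp_add_left (fun τ => Fv N x τ) s, add_zero]
  have e2 : ∫ τ in (0 : ℝ)..s, Fv N x (τ + 1) = ∫ τ in (1 : ℝ)..(s + 1), Fv N x τ := by
    rw [integral_comp_add_right (fun τ => Fv N x τ) 1, zero_add]
  have hi : IntervalIntegrable (fun τ => Fv N x (τ + 1)) volume 0 s :=
    (show Monotone (fun τ => Fv N x (τ + 1)) from fun _ _ hst =>
      Fv_mono h le_rfl (by linarith)).intervalIntegrable
  rw [integral_sub hi (Fv_int h x 0 s), e1, e2, K0]
  have a1 := integral_add_adjacent_intervals (Fv_int h x 0 s) (Fv_int h x s 1)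
  have a2 := integral_add_adjacent_intervals (Fv_int h x s 1) (Fv_int h x 1 (s + 1))
  linarith

omit [Fintype ι] [DecidableEq ι] in
theorem K0_shift (h : Grid N) (x : ι → ℝ) {s : ℝ} (hs : 0 ≤ s) :
    K0 N (x + fun _ => s) ≤ K0 N x + s := by
  have h1 := K0_shift_eq h x s
  have hi : IntervalIntegrable (fun τ => Fv N x (τ + 1)) volume 0 s :=
    (show Monotone (fun τ => Fv N x (τ + 1)) from fun _ _ hst =>
      Fv_mono h le_rfl (by linarith)).intervalIntegrable
  have h2 : ∫ τ in (0 : ℝ)..s, (Fv N x (τ + 1) - Fv N x τ) ≤ ∫ τ in (0 : ℝ)..s, (1 : ℝ) :=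
    integral_mono_on hs (hi.sub (Fv_int h x 0 s)) intervalIntegrable_const fun τ _ => by
      have := Fv_step h x τ
      linarith
  rw [intervalIntegral.integral_const, smul_eq_mul, mul_one, sub_zero] at h2
  linarith

omit [DecidableEq ι] in
/-- `1`-Lipschitz for the sup norm -/
theorem K0_lip (h : Grid N) (x y : ι → ℝ) : |K0 N x - K0 N y| ≤ ‖x - y‖ := by
  have key : ∀ x y : ι → ℝ, K0 N x - K0 N y ≤ ‖x - y‖ := by
    intro x y
    have h1 : x ≤ y + fun _ => ‖x - y‖ := fun i => by
      have : |x i - y i| ≤ ‖x - y‖ := by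
        have := norm_le_pi_norm (x - y) i
        rwa [Pi.sub_apply, Real.norm_eq_abs] at this
      have := (abs_le.1 this).2
      simp only [Pi.add_apply]
      linarith
    have h2 := K0_mono h h1
    have h3 := K0_shift h y (norm_nonneg (x - y))
    linarith
  rw [abs_le]
  constructor
  · have := key y x
    rw [norm_sub_rev] at this
    linarith
  · exact key x y

omit [DecidableEq ι] in
theorem K0_continuous (h : Grid N) : Continuous (K0 N) := by
  have : LipschitzWith 1 (K0 N) := LipschitzWith.of_dist_le_mul fun x y => by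
    rw [Real.dist_eq, dist_eq_norm]
    simpa using K0_lip h x y
  exact this.continuous

omit [DecidableEq ι] in
/-- **pointwise type**: the value is an integer or one of the variables modulo one -/
theorem K0_type (h : Grid N) (x : ι → ℝ) :
    (∃ k : ℤ, K0 N x = k) ∨ ∃ i, ∃ k : ℤ, K0 N x = x i + k := by
  set k0 : ι → ℤ := fun i => ⌊x i + 0⌋ with hk0
  have hF0 : Fv N x 0 = N k0 := rfl
  have hlow : ∀ τ, 0 ≤ τ → (N k0 : ℝ) ≤ Fv N x τ := fun τ hτ => by
    rw [← hF0]; exact Fv_mono h le_rfl hτ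
  have hup : ∀ τ, τ ≤ 1 → Fv N x τ ≤ N k0 + 1 := fun τ hτ => by
    have h1 := Fv_mono h (le_refl x) hτ
    have h2 := Fv_step h x 0
    rw [zero_add, hF0] at h2
    linarith
  have hval : ∀ τ, 0 ≤ τ → τ ≤ 1 → Fv N x τ = N k0 ∨ Fv N x τ = N k0 + 1 := by
    intro τ h0 h1
    have a1 := hlow τ h0
    have a2 := hup τ h1
    simp only [Fv] at a1 a2 ⊢
    have b1 : N k0 ≤ N fun i => ⌊x i + τ⌋ := by exact_mod_cast a1
    have b2 : (N fun i => ⌊x i + τ⌋) ≤ N k0 + 1 := by exact_mod_cast a2
    rcases b1.eq_or_lt with b3 | b3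
    · left; exact_mod_cast b3.symm
    · right
      have : (N fun i => ⌊x i + τ⌋) = N k0 + 1 := le_antisymm b2 b3
      exact_mod_cast this
  by_cases hT : Fv N x 1 = N k0
  · left
    refine ⟨N k0, ?_⟩
    have : ∫ τ in (0 : ℝ)..1, Fv N x τ = ∫ τ in (0 : ℝ)..1, (N k0 : ℝ) := by
      refine integral_congr fun τ hτ => ?_
      rw [uIcc_of_le zero_le_one] at hτ
      have a1 := hlow τ hτ.1
      have a2 := Fv_mono h (le_refl x) hτ.2
      rw [hT] at a2
      exact le_antisymm a2 a1
    rw [K0, this, intervalIntegral.integral_const]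
    simp
  have hT1 : Fv N x 1 = N k0 + 1 := (hval 1 zero_le_one le_rfl).resolve_left hT
  set T : Set ℝ := {τ | τ ∈ Icc (0 : ℝ) 1 ∧ Fv N x τ = N k0 + 1} with hTdef
  have hTne : T.Nonempty := ⟨1, ⟨zero_le_one, le_rfl⟩, hT1⟩
  have hTbd : BddBelow T := ⟨0, fun τ hτ => hτ.1.1⟩
  set c := sInf T with hc
  have hc0 : 0 ≤ c := le_csInf hTne fun τ hτ => hτ.1.1
  have hc1 : c ≤ 1 := csInf_le hTbd ⟨⟨zero_le_one, le_rfl⟩, hT1⟩
  have hleft : ∀ τ, 0 ≤ τ → τ < c → Fv N x τ = N k0 := by
    intro τ h0 h1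
    refine (hval τ h0 (by linarith)).resolve_right fun h2 => ?_
    exact absurd (csInf_le hTbd (show τ ∈ T from ⟨⟨h0, by linarith⟩, h2⟩)) (not_le.2 h1)
  have hright : ∀ τ, c < τ → τ ≤ 1 → Fv N x τ = N k0 + 1 := by
    intro τ h0 h1
    obtain ⟨σ, hσ, hσ'⟩ := exists_lt_of_csInf_lt hTne h0
    refine (hval τ (by linarith) h1).resolve_left fun h2 => ?_
    have := Fv_mono h (le_refl x) hσ'.le
    rw [hσ.2, h2] at this
    linarith
  have hK : K0 N x = N k0 + 1 - c := by
    have i1 : ∫ τ in (0 : ℝ)..c, Fv N x τ = ∫ τ in (0 : ℝ)..c, (N k0 : ℝ) := by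
      refine integral_congr_ae ?_
      have hne : ∀ᵐ τ : ℝ, τ ≠ c := by
        rw [ae_iff]
        simp
      filter_upwards [hne] with τ hτ h1
      rw [uIoc_of_le hc0] at h1
      exact hleft τ h1.1.le (lt_of_le_of_ne h1.2 hτ)
    have i2 : ∫ τ in c..1, Fv N x τ = ∫ τ in c..1, ((N k0 : ℝ) + 1) := by
      refine integral_congr_ae ?_
      refine Eventually.of_forall fun τ h1 => ?_
      rw [uIoc_of_le hc1] at h1
      exact hright τ h1.1 h1.2
    rw [K0, ← integral_add_adjacent_intervals (Fv_int h x 0 c) (Fv_int h x c 1), i1, i2,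
      intervalIntegral.integral_const, intervalIntegral.integral_const, smul_eq_mul, smul_eq_mul]
    ring
  rcases hc0.eq_or_lt with h0 | h0
  · left
    refine ⟨N k0 + 1, ?_⟩
    rw [hK, ← h0]; push_cast; ring
  rcases hc1.eq_or_lt with h1 | h1
  · left
    refine ⟨N k0, ?_⟩
    rw [hK, h1]; ring
  right
  by_contra hcon
  push Not at hcon
  -- all floors are locally constant at `c`
  have hloc : ∀ i, ∀ᶠ τ in 𝓝 c, ⌊x i + τ⌋ = ⌊x i + c⌋ := by
    intro i
    have hne : (⌊x i + c⌋ : ℝ) < x i + c := by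
      refine lt_of_le_of_ne (Int.floor_le _) fun he => ?_
      refine hcon i (N k0 + 1 - ⌊x i + c⌋) ?_
      rw [hK]; push_cast; rw [he]; ring
    have h2 : ∀ᶠ τ in 𝓝 c, (⌊x i + c⌋ : ℝ) < x i + τ :=
      (continuous_const.add continuous_id).continuousAt.eventually_const_lt hne
    have h3 : ∀ᶠ τ in 𝓝 c, x i + τ < (⌊x i + c⌋ : ℝ) + 1 :=
      (continuous_const.add continuous_id).continuousAt.eventually_lt_const
        (Int.lt_floor_add_one _)
    filter_upwards [h2, h3] with τ h4 h5
    rw [Int.floor_eq_iff]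
    exact ⟨h4.le, h5⟩
  have hall : ∀ᶠ τ in 𝓝 c, Fv N x τ = Fv N x c := by
    filter_upwards [eventually_all.2 hloc] with τ hτ
    simp only [Fv]
    congr 2
    ext i
    exact hτ i
  obtain ⟨a, b, hab, hsub⟩ := mem_nhds_iff_exists_Ioo_subset.1 hall
  have hl : Fv N x (max ((a + c) / 2) (c / 2)) = Fv N x c := hsub
    ⟨lt_of_lt_of_le (by linarith [hab.1]) (le_max_left _ _),
      lt_of_le_of_lt (max_le (by linarith [hab.1]) (by linarith)) hab.2⟩
  have hr : Fv N x (min ((b + c) / 2) ((1 + c) / 2)) = Fv N x c := hsub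
    ⟨lt_of_lt_of_le hab.1 (le_min (by linarith [hab.2]) (by linarith)),
      lt_of_le_of_lt (min_le_left _ _) (by linarith [hab.2])⟩
  rw [hleft _ (le_max_of_le_right (by linarith))
    (max_lt (by linarith [hab.1]) (by linarith))] at hl
  rw [hright _ (lt_min (by linarith [hab.2]) (by linarith))
    ((min_le_right _ _).trans (by linarith))] at hr
  linarith

/-! ## exact phases -/

/-- exact coupling phases: monotone, `Φ (u + s 1) ≤ Φ u + s`, with the type facts -/
structure EPh (Φ : (ι → ℝ) → ℝ) : Prop where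
  mono : Monotone Φ
  lip : ∀ u s, 0 ≤ s → Φ (u + fun _ => s) ≤ Φ u + s
  one : ∀ u i s, 0 ≤ s → Φ u < Φ (u + Pi.single i s) →
    ∃ t ∈ Icc (0 : ℝ) s, cis (Φ (u + Pi.single i t)) = cis (u i + t)
  flat : ∀ u s, 0 ≤ s → Φ (u + fun _ => s) < Φ u + s →
    ∃ t ∈ Icc (0 : ℝ) s, cis (Φ (u + fun _ => t)) = -1

/-- the exact phase of a grid function -/
def Ph0 (N : (ι → ℤ) → ℤ) (u : ι → ℝ) : ℝ :=
  -Real.pi + 2 * Real.pi * K0 N fun i => (u i + Real.pi) / (2 * Real.pi)

omit [DecidableEq ι] in
theorem Ph0_type (h : Grid N) (u : ι → ℝ) :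
    (∃ k : ℤ, Ph0 N u = -Real.pi + 2 * Real.pi * k) ∨
      ∃ i, ∃ k : ℤ, Ph0 N u = u i + 2 * Real.pi * k := by
  have hpi := Real.pi_pos
  rcases K0_type h fun i => (u i + Real.pi) / (2 * Real.pi) with ⟨k, hk⟩ | ⟨i, k, hk⟩
  · exact Or.inl ⟨k, by rw [Ph0, hk]⟩
  · refine Or.inr ⟨i, k, ?_⟩
    rw [Ph0, hk]
    field_simp
    ring

theorem countable_dense (D : Set ℝ) (hD : D.Countable) {a b : ℝ} (hab : a < b) :
    ∃ c, c ∉ D ∧ a < c ∧ c < b := by
  obtain ⟨c, hc, h1, h2⟩ := (hD.dense_compl ℝ).exists_between hab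
  exact ⟨c, hc, h1, h2⟩

theorem Ph0_eph (h : Grid N) : EPh (Ph0 N) := by
  have hpi := Real.pi_pos
  have h2pi : (0 : ℝ) < 2 * Real.pi := by positivity
  have hmono : Monotone (Ph0 N) := fun x y hxy => by
    have : K0 N (fun i => (x i + Real.pi) / (2 * Real.pi)) ≤
        K0 N (fun i => (y i + Real.pi) / (2 * Real.pi)) :=
      K0_mono h fun i => div_le_div_of_nonneg_right (by linarith [hxy i]) h2pi.le
    simp only [Ph0]
    nlinarith
  have hcont : Continuous (Ph0 N) := by
    refine continuous_const.add (continuous_const.mul ((K0_continuous h).comp ?_))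
    exact continuous_pi fun i => ((continuous_apply i).add continuous_const).div_const _
  refine ⟨hmono, fun u s hs => ?_, fun u i s hs hlt => ?_, fun u s hs hlt => ?_⟩
  · have e : (fun i => ((u + fun _ => s : ι → ℝ) i + Real.pi) / (2 * Real.pi)) =
        (fun i => (u i + Real.pi) / (2 * Real.pi)) + fun _ => s / (2 * Real.pi) := by
      ext i
      simp only [Pi.add_apply]
      ring
    have := K0_shift h (fun i => (u i + Real.pi) / (2 * Real.pi)) (div_nonneg hs h2pi.le)
    rw [← e] at this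
    simp only [Ph0]
    have h3 := mul_le_mul_of_nonneg_left this h2pi.le
    have h4 : 2 * Real.pi * (s / (2 * Real.pi)) = s := by field_simp
    linarith
  · set D : Set ℝ := range (fun k : ℤ => -Real.pi + 2 * Real.pi * k) ∪
      ⋃ j : ι, range (fun k : ℤ => u j + 2 * Real.pi * k) with hD
    have hDc : D.Countable := (countable_range _).union (countable_iUnion fun j => countable_range _)
    obtain ⟨c, hc, h1, h2⟩ := countable_dense D hDc hlt
    have hcg : Continuous fun t : ℝ => Ph0 N (u + Pi.single i t) := by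
      refine hcont.comp (continuous_const.add ?_)
      exact (continuous_single (A := fun _ : ι => ℝ) i)
    have hivt := intermediate_value_Icc hs hcg.continuousOn
    obtain ⟨t, ht, htc⟩ := hivt ⟨by
      simp only [Pi.single_zero, add_zero]; exact h1.le, h2.le⟩
    refine ⟨t, ht, ?_⟩
    rcases Ph0_type h (u + Pi.single i t) with ⟨k, hk⟩ | ⟨j, k, hk⟩
    · exfalso
      refine hc (Or.inl ⟨k, ?_⟩)
      simp only
      rw [← hk]
      exact htc
    · by_cases hj : j = i
      · subst hj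
        rw [hk, cis_per]
        simp
      · exfalso
        refine hc (Or.inr (mem_iUnion.2 ⟨j, k, ?_⟩))
        simp only
        rw [Pi.add_apply, Pi.single_eq_of_ne hj, add_zero] at hk
        rw [← hk]
        exact htc
  · set D : Set ℝ := ⋃ j : ι, range (fun k : ℤ => u j + 2 * Real.pi * k) with hD
    have hDc : D.Countable := countable_iUnion fun j => countable_range _
    have hlt' : Ph0 N (u + fun _ => s) - s < Ph0 N u := by linarith
    obtain ⟨c, hc, h1, h2⟩ := countable_dense D hDc hlt'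
    have hcg : Continuous fun t : ℝ => Ph0 N (u + fun _ => t) - t := by
      refine (hcont.comp (continuous_const.add ?_)).sub continuous_id
      exact continuous_pi fun _ => continuous_id
    have hivt := intermediate_value_Icc' hs hcg.continuousOn
    obtain ⟨t, ht, htc⟩ := hivt ⟨h1.le, by
      have : (u + fun _ => (0 : ℝ)) = u := by ext i; simp
      simp only [this, sub_zero]; exact h2.le⟩
    refine ⟨t, ht, ?_⟩
    rcases Ph0_type h (u + fun _ => t) with ⟨k, hk⟩ | ⟨j, k, hk⟩
    · rw [hk, cis_per]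
      simp [cis]
    · exfalso
      refine hc (mem_iUnion.2 ⟨j, k, ?_⟩)
      simp only at htc ⊢
      rw [hk] at htc
      rw [← htc, Pi.add_apply]
      ring

omit [DecidableEq ι] in
theorem lip_of {Φ : (ι → ℝ) → ℝ} (hmono : Monotone Φ)
    (hlip : ∀ u s, 0 ≤ s → Φ (u + fun _ => s) ≤ Φ u + s) (x y : ι → ℝ) :
    |Φ x - Φ y| ≤ ‖x - y‖ := by
  have key : ∀ x y : ι → ℝ, Φ x - Φ y ≤ ‖x - y‖ := by
    intro x y
    have h1 : x ≤ y + fun _ => ‖x - y‖ := fun i => by
      have : |x i - y i| ≤ ‖x - y‖ := by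
        have := norm_le_pi_norm (x - y) i
        rwa [Pi.sub_apply, Real.norm_eq_abs] at this
      have := (abs_le.1 this).2
      simp only [Pi.add_apply]
      linarith
    have h2 := hmono h1
    have h3 := hlip y _ (norm_nonneg (x - y))
    linarith
  rw [abs_le]
  constructor
  · have := key y x
    rw [norm_sub_rev] at this
    linarith
  · exact key x y

theorem EPh.lips {Φ : (ι → ℝ) → ℝ} (h : EPh Φ) (x y : ι → ℝ) : |Φ x - Φ y| ≤ ‖x - y‖ :=
  lip_of h.mono h.lip x y

theorem EPh.continuous {Φ : (ι → ℝ) → ℝ} (h : EPh Φ) : Continuous Φ := by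
  have : LipschitzWith 1 Φ := LipschitzWith.of_dist_le_mul fun x y => by
    rw [Real.dist_eq, dist_eq_norm]
    simpa using h.lips x y
  exact this.continuous

/-! ## mollification in `ι → ℝ` -/

/-- the kernel -/
def kerE (ι : Type*) [Fintype ι] {d : ℝ} (hd : 0 < d) : ContDiffBump (0 : ι → ℝ) where
  rIn := d / 2
  rOut := d
  rIn_pos := by linarith
  rIn_lt_rOut := by linarith

/-- mollification -/
def MolE {d : ℝ} (hd : 0 < d) (Φ : (ι → ℝ) → ℝ) (u : ι → ℝ) : ℝ :=
  ∫ s, (kerE ι hd).normed volume s * Φ (u - s)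

omit [DecidableEq ι] in
theorem MolE_eq_conv {d : ℝ} (hd : 0 < d) (Φ : (ι → ℝ) → ℝ) :
    MolE hd Φ = ((kerE ι hd).normed volume ⋆[ContinuousLinearMap.lsmul ℝ ℝ, volume] Φ) := by
  ext t
  simp [MolE, convolution_def]

omit [DecidableEq ι] in
theorem MolE_contDiff {d : ℝ} (hd : 0 < d) {Φ : (ι → ℝ) → ℝ} (hg : Continuous Φ) :
    ContDiff ℝ ∞ (MolE hd Φ) := by
  rw [MolE_eq_conv]
  exact (kerE ι hd).hasCompactSupport_normed.contDiff_convolution_left _
    (kerE ι hd).contDiff_normed hg.locallyIntegrable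

omit [DecidableEq ι] in
theorem MolE_integrable {d : ℝ} (hd : 0 < d) {Φ : (ι → ℝ) → ℝ} (hg : Continuous Φ) (t : ι → ℝ) :
    Integrable fun s => (kerE ι hd).normed volume s * Φ (t - s) := by
  refine Continuous.integrable_of_hasCompactSupport ?_ ?_
  · exact (kerE ι hd).continuous_normed.mul (hg.comp (continuous_const.sub continuous_id))
  · exact (kerE ι hd).hasCompactSupport_normed.mul_right

omit [DecidableEq ι] in
/-- comparison of two mollifications (of possibly different functions, at different points) -/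
theorem MolE_sub2 {d : ℝ} (hd : 0 < d) {Φ Ψ : (ι → ℝ) → ℝ} (hg : Continuous Φ)
    (hg' : Continuous Ψ) {a b : ι → ℝ} {lo hi : ℝ}
    (h : ∀ s, ‖s‖ < d → lo ≤ Φ (b - s) - Ψ (a - s) ∧ Φ (b - s) - Ψ (a - s) ≤ hi) :
    lo ≤ MolE hd Φ b - MolE hd Ψ a ∧ MolE hd Φ b - MolE hd Ψ a ≤ hi := by
  have e1 : MolE hd Φ b - MolE hd Ψ a =
      ∫ s, (kerE ι hd).normed volume s * (Φ (b - s) - Ψ (a - s)) := by
    rw [MolE, MolE, ← MeasureTheory.integral_sub (MolE_integrable hd hg b)
      (MolE_integrable hd hg' a)]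
    congr 1
    ext s
    ring
  have hint : Integrable fun s => (kerE ι hd).normed volume s * (Φ (b - s) - Ψ (a - s)) := by
    have := (MolE_integrable hd hg b).sub (MolE_integrable hd hg' a)
    refine this.congr (Eventually.of_forall fun s => ?_)
    simp only [Pi.sub_apply]
    ring
  have hc : ∀ c : ℝ, Integrable fun s => (kerE ι hd).normed volume s * c := fun c =>
    (kerE ι hd).integrable_normed.mul_const c
  have hi1 : ∀ c : ℝ, ∫ s, (kerE ι hd).normed volume s * c = c := fun c => by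
    rw [MeasureTheory.integral_mul_const, (kerE ι hd).integral_normed, one_mul]
  have hsupp : ∀ s, (kerE ι hd).normed volume s = 0 ∨ ‖s‖ < d := by
    intro s
    by_cases hs : ‖s‖ < d
    · exact Or.inr hs
    · left
      have : s ∉ Function.support ((kerE ι hd).normed volume) := by
        rw [(kerE ι hd).support_normed_eq, Metric.mem_ball, dist_zero_right]
        exact hs
      simpa using this
  rw [e1]
  constructor
  · rw [← hi1 lo]
    refine MeasureTheory.integral_mono (hc lo) hint fun s => ?_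
    rcases hsupp s with h1 | h1
    · simp [h1]
    · exact mul_le_mul_of_nonneg_left (h s h1).1 ((kerE ι hd).nonneg_normed s)
  · rw [← hi1 hi]
    refine MeasureTheory.integral_mono hint (hc hi) fun s => ?_
    rcases hsupp s with h1 | h1
    · simp [h1]
    · exact mul_le_mul_of_nonneg_left (h s h1).2 ((kerE ι hd).nonneg_normed s)

theorem MolE_dist {d : ℝ} (hd : 0 < d) {Φ : (ι → ℝ) → ℝ} (hg : EPh Φ) (u : ι → ℝ) :
    |MolE hd Φ u - Φ u| ≤ d := by
  have := (kerE ι hd).dist_normed_convolution_le (μ := volume) (x₀ := u) (ε := d)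
    hg.continuous.aestronglyMeasurable (fun x hx => by
      rw [Real.dist_eq]
      refine (hg.lips x u).trans ?_
      rw [← dist_eq_norm]
      exact (Metric.mem_ball.1 hx).le)
  rw [← MolE_eq_conv, Real.dist_eq] at this
  exact this

omit [DecidableEq ι] in
theorem MolE_shift {d : ℝ} (hd : 0 < d) {Φ : (ι → ℝ) → ℝ} (hg : Continuous Φ) {v : ι → ℝ} {K : ℝ}
    (h : Sh Φ v K) : Sh (MolE hd Φ) v K := fun u => by
  have h1 := MolE_sub2 hd hg hg (a := u) (b := u + v) (lo := K) (hi := K) fun s _ => by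
    have : Φ (u + v - s) = Φ (u - s) + K := by rw [← h]; congr 1; abel
    rw [this]
    constructor <;> linarith
  linarith [h1.1, h1.2]

omit [DecidableEq ι] in
theorem hasDerivAt_dir {f : (ι → ℝ) → ℝ} (hf : Differentiable ℝ f) (u v : ι → ℝ) :
    HasDerivAt (fun t : ℝ => f (u + t • v)) (fderiv ℝ f u v) 0 := by
  have h1 : HasDerivAt (fun t : ℝ => u + t • v) v 0 := by
    have := ((hasDerivAt_id (0 : ℝ)).smul_const v).const_add u
    simpa using this
  have h2 : HasFDerivAt f (fderiv ℝ f u) (u + (0 : ℝ) • v) := by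
    rw [zero_smul, add_zero]; exact (hf u).hasFDerivAt
  exact h2.comp_hasDerivAt (0 : ℝ) h1

theorem ones_eq : (fun _ : ι => (1 : ℝ)) = ∑ i, Pi.single i 1 := by
  ext j
  simp [Finset.sum_apply, Pi.single_apply]

theorem sum_wt_eq (f : (ι → ℝ) → ℝ) (u : ι → ℝ) :
    ∑ i, wt f u i = fderiv ℝ f u fun _ => 1 := by
  rw [ones_eq, map_sum]
  rfl

theorem cis_tri {m p a x : ℝ} (h : cis p = cis a) : ‖cis m - cis x‖ ≤ |m - p| + |a - x| := by
  have e : cis m - cis x = (cis m - cis p) + (cis a - cis x) := by rw [h]; ring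
  rw [e]
  exact (norm_add_le _ _).trans (add_le_add (cis_lip _ _) (cis_lip _ _))

section
variable {d : ℝ} (hd : 0 < d) {Φ : (ι → ℝ) → ℝ} (h : EPh Φ)
include h

theorem MolE_mono : Monotone (MolE hd Φ) := fun x y hxy => by
  have h1 : ∀ s : ι → ℝ, ‖s‖ < d → 0 ≤ Φ (y - s) - Φ (x - s) ∧
      Φ (y - s) - Φ (x - s) ≤ ‖y - x‖ := fun s _ => by
    constructor
    · have := h.mono (sub_le_sub_right hxy s)
      linarith
    · have := h.lips (y - s) (x - s)
      rw [sub_sub_sub_cancel_right] at this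
      exact (abs_le.1 this).2
  linarith [(MolE_sub2 hd h.continuous h.continuous h1).1]

theorem MolE_lip (u : ι → ℝ) {s : ℝ} (hs : 0 ≤ s) :
    MolE hd Φ (u + fun _ => s) ≤ MolE hd Φ u + s := by
  have h1 : ∀ σ : ι → ℝ, ‖σ‖ < d → 0 ≤ Φ ((u + fun _ => s) - σ) - Φ (u - σ) ∧
      Φ ((u + fun _ => s) - σ) - Φ (u - σ) ≤ s := fun σ _ => by
    have e : (u + fun _ => s) - σ = (u - σ) + fun _ => s := by abel
    rw [e]
    constructor
    · have : u - σ ≤ (u - σ) + fun _ => s := fun i => by
        simp only [Pi.add_apply]; linarith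
      have := h.mono this
      linarith
    · have := h.lip (u - σ) s hs
      linarith
  linarith [(MolE_sub2 hd h.continuous h.continuous h1).2]

theorem MolE_near {u a : ι → ℝ} {c : ℝ} (ha : ‖a - u‖ ≤ c) : |MolE hd Φ u - Φ a| ≤ d + c := by
  have h1 := MolE_dist hd h u
  have h2 := h.lips u a
  rw [norm_sub_rev] at h2
  have h3 : MolE hd Φ u - Φ a = (MolE hd Φ u - Φ u) + (Φ u - Φ a) := by ring
  rw [h3]
  exact (abs_add_le _ _).trans (by linarith)

/-- no increase in the direction `i` near `u` unless the type is `i` -/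
theorem const_dir {u : ι → ℝ} {i : ι} (hcon : 7 * d < ‖cis (MolE hd Φ u) - cis (u i)‖)
    (a : ι → ℝ) (ha : ‖a - u‖ ≤ 2 * d) (t : ℝ) (ht0 : 0 ≤ t) (ht : t ≤ d) :
    Φ (a + Pi.single i t) = Φ a := by
  refine le_antisymm ?_ (h.mono fun j => ?_)
  · by_contra hlt
    push Not at hlt
    obtain ⟨t', ht', hc⟩ := h.one a i t ht0 hlt
    have h1 : ‖a + Pi.single i t' - u‖ ≤ 3 * d := by
      have e : a + Pi.single i t' - u = (a - u) + Pi.single i t' := by abel
      rw [e]
      refine (norm_add_le _ _).trans ?_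
      rw [Pi.norm_single, Real.norm_eq_abs, abs_of_nonneg ht'.1]
      linarith [ht'.2]
    have h2 := MolE_near hd h h1
    have h3 : |(a i + t') - u i| ≤ 3 * d := by
      have := (norm_le_pi_norm (a + Pi.single i t' - u) i).trans h1
      simpa using this
    have h4 := cis_tri (m := MolE hd Φ u) (x := u i) hc
    linarith
  · simp only [Pi.add_apply]
    by_cases hj : j = i
    · subst hj; simpa using ht0
    · simp [Pi.single_eq_of_ne hj]

/-- slope one along the diagonal near `u` unless flat -/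
theorem slope_dir {u : ι → ℝ} (hcon : 7 * d < ‖cis (MolE hd Φ u) - (-1)‖)
    (a : ι → ℝ) (ha : ‖a - u‖ ≤ 2 * d) (t : ℝ) (ht0 : 0 ≤ t) (ht : t ≤ d) :
    Φ (a + fun _ => t) = Φ a + t := by
  refine le_antisymm (h.lip a t ht0) ?_
  by_contra hlt
  push Not at hlt
  obtain ⟨t', ht', hc⟩ := h.flat a t ht0 hlt
  have h1 : ‖(a + fun _ => t') - u‖ ≤ 3 * d := by
    have e : (a + fun _ => t') - u = (a - u) + fun _ => t' := by abel
    rw [e]
    refine (norm_add_le _ _).trans ?_
    have : ‖(fun _ : ι => t')‖ ≤ t' := by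
      refine (pi_norm_le_iff_of_nonneg ht'.1).2 fun _ => ?_
      rw [Real.norm_eq_abs, abs_of_nonneg ht'.1]
    linarith [ht'.2]
  have h2 := MolE_near hd h h1
  have h4 : ‖cis (MolE hd Φ u) - (-1)‖ ≤ 7 * d := by
    rw [← hc]
    exact (cis_lip _ _).trans (by linarith)
  linarith

theorem MolE_diff : Differentiable ℝ (MolE hd Φ) :=
  (MolE_contDiff hd h.continuous).differentiable (by simp)

theorem wt_nonneg (u : ι → ℝ) (i : ι) : 0 ≤ wt (MolE hd Φ) u i := by
  have h1 := hasDerivAt_dir (MolE_diff hd h) u (Pi.single i 1)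
  have h2 : Monotone fun t : ℝ => MolE hd Φ (u + t • Pi.single i (1 : ℝ)) := fun s t hst => by
    refine MolE_mono hd h ?_
    refine add_le_add le_rfl fun j => ?_
    simp only [Pi.smul_apply, smul_eq_mul]
    by_cases hj : j = i
    · subst hj; simpa using hst
    · simp [Pi.single_eq_of_ne hj]
  have h3 := h2.deriv_nonneg (x := 0)
  rw [h1.deriv] at h3
  exact h3

theorem wt_sum_le (u : ι → ℝ) : ∑ i, wt (MolE hd Φ) u i ≤ 1 := by
  rw [sum_wt_eq]
  have h1 := hasDerivAt_dir (MolE_diff hd h) u (fun _ => 1)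
  have h2 : Monotone fun t : ℝ => t - MolE hd Φ (u + t • fun _ => (1 : ℝ)) :=
    fun s t hst => by
      have e : u + t • (fun _ => (1 : ℝ)) = (u + s • fun _ => (1 : ℝ)) + fun _ => t - s := by
        ext j; simp
      have := MolE_lip hd h (u + s • fun _ => (1 : ℝ)) (s := t - s) (by linarith)
      rw [← e] at this
      simp only
      linarith
  have h3 := h2.deriv_nonneg (x := 0)
  have h4 : HasDerivAt (fun t : ℝ => t - MolE hd Φ (u + t • fun _ => (1 : ℝ)))
      (1 - fderiv ℝ (MolE hd Φ) u (fun _ => 1)) 0 := (hasDerivAt_id (0 : ℝ)).sub h1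
  rw [h4.deriv] at h3
  linarith

theorem wt_close (u : ι → ℝ) (i : ι) (hi : 0 < wt (MolE hd Φ) u i) :
    ‖cis (MolE hd Φ u) - cis (u i)‖ ≤ 7 * d := by
  by_contra hcon
  push Not at hcon
  have key := const_dir hd h hcon
  have h1 := hasDerivAt_dir (MolE_diff hd h) u (Pi.single i 1)
  have h2 : (fun t : ℝ => MolE hd Φ (u + t • Pi.single i (1 : ℝ))) =ᶠ[𝓝 0]
      fun _ => MolE hd Φ u := by
    filter_upwards [Metric.ball_mem_nhds (0 : ℝ) hd] with t ht
    rw [Metric.mem_ball, Real.dist_eq, sub_zero, abs_lt] at ht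
    have e1 : t • Pi.single i (1 : ℝ) = Pi.single (M := fun _ : ι => ℝ) i t := by
      rw [← Pi.single_smul, smul_eq_mul, mul_one]
    rw [e1]
    have h5 : ∀ s : ι → ℝ, ‖s‖ < d → 0 ≤ Φ (u + Pi.single i t - s) - Φ (u - s) ∧
        Φ (u + Pi.single i t - s) - Φ (u - s) ≤ 0 := fun s hs => by
      have e2 : u + Pi.single i t - s = (u - s) + Pi.single i t := by abel
      rcases le_total 0 t with h0 | h0
      · rw [e2, key (u - s) (by
          have : u - s - u = -s := by abel
          rw [this, norm_neg]; linarith) t h0 ht.2.le]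
        simp
      · have e3 : (u + Pi.single i t - s) + Pi.single i (-t) = u - s := by
          rw [Pi.single_neg]; abel
        have h5 := key (u + Pi.single i t - s) (by
          have : u + Pi.single i t - s - u = Pi.single i t - s := by abel
          rw [this]
          refine (norm_sub_le _ _).trans ?_
          rw [Pi.norm_single, Real.norm_eq_abs, abs_of_nonpos h0]
          linarith [ht.1]) (-t) (by linarith) (by linarith [ht.1])
        rw [e3] at h5
        rw [h5]; simp
    have := MolE_sub2 hd h.continuous h.continuous h5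
    linarith [this.1, this.2]
  have h3 : fderiv ℝ (MolE hd Φ) u (Pi.single i 1) = 0 := by
    rw [← h1.deriv, h2.deriv_eq]; simp
  rw [wt, h3] at hi
  exact lt_irrefl _ hi

theorem wt_flat (u : ι → ℝ) (hu : ∑ i, wt (MolE hd Φ) u i < 1) :
    ‖cis (MolE hd Φ u) - (-1)‖ ≤ 7 * d := by
  by_contra hcon
  push Not at hcon
  have key := slope_dir hd h hcon
  have h1 := hasDerivAt_dir (MolE_diff hd h) u (fun _ => 1)
  have h2 : (fun t : ℝ => MolE hd Φ (u + t • fun _ => (1 : ℝ))) =ᶠ[𝓝 0]
      fun t => MolE hd Φ u + t := by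
    filter_upwards [Metric.ball_mem_nhds (0 : ℝ) hd] with t ht
    rw [Metric.mem_ball, Real.dist_eq, sub_zero, abs_lt] at ht
    have e1 : t • (fun _ : ι => (1 : ℝ)) = fun _ => t := by ext j; simp
    rw [e1]
    have h5 : ∀ s : ι → ℝ, ‖s‖ < d → t ≤ Φ ((u + fun _ => t) - s) - Φ (u - s) ∧
        Φ ((u + fun _ => t) - s) - Φ (u - s) ≤ t := fun s hs => by
      have e2 : (u + fun _ => t) - s = (u - s) + fun _ => t := by abel
      rcases le_total 0 t with h0 | h0
      · rw [e2, key (u - s) (by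
          have : u - s - u = -s := by abel
          rw [this, norm_neg]; linarith) t h0 ht.2.le]
        constructor <;> linarith
      · have e3 : ((u + fun _ => t) - s) + (fun _ => -t) = u - s := by
          ext j; simp; ring
        have h5 := key ((u + fun _ => t) - s) (by
          have : (u + fun _ => t) - s - u = (fun _ => t) - s := by abel
          rw [this]
          refine (norm_sub_le _ _).trans ?_
          have : ‖(fun _ : ι => t)‖ ≤ -t := by
            refine (pi_norm_le_iff_of_nonneg (by linarith)).2 fun _ => ?_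
            rw [Real.norm_eq_abs, abs_of_nonpos h0]
          linarith [ht.1]) (-t) (by linarith) (by linarith [ht.1])
        rw [e3] at h5
        rw [h5]
        constructor <;> linarith
    have := MolE_sub2 hd h.continuous h.continuous h5
    linarith [this.1, this.2]
  have h3 : fderiv ℝ (MolE hd Φ) u (fun _ => 1) = 1 := by
    rw [← h1.deriv, h2.deriv_eq]
    exact ((hasDerivAt_id (0 : ℝ)).const_add (MolE hd Φ u)).deriv
  rw [sum_wt_eq, h3] at hu
  exact lt_irrefl _ hu

/-- **the smooth phase** -/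
theorem MolE_ph : Ph (MolE hd Φ) (7 * d) :=
  ⟨MolE_contDiff hd h.continuous, wt_nonneg hd h, wt_sum_le hd h, wt_close hd h, wt_flat hd h⟩

end

end Crest.Agent.R267.GridPh_739
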