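import Crest.Agent.R267.LemL_951

/-!
# Row 267 (helper739): pointwise regularity lemma for functions with staircase couplings
(helper222 #2918 (1)), robust form with smoothed ties

At a point: own terms `R i • κ i` (`κ i` of norm one), couplings `r v • τ v` (`τ v` of norm one),
real deletions `b ≥ 0`.  A variable is `on` (in a lobe, or in the word sector) or off-lobe
(`κ i = -1`).  `μ v i ≥ 0` is the weight of the phase of `i` in the phase of `v`; if `μ v i > 0`
then `τ v` is `ε`-close to `κ i`; if the weights of the `on` variables do not add up to `1`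
then `τ v` is `ε`-close to `-1`.
-/

set_option autoImplicit false

noncomputable section

open Finset
open Crest.Agent.R267.LemL_951

namespace Crest.Agent.R267.Stair_739

variable {ι ε V : Type*} [Fintype ι] [Fintype ε] [AddCommGroup V] [Module ℝ V]

theorem jf_real_mul' (u : ℂ) (r : ℝ) (v : ℂ) : jf u (r • v) = r * jf u v := by
  simp only [jf, Complex.real_smul, Complex.re_ofReal_mul, Complex.im_ofReal_mul]; ring

theorem rf_real_mul' (u : ℂ) (r : ℝ) (v : ℂ) : rf u (r • v) = r * rf u v := by
  simp only [rf, Complex.real_smul, Complex.re_ofReal_mul, Complex.im_ofReal_mul]; ring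

theorem abs_jf_le {u : ℂ} (hu : ‖u‖ = 1) (v : ℂ) : |jf u v| ≤ ‖v‖ := by
  rw [jf_eq]
  refine (Complex.abs_im_le_norm _).trans ?_
  rw [norm_mul, Complex.norm_conj, hu, one_mul]

theorem abs_rf_le {u : ℂ} (hu : ‖u‖ = 1) (v : ℂ) : |rf u v| ≤ ‖v‖ := by
  rw [rf_eq]
  refine (Complex.abs_re_le_norm _).trans ?_
  rw [norm_mul, Complex.norm_conj, hu, one_mul]

/-- close unit vectors have close `jf` -/
theorem jf_close {u a b : ℂ} {e : ℝ} (hu : ‖u‖ = 1) (h : ‖a - b‖ ≤ e) : |jf u a - jf u b| ≤ e := by
  rw [← jf_sub]; exact (abs_jf_le hu _).trans h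

theorem rf_close {u a b : ℂ} {e : ℝ} (hu : ‖u‖ = 1) (h : ‖a - b‖ ≤ e) : |rf u a - rf u b| ≤ e := by
  rw [← rf_sub]; exact (abs_rf_le hu _).trans h

/-- the data at a point -/
structure Dat (ι ε : Type*) [Fintype ι] [Fintype ε] where
  /-- moduli of the own terms -/
  R : ι → ℝ
  /-- directions of the own terms -/
  κ : ι → ℂ
  /-- moduli of the couplings -/
  r : ε → ℝ
  /-- directions of the couplings -/
  τ : ε → ℂ
  /-- weights -/
  μ : ε → ι → ℝ
  /-- in a lobe or in the word sector -/
  on : ι → Prop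
  /-- tolerance -/
  tol : ℝ
  R0 : ∀ i, 0 ≤ R i
  r0 : ∀ v, 0 ≤ r v
  μ0 : ∀ v i, 0 ≤ μ v i
  κ1 : ∀ i, ‖κ i‖ = 1
  τ1 : ∀ v, ‖τ v‖ = 1
  tol0 : 0 ≤ tol
  off : ∀ i, ¬ on i → κ i = -1
  μoff : ∀ v i, ¬ on i → μ v i = 0
  close : ∀ v i, 0 < μ v i → ‖τ v - κ i‖ ≤ tol
  sum_le : ∀ v, ∑ i, μ v i ≤ 1
  flat : ∀ v, ∑ i, μ v i < 1 → ‖τ v - (-1)‖ ≤ tol

variable (P : Dat ι ε)

/-- **robust regularity lemma**: at a zero with conormal `u` the directions of the `on` variables
are `tol`-close to `± u`, and either `u` is almost real or nothing is off-lobe, flat or deleted. -/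
theorem stair {u : ℂ} (hu : ‖u‖ = 1) (B : ℝ) (hB : 0 ≤ B)
    (hang : ∀ i, P.on i → P.R i * jf u (P.κ i) + ∑ v, P.μ v i * (P.r v * jf u (P.τ v)) = 0)
    (hF : ∑ i, P.R i * jf u (P.κ i) + ∑ v, P.r v * jf u (P.τ v) + B * u.im = 0) :
    (∀ i, P.on i → 0 < P.R i → |jf u (P.κ i)| ≤ P.tol) ∧
    (|u.im| ≤ P.tol ∨ ((∀ i, ¬ P.on i → P.R i = 0) ∧
      (∀ v, P.r v = 0 ∨ ∑ i, P.μ v i = 1) ∧ B = 0)) := by
  classical
  refine ⟨fun i hi hR => ?_, ?_⟩
  · by_contra hcon
    push Not at hcon
    have h1 := hang i hi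
    rcases le_or_gt 0 (jf u (P.κ i)) with h0 | h0
    · rw [abs_of_nonneg h0] at hcon
      have h2 : 0 ≤ ∑ v, P.μ v i * (P.r v * jf u (P.τ v)) := by
        refine sum_nonneg fun v _ => ?_
        rcases (P.μ0 v i).eq_or_lt with h3 | h3
        · rw [← h3, zero_mul]
        · have h4 := jf_close hu (P.close v i h3)
          rw [abs_le] at h4
          have h5 : 0 ≤ jf u (P.τ v) := by linarith [h4.1]
          exact mul_nonneg h3.le (mul_nonneg (P.r0 v) h5)
      have h3 : 0 < P.R i * jf u (P.κ i) := mul_pos hR (lt_of_le_of_lt P.tol0 hcon)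
      linarith
    · rw [abs_of_neg h0] at hcon
      have h2 : ∑ v, P.μ v i * (P.r v * jf u (P.τ v)) ≤ 0 := by
        refine sum_nonpos fun v _ => ?_
        rcases (P.μ0 v i).eq_or_lt with h3 | h3
        · rw [← h3, zero_mul]
        · have h4 := jf_close hu (P.close v i h3)
          rw [abs_le] at h4
          have h5 : jf u (P.τ v) ≤ 0 := by linarith [h4.2]
          exact mul_nonpos_of_nonneg_of_nonpos h3.le
            (mul_nonpos_of_nonneg_of_nonpos (P.r0 v) h5)
      have h3 : P.R i * jf u (P.κ i) < 0 := mul_neg_of_pos_of_neg hR h0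
      linarith
  · -- the sum rule
    have hsplit : ∀ i, P.R i * jf u (P.κ i) =
        (if P.on i then 0 else P.R i * u.im) -
          ∑ v, P.μ v i * (P.r v * jf u (P.τ v)) := by
      intro i
      by_cases hi : P.on i
      · rw [if_pos hi]
        have := hang i hi
        linarith
      · rw [if_neg hi, P.off i hi]
        have h1 : ∑ v, P.μ v i * (P.r v * jf u (P.τ v)) = 0 :=
          sum_eq_zero fun v _ => by rw [P.μoff v i hi, zero_mul]
        rw [h1, sub_zero]
        congr 1
        simp [jf]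
    have hsum : ∑ i, (if P.on i then 0 else P.R i * u.im) +
        ∑ v, (1 - ∑ i, P.μ v i) * (P.r v * jf u (P.τ v)) + B * u.im = 0 := by
      have h1 : ∑ i, P.R i * jf u (P.κ i) = ∑ i, (if P.on i then 0 else P.R i * u.im) -
          ∑ v, (∑ i, P.μ v i) * (P.r v * jf u (P.τ v)) := by
        rw [sum_congr rfl fun i _ => hsplit i, sum_sub_distrib, sum_comm]
        congr 1
        exact sum_congr rfl fun v _ => by rw [sum_mul]
      have h2 : ∑ v, (1 - ∑ i, P.μ v i) * (P.r v * jf u (P.τ v)) =
          ∑ v, P.r v * jf u (P.τ v) - ∑ v, (∑ i, P.μ v i) * (P.r v * jf u (P.τ v)) := by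
        rw [← sum_sub_distrib]
        exact sum_congr rfl fun v _ => by ring
      rw [h2]
      linarith
    by_cases him : |u.im| ≤ P.tol
    · exact Or.inl him
    right
    push Not at him
    have hw : ∀ v, 0 ≤ 1 - ∑ i, P.μ v i := fun v => by linarith [P.sum_le v]
    have hflat : ∀ v, 0 < 1 - ∑ i, P.μ v i → |jf u (P.τ v) - u.im| ≤ P.tol := by
      intro v hv
      have h1 := jf_close hu (P.flat v (by linarith))
      have h2 : jf u (-1) = u.im := by simp [jf]
      rwa [h2] at h1
    have key : ∀ s : ℝ, (s = 1 ∨ s = -1) → P.tol < s * u.im →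
        ((∀ i, ¬ P.on i → P.R i = 0) ∧ (∀ v, P.r v = 0 ∨ ∑ i, P.μ v i = 1) ∧ B = 0) := by
      intro s hs hpos
      have hs0 : 0 < s * u.im := lt_of_le_of_lt P.tol0 hpos
      have t1 : ∀ i, 0 ≤ s * (if P.on i then 0 else P.R i * u.im) := by
        intro i
        split_ifs
        · simp
        · have := mul_nonneg (P.R0 i) hs0.le
          linarith [show s * (P.R i * u.im) = P.R i * (s * u.im) by ring]
      have t2' : ∀ v, 0 < 1 - ∑ i, P.μ v i → 0 < s * jf u (P.τ v) := by
        intro v hv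
        have h1 := hflat v hv
        rw [abs_le] at h1
        rcases hs with rfl | rfl
        · linarith [h1.1]
        · linarith [h1.2]
      have t2 : ∀ v, 0 ≤ s * ((1 - ∑ i, P.μ v i) * (P.r v * jf u (P.τ v))) := by
        intro v
        rcases (hw v).eq_or_lt with h | h
        · rw [← h]; simp
        · have := mul_nonneg (mul_nonneg h.le (P.r0 v)) (t2' v h).le
          linarith [show s * ((1 - ∑ i, P.μ v i) * (P.r v * jf u (P.τ v))) =
            (1 - ∑ i, P.μ v i) * P.r v * (s * jf u (P.τ v)) by ring]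
      have t3 : 0 ≤ s * (B * u.im) := by
        have := mul_nonneg hB hs0.le
        linarith [show s * (B * u.im) = B * (s * u.im) by ring]
      have hS1 : 0 ≤ ∑ i, s * (if P.on i then 0 else P.R i * u.im) := sum_nonneg fun i _ => t1 i
      have hS2 : 0 ≤ ∑ v, s * ((1 - ∑ i, P.μ v i) * (P.r v * jf u (P.τ v))) :=
        sum_nonneg fun v _ => t2 v
      have htot : ∑ i, s * (if P.on i then 0 else P.R i * u.im) +
          ∑ v, s * ((1 - ∑ i, P.μ v i) * (P.r v * jf u (P.τ v))) + s * (B * u.im) = 0 := by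
        rw [← mul_sum, ← mul_sum, ← mul_add, ← mul_add, hsum, mul_zero]
      have z1 : ∑ i, s * (if P.on i then 0 else P.R i * u.im) = 0 := by linarith
      have z2 : ∑ v, s * ((1 - ∑ i, P.μ v i) * (P.r v * jf u (P.τ v))) = 0 := by linarith
      have z3 : s * (B * u.im) = 0 := by linarith
      refine ⟨fun i hi => ?_, fun v => ?_, ?_⟩
      · have h1 := (sum_eq_zero_iff_of_nonneg fun i _ => t1 i).1 z1 i (mem_univ i)
        rw [if_neg hi] at h1
        have h2 : P.R i * (s * u.im) = 0 := by
          have h3 : s * (P.R i * u.im) = P.R i * (s * u.im) := by ring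
          linarith
        exact (mul_eq_zero.1 h2).resolve_right hs0.ne'
      · have h1 := (sum_eq_zero_iff_of_nonneg fun v _ => t2 v).1 z2 v (mem_univ v)
        rcases (hw v).eq_or_lt with h | h
        · right; linarith
        · left
          have h2 : (1 - ∑ i, P.μ v i) * P.r v * (s * jf u (P.τ v)) = 0 := by
            linarith [show s * ((1 - ∑ i, P.μ v i) * (P.r v * jf u (P.τ v))) =
              (1 - ∑ i, P.μ v i) * P.r v * (s * jf u (P.τ v)) by ring]
          have h3 := (mul_eq_zero.1 h2).resolve_right (t2' v h).ne'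
          exact (mul_eq_zero.1 h3).resolve_left h.ne'
      · have h2 : B * (s * u.im) = 0 := by
          have h3 : s * (B * u.im) = B * (s * u.im) := by ring
          linarith
        exact (mul_eq_zero.1 h2).resolve_right hs0.ne'
    rcases le_or_gt 0 u.im with h | h
    · rw [abs_of_nonneg h] at him
      exact key 1 (Or.inl rfl) (by linarith)
    · rw [abs_of_neg h] at him
      exact key (-1) (Or.inr rfl) (by linarith)

end Crest.Agent.R267.Stair_739
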