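import Crest.Agent.R267.StairFn_739
import Crest.Agent.R267.Stair_739

/-!
# Row 267 (helper739): staircase phases of `f` and `g`: integer tables, phases as functions of the
angles, the path `(1 - s) linear + s staircase`, and the `Dat` of `Stair_739`
-/

set_option autoImplicit false

noncomputable section

open Set Filter Topology
open scoped ContDiff

namespace Crest.Agent.R267.StairPh_739

open Crest.Agent.R267.Ang_739 Crest.Agent.R267.StairFn_739

/-! ## integer tables: unit `π` -/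

/-- the exact staircase at multiples of `π` -/
def hZ (m n : ℕ) (k : ℤ) : ℤ := 2 * m * (k / (2 * n)) + min (k % (2 * n)) (2 * m)

theorem Gs_pi {m n : ℕ} (hn : 0 < n) (k : ℤ) : Gs m n (Real.pi * k) = Real.pi * hZ m n k := by
  have hpi := Real.pi_pos
  have hn' : (0 : ℝ) < n := by exact_mod_cast hn
  have e1 : Real.pi * k / (2 * Real.pi * n) = (k : ℝ) / (2 * n) := by field_simp
  have hm := Int.emod_add_mul_ediv k (2 * n)
  have h0 := Int.emod_nonneg k (show (2 * n : ℤ) ≠ 0 by omega)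
  have h1 := Int.emod_lt_of_pos k (show (0 : ℤ) < 2 * n by omega)
  set q := k / (2 * (n : ℤ)) with hq
  set r := k % (2 * (n : ℤ)) with hr
  have hk : (k : ℝ) = r + 2 * n * q := by exact_mod_cast hm.symm
  have hfl : ⌊Real.pi * k / (2 * Real.pi * n)⌋ = q := by
    rw [e1, Int.floor_eq_iff, hk]
    have a1 : (0 : ℝ) ≤ r := by exact_mod_cast h0
    have a2 : (r : ℝ) < 2 * n := by exact_mod_cast h1
    constructor
    · rw [le_div_iff₀ (by positivity)]; nlinarith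
    · rw [div_lt_iff₀ (by positivity)]; nlinarith
  have hmin : min (Real.pi * k - 2 * Real.pi * n * q) (2 * Real.pi * m) =
      Real.pi * (min r (2 * (m : ℤ)) : ℤ) := by
    have e2 : Real.pi * k - 2 * Real.pi * n * q = Real.pi * r := by rw [hk]; ring
    have e3 : 2 * Real.pi * (m : ℝ) = Real.pi * (2 * m) := by ring
    rw [e2, e3, Int.cast_min, ← mul_min_of_nonneg _ _ hpi.le]
    push_cast
    rfl
  rw [Gs, G, hfl, hmin, hZ]
  push_cast
  ring

/-- the integer phases -/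
def gTyZ (P Q : ℤ) : ℤ := Q + hZ 1 5 (P - Q)
def gBeZ (P Q R : ℤ) : ℤ := gTyZ P Q + hZ 2 4 (gTyZ P R - gTyZ P Q)
def gAlZ (P Q R : ℤ) : ℤ := gBeZ P Q R + hZ 1 2 (P - gBeZ P Q R)
def fQZ (Q : ℤ) : ℤ := -1 + hZ 6 10 (Q + 1)
def fGaZ (Q R : ℤ) : ℤ := fQZ Q + hZ 3 6 (fQZ R - fQZ Q)
def fAlZ (P Q R : ℤ) : ℤ := fGaZ Q R + hZ 2 3 (P - fGaZ Q R)
def fBeZ (Q R : ℤ) : ℤ := Q + hZ 5 10 (R - Q)

/-- the point with the three phases `πP`, `πQ`, `πR` -/
def pt (P Q R : ℤ) : Fin 3 → ℝ := ![Real.pi * P, Real.pi * Q, Real.pi * R]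

theorem mix_pi {m n : ℕ} (hn : 0 < n) {A B : (Fin 3 → ℝ) → ℝ} {u : Fin 3 → ℝ} {a b : ℤ}
    (hA : A u = Real.pi * a) (hB : B u = Real.pi * b) :
    mix (Gs m n) A B u = Real.pi * (a + hZ m n (b - a) : ℤ) := by
  rw [mix, hA, hB]
  have : Real.pi * b - Real.pi * a = Real.pi * (b - a : ℤ) := by push_cast; ring
  rw [this, Gs_pi hn]
  push_cast
  ring

theorem co0 (P Q R : ℤ) : co (0 : Fin 3) (pt P Q R) = Real.pi * P := rfl
theorem co1 (P Q R : ℤ) : co (1 : Fin 3) (pt P Q R) = Real.pi * Q := rfl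
theorem co2 (P Q R : ℤ) : co (2 : Fin 3) (pt P Q R) = Real.pi * R := rfl
theorem cnm (P Q R : ℤ) : cn (Fin 3) (-1) (pt P Q R) = Real.pi * (-1 : ℤ) := by
  simp only [cn]; push_cast; ring

theorem gBe_pi (P Q R : ℤ) : gBe Gs (pt P Q R) = Real.pi * gBeZ P Q R :=
  mix_pi (by norm_num) (mix_pi (by norm_num) (co1 P Q R) (co0 P Q R))
    (mix_pi (by norm_num) (co2 P Q R) (co0 P Q R))

theorem gAl_pi (P Q R : ℤ) : gAl Gs (pt P Q R) = Real.pi * gAlZ P Q R :=
  mix_pi (by norm_num) (gBe_pi P Q R) (co0 P Q R)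

theorem fGa_pi (P Q R : ℤ) : fGa Gs (pt P Q R) = Real.pi * fGaZ Q R := by
  have h1 := mix_pi (m := 6) (n := 10) (by norm_num) (cnm P Q R) (co1 P Q R)
  have h2 := mix_pi (m := 6) (n := 10) (by norm_num) (cnm P Q R) (co2 P Q R)
  have := mix_pi (m := 3) (n := 6) (by norm_num) h1 h2
  rw [sub_neg_eq_add, sub_neg_eq_add] at this
  exact this

theorem fAl_pi (P Q R : ℤ) : fAl Gs (pt P Q R) = Real.pi * fAlZ P Q R :=
  mix_pi (by norm_num) (fGa_pi P Q R) (co0 P Q R)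

theorem fBe_pi (P Q R : ℤ) : fBe Gs (pt P Q R) = Real.pi * fBeZ Q R :=
  mix_pi (by norm_num) (co1 P Q R) (co2 P Q R)

/-! ## phases as functions of the angles -/

theorem two_le_infty : (2 : WithTop ℕ∞) ≤ ∞ := by
  have : ((2 : ℕ∞) : WithTop ℕ∞) ≤ ((⊤ : ℕ∞) : WithTop ℕ∞) := WithTop.coe_le_coe.2 le_top
  exact this

variable {ι : Type*} [Fintype ι] [DecidableEq ι]

/-- own phases: `C²` lifts with degrees `n i` -/
structure Own (n : ι → ℕ) (ph : ι → ℝ → ℝ) : Prop where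
  smooth : ∀ i, ContDiff ℝ 2 (ph i)
  deg : ∀ i x, ph i (x + 2 * Real.pi) = ph i x + 2 * Real.pi * n i

/-- the vector of the lifted phases -/
def lft (ph : ι → ℝ → ℝ) (θ : ι → ℝ) : ι → ℝ := fun i => ph i (θ i)

/-- the path: `(1 - s) (∑ vᵢ θᵢ + c) + s Φ` -/
def path (Φ : (ι → ℝ) → ℝ) (ph : ι → ℝ → ℝ) (v : ι → ℕ) (p : ℝ × (ι → ℝ)) : ℝ :=
  (1 - p.1) * (∑ i, v i * p.2 i) + p.1 * Φ (lft ph p.2)

omit [DecidableEq ι] in
theorem contDiff_lft {n : ι → ℕ} {ph : ι → ℝ → ℝ} (h : Own n ph) : ContDiff ℝ 2 (lft ph) :=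
  contDiff_pi.2 fun i => (h.smooth i).comp (contDiff_apply ℝ ℝ i)

theorem contDiff_path {n : ι → ℕ} {ph : ι → ℝ → ℝ} (h : Own n ph) {Φ : (ι → ℝ) → ℝ} {e : ℝ}
    (hΦ : Ph Φ e) (v : ι → ℕ) : ContDiff ℝ 2 (path Φ ph v) := by
  have h1 : ContDiff ℝ 2 Φ := hΦ.smooth.of_le two_le_infty
  have h2 : ContDiff ℝ 2 fun p : ℝ × (ι → ℝ) => ∑ i, (v i : ℝ) * p.2 i :=
    ContDiff.sum fun i _ => contDiff_const.mul ((contDiff_apply ℝ ℝ i).comp contDiff_snd)
  exact ((contDiff_const.sub contDiff_fst).mul h2).add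
    (contDiff_fst.mul (h1.comp ((contDiff_lft h).comp contDiff_snd)))

/-- derivative of `Φ ∘ lft` along the angle `i` -/
theorem fderiv_lft {n : ι → ℕ} {ph : ι → ℝ → ℝ} (h : Own n ph) {Φ : (ι → ℝ) → ℝ} {e : ℝ}
    (hΦ : Ph Φ e) (θ : ι → ℝ) (i : ι) :
    fderiv ℝ (fun θ => Φ (lft ph θ)) θ (Pi.single i 1) =
      wt Φ (lft ph θ) i * deriv (ph i) (θ i) := by
  have h1 : DifferentiableAt ℝ (lft ph) θ := (contDiff_lft h).differentiable (by norm_num) θ
  have h2 : fderiv ℝ (lft ph) θ (Pi.single i 1) = Pi.single i (deriv (ph i) (θ i)) := by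
    have h3 : HasFDerivAt (lft ph) (ContinuousLinearMap.pi fun j =>
        (deriv (ph j) (θ j)) • ContinuousLinearMap.proj (R := ℝ) (φ := fun _ : ι => ℝ) j) θ := by
      rw [hasFDerivAt_pi]
      intro j
      have h4 : HasDerivAt (ph j) (deriv (ph j) (θ j)) (θ j) :=
        ((h.smooth j).differentiable (by norm_num) (θ j)).hasDerivAt
      exact h4.comp_hasFDerivAt θ
        (ContinuousLinearMap.proj (R := ℝ) (φ := fun _ : ι => ℝ) j).hasFDerivAt
    rw [h3.fderiv]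
    ext j
    simp only [ContinuousLinearMap.coe_pi', FunLike.coe_smul, Pi.smul_apply,
      ContinuousLinearMap.proj_apply, smul_eq_mul]
    by_cases hj : j = i
    · subst hj; simp
    · rw [Pi.single_eq_of_ne hj, Pi.single_eq_of_ne hj, mul_zero]
  have h5 : fderiv ℝ (fun θ => Φ (lft ph θ)) θ =
      (fderiv ℝ Φ (lft ph θ)).comp (fderiv ℝ (lft ph) θ) :=
    fderiv_comp θ (hΦ.diff _) h1
  rw [h5, ContinuousLinearMap.comp_apply, h2, wt]
  have h6 : (Pi.single i (deriv (ph i) (θ i)) : ι → ℝ) =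
      (deriv (ph i) (θ i)) • Pi.single i (1 : ℝ) := by
    rw [← Pi.single_smul, smul_eq_mul, mul_one]
  rw [h6, map_smul, smul_eq_mul, mul_comm]

/-- derivative of the path phase along the angle `i` -/
theorem fderiv_path {n : ι → ℕ} {ph : ι → ℝ → ℝ} (h : Own n ph) {Φ : (ι → ℝ) → ℝ} {e : ℝ}
    (hΦ : Ph Φ e) (v : ι → ℕ) (s : ℝ) (θ : ι → ℝ) (i : ι) :
    fderiv ℝ (path Φ ph v) (s, θ) (0, Pi.single i 1) =
      (1 - s) * v i + s * (wt Φ (lft ph θ) i * deriv (ph i) (θ i)) := by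
  have h0 : DifferentiableAt ℝ (path Φ ph v) (s, θ) :=
    (contDiff_path h hΦ v).differentiable (by norm_num) _
  have h1 : fderiv ℝ (path Φ ph v) (s, θ) (0, Pi.single i 1) =
      fderiv ℝ (fun θ' => path Φ ph v (s, θ')) θ (Pi.single i 1) := by
    have h2 : HasFDerivAt (fun θ' : ι → ℝ => (s, θ'))
        (ContinuousLinearMap.inr ℝ ℝ (ι → ℝ)) θ := hasFDerivAt_prodMk_right s θ
    have h3 := (h0.hasFDerivAt).comp θ h2
    have h4 : fderiv ℝ (fun θ' => path Φ ph v (s, θ')) θ =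
        (fderiv ℝ (path Φ ph v) (s, θ)).comp (ContinuousLinearMap.inr ℝ ℝ (ι → ℝ)) := h3.fderiv
    rw [h4]; simp
  rw [h1]
  have h2 : DifferentiableAt ℝ (fun θ => Φ (lft ph θ)) θ :=
    (hΦ.diff _).comp θ ((contDiff_lft h).differentiable (by norm_num) θ)
  have h3 : HasFDerivAt (fun θ' : ι → ℝ => ∑ j, (v j : ℝ) * θ' j)
      (∑ j, (v j : ℝ) • ContinuousLinearMap.proj (R := ℝ) (φ := fun _ : ι => ℝ) j) θ := by
    refine HasFDerivAt.fun_sum fun j _ => ?_
    exact (ContinuousLinearMap.proj (R := ℝ) (φ := fun _ : ι => ℝ) j).hasFDerivAt.const_mul _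
  have h4 : HasFDerivAt (fun θ' => path Φ ph v (s, θ'))
      ((1 - s) • (∑ j, (v j : ℝ) • ContinuousLinearMap.proj (R := ℝ) (φ := fun _ : ι => ℝ) j)
        + s • fderiv ℝ (fun θ => Φ (lft ph θ)) θ) θ :=
    (h3.const_mul (1 - s)).add (h2.hasFDerivAt.const_mul s)
  rw [h4.fderiv]
  simp only [add_apply, smul_apply, smul_eq_mul, fderiv_lft h hΦ]
  congr 2
  rw [sum_apply]
  simp [Pi.single_apply]

/-- translation by `2π` in the angle `i` -/
theorem path_shift {n : ι → ℕ} {ph : ι → ℝ → ℝ} (h : Own n ph) {Φ : (ι → ℝ) → ℝ}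
    {v : ι → ℕ} (i : ι) (hS : Sh Φ (Pi.single i (2 * Real.pi * n i)) (2 * Real.pi * v i))
    (s : ℝ) (θ : ι → ℝ) :
    path Φ ph v (s, θ + Pi.single i (2 * Real.pi)) = path Φ ph v (s, θ) + 2 * Real.pi * v i := by
  have h1 : lft ph (θ + Pi.single i (2 * Real.pi)) =
      lft ph θ + Pi.single i (2 * Real.pi * n i) := by
    ext j
    by_cases hj : j = i
    · subst hj
      simp only [lft, Pi.add_apply, Pi.single_eq_same]
      exact h.deg j (θ j)
    · simp [lft, Pi.single_eq_of_ne hj]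
  simp only [path, h1, hS (lft ph θ)]
  have h2 : ∑ j, (v j : ℝ) * (θ + Pi.single i (2 * Real.pi) : ι → ℝ) j =
      ∑ j, (v j : ℝ) * θ j + v i * (2 * Real.pi) := by
    simp only [Pi.add_apply, mul_add, Finset.sum_add_distrib]
    congr 1
    simp [Pi.single_apply]
  rw [h2]; ring

/-- hence the unit vector is `2π`-periodic in every angle -/
theorem cis_path_shift {n : ι → ℕ} {ph : ι → ℝ → ℝ} (h : Own n ph) {Φ : (ι → ℝ) → ℝ}
    {v : ι → ℕ} (i : ι) (hS : Sh Φ (Pi.single i (2 * Real.pi * n i)) (2 * Real.pi * v i))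
    (s : ℝ) (θ : ι → ℝ) :
    cis (path Φ ph v (s, θ + Pi.single i (2 * Real.pi))) = cis (path Φ ph v (s, θ)) := by
  rw [path_shift h i hS, cis_per_nat]

/-- the coefficient function of a coupling -/
def cf (Φ : (ι → ℝ) → ℝ) (ph : ι → ℝ → ℝ) (v : ι → ℕ) (p : ℝ × (ι → ℝ)) : ℂ :=
  cis (path Φ ph v p)

theorem contDiff_cf {n : ι → ℕ} {ph : ι → ℝ → ℝ} (h : Own n ph) {Φ : (ι → ℝ) → ℝ} {e : ℝ}
    (hΦ : Ph Φ e) (v : ι → ℕ) : ContDiff ℝ 2 (cf Φ ph v) :=
  contDiff_cis.comp (contDiff_path h hΦ v)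

omit [DecidableEq ι] in
theorem norm_cf (Φ : (ι → ℝ) → ℝ) (ph : ι → ℝ → ℝ) (v : ι → ℕ) (p : ℝ × (ι → ℝ)) :
    ‖cf Φ ph v p‖ = 1 := norm_cis _

theorem fderiv_cf {n : ι → ℕ} {ph : ι → ℝ → ℝ} (h : Own n ph) {Φ : (ι → ℝ) → ℝ} {e : ℝ}
    (hΦ : Ph Φ e) (v : ι → ℕ) (s : ℝ) (θ : ι → ℝ) (i : ι) :
    fderiv ℝ (cf Φ ph v) (s, θ) (0, Pi.single i 1) =
      (((1 - s) * v i + s * (wt Φ (lft ph θ) i * deriv (ph i) (θ i)) : ℝ) : ℂ) *
        (Complex.I * cf Φ ph v (s, θ)) := by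
  have h0 : DifferentiableAt ℝ (path Φ ph v) (s, θ) :=
    (contDiff_path h hΦ v).differentiable (by norm_num) _
  have h2 : fderiv ℝ (cf Φ ph v) (s, θ) =
      ContinuousLinearMap.smulRight (fderiv ℝ (path Φ ph v) (s, θ))
        (Complex.I * cis (path Φ ph v (s, θ))) := by
    have h3 : HasFDerivAt (cf Φ ph v) (ContinuousLinearMap.smulRight
        (fderiv ℝ (path Φ ph v) (s, θ)) (Complex.I * cis (path Φ ph v (s, θ)))) (s, θ) := by
      have := (hasDerivAt_cis (path Φ ph v (s, θ))).hasFDerivAt.comp (s, θ) h0.hasFDerivAt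
      refine this.congr_fderiv ?_
      ext w <;> simp
    exact h3.fderiv
  rw [h2, ContinuousLinearMap.smulRight_apply, fderiv_path h hΦ, Complex.real_smul]
  rfl

/-! ## the pointwise data of `Stair_739` -/

/-- data at a point at `s = 1`.  `act`: in-lobe variables (couplings move with them);
`J`: variables in their word sector with a moving own phase; all the others are off-lobe. -/
def datOf {ε : Type*} [Fintype ε] (Φ : ε → (ι → ℝ) → ℝ) {e : ℝ} (hΦ : ∀ v, Ph (Φ v) e)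
    (he : 0 ≤ e) (u : ι → ℝ) (act J : ι → Prop) [DecidablePred act]
    (R : ι → ℝ) (R0 : ∀ i, 0 ≤ R i) (r : ε → ℝ) (r0 : ∀ v, 0 ≤ r v)
    (κ : ι → ℂ) (κ1 : ∀ i, ‖κ i‖ = 1) (hact : ∀ i, act i → κ i = cis (u i))
    (hoff : ∀ i, ¬ act i → cis (u i) = -1) (hJ : ∀ i, ¬ act i → ¬ J i → κ i = -1) :
    Stair_739.Dat ι ε where
  R := R
  κ := κ
  r := r
  τ := fun v => cis (Φ v u)
  μ := fun v i => if act i then wt (Φ v) u i else 0
  on := fun i => act i ∨ J i
  tol := e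
  R0 := R0
  r0 := r0
  μ0 := fun v i => by
    split_ifs
    · exact (hΦ v).nn u i
    · exact le_rfl
  κ1 := κ1
  τ1 := fun v => norm_cis _
  tol0 := he
  off := fun i hi => hJ i (fun h => hi (Or.inl h)) fun h => hi (Or.inr h)
  μoff := fun v i hi => if_neg fun h => hi (Or.inl h)
  close := fun v i hi => by
    by_cases ha : act i
    · rw [if_pos ha] at hi
      rw [hact i ha]
      exact (hΦ v).close u i hi
    · rw [if_neg ha] at hi
      exact absurd hi (lt_irrefl _)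
  sum_le := fun v => by
    refine le_trans (Finset.sum_le_sum fun i _ => ?_) ((hΦ v).sum_le u)
    split_ifs
    · exact le_rfl
    · exact (hΦ v).nn u i
  flat := fun v hv => by
    by_cases hs : ∑ i, wt (Φ v) u i < 1
    · exact (hΦ v).flat u hs
    · have h1 : ∑ i, wt (Φ v) u i = 1 := le_antisymm ((hΦ v).sum_le u) (not_lt.1 hs)
      have h2 : ∃ i, ¬ act i ∧ 0 < wt (Φ v) u i := by
        by_contra hcon
        push Not at hcon
        refine absurd ?_ (ne_of_lt hv)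
        rw [← h1]
        refine Finset.sum_congr rfl fun i _ => ?_
        by_cases ha : act i
        · rw [if_pos ha]
        · rw [if_neg ha]
          exact le_antisymm ((hΦ v).nn u i) (hcon i ha)
      obtain ⟨i, hi, hw⟩ := h2
      have h3 := (hΦ v).close u i hw
      rwa [hoff i hi] at h3

end Crest.Agent.R267.StairPh_739
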