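import Crest.Agent.R267.WordPh_9
import Crest.Agent.R267.StairPh_739

/-!
# Row 267 (helper118): states of the literal words `wph` and windows `wn` of `WordPh_9`

Lobes `[α i, β i]`, gaps `[β i, α (i + 1)]`, `i ≤ M`.  `Lobe M α β i k x`: the angle `x` lies in the
closed lobe `i` on the sheet `k`; `Gap M α β i k x`: in the closed gap after the lobe `i`.

* `cover`: every angle lies in a lobe or in a gap;
* `Lobe.wph_eq`, `Lobe.deriv_wph`, `Gap.wph_eq`, `Gap.deriv_wph`: the phase;
* `Lobe.wn_eq`, `Lobe.deriv_wn`, `Gap.wn_zero`, `Gap.wn_one`, `Gap.deriv_wn`: the windows;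
* `hph h α β`: the hub phase (the lobes `i ≥ h` are replaced by a constant).
-/

set_option autoImplicit false

noncomputable section

open Finset Set Filter Topology
open Crest.Agent.R267.T3aDefs_957 (st)
open Crest.Agent.R267.Calc_957
open Crest.Agent.R267.GlNDefs_9
open Crest.Agent.R267.WordPh_9
open Crest.Agent.R267.Ang_739
open Crest.Agent.R267.StairFn_739 (cis_pi cis_zero cis_add)

namespace Crest.Agent.R267.HSt_118

/-! ### the step function -/

theorem ps_before {a b : ℝ} (h : a < b) (h' : b < a + 2 * Real.pi) {k : ℤ} {x : ℝ}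
    (h1 : b - 2 * Real.pi ≤ x - 2 * Real.pi * k) (h2 : x - 2 * Real.pi * k ≤ a) :
    ps a b x = k ∧ deriv (ps a b) x = 0 := by
  constructor
  · rw [ps_eq h h'.le k (by linarith) (by linarith [two_pi_pos']), st_of_le, add_zero]
    exact div_nonpos_of_nonpos_of_nonneg (by linarith) (by linarith)
  · rcases h1.lt_or_eq with h3 | h3
    · rw [(hasDerivAt_ps h h' (k := k) (x := x) (by linarith) (by linarith [two_pi_pos'])).deriv,
        std_of_le, zero_div]
      exact div_nonpos_of_nonpos_of_nonneg (by linarith) (by linarith)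
    · rw [(hasDerivAt_ps h h' (k := k - 1) (x := x) (by push_cast; linarith [two_pi_pos'])
        (by push_cast; linarith)).deriv, std_of_ge, zero_div]
      rw [le_div_iff₀ (by linarith)]
      push_cast
      linarith

theorem ps_after {a b : ℝ} (h : a < b) (h' : b < a + 2 * Real.pi) {k : ℤ} {x : ℝ}
    (h1 : b ≤ x - 2 * Real.pi * k) (h2 : x - 2 * Real.pi * k ≤ a + 2 * Real.pi) :
    ps a b x = k + 1 ∧ deriv (ps a b) x = 0 := by
  have := ps_before h h' (k := k + 1) (x := x) (by push_cast; linarith) (by push_cast; linarith)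
  push_cast at this
  exact this

theorem ps_in {a b : ℝ} (h : a < b) (h' : b < a + 2 * Real.pi) {k : ℤ} {x : ℝ}
    (h1 : a ≤ x - 2 * Real.pi * k) (h2 : x - 2 * Real.pi * k ≤ b) :
    ps a b x = k + st ((x - 2 * Real.pi * k - a) / (b - a)) ∧
      deriv (ps a b) x = std ((x - 2 * Real.pi * k - a) / (b - a)) / (b - a) := by
  have e : x - a - 2 * Real.pi * k = x - 2 * Real.pi * k - a := by ring
  constructor
  · rw [ps_eq h h'.le k (by linarith) (by linarith), e]
  · rw [(hasDerivAt_ps h h' (k := k) (x := x) (by linarith) (by linarith)).deriv, e]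

/-! ### lobes and gaps -/

variable {M : ℕ} {α β : ℕ → ℝ} {e : ℕ → ℝ}

/-- `x` lies in the closed lobe `i`, sheet `k` -/
structure Lobe (M : ℕ) (α β : ℕ → ℝ) (i : ℕ) (k : ℤ) (x : ℝ) : Prop where
  hi : i ≤ M
  lo : α i ≤ x - 2 * Real.pi * k
  up : x - 2 * Real.pi * k ≤ β i

/-- `x` lies in the closed gap between the lobes `i` and `i + 1`, sheet `k` -/
structure Gap (M : ℕ) (α β : ℕ → ℝ) (i : ℕ) (k : ℤ) (x : ℝ) : Prop where
  hi : i ≤ M
  lo : β i ≤ x - 2 * Real.pi * k
  up : x - 2 * Real.pi * k ≤ α (i + 1)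

theorem cover_aux (y : ℝ) (m : ℕ) (h0 : α 0 ≤ y) (h1 : y < α m) :
    ∃ i, i + 1 ≤ m ∧ α i ≤ y ∧ y ≤ α (i + 1) := by
  induction m with
  | zero => exact absurd h0 (not_le.2 h1)
  | succ m ih =>
    rcases lt_or_ge y (α m) with h2 | h2
    · obtain ⟨i, hi, h3⟩ := ih h2
      exact ⟨i, by omega, h3⟩
    · exact ⟨m, le_rfl, h2, h1.le⟩

/-- **every angle is in a lobe or in a gap** -/
theorem cover (H : Arcs M α β) (x : ℝ) :
    ∃ (k : ℤ) (i : ℕ), Lobe M α β i k x ∨ Gap M α β i k x := by
  have hp := two_pi_pos'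
  set k := ⌊(x - α 0) / (2 * Real.pi)⌋ with hk
  have h1 : α 0 ≤ x - 2 * Real.pi * k := by
    have := Int.floor_le ((x - α 0) / (2 * Real.pi))
    rw [le_div_iff₀ hp, ← hk] at this
    linarith
  have h2 : x - 2 * Real.pi * k < α (M + 1) := by
    have := Int.lt_floor_add_one ((x - α 0) / (2 * Real.pi))
    rw [div_lt_iff₀ hp, ← hk] at this
    rw [H.last]
    linarith
  obtain ⟨i, hi, h3, h4⟩ := cover_aux (x - 2 * Real.pi * k) (M + 1) h1 h2
  refine ⟨k, i, ?_⟩
  rcases le_total (x - 2 * Real.pi * k) (β i) with h5 | h5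
  · exact Or.inl ⟨by omega, h3, h5⟩
  · exact Or.inr ⟨by omega, h5, h4⟩

section

variable (H : Arcs M α β)

include H

/-! ### windows -/

theorem Lobe.step {i : ℕ} {k : ℤ} {x : ℝ} (L : Lobe M α β i k x) {j : ℕ} (hj : j ≤ M) :
    ps (β j) (α (j + 1)) x = (if j < i then k + 1 else k : ℝ) ∧
      deriv (ps (β j) (α (j + 1))) x = 0 := by
  have hi := L.hi
  split
  · rename_i hji
    refine ps_after (H.ba j hj) (len' H hj) ?_ ?_
    · exact (arcs_mono H (show j + 1 ≤ i by omega) (by omega)).trans L.lo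
    · have h1 := beta_le H (show i < M + 1 by omega) le_rfl
      have h2 := H.ab j hj
      have h3 := arcs_mono H (Nat.zero_le j) (by omega)
      have h4 := H.last
      linarith [L.up]
  · rename_i hji
    refine ps_before (H.ba j hj) (len' H hj) ?_ ?_
    · have h1 := arcs_mono H (show j + 1 ≤ M + 1 by omega) le_rfl
      have h2 := arcs_mono H (Nat.zero_le i) (by omega)
      have h4 := H.last
      linarith [L.lo]
    · rcases (Nat.not_lt.1 hji).lt_or_eq with h5 | h5
      · have h1 := beta_le H h5 (by omega)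
        have h2 := H.ab j hj
        linarith [L.up]
      · rw [← h5]
        exact L.up

theorem Gap.step {i : ℕ} {k : ℤ} {x : ℝ} (L : Gap M α β i k x) {j : ℕ} (hj : j ≤ M)
    (hji : j ≠ i) :
    ps (β j) (α (j + 1)) x = (if j < i then k + 1 else k : ℝ) ∧
      deriv (ps (β j) (α (j + 1))) x = 0 := by
  have hi := L.hi
  split
  · rename_i hji'
    refine ps_after (H.ba j hj) (len' H hj) ?_ ?_
    · have h1 := arcs_mono H (show j + 1 ≤ i by omega) (by omega)
      have h2 := H.ab i hi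
      linarith [L.lo]
    · have h1 := arcs_mono H (show i + 1 ≤ M + 1 by omega) le_rfl
      have h2 := H.ab j hj
      have h3 := arcs_mono H (Nat.zero_le j) (by omega)
      have h4 := H.last
      linarith [L.up]
  · rename_i hji'
    have hij : i + 1 ≤ j := by omega
    refine ps_before (H.ba j hj) (len' H hj) ?_ ?_
    · have h1 := arcs_mono H (show j + 1 ≤ M + 1 by omega) le_rfl
      have h2 := arcs_mono H (Nat.zero_le i) (by omega)
      have h3 := H.ab i hi
      have h4 := H.last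
      linarith [L.lo]
    · have h1 := arcs_mono H hij (by omega)
      have h2 := H.ab j hj
      linarith [L.up]

/-- **windows on the lobes** -/
theorem Lobe.wn_eq {i : ℕ} {k : ℤ} {x : ℝ} (L : Lobe M α β i k x) {lo hi : ℕ} (hlo : lo ≤ hi)
    (hhi : hi ≤ M) : wn α β lo hi x = if lo < i ∧ i ≤ hi then 1 else 0 := by
  unfold wn
  rw [(L.step H (hlo.trans hhi)).1, (L.step H hhi).1]
  by_cases c1 : lo < i <;> by_cases c2 : hi < i
  · rw [if_pos c1, if_pos c2, if_neg (by omega)]; ring
  · rw [if_pos c1, if_neg c2, if_pos (by omega)]; ring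
  · omega
  · rw [if_neg c1, if_neg c2, if_neg (by omega)]; ring

theorem hasDerivAt_wn {lo hi : ℕ} (hlo : lo ≤ hi) (hhi : hi ≤ M) (x : ℝ) :
    deriv (wn α β lo hi) x = deriv (ps (β lo) (α (lo + 1))) x - deriv (ps (β hi) (α (hi + 1))) x := by
  have h1 := ((contDiff_ps (H.ba lo (hlo.trans hhi)) (len' H (hlo.trans hhi))).differentiable
    (by norm_num) x).hasDerivAt
  have h2 := ((contDiff_ps (H.ba hi hhi) (len' H hhi)).differentiable (by norm_num) x).hasDerivAt
  exact (h1.sub h2).deriv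

/-- **windows do not move on the lobes** -/
theorem Lobe.deriv_wn {i : ℕ} {k : ℤ} {x : ℝ} (L : Lobe M α β i k x) {lo hi : ℕ} (hlo : lo ≤ hi)
    (hhi : hi ≤ M) : deriv (wn α β lo hi) x = 0 := by
  rw [hasDerivAt_wn H hlo hhi, (L.step H (hlo.trans hhi)).2, (L.step H hhi).2, sub_zero]

/-- windows in the gaps, away from their ends -/
theorem Gap.wn_eq {i : ℕ} {k : ℤ} {x : ℝ} (L : Gap M α β i k x) {lo hi : ℕ} (hlo : lo ≤ hi)
    (hhi : hi ≤ M) (h1 : lo ≠ i) (h2 : hi ≠ i) :
    wn α β lo hi x = if lo < i ∧ i < hi then 1 else 0 := by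
  unfold wn
  rw [(L.step H (hlo.trans hhi) h1).1, (L.step H hhi h2).1]
  by_cases c1 : lo < i <;> by_cases c2 : hi < i
  · rw [if_pos c1, if_pos c2, if_neg (by omega)]; ring
  · rw [if_pos c1, if_neg c2, if_pos (by omega)]; ring
  · omega
  · rw [if_neg c1, if_neg c2, if_neg (by omega)]; ring

theorem Gap.wn_zero {i : ℕ} {k : ℤ} {x : ℝ} (L : Gap M α β i k x) {lo hi : ℕ} (hlo : lo ≤ hi)
    (hhi : hi ≤ M) (h : i < lo ∨ hi < i) : wn α β lo hi x = 0 := by
  rw [L.wn_eq H hlo hhi (by omega) (by omega), if_neg (by omega)]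

theorem Gap.wn_one {i : ℕ} {k : ℤ} {x : ℝ} (L : Gap M α β i k x) {lo hi : ℕ} (hlo : lo ≤ hi)
    (hhi : hi ≤ M) (h : lo < i ∧ i < hi) : wn α β lo hi x = 1 := by
  rw [L.wn_eq H hlo hhi (by omega) (by omega), if_pos h]

/-- windows move only in the gaps of their ends -/
theorem Gap.deriv_wn {i : ℕ} {k : ℤ} {x : ℝ} (L : Gap M α β i k x) {lo hi : ℕ} (hlo : lo ≤ hi)
    (hhi : hi ≤ M) (h1 : lo ≠ i) (h2 : hi ≠ i) : deriv (wn α β lo hi) x = 0 := by
  rw [hasDerivAt_wn H hlo hhi, (L.step H (hlo.trans hhi) h1).2, (L.step H hhi h2).2, sub_zero]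

/-! ### the phase -/

theorem deriv_wph_sum (x : ℝ) : deriv (wph e M α β) x =
    2 * Real.pi * ∑ i ∈ range (M + 1), se e i * deriv (ps (α i) (β i)) x :=
  (hasDerivAt_wph H x).deriv

theorem ps_lobe_lt {i : ℕ} {k : ℤ} {x : ℝ} (hi : i ≤ M) (h1 : α i ≤ x - 2 * Real.pi * k)
    (h2 : x - 2 * Real.pi * k ≤ α (i + 1)) {j : ℕ} (hj : j < i) :
    ps (α j) (β j) x = k + 1 ∧ deriv (ps (α j) (β j)) x = 0 := by
  refine ps_after (H.ab j (by omega)) (len H (by omega)) ?_ ?_
  · exact (beta_le H hj (by omega)).trans h1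
  · have h3 := arcs_mono H (show i + 1 ≤ M + 1 by omega) le_rfl
    have h4 := arcs_mono H (Nat.zero_le j) (by omega)
    have h5 := H.last
    linarith

theorem ps_lobe_gt {i : ℕ} {k : ℤ} {x : ℝ} (hi : i ≤ M) (h1 : α i ≤ x - 2 * Real.pi * k)
    (h2 : x - 2 * Real.pi * k ≤ α (i + 1)) {j : ℕ} (hj : i < j) (hjM : j ≤ M) :
    ps (α j) (β j) x = k ∧ deriv (ps (α j) (β j)) x = 0 := by
  refine ps_before (H.ab j hjM) (len H hjM) ?_ ?_
  · have h3 := beta_le H (show j < M + 1 by omega) le_rfl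
    have h4 := arcs_mono H (Nat.zero_le i) (by omega)
    have h5 := H.last
    linarith
  · exact h2.trans (arcs_mono H (show i + 1 ≤ j by omega) (by omega))

/-- the sums -/
theorem wph_aux {i : ℕ} {k : ℤ} {x : ℝ} (hi : i ≤ M) (h1 : α i ≤ x - 2 * Real.pi * k)
    (h2 : x - 2 * Real.pi * k ≤ α (i + 1)) {s s' : ℝ} (hs : ps (α i) (β i) x = k + s)
    (hs' : deriv (ps (α i) (β i)) x = s') :
    wph e M α β x = cen e i + 2 * Real.pi * se e i * (s - 1 / 2) + tot e M * k ∧
      deriv (wph e M α β) x = 2 * Real.pi * se e i * s' := by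
  have hsplit : range (M + 1) = range i ∪ ({i} ∪ Finset.Ico (i + 1) (M + 1)) := by
    ext l
    simp only [Finset.mem_range, Finset.mem_union, Finset.mem_singleton, Finset.mem_Ico]
    omega
  have hd1 : Disjoint (range i) ({i} ∪ Finset.Ico (i + 1) (M + 1)) := by
    rw [Finset.disjoint_left]
    intro l
    simp only [Finset.mem_range, Finset.mem_union, Finset.mem_singleton, Finset.mem_Ico]
    omega
  have hd2 : Disjoint ({i} : Finset ℕ) (Finset.Ico (i + 1) (M + 1)) := by
    rw [Finset.disjoint_left]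
    intro l
    simp only [Finset.mem_singleton, Finset.mem_Ico]
    omega
  constructor
  · have e1 : ∑ l ∈ range (M + 1), se e l * ps (α l) (β l) x =
        (∑ l ∈ range (M + 1), se e l) * k + ∑ l ∈ range i, se e l + se e i * s := by
      have e2 : ∑ l ∈ range i, se e l * ps (α l) (β l) x =
          (∑ l ∈ range i, se e l) * k + ∑ l ∈ range i, se e l := by
        rw [Finset.sum_mul, ← Finset.sum_add_distrib]
        refine Finset.sum_congr rfl fun l hl => ?_
        rw [(ps_lobe_lt H hi h1 h2 (Finset.mem_range.1 hl)).1]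
        ring
      have e3 : ∑ l ∈ Finset.Ico (i + 1) (M + 1), se e l * ps (α l) (β l) x =
          (∑ l ∈ Finset.Ico (i + 1) (M + 1), se e l) * k := by
        rw [Finset.sum_mul]
        refine Finset.sum_congr rfl fun l hl => ?_
        have := Finset.mem_Ico.1 hl
        rw [(ps_lobe_gt H hi h1 h2 (show i < l by omega) (by omega)).1]
      rw [hsplit, Finset.sum_union hd1, Finset.sum_union hd2, Finset.sum_singleton,
        Finset.sum_union hd1, Finset.sum_union hd2, Finset.sum_singleton, e2, e3, hs]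
      ring
    unfold wph
    rw [e1, cen_eq, tot_eq]
    ring
  · rw [deriv_wph_sum H, hsplit, Finset.sum_union hd1, Finset.sum_union hd2, Finset.sum_singleton,
      hs']
    have e2 : ∑ l ∈ range i, se e l * deriv (ps (α l) (β l)) x = 0 :=
      Finset.sum_eq_zero fun l hl => by
        rw [(ps_lobe_lt H hi h1 h2 (Finset.mem_range.1 hl)).2, mul_zero]
    have e3 : ∑ l ∈ Finset.Ico (i + 1) (M + 1), se e l * deriv (ps (α l) (β l)) x = 0 :=
      Finset.sum_eq_zero fun l hl => by
        have := Finset.mem_Ico.1 hl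
        rw [(ps_lobe_gt H hi h1 h2 (show i < l by omega) (by omega)).2, mul_zero]
    rw [e2, e3]
    ring

/-- **the phase in a lobe** -/
theorem Lobe.wph_eq {i : ℕ} {k : ℤ} {x : ℝ} (L : Lobe M α β i k x) :
    wph e M α β x = cen e i +
      2 * Real.pi * se e i * (st ((x - 2 * Real.pi * k - α i) / (β i - α i)) - 1 / 2) +
      tot e M * k := by
  have hi := L.hi
  have hs := ps_in (H.ab i hi) (len H hi) L.lo L.up
  exact (wph_aux H hi L.lo (L.up.trans (H.ba i hi).le) hs.1 hs.2).1

theorem Lobe.deriv_wph {i : ℕ} {k : ℤ} {x : ℝ} (L : Lobe M α β i k x) :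
    deriv (wph e M α β) x = 2 * Real.pi * se e i *
      (std ((x - 2 * Real.pi * k - α i) / (β i - α i)) / (β i - α i)) := by
  have hi := L.hi
  have hs := ps_in (H.ab i hi) (len H hi) L.lo L.up
  exact (wph_aux (e := e) H hi L.lo (L.up.trans (H.ba i hi).le) hs.1 hs.2).2

/-- **the phase in a gap** -/
theorem Gap.wph_eq {i : ℕ} {k : ℤ} {x : ℝ} (L : Gap M α β i k x) :
    wph e M α β x = cen e i + Real.pi * se e i + tot e M * k := by
  have hi := L.hi
  have h1 := H.ab i hi
  have hs := ps_after h1 (len H hi) L.lo (by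
    have h3 := arcs_mono H (show i + 1 ≤ M + 1 by omega) le_rfl
    have h4 := arcs_mono H (Nat.zero_le i) (by omega)
    have h5 := H.last
    linarith [L.up])
  rw [(wph_aux H hi (by linarith [L.lo]) L.up hs.1 hs.2).1]
  ring

/-- **the phase does not move in a gap** -/
theorem Gap.deriv_wph {i : ℕ} {k : ℤ} {x : ℝ} (L : Gap M α β i k x) :
    deriv (wph e M α β) x = 0 := by
  have hi := L.hi
  have h1 := H.ab i hi
  have hs := ps_after h1 (len H hi) L.lo (by
    have h3 := arcs_mono H (show i + 1 ≤ M + 1 by omega) le_rfl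
    have h4 := arcs_mono H (Nat.zero_le i) (by omega)
    have h5 := H.last
    linarith [L.up])
  rw [(wph_aux (e := e) H hi (by linarith [L.lo]) L.up hs.1 hs.2).2, mul_zero]

end

end Crest.Agent.R267.HSt_118
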