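import Crest.Agent.R267.PowY_951
import Crest.Agent.R267.Ang_739
import Crest.Agent.R267.HmE_951

/-!
# Row 267 (helper943): polar library, part 2: sums of polar monomials

`PF E C (t, z) = ∑ v, (∏ i, ‖z i‖ ^ E v i) * C v (t, fun i => arg (z i))`.

* `Coef T E C`: exponents `0` or `> 2`, `C` of class `C²`, `2π`-periodic in every angle,
  independent of `θ i` where `E i = 0`;
* `PF_smooth`: `PF E C` is `C²` on `T × ℂ^ι`, including the coordinate hyperplanes;
* `PF_wh`: weights;
* `Bad`: the conormal equations; `reg_of`: no bad point implies that the derivative is onto;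
* `hpath0`: `0`-regular path.
-/

set_option autoImplicit false
set_option linter.unusedSectionVars false

noncomputable section

open Set Filter Topology Metric
open scoped ContDiff
open Crest.Agent.R267.Cone_808 Crest.Agent.R267.SphReg_808 Crest.Agent.R267.Hm_951

namespace Crest.Agent.R267.PolF_943

variable {ι : Type} [Fintype ι] [DecidableEq ι]

/-- magnitude of a polar monomial -/
def mag (E : ι → ℝ) (z : ι → ℂ) : ℝ := ∏ i, ‖z i‖ ^ E i

/-- the arguments -/
def ag (z : ι → ℂ) : ι → ℝ := fun i => (z i).arg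

/-- polar monomial -/
def PM {Y : Type*} (E : ι → ℝ) (C : Y × (ι → ℝ) → ℂ) (q : Y × (ι → ℂ)) : ℂ :=
  (mag E q.2 : ℂ) * C (q.1, ag q.2)

/-- sum of polar monomials -/
def PF {Y V : Type*} [Fintype V] (E : V → ι → ℝ) (C : V → Y × (ι → ℝ) → ℂ)
    (q : Y × (ι → ℂ)) : ℂ := ∑ v, PM (E v) (C v) q

section smooth

variable {Y : Type*} [NormedAddCommGroup Y] [NormedSpace ℝ Y]

/-- coefficient functions -/
structure Coef (T : Set Y) (E : ι → ℝ) (C : Y × (ι → ℝ) → ℂ) : Prop where
  exp : ∀ i, E i = 0 ∨ 2 < E i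
  smooth : ContDiffOn ℝ 2 C (T ×ˢ univ)
  per : ∀ t ∈ T, ∀ (θ : ι → ℝ) (i : ι),
    C (t, Function.update θ i (θ i + 2 * Real.pi)) = C (t, θ)
  ind : ∀ i, E i = 0 → ∀ t ∈ T, ∀ (θ : ι → ℝ) (x : ℝ), C (t, Function.update θ i x) = C (t, θ)

theorem mag_nonneg (E : ι → ℝ) (z : ι → ℂ) : 0 ≤ mag E z :=
  Finset.prod_nonneg fun i _ => Real.rpow_nonneg (norm_nonneg _) _

theorem mag_eq_zero {E : ι → ℝ} {z : ι → ℂ} {i : ι} (hE : E i ≠ 0) (hz : z i = 0) :
    mag E z = 0 := by
  refine Finset.prod_eq_zero (Finset.mem_univ i) ?_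
  rw [hz, norm_zero, Real.zero_rpow hE]

theorem mag_pos {E : ι → ℝ} {z : ι → ℂ} (hz : ∀ i, E i ≠ 0 → z i ≠ 0) : 0 < mag E z := by
  refine Finset.prod_pos fun i _ => ?_
  by_cases h : E i = 0
  · rw [h, Real.rpow_zero]; exact one_pos
  · exact Real.rpow_pos_of_pos (norm_pos_iff.2 (hz i h)) _

theorem mag_update (E : ι → ℝ) (z : ι → ℂ) (i : ι) (w : ℂ) :
    mag E (Function.update z i w) = ‖w‖ ^ E i * ∏ j ∈ Finset.univ.erase i, ‖z j‖ ^ E j := by
  rw [mag, ← Finset.mul_prod_erase Finset.univ _ (Finset.mem_univ i), Function.update_self]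
  congr 1
  refine Finset.prod_congr rfl fun j hj => ?_
  rw [Function.update_of_ne (Finset.ne_of_mem_erase hj)]

theorem mag_self (E : ι → ℝ) (z : ι → ℂ) (i : ι) :
    mag E z = ‖z i‖ ^ E i * ∏ j ∈ Finset.univ.erase i, ‖z j‖ ^ E j := by
  rw [mag, ← Finset.mul_prod_erase Finset.univ _ (Finset.mem_univ i)]

theorem mag_update_mul (E : ι → ℝ) (z : ι → ℂ) (i : ι) (w : ℂ) :
    mag E (Function.update z i (w * z i)) = ‖w‖ ^ E i * mag E z := by
  rw [mag_update, mag_self E z i, norm_mul, Real.mul_rpow (norm_nonneg _) (norm_nonneg _),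
    mul_assoc]

theorem ag_update (z : ι → ℂ) (i : ι) (w : ℂ) :
    ag (Function.update z i w) = Function.update (ag z) i w.arg := by
  funext j
  by_cases h : j = i
  · subst h
    simp [ag]
  · simp [ag, Function.update_of_ne h]

theorem ag_update_real (z : ι → ℂ) (i : ι) {r : ℝ} (hr : 0 < r) :
    ag (Function.update z i ((r : ℂ) * z i)) = ag z := by
  rw [ag_update, Complex.arg_real_mul _ hr]
  funext j
  by_cases h : j = i
  · subst h
    simp [ag]
  · simp [ag, Function.update_of_ne h]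

section per

variable {T : Set Y} {E : ι → ℝ} {C : Y × (ι → ℝ) → ℂ}

theorem Coef.per_nat (h : Coef T E C) {t : Y} (ht : t ∈ T) (i : ι) (n : ℕ) (θ : ι → ℝ) :
    C (t, Function.update θ i (θ i + 2 * Real.pi * n)) = C (t, θ) := by
  induction n with
  | zero => simp
  | succ n ih =>
    have h1 := h.per t ht (Function.update θ i (θ i + 2 * Real.pi * n)) i
    rw [ih, Function.update_idem, Function.update_self] at h1
    have e : θ i + 2 * Real.pi * ((n + 1 : ℕ) : ℝ) = θ i + 2 * Real.pi * n + 2 * Real.pi := by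
      push_cast; ring
    rw [e, h1]

theorem Coef.per_int (h : Coef T E C) {t : Y} (ht : t ∈ T) (i : ι) (n : ℤ) (θ : ι → ℝ) :
    C (t, Function.update θ i (θ i + 2 * Real.pi * n)) = C (t, θ) := by
  obtain ⟨m, rfl | rfl⟩ := n.eq_nat_or_neg
  · exact_mod_cast h.per_nat ht i m θ
  · have h1 := h.per_nat ht i m (Function.update θ i (θ i + 2 * Real.pi * ((-(m : ℤ) : ℤ) : ℝ)))
    rw [Function.update_idem, Function.update_self] at h1
    rw [← h1]
    have : θ i + 2 * Real.pi * ((-(m : ℤ) : ℤ) : ℝ) + 2 * Real.pi * m = θ i := by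
      push_cast; ring
    rw [this, Function.update_eq_self]

theorem Coef.per_all (h : Coef T E C) {t : Y} (ht : t ∈ T) {θ θ' : ι → ℝ}
    (hn : ∀ i, ∃ n : ℤ, θ' i = θ i + 2 * Real.pi * n) : C (t, θ') = C (t, θ) := by
  have key : ∀ s : Finset ι, C (t, fun i => if i ∈ s then θ' i else θ i) = C (t, θ) := by
    intro s
    induction s using Finset.induction_on with
    | empty => simp
    | insert i s hi ih =>
      obtain ⟨n, hn⟩ := hn i
      rw [← ih, ← h.per_int ht i n (fun i => if i ∈ s then θ' i else θ i)]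
      congr 2
      funext j
      by_cases hj : j = i
      · subst hj
        simp [hi, hn]
      · simp [hj]
  have := key Finset.univ
  simpa using this

theorem Coef.ind_all (h : Coef T E C) {t : Y} (ht : t ∈ T) {θ θ' : ι → ℝ}
    (hn : ∀ i, E i ≠ 0 → θ' i = θ i) : C (t, θ') = C (t, θ) := by
  have key : ∀ s : Finset ι, C (t, fun i => if i ∈ s then θ' i else θ i) = C (t, θ) := by
    intro s
    induction s using Finset.induction_on with
    | empty => simp
    | insert i s hi ih =>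
      by_cases hE : E i = 0
      · rw [← ih, ← h.ind i hE t ht (fun i => if i ∈ s then θ' i else θ i) (θ' i)]
        congr 2
        funext j
        by_cases hj : j = i
        · subst hj
          simp
        · simp [hj]
      · rw [← ih]
        congr 2
        funext j
        by_cases hj : j = i
        · subst hj
          simp [hi, hn j hE]
        · simp [hj]
  have := key Finset.univ
  simpa using this

end per

/-- local branch of the arguments -/
def br (z₀ z : ι → ℂ) : ι → ℝ := fun i => (z₀ i).arg + (z i / z₀ i).arg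

theorem br_self {z₀ : ι → ℂ} (hz : ∀ i, z₀ i ≠ 0) : br z₀ z₀ = ag z₀ := by
  funext i
  simp [br, ag, div_self (hz i)]

theorem ag_br {z₀ z : ι → ℂ} (hz : ∀ i, z₀ i ≠ 0) (hz' : ∀ i, z i ≠ 0) (i : ι) :
    ∃ n : ℤ, br z₀ z i = ag z i + 2 * Real.pi * n := by
  have h1 : (((z₀ i).arg : ℝ) : Real.Angle) + (((z i / z₀ i).arg : ℝ) : Real.Angle) =
      (((z i).arg : ℝ) : Real.Angle) := by
    rw [← Complex.arg_mul_coe_angle (hz i) (div_ne_zero (hz' i) (hz i)),
      mul_div_cancel₀ _ (hz i)]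
  rw [← Real.Angle.coe_add, Real.Angle.angle_eq_iff_two_pi_dvd_sub] at h1
  obtain ⟨k, hk⟩ := h1
  exact ⟨k, by show (z₀ i).arg + (z i / z₀ i).arg = (z i).arg + 2 * Real.pi * k; linarith⟩

theorem contDiffAt_br {z₀ : ι → ℂ} (hz : ∀ i, z₀ i ≠ 0) :
    ContDiffAt ℝ 2 (fun z : ι → ℂ => br z₀ z) z₀ := by
  refine contDiffAt_pi.2 fun i => contDiffAt_const.add ?_
  exact (Ang_739.contDiffAt_argdiv (hz i)).comp z₀ (contDiff_apply ℝ ℂ i).contDiffAt

theorem contDiffAt_mag {E : ι → ℝ} {z₀ : ι → ℂ} (hz : ∀ i, z₀ i ≠ 0) :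
    ContDiffAt ℝ 2 (fun z : ι → ℂ => mag E z) z₀ := by
  refine contDiffAt_prod fun i _ => ?_
  have h1 : ContDiffAt ℝ 2 (fun z : ι → ℂ => ‖z i‖) z₀ :=
    ContDiffAt.norm ℝ (contDiff_apply ℝ ℂ i).contDiffAt (hz i)
  exact h1.rpow_const_of_ne (norm_ne_zero_iff.2 (hz i))

/-- a polar monomial is `C²` off the coordinate hyperplanes -/
theorem contDiffAt_PM {T : Set Y} (hT : IsOpen T) {E : ι → ℝ} {C : Y × (ι → ℝ) → ℂ}
    (h : Coef T E C) {t : Y} (ht : t ∈ T) {z₀ : ι → ℂ} (hz : ∀ i, z₀ i ≠ 0) :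
    ContDiffAt ℝ 2 (PM E C) (t, z₀) := by
  have h1 : ContDiffAt ℝ 2 (fun q : Y × (ι → ℂ) => (mag E q.2 : ℂ) * C (q.1, br z₀ q.2))
      (t, z₀) := by
    refine ContDiffAt.mul ?_ ?_
    · have h2 : ContDiffAt ℝ 2 (fun q : Y × (ι → ℂ) => mag E q.2) (t, z₀) :=
        ContDiffAt.comp (f := fun q : Y × (ι → ℂ) => q.2) (g := fun z => mag E z) (t, z₀)
          (contDiffAt_mag hz) contDiffAt_snd
      exact Complex.ofRealCLM.contDiff.contDiffAt.comp (t, z₀) h2
    · have h3 : ContDiffAt ℝ 2 (fun q : Y × (ι → ℂ) => (q.1, br z₀ q.2)) (t, z₀) :=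
        contDiffAt_fst.prodMk (ContDiffAt.comp (f := fun q : Y × (ι → ℂ) => q.2)
          (g := fun z => br z₀ z) (t, z₀) (contDiffAt_br hz) contDiffAt_snd)
      have h4 : ContDiffAt ℝ 2 C ((fun q : Y × (ι → ℂ) => (q.1, br z₀ q.2)) (t, z₀)) := by
        refine (h.smooth _ ⟨ht, mem_univ _⟩).contDiffAt ?_
        exact (hT.prod isOpen_univ).mem_nhds ⟨ht, mem_univ _⟩
      exact h4.comp (t, z₀) h3
  refine h1.congr_of_eventuallyEq ?_
  have h5 : ∀ᶠ q : Y × (ι → ℂ) in 𝓝 (t, z₀), q.1 ∈ T ∧ ∀ i, q.2 i ≠ 0 := by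
    have h6 : ∀ᶠ q : Y × (ι → ℂ) in 𝓝 (t, z₀), q.1 ∈ T :=
      (hT.preimage continuous_fst).mem_nhds ht
    refine h6.and (eventually_all.2 fun i => ?_)
    exact ((continuous_apply i).comp continuous_snd).continuousAt.eventually_ne (hz i)
  filter_upwards [h5] with q hq
  rw [PM, h.per_all hq.1 (fun i => ag_br hz hq.2 i)]

/-- **polar monomials are `C²`, including the coordinate hyperplanes** -/
theorem PM_smooth [FiniteDimensional ℝ Y] {T : Set Y} (hT : IsOpen T) {E : ι → ℝ}
    {C : Y × (ι → ℝ) → ℂ} (h : Coef T E C) : ContDiffOn ℝ 2 (PM E C) (T ×ˢ univ) := by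
  classical
  refine PowY_951.contDiffOn_multi hT (e := E) (Finset.univ.filter fun i => E i ≠ 0) ?_ ?_ ?_ ?_
  · intro i hi
    exact (h.exp i).resolve_left (by simpa using hi)
  · -- smooth where the relevant variables do not vanish
    have hsub : ContDiff ℝ 2 (fun q : Y × (ι → ℂ) =>
        (q.1, fun i => if E i = 0 then (1 : ℂ) else q.2 i)) := by
      refine contDiff_fst.prodMk (contDiff_pi.2 fun i => ?_)
      by_cases hE : E i = 0
      · simp only [hE, if_true]
        exact contDiff_const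
      · simp only [hE, if_false]
        exact (contDiff_apply ℝ ℂ i).comp contDiff_snd
    have heq : ∀ q : Y × (ι → ℂ), q.1 ∈ T →
        PM E C q = PM E C (q.1, fun i => if E i = 0 then (1 : ℂ) else q.2 i) := by
      intro q hq
      have h1 : mag E q.2 = mag E (fun i => if E i = 0 then (1 : ℂ) else q.2 i) := by
        refine Finset.prod_congr rfl fun i _ => ?_
        by_cases hE : E i = 0
        · simp [hE]
        · simp [hE]
      have h2 : C (q.1, ag q.2) = C (q.1, ag fun i => if E i = 0 then (1 : ℂ) else q.2 i) :=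
        h.ind_all hq fun i hE => by simp [ag, hE]
      rw [PM, PM, h1, h2]
    intro q hq
    have hz : ∀ i, (fun i => if E i = 0 then (1 : ℂ) else q.2 i) i ≠ 0 := by
      intro i
      by_cases hE : E i = 0
      · simp [hE]
      · simp only [hE, if_false]
        exact hq.2 i (by simpa using hE)
    have h3 := (contDiffAt_PM hT h hq.1 hz).comp q hsub.contDiffAt
    refine (h3.congr_of_eventuallyEq ?_).contDiffWithinAt
    filter_upwards [(hT.preimage continuous_fst).mem_nhds hq.1] with q' hq'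
    exact heq q' hq'
  · intro t _ z i hi hz
    rw [PM, mag_eq_zero (by simpa using hi) hz]
    simp
  · intro t _ z i _ r hr
    rw [PM, PM]
    simp only
    rw [mag_update_mul, ag_update_real z i hr, Complex.norm_real, Real.norm_of_nonneg hr.le,
      Complex.real_smul]
    push_cast
    ring

/-- **sums of polar monomials are `C²`** -/
theorem PF_smooth {V : Type*} [Fintype V] [FiniteDimensional ℝ Y] {T : Set Y} (hT : IsOpen T)
    {E : V → ι → ℝ} {C : V → Y × (ι → ℝ) → ℂ} (h : ∀ v, Coef T (E v) (C v)) :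
    ContDiffOn ℝ 2 (PF E C) (T ×ˢ univ) :=
  ContDiffOn.sum fun v _ => PM_smooth hT (h v)

end smooth

section weights

theorem mag_act (E w : ι → ℝ) (s : ℝ) (z : ι → ℂ) :
    mag E (act w s z) = Real.exp (s * ∑ i, w i * E i) * mag E z := by
  have h : ∀ i, ‖act w s z i‖ ^ E i = Real.exp (s * (w i * E i)) * ‖z i‖ ^ E i := by
    intro i
    show ‖(Real.exp (s * w i) : ℂ) * z i‖ ^ E i = _
    rw [norm_mul, Complex.norm_real, Real.norm_of_nonneg (Real.exp_pos _).le,
      Real.mul_rpow (Real.exp_pos _).le (norm_nonneg _), ← Real.exp_mul]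
    congr 2
    ring
  rw [mag, Finset.prod_congr rfl fun i _ => h i, Finset.prod_mul_distrib, ← Real.exp_sum,
    Finset.mul_sum]
  rfl

theorem ag_act (w : ι → ℝ) (s : ℝ) (z : ι → ℂ) : ag (act w s z) = ag z := by
  funext i
  exact Complex.arg_real_mul _ (Real.exp_pos _)

/-- **weights** -/
theorem PF_wh {Y V : Type*} [Fintype V] {E : V → ι → ℝ} (C : V → Y × (ι → ℝ) → ℂ) {w : ι → ℝ}
    (hw : ∀ v, ∑ i, w i * E v i = 1) (t : Y) (s : ℝ) (z : ι → ℂ) :
    PF E C (t, act w s z) = Real.exp s • PF E C (t, z) := by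
  rw [PF, PF, Finset.smul_sum]
  refine Finset.sum_congr rfl fun v _ => ?_
  rw [PM, PM]
  simp only
  rw [mag_act, ag_act, hw v, mul_one, Complex.real_smul]
  push_cast
  ring

end weights

section reg

variable {V : Type*} [Fintype V]

/-- partial derivative of a coefficient in the angle `i` -/
def dC (C : ℝ × (ι → ℝ) → ℂ) (t : ℝ) (θ : ι → ℝ) (i : ι) : ℂ :=
  deriv (fun x => C (t, Function.update θ i x)) (θ i)

/-- **the conormal equations** at the magnitudes `m` and the angles `θ`. -/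
def Bad (E : V → ι → ℝ) (C : V → ℝ × (ι → ℝ) → ℂ) (t : ℝ) (m : V → ℝ) (θ : ι → ℝ) : Prop :=
  ∃ ζ : ℂ, ζ ≠ 0 ∧ ∀ i,
    (∑ v, E v i * m v * ((starRingEnd ℂ) ζ * C v (t, θ)).re = 0) ∧
    (∑ v, m v * ((starRingEnd ℂ) ζ * dC (C v) t θ i).re = 0)

/-- conormal of a real linear map which is not onto -/
theorem exists_conormal {X : Type*} [AddCommGroup X] [Module ℝ X] (L : X →ₗ[ℝ] ℂ)
    (h : ¬ ∀ b, ∃ y, L y = b) : ∃ ζ : ℂ, ζ ≠ 0 ∧ ∀ y, ((starRingEnd ℂ) ζ * L y).re = 0 := by
  by_cases h0 : ∀ y, L y = 0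
  · exact ⟨1, one_ne_zero, fun y => by rw [h0 y, mul_zero]; rfl⟩
  push Not at h0
  obtain ⟨y0, hy0⟩ := h0
  refine ⟨Complex.I * L y0, mul_ne_zero Complex.I_ne_zero hy0, fun y => ?_⟩
  by_contra hne
  refine h fun b => ?_
  set a := L y0 with ha
  set c := L y with hc
  have e1 : ((starRingEnd ℂ) (Complex.I * a) * c).re = a.re * c.im - a.im * c.re := by
    simp [Complex.mul_re, Complex.mul_im, Complex.conj_re, Complex.conj_im]
  rw [e1] at hne
  have hne' : a.re * c.im - a.im * c.re ≠ 0 := hne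
  refine ⟨((b.re * c.im - b.im * c.re) / (a.re * c.im - a.im * c.re)) • y0 +
    ((a.re * b.im - a.im * b.re) / (a.re * c.im - a.im * c.re)) • y, ?_⟩
  rw [map_add, map_smul, map_smul, ← ha, ← hc]
  apply Complex.ext
  · simp only [Complex.add_re, Complex.real_smul, Complex.mul_re, Complex.ofReal_re,
      Complex.ofReal_im, zero_mul, sub_zero]
    rw [div_mul_eq_mul_div, div_mul_eq_mul_div, ← add_div, div_eq_iff hne']
    ring
  · simp only [Complex.add_im, Complex.real_smul, Complex.mul_im, Complex.ofReal_re,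
      Complex.ofReal_im, zero_mul, add_zero]
    rw [div_mul_eq_mul_div, div_mul_eq_mul_div, ← add_div, div_eq_iff hne']
    ring

/-- radial curve -/
theorem PM_radial (E : ι → ℝ) (C : ℝ × (ι → ℝ) → ℂ) (t : ℝ) (z : ι → ℂ) (i : ι) (s : ℝ) :
    PM E C (t, Function.update z i ((Real.exp s : ℂ) * z i)) =
      (Real.exp (s * E i) : ℂ) * PM E C (t, z) := by
  rw [PM, PM]
  simp only
  rw [mag_update_mul, ag_update_real z i (Real.exp_pos s), Complex.norm_real,
    Real.norm_of_nonneg (Real.exp_pos s).le, ← Real.exp_mul]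
  push_cast
  ring

/-- angular curve -/
theorem PM_angular {T : Set ℝ} {E : ι → ℝ} {C : ℝ × (ι → ℝ) → ℂ} (h : Coef T E C) {t : ℝ}
    (ht : t ∈ T) (z : ι → ℂ) (i : ι) (s : ℝ) :
    PM E C (t, Function.update z i (Complex.exp (s * Complex.I) * z i)) =
      (mag E z : ℂ) * C (t, Function.update (ag z) i (ag z i + s)) := by
  have hn : ‖Complex.exp (s * Complex.I)‖ = 1 := Complex.norm_exp_ofReal_mul_I s
  by_cases hz : z i = 0
  · rw [hz, mul_zero]
    have e : Function.update z i (0 : ℂ) = z := by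
      rw [← hz, Function.update_eq_self]
    rw [e, PM]
    simp only
    by_cases hE : E i = 0
    · rw [h.ind i hE t ht]
    · rw [mag_eq_zero hE hz]
      simp
  · rw [PM]
    simp only
    rw [mag_update_mul, hn, Real.one_rpow, one_mul, ag_update]
    congr 1
    have h1 : ∃ n : ℤ, ag z i + s =
        (Complex.exp (s * Complex.I) * z i).arg + 2 * Real.pi * n := by
      have h2 : (((Complex.exp (s * Complex.I) * z i).arg : ℝ) : Real.Angle) =
          ((ag z i + s : ℝ) : Real.Angle) := by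
        rw [Complex.arg_mul_coe_angle (Complex.exp_ne_zero _) hz, Complex.arg_exp_mul_I,
          Real.Angle.coe_toIocMod, Real.Angle.coe_add, add_comm]
        rfl
      rw [eq_comm, Real.Angle.angle_eq_iff_two_pi_dvd_sub] at h2
      obtain ⟨k, hk⟩ := h2
      exact ⟨k, by linarith⟩
    refine (h.per_all ht fun j => ?_).symm
    by_cases hj : j = i
    · subst hj
      simpa using h1
    · exact ⟨0, by simp [Function.update_of_ne hj]⟩

theorem hasDerivAt_dC {T : Set ℝ} (hT : IsOpen T) {E : ι → ℝ} {C : ℝ × (ι → ℝ) → ℂ}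
    (h : Coef T E C) {t : ℝ} (ht : t ∈ T) (θ : ι → ℝ) (i : ι) :
    HasDerivAt (fun x => C (t, Function.update θ i x)) (dC C t θ i) (θ i) := by
  refine DifferentiableAt.hasDerivAt ?_
  have h1 : DifferentiableAt ℝ C ((fun x : ℝ => (t, Function.update θ i x)) (θ i)) :=
    ((h.smooth _ ⟨ht, mem_univ _⟩).contDiffAt
      ((hT.prod isOpen_univ).mem_nhds ⟨ht, mem_univ _⟩)).differentiableAt (by norm_num)
  exact h1.comp (θ i) ((differentiableAt_const t).prodMk
    (hasDerivAt_update θ i (θ i)).differentiableAt)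

/-- radial derivatives -/
theorem fderiv_radial {T : Set ℝ} (hT : IsOpen T) {E : V → ι → ℝ}
    {C : V → ℝ × (ι → ℝ) → ℂ} (h : ∀ v, Coef T (E v) (C v)) {t : ℝ} (ht : t ∈ T) (z : ι → ℂ)
    (i : ι) :
    fderiv ℝ (PF E C) (t, z) (0, Pi.single i (z i)) =
      ∑ v, (E v i : ℂ) * PM (E v) (C v) (t, z) := by
  have hd : DifferentiableAt ℝ (PF E C) (t, z) :=
    ((PF_smooth hT h _ ⟨ht, mem_univ _⟩).contDiffAt
      ((hT.prod isOpen_univ).mem_nhds ⟨ht, mem_univ _⟩)).differentiableAt (by norm_num)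
  have hc : HasDerivAt (fun s : ℝ => (t, Function.update z i ((Real.exp s : ℂ) * z i)))
      (0, Pi.single i (z i)) 0 := by
    refine (hasDerivAt_const 0 t).prodMk ?_
    have h1 : HasDerivAt (fun s : ℝ => (Real.exp s : ℂ) * z i) (z i) 0 := by
      have h2 : HasDerivAt (fun s : ℝ => (Real.exp s : ℂ)) ((Real.exp 0 : ℝ) : ℂ) 0 :=
        (Real.hasDerivAt_exp 0).ofReal_comp
      have h3 := h2.mul_const (z i)
      simpa using h3
    rw [hasDerivAt_pi]
    intro j
    by_cases hj : j = i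
    · subst hj
      simpa using h1
    · simp only [Function.update_of_ne hj, Pi.single_eq_of_ne hj]
      exact hasDerivAt_const 0 (z j)
  have e0 : (t, Function.update z i ((Real.exp 0 : ℂ) * z i)) = (t, z) := by
    rw [Real.exp_zero, Complex.ofReal_one, one_mul, Function.update_eq_self]
  have h2 : HasDerivAt (fun s : ℝ => PF E C (t, Function.update z i ((Real.exp s : ℂ) * z i)))
      (fderiv ℝ (PF E C) (t, z) (0, Pi.single i (z i))) 0 := by
    have hf : HasFDerivAt (PF E C) (fderiv ℝ (PF E C) (t, z))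
        ((fun s : ℝ => (t, Function.update z i ((Real.exp s : ℂ) * z i))) 0) := by
      simp only [e0]
      exact hd.hasFDerivAt
    exact hf.comp_hasDerivAt (0 : ℝ) hc
  have h3 : HasDerivAt (fun s : ℝ => PF E C (t, Function.update z i ((Real.exp s : ℂ) * z i)))
      (∑ v, (E v i : ℂ) * PM (E v) (C v) (t, z)) 0 := by
    have h4 : (fun s : ℝ => PF E C (t, Function.update z i ((Real.exp s : ℂ) * z i))) =
        fun s : ℝ => ∑ v, (Real.exp (s * E v i) : ℂ) * PM (E v) (C v) (t, z) := by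
      funext s
      exact Finset.sum_congr rfl fun v _ => PM_radial _ _ _ _ _ _
    rw [h4]
    refine HasDerivAt.fun_sum fun v _ => ?_
    have h5 : HasDerivAt (fun s : ℝ => Real.exp (s * E v i)) (E v i) 0 := by
      have := ((hasDerivAt_id (0 : ℝ)).mul_const (E v i)).exp
      simpa using this
    exact h5.ofReal_comp.mul_const _
  exact h2.unique h3

/-- angular derivatives -/
theorem fderiv_angular {T : Set ℝ} (hT : IsOpen T) {E : V → ι → ℝ}
    {C : V → ℝ × (ι → ℝ) → ℂ} (h : ∀ v, Coef T (E v) (C v)) {t : ℝ} (ht : t ∈ T) (z : ι → ℂ)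
    (i : ι) :
    fderiv ℝ (PF E C) (t, z) (0, Pi.single i (Complex.I * z i)) =
      ∑ v, (mag (E v) z : ℂ) * dC (C v) t (ag z) i := by
  have hd : DifferentiableAt ℝ (PF E C) (t, z) :=
    ((PF_smooth hT h _ ⟨ht, mem_univ _⟩).contDiffAt
      ((hT.prod isOpen_univ).mem_nhds ⟨ht, mem_univ _⟩)).differentiableAt (by norm_num)
  have hc : HasDerivAt (fun s : ℝ => (t, Function.update z i (Complex.exp (s * Complex.I) * z i)))
      (0, Pi.single i (Complex.I * z i)) 0 := by
    refine (hasDerivAt_const 0 t).prodMk ?_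
    have h1 : HasDerivAt (fun s : ℝ => Complex.exp (s * Complex.I) * z i)
        (Complex.I * z i) 0 := by
      have h2 : HasDerivAt (fun s : ℝ => (s : ℂ) * Complex.I) (1 * Complex.I) 0 := by
        have := (hasDerivAt_id (0 : ℝ)).ofReal_comp
        simpa using this.mul_const Complex.I
      have h3 := h2.cexp.mul_const (z i)
      simpa using h3
    rw [hasDerivAt_pi]
    intro j
    by_cases hj : j = i
    · subst hj
      simpa using h1
    · simp only [Function.update_of_ne hj, Pi.single_eq_of_ne hj]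
      exact hasDerivAt_const 0 (z j)
  have e0 : (t, Function.update z i (Complex.exp ((0 : ℝ) * Complex.I) * z i)) = (t, z) := by
    rw [Complex.ofReal_zero, zero_mul, Complex.exp_zero, one_mul, Function.update_eq_self]
  have h2 : HasDerivAt
      (fun s : ℝ => PF E C (t, Function.update z i (Complex.exp (s * Complex.I) * z i)))
      (fderiv ℝ (PF E C) (t, z) (0, Pi.single i (Complex.I * z i))) 0 := by
    have hf : HasFDerivAt (PF E C) (fderiv ℝ (PF E C) (t, z))
        ((fun s : ℝ => (t, Function.update z i (Complex.exp (s * Complex.I) * z i))) 0) := by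
      simp only [e0]
      exact hd.hasFDerivAt
    exact hf.comp_hasDerivAt (0 : ℝ) hc
  have h3 : HasDerivAt
      (fun s : ℝ => PF E C (t, Function.update z i (Complex.exp (s * Complex.I) * z i)))
      (∑ v, (mag (E v) z : ℂ) * dC (C v) t (ag z) i) 0 := by
    have h4 : (fun s : ℝ => PF E C (t, Function.update z i (Complex.exp (s * Complex.I) * z i))) =
        fun s : ℝ => ∑ v, (mag (E v) z : ℂ) *
          C v (t, Function.update (ag z) i (ag z i + s)) := by
      funext s
      exact Finset.sum_congr rfl fun v _ => PM_angular (h v) ht z i s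
    rw [h4]
    refine HasDerivAt.fun_sum fun v _ => ?_
    have h5 : HasDerivAt (fun x => C v (t, Function.update (ag z) i x)) (dC (C v) t (ag z) i)
        (ag z i + 0) := by
      rw [add_zero]
      exact hasDerivAt_dC hT (h v) ht (ag z) i
    exact (h5.comp_const_add (ag z i) 0).const_mul _
  exact h2.unique h3

/-- **regularity criterion** -/
theorem reg_of {T : Set ℝ} (hT : IsOpen T) {E : V → ι → ℝ}
    {C : V → ℝ × (ι → ℝ) → ℂ} (h : ∀ v, Coef T (E v) (C v)) {t : ℝ} (ht : t ∈ T) {z : ι → ℂ}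
    (hb : ¬ Bad E C t (fun v => mag (E v) z) (ag z)) (b : ℂ) :
    ∃ y : ι → ℂ, fderiv ℝ (PF E C) (t, z) (0, y) = b := by
  by_contra hne
  push Not at hne
  let L : (ι → ℂ) →ₗ[ℝ] ℂ := ((fderiv ℝ (PF E C) (t, z)).comp
    (ContinuousLinearMap.inr ℝ ℝ (ι → ℂ))).toLinearMap
  have hL : ∀ y, L y = fderiv ℝ (PF E C) (t, z) (0, y) := fun y => rfl
  obtain ⟨ζ, hζ, h0⟩ := exists_conormal L fun hall => by
    obtain ⟨y, hy⟩ := hall b
    exact hne y hy
  refine hb ⟨ζ, hζ, fun i => ⟨?_, ?_⟩⟩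
  · have h1 := h0 (Pi.single i (z i))
    rw [hL, fderiv_radial hT h ht, Finset.mul_sum, Complex.re_sum] at h1
    rw [← h1]
    refine Finset.sum_congr rfl fun v _ => ?_
    rw [PM]
    simp only
    have : (starRingEnd ℂ) ζ * ((E v i : ℂ) * ((mag (E v) z : ℂ) * C v (t, ag z))) =
        ((E v i * mag (E v) z : ℝ) : ℂ) * ((starRingEnd ℂ) ζ * C v (t, ag z)) := by
      push_cast; ring
    rw [this, Complex.re_ofReal_mul]
  · have h1 := h0 (Pi.single i (Complex.I * z i))
    rw [hL, fderiv_angular hT h ht, Finset.mul_sum, Complex.re_sum] at h1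
    rw [← h1]
    refine Finset.sum_congr rfl fun v _ => ?_
    have : (starRingEnd ℂ) ζ * ((mag (E v) z : ℂ) * dC (C v) t (ag z) i) =
        ((mag (E v) z : ℝ) : ℂ) * ((starRingEnd ℂ) ζ * dC (C v) t (ag z) i) := by
      ring
    rw [this, Complex.re_ofReal_mul]

/-- **`0`-regular path of sums of polar monomials** -/
theorem hpath0 {T : Set ℝ} (hT : IsOpen T) (hsub : Icc (0 : ℝ) 1 ⊆ T) {E : V → ι → ℝ}
    {C : V → ℝ × (ι → ℝ) → ℂ} (h : ∀ v, Coef T (E v) (C v)) {w : ι → ℝ} (hw0 : ∀ i, 0 < w i)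
    (hw : ∀ v, ∑ i, w i * E v i = 1)
    (hb : ∀ t ∈ Icc (0 : ℝ) 1, ∀ z : ι → ℂ, z ≠ 0 → PF E C (t, z) = 0 →
      ¬ Bad E C t (fun v => mag (E v) z) (ag z)) : HPath0 (PF E C) where
  smooth := ⟨T, hT, hsub, (PF_smooth hT h).mono fun _ hp => ⟨hp.1, mem_univ _⟩⟩
  wh := fun t _ => ⟨w, hw0, fun s x => PF_wh C hw t s x⟩
  reg := fun t ht z hz h0 b => reg_of hT h (hsub ht) (hb t ht z hz h0) b

end reg

end Crest.Agent.R267.PolF_943
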