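import Crest.Agent.R267.MixBox_896
import Crest.Agent.R267.PolF_943

/-!
# S0406, T3N hub step (C3): radial and angular derivatives of the harmonic boxes (helper896)
-/

set_option autoImplicit false
set_option linter.unusedSectionVars false

noncomputable section

open Set Filter Topology Finset
open Crest.Agent.R267.Ang_739
open Crest.Agent.R267.T3aNDefs_88 (Hm)
open Crest.Agent.R267.HarmBox_920 Crest.Agent.R267.MixBox_896 Crest.Agent.R267.PolF_943

namespace Crest.Agent.R267.HarmDer_896

variable {ι : Type} [Fintype ι] [DecidableEq ι]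

/-- radial curve of the radii. -/
theorem rr_update (D : ι → ℝ) (z : ι → ℂ) (i : ι) (s : ℝ) (j : ι) :
    rr D (Function.update z i ((Real.exp s : ℂ) * z i)) j =
      if j = i then Real.exp (s * D i) * rr D z i else rr D z j := by
  unfold rr
  by_cases h : j = i
  · subst h
    rw [if_pos rfl, Function.update_self, norm_mul, Complex.norm_real,
      Real.norm_of_nonneg (Real.exp_pos _).le, Real.mul_rpow (Real.exp_pos _).le (norm_nonneg _),
      ← Real.exp_mul]
  · rw [if_neg h, Function.update_of_ne h]

theorem arg_update_rad (z : ι → ℂ) (i : ι) (s : ℝ) (j : ι) :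
    (Function.update z i ((Real.exp s : ℂ) * z i) j).arg = (z j).arg :=
  congrFun (ag_update_real z i (Real.exp_pos s)) j

theorem abs_rr (D : ι → ℝ) (z : ι → ℂ) (j : ι) : |rr D z j| = rr D z j :=
  abs_of_nonneg (rr_nonneg D z j)

theorem Ht_rr (S : Finset ι) (D : ι → ℝ) (z : ι → ℂ) : Ht S (rr D z) = Hm S (rr D z) := by
  unfold Ht
  congr 1
  funext j
  exact abs_rr D z j

/-- derivative of the harmonic combination along a radial curve. -/
theorem hasDerivAt_Hm_rad {S : Finset ι} (hS : S.Nonempty) {D : ι → ℝ} (z : ι → ℂ) (i : ι) :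
    HasDerivAt (fun s : ℝ => Hm S (rr D (Function.update z i ((Real.exp s : ℂ) * z i))))
      (D i * Hn S i (rr D z)) 0 := by
  by_cases hi : i ∈ S
  · by_cases h : ∀ j ∈ S, 0 < rr D z j
    · have h1 : 0 < ∑ j ∈ S, 1 / rr D z j := sum_pos (fun j hj => one_div_pos.2 (h j hj)) hS
      -- formula along the curve
      have h2 : ∀ s : ℝ, Hm S (rr D (Function.update z i ((Real.exp s : ℂ) * z i))) =
          1 / (∑ j ∈ S.erase i, 1 / rr D z j + Real.exp (s * (-D i)) * (1 / rr D z i)) := by
        intro s
        have hp : ∀ j ∈ S, 0 < rr D (Function.update z i ((Real.exp s : ℂ) * z i)) j := by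
          intro j hj
          rw [rr_update]
          split_ifs with hji
          · exact mul_pos (Real.exp_pos _) (h i hi)
          · exact h j hj
        have e0 : Hm S (rr D (Function.update z i ((Real.exp s : ℂ) * z i))) =
            1 / ∑ j ∈ S, 1 / rr D (Function.update z i ((Real.exp s : ℂ) * z i)) j := by
          classical
          exact if_pos hp
        rw [e0, ← Finset.sum_erase_add S _ hi]
        congr 2
        · refine sum_congr rfl fun j hj => ?_
          rw [rr_update, if_neg (Finset.ne_of_mem_erase hj)]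
        · rw [rr_update, if_pos rfl, mul_neg, Real.exp_neg]
          have := (h i hi).ne'
          have := (Real.exp_pos (s * D i)).ne'
          field_simp
      have h3 : HasDerivAt (fun s : ℝ => ∑ j ∈ S.erase i, 1 / rr D z j +
          Real.exp (s * (-D i)) * (1 / rr D z i)) (-D i * (1 / rr D z i)) 0 := by
        have h4 : HasDerivAt (fun s : ℝ => Real.exp (s * (-D i))) (-D i) 0 := by
          have := ((hasDerivAt_id (0 : ℝ)).mul_const (-D i)).exp
          simpa using this
        exact (h4.mul_const _).const_add _
      have e1 : ∑ j ∈ S.erase i, 1 / rr D z j + Real.exp (0 * (-D i)) * (1 / rr D z i) =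
          ∑ j ∈ S, 1 / rr D z j := by
        rw [zero_mul, Real.exp_zero, one_mul, Finset.sum_erase_add S _ hi]
      have h5 := (hasDerivAt_const (0 : ℝ) (1 : ℝ)).div h3 (by rw [e1]; exact h1.ne')
      refine (h5.congr_of_eventuallyEq (Eventually.of_forall fun s => h2 s)).congr_deriv ?_
      rw [e1, Hn, if_pos hi, abs_rr, Ht_of_pos (fun j hj => by rw [abs_rr]; exact h j hj)]
      simp only [abs_rr]
      have := (h i hi).ne'
      field_simp
      ring
    · -- some radius vanishes
      push Not at h
      obtain ⟨j, hj, h⟩ := h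
      have hj0 : rr D z j = 0 := le_antisymm h (rr_nonneg D z j)
      rw [Hn_zero hj hj0, mul_zero]
      refine (hasDerivAt_const (0 : ℝ) (0 : ℝ)).congr_of_eventuallyEq ?_
      filter_upwards with s
      refine Hm_zero hj ?_
      rw [rr_update]
      split_ifs with hji
      · rw [← hji, hj0, mul_zero]
      · exact h
  · rw [Hn, if_neg hi, mul_zero]
    refine (hasDerivAt_const (0 : ℝ) (Hm S (rr D z))).congr_of_eventuallyEq ?_
    filter_upwards with s
    refine Hm_congr fun j hj => ?_
    rw [rr_update, if_neg]
    rintro rfl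
    exact hi hj

/-- **radial derivative of a harmonic box.** -/
theorem fderiv_HB_rad {S : Finset ι} (hS : S.Nonempty) {D : ι → ℝ} (hD : ∀ j ∈ S, 2 < D j)
    {l : ι → ℝ → ℝ} (hp : ∀ j ∈ S, Per (l j)) (hl : ∀ j ∈ S, ContDiff ℝ 2 (l j)) (z : ι → ℂ)
    (i : ι) : fderiv ℝ (HB S D l) z (Pi.single i (z i)) =
      D i * Hn S i (rr D z) * ∏ j ∈ S, l j (z j).arg := by
  have hd : DifferentiableAt ℝ (HB S D l) z :=
    (contDiff_HB hS hD hp hl).contDiffAt.differentiableAt (by norm_num)
  have hc : HasDerivAt (fun s : ℝ => Function.update z i ((Real.exp s : ℂ) * z i))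
      (Pi.single i (z i)) 0 := by
    have h1 : HasDerivAt (fun s : ℝ => (Real.exp s : ℂ) * z i) (z i) 0 := by
      have h2 : HasDerivAt (fun s : ℝ => (Real.exp s : ℂ)) ((Real.exp 0 : ℝ) : ℂ) 0 :=
        (Real.hasDerivAt_exp 0).ofReal_comp
      have h3 := h2.mul_const (z i)
      simpa using h3
    rw [hasDerivAt_pi]
    intro j
    by_cases hj : j = i
    · subst hj
      simpa using h1
    · simp only [Function.update_of_ne hj, Pi.single_eq_of_ne hj]
      exact hasDerivAt_const 0 (z j)
  have e0 : Function.update z i ((Real.exp 0 : ℂ) * z i) = z := by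
    rw [Real.exp_zero, Complex.ofReal_one, one_mul, Function.update_eq_self]
  have h2 : HasDerivAt (fun s : ℝ => HB S D l (Function.update z i ((Real.exp s : ℂ) * z i)))
      (fderiv ℝ (HB S D l) z (Pi.single i (z i))) 0 := by
    have hf : HasFDerivAt (HB S D l) (fderiv ℝ (HB S D l) z)
        ((fun s : ℝ => Function.update z i ((Real.exp s : ℂ) * z i)) 0) := by
      simp only [e0]
      exact hd.hasFDerivAt
    exact hf.comp_hasDerivAt (0 : ℝ) hc
  have h3 : HasDerivAt (fun s : ℝ => HB S D l (Function.update z i ((Real.exp s : ℂ) * z i)))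
      (D i * Hn S i (rr D z) * ∏ j ∈ S, l j (z j).arg) 0 := by
    have e : (fun s : ℝ => HB S D l (Function.update z i ((Real.exp s : ℂ) * z i))) =
        fun s : ℝ => Hm S (rr D (Function.update z i ((Real.exp s : ℂ) * z i))) *
          ∏ j ∈ S, l j (z j).arg := by
      funext s
      unfold HB
      congr 1
      exact prod_congr rfl fun j _ => by rw [arg_update_rad]
    rw [e]
    exact (hasDerivAt_Hm_rad hS z i).mul_const _
  exact h2.unique h3

/-- derivative of the product of cut-offs in the angle `i`. -/
def dL (S : Finset ι) (l : ι → ℝ → ℝ) (i : ι) (θ : ι → ℝ) : ℝ :=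
  if i ∈ S then (∏ j ∈ S.erase i, l j (θ j)) * deriv (l i) (θ i) else 0

theorem hasDerivAt_prod_l {S : Finset ι} {l : ι → ℝ → ℝ} (hl : ∀ j ∈ S, ContDiff ℝ 2 (l j))
    (θ : ι → ℝ) (i : ι) :
    HasDerivAt (fun s : ℝ => ∏ j ∈ S, l j (Function.update θ i (θ i + s) j)) (dL S l i θ) 0 := by
  by_cases hi : i ∈ S
  · have e : (fun s : ℝ => ∏ j ∈ S, l j (Function.update θ i (θ i + s) j)) =
        fun s : ℝ => (∏ j ∈ S.erase i, l j (θ j)) * l i (θ i + s) := by
      funext s
      rw [← Finset.prod_erase_mul S _ hi, Function.update_self]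
      congr 1
      exact prod_congr rfl fun j hj => by rw [Function.update_of_ne (Finset.ne_of_mem_erase hj)]
    rw [e, dL, if_pos hi]
    refine HasDerivAt.const_mul _ ?_
    have h1 : HasDerivAt (l i) (deriv (l i) (θ i)) (θ i + 0) := by
      rw [add_zero]
      exact ((hl i hi).contDiffAt.differentiableAt (by norm_num)).hasDerivAt
    exact h1.comp_const_add (θ i) 0
  · rw [dL, if_neg hi]
    refine (hasDerivAt_const (0 : ℝ) (∏ j ∈ S, l j (θ j))).congr_of_eventuallyEq ?_
    filter_upwards with s
    refine prod_congr rfl fun j hj => ?_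
    rw [Function.update_of_ne]
    rintro rfl
    exact hi hj

/-- **angular derivative of a harmonic box.** -/
theorem fderiv_HB_ang {S : Finset ι} (hS : S.Nonempty) {D : ι → ℝ} (hD : ∀ j ∈ S, 2 < D j)
    {l : ι → ℝ → ℝ} (hp : ∀ j ∈ S, Per (l j)) (hl : ∀ j ∈ S, ContDiff ℝ 2 (l j)) (z : ι → ℂ)
    (i : ι) : fderiv ℝ (HB S D l) z (Pi.single i (Complex.I * z i)) =
      Hm S (rr D z) * dL S l i (ag z) := by
  have hd : DifferentiableAt ℝ (HB S D l) z :=
    (contDiff_HB hS hD hp hl).contDiffAt.differentiableAt (by norm_num)
  have hc : HasDerivAt (fun s : ℝ => Function.update z i (Complex.exp (s * Complex.I) * z i))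
      (Pi.single i (Complex.I * z i)) 0 := by
    have h1 : HasDerivAt (fun s : ℝ => Complex.exp (s * Complex.I) * z i)
        (Complex.I * z i) 0 := by
      have h2 : HasDerivAt (fun s : ℝ => (s : ℂ) * Complex.I) (1 * Complex.I) 0 := by
        have := (hasDerivAt_id (0 : ℝ)).ofReal_comp
        simpa using this.mul_const Complex.I
      have h3 := h2.cexp.mul_const (z i)
      simpa using h3
    rw [hasDerivAt_pi]
    intro j
    by_cases hj : j = i
    · subst hj
      simpa using h1
    · simp only [Function.update_of_ne hj, Pi.single_eq_of_ne hj]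
      exact hasDerivAt_const 0 (z j)
  have e0 : Function.update z i (Complex.exp ((0 : ℝ) * Complex.I) * z i) = z := by
    rw [Complex.ofReal_zero, zero_mul, Complex.exp_zero, one_mul, Function.update_eq_self]
  have h2 : HasDerivAt
      (fun s : ℝ => HB S D l (Function.update z i (Complex.exp (s * Complex.I) * z i)))
      (fderiv ℝ (HB S D l) z (Pi.single i (Complex.I * z i))) 0 := by
    have hf : HasFDerivAt (HB S D l) (fderiv ℝ (HB S D l) z)
        ((fun s : ℝ => Function.update z i (Complex.exp (s * Complex.I) * z i)) 0) := by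
      simp only [e0]
      exact hd.hasFDerivAt
    exact hf.comp_hasDerivAt (0 : ℝ) hc
  have h3 : HasDerivAt
      (fun s : ℝ => HB S D l (Function.update z i (Complex.exp (s * Complex.I) * z i)))
      (Hm S (rr D z) * dL S l i (ag z)) 0 := by
    have e : (fun s : ℝ => HB S D l (Function.update z i (Complex.exp (s * Complex.I) * z i))) =
        fun s : ℝ => Hm S (rr D z) * ∏ j ∈ S, l j (Function.update (ag z) i (ag z i + s) j) := by
      funext s
      by_cases h0 : ∃ j ∈ S, z j = 0
      · obtain ⟨j, hj, h0⟩ := h0
        have hD0 : D j ≠ 0 := (by linarith [hD j hj] : (0 : ℝ) < D j).ne'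
        have hz' : Function.update z i (Complex.exp (s * Complex.I) * z i) j = 0 := by
          by_cases hji : j = i
          · subst hji; simp [h0]
          · rw [Function.update_of_ne hji, h0]
        rw [HB, Hm_zero hj (rr_zero hD0 hz').le, Hm_zero hj (rr_zero hD0 h0).le]
        ring
      · push Not at h0
        unfold HB
        congr 1
        · refine Hm_congr fun j hj => ?_
          unfold rr
          by_cases hji : j = i
          · subst hji
            rw [Function.update_self, norm_mul, Complex.norm_exp_ofReal_mul_I, one_mul]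
          · rw [Function.update_of_ne hji]
        · refine prod_congr rfl fun j hj => ?_
          by_cases hji : j = i
          · subst hji
            rw [Function.update_self, Function.update_self]
            have h5 : (((Complex.exp (s * Complex.I) * z j).arg : ℝ) : Real.Angle) =
                ((ag z j + s : ℝ) : Real.Angle) := by
              rw [Complex.arg_mul_coe_angle (Complex.exp_ne_zero _) (h0 j hj),
                Complex.arg_exp_mul_I, Real.Angle.coe_toIocMod, Real.Angle.coe_add, add_comm]
              rfl
            rw [Real.Angle.angle_eq_iff_two_pi_dvd_sub] at h5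
            obtain ⟨k, hk⟩ := h5
            have h6 : (Complex.exp (s * Complex.I) * z j).arg = ag z j + s + k * (2 * Real.pi) := by
              linarith
            rw [h6]
            exact (hp j hj).int_mul k _
          · rw [Function.update_of_ne hji, Function.update_of_ne hji]
            rfl
    rw [e]
    exact (hasDerivAt_prod_l hl (ag z) i).const_mul _
  exact h2.unique h3

end Crest.Agent.R267.HarmDer_896
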