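import Crest.Agent.R267.Smooth_957
import Crest.Agent.R267.T3aNDefs_88

/-!
# Row 267, T3aN: the harmonic combination of cubes of positive parts is `C²`
-/

set_option autoImplicit false

noncomputable section

namespace Crest.Agent.R267.HmC2_957

open Finset Calc_957 Smooth_957
open T3aNDefs_88 (Hm)

variable {ι : Type} [Fintype ι]

theorem Hm_congr {S : Finset ι} {R R' : ι → ℝ} (h : ∀ j ∈ S, R j = R' j) : Hm S R = Hm S R' := by
  classical
  unfold Hm
  have h1 : (∀ j ∈ S, 0 < R j) ↔ ∀ j ∈ S, 0 < R' j :=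
    forall₂_congr fun j hj => by rw [h j hj]
  have h2 : ∑ j ∈ S, 1 / R j = ∑ j ∈ S, 1 / R' j := sum_congr rfl fun j hj => by rw [h j hj]
  by_cases hp : ∀ j ∈ S, 0 < R j
  · rw [if_pos hp, if_pos (h1.1 hp), h2]
  · rw [if_neg hp, if_neg fun h' => hp (h1.2 h')]

theorem Hm_of_nonpos {S : Finset ι} {R : ι → ℝ} {j : ι} (hj : j ∈ S) (h : R j ≤ 0) :
    Hm S R = 0 := by
  classical
  exact if_neg fun h' => absurd (h' j hj) (not_lt.2 h)

theorem Hm_of_pos {S : Finset ι} {R : ι → ℝ} (h : ∀ j ∈ S, 0 < R j) :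
    Hm S R = 1 / ∑ j ∈ S, 1 / R j := by
  classical
  exact if_pos h

theorem Hm_nonneg (S : Finset ι) (R : ι → ℝ) : 0 ≤ Hm S R := by
  classical
  unfold Hm
  split_ifs with h
  · exact div_nonneg zero_le_one (sum_nonneg fun j hj => div_nonneg zero_le_one (h j hj).le)
  · exact le_rfl

theorem Hm_pos {S : Finset ι} {R : ι → ℝ} (h : ∀ j ∈ S, 0 < R j) (hS : S.Nonempty) :
    0 < Hm S R := by
  rw [Hm_of_pos h]
  exact div_pos one_pos (sum_pos (fun j hj => div_pos one_pos (h j hj)) hS)

/-- `Hm ≤ R j`. -/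
theorem Hm_le {S : Finset ι} {R : ι → ℝ} {j : ι} (hj : j ∈ S) (h0 : 0 ≤ R j) :
    Hm S R ≤ R j := by
  classical
  by_cases h : ∀ j ∈ S, 0 < R j
  · rw [Hm_of_pos h]
    have h1 : 1 / R j ≤ ∑ j ∈ S, 1 / R j :=
      single_le_sum (f := fun j => 1 / R j) (fun i hi => (div_pos one_pos (h i hi)).le) hj
    calc 1 / ∑ j ∈ S, 1 / R j ≤ 1 / (1 / R j) :=
          one_div_le_one_div_of_le (div_pos one_pos (h j hj)) h1
      _ = R j := one_div_one_div _
  · unfold Hm
    rw [if_neg h]
    exact h0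

open Classical in
/-- recursion. -/
theorem Hm_erase {S : Finset ι} {R : ι → ℝ} {j : ι} (hj : j ∈ S) (h : 0 < R j)
    (hS : (S.erase j).Nonempty) (hR : ∀ i ∈ S, 0 ≤ R i) :
    Hm S R = hm (R j) (Hm (S.erase j) R) := by
  by_cases hp : ∀ i ∈ S.erase j, 0 < R i
  · have hp' : ∀ i ∈ S, 0 < R i := fun i hi => by
      by_cases hij : i = j
      · rw [hij]; exact h
      · exact hp i (mem_erase.2 ⟨hij, hi⟩)
    rw [Hm_of_pos hp', Hm_of_pos hp]
    have h1 : 0 < ∑ i ∈ S.erase j, 1 / R i :=
      sum_pos (fun i hi => div_pos one_pos (hp i hi)) hS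
    rw [← add_sum_erase S _ hj]
    unfold hm
    field_simp
    ring
  · simp only [not_forall, not_lt] at hp
    obtain ⟨i, hi, hi0⟩ := hp
    rw [Hm_of_nonpos (mem_of_mem_erase hi) hi0, Hm_of_nonpos hi hi0, hm_zero_right]

/-- the function on `ι → ℝ`. -/
def FS (S : Finset ι) (Y : ι → ℝ) : ℝ := Hm S fun j => tp 3 (Y j)

theorem contDiffAt_coord (Y : ι → ℝ) (j : ι) : ContDiffAt ℝ 2 (fun Y : ι → ℝ => tp 3 (Y j)) Y :=
  ContDiffAt.comp Y (g := tp 3) (contDiff_tp 2 3 (by norm_num)).contDiffAt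
    (contDiff_apply ℝ ℝ j).contDiffAt

open Classical in
theorem contDiffAt_FS_of_ne {S : Finset ι} (ih : ∀ j ∈ S, ContDiff ℝ 2 (FS (S.erase j)))
    {Y : ι → ℝ} (h : ∃ j ∈ S, Y j ≠ 0) : ContDiffAt ℝ 2 (FS S) Y := by
  obtain ⟨j, hj, hY⟩ := h
  rcases lt_or_gt_of_ne hY with h0 | h0
  · refine (contDiffAt_const (c := (0 : ℝ))).congr_of_eventuallyEq ?_
    have : ∀ᶠ Z : ι → ℝ in nhds Y, Z j < 0 :=
      (continuous_apply j).continuousAt.eventually (gt_mem_nhds h0)
    filter_upwards [this] with Z hZ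
    exact Hm_of_nonpos hj (le_of_eq (tp_of_nonpos (by norm_num) hZ.le))
  · have hn : ∀ᶠ Z : ι → ℝ in nhds Y, 0 < Z j :=
      (continuous_apply j).continuousAt.eventually (lt_mem_nhds h0)
    rcases (S.erase j).eq_empty_or_nonempty with hS | hS
    · refine (contDiffAt_coord Y j).congr_of_eventuallyEq ?_
      have hS' : S = {j} := by
        rw [← insert_erase hj, hS]
        rfl
      filter_upwards [hn] with Z hZ
      unfold FS
      rw [hS', Hm_of_pos (fun i hi => by rw [mem_singleton.1 hi]; exact tp3_pos hZ)]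
      rw [sum_singleton, one_div_one_div]
    · refine ContDiffAt.congr_of_eventuallyEq (contDiffAt_hm (contDiffAt_coord Y j)
        (ih j hj).contDiffAt ?_) ?_
      · have h1 := tp3_pos h0
        have h2 := Hm_nonneg (S.erase j) fun i => tp 3 (Y i)
        have : FS (S.erase j) Y = Hm (S.erase j) fun i => tp 3 (Y i) := rfl
        rw [this]
        linarith
      · filter_upwards [hn] with Z hZ
        exact Hm_erase hj (tp3_pos hZ) hS fun i _ => tp_nonneg 3 _

/-- extension by zero. -/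
def ext0 (S : Finset ι) : (S → ℝ) →L[ℝ] (ι → ℝ) :=
  open Classical in
  ContinuousLinearMap.pi fun i => if h : i ∈ S then ContinuousLinearMap.proj ⟨i, h⟩ else 0

/-- restriction. -/
def res (S : Finset ι) : (ι → ℝ) →L[ℝ] (S → ℝ) :=
  ContinuousLinearMap.pi fun i => ContinuousLinearMap.proj (i : ι)

theorem ext0_apply {S : Finset ι} (y : S → ℝ) {i : ι} (hi : i ∈ S) :
    ext0 S y i = y ⟨i, hi⟩ := by
  unfold ext0
  simp [hi]

theorem Hm_smul {S : Finset ι} {R : ι → ℝ} {c : ℝ} (hc : 0 < c) :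
    Hm S (fun j => c * R j) = c * Hm S R := by
  classical
  by_cases h : ∀ j ∈ S, 0 < R j
  · have h' : ∀ j ∈ S, 0 < c * R j := fun j hj => mul_pos hc (h j hj)
    rw [Hm_of_pos h, Hm_of_pos h']
    have e : ∀ j ∈ S, 1 / (c * R j) = (1 / c) * (1 / R j) := fun j hj => by
      have := (h j hj).ne'
      field_simp
    rw [sum_congr rfl e, ← mul_sum]
    rcases eq_or_ne (∑ j ∈ S, 1 / R j) 0 with h0 | h0
    · rw [h0]; simp
    · field_simp
  · simp only [not_forall, not_lt] at h
    obtain ⟨j, hj, hj0⟩ := h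
    rw [Hm_of_nonpos hj hj0, Hm_of_nonpos hj (mul_nonpos_of_nonneg_of_nonpos hc.le hj0), mul_zero]

open Classical in
/-- **the harmonic combination of cubes is `C²`.** -/
theorem contDiff_FS (S : Finset ι) : ContDiff ℝ 2 (FS S) := by
  induction S using Finset.strongInduction with
  | H S ih =>
    have ih' : ∀ j ∈ S, ContDiff ℝ 2 (FS (S.erase j)) := fun j hj => ih _ (erase_ssubset hj)
    rcases S.eq_empty_or_nonempty with hS | hS
    · subst hS
      have : FS (∅ : Finset ι) = fun _ => (1 / 0 : ℝ) := by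
        funext Y
        unfold FS
        rw [Hm_of_pos (by simp)]
        simp
      rw [this]
      exact contDiff_const
    · have key := Pow_951.contDiffOn_of_hom (E := S → ℝ) (F := ℝ) (T := Set.univ)
        (D := fun _ => (3 : ℝ)) (H := fun p : ℝ × (S → ℝ) => FS S (ext0 S p.2))
        isOpen_univ contDiffOn_const (fun t _ => by norm_num) ?_ ?_ ?_
      · rw [Set.univ_prod_univ, contDiffOn_univ] at key
        have h2 : FS S = fun Y : ι → ℝ => FS S (ext0 S (res S Y)) := by
          funext Y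
          unfold FS
          refine Hm_congr fun j hj => ?_
          rw [ext0_apply _ hj]
          rfl
        rw [h2]
        exact key.comp ((contDiff_const (c := (0 : ℝ))).prodMk (res S).contDiff)
      · rintro ⟨t, x⟩ ⟨-, hx⟩
        have hne : ∃ j ∈ S, ext0 S x j ≠ 0 := by
          by_contra h
          push Not at h
          apply hx
          funext j
          have := h j j.2
          rwa [ext0_apply _ j.2] at this
        have h3 : ContDiffAt ℝ 2 (fun p : ℝ × (S → ℝ) => ext0 S p.2) (t, x) :=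
          (ext0 S).contDiff.contDiffAt.comp (t, x) contDiffAt_snd
        exact (ContDiffAt.comp (t, x) (g := FS S) (contDiffAt_FS_of_ne ih' hne)
          h3).contDiffWithinAt
      · intro t _
        obtain ⟨j, hj⟩ := hS
        refine Hm_of_nonpos hj (le_of_eq (tp_of_nonpos (by norm_num) ?_))
        simp
      · intro t _ r hr x
        have h3 : r ^ (3 : ℝ) = r ^ 3 := by
          rw [← Real.rpow_natCast]
          norm_num
        simp only [map_smul, smul_eq_mul, h3]
        unfold FS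
        rw [← Hm_smul (by positivity : 0 < r ^ 3)]
        refine Hm_congr fun j _ => ?_
        rw [Pi.smul_apply, smul_eq_mul, tp3_mul hr]

variable {E : Type*} [NormedAddCommGroup E] [NormedSpace ℝ E]

/-- the harmonic combination of functions which are cubes near `z`. -/
theorem contDiffAt_Hm {S : Finset ι} {R : E → ι → ℝ} {z : E}
    (h : ∀ j ∈ S, CubeAt (fun w => R w j) z) : ContDiffAt ℝ 2 (fun w => Hm S (R w)) z := by
  classical
  have h' : ∀ j, ∃ q : E → ℝ, ContDiffAt ℝ 2 q z ∧
      (j ∈ S → (fun w => R w j) =ᶠ[nhds z] fun w => tp 3 (q w)) := by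
    intro j
    by_cases hj : j ∈ S
    · obtain ⟨q, hq, he⟩ := h j hj
      exact ⟨q, hq, fun _ => he⟩
    · exact ⟨fun _ => 0, contDiffAt_const, fun h => absurd h hj⟩
  choose q hq he using h'
  have h1 : ContDiffAt ℝ 2 (fun w => FS S fun j => q j w) z :=
    ContDiffAt.comp z (g := FS S) (contDiff_FS S).contDiffAt (contDiffAt_pi.2 fun j => hq j)
  refine h1.congr_of_eventuallyEq ?_
  have h2 : ∀ᶠ w in nhds z, ∀ j ∈ S, R w j = tp 3 (q j w) := by
    rw [Filter.eventually_all_finset]
    exact fun j hj => he j hj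
  filter_upwards [h2] with w hw
  exact Hm_congr hw

end Crest.Agent.R267.HmC2_957
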