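import Crest.Agent.R267.Start_862
import Crest.Agent.R267.HmC2_957

/-!
# S0406, T3N hub step (C8'): own terms minus boxes are regular (helper896)

In the format of `Start_862` (own magnitudes `r i`, unit phases `e i`, speeds `q i`, conormal `ζ`):

* `own_false` : one real function `B0` with radial derivatives `N i`, angular derivatives `T i`;
* `own_boxes` : `N = ∑` boxes, each box kills itself at its smallest radius;
* `Mix` : the mixture `(1 - t) ch Hm + t cp GM` of harmonic and geometric boxes: values, shares.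
-/

set_option autoImplicit false
set_option linter.unusedSectionVars false

noncomputable section

open Finset
open scoped ComplexConjugate
open Crest.Agent.R267.Start_862

namespace Crest.Agent.R267.OwnBox_896

variable {ι : Type*} [Fintype ι]

theorem rp_neg_left (ζ e : ℂ) : rp (-ζ) e = -rp ζ e := by simp [rp]
theorem ip_neg_left (ζ e : ℂ) : ip (-ζ) e = -ip ζ e := by simp [ip]

/-- real part from the components. -/
theorem re_of (ζ e : ℂ) (hζ : ‖ζ‖ = 1) : e.re = ζ.re * rp ζ e - ζ.im * ip ζ e := by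
  have h : ζ.re ^ 2 + ζ.im ^ 2 = 1 := by
    have := Complex.normSq_eq_norm_sq ζ
    rw [hζ, Complex.normSq_apply] at this
    linarith
  simp only [rp, ip, Complex.mul_re, Complex.mul_im, Complex.conj_re, Complex.conj_im]
  linear_combination (-e.re) * h

/-- imaginary part from the components. -/
theorem im_of (ζ e : ℂ) (hζ : ‖ζ‖ = 1) : e.im = ζ.im * rp ζ e + ζ.re * ip ζ e := by
  have h : ζ.re ^ 2 + ζ.im ^ 2 = 1 := by
    have := Complex.normSq_eq_norm_sq ζ
    rw [hζ, Complex.normSq_apply] at this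
    linarith
  simp only [rp, ip, Complex.mul_re, Complex.mul_im, Complex.conj_re, Complex.conj_im]
  linear_combination (-e.im) * h

/-- the conormal may be taken in the right half plane. -/
theorem own_aux {r : ι → ℝ} {e : ι → ℂ} {q N T : ι → ℝ} {B0 : ℝ} {ζ : ℂ}
    (hr : ∀ i, 0 ≤ r i) (he : ∀ i, 0 < r i → ‖e i‖ = 1) (hne : r ≠ 0) (hζ : ‖ζ‖ = 1)
    (hre : 0 ≤ ζ.re) (hB : 0 ≤ B0) (hN : ∀ i, 0 ≤ N i) (hNB : B0 = 0 → ∀ i, N i = 0)
    (hlobe : ∀ i, 0 < r i → 0 ≤ (e i).re → q i ≠ 0 ∧ T i = 0)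
    (zero : ∑ i, (r i : ℂ) * e i = B0) (rad : ∀ i, r i * rp ζ (e i) = N i * ζ.re)
    (ang : ∀ i, q i * (r i * ip ζ (e i)) + T i * ζ.re = 0) :
    (∀ i, 0 < r i → e i = 1) ∧ ∀ i, 0 < r i → r i = N i := by
  -- imaginary part
  have tot : ∑ i, r i * ip ζ (e i) = -(B0 * ζ.im) := by
    have h0 := congrArg (fun u => (conj ζ * u).im) zero
    beta_reduce at h0
    rw [Finset.mul_sum, Complex.im_sum] at h0
    have e1 : ∀ (x : ℝ) (u : ℂ), (conj ζ * ((x : ℂ) * u)).im = x * ip ζ u := by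
      intro x u
      unfold ip
      rw [← mul_assoc, mul_comm (conj ζ) (x : ℂ), mul_assoc, Complex.im_ofReal_mul]
    have e2 : (conj ζ * (B0 : ℂ)).im = - (B0 * ζ.im) := by
      rw [mul_comm, Complex.im_ofReal_mul, Complex.conj_im]; ring
    rw [e2] at h0
    rw [← h0]
    exact Finset.sum_congr rfl fun i _ => (e1 _ _).symm
  -- lobes
  have hl : ∀ i, 0 < r i → 0 ≤ (e i).re → ip ζ (e i) = 0 := by
    intro i hi h
    obtain ⟨h1, h2⟩ := hlobe i hi h
    have := ang i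
    rw [h2, zero_mul, add_zero] at this
    rcases mul_eq_zero.1 this with h3 | h3
    · exact absurd h3 h1
    · exact (mul_eq_zero.1 h3).resolve_left hi.ne'
  have hrp : ∀ i, 0 < r i → 0 ≤ rp ζ (e i) := by
    intro i hi
    have h1 : 0 ≤ r i * rp ζ (e i) := by rw [rad]; exact mul_nonneg (hN i) hre
    by_contra h
    push Not at h
    have := mul_neg_of_pos_of_neg hi h
    linarith
  -- gaps
  have hg : ∀ i, 0 < r i → (e i).re < 0 → 0 < ζ.im * ip ζ (e i) := by
    intro i hi h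
    have h1 := re_of ζ (e i) hζ
    have h2 := mul_nonneg hre (hrp i hi)
    linarith
  -- no gap with positive radius
  have hterm : ∀ i, 0 ≤ ζ.im * (r i * ip ζ (e i)) := by
    intro i
    rcases (hr i).eq_or_lt with h | h
    · rw [← h]; simp
    · by_cases h' : 0 ≤ (e i).re
      · rw [hl i h h']; simp
      · push Not at h'
        have := hg i h h'
        nlinarith
  have hsum : ∑ i, ζ.im * (r i * ip ζ (e i)) = -(B0 * ζ.im ^ 2) := by
    rw [← Finset.mul_sum, tot]; ring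
  have hz : B0 * ζ.im ^ 2 = 0 ∧ ∀ i, ζ.im * (r i * ip ζ (e i)) = 0 := by
    have h1 : 0 ≤ ∑ i, ζ.im * (r i * ip ζ (e i)) := Finset.sum_nonneg fun i _ => hterm i
    have h2 : 0 ≤ B0 * ζ.im ^ 2 := mul_nonneg hB (sq_nonneg _)
    have h3 : ∑ i, ζ.im * (r i * ip ζ (e i)) = 0 := by linarith
    refine ⟨by linarith, fun i => ?_⟩
    exact (Finset.sum_eq_zero_iff_of_nonneg fun i _ => hterm i).1 h3 i (Finset.mem_univ i)
  have hlob : ∀ i, 0 < r i → 0 ≤ (e i).re := by
    intro i hi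
    by_contra h
    push Not at h
    have h1 := hg i hi h
    have h2 := hz.2 i
    have h3 : r i * (ζ.im * ip ζ (e i)) = 0 := by linarith
    rcases mul_eq_zero.1 h3 with h4 | h4
    · exact hi.ne' h4
    · exact h1.ne' h4
  -- a positive radius
  have hrN : ∀ i, 0 < r i → rp ζ (e i) = 1 := by
    intro i hi
    have h1 := hl i hi (hlob i hi)
    have h2 := rp_sq_add ζ (e i)
    rw [h1, hζ, he i hi] at h2
    have h3 := hrp i hi
    nlinarith
  have hNpos : ∀ i, 0 < r i → 0 < N i * ζ.re := by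
    intro i hi
    rw [← rad, hrN i hi, mul_one]
    exact hi
  obtain ⟨i0, hi0⟩ : ∃ i, 0 < r i := by
    by_contra h
    push Not at h
    exact hne (funext fun i => le_antisymm (h i) (hr i))
  have hBpos : B0 ≠ 0 := by
    intro h
    have := hNpos i0 hi0
    rw [hNB h i0, zero_mul] at this
    exact lt_irrefl _ this
  have him : ζ.im = 0 := by
    have := (mul_eq_zero.1 hz.1).resolve_left hBpos
    exact pow_eq_zero_iff (by norm_num) |>.1 this
  have hre1 : ζ.re = 1 := by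
    have := Complex.normSq_eq_norm_sq ζ
    rw [hζ, Complex.normSq_apply, him] at this
    nlinarith
  refine ⟨fun i hi => ?_, fun i hi => ?_⟩
  · apply Complex.ext
    · rw [re_of ζ (e i) hζ, hre1, him, hrN i hi]; simp
    · rw [im_of ζ (e i) hζ, hre1, him, hl i hi (hlob i hi)]; simp
  · have := rad i
    rw [hrN i hi, hre1] at this
    linarith

/-- **own terms minus a real function.** -/
theorem own_false {r : ι → ℝ} {e : ι → ℂ} {q N T : ι → ℝ} {B0 : ℝ} {ζ : ℂ}
    (hr : ∀ i, 0 ≤ r i) (he : ∀ i, 0 < r i → ‖e i‖ = 1) (hne : r ≠ 0) (hζ : ‖ζ‖ = 1)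
    (hB : 0 ≤ B0) (hN : ∀ i, 0 ≤ N i) (hNB : B0 = 0 → ∀ i, N i = 0)
    (hlobe : ∀ i, 0 < r i → 0 ≤ (e i).re → q i ≠ 0 ∧ T i = 0)
    (zero : ∑ i, (r i : ℂ) * e i = B0) (rad : ∀ i, r i * rp ζ (e i) = N i * ζ.re)
    (ang : ∀ i, q i * (r i * ip ζ (e i)) + T i * ζ.re = 0) :
    (∀ i, 0 < r i → e i = 1) ∧ ∀ i, 0 < r i → r i = N i := by
  rcases le_total 0 ζ.re with h | h
  · exact own_aux hr he hne hζ h hB hN hNB hlobe zero rad ang
  · refine own_aux (ζ := -ζ) hr he hne (by rw [norm_neg, hζ]) (by simpa using h) hB hN hNB hlobe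
      zero (fun i => ?_) fun i => ?_
    · rw [rp_neg_left, Complex.neg_re]
      linear_combination -(rad i)
    · rw [ip_neg_left, Complex.neg_re]
      linear_combination -(ang i)

/-- **own terms minus boxes**: `Nb g i` = radial derivative of the box `g` in the variable `i`. -/
theorem own_boxes {V : Type*} [Fintype V] {S : V → Finset ι} {Nb : V → ι → ℝ}
    {r : ι → ℝ} {e : ι → ℂ} {q T : ι → ℝ} {B0 : ℝ} {ζ : ℂ}
    (hr : ∀ i, 0 ≤ r i) (he : ∀ i, 0 < r i → ‖e i‖ = 1) (hne : r ≠ 0) (hζ : ‖ζ‖ = 1)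
    (hNb : ∀ g i, 0 ≤ Nb g i) (hB : B0 = ∑ g, ∑ i, Nb g i)
    (hsupp : ∀ g i, 0 < Nb g i → ∀ j ∈ S g, 0 < r j)
    (hkill : ∀ g, (∀ j ∈ S g, 0 < r j) → (∀ j ∈ S g, e j = 1) → (∃ i, 0 < Nb g i) →
      ∃ j ∈ S g, r j < Nb g j)
    (hlobe : ∀ i, 0 < r i → 0 ≤ (e i).re → q i ≠ 0 ∧ T i = 0)
    (zero : ∑ i, (r i : ℂ) * e i = B0) (rad : ∀ i, r i * rp ζ (e i) = (∑ g, Nb g i) * ζ.re)
    (ang : ∀ i, q i * (r i * ip ζ (e i)) + T i * ζ.re = 0) : False := by
  have hN : ∀ i, 0 ≤ ∑ g, Nb g i := fun i => Finset.sum_nonneg fun g _ => hNb g i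
  have hB0 : 0 ≤ B0 := by
    rw [hB]
    exact Finset.sum_nonneg fun g _ => Finset.sum_nonneg fun i _ => hNb g i
  have hNB : B0 = 0 → ∀ i, ∑ g, Nb g i = 0 := by
    intro h i
    rw [hB] at h
    refine Finset.sum_eq_zero fun g _ => ?_
    have h1 := (Finset.sum_eq_zero_iff_of_nonneg fun g _ =>
      Finset.sum_nonneg fun i _ => hNb g i).1 h g (Finset.mem_univ g)
    exact (Finset.sum_eq_zero_iff_of_nonneg fun i _ => hNb g i).1 h1 i (Finset.mem_univ i)
  obtain ⟨h1, h2⟩ := own_false hr he hne hζ hB0 hN hNB hlobe zero rad ang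
  obtain ⟨i0, hi0⟩ : ∃ i, 0 < r i := by
    by_contra h
    push Not at h
    exact hne (funext fun i => le_antisymm (h i) (hr i))
  obtain ⟨g, -, hg⟩ : ∃ g ∈ Finset.univ, 0 < Nb g i0 := by
    refine Finset.exists_lt_of_sum_lt (f := fun _ => (0 : ℝ)) ?_
    rw [Finset.sum_const_zero, ← h2 i0 hi0]
    exact hi0
  have h3 := hsupp g i0 hg
  obtain ⟨j, hj, h4⟩ := hkill g h3 (fun j hj => h1 j (h3 j hj)) ⟨i0, hg⟩
  have h5 : Nb g j ≤ ∑ g, Nb g j :=
    Finset.single_le_sum (f := fun g => Nb g j) (fun g _ => hNb g j) (Finset.mem_univ g)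
  rw [← h2 j (h3 j hj)] at h5
  linarith

end Crest.Agent.R267.OwnBox_896
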