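import Mathlib

/-!
# S0406, T3N hub step: START at `M ≫ 1` (helper862)

Magnitude/angle form.  `r i` (`i : ι`, hub variables and `w`) own magnitudes with unit phases `e i`,
`a`, `b` magnitudes of the two couplings with unit phases `ea`, `eb`; real boxes of value `B0`.
`Pt.Bad ζ` : value zero, radial and angular equations for the conormal `ζ`.

* `Pt.re_zero` : in the limit `M = ∞` the couplings are perpendicular to the conormal;
* `Pt.lin_zero` : as long as the phases have a linear part (`s < 1`) the couplings vanish;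
* `Pt.type_zero` : at `s = 1` (staircase phases) the couplings vanish, by the types;
* `compact` : compactness, `M → ∞`.
-/

set_option autoImplicit false
set_option linter.unusedSectionVars false

noncomputable section

open Set Filter Topology Finset
open scoped ComplexConjugate

namespace Crest.Agent.R267.Start_862

variable {ι : Type*} [Fintype ι]

/-- component along the conormal. -/
def rp (ζ e : ℂ) : ℝ := (conj ζ * e).re
/-- component across the conormal. -/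
def ip (ζ e : ℂ) : ℝ := (conj ζ * e).im

theorem rp_sq_add (ζ e : ℂ) : rp ζ e ^ 2 + ip ζ e ^ 2 = ‖ζ‖ ^ 2 * ‖e‖ ^ 2 := by
  have h : ‖conj ζ * e‖ ^ 2 = rp ζ e ^ 2 + ip ζ e ^ 2 := by
    rw [← Complex.normSq_eq_norm_sq, Complex.normSq_apply]; unfold rp ip; ring
  rw [← h, norm_mul, mul_pow, Complex.norm_conj]

theorem rp_neg_one (ζ : ℂ) : rp ζ (-1) = -ζ.re := by simp [rp]
theorem ip_neg_one (ζ : ℂ) : ip ζ (-1) = ζ.im := by simp [ip]
theorem rp_one (ζ : ℂ) : rp ζ 1 = ζ.re := by simp [rp]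
theorem ip_one (ζ : ℂ) : ip ζ 1 = -ζ.im := by simp [ip]

theorem ip_sub (ζ e f : ℂ) : ip ζ (e - f) = ip ζ e - ip ζ f := by
  unfold ip; rw [mul_sub, Complex.sub_im]

theorem abs_ip_le {ζ e : ℂ} (hζ : ‖ζ‖ = 1) : |ip ζ e| ≤ ‖e‖ := by
  unfold ip
  calc |(conj ζ * e).im| ≤ ‖conj ζ * e‖ := Complex.abs_im_le_norm _
    _ = ‖e‖ := by rw [norm_mul, Complex.norm_conj, hζ, one_mul]

/-- the data at one point. -/
structure Pt (ι : Type*) where
  r : ι → ℝ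
  e : ι → ℂ
  a : ℝ
  b : ℝ
  ea : ℂ
  eb : ℂ
  va : ι → ℝ
  vb : ι → ℝ
  q : ι → ℝ
  A : ι → ℝ
  B : ι → ℝ
  B0 : ℝ
  N : ι → ℝ
  T : ι → ℝ

/-- **bad point** with conormal `ζ`. -/
structure Pt.Bad (P : Pt ι) (ζ : ℂ) : Prop where
  zero : (∑ i, (P.r i : ℂ) * P.e i) + P.a * P.ea + P.b * P.eb - P.B0 = 0
  rad : ∀ i, P.r i * rp ζ (P.e i) + P.va i * (P.a * rp ζ P.ea) + P.vb i * (P.b * rp ζ P.eb) =
    P.N i * ζ.re
  ang : ∀ i, P.q i * (P.r i * ip ζ (P.e i)) + P.A i * (P.a * ip ζ P.ea) +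
    P.B i * (P.b * ip ζ P.eb) + P.T i * ζ.re = 0

/-- which strata of the limit `M = ∞` occur, with coefficients `U`, `V` of the linear equations. -/
structure Pt.Str (P : Pt ι) (U V : ι → ℝ) : Prop where
  ab : P.a ≠ 0 → P.b ≠ 0 → ∃ i j, P.r i = 0 ∧ P.r j = 0 ∧ U i * V j - U j * V i ≠ 0
  a : P.a ≠ 0 → P.b = 0 → ∃ i, P.r i = 0 ∧ U i ≠ 0
  b : P.a = 0 → P.b ≠ 0 → ∃ i, P.r i = 0 ∧ V i ≠ 0

theorem Pt.Str.solve {P : Pt ι} {U V : ι → ℝ} (h : P.Str U V) {x y : ℝ} (hx : P.a = 0 → x = 0)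
    (hy : P.b = 0 → y = 0) (eq : ∀ i, P.r i = 0 → U i * x + V i * y = 0) : x = 0 ∧ y = 0 := by
  by_cases ha : P.a = 0
  · have hx0 := hx ha
    refine ⟨hx0, ?_⟩
    by_cases hb : P.b = 0
    · exact hy hb
    · obtain ⟨i, h1, h2⟩ := h.b ha hb
      have := eq i h1
      rw [hx0, mul_zero, zero_add] at this
      exact (mul_eq_zero.1 this).resolve_left h2
  · by_cases hb : P.b = 0
    · have hy0 := hy hb
      refine ⟨?_, hy0⟩
      obtain ⟨i, h1, h2⟩ := h.a ha hb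
      have := eq i h1
      rw [hy0, mul_zero, add_zero] at this
      exact (mul_eq_zero.1 this).resolve_left h2
    · obtain ⟨i, j, hi, hj, hd⟩ := h.ab ha hb
      have e1 := eq i hi
      have e2 := eq j hj
      constructor
      · have : (U i * V j - U j * V i) * x = 0 := by linear_combination V j * e1 - V i * e2
        exact (mul_eq_zero.1 this).resolve_left hd
      · have : (U i * V j - U j * V i) * y = 0 := by linear_combination U i * e2 - U j * e1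
        exact (mul_eq_zero.1 this).resolve_left hd

/-- all couplings are perpendicular to the conormal. -/
theorem Pt.Bad.re_zero {P : Pt ι} {ζ : ℂ} (h : P.Bad ζ) (hN : ∀ i, P.r i = 0 → P.N i = 0)
    (hS : P.Str P.va P.vb) : P.a * rp ζ P.ea = 0 ∧ P.b * rp ζ P.eb = 0 := by
  refine hS.solve (fun h0 => by rw [h0, zero_mul]) (fun h0 => by rw [h0, zero_mul]) fun i hi => ?_
  have := h.rad i
  rw [hi, hN i hi, zero_mul, zero_mul, zero_add] at this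
  exact this

theorem unit_zero {ζ e : ℂ} {x : ℝ} (hζ : ‖ζ‖ = 1) (he : ‖e‖ = 1) (h1 : x * rp ζ e = 0)
    (h2 : x * ip ζ e = 0) : x = 0 := by
  by_contra hx
  have e1 := (mul_eq_zero.1 h1).resolve_left hx
  have e2 := (mul_eq_zero.1 h2).resolve_left hx
  have := rp_sq_add ζ e
  rw [e1, e2, hζ, he] at this
  norm_num at this

/-- with a linear part in the phases the couplings vanish. -/
theorem Pt.Bad.lin_zero {P : Pt ι} {ζ : ℂ} (h : P.Bad ζ) (hζ : ‖ζ‖ = 1) (hea : ‖P.ea‖ = 1)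
    (heb : ‖P.eb‖ = 1) (hN : ∀ i, P.r i = 0 → P.N i = 0) (hT : ∀ i, P.r i = 0 → P.T i = 0)
    (hS : P.Str P.va P.vb) (hS' : P.Str P.A P.B) : P.a = 0 ∧ P.b = 0 := by
  obtain ⟨c1, c2⟩ := h.re_zero hN hS
  have : P.a * ip ζ P.ea = 0 ∧ P.b * ip ζ P.eb = 0 := by
    refine hS'.solve (fun h0 => by rw [h0, zero_mul]) (fun h0 => by rw [h0, zero_mul])
      fun i hi => ?_
    have := h.ang i
    rw [hi, hT i hi, zero_mul, zero_mul, mul_zero, zero_add, add_zero] at this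
    exact this
  exact ⟨unit_zero hζ hea c1 this.1, unit_zero hζ heb c2 this.2⟩

/-- a coupling of staircase type: angular speeds `G`, phase `e`, own phases and speeds `P.e`, `P.q`;
weights `mu`, `η` = tolerance (width of the smoothing). -/
def Pt.Typ (P : Pt ι) (η : ℝ) (G : ι → ℝ) (e : ℂ) : Prop :=
  ∃ mu g : ι → ℝ, (∀ i, G i = mu i * g i) ∧ (∀ i, 0 ≤ mu i) ∧
    ((∃ i, 0 < mu i) ∨ ‖e + 1‖ ≤ η) ∧
    ∀ i, 0 < mu i → (g i = P.q i ∧ ‖e - P.e i‖ ≤ η) ∨ (g i = 0 ∧ ‖e + 1‖ ≤ η)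

theorem close_mul {ζ e f : ℂ} {η : ℝ} (hζ : ‖ζ‖ = 1) (he : ‖e‖ = 1) (hr : rp ζ e = 0)
    (hd : ‖e - f‖ ≤ η) : 1 - η ≤ ip ζ e * ip ζ f := by
  have h1 : ip ζ e ^ 2 = 1 := by
    have := rp_sq_add ζ e
    rw [hr, hζ, he] at this
    linarith
  have h2 : |ip ζ e - ip ζ f| ≤ η := by
    rw [← ip_sub]; exact (abs_ip_le hζ).trans hd
  have h3 : |ip ζ e| = 1 := by
    rw [← Real.sqrt_sq_eq_abs, h1, Real.sqrt_one]
  have h4 : ip ζ e * (ip ζ e - ip ζ f) ≤ η := by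
    calc ip ζ e * (ip ζ e - ip ζ f) ≤ |ip ζ e * (ip ζ e - ip ζ f)| := le_abs_self _
      _ = |ip ζ e - ip ζ f| := by rw [abs_mul, h3, one_mul]
      _ ≤ η := h2
  nlinarith

/-- **at the staircase end the couplings vanish.** -/
theorem Pt.Bad.type_zero {P : Pt ι} {ζ : ℂ} {η : ℝ} (h : P.Bad ζ) (hη : η < 1) (hζ : ‖ζ‖ = 1)
    (hea : ‖P.ea‖ = 1) (heb : ‖P.eb‖ = 1) (hr : ∀ i, 0 ≤ P.r i) (ha : 0 ≤ P.a) (hb : 0 ≤ P.b)
    (hB : 0 ≤ P.B0) (hN : ∀ i, P.r i = 0 → P.N i = 0) (hT : ∀ i, P.q i ≠ 0 → P.T i = 0)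
    (hq : ∀ i, P.q i = 0 → P.e i = -1) (hS : P.Str P.va P.vb) (tA : P.Typ η P.A P.ea)
    (tB : P.Typ η P.B P.eb) : P.a = 0 ∧ P.b = 0 := by
  obtain ⟨c1, c2⟩ := h.re_zero hN hS
  obtain ⟨ma, ga, A1, A2, A3, A4⟩ := tA
  obtain ⟨mb, gb, B1, B2, B3, B4⟩ := tB
  -- one coupling: the contribution to the equation of an in-lobe variable has the sign of `ip (e i)`
  have key : ∀ (x : ℝ) (e : ℂ) (m g : ι → ℝ), 0 ≤ x → ‖e‖ = 1 → x * rp ζ e = 0 →
      (∀ i, 0 ≤ m i) →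
      (∀ i, 0 < m i → (g i = P.q i ∧ ‖e - P.e i‖ ≤ η) ∨ (g i = 0 ∧ ‖e + 1‖ ≤ η)) → ∀ i,
      P.q i ≠ 0 → 0 ≤ (m i * g i * (x * ip ζ e)) * ip ζ (P.e i) / P.q i ∧
        ((m i * g i * (x * ip ζ e)) * ip ζ (P.e i) / P.q i = 0 → x ≠ 0 → 0 < m i →
          ‖e + 1‖ ≤ η) := by
    intro x e m g hx he hc hm ht i hi
    rcases (hm i).eq_or_lt with h0 | h0
    · rw [← h0]
      refine ⟨by simp, fun _ _ h3 => absurd h3 (lt_irrefl _)⟩
    · rcases ht i h0 with ⟨hg, hd⟩ | ⟨hg, hd⟩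
      · rcases hx.eq_or_lt with hx0 | hx0
        · rw [← hx0]
          exact ⟨by simp, fun _ h3 => absurd rfl h3⟩
        · have hrp : rp ζ e = 0 := (mul_eq_zero.1 hc).resolve_left hx0.ne'
          have hcl := close_mul hζ he hrp hd
          have e1 : m i * g i * (x * ip ζ e) * ip ζ (P.e i) / P.q i =
              m i * x * (ip ζ e * ip ζ (P.e i)) := by
            rw [hg]; field_simp
          rw [e1]
          have h1 : 0 < 1 - η := by linarith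
          have h2 : 0 < m i * x * (ip ζ e * ip ζ (P.e i)) := by
            have : 0 < ip ζ e * ip ζ (P.e i) := lt_of_lt_of_le h1 hcl
            positivity
          exact ⟨h2.le, fun h3 => absurd h3 h2.ne'⟩
      · rw [hg]
        refine ⟨by simp, fun _ _ _ => hd⟩
  have hin : ∀ i, P.q i ≠ 0 → P.r i * ip ζ (P.e i) = 0 ∧
      (P.a ≠ 0 → 0 < ma i → ‖P.ea + 1‖ ≤ η) ∧ (P.b ≠ 0 → 0 < mb i → ‖P.eb + 1‖ ≤ η) := by
    intro i hi
    have e1 := h.ang i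
    rw [hT i hi, zero_mul, add_zero, A1 i, B1 i] at e1
    obtain ⟨ka, ka'⟩ := key P.a P.ea ma ga ha hea c1 A2 A4 i hi
    obtain ⟨kb, kb'⟩ := key P.b P.eb mb gb hb heb c2 B2 B4 i hi
    have e2 : P.r i * ip ζ (P.e i) * ip ζ (P.e i) +
        (ma i * ga i * (P.a * ip ζ P.ea)) * ip ζ (P.e i) / P.q i +
        (mb i * gb i * (P.b * ip ζ P.eb)) * ip ζ (P.e i) / P.q i = 0 := by
      have : (P.q i * (P.r i * ip ζ (P.e i)) + ma i * ga i * (P.a * ip ζ P.ea) +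
          mb i * gb i * (P.b * ip ζ P.eb)) * ip ζ (P.e i) / P.q i = 0 := by rw [e1]; simp
      rw [← this]; field_simp
    have h3 : 0 ≤ P.r i * ip ζ (P.e i) * ip ζ (P.e i) := by
      rw [mul_assoc]; exact mul_nonneg (hr i) (mul_self_nonneg _)
    have z1 : P.r i * ip ζ (P.e i) * ip ζ (P.e i) = 0 := by linarith
    refine ⟨?_, ka' (by linarith), kb' (by linarith)⟩
    rcases mul_eq_zero.1 z1 with h4 | h4
    · exact h4
    · rw [h4, mul_zero]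
  -- a non-zero coupling is close to `-1`
  have cl : ∀ (x : ℝ) (e : ℂ) (m g : ι → ℝ), ((∃ i, 0 < m i) ∨ ‖e + 1‖ ≤ η) →
      (∀ i, 0 < m i → (g i = P.q i ∧ ‖e - P.e i‖ ≤ η) ∨ (g i = 0 ∧ ‖e + 1‖ ≤ η)) →
      (∀ i, P.q i ≠ 0 → x ≠ 0 → 0 < m i → ‖e + 1‖ ≤ η) → x ≠ 0 → ‖e + 1‖ ≤ η := by
    intro x e m g hor ht h3 hx
    rcases hor with ⟨i, hi⟩ | hor
    swap
    · exact hor
    by_cases hqi : P.q i = 0
    · rcases ht i hi with ⟨_, h4⟩ | ⟨_, h4⟩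
      · rw [hq i hqi, sub_neg_eq_add] at h4; exact h4
      · exact h4
    · exact h3 i hqi hx hi
  have ca := cl P.a P.ea ma ga A3 A4 fun i hi => (hin i hi).2.1
  have cb := cl P.b P.eb mb gb B3 B4 fun i hi => (hin i hi).2.2
  -- the imaginary part of `conj ζ * F`
  have tot : (∑ i, P.r i * ip ζ (P.e i)) + P.a * ip ζ P.ea + P.b * ip ζ P.eb + P.B0 * ζ.im = 0 := by
    have h0 := congrArg (fun u => (conj ζ * u).im) h.zero
    simp only [mul_zero, Complex.zero_im] at h0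
    have h1 : (conj ζ * ((∑ i, (P.r i : ℂ) * P.e i) + P.a * P.ea + P.b * P.eb - P.B0)).im =
        (∑ i, P.r i * ip ζ (P.e i)) + P.a * ip ζ P.ea + P.b * ip ζ P.eb + P.B0 * ζ.im := by
      rw [mul_sub, mul_add, mul_add, Finset.mul_sum, Complex.sub_im, Complex.add_im, Complex.add_im,
        Complex.im_sum]
      have e1 : ∀ (x : ℝ) (u : ℂ), (conj ζ * ((x : ℂ) * u)).im = x * ip ζ u := by
        intro x u
        unfold ip
        rw [← mul_assoc, mul_comm (conj ζ) (x : ℂ), mul_assoc, Complex.im_ofReal_mul]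
      have e2 : (conj ζ * (P.B0 : ℂ)).im = - (P.B0 * ζ.im) := by
        rw [mul_comm, Complex.im_ofReal_mul, Complex.conj_im]; ring
      rw [e1, e1, e2, Finset.sum_congr rfl fun i _ => e1 (P.r i) (P.e i)]
      ring
    rw [← h1]; exact h0
  have t1 : ∀ i, 0 ≤ P.r i * ip ζ (P.e i) * ζ.im := by
    intro i
    by_cases hqi : P.q i = 0
    · rw [hq i hqi, ip_neg_one, mul_assoc]
      exact mul_nonneg (hr i) (mul_self_nonneg _)
    · rw [(hin i hqi).1, zero_mul]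
  have t2 : ∀ (x : ℝ) (e : ℂ), 0 ≤ x → ‖e‖ = 1 → x * rp ζ e = 0 → (x ≠ 0 → ‖e + 1‖ ≤ η) →
      x * (1 - η) ≤ x * ip ζ e * ζ.im := by
    intro x e hx he hc hcl
    rcases hx.eq_or_lt with h0 | h0
    · rw [← h0]; simp
    · have hrp : rp ζ e = 0 := (mul_eq_zero.1 hc).resolve_left h0.ne'
      have := close_mul (f := -1) (η := η) hζ he hrp (by rw [sub_neg_eq_add]; exact hcl h0.ne')
      rw [ip_neg_one] at this
      rw [mul_assoc]
      exact mul_le_mul_of_nonneg_left this hx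
  have u1 := t2 P.a P.ea ha hea c1 ca
  have u2 := t2 P.b P.eb hb heb c2 cb
  have u3 : 0 ≤ ∑ i, P.r i * ip ζ (P.e i) * ζ.im := Finset.sum_nonneg fun i _ => t1 i
  have u4 : 0 ≤ P.B0 * ζ.im * ζ.im := by
    rw [mul_assoc]; exact mul_nonneg hB (mul_self_nonneg _)
  have tot' : (∑ i, P.r i * ip ζ (P.e i) * ζ.im) + P.a * ip ζ P.ea * ζ.im +
      P.b * ip ζ P.eb * ζ.im + P.B0 * ζ.im * ζ.im = 0 := by
    rw [← Finset.sum_mul]
    linear_combination ζ.im * tot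
  have h1 : 0 < 1 - η := by linarith
  have v1 : 0 ≤ P.a * (1 - η) := by positivity
  have v2 : 0 ≤ P.b * (1 - η) := by positivity
  constructor
  · have : P.a * (1 - η) = 0 := by linarith
    exact (mul_eq_zero.1 this).resolve_right h1.ne'
  · have : P.b * (1 - η) = 0 := by linarith
    exact (mul_eq_zero.1 this).resolve_right h1.ne'

/-! ## compactness -/

theorem compact {X : Type*} [TopologicalSpace X] {K : Set X} (hK : IsCompact K)
    {R : Set (ℝ × X)} (hR : IsClosed R) (h0 : ∀ x ∈ K, ((0 : ℝ), x) ∉ R) :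
    ∃ ε > 0, ∀ μ : ℝ, 0 ≤ μ → μ < ε → ∀ x ∈ K, (μ, x) ∉ R := by
  obtain ⟨U, V, hU, hV, h1, h2, h3⟩ := generalized_tube_lemma (isCompact_singleton (x := (0 : ℝ)))
    hK hR.isOpen_compl (by
      rintro ⟨m, x⟩ ⟨hm, hx⟩
      have : m = 0 := hm
      subst this
      exact h0 x hx)
  obtain ⟨ε, he, hb⟩ := Metric.isOpen_iff.1 hU 0 (h1 rfl)
  refine ⟨ε, he, fun μ h0 h1' x hx => ?_⟩
  exact h3 (mk_mem_prod (hb (by rw [Metric.mem_ball, Real.dist_eq, sub_zero, abs_of_nonneg h0];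
                                exact h1')) (h2 hx))

variable {Y : Type*} [TopologicalSpace Y]

/-- the data as functions of the parameter `y` (time, angles). -/
structure Sys (ι Y : Type*) where
  e : ι → Y → ℂ
  ea : Y → ℂ
  eb : Y → ℂ
  va : ι → Y → ℝ
  vb : ι → Y → ℝ
  q : ι → Y → ℝ
  A : ι → Y → ℝ
  B : ι → Y → ℝ
  B0 : Y × (ι → ℝ) → ℝ
  N : ι → Y × (ι → ℝ) → ℝ
  T : ι → Y × (ι → ℝ) → ℝ

/-- the point data. -/
def Sys.pt (S : Sys ι Y) (y : Y) (r : ι → ℝ) (a b : ℝ) : Pt ι where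
  r := r
  e i := S.e i y
  a := a
  b := b
  ea := S.ea y
  eb := S.eb y
  va i := S.va i y
  vb i := S.vb i y
  q i := S.q i y
  A i := S.A i y
  B i := S.B i y
  B0 := S.B0 (y, r)
  N i := S.N i (y, r)
  T i := S.T i (y, r)

structure Sys.Cont (S : Sys ι Y) : Prop where
  e : ∀ i, Continuous (S.e i)
  ea : Continuous S.ea
  eb : Continuous S.eb
  va : ∀ i, Continuous (S.va i)
  vb : ∀ i, Continuous (S.vb i)
  q : ∀ i, Continuous (S.q i)
  A : ∀ i, Continuous (S.A i)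
  B : ∀ i, Continuous (S.B i)
  B0 : Continuous S.B0
  N : ∀ i, Continuous (S.N i)
  T : ∀ i, Continuous (S.T i)

structure Sys.Hom (S : Sys ι Y) : Prop where
  B0 : ∀ y r (c : ℝ), 0 < c → S.B0 (y, c • r) = c * S.B0 (y, r)
  N : ∀ i y r (c : ℝ), 0 < c → S.N i (y, c • r) = c * S.N i (y, r)
  T : ∀ i y r (c : ℝ), 0 < c → S.T i (y, c • r) = c * S.T i (y, r)

theorem rp_smul (t : ℝ) (ζ e : ℂ) : rp ((t : ℂ) * ζ) e = t * rp ζ e := by
  unfold rp
  rw [map_mul, Complex.conj_ofReal, mul_assoc, Complex.re_ofReal_mul]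

theorem ip_smul (t : ℝ) (ζ e : ℂ) : ip ((t : ℂ) * ζ) e = t * ip ζ e := by
  unfold ip
  rw [map_mul, Complex.conj_ofReal, mul_assoc, Complex.im_ofReal_mul]

theorem Sys.Hom.bad {S : Sys ι Y} (h : S.Hom) {y : Y} {r : ι → ℝ} {a b : ℝ} {ζ : ℂ} {c t : ℝ}
    (hc : 0 < c) (hB : (S.pt y r a b).Bad ζ) :
    (S.pt y (c • r) (c * a) (c * b)).Bad ((t : ℂ) * ζ) := by
  have rt : ((t : ℂ) * ζ).re = t * ζ.re := Complex.re_ofReal_mul _ _
  constructor
  · have h0 := hB.zero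
    simp only [Sys.pt] at h0 ⊢
    rw [h.B0 y r c hc]
    simp only [Pi.smul_apply, smul_eq_mul]
    push_cast
    have e1 : ∑ i, ((c : ℂ) * (r i : ℂ)) * S.e i y = c * ∑ i, (r i : ℂ) * S.e i y := by
      rw [Finset.mul_sum]; exact Finset.sum_congr rfl fun i _ => by ring
    rw [e1]
    linear_combination (c : ℂ) * h0
  · intro i
    have h0 := hB.rad i
    simp only [Sys.pt] at h0 ⊢
    rw [h.N i y r c hc, rp_smul, rp_smul, rp_smul, rt]
    simp only [Pi.smul_apply, smul_eq_mul]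
    linear_combination c * t * h0
  · intro i
    have h0 := hB.ang i
    simp only [Sys.pt] at h0 ⊢
    rw [h.T i y r c hc, ip_smul, ip_smul, ip_smul, rt]
    simp only [Pi.smul_apply, smul_eq_mul]
    linear_combination c * t * h0

/-- the magnitudes are admissible. -/
structure Mag (r : ι → ℝ) (a b : ℝ) : Prop where
  hr : ∀ i, 0 ≤ r i
  ha : 0 ≤ a
  hb : 0 ≤ b
  pos : 0 < (∑ i, r i) + a + b

theorem continuous_rp {X : Type*} [TopologicalSpace X] {f g : X → ℂ} (hf : Continuous f)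
    (hg : Continuous g) : Continuous fun x => rp (f x) (g x) :=
  Complex.continuous_re.comp ((Complex.continuous_conj.comp hf).mul hg)

theorem continuous_ip {X : Type*} [TopologicalSpace X] {f g : X → ℂ} (hf : Continuous f)
    (hg : Continuous g) : Continuous fun x => ip (f x) (g x) :=
  Complex.continuous_im.comp ((Complex.continuous_conj.comp hf).mul hg)

theorem Sys.Cont.closed {S : Sys ι Y} (h : S.Cont) :
    IsClosed {p : ℝ × (Y × (ι → ℝ) × ℝ × ℝ × ℂ) |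
      (S.pt p.2.1 p.2.2.1 p.2.2.2.1 p.2.2.2.2.1).Bad p.2.2.2.2.2} := by
  have cy : Continuous fun p : ℝ × (Y × (ι → ℝ) × ℝ × ℝ × ℂ) => p.2.1 := by fun_prop
  have cr : ∀ i, Continuous fun p : ℝ × (Y × (ι → ℝ) × ℝ × ℝ × ℂ) => p.2.2.1 i := by
    intro i; fun_prop
  have ca : Continuous fun p : ℝ × (Y × (ι → ℝ) × ℝ × ℝ × ℂ) => p.2.2.2.1 := by fun_prop
  have cb : Continuous fun p : ℝ × (Y × (ι → ℝ) × ℝ × ℝ × ℂ) => p.2.2.2.2.1 := by fun_prop
  have cz : Continuous fun p : ℝ × (Y × (ι → ℝ) × ℝ × ℝ × ℂ) => p.2.2.2.2.2 := by fun_prop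
  have cyr : Continuous fun p : ℝ × (Y × (ι → ℝ) × ℝ × ℝ × ℂ) => (p.2.1, p.2.2.1) := by fun_prop
  have czr : Continuous fun p : ℝ × (Y × (ι → ℝ) × ℝ × ℝ × ℂ) => p.2.2.2.2.2.re :=
    Complex.continuous_re.comp cz
  have e1 : IsClosed {p : ℝ × (Y × (ι → ℝ) × ℝ × ℝ × ℂ) |
      (∑ i, (p.2.2.1 i : ℂ) * S.e i p.2.1) + p.2.2.2.1 * S.ea p.2.1 + p.2.2.2.2.1 * S.eb p.2.1 -
        S.B0 (p.2.1, p.2.2.1) = 0} := by
    refine isClosed_eq ?_ continuous_const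
    refine ((Continuous.add ?_ ?_).add ?_).sub ?_
    · exact continuous_finsetSum _ fun i _ =>
        (Complex.continuous_ofReal.comp (cr i)).mul ((h.e i).comp cy)
    · exact (Complex.continuous_ofReal.comp ca).mul (h.ea.comp cy)
    · exact (Complex.continuous_ofReal.comp cb).mul (h.eb.comp cy)
    · exact Complex.continuous_ofReal.comp (h.B0.comp cyr)
  have e2 : ∀ i, IsClosed {p : ℝ × (Y × (ι → ℝ) × ℝ × ℝ × ℂ) |
      p.2.2.1 i * rp p.2.2.2.2.2 (S.e i p.2.1) +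
        S.va i p.2.1 * (p.2.2.2.1 * rp p.2.2.2.2.2 (S.ea p.2.1)) +
        S.vb i p.2.1 * (p.2.2.2.2.1 * rp p.2.2.2.2.2 (S.eb p.2.1)) =
      S.N i (p.2.1, p.2.2.1) * p.2.2.2.2.2.re} := by
    intro i
    refine isClosed_eq ((Continuous.add ?_ ?_).add ?_) (((h.N i).comp cyr).mul czr)
    · exact (cr i).mul (continuous_rp cz ((h.e i).comp cy))
    · exact ((h.va i).comp cy).mul (ca.mul (continuous_rp cz (h.ea.comp cy)))
    · exact ((h.vb i).comp cy).mul (cb.mul (continuous_rp cz (h.eb.comp cy)))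
  have e3 : ∀ i, IsClosed {p : ℝ × (Y × (ι → ℝ) × ℝ × ℝ × ℂ) |
      S.q i p.2.1 * (p.2.2.1 i * ip p.2.2.2.2.2 (S.e i p.2.1)) +
        S.A i p.2.1 * (p.2.2.2.1 * ip p.2.2.2.2.2 (S.ea p.2.1)) +
        S.B i p.2.1 * (p.2.2.2.2.1 * ip p.2.2.2.2.2 (S.eb p.2.1)) +
      S.T i (p.2.1, p.2.2.1) * p.2.2.2.2.2.re = 0} := by
    intro i
    refine isClosed_eq (((Continuous.add ?_ ?_).add ?_).add (((h.T i).comp cyr).mul czr))
      continuous_const
    · exact ((h.q i).comp cy).mul ((cr i).mul (continuous_ip cz ((h.e i).comp cy)))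
    · exact ((h.A i).comp cy).mul (ca.mul (continuous_ip cz (h.ea.comp cy)))
    · exact ((h.B i).comp cy).mul (cb.mul (continuous_ip cz (h.eb.comp cy)))
  have : {p : ℝ × (Y × (ι → ℝ) × ℝ × ℝ × ℂ) |
      (S.pt p.2.1 p.2.2.1 p.2.2.2.1 p.2.2.2.2.1).Bad p.2.2.2.2.2} =
    {p : ℝ × (Y × (ι → ℝ) × ℝ × ℝ × ℂ) |
      (∑ i, (p.2.2.1 i : ℂ) * S.e i p.2.1) + p.2.2.2.1 * S.ea p.2.1 + p.2.2.2.2.1 * S.eb p.2.1 -
        S.B0 (p.2.1, p.2.2.1) = 0} ∩
    (⋂ i, {p : ℝ × (Y × (ι → ℝ) × ℝ × ℝ × ℂ) |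
      p.2.2.1 i * rp p.2.2.2.2.2 (S.e i p.2.1) +
        S.va i p.2.1 * (p.2.2.2.1 * rp p.2.2.2.2.2 (S.ea p.2.1)) +
        S.vb i p.2.1 * (p.2.2.2.2.1 * rp p.2.2.2.2.2 (S.eb p.2.1)) =
      S.N i (p.2.1, p.2.2.1) * p.2.2.2.2.2.re}) ∩
    (⋂ i, {p : ℝ × (Y × (ι → ℝ) × ℝ × ℝ × ℂ) |
      S.q i p.2.1 * (p.2.2.1 i * ip p.2.2.2.2.2 (S.e i p.2.1)) +
        S.A i p.2.1 * (p.2.2.2.1 * ip p.2.2.2.2.2 (S.ea p.2.1)) +
        S.B i p.2.1 * (p.2.2.2.2.1 * ip p.2.2.2.2.2 (S.eb p.2.1)) +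
      S.T i (p.2.1, p.2.2.1) * p.2.2.2.2.2.re = 0}) := by
    ext p
    simp only [mem_ofPred_eq, mem_inter_iff, mem_iInter]
    exact ⟨fun hp => ⟨⟨hp.zero, hp.rad⟩, hp.ang⟩, fun hp => ⟨hp.1.1, hp.1.2, hp.2⟩⟩
  rw [this]
  exact (e1.inter (isClosed_iInter e2)).inter (isClosed_iInter e3)

/-- **compactness, `M → ∞`** (`μ = 1 / M`): if the limit relations have no bad point, there is none
for small `μ`. -/
theorem Sys.large (S : Sys ι Y) (hc : S.Cont) (hh : S.Hom) {K : Set Y} (hK : IsCompact K)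
    {Rel : Set (ℝ × (Y × (ι → ℝ) × ℝ × ℝ))} (hcl : IsClosed Rel)
    (hom : ∀ μ y r a b (c : ℝ), 0 < c → (μ, (y, r, a, b)) ∈ Rel →
      (μ, (y, c • r, c * a, c * b)) ∈ Rel)
    (h0 : ∀ y ∈ K, ∀ r a b ζ, Mag r a b → ‖ζ‖ = 1 → ((0 : ℝ), (y, r, a, b)) ∈ Rel →
      ¬ (S.pt y r a b).Bad ζ) :
    ∃ ε > 0, ∀ μ : ℝ, 0 ≤ μ → μ < ε → ∀ y ∈ K, ∀ r a b ζ, Mag r a b → ζ ≠ 0 →
      (μ, (y, r, a, b)) ∈ Rel → ¬ (S.pt y r a b).Bad ζ := by
  set K' : Set (Y × (ι → ℝ) × ℝ × ℝ × ℂ) := (K ×ˢ (Icc (0 : ι → ℝ) 1) ×ˢ (Icc (0 : ℝ) 1) ×ˢ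
    (Icc (0 : ℝ) 1) ×ˢ (Metric.sphere (0 : ℂ) 1)) ∩
    {p | (∑ i, p.2.1 i) + p.2.2.1 + p.2.2.2.1 = 1} with hK'
  have hK'c : IsCompact K' := by
    refine IsCompact.inter_right (hK.prod (isCompact_Icc.prod (isCompact_Icc.prod
      (isCompact_Icc.prod (isCompact_sphere _ _))))) ?_
    refine isClosed_eq ?_ continuous_const
    fun_prop
  set R : Set (ℝ × (Y × (ι → ℝ) × ℝ × ℝ × ℂ)) :=
    {p | (p.1, (p.2.1, p.2.2.1, p.2.2.2.1, p.2.2.2.2.1)) ∈ Rel} ∩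
    {p | (S.pt p.2.1 p.2.2.1 p.2.2.2.1 p.2.2.2.2.1).Bad p.2.2.2.2.2} with hR
  have hRc : IsClosed R := by
    refine IsClosed.inter (hcl.preimage (f := fun p : ℝ × (Y × (ι → ℝ) × ℝ × ℝ × ℂ) =>
      (p.1, (p.2.1, p.2.2.1, p.2.2.2.1, p.2.2.2.2.1))) (by fun_prop)) hc.closed
  obtain ⟨ε, he, hε⟩ := compact hK'c hRc (by
    rintro ⟨y, r, a, b, ζ⟩ ⟨⟨hy, hr, ha, hb, hz⟩, hs⟩ ⟨h1, h2⟩
    simp only [mem_ofPred_eq] at hs h1 h2
    refine h0 y hy r a b ζ ⟨fun i => hr.1 i, ha.1, hb.1, by rw [hs]; norm_num⟩ ?_ h1 h2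
    simpa using hz)
  refine ⟨ε, he, fun μ m0 m1 y hy r a b ζ hm hζ hrel hbad => ?_⟩
  set t := (∑ i, r i) + a + b with ht
  have tp : 0 < t⁻¹ := inv_pos.2 hm.pos
  have zp : 0 < ‖ζ‖ := norm_pos_iff.2 hζ
  have hsum : (∑ i, (t⁻¹ • r) i) + t⁻¹ * a + t⁻¹ * b = 1 := by
    simp only [Pi.smul_apply, smul_eq_mul, ← Finset.mul_sum]
    rw [← mul_add, ← mul_add, ← ht]
    exact inv_mul_cancel₀ hm.pos.ne'
  have hri : ∀ i, 0 ≤ (t⁻¹ • r) i := fun i => by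
    simp only [Pi.smul_apply, smul_eq_mul]; exact mul_nonneg tp.le (hm.hr i)
  have ha : 0 ≤ t⁻¹ * a := mul_nonneg tp.le hm.ha
  have hb : 0 ≤ t⁻¹ * b := mul_nonneg tp.le hm.hb
  have hS : 0 ≤ ∑ i, (t⁻¹ • r) i := Finset.sum_nonneg fun i _ => hri i
  refine hε μ m0 m1 (y, t⁻¹ • r, t⁻¹ * a, t⁻¹ * b, ((‖ζ‖⁻¹ : ℝ) : ℂ) * ζ) ⟨⟨hy, ⟨hri, ?_⟩,
    ⟨ha, by linarith⟩, ⟨hb, by linarith⟩, ?_⟩, hsum⟩ ⟨hom _ _ _ _ _ _ tp hrel, hh.bad tp hbad⟩
  · intro i
    have := Finset.single_le_sum (fun j _ => hri j) (Finset.mem_univ i)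
    simp only [Pi.one_apply]
    linarith
  · rw [mem_sphere_zero_iff_norm, norm_mul, Complex.norm_real, norm_inv, norm_norm]
    exact inv_mul_cancel₀ zp.ne'

/-! ## the two hubs

`b = true` : `f`, `a = M r_x^{4/5} u`, `b = M u^5`; `b = false` : `g`, `a = M r_x^{3/5} u`,
`b = M r_x^{1/5} u^2`; `u = r_y^α r_z^{γ-α}` (`γ = 1/5`, resp. `2/5`).  The relations are stated as
inequalities with two values `α`, `α'`, so that convex combinations of couplings are allowed. -/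

/-- the exponent `γ`. -/
def ga (b : Bool) : ℝ := bif b then 1 / 5 else 2 / 5

/-- `u = r_y^α r_z^{γ-α}`. -/
def uu (b : Bool) (α : ℝ) (r : Fin 4 → ℝ) : ℝ := |r 1| ^ α * |r 2| ^ (ga b - α)

/-- the smaller and the larger of the two `u`. -/
def umin (b : Bool) (α α' : ℝ) (r : Fin 4 → ℝ) : ℝ := min (uu b α r) (uu b α' r)
def umax (b : Bool) (α α' : ℝ) (r : Fin 4 → ℝ) : ℝ := max (uu b α r) (uu b α' r)

/-- `r_x^{2/5} b ≤ u_max a`, resp. `r_x^{4/5} b ≤ u_max^4 a`. -/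
def R1 (b : Bool) (α α' : ℝ) (r : Fin 4 → ℝ) (a d : ℝ) : Prop :=
  bif b then |r 0| ^ (4 / 5 : ℝ) * d ≤ umax b α α' r ^ 4 * a
  else |r 0| ^ (2 / 5 : ℝ) * d ≤ umax b α α' r * a

/-- `u_min a ≤ r_x^{2/5} b`. -/
def R2 (b : Bool) (α α' : ℝ) (r : Fin 4 → ℝ) (a d : ℝ) : Prop :=
  bif b then True else umin b α α' r * a ≤ |r 0| ^ (2 / 5 : ℝ) * d

/-- `r_x^{1/5} u_min^2 ≤ μ b`, resp. `u_min^5 ≤ μ b`. -/
def R3 (b : Bool) (α α' μ : ℝ) (r : Fin 4 → ℝ) (d : ℝ) : Prop :=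
  bif b then umin b α α' r ^ 5 ≤ μ * d
  else |r 0| ^ (1 / 5 : ℝ) * umin b α α' r ^ 2 ≤ μ * d

/-- the relations, `μ = 1 / M`. -/
def Rel (Y : Type*) (b : Bool) (α α' : ℝ) : Set (ℝ × (Y × (Fin 4 → ℝ) × ℝ × ℝ)) :=
  {p | R1 b α α' p.2.2.1 p.2.2.2.1 p.2.2.2.2 ∧ R2 b α α' p.2.2.1 p.2.2.2.1 p.2.2.2.2 ∧
    R3 b α α' p.1 p.2.2.1 p.2.2.2.2}

/-- admissible shares. -/
structure Sh (b : Bool) (α : ℝ) : Prop where
  pos : 0 < α
  lt : α < ga b

theorem continuous_uu {X : Type*} [TopologicalSpace X] {b : Bool} {α : ℝ} (h : Sh b α)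
    {f : X → Fin 4 → ℝ} (hf : Continuous f) : Continuous fun x => uu b α (f x) := by
  unfold uu
  have h1 : ∀ i, Continuous fun x => |f x i| := fun i => ((continuous_apply i).comp hf).abs
  exact ((h1 1).rpow_const fun _ => Or.inr h.pos.le).mul
    ((h1 2).rpow_const fun _ => Or.inr (sub_pos.2 h.lt).le)

theorem Rel_closed (b : Bool) {α α' : ℝ} (h : Sh b α) (h' : Sh b α') :
    IsClosed (Rel Y b α α') := by
  have cr : Continuous fun p : ℝ × (Y × (Fin 4 → ℝ) × ℝ × ℝ) => p.2.2.1 := by fun_prop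
  have cu : Continuous fun p : ℝ × (Y × (Fin 4 → ℝ) × ℝ × ℝ) => umax b α α' p.2.2.1 :=
    (continuous_uu h cr).max (continuous_uu h' cr)
  have cl : Continuous fun p : ℝ × (Y × (Fin 4 → ℝ) × ℝ × ℝ) => umin b α α' p.2.2.1 :=
    (continuous_uu h cr).min (continuous_uu h' cr)
  have c0 : Continuous fun p : ℝ × (Y × (Fin 4 → ℝ) × ℝ × ℝ) => |p.2.2.1 0| := by fun_prop
  have ca : Continuous fun p : ℝ × (Y × (Fin 4 → ℝ) × ℝ × ℝ) => p.2.2.2.1 := by fun_prop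
  have cd : Continuous fun p : ℝ × (Y × (Fin 4 → ℝ) × ℝ × ℝ) => p.2.2.2.2 := by fun_prop
  have cm : Continuous fun p : ℝ × (Y × (Fin 4 → ℝ) × ℝ × ℝ) => p.1 := by fun_prop
  cases b
  · have e1 : IsClosed {p : ℝ × (Y × (Fin 4 → ℝ) × ℝ × ℝ) |
        |p.2.2.1 0| ^ (2 / 5 : ℝ) * p.2.2.2.2 ≤ umax false α α' p.2.2.1 * p.2.2.2.1} :=
      isClosed_le ((c0.rpow_const fun _ => Or.inr (by norm_num)).mul cd) (cu.mul ca)
    have e2 : IsClosed {p : ℝ × (Y × (Fin 4 → ℝ) × ℝ × ℝ) |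
        umin false α α' p.2.2.1 * p.2.2.2.1 ≤ |p.2.2.1 0| ^ (2 / 5 : ℝ) * p.2.2.2.2} :=
      isClosed_le (cl.mul ca) ((c0.rpow_const fun _ => Or.inr (by norm_num)).mul cd)
    have e3 : IsClosed {p : ℝ × (Y × (Fin 4 → ℝ) × ℝ × ℝ) |
        |p.2.2.1 0| ^ (1 / 5 : ℝ) * umin false α α' p.2.2.1 ^ 2 ≤ p.1 * p.2.2.2.2} :=
      isClosed_le ((c0.rpow_const fun _ => Or.inr (by norm_num)).mul (cl.pow 2)) (cm.mul cd)
    exact e1.inter (e2.inter e3)
  · have e1 : IsClosed {p : ℝ × (Y × (Fin 4 → ℝ) × ℝ × ℝ) |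
        |p.2.2.1 0| ^ (4 / 5 : ℝ) * p.2.2.2.2 ≤ umax true α α' p.2.2.1 ^ 4 * p.2.2.2.1} :=
      isClosed_le ((c0.rpow_const fun _ => Or.inr (by norm_num)).mul cd) ((cu.pow 4).mul ca)
    have e2 : IsClosed {p : ℝ × (Y × (Fin 4 → ℝ) × ℝ × ℝ) | True} := isClosed_univ
    have e3 : IsClosed {p : ℝ × (Y × (Fin 4 → ℝ) × ℝ × ℝ) |
        umin true α α' p.2.2.1 ^ 5 ≤ p.1 * p.2.2.2.2} :=
      isClosed_le (cl.pow 5) (cm.mul cd)
    exact e1.inter (e2.inter e3)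

theorem uu_smul (b : Bool) {α c : ℝ} (hc : 0 < c) (r : Fin 4 → ℝ) :
    uu b α (c • r) = c ^ ga b * uu b α r := by
  unfold uu
  simp only [Pi.smul_apply, smul_eq_mul, abs_mul, abs_of_pos hc]
  rw [Real.mul_rpow hc.le (abs_nonneg _), Real.mul_rpow hc.le (abs_nonneg _)]
  have : c ^ ga b = c ^ α * c ^ (ga b - α) := by rw [← Real.rpow_add hc]; congr 1; ring
  rw [this]; ring

theorem umax_smul (b : Bool) {α α' c : ℝ} (hc : 0 < c) (r : Fin 4 → ℝ) :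
    umax b α α' (c • r) = c ^ ga b * umax b α α' r := by
  unfold umax
  rw [uu_smul b hc, uu_smul b hc, mul_max_of_nonneg _ _ (Real.rpow_nonneg hc.le _)]

theorem umin_smul (b : Bool) {α α' c : ℝ} (hc : 0 < c) (r : Fin 4 → ℝ) :
    umin b α α' (c • r) = c ^ ga b * umin b α α' r := by
  unfold umin
  rw [uu_smul b hc, uu_smul b hc, mul_min_of_nonneg _ _ (Real.rpow_nonneg hc.le _)]

theorem abs_smul_rpow {c : ℝ} (hc : 0 < c) (x e : ℝ) : |c * x| ^ e = c ^ e * |x| ^ e := by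
  rw [abs_mul, abs_of_pos hc, Real.mul_rpow hc.le (abs_nonneg _)]

theorem Rel_hom (b : Bool) (α α' : ℝ) (μ : ℝ) (y : Y) (r : Fin 4 → ℝ) (a d c : ℝ) (hc : 0 < c)
    (h : (μ, (y, r, a, d)) ∈ Rel Y b α α') : (μ, (y, c • r, c * a, c * d)) ∈ Rel Y b α α' := by
  obtain ⟨h1, h2, h3⟩ := h
  have e0 : ∀ e : ℝ, |(c • r) 0| ^ e = c ^ e * |r 0| ^ e := fun e => abs_smul_rpow hc _ _
  have pw : ∀ (e : ℝ), 0 < c ^ e := fun e => Real.rpow_pos_of_pos hc e
  cases b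
  · simp only [R1, R2, R3, cond_false] at h1 h2 h3
    have k1 : c ^ (2 / 5 : ℝ) * c = c ^ (7 / 5 : ℝ) := by
      nth_rewrite 2 [← Real.rpow_one c]; rw [← Real.rpow_add hc]; congr 1; norm_num
    have k2 : c ^ (1 / 5 : ℝ) * (c ^ (2 / 5 : ℝ)) ^ 2 = c := by
      rw [← Real.rpow_natCast, ← Real.rpow_mul hc.le, ← Real.rpow_add hc]
      nth_rewrite 2 [← Real.rpow_one c]; congr 1; norm_num
    have g0 : ga false = 2 / 5 := rfl
    refine ⟨?_, ?_, ?_⟩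
    · simp only [R1, cond_false]
      rw [e0, umax_smul false hc, g0]
      calc c ^ (2 / 5 : ℝ) * |r 0| ^ (2 / 5 : ℝ) * (c * d)
          = (c ^ (2 / 5 : ℝ) * c) * (|r 0| ^ (2 / 5 : ℝ) * d) := by ring
        _ ≤ (c ^ (2 / 5 : ℝ) * c) * (umax false α α' r * a) :=
            mul_le_mul_of_nonneg_left h1 (by rw [k1]; exact (pw _).le)
        _ = _ := by ring
    · simp only [R2, cond_false]
      rw [e0, umin_smul false hc, g0]
      calc c ^ (2 / 5 : ℝ) * umin false α α' r * (c * a)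
          = (c ^ (2 / 5 : ℝ) * c) * (umin false α α' r * a) := by ring
        _ ≤ (c ^ (2 / 5 : ℝ) * c) * (|r 0| ^ (2 / 5 : ℝ) * d) :=
            mul_le_mul_of_nonneg_left h2 (by rw [k1]; exact (pw _).le)
        _ = _ := by ring
    · simp only [R3, cond_false]
      rw [e0, umin_smul false hc, g0]
      calc c ^ (1 / 5 : ℝ) * |r 0| ^ (1 / 5 : ℝ) * (c ^ (2 / 5 : ℝ) * umin false α α' r) ^ 2
          = (c ^ (1 / 5 : ℝ) * (c ^ (2 / 5 : ℝ)) ^ 2) *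
            (|r 0| ^ (1 / 5 : ℝ) * umin false α α' r ^ 2) := by ring
        _ = c * (|r 0| ^ (1 / 5 : ℝ) * umin false α α' r ^ 2) := by rw [k2]
        _ ≤ c * (μ * d) := mul_le_mul_of_nonneg_left h3 hc.le
        _ = _ := by ring
  · simp only [R1, R3, cond_true] at h1 h3
    have k1 : (c ^ (1 / 5 : ℝ)) ^ 4 = c ^ (4 / 5 : ℝ) := by
      rw [← Real.rpow_natCast, ← Real.rpow_mul hc.le]; congr 1; norm_num
    have k2 : (c ^ (1 / 5 : ℝ)) ^ 5 = c := by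
      rw [← Real.rpow_natCast, ← Real.rpow_mul hc.le]
      nth_rewrite 2 [← Real.rpow_one c]; congr 1; norm_num
    have g0 : ga true = 1 / 5 := rfl
    refine ⟨?_, ?_, ?_⟩
    · simp only [R1, cond_true]
      rw [e0, umax_smul true hc, g0]
      calc c ^ (4 / 5 : ℝ) * |r 0| ^ (4 / 5 : ℝ) * (c * d)
          = (c ^ (4 / 5 : ℝ) * c) * (|r 0| ^ (4 / 5 : ℝ) * d) := by ring
        _ ≤ (c ^ (4 / 5 : ℝ) * c) * (umax true α α' r ^ 4 * a) :=
            mul_le_mul_of_nonneg_left h1 (mul_nonneg (pw _).le hc.le)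
        _ = (c ^ (1 / 5 : ℝ) * umax true α α' r) ^ 4 * (c * a) := by rw [← k1]; ring
    · simp only [R2, cond_true]
    · simp only [R3, cond_true]
      rw [umin_smul true hc, g0]
      calc (c ^ (1 / 5 : ℝ) * umin true α α' r) ^ 5
          = (c ^ (1 / 5 : ℝ)) ^ 5 * umin true α α' r ^ 5 := by ring
        _ = c * umin true α α' r ^ 5 := by rw [k2]
        _ ≤ c * (μ * d) := mul_le_mul_of_nonneg_left h3 hc.le
        _ = _ := by ring

/-- non-degenerate coefficients of the limit equations. -/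
structure NonDeg (b : Bool) (U V : Fin 4 → ℝ) : Prop where
  xy : U 0 * V 1 - U 1 * V 0 ≠ 0
  xz : U 0 * V 2 - U 2 * V 0 ≠ 0
  y : U 1 ≠ 0
  z : U 2 ≠ 0
  g : b = false → V 0 ≠ 0
  fy : b = true → V 1 ≠ 0
  fz : b = true → V 2 ≠ 0

theorem uu_nonneg (b : Bool) (α : ℝ) (r : Fin 4 → ℝ) : 0 ≤ uu b α r :=
  mul_nonneg (Real.rpow_nonneg (abs_nonneg _) _) (Real.rpow_nonneg (abs_nonneg _) _)

theorem uu_zero {b : Bool} {α : ℝ} {r : Fin 4 → ℝ} (h : uu b α r = 0) : r 1 = 0 ∨ r 2 = 0 := by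
  rcases mul_eq_zero.1 h with h | h
  · left
    by_contra hr
    exact (Real.rpow_pos_of_pos (abs_pos.2 hr) _).ne' h
  · right
    by_contra hr
    exact (Real.rpow_pos_of_pos (abs_pos.2 hr) _).ne' h

theorem uu_eq_zero {b : Bool} {α : ℝ} (h : Sh b α) {r : Fin 4 → ℝ} (h0 : r 1 = 0 ∨ r 2 = 0) :
    uu b α r = 0 := by
  unfold uu
  rcases h0 with h0 | h0
  · rw [h0, abs_zero, Real.zero_rpow h.pos.ne', zero_mul]
  · rw [h0, abs_zero, Real.zero_rpow (sub_pos.2 h.lt).ne', mul_zero]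

theorem umin_nonneg (b : Bool) (α α' : ℝ) (r : Fin 4 → ℝ) : 0 ≤ umin b α α' r :=
  le_min (uu_nonneg _ _ _) (uu_nonneg _ _ _)

theorem umax_nonneg (b : Bool) (α α' : ℝ) (r : Fin 4 → ℝ) : 0 ≤ umax b α α' r :=
  (uu_nonneg _ _ _).trans (le_max_left _ _)

theorem umin_zero {b : Bool} {α α' : ℝ} {r : Fin 4 → ℝ} (h : umin b α α' r = 0) :
    r 1 = 0 ∨ r 2 = 0 := by
  unfold umin at h
  rcases min_choice (uu b α r) (uu b α' r) with h' | h'
  · exact uu_zero (h' ▸ h)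
  · exact uu_zero (h' ▸ h)

theorem umax_eq_zero {b : Bool} {α α' : ℝ} (h : Sh b α) (h' : Sh b α') {r : Fin 4 → ℝ}
    (h0 : r 1 = 0 ∨ r 2 = 0) : umax b α α' r = 0 := by
  unfold umax
  rw [uu_eq_zero h h0, uu_eq_zero h' h0, max_self]

theorem abs_rpow_zero {x e : ℝ} (h : |x| ^ e = 0) : x = 0 := by
  by_contra hx
  exact (Real.rpow_pos_of_pos (abs_pos.2 hx) _).ne' h

/-- the strata of the limit `M = ∞`. -/
theorem strata {b : Bool} {α α' : ℝ} (hα : Sh b α) (hα' : Sh b α') {r : Fin 4 → ℝ} {a d : ℝ}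
    (hd : 0 ≤ d) (h1 : R1 b α α' r a d) (h2 : R2 b α α' r a d) (h3 : R3 b α α' 0 r d) :
    (d ≠ 0 → r 0 = 0) ∧ (b = false → a ≠ 0 → r 1 = 0 ∨ r 2 = 0) ∧
      (b = true → r 1 = 0 ∨ r 2 = 0) := by
  have um := umin_nonneg b α α' r
  cases b
  · simp only [R1, R2, R3, cond_false, zero_mul] at h1 h2 h3
    have p1 : 0 ≤ |r 0| ^ (1 / 5 : ℝ) := Real.rpow_nonneg (abs_nonneg _) _
    have p2 : 0 ≤ |r 0| ^ (2 / 5 : ℝ) := Real.rpow_nonneg (abs_nonneg _) _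
    have h3' : |r 0| ^ (1 / 5 : ℝ) * umin false α α' r ^ 2 = 0 :=
      le_antisymm h3 (mul_nonneg p1 (sq_nonneg _))
    rcases mul_eq_zero.1 h3' with h4 | h4
    · have h0 := abs_rpow_zero h4
      refine ⟨fun _ => h0, fun _ ha => ?_, fun h => Bool.noConfusion h⟩
      rw [h0, abs_zero, Real.zero_rpow (by norm_num), zero_mul] at h2
      rw [h0, abs_zero, Real.zero_rpow (by norm_num), zero_mul] at h1
      by_contra hne
      have hm : umin false α α' r ≠ 0 := fun h => hne (umin_zero h)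
      have hmp : 0 < umin false α α' r := lt_of_le_of_ne um (Ne.symm hm)
      have hM : 0 < umax false α α' r := lt_of_lt_of_le hmp (min_le_max)
      have a1 : a ≤ 0 := by
        by_contra hc
        push Not at hc
        have := mul_pos hmp hc
        linarith
      have a2 : 0 ≤ a := by
        by_contra hc
        push Not at hc
        have := mul_neg_of_pos_of_neg hM hc
        linarith
      exact ha (le_antisymm a1 a2)
    · have h5 : umin false α α' r = 0 := pow_eq_zero_iff (by norm_num) |>.1 h4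
      have h6 := umin_zero h5
      refine ⟨fun hd' => ?_, fun _ _ => h6, fun h => Bool.noConfusion h⟩
      rw [umax_eq_zero hα hα' h6, zero_mul] at h1
      have h7 : |r 0| ^ (2 / 5 : ℝ) * d = 0 := le_antisymm h1 (mul_nonneg p2 hd)
      exact abs_rpow_zero ((mul_eq_zero.1 h7).resolve_right hd')
  · simp only [R1, R3, cond_true, zero_mul] at h1 h3
    have p2 : 0 ≤ |r 0| ^ (4 / 5 : ℝ) := Real.rpow_nonneg (abs_nonneg _) _
    have h4 : umin true α α' r = 0 :=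
      pow_eq_zero_iff (by norm_num) |>.1 (le_antisymm h3 (pow_nonneg um 5))
    have h6 := umin_zero h4
    refine ⟨fun hd' => ?_, fun h => Bool.noConfusion h, fun _ => h6⟩
    rw [umax_eq_zero hα hα' h6] at h1
    have h7 : |r 0| ^ (4 / 5 : ℝ) * d = 0 :=
      le_antisymm (by simpa using h1) (mul_nonneg p2 hd)
    exact abs_rpow_zero ((mul_eq_zero.1 h7).resolve_right hd')

theorem str_of {b : Bool} {α α' : ℝ} (hα : Sh b α) (hα' : Sh b α') {P : Pt (Fin 4)} {y : Y}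
    (hb : 0 ≤ P.b) (h : ((0 : ℝ), (y, P.r, P.a, P.b)) ∈ Rel Y b α α') {U V : Fin 4 → ℝ}
    (hN : NonDeg b U V) : P.Str U V := by
  obtain ⟨h1, h2, h3⟩ := h
  obtain ⟨s1, s2, s3⟩ := strata hα hα' hb h1 h2 h3
  cases b
  · refine ⟨fun ha hb => ?_, fun ha _ => ?_, fun _ hb => ?_⟩
    · rcases s2 rfl ha with h | h
      · exact ⟨0, 1, s1 hb, h, hN.xy⟩
      · exact ⟨0, 2, s1 hb, h, hN.xz⟩
    · rcases s2 rfl ha with h | h
      · exact ⟨1, h, hN.y⟩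
      · exact ⟨2, h, hN.z⟩
    · exact ⟨0, s1 hb, hN.g rfl⟩
  · refine ⟨fun ha hb => ?_, fun ha _ => ?_, fun _ hb => ?_⟩
    · rcases s3 rfl with h | h
      · exact ⟨0, 1, s1 hb, h, hN.xy⟩
      · exact ⟨0, 2, s1 hb, h, hN.xz⟩
    · rcases s3 rfl with h | h
      · exact ⟨1, h, hN.y⟩
      · exact ⟨2, h, hN.z⟩
    · rcases s3 rfl with h | h
      · exact ⟨1, h, hN.fy rfl⟩
      · exact ⟨2, h, hN.fz rfl⟩

/-- the two kinds of parameters: the phases have a linear part, or they are staircases. -/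
def Sys.Kind (S : Sys (Fin 4) Y) (b : Bool) (η : ℝ) (y : Y) : Prop :=
  NonDeg b (fun i => S.A i y) (fun i => S.B i y) ∨
    ((∀ r, ∀ i, S.q i y ≠ 0 → S.T i (y, r) = 0) ∧ (∀ i, S.q i y = 0 → S.e i y = -1) ∧
      ∀ r a d, (S.pt y r a d).Typ η (fun i => S.A i y) (S.ea y) ∧
        (S.pt y r a d).Typ η (fun i => S.B i y) (S.eb y))

/-- **regularity for `M ≫ 1`.** -/
theorem start (b : Bool) (S : Sys (Fin 4) Y) (hc : S.Cont) (hh : S.Hom) {K : Set Y}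
    (hK : IsCompact K) {α α' : ℝ} (hα : Sh b α) (hα' : Sh b α') {η : ℝ} (hη : η < 1) (hea : ∀ y ∈ K, ‖S.ea y‖ = 1) (heb : ∀ y ∈ K, ‖S.eb y‖ = 1)
    (hB : ∀ y ∈ K, ∀ r, (∀ i, 0 ≤ r i) → 0 ≤ S.B0 (y, r))
    (hN : ∀ y ∈ K, ∀ r : Fin 4 → ℝ, ∀ i, r i = 0 → S.N i (y, r) = 0)
    (hT : ∀ y ∈ K, ∀ r : Fin 4 → ℝ, ∀ i, r i = 0 → S.T i (y, r) = 0)
    (hv : ∀ y ∈ K, NonDeg b (fun i => S.va i y) (fun i => S.vb i y))
    (hk : ∀ y ∈ K, S.Kind b η y)
    (hown : ∀ y ∈ K, ∀ r : Fin 4 → ℝ, (∀ i, 0 ≤ r i) → r ≠ 0 → ∀ ζ : ℂ, ‖ζ‖ = 1 →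
      ¬ (S.pt y r 0 0).Bad ζ) :
    ∃ ε > 0, ∀ μ : ℝ, 0 ≤ μ → μ < ε → ∀ y ∈ K, ∀ r a d ζ, Mag r a d → ζ ≠ 0 →
      (μ, (y, r, a, d)) ∈ Rel Y b α α' → ¬ (S.pt y r a d).Bad ζ := by
  refine S.large hc hh hK (Rel_closed b hα hα') (Rel_hom b α α') ?_
  intro y hy r a d ζ hm hζ hrel hbad
  have hrel' : ((0 : ℝ), (y, (S.pt y r a d).r, (S.pt y r a d).a, (S.pt y r a d).b)) ∈
      Rel Y b α α' := hrel
  have hb' : 0 ≤ (S.pt y r a d).b := hm.hb
  have key : a = 0 ∧ d = 0 := by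
    rcases hk y hy with hk | ⟨k1, k2, k3⟩
    · exact hbad.lin_zero hζ (hea y hy) (heb y hy) (hN y hy r) (hT y hy r)
        (str_of hα hα' hb' hrel' (hv y hy)) (str_of hα hα' hb' hrel' hk)
    · exact hbad.type_zero hη hζ (hea y hy) (heb y hy) hm.hr hm.ha hm.hb (hB y hy r hm.hr)
        (hN y hy r) (k1 r) k2 (str_of hα hα' hb' hrel' (hv y hy)) (k3 r a d).1 (k3 r a d).2
  obtain ⟨ka, kd⟩ := key
  subst ka kd
  refine hown y hy r hm.hr ?_ ζ hζ hbad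
  rintro rfl
  have := hm.pos
  simp at this

/-! ### magnitudes -/

/-- the magnitudes `a`, `b` in terms of `u`. -/
theorem mem_Rel (b : Bool) {α α' : ℝ} (y : Y) {M : ℝ} (hM : 0 < M) {r : Fin 4 → ℝ}
    (hr : 0 ≤ r 0) {u v : ℝ} (hu : umin b α α' r ≤ u) (hu' : u ≤ umax b α α' r)
    (hv : (bif b then umin b α α' r ^ 5 else umin b α α' r ^ 2) ≤ v)
    (hv1 : v ≤ (bif b then umax b α α' r ^ 4 else umax b α α' r) * u)
    (hv2 : b = false → umin b α α' r * u ≤ v) :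
    (M⁻¹, (y, r, M * (r 0 ^ (bif b then (4 / 5 : ℝ) else 3 / 5) * u),
      M * (bif b then v else r 0 ^ (1 / 5 : ℝ) * v))) ∈ Rel Y b α α' := by
  have h0 : |r 0| = r 0 := abs_of_nonneg hr
  have hM' := hM.ne'
  cases b
  · simp only [cond_false] at hv hv1 ⊢
    have e2 : r 0 ^ (2 / 5 : ℝ) * r 0 ^ (1 / 5 : ℝ) = r 0 ^ (3 / 5 : ℝ) := by
      rcases hr.eq_or_lt with h | h
      · rw [← h, Real.zero_rpow (by norm_num), Real.zero_rpow (by norm_num)]; simp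
      · rw [← Real.rpow_add h]; congr 1; norm_num
    have p3 : 0 ≤ M * r 0 ^ (3 / 5 : ℝ) := mul_nonneg hM.le (Real.rpow_nonneg hr _)
    have p1 : 0 ≤ r 0 ^ (1 / 5 : ℝ) := Real.rpow_nonneg hr _
    refine ⟨?_, ?_, ?_⟩
    · simp only [R1, cond_false, h0]
      calc r 0 ^ (2 / 5 : ℝ) * (M * (r 0 ^ (1 / 5 : ℝ) * v))
          = M * r 0 ^ (3 / 5 : ℝ) * v := by rw [← e2]; ring
        _ ≤ M * r 0 ^ (3 / 5 : ℝ) * (umax false α α' r * u) := mul_le_mul_of_nonneg_left hv1 p3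
        _ = _ := by ring
    · simp only [R2, cond_false, h0]
      calc umin false α α' r * (M * (r 0 ^ (3 / 5 : ℝ) * u))
          = M * r 0 ^ (3 / 5 : ℝ) * (umin false α α' r * u) := by ring
        _ ≤ M * r 0 ^ (3 / 5 : ℝ) * v := mul_le_mul_of_nonneg_left (hv2 rfl) p3
        _ = _ := by rw [← e2]; ring
    · simp only [R3, cond_false, h0]
      calc r 0 ^ (1 / 5 : ℝ) * umin false α α' r ^ 2 ≤ r 0 ^ (1 / 5 : ℝ) * v :=
            mul_le_mul_of_nonneg_left hv p1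
        _ = M⁻¹ * (M * (r 0 ^ (1 / 5 : ℝ) * v)) := by field_simp
  · simp only [cond_true] at hv hv1 ⊢
    have p3 : 0 ≤ M * r 0 ^ (4 / 5 : ℝ) := mul_nonneg hM.le (Real.rpow_nonneg hr _)
    refine ⟨?_, ?_, ?_⟩
    · simp only [R1, cond_true, h0]
      calc r 0 ^ (4 / 5 : ℝ) * (M * v) = M * r 0 ^ (4 / 5 : ℝ) * v := by ring
        _ ≤ M * r 0 ^ (4 / 5 : ℝ) * (umax true α α' r ^ 4 * u) :=
            mul_le_mul_of_nonneg_left hv1 p3
        _ = _ := by ring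
    · simp only [R2, cond_true]
    · simp only [R3, cond_true]
      calc umin true α α' r ^ 5 ≤ v := hv
        _ = M⁻¹ * (M * v) := by field_simp

/-- pure couplings. -/
theorem mem_Rel_pure (b : Bool) {α : ℝ} (y : Y) {M : ℝ} (hM : 0 < M) {r : Fin 4 → ℝ}
    (hr : 0 ≤ r 0) :
    (M⁻¹, (y, r, M * (r 0 ^ (bif b then (4 / 5 : ℝ) else 3 / 5) * uu b α r),
      M * (bif b then uu b α r ^ 5 else r 0 ^ (1 / 5 : ℝ) * uu b α r ^ 2))) ∈ Rel Y b α α := by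
  have e1 : umin b α α r = uu b α r := min_self _
  have e2 : umax b α α r = uu b α r := max_self _
  have := mem_Rel b (α := α) (α' := α) y hM hr (u := uu b α r)
    (v := bif b then uu b α r ^ 5 else uu b α r ^ 2) (by rw [e1]) (by rw [e2])
    (by rw [e1]) (by cases b <;> simp only [cond_true, cond_false, e2] <;> exact (by ring_nf; rfl))
    (by rintro rfl; simp only [cond_false, e1]; exact (by ring_nf; rfl))
  cases b
  · exact this
  · exact this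

/-- convex combinations of two couplings with the same phases: `u = (1-t) u₀ + t u₁`,
`v = (1-t) u₀^k + t u₁^k` (`k = 2`, resp. `5`). -/
theorem mem_Rel_mix (b : Bool) {α α' : ℝ} (y : Y) {M : ℝ} (hM : 0 < M) {r : Fin 4 → ℝ}
    (hr : 0 ≤ r 0) {t : ℝ} (ht0 : 0 ≤ t) (ht1 : t ≤ 1) :
    (M⁻¹, (y, r, M * (r 0 ^ (bif b then (4 / 5 : ℝ) else 3 / 5) *
      ((1 - t) * uu b α r + t * uu b α' r)),
      M * (bif b then (1 - t) * uu b α r ^ 5 + t * uu b α' r ^ 5 else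
        r 0 ^ (1 / 5 : ℝ) * ((1 - t) * uu b α r ^ 2 + t * uu b α' r ^ 2)))) ∈
      Rel Y b α α' := by
  have a0 := uu_nonneg b α r
  have a1 := uu_nonneg b α' r
  have l0 : umin b α α' r ≤ uu b α r := min_le_left _ _
  have l1 : umin b α α' r ≤ uu b α' r := min_le_right _ _
  have g0 : uu b α r ≤ umax b α α' r := le_max_left _ _
  have g1 : uu b α' r ≤ umax b α α' r := le_max_right _ _
  have um := umin_nonneg b α α' r
  have s0 : 0 ≤ 1 - t := by linarith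
  have cv : ∀ {x x' y' z : ℝ}, x ≤ z → y' ≤ z → x' = (1 - t) * x + t * y' → x' ≤ z := by
    intro x x' y' z h1 h2 h3
    rw [h3]; nlinarith
  have cv' : ∀ {x x' y' z : ℝ}, z ≤ x → z ≤ y' → x' = (1 - t) * x + t * y' → z ≤ x' := by
    intro x x' y' z h1 h2 h3
    rw [h3]; nlinarith
  have := mem_Rel b (α := α) (α' := α') y hM hr (u := (1 - t) * uu b α r + t * uu b α' r)
    (v := bif b then (1 - t) * uu b α r ^ 5 + t * uu b α' r ^ 5 else
      (1 - t) * uu b α r ^ 2 + t * uu b α' r ^ 2) (cv' l0 l1 rfl) (cv g0 g1 rfl)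
    (by
      cases b
      · simp only [cond_false]
        exact cv' (pow_le_pow_left₀ um l0 2) (pow_le_pow_left₀ um l1 2) rfl
      · simp only [cond_true]
        exact cv' (pow_le_pow_left₀ um l0 5) (pow_le_pow_left₀ um l1 5) rfl)
    (by
      cases b
      · simp only [cond_false]
        have h1 : uu false α r ^ 2 ≤ umax false α α' r * uu false α r := by
          rw [sq]; exact mul_le_mul_of_nonneg_right g0 a0
        have h2 : uu false α' r ^ 2 ≤ umax false α α' r * uu false α' r := by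
          rw [sq]; exact mul_le_mul_of_nonneg_right g1 a1
        nlinarith
      · simp only [cond_true]
        have h1 : uu true α r ^ 5 ≤ umax true α α' r ^ 4 * uu true α r := by
          rw [pow_succ]; exact mul_le_mul_of_nonneg_right (pow_le_pow_left₀ a0 g0 4) a0
        have h2 : uu true α' r ^ 5 ≤ umax true α α' r ^ 4 * uu true α' r := by
          rw [pow_succ]; exact mul_le_mul_of_nonneg_right (pow_le_pow_left₀ a1 g1 4) a1
        nlinarith)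
    (by
      rintro rfl
      simp only [cond_false]
      have h1 : umin false α α' r * uu false α r ≤ uu false α r ^ 2 := by
        rw [sq]; exact mul_le_mul_of_nonneg_right l0 a0
      have h2 : umin false α α' r * uu false α' r ≤ uu false α' r ^ 2 := by
        rw [sq]; exact mul_le_mul_of_nonneg_right l1 a1
      nlinarith)
  cases b
  · exact this
  · exact this

end Crest.Agent.R267.Start_862
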