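import Crest.Agent.R267.PolCpt_943
import Crest.Agent.R267.StairPh_739
import Crest.Agent.R267.Start_862

/-!
# Row 267 (S0406), arrow C4 (helper143, second of helper862): START in literal form

`HD ε`: own words, flattened own phases of the hub variables, boxes.  `E X`, `C X M hd`: the terms
of the stage function `(s, z) ↦ own + M (couplings of phase (1 - s) linear + s staircase) - boxes`.
`start`: for `M ≥ M₀` it is a `0`-regular path.
-/

set_option autoImplicit false
set_option linter.unusedSectionVars false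

noncomputable section

open Set Filter Topology
open scoped ContDiff ComplexConjugate
open Crest.Agent.R267.Cone_808 Crest.Agent.R267.Hm_951
open Crest.Agent.R267.PolF_943 Crest.Agent.R267.PolCpt_943
open Crest.Agent.R267.Ang_739 Crest.Agent.R267.StairFn_739 Crest.Agent.R267.StairPh_739
open Crest.Agent.R267.Start_862 (rp ip Pt Sys Mag NonDeg Rel)

namespace Crest.Agent.R267.StLit_143

variable {ε : Type} [Fintype ε]

/-- indices of the terms: own terms, couplings (`false`: `α`, `true`: `β`), boxes -/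
abbrev V (ε : Type) := Fin 4 ⊕ (Bool ⊕ ε)

/-- the angles of the hub variables -/
def res (θ : Fin 4 → ℝ) : Fin 3 → ℝ := fun i => θ i.castSucc

/-- the phases of the couplings; `b = false`: `g`, `b = true`: `f`. -/
def Fi (b : Bool) (H : ℕ → ℕ → ℝ → ℝ) (c : Bool) : (Fin 3 → ℝ) → ℝ :=
  bif b then (bif c then fBe H else fAl H) else (bif c then gBe H else gAl H)

/-- the linear phases -/
def vv (b c : Bool) : Fin 3 → ℕ :=
  bif b then (bif c then ![0, 5, 5] else ![2, 1, 1]) else (bif c then ![1, 2, 2] else ![3, 1, 1])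

/-- the degrees of the own phases -/
def nn (b : Bool) : Fin 3 → ℕ := bif b then ![3, 10, 10] else ![5, 5, 5]

/-- the shares -/
def sh (b c : Bool) : Fin 4 → ℝ :=
  bif b then (bif c then ![0, 1 / 2, 1 / 2, 0] else ![4 / 5, 1 / 10, 1 / 10, 0])
  else (bif c then ![1 / 5, 2 / 5, 2 / 5, 0] else ![3 / 5, 1 / 5, 1 / 5, 0])

/-- data of a stage -/
structure HD (ε : Type) where
  /-- `f` or `g` -/
  b : Bool
  /-- own degrees -/
  D : Fin 4 → ℝ
  /-- own words -/
  p : Fin 4 → ℝ → ℝ
  /-- own words flattened in `J` -/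
  ph : Fin 3 → ℝ → ℝ
  /-- coefficients of the boxes -/
  ce : ε → ℝ
  /-- shares of the boxes -/
  be : ε → Fin 4 → ℝ
  /-- windows -/
  lam : ε → Fin 4 → ℝ → ℝ

/-- exponents -/
def HD.E (X : HD ε) : V ε → Fin 4 → ℝ
  | .inl i => Pi.single i (X.D i)
  | .inr (.inl c) => fun i => sh X.b c i * X.D i
  | .inr (.inr e) => fun i => X.be e i * X.D i

/-- coefficients -/
def HD.C (X : HD ε) (M : ℝ) {d : ℝ} (hd : 0 < d) : V ε → ℝ × (Fin 4 → ℝ) → ℂ
  | .inl i => fun q => cis (X.p i (q.2 i))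
  | .inr (.inl c) => fun q => (M : ℂ) * cf (Fi X.b (Hs hd) c) X.ph (vv X.b c) (q.1, res q.2)
  | .inr (.inr e) => fun q => -((X.ce e * ∏ j, X.lam e j (q.2 j) : ℝ) : ℂ)

/-- conditions -/
structure HD.OK (X : HD ε) : Prop where
  D0 : ∀ i, 0 < X.D i
  exp : ∀ v i, X.E v i = 0 ∨ 2 < X.E v i
  pS : ∀ i, ContDiff ℝ 2 (X.p i)
  pP : ∀ i x, cis (X.p i (x + 2 * Real.pi)) = cis (X.p i x)
  own : Own (nn X.b) X.ph
  lamS : ∀ e i, ContDiff ℝ 2 (X.lam e i)
  lamP : ∀ e i x, X.lam e i (x + 2 * Real.pi) = X.lam e i x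
  lam0 : ∀ e i x, 0 ≤ X.lam e i x
  lamI : ∀ e i, X.be e i = 0 → ∀ x y, X.lam e i x = X.lam e i y
  ce0 : ∀ e, 0 ≤ X.ce e
  be0 : ∀ e i, 0 ≤ X.be e i
  be1 : ∀ e, ∑ i, X.be e i = 1
  pj : ∀ (j : Fin 3) x, deriv (X.ph j) x ≠ 0 →
    deriv (X.ph j) x = deriv (X.p j.castSucc) x ∧ cis (X.ph j x) = cis (X.p j.castSucc x)
  phf : ∀ j x, deriv (X.ph j) x = 0 → cis (X.ph j x) = -1
  ph0 : ∀ j x, 0 ≤ deriv (X.ph j) x
  pf : ∀ i x, deriv (X.p i) x = 0 → cis (X.p i x) = -1
  lq : ∀ e i x, deriv (X.p i) x ≠ 0 → deriv (X.lam e i) x = 0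

/-! ## facts on the phases -/

theorem ph_Fi {d : ℝ} (hd : 0 < d) (b c : Bool) : Ph (Fi b (Hs hd) c) (15 * d) := by
  have h5 : 5 * d ≤ 15 * d := by linarith
  have h10 : 10 * d ≤ 15 * d := by linarith
  cases b <;> cases c
  · exact ph_gAl hd
  · exact (ph_gBe hd).mono h10
  · exact ph_fAl hd
  · exact (ph_fBe hd).mono h5

theorem sh_Fi {d : ℝ} (hd : 0 < d) (b c : Bool) (i : Fin 3) :
    Sh (Fi b (Hs hd) c) (Pi.single i (2 * Real.pi * nn b i)) (2 * Real.pi * vv b c i) := by
  have hg := sh_g (eqv_Hs hd) i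
  have hf := sh_f (eqv_Hs hd) i
  cases b
  · have e : nn false i = 5 := by fin_cases i <;> rfl
    rw [e]
    cases c
    · exact hg.2
    · exact hg.1
  · cases c
    · exact hf.2
    · exact hf.1

/-- speed of the phase of the coupling `c` along the angle `i` -/
def spd (X : HD ε) {d : ℝ} (hd : 0 < d) (c : Bool) (y : ℝ × (Fin 4 → ℝ)) : Fin 4 → ℝ :=
  Fin.lastCases 0 fun j => (1 - y.1) * vv X.b c j +
    y.1 * (wt (Fi X.b (Hs hd) c) (lft X.ph (res y.2)) j * deriv (X.ph j) (y.2 j.castSucc))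

theorem spd_last (X : HD ε) {d : ℝ} (hd : 0 < d) (c : Bool) (y : ℝ × (Fin 4 → ℝ)) :
    spd X hd c y (Fin.last 3) = 0 := Fin.lastCases_last

theorem spd_cast (X : HD ε) {d : ℝ} (hd : 0 < d) (c : Bool) (y : ℝ × (Fin 4 → ℝ)) (j : Fin 3) :
    spd X hd c y j.castSucc = (1 - y.1) * vv X.b c j +
      y.1 * (wt (Fi X.b (Hs hd) c) (lft X.ph (res y.2)) j * deriv (X.ph j) (y.2 j.castSucc)) :=
  Fin.lastCases_castSucc _

theorem res_update_cast (θ : Fin 4 → ℝ) (j : Fin 3) (x : ℝ) :
    res (Function.update θ j.castSucc x) = Function.update (res θ) j x := by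
  funext i
  by_cases h : i = j
  · subst h; simp [res]
  · have : i.castSucc ≠ j.castSucc := fun h' => h (Fin.castSucc_injective _ h')
    simp [res, Function.update_of_ne h, Function.update_of_ne this]

theorem res_update_last (θ : Fin 4 → ℝ) (x : ℝ) :
    res (Function.update θ (Fin.last 3) x) = res θ := by
  funext i
  have : i.castSucc ≠ Fin.last 3 := (Fin.castSucc_lt_last i).ne
  exact Function.update_of_ne this _ _

theorem continuous_res : Continuous res := continuous_pi fun _ => continuous_apply _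

theorem contDiff_res : ContDiff ℝ 2 res := contDiff_pi.2 fun i => contDiff_apply ℝ ℝ i.castSucc

theorem contDiff_cC {X : HD ε} (hX : X.OK) {d : ℝ} (hd : 0 < d) (c : Bool) :
    ContDiff ℝ 2 fun q : ℝ × (Fin 4 → ℝ) =>
      cf (Fi X.b (Hs hd) c) X.ph (vv X.b c) (q.1, res q.2) :=
  (contDiff_cf hX.own (ph_Fi hd X.b c) _).comp (contDiff_fst.prodMk (contDiff_res.comp contDiff_snd))

/-- derivative of the unit vector of a coupling -/
theorem dC_cpl {X : HD ε} (hX : X.OK) {d : ℝ} (hd : 0 < d) (c : Bool) (s : ℝ) (θ : Fin 4 → ℝ)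
    (i : Fin 4) : HasDerivAt (fun x => cf (Fi X.b (Hs hd) c) X.ph (vv X.b c)
      (s, res (Function.update θ i x)))
      ((spd X hd c (s, θ) i : ℂ) * (Complex.I * cf (Fi X.b (Hs hd) c) X.ph (vv X.b c)
        (s, res θ))) (θ i) := by
  refine Fin.lastCases ?_ (fun j => ?_) i
  · simp only [res_update_last, spd_last]
    simpa using hasDerivAt_const (θ (Fin.last 3)) (cf (Fi X.b (Hs hd) c) X.ph (vv X.b c)
      (s, res θ))
  · simp only [res_update_cast, spd_cast]
    have h1 := fderiv_cf hX.own (ph_Fi hd X.b c) (vv X.b c) s (res θ) j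
    have h2 : DifferentiableAt ℝ (cf (Fi X.b (Hs hd) c) X.ph (vv X.b c)) (s, res θ) :=
      (contDiff_cf hX.own (ph_Fi hd X.b c) _).differentiable (by norm_num) _
    have h3 : HasDerivAt (fun x : ℝ => ((s, Function.update (res θ) j x) : ℝ × (Fin 3 → ℝ)))
        (0, Pi.single j 1) (res θ j) :=
      (hasDerivAt_const _ _).prodMk (hasDerivAt_update (res θ) j (res θ j))
    have h4 : (s, Function.update (res θ) j (res θ j)) = (s, res θ) := by
      rw [Function.update_eq_self]
    have h5 := (h4 ▸ h2.hasFDerivAt : HasFDerivAt _ _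
      (s, Function.update (res θ) j (res θ j))).comp_hasDerivAt (res θ j) h3
    rw [h4, h1] at h5
    exact h5

/-! ## the terms of the stage function -/

theorem prod_update (f : Fin 4 → ℝ → ℝ) (θ : Fin 4 → ℝ) (i : Fin 4) (x : ℝ) :
    ∏ j, f j (Function.update θ i x j) = f i x * ∏ j ∈ Finset.univ.erase i, f j (θ j) := by
  rw [← Finset.mul_prod_erase Finset.univ _ (Finset.mem_univ i), Function.update_self]
  congr 1
  refine Finset.prod_congr rfl fun j hj => ?_
  rw [Function.update_of_ne (Finset.ne_of_mem_erase hj)]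

theorem res_per (θ : Fin 4 → ℝ) (i : Fin 4) :
    (∃ j : Fin 3, i = j.castSucc ∧
      res (Function.update θ i (θ i + 2 * Real.pi)) = res θ + Pi.single j (2 * Real.pi)) ∨
    (i = Fin.last 3 ∧ res (Function.update θ i (θ i + 2 * Real.pi)) = res θ) := by
  refine Fin.lastCases ?_ (fun j => ?_) i
  · exact Or.inr ⟨rfl, res_update_last _ _⟩
  · refine Or.inl ⟨j, rfl, ?_⟩
    rw [res_update_cast]
    funext k
    by_cases h : k = j
    · subst h; simp [res]
    · simp [Function.update_of_ne h, Pi.single_eq_of_ne h]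

theorem sh_zero {b c : Bool} {D : Fin 4 → ℝ} (hD : ∀ i, 0 < D i) (j : Fin 3)
    (h : sh b c j.castSucc * D j.castSucc = 0) : b = true ∧ c = true ∧ j = 0 := by
  have h1 := (mul_eq_zero.1 h).resolve_right (hD _).ne'
  revert h1
  cases b <;> cases c <;> fin_cases j <;> simp [sh]

theorem wt_zero {b c : Bool} {d : ℝ} (hd : 0 < d) {D : Fin 4 → ℝ} (hD : ∀ i, 0 < D i) (j : Fin 3)
    (h : sh b c j.castSucc * D j.castSucc = 0) (u : Fin 3 → ℝ) :
    wt (Fi b (Hs hd) c) u j = 0 ∧ vv b c j = 0 := by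
  obtain ⟨rfl, rfl, rfl⟩ := sh_zero hD j h
  exact ⟨wt_fBe_zero hd u, rfl⟩

theorem coef {X : HD ε} (hX : X.OK) (M : ℝ) {d : ℝ} (hd : 0 < d) (v : V ε) :
    Coef univ (X.E v) (X.C M hd v) := by
  rcases v with i | c | e
  · refine ⟨hX.exp _, ?_, ?_, ?_⟩
    · refine ContDiff.contDiffOn ?_
      exact contDiff_cis.comp ((hX.pS i).comp ((contDiff_apply ℝ ℝ i).comp contDiff_snd))
    · intro t _ θ k
      simp only [HD.C]
      by_cases h : i = k
      · subst h; rw [Function.update_self, hX.pP]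
      · rw [Function.update_of_ne h]
    · intro k hk t _ θ x
      simp only [HD.C]
      have h : i ≠ k := by
        rintro rfl
        simp only [HD.E, Pi.single_eq_same] at hk
        exact (hX.D0 i).ne' hk
      rw [Function.update_of_ne h]
  · refine ⟨hX.exp _, ?_, ?_, ?_⟩
    · exact (contDiff_const.mul (contDiff_cC hX hd c)).contDiffOn
    · intro t _ θ k
      simp only [HD.C]
      rcases res_per θ k with ⟨j, -, hj⟩ | ⟨-, hj⟩
      · rw [hj, cf, cis_path_shift hX.own j (sh_Fi hd X.b c j)]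
        rfl
      · rw [hj]
    · intro k hk t _ θ x
      simp only [HD.C]
      revert hk
      refine Fin.lastCases ?_ (fun j => ?_) k
      · intro _
        rw [res_update_last]
      · intro hk
        have hk' : sh X.b c j.castSucc * X.D j.castSucc = 0 := hk
        have hw := fun u => (wt_zero hd hX.D0 j hk' u).1
        have hv := (wt_zero hd hX.D0 j hk' 0).2
        have key : ∀ y, HasDerivAt (fun y => cf (Fi X.b (Hs hd) c) X.ph (vv X.b c)
            (t, res (Function.update θ j.castSucc y))) 0 y := by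
          intro y
          have h1 := dC_cpl hX hd c t (Function.update θ j.castSucc y) j.castSucc
          simp only [Function.update_idem, Function.update_self, spd_cast, hw, hv] at h1
          simpa using h1
        have h2 : ∀ y y', cf (Fi X.b (Hs hd) c) X.ph (vv X.b c)
            (t, res (Function.update θ j.castSucc y)) = cf (Fi X.b (Hs hd) c) X.ph (vv X.b c)
            (t, res (Function.update θ j.castSucc y')) := fun y y' =>
          is_const_of_deriv_eq_zero (fun y => (key y).differentiableAt)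
            (fun y => (key y).deriv) y y'
        have h3 := h2 x (θ j.castSucc)
        rw [Function.update_eq_self] at h3
        rw [h3]
  · refine ⟨hX.exp _, ?_, ?_, ?_⟩
    · refine ContDiff.contDiffOn ?_
      refine ContDiff.neg ?_
      refine Complex.ofRealCLM.contDiff.comp ?_
      exact contDiff_const.mul (contDiff_prod fun j _ =>
        (hX.lamS e j).comp ((contDiff_apply ℝ ℝ j).comp contDiff_snd))
    · intro t _ θ k
      simp only [HD.C]
      rw [prod_update (X.lam e), hX.lamP, ← prod_update (X.lam e), Function.update_eq_self]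
    · intro k hk t _ θ x
      simp only [HD.C]
      have h1 : X.be e k = 0 := (mul_eq_zero.1 hk).resolve_right (hX.D0 _).ne'
      rw [prod_update (X.lam e), hX.lamI e k h1 x (θ k), ← prod_update (X.lam e),
        Function.update_eq_self]

/-! ## angular derivatives -/

theorem dC_own {X : HD ε} (hX : X.OK) (M : ℝ) {d : ℝ} (hd : 0 < d) (s : ℝ) (θ : Fin 4 → ℝ)
    (i k : Fin 4) : dC (X.C M hd (.inl i)) s θ k =
      if k = i then ((deriv (X.p i) (θ i) : ℝ) : ℂ) * (Complex.I * cis (X.p i (θ i))) else 0 := by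
  unfold dC
  simp only [HD.C]
  split_ifs with h
  · subst h
    simp only [Function.update_self]
    have h1 := (hasDerivAt_cis (X.p k (θ k))).scomp (θ k)
      ((hX.pS k).differentiable (by norm_num) (θ k)).hasDerivAt
    rw [Complex.real_smul] at h1
    exact h1.deriv
  · simp only [Function.update_of_ne (Ne.symm h)]
    exact deriv_const _ _

theorem dC_c {X : HD ε} (hX : X.OK) (M : ℝ) {d : ℝ} (hd : 0 < d) (s : ℝ) (θ : Fin 4 → ℝ)
    (c : Bool) (k : Fin 4) : dC (X.C M hd (.inr (.inl c))) s θ k =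
      (M : ℂ) * ((spd X hd c (s, θ) k : ℂ) *
        (Complex.I * cf (Fi X.b (Hs hd) c) X.ph (vv X.b c) (s, res θ))) :=
  ((dC_cpl hX hd c s θ k).const_mul (M : ℂ)).deriv

/-- derivative of the product of the windows -/
def dl (X : HD ε) (e : ε) (k : Fin 4) (θ : Fin 4 → ℝ) : ℝ :=
  deriv (X.lam e k) (θ k) * ∏ j ∈ Finset.univ.erase k, X.lam e j (θ j)

theorem dC_b {X : HD ε} (hX : X.OK) (M : ℝ) {d : ℝ} (hd : 0 < d) (s : ℝ) (θ : Fin 4 → ℝ)
    (e : ε) (k : Fin 4) : dC (X.C M hd (.inr (.inr e))) s θ k =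
      -((X.ce e * dl X e k θ : ℝ) : ℂ) := by
  unfold dC
  simp only [HD.C, prod_update (X.lam e)]
  have h1 : HasDerivAt (fun x => X.ce e * (X.lam e k x * ∏ j ∈ Finset.univ.erase k,
      X.lam e j (θ j))) (X.ce e * dl X e k θ) (θ k) :=
    ((((hX.lamS e k).differentiable (by norm_num) (θ k)).hasDerivAt).mul_const _).const_mul _
  exact h1.ofReal_comp.neg.deriv

/-! ## the system of `Start_862` -/

/-- value of the box `e` -/
def bx (X : HD ε) (e : ε) (x : (ℝ × (Fin 4 → ℝ)) × (Fin 4 → ℝ)) : ℝ :=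
  X.ce e * (∏ j, X.lam e j (x.1.2 j)) * ∏ j, |x.2 j| ^ X.be e j

/-- the system -/
def sys (X : HD ε) {d : ℝ} (hd : 0 < d) : Sys (Fin 4) (ℝ × (Fin 4 → ℝ)) where
  e i y := cis (X.p i (y.2 i))
  ea y := cf (Fi X.b (Hs hd) false) X.ph (vv X.b false) (y.1, res y.2)
  eb y := cf (Fi X.b (Hs hd) true) X.ph (vv X.b true) (y.1, res y.2)
  va i _ := sh X.b false i
  vb i _ := sh X.b true i
  q i y := deriv (X.p i) (y.2 i)
  A i y := spd X hd false y i
  B i y := spd X hd true y i
  B0 x := ∑ e, bx X e x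
  N i x := ∑ e, X.be e i * bx X e x
  T i x := ∑ e, X.ce e * dl X e i x.1.2 * ∏ j, |x.2 j| ^ X.be e j

theorem continuous_deriv2 {f : ℝ → ℝ} (h : ContDiff ℝ 2 f) : Continuous (deriv f) :=
  h.continuous_deriv (by norm_num)

theorem continuous_spd {X : HD ε} (hX : X.OK) {d : ℝ} (hd : 0 < d) (c : Bool) (i : Fin 4) :
    Continuous fun y => spd X hd c y i := by
  refine Fin.lastCases ?_ (fun j => ?_) i
  · simp only [spd_last]
    exact continuous_const
  · simp only [spd_cast]
    have h1 : Continuous fun u => wt (Fi X.b (Hs hd) c) u j := by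
      unfold wt
      exact ((ph_Fi hd X.b c).smooth.continuous_fderiv (by simp)).clm_apply continuous_const
    have h2 : Continuous fun y : ℝ × (Fin 4 → ℝ) => lft X.ph (res y.2) :=
      (contDiff_lft hX.own).continuous.comp (continuous_res.comp continuous_snd)
    have h3 : Continuous fun y : ℝ × (Fin 4 → ℝ) => deriv (X.ph j) (y.2 j.castSucc) :=
      (continuous_deriv2 (hX.own.smooth j)).comp ((continuous_apply _).comp continuous_snd)
    exact ((continuous_const.sub continuous_fst).mul continuous_const).add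
      (continuous_fst.mul ((h1.comp h2).mul h3))

theorem continuous_pw {X : HD ε} (hX : X.OK) (e : ε) :
    Continuous fun x : (ℝ × (Fin 4 → ℝ)) × (Fin 4 → ℝ) => ∏ j, |x.2 j| ^ X.be e j :=
  continuous_finsetProd _ fun j _ =>
    (((continuous_apply j).comp continuous_snd).abs).rpow_const fun _ => Or.inr (hX.be0 e j)

theorem continuous_bx {X : HD ε} (hX : X.OK) (e : ε) : Continuous (bx X e) := by
  refine (continuous_const.mul ?_).mul (continuous_pw hX e)
  exact continuous_finsetProd _ fun j _ =>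
    (hX.lamS e j).continuous.comp ((continuous_apply j).comp (continuous_snd.comp continuous_fst))

theorem continuous_dl {X : HD ε} (hX : X.OK) (e : ε) (k : Fin 4) : Continuous (dl X e k) := by
  refine ((continuous_deriv2 (hX.lamS e k)).comp (continuous_apply k)).mul ?_
  exact continuous_finsetProd _ fun j _ => (hX.lamS e j).continuous.comp (continuous_apply j)

theorem cont {X : HD ε} (hX : X.OK) {d : ℝ} (hd : 0 < d) : (sys X hd).Cont where
  e i := (contDiff_cis (n := 2)).continuous.comp ((hX.pS i).continuous.comp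
    ((continuous_apply i).comp continuous_snd))
  ea := (contDiff_cC hX hd false).continuous
  eb := (contDiff_cC hX hd true).continuous
  va _ := continuous_const
  vb _ := continuous_const
  q i := (continuous_deriv2 (hX.pS i)).comp ((continuous_apply i).comp continuous_snd)
  A i := continuous_spd hX hd false i
  B i := continuous_spd hX hd true i
  B0 := continuous_finsetSum _ fun e _ => continuous_bx hX e
  N _ := continuous_finsetSum _ fun e _ => continuous_const.mul (continuous_bx hX e)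
  T i := continuous_finsetSum _ fun e _ => (continuous_const.mul ((continuous_dl hX e i).comp
    (continuous_snd.comp continuous_fst))).mul (continuous_pw hX e)

theorem pw_smul {X : HD ε} (hX : X.OK) (e : ε) (r : Fin 4 → ℝ) {c : ℝ} (hc : 0 < c) :
    ∏ j, |(c • r) j| ^ X.be e j = c * ∏ j, |r j| ^ X.be e j := by
  have h1 : ∀ j, |(c • r) j| ^ X.be e j = c ^ X.be e j * |r j| ^ X.be e j := fun j => by
    rw [Pi.smul_apply, smul_eq_mul, abs_mul, abs_of_pos hc, Real.mul_rpow hc.le (abs_nonneg _)]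
  rw [Finset.prod_congr rfl fun j _ => h1 j, Finset.prod_mul_distrib,
    ← Real.rpow_sum_of_pos hc, hX.be1, Real.rpow_one]

theorem hom {X : HD ε} (hX : X.OK) {d : ℝ} (hd : 0 < d) : (sys X hd).Hom where
  B0 y r c hc := by
    simp only [sys, bx]
    rw [Finset.mul_sum]
    exact Finset.sum_congr rfl fun e _ => by rw [pw_smul hX e r hc]; ring
  N _ y r c hc := by
    simp only [sys, bx]
    rw [Finset.mul_sum]
    exact Finset.sum_congr rfl fun e _ => by rw [pw_smul hX e r hc]; ring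
  T _ y r c hc := by
    simp only [sys]
    rw [Finset.mul_sum]
    exact Finset.sum_congr rfl fun e _ => by rw [pw_smul hX e r hc]; ring

/-! ## from bad points of the polar sum to bad points of the system -/

theorem re_I (ζ w : ℂ) (q : ℝ) : (conj ζ * ((q : ℂ) * (Complex.I * w))).re = -(q * ip ζ w) := by
  have h : conj ζ * ((q : ℂ) * (Complex.I * w)) = (q : ℂ) * (Complex.I * (conj ζ * w)) := by ring
  rw [h, Complex.re_ofReal_mul, Complex.I_mul_re]
  unfold ip
  ring

theorem re_neg (ζ : ℂ) (k : ℝ) : (conj ζ * (-(k : ℂ))).re = -(k * ζ.re) := by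
  rw [mul_neg, mul_comm, Complex.neg_re, Complex.re_ofReal_mul, Complex.conj_re]

theorem re_mul (ζ w : ℂ) (k : ℝ) : (conj ζ * ((k : ℂ) * w)).re = k * rp ζ w := by
  have h : conj ζ * ((k : ℂ) * w) = (k : ℂ) * (conj ζ * w) := by ring
  rw [h, Complex.re_ofReal_mul]
  rfl

/-- own magnitudes -/
def rr (X : HD ε) (z : Fin 4 → ℂ) : Fin 4 → ℝ := fun i => ‖z i‖ ^ X.D i

theorem rr_nonneg (X : HD ε) (z : Fin 4 → ℂ) (i : Fin 4) : 0 ≤ rr X z i :=
  Real.rpow_nonneg (norm_nonneg _) _

theorem mag_share (X : HD ε) (be : Fin 4 → ℝ) (z : Fin 4 → ℂ) :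
    mag (fun i => be i * X.D i) z = ∏ j, |rr X z j| ^ be j := by
  rw [mag]
  refine Finset.prod_congr rfl fun j _ => ?_
  rw [abs_of_nonneg (rr_nonneg X z j), rr, mul_comm, Real.rpow_mul (norm_nonneg _)]

theorem bridge {X : HD ε} (hX : X.OK) (M : ℝ) {d : ℝ} (hd : 0 < d) {s : ℝ} {z : Fin 4 → ℂ}
    (h0 : PF X.E (X.C M hd) (s, z) = 0)
    (hb : Bad X.E (X.C M hd) s (fun v => mag (X.E v) z) (ag z)) :
    ∃ ζ : ℂ, ζ ≠ 0 ∧ ((sys X hd).pt (s, ag z) (rr X z)
      (M * ∏ j, |rr X z j| ^ sh X.b false j) (M * ∏ j, |rr X z j| ^ sh X.b true j)).Bad ζ := by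
  obtain ⟨ζ, hζ, heq⟩ := hb
  have mo : ∀ i, mag (X.E (.inl i)) z = rr X z i := fun i => mag_single i (X.D i) z
  have mc : ∀ c, mag (X.E (.inr (.inl c))) z = ∏ j, |rr X z j| ^ sh X.b c j := fun c =>
    mag_share X (sh X.b c) z
  have mb : ∀ e, mag (X.E (.inr (.inr e))) z = ∏ j, |rr X z j| ^ X.be e j := fun e =>
    mag_share X (X.be e) z
  refine ⟨ζ, hζ, ⟨?_, fun i => ?_, fun i => ?_⟩⟩
  · simp only [PF, PM, Fintype.sum_sum_type, mo, mc, mb, HD.C, Fintype.sum_bool] at h0
    simp only [Sys.pt, sys, bx]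
    push_cast at h0 ⊢
    rw [← h0]
    have e1 : ∀ e : ε, ((X.ce e : ℂ) * ∏ j, (X.lam e j (ag z j) : ℂ)) *
        ∏ j, (((|rr X z j| ^ X.be e j : ℝ)) : ℂ) = -((∏ j, (((|rr X z j| ^ X.be e j : ℝ)) : ℂ)) *
          -((X.ce e : ℂ) * ∏ j, (X.lam e j (ag z j) : ℂ))) := fun e => by ring
    rw [Finset.sum_congr rfl fun e _ => e1 e, Finset.sum_neg_distrib]
    ring
  · have h1 := (heq i).1
    simp only [Fintype.sum_sum_type, mo, mc, mb, HD.C, Fintype.sum_bool] at h1
    simp only [HD.E, re_mul, re_neg] at h1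
    have e1 : ∑ x, (Pi.single x (X.D x) : Fin 4 → ℝ) i * rr X z x *
        ((starRingEnd ℂ) ζ * cis (X.p x (ag z x))).re =
        X.D i * (rr X z i * rp ζ (cis (X.p i (ag z i)))) := by
      rw [Finset.sum_eq_single i]
      · rw [Pi.single_eq_same]; unfold rp; ring
      · intro x _ hx
        rw [Pi.single_eq_of_ne (Ne.symm hx), zero_mul, zero_mul]
      · intro h; exact absurd (Finset.mem_univ i) h
    have e2 : ∑ e, X.be e i * X.D i * (∏ j, |rr X z j| ^ X.be e j) *
        -((X.ce e * ∏ j, X.lam e j (ag z j)) * ζ.re) =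
        -(X.D i * ((∑ e, X.be e i * bx X e ((s, ag z), rr X z)) * ζ.re)) := by
      rw [Finset.sum_mul, Finset.mul_sum, ← Finset.sum_neg_distrib]
      refine Finset.sum_congr rfl fun e _ => ?_
      simp only [bx]
      ring
    rw [e1, e2] at h1
    simp only [Sys.pt, sys]
    have hD := (hX.D0 i).ne'
    refine mul_left_cancel₀ hD ?_
    linear_combination h1
  · have h1 := (heq i).2
    simp only [Fintype.sum_sum_type, mo, mc, mb, dC_own hX, dC_c hX, dC_b hX,
      Fintype.sum_bool] at h1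
    have e1 : ∑ x, rr X z x * ((starRingEnd ℂ) ζ * (if i = x then
        ((deriv (X.p x) (ag z x) : ℝ) : ℂ) * (Complex.I * cis (X.p x (ag z x))) else 0)).re =
        -(deriv (X.p i) (ag z i) * (rr X z i * ip ζ (cis (X.p i (ag z i))))) := by
      rw [Finset.sum_eq_single i]
      · rw [if_pos rfl, re_I]; ring
      · intro x _ hx
        rw [if_neg (Ne.symm hx), mul_zero, Complex.zero_re, mul_zero]
      · intro h; exact absurd (Finset.mem_univ i) h
    have e2 : ∀ (c : Bool), ((starRingEnd ℂ) ζ * ((M : ℂ) * ((spd X hd c (s, ag z) i : ℂ) *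
        (Complex.I * cf (Fi X.b (Hs hd) c) X.ph (vv X.b c) (s, res (ag z)))))).re =
        -(M * spd X hd c (s, ag z) i * ip ζ (cf (Fi X.b (Hs hd) c) X.ph (vv X.b c)
          (s, res (ag z)))) := by
      intro c
      rw [← re_I]
      congr 2
      push_cast
      ring
    have e3 : ∑ e, (∏ j, |rr X z j| ^ X.be e j) * ((starRingEnd ℂ) ζ *
        -((X.ce e * dl X e i (ag z) : ℝ) : ℂ)).re =
        -((∑ e, X.ce e * dl X e i (ag z) * ∏ j, |rr X z j| ^ X.be e j) * ζ.re) := by
      rw [Finset.sum_mul, ← Finset.sum_neg_distrib]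
      refine Finset.sum_congr rfl fun e _ => ?_
      rw [re_neg]
      ring
    rw [e1, e2, e2, e3] at h1
    simp only [Sys.pt, sys]
    linear_combination -h1

/-! ## the hypotheses of `Start_862.start` -/

theorem bx_nonneg {X : HD ε} (hX : X.OK) (e : ε) (x : (ℝ × (Fin 4 → ℝ)) × (Fin 4 → ℝ)) :
    0 ≤ bx X e x :=
  mul_nonneg (mul_nonneg (hX.ce0 e) (Finset.prod_nonneg fun j _ => hX.lam0 e j _))
    (Finset.prod_nonneg fun _ _ => Real.rpow_nonneg (abs_nonneg _) _)

theorem pw_zero {X : HD ε} (e : ε) {r : Fin 4 → ℝ} {i : Fin 4} (hr : r i = 0)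
    (hb : X.be e i ≠ 0) : ∏ j, |r j| ^ X.be e j = 0 := by
  refine Finset.prod_eq_zero (Finset.mem_univ i) ?_
  rw [hr, abs_zero, Real.zero_rpow hb]

theorem N_zero {X : HD ε} {d : ℝ} (hd : 0 < d) (y : ℝ × (Fin 4 → ℝ)) (r : Fin 4 → ℝ) (i : Fin 4)
    (hr : r i = 0) : (sys X hd).N i (y, r) = 0 := by
  refine Finset.sum_eq_zero fun e _ => ?_
  by_cases h : X.be e i = 0
  · rw [h, zero_mul]
  · simp only [bx]
    rw [pw_zero e hr h, mul_zero, mul_zero]

theorem T_zero {X : HD ε} (hX : X.OK) {d : ℝ} (hd : 0 < d) (y : ℝ × (Fin 4 → ℝ))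
    (r : Fin 4 → ℝ) (i : Fin 4) (hr : r i = 0) : (sys X hd).T i (y, r) = 0 := by
  refine Finset.sum_eq_zero fun e _ => ?_
  by_cases h : X.be e i = 0
  · have h1 : X.lam e i = fun _ => X.lam e i 0 := funext fun x => hX.lamI e i h x 0
    have h2 : dl X e i y.2 = 0 := by
      unfold dl
      rw [h1, deriv_const, zero_mul]
    rw [h2, mul_zero, zero_mul]
  · rw [pw_zero e hr h, mul_zero]

theorem nonDeg_sh (b : Bool) : NonDeg b (sh b false) (sh b true) := by
  cases b
  · constructor <;> simp [sh] <;> norm_num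
  · constructor <;> simp [sh]

theorem typ {X : HD ε} (hX : X.OK) {d : ℝ} (hd : 0 < d) (θ : Fin 4 → ℝ) (c : Bool)
    (r : Fin 4 → ℝ) (a b : ℝ) : ((sys X hd).pt (1, θ) r a b).Typ (15 * d)
      (spd X hd c (1, θ)) (cf (Fi X.b (Hs hd) c) X.ph (vv X.b c) (1, res θ)) := by
  have hΦ := ph_Fi hd X.b c
  set u := lft X.ph (res θ) with hu
  have hcf : cf (Fi X.b (Hs hd) c) X.ph (vv X.b c) (1, res θ) = cis (Fi X.b (Hs hd) c u) := by
    simp [cf, path, hu]
  rw [hcf]
  refine ⟨Fin.lastCases 0 fun j => wt (Fi X.b (Hs hd) c) u j,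
    Fin.lastCases 0 fun j => deriv (X.ph j) (θ j.castSucc), fun i => ?_, fun i => ?_, ?_,
    fun i => ?_⟩
  · refine Fin.lastCases ?_ (fun j => ?_) i
    · simp only [spd_last, Fin.lastCases_last, mul_zero]
    · simp only [spd_cast, Fin.lastCases_castSucc, sub_self, zero_mul, zero_add, one_mul]
      rfl
  · refine Fin.lastCases ?_ (fun j => ?_) i
    · simp only [Fin.lastCases_last]; exact le_rfl
    · simp only [Fin.lastCases_castSucc]; exact hΦ.nn u j
  · by_cases h : ∑ i, wt (Fi X.b (Hs hd) c) u i < 1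
    · right
      have := hΦ.flat u h
      rwa [sub_neg_eq_add] at this
    · left
      have h1 : ∃ j, 0 < wt (Fi X.b (Hs hd) c) u j := by
        by_contra hcon
        push Not at hcon
        exact h ((Finset.sum_nonpos fun j _ => hcon j).trans_lt one_pos)
      obtain ⟨j, hj⟩ := h1
      exact ⟨j.castSucc, by simpa only [Fin.lastCases_castSucc] using hj⟩
  · refine Fin.lastCases ?_ (fun j => ?_) i
    · simp only [Fin.lastCases_last]
      exact fun h => absurd h (lt_irrefl _)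
    · simp only [Fin.lastCases_castSucc]
      intro hj
      have h1 := hΦ.close u j hj
      by_cases h : deriv (X.ph j) (θ j.castSucc) = 0
      · right
        refine ⟨h, ?_⟩
        have h2 : cis (u j) = -1 := hX.phf j _ h
        rwa [h2, sub_neg_eq_add] at h1
      · left
        obtain ⟨h2, h3⟩ := hX.pj j _ h
        refine ⟨h2, ?_⟩
        have h4 : cis (u j) = (sys X hd).e j.castSucc (1, θ) := h3
        rwa [h4] at h1

theorem nonDeg_spd {X : HD ε} (hX : X.OK) {d : ℝ} (hd : 0 < d) {s : ℝ} (hs0 : 0 ≤ s)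
    (hs1 : s < 1) (θ : Fin 4 → ℝ) :
    NonDeg X.b (spd X hd false (s, θ)) (spd X hd true (s, θ)) := by
  set u := lft X.ph (res θ) with hu
  have ht : 0 < 1 - s := by linarith
  have e : ∀ (c : Bool) (j : Fin 3), spd X hd c (s, θ) j.castSucc = (1 - s) * vv X.b c j +
      s * (wt (Fi X.b (Hs hd) c) u j * deriv (X.ph j) (θ j.castSucc)) := fun c j =>
    spd_cast X hd c (s, θ) j
  have hw : ∀ c j, 0 ≤ wt (Fi X.b (Hs hd) c) u j := fun c j => (ph_Fi hd X.b c).nn u j
  have hg : ∀ j : Fin 3, 0 ≤ deriv (X.ph j) (θ j.castSucc) := fun j => hX.ph0 j _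
  have e0 : ∀ c, spd X hd c (s, θ) 0 = _ := fun c => e c 0
  have e1 : ∀ c, spd X hd c (s, θ) 1 = _ := fun c => e c 1
  have e2 : ∀ c, spd X hd c (s, θ) 2 = _ := fun c => e c 2
  have hw01 : ∀ c j, wt (Fi X.b (Hs hd) c) u j ≤ 1 := fun c j =>
    (Finset.single_le_sum (f := fun j => wt (Fi X.b (Hs hd) c) u j) (fun i _ => hw c i)
      (Finset.mem_univ j)).trans ((ph_Fi hd X.b c).sum_le u)
  have G : ∀ c j, 0 ≤ s * (wt (Fi X.b (Hs hd) c) u j * deriv (X.ph j) (θ j.castSucc)) :=
    fun c j => mul_nonneg hs0 (mul_nonneg (hw c j) (hg j))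
  generalize hgj : (fun j : Fin 3 => deriv (X.ph j) (θ j.castSucc)) = g at *
  have hgj' : ∀ j : Fin 3, deriv (X.ph j) (θ j.castSucc) = g j := fun j => congrFun hgj j
  simp only [hgj'] at e0 e1 e2 hg G
  clear e hgj hgj'
  cases hb : X.b
  · rw [hb] at hw hw01 G
    simp only [hb] at e0 e1 e2
    have hn : ∀ j, wt (Fi false (Hs hd) false) u j = (1 - deriv (Hs hd 1 2)
        (u 0 - gBe (Hs hd) u)) * wt (Fi false (Hs hd) true) u j
      + deriv (Hs hd 1 2) (u 0 - gBe (Hs hd) u) * (if j = 0 then 1 else 0) := wt_gAl hd u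
    have hh := (Hs_sl hd (by norm_num : 0 < 2) (by norm_num : 1 ≤ 2)).ml.deriv_bd
      (u 0 - gBe (Hs hd) u)
    set h := deriv (Hs hd 1 2) (u 0 - gBe (Hs hd) u)
    have n0 := hn 0
    have n1 := hn 1
    have n2 := hn 2
    simp only [if_true, Fin.isValue, one_ne_zero, if_false, mul_zero, add_zero, mul_one,
      Fin.reduceEq] at n0 n1 n2
    have a0 : spd X hd false (s, θ) 0 = (1 - s) * 3 +
        s * (((1 - h) * wt (Fi false (Hs hd) true) u 0 + h) * g 0) := by
      rw [e0, n0]; simp [vv]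
    have a1 : spd X hd false (s, θ) 1 = (1 - s) +
        s * (((1 - h) * wt (Fi false (Hs hd) true) u 1) * g 1) := by
      rw [e1, n1]; simp [vv]
    have a2 : spd X hd false (s, θ) 2 = (1 - s) +
        s * (((1 - h) * wt (Fi false (Hs hd) true) u 2) * g 2) := by
      rw [e2, n2]; simp [vv]
    have b0 : spd X hd true (s, θ) 0 = (1 - s) + s * (wt (Fi false (Hs hd) true) u 0 * g 0) := by
      rw [e0]; simp [vv]
    have b1 : spd X hd true (s, θ) 1 = (1 - s) * 2 +
        s * (wt (Fi false (Hs hd) true) u 1 * g 1) := by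
      rw [e1]; simp [vv]
    have b2 : spd X hd true (s, θ) 2 = (1 - s) * 2 +
        s * (wt (Fi false (Hs hd) true) u 2 * g 2) := by
      rw [e2]; simp [vv]
    have det : ∀ W1 : ℝ, 0 ≤ W1 → 0 < ((1 - s) * 3 +
        s * (((1 - h) * wt (Fi false (Hs hd) true) u 0 + h) * g 0)) *
        ((1 - s) * 2 + W1) - ((1 - s) + (1 - h) * W1) *
        ((1 - s) + s * (wt (Fi false (Hs hd) true) u 0 * g 0)) := by
      intro W1 hW1
      have k1 : 0 ≤ s * (h * g 0) := mul_nonneg hs0 (mul_nonneg hh.1 (hg 0))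
      have k2 : 0 ≤ s * (wt (Fi false (Hs hd) true) u 0 * g 0) := G true 0
      have k3 : s * (wt (Fi false (Hs hd) true) u 0 * g 0) * h ≤ s * (h * g 0) := by
        have : wt (Fi false (Hs hd) true) u 0 * (s * (h * g 0)) ≤ 1 * (s * (h * g 0)) :=
          mul_le_mul_of_nonneg_right (hw01 true 0) k1
        linarith
      set G0 := s * (wt (Fi false (Hs hd) true) u 0 * g 0)
      set X0 := s * (h * g 0)
      have e3 : ((1 - s) * 3 + s * (((1 - h) * wt (Fi false (Hs hd) true) u 0 + h) * g 0)) *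
        ((1 - s) * 2 + W1) - ((1 - s) + (1 - h) * W1) * ((1 - s) + G0) =
        5 * (1 - s) ^ 2 + (1 - s) * W1 * (2 + h) + (1 - s) * (G0 + 2 * (X0 - G0 * h)) +
          X0 * W1 := by
        simp only [G0, X0]
        ring
      rw [e3]
      have p1 : 0 < 5 * (1 - s) ^ 2 := by positivity
      have p2 : 0 ≤ (1 - s) * W1 * (2 + h) :=
        mul_nonneg (mul_nonneg ht.le hW1) (by linarith [hh.1])
      have p3 : 0 ≤ (1 - s) * (G0 + 2 * (X0 - G0 * h)) :=
        mul_nonneg ht.le (by linarith)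
      have p4 : 0 ≤ X0 * W1 := mul_nonneg k1 hW1
      linarith
    refine ⟨?_, ?_, ?_, ?_, fun _ => ?_, fun h => absurd h (by decide),
      fun h => absurd h (by decide)⟩
    · rw [a0, a1, b0, b1]
      have := det _ (G true 1)
      refine ne_of_gt (this.trans_le (le_of_eq ?_))
      ring
    · rw [a0, a2, b0, b2]
      have := det _ (G true 2)
      refine ne_of_gt (this.trans_le (le_of_eq ?_))
      ring
    · rw [e1]
      have := G false 1
      simp only [vv, cond_false]
      refine ne_of_gt ?_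
      have h3 : (0 : ℝ) < (1 - s) * ((![3, 1, 1] (1 : Fin 3) : ℕ) : ℝ) := by simp [ht]
      linarith
    · rw [e2]
      have := G false 2
      simp only [vv, cond_false]
      refine ne_of_gt ?_
      have h3 : (0 : ℝ) < (1 - s) * ((![3, 1, 1] (2 : Fin 3) : ℕ) : ℝ) := by simp [ht]
      linarith
    · rw [b0]
      have := G true 0
      exact ne_of_gt (by linarith)
  · rw [hb] at hw hw01 G
    simp only [hb] at e0 e1 e2
    have hz : wt (Fi true (Hs hd) true) u 0 = 0 := wt_fBe_zero hd u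
    have b0 : spd X hd true (s, θ) 0 = 0 := by
      rw [e0, hz]; simp [vv]
    have a0 : 0 < spd X hd false (s, θ) 0 := by
      rw [e0]
      have := G false 0
      simp only [vv, cond_true, cond_false]
      have h3 : (0 : ℝ) < (1 - s) * ((![2, 1, 1] (0 : Fin 3) : ℕ) : ℝ) := by simp [ht]
      linarith
    have a1 : 0 < spd X hd false (s, θ) 1 := by
      rw [e1]
      have := G false 1
      simp only [vv, cond_true, cond_false]
      have h3 : (0 : ℝ) < (1 - s) * ((![2, 1, 1] (1 : Fin 3) : ℕ) : ℝ) := by simp [ht]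
      linarith
    have a2 : 0 < spd X hd false (s, θ) 2 := by
      rw [e2]
      have := G false 2
      simp only [vv, cond_true, cond_false]
      have h3 : (0 : ℝ) < (1 - s) * ((![2, 1, 1] (2 : Fin 3) : ℕ) : ℝ) := by simp [ht]
      linarith
    have b1 : 0 < spd X hd true (s, θ) 1 := by
      rw [e1]
      have := G true 1
      simp only [vv, cond_true]
      have h3 : (0 : ℝ) < (1 - s) * ((![0, 5, 5] (1 : Fin 3) : ℕ) : ℝ) := by simp [ht]
      linarith
    have b2 : 0 < spd X hd true (s, θ) 2 := by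
      rw [e2]
      have := G true 2
      simp only [vv, cond_true]
      have h3 : (0 : ℝ) < (1 - s) * ((![0, 5, 5] (2 : Fin 3) : ℕ) : ℝ) := by simp [ht]
      linarith
    refine ⟨?_, ?_, a1.ne', a2.ne', fun h => absurd h (by decide), fun _ => b1.ne',
      fun _ => b2.ne'⟩
    · rw [b0, mul_zero, sub_zero]; exact (mul_pos a0 b1).ne'
    · rw [b0, mul_zero, sub_zero]; exact (mul_pos a0 b2).ne'

theorem kind {X : HD ε} (hX : X.OK) {d : ℝ} (hd : 0 < d) {y : ℝ × (Fin 4 → ℝ)}
    (hy : y.1 ∈ Icc (0 : ℝ) 1) : (sys X hd).Kind X.b (15 * d) y := by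
  obtain ⟨s, θ⟩ := y
  rcases lt_or_eq_of_le hy.2 with h | h
  · exact Or.inl (nonDeg_spd hX hd hy.1 h θ)
  · right
    change s = 1 at h
    subst h
    refine ⟨fun r i hi => ?_, fun i hi => hX.pf i _ hi, fun r a b => ⟨?_, ?_⟩⟩
    · refine Finset.sum_eq_zero fun e _ => ?_
      have h1 : dl X e i θ = 0 := by
        unfold dl
        rw [hX.lq e i _ hi, zero_mul]
      simp only [h1, mul_zero, zero_mul]
    · exact typ hX hd θ false r a b
    · exact typ hX hd θ true r a b

/-- own terms minus boxes have no bad points -/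
def OwnReg (X : HD ε) : Prop := ∀ (θ : Fin 4 → ℝ) (r : Fin 4 → ℝ), (∀ i, 0 ≤ r i) → r ≠ 0 →
  ∀ ζ : ℂ, ‖ζ‖ = 1 →
    (∑ i, (r i : ℂ) * cis (X.p i (θ i))) - ((∑ e, bx X e ((0, θ), r) : ℝ) : ℂ) = 0 →
    (∀ i, r i * rp ζ (cis (X.p i (θ i))) = (∑ e, X.be e i * bx X e ((0, θ), r)) * ζ.re) →
    ¬ ∀ i, deriv (X.p i) (θ i) * (r i * ip ζ (cis (X.p i (θ i)))) +
      (∑ e, X.ce e * dl X e i θ * ∏ j, |r j| ^ X.be e j) * ζ.re = 0

theorem own_of {X : HD ε} (h : OwnReg X) {d : ℝ} (hd : 0 < d) (y : ℝ × (Fin 4 → ℝ))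
    (r : Fin 4 → ℝ) (hr : ∀ i, 0 ≤ r i) (hr0 : r ≠ 0) (ζ : ℂ) (hζ : ‖ζ‖ = 1) :
    ¬ ((sys X hd).pt y r 0 0).Bad ζ := by
  intro hb
  refine h y.2 r hr hr0 ζ hζ ?_ (fun i => ?_) fun i => ?_
  · have h1 := hb.zero
    simp only [Sys.pt, sys, Complex.ofReal_zero, zero_mul, add_zero] at h1
    exact h1
  · have h1 := hb.rad i
    simp only [Sys.pt, sys, zero_mul, mul_zero, add_zero] at h1
    exact h1
  · have h1 := hb.ang i
    simp only [Sys.pt, sys, zero_mul, mul_zero, add_zero] at h1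
    exact h1

/-- exponent `α` of `Start_862` -/
def al (b : Bool) : ℝ := bif b then 1 / 10 else 1 / 5

theorem sh_al (b : Bool) : Start_862.Sh b (al b) := by
  cases b
  · constructor <;> simp only [al, Start_862.ga, cond_false] <;> norm_num
  · constructor <;> simp only [al, Start_862.ga, cond_true] <;> norm_num

theorem prod_a {r : Fin 4 → ℝ} (hr : ∀ i, 0 ≤ r i) (b : Bool) :
    ∏ j, |r j| ^ sh b false j =
      r 0 ^ (bif b then (4 / 5 : ℝ) else 3 / 5) * Start_862.uu b (al b) r := by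
  rw [Fin.prod_univ_four]
  simp only [Start_862.uu]
  cases b
  · simp only [sh, al, Start_862.ga, cond_false, Matrix.cons_val_zero, Matrix.cons_val_one,
      Matrix.cons_val, Real.rpow_zero, mul_one]
    rw [abs_of_nonneg (hr 0), mul_assoc]
    norm_num
  · simp only [sh, al, Start_862.ga, cond_true, cond_false, Matrix.cons_val_zero,
      Matrix.cons_val_one, Matrix.cons_val, Real.rpow_zero, mul_one]
    rw [abs_of_nonneg (hr 0), mul_assoc]
    norm_num

theorem prod_b {r : Fin 4 → ℝ} (hr : ∀ i, 0 ≤ r i) (b : Bool) :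
    ∏ j, |r j| ^ sh b true j = (bif b then Start_862.uu b (al b) r ^ 5 else
      r 0 ^ (1 / 5 : ℝ) * Start_862.uu b (al b) r ^ 2) := by
  rw [Fin.prod_univ_four]
  have key : ∀ (x a : ℝ) (n : ℕ), 0 ≤ x → (x ^ a) ^ n = x ^ (a * n) := fun x a n hx => by
    rw [Real.rpow_mul hx, Real.rpow_natCast]
  simp only [Start_862.uu]
  cases b
  · simp only [sh, al, Start_862.ga, cond_true, cond_false, Matrix.cons_val_zero,
      Matrix.cons_val_one, Matrix.cons_val, Real.rpow_zero, mul_one]
    rw [mul_pow, key _ _ _ (abs_nonneg _), key _ _ _ (abs_nonneg _), abs_of_nonneg (hr 0),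
      mul_assoc]
    norm_num
  · simp only [sh, al, Start_862.ga, cond_true, Matrix.cons_val_zero,
      Matrix.cons_val_one, Matrix.cons_val, Real.rpow_zero, mul_one, one_mul]
    rw [mul_pow, key _ _ _ (abs_nonneg _), key _ _ _ (abs_nonneg _)]
    norm_num

/-- the weights -/
def wX (X : HD ε) : Fin 4 → ℝ := fun i => (X.D i)⁻¹

theorem weight {X : HD ε} (hX : X.OK) (v : V ε) : ∑ i, wX X i * X.E v i = 1 := by
  rcases v with i | c | e
  · simp only [HD.E, wX]
    rw [Finset.sum_eq_single i]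
    · rw [Pi.single_eq_same, inv_mul_cancel₀ (hX.D0 i).ne']
    · intro j _ hj
      rw [Pi.single_eq_of_ne hj, mul_zero]
    · intro h; exact absurd (Finset.mem_univ i) h
  · simp only [HD.E, wX]
    have h1 : ∀ i, (X.D i)⁻¹ * (sh X.b c i * X.D i) = sh X.b c i := fun i => by
      have := (hX.D0 i).ne'
      field_simp
    rw [Finset.sum_congr rfl fun i _ => h1 i, Fin.sum_univ_four]
    cases X.b <;> cases c <;> simp [sh] <;> norm_num
  · simp only [HD.E, wX]
    have h1 : ∀ i, (X.D i)⁻¹ * (X.be e i * X.D i) = X.be e i := fun i => by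
      have := (hX.D0 i).ne'
      field_simp
    rw [Finset.sum_congr rfl fun i _ => h1 i, hX.be1]

/-- **START, literal form.** -/
theorem start {X : HD ε} (hX : X.OK) (hown : OwnReg X) {d : ℝ} (hd : 0 < d) (hd1 : 15 * d < 1) :
    ∃ M0 > 0, ∀ M : ℝ, M0 ≤ M → HPath0 (PF X.E (X.C M hd)) := by
  have hK : IsCompact (Icc (0 : ℝ) 1 ×ˢ (Set.pi univ fun _ : Fin 4 => Icc (-Real.pi) Real.pi)) :=
    isCompact_Icc.prod (isCompact_univ_pi fun _ => isCompact_Icc)
  obtain ⟨κ, hκ, H⟩ := Start_862.start X.b (sys X hd) (cont hX hd) (hom hX hd) hK (sh_al X.b)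
    (sh_al X.b) hd1 (fun y _ => norm_cf _ _ _ _) (fun y _ => norm_cf _ _ _ _)
    (fun y _ r _ => Finset.sum_nonneg fun e _ => bx_nonneg hX e _)
    (fun y _ r i hr => N_zero hd y r i hr) (fun y _ r i hr => T_zero hX hd y r i hr)
    (fun y _ => nonDeg_sh X.b) (fun y hy => kind hX hd hy.1)
    (fun y _ r hr hr0 ζ hζ => own_of hown hd y r hr hr0 ζ hζ)
  refine ⟨2 / κ, by positivity, fun M hM => ?_⟩
  have hM0 : 0 < M := lt_of_lt_of_le (by positivity) hM
  have hMκ : M⁻¹ < κ := by
    rw [inv_lt_comm₀ hM0 hκ]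
    have : κ⁻¹ < 2 / κ := by
      rw [inv_eq_one_div]
      exact div_lt_div_of_pos_right (by norm_num) hκ
    exact this.trans_le hM
  refine hpath0 isOpen_univ (subset_univ _) (coef hX M hd) (w := wX X)
    (fun i => inv_pos.2 (hX.D0 i)) (weight hX) fun s hs z hz h0 hb => ?_
  obtain ⟨ζ, hζ, hbad⟩ := bridge hX M hd h0 hb
  have hr := rr_nonneg X z
  have hpa : 0 ≤ ∏ j, |rr X z j| ^ sh X.b false j :=
    Finset.prod_nonneg fun _ _ => Real.rpow_nonneg (abs_nonneg _) _
  have hpb : 0 ≤ ∏ j, |rr X z j| ^ sh X.b true j :=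
    Finset.prod_nonneg fun _ _ => Real.rpow_nonneg (abs_nonneg _) _
  refine H M⁻¹ (inv_pos.2 hM0).le hMκ (s, ag z) ⟨hs, fun i _ => ?_⟩ (rr X z) _ _ ζ
    ⟨hr, mul_nonneg hM0.le hpa, mul_nonneg hM0.le hpb, ?_⟩ hζ ?_ hbad
  · exact ⟨(Complex.neg_pi_lt_arg _).le, Complex.arg_le_pi _⟩
  · obtain ⟨i, hi⟩ : ∃ i, z i ≠ 0 := by
      by_contra h
      push Not at h
      exact hz (funext h)
    have h1 : 0 < rr X z i := Real.rpow_pos_of_pos (norm_pos_iff.2 hi) _
    have h2 : rr X z i ≤ ∑ j, rr X z j := Finset.single_le_sum (fun j _ => hr j) (Finset.mem_univ i)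
    have h3 := mul_nonneg hM0.le hpa
    have h4 := mul_nonneg hM0.le hpb
    linarith
  · rw [prod_a hr, prod_b hr]
    exact Start_862.mem_Rel_pure X.b (s, ag z) hM0 (hr 0)

end Crest.Agent.R267.StLit_143

end
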