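import Crest.Agent.R267.HubDefs_284

/-!
# S0406, T3N hub step: facts on the literal words `pp` and windows `ww` of `HubDefs_284` (helper896)
-/

set_option autoImplicit false

noncomputable section

open Finset Set
open Crest.Agent.R267.T3aNDefs_88 Crest.Agent.R267.Ang_739
open Crest.Agent.R267.GlNDefs_9 Crest.Agent.R267.WordPh_9 Crest.Agent.R267.WordPh2_9
open Crest.Agent.R267.HubDefs_284

namespace Crest.Agent.R267.WinLit_896

variable (D : SD 4)

theorem sn_pm (j : Fin 4) (l : ℕ) : D.sn j l = 1 ∨ D.sn j l = -1 := by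
  unfold SD.sn
  split
  · exact Or.inr rfl
  · exact Or.inl rfl

theorem contDiff_pp (j : Fin 4) : ContDiff ℝ 2 (pp D j) := contDiff_wph (arcsE _)

theorem cis_pp_per (j : Fin 4) (x : ℝ) : cis (pp D j (x + 2 * Real.pi)) = cis (pp D j x) := by
  obtain ⟨n, hn⟩ := exists_tot (sn_pm D j) (D.M j)
  have h := wph_add (e := D.sn j) (M := D.M j) (α := aE (D.M j)) (β := bE (D.M j)) x
  unfold pp
  rw [h, hn, cis_per]

/-- own phases are flat only where `cis = -1`. -/
theorem cis_pp_flat (j : Fin 4) {x : ℝ} (h : deriv (pp D j) x = 0) : cis (pp D j x) = -1 :=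
  cis_of_deriv_zero (arcsE _) (sn_pm D j) h

/-- the words cross `0` only inside the lobes. -/
theorem lobe_of_one {j : Fin 4} {x : ℝ} (h : cis (pp D j x) = 1) :
    ∃ (k : ℤ) (i : ℕ), i ≤ D.M j ∧ aE (D.M j) i ≤ x - 2 * Real.pi * k ∧
      x - 2 * Real.pi * k ≤ bE (D.M j) i := by
  obtain ⟨k, y, hy1, hy2, rfl⟩ := exists_dom (aE (D.M j) 0) x
  obtain ⟨i, hi, h1, h2⟩ := exists_piece (arcsE (D.M j)) hy1 hy2
  have e1 : y + 2 * Real.pi * k - 2 * Real.pi * k = y := by ring
  refine ⟨k, i, hi, by rw [e1]; exact h1, ?_⟩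
  rw [e1]
  by_contra h3
  push Not at h3
  have h4 : cis (pp D j (y + 2 * Real.pi * k)) = -1 :=
    cis_wph_gap (arcsE _) (sn_pm D j) hi h3.le h2.le k
  rw [h] at h4
  norm_num at h4

variable {D}

section win

variable {e : Fin D.nb} {j : Fin 4} (hj : j ∈ (D.bx e).S)
  (hlo : (D.bx e).lo j ≤ (D.bx e).hi j)

include hj hlo

theorem winA_ww : WinA (D.M j) (aE (D.M j)) (bE (D.M j)) ((D.bx e).lo j) ((D.bx e).hi j)
    (ww D e j) := winA (arcsE _) hlo (D.hhi e j hj)

theorem contDiff_ww : ContDiff ℝ 2 (ww D e j) := (winA_ww hj hlo).smooth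

theorem per_ww : Per (ww D e j) := (winA_ww hj hlo).per

theorem ww_nonneg (x : ℝ) : 0 ≤ ww D e j x := (winA_ww hj hlo).nn x

theorem ww_le_one (x : ℝ) : ww D e j x ≤ 1 := (winA_ww hj hlo).le x

/-- **windows move only where the own phase is flat.** -/
theorem flat_win {x : ℝ} (h : deriv (ww D e j) x ≠ 0) : deriv (pp D j) x = 0 :=
  (flat_of_wn (arcsE _) (sn_pm D j) hlo (D.hhi e j hj) h).1

theorem win_const {x : ℝ} (h : deriv (pp D j) x ≠ 0) : deriv (ww D e j) x = 0 := by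
  by_contra h1
  exact h (flat_win hj hlo h1)

/-- **windows are `0` or `1` where `cis (pp) = 1`.** -/
theorem win01 {x : ℝ} (h : cis (pp D j x) = 1) : ww D e j x = 0 ∨ ww D e j x = 1 := by
  obtain ⟨k, i, hi, h1, h2⟩ := lobe_of_one D h
  have h3 := wn_lobe (arcsE (D.M j)) hlo (D.hhi e j hj) hi h1 h2
  have e1 : x = (x - 2 * Real.pi * k) + 2 * Real.pi * k := by ring
  have h4 : ww D e j x = wn (aE (D.M j)) (bE (D.M j)) ((D.bx e).lo j) ((D.bx e).hi j)
      (x - 2 * Real.pi * k) := by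
    conv_lhs => rw [e1]
    exact wn_add_int _ _ _ _ _ _
  rw [h4, h3]
  split
  · exact Or.inr rfl
  · exact Or.inl rfl

end win

end Crest.Agent.R267.WinLit_896
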