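import Crest.Agent.R267.HarmDer_896
import Crest.Agent.R267.OwnBox_896
import Crest.Agent.R267.StLit_143
import Crest.Agent.R267.WinLit_896

/-!
# S0406, T3N hub step, arrow C3b (helper896): harmonic boxes → product boxes, literal form

`boxP : HubDefs_284.BoxP b D` for every `D : SD 4` with `lo ≤ hi` and at most three variables in a
box.  The path `t ↦ M core + own - t (product boxes) - (1 - t) (harmonic boxes)` is `0`-regular for
`M ≫ 1` (`Start_862.start` with linear phases); the own part minus the mixed boxes is regular by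
`OwnBox_896.own_boxes`.
-/

set_option autoImplicit false
set_option linter.unusedSectionVars false

noncomputable section

open Finset Set Filter Topology
open scoped ContDiff ComplexConjugate
open Crest.Agent.R267.Cone_808
open Crest.Agent.R267.T3aNDefs_88 Crest.Agent.R267.Hm_951 Crest.Agent.R267.Ang_739
open Crest.Agent.R267.GlNDefs_9 Crest.Agent.R267.NdR_484 Crest.Agent.R267.StairFn_739
open Crest.Agent.R267.HarmBox_920 (HB rr rr_nonneg rr_pos rr_zero contDiff_HB HB_act)
open Crest.Agent.R267.MixBox_896 Crest.Agent.R267.HarmDer_896 Crest.Agent.R267.PolF_943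
open Crest.Agent.R267.Start_862 (rp ip Pt Sys Mag NonDeg Rel)
open Crest.Agent.R267.StLit_143 (sh re_I re_neg re_mul)
open Crest.Agent.R267.HubDefs_284 Crest.Agent.R267.WinLit_896

namespace Crest.Agent.R267.HarmProd_896

/-- hypotheses on the boxes -/
structure Hyp (D : SD 4) : Prop where
  lo : ∀ e, ∀ j ∈ (D.bx e).S, (D.bx e).lo j ≤ (D.bx e).hi j
  cd : ∀ e, (D.bx e).S.card ≤ 3

/-! ### numbers -/

section numbers

variable {D : SD 4}

theorem S_ne (e : Fin D.nb) : (D.bx e).S.Nonempty :=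
  card_pos.1 (lt_of_lt_of_le (by norm_num) (D.h2 e))

theorem cd_ge (e : Fin D.nb) : 2 ≤ cd D e := by
  unfold cd
  exact_mod_cast D.h2 e

theorem cd_pos (e : Fin D.nb) : 0 < cd D e := by linarith [cd_ge e]

theorem cd_le (h : Hyp D) (e : Fin D.nb) : cd D e ≤ 3 := by
  unfold cd
  exact_mod_cast h.cd e

theorem cc_gt (h : Hyp D) (e : Fin D.nb) : cd D e < cc D e := by
  unfold cc
  split_ifs with h1
  · unfold cd; rw [h1]; norm_num
  · linarith [cd_le h e]

theorem cc_pos (e : Fin D.nb) : 0 < cc D e := by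
  unfold cc
  split_ifs <;> norm_num

theorem D3_ge (b : Bool) (j : Fin 4) : 15 / 2 ≤ D3 b j := by
  unfold D3 DS
  cases b <;> fin_cases j <;> simp <;> norm_num

theorem D3_pos (b : Bool) (j : Fin 4) : 0 < D3 b j := by linarith [D3_ge b j]

theorem vc_sh0 (b : Bool) (j : Fin 4) : 3 * (vc b 0 j : ℝ) = sh b false j * D3 b j := by
  unfold D3 DS vc sh
  cases b <;> fin_cases j <;> simp <;> norm_num

theorem vc_sh1 (b : Bool) (j : Fin 4) : 3 * (vc b 1 j : ℝ) = sh b true j * D3 b j := by
  unfold D3 DS vc sh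
  cases b <;> fin_cases j <;> simp <;> norm_num

theorem vc_exp (b : Bool) (k : Fin 2) (j : Fin 4) :
    3 * (vc b k j : ℝ) = 0 ∨ 2 < 3 * (vc b k j : ℝ) := by
  rcases Nat.eq_zero_or_pos (vc b k j) with h | h
  · left; rw [h]; simp
  · right
    have : (1 : ℝ) ≤ vc b k j := by exact_mod_cast h
    linarith

theorem nonDeg_vc (b : Bool) : NonDeg b (fun i => (vc b 0 i : ℝ)) (fun i => (vc b 1 i : ℝ)) := by
  cases b
  · constructor <;> simp [vc] <;> norm_num
  · constructor <;> simp [vc]

end numbers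

/-! ### the functions -/

/-- indices -/
abbrev VI (D : SD 4) := Fin 4 ⊕ (Fin 2 ⊕ Fin D.nb)

/-- exponents -/
def EE (b : Bool) (D : SD 4) : VI D → Fin 4 → ℝ
  | .inl i => Pi.single i (D3 b i)
  | .inr (.inl k) => fun j => 3 * (vc b k j : ℝ)
  | .inr (.inr e) => fun j => if j ∈ (D.bx e).S then D3 b j / cd D e else 0

/-- linear phases -/
def lin (b : Bool) (k : Fin 2) (θ : Fin 4 → ℝ) : ℝ := ∑ j, (vc b k j : ℝ) * θ j

/-- products of the windows -/
def La (D : SD 4) (e : Fin D.nb) (θ : Fin 4 → ℝ) : ℝ := ∏ j ∈ (D.bx e).S, ww D e j (θ j)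

/-- coefficients -/
def Cf (b : Bool) (D : SD 4) (M : ℝ) : VI D → ℝ × (Fin 4 → ℝ) → ℂ
  | .inl i => fun q => cis (pp D i (q.2 i))
  | .inr (.inl k) => fun q => (M : ℂ) * cis (lin b k q.2)
  | .inr (.inr e) => fun q => -((q.1 * (cc D e * La D e q.2) : ℝ) : ℂ)

/-- the path -/
def Fn (b : Bool) (D : SD 4) (M : ℝ) (q : ℝ × E4) : ℂ :=
  PF (EE b D) (Cf b D M) q - (((1 - q.1) * boxH D (D3 b) q.2 : ℝ) : ℂ)

section fn

variable (b : Bool) (D : SD 4)

theorem mag_box (e : Fin D.nb) (z : E4) :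
    mag (EE b D (.inr (.inr e))) z = Gt (D.bx e).S (rr (D3 b) z) := by
  unfold mag Gt
  simp only [EE]
  rw [← Finset.prod_subset (Finset.subset_univ (D.bx e).S)]
  · refine prod_congr rfl fun j hj => ?_
    rw [if_pos hj, abs_rr, rr, ← Real.rpow_mul (norm_nonneg _)]
    congr 1
    unfold cd
    ring
  · intro j _ hj
    rw [if_neg hj, Real.rpow_zero]

theorem boxP_eq (z : E4) : HubDefs_284.boxP D (D3 b) z =
    ∑ e, cc D e * (Gt (D.bx e).S (rr (D3 b) z) * La D e (ag z)) := by
  unfold HubDefs_284.boxP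
  refine sum_congr rfl fun e _ => ?_
  congr 1
  rw [← mag_box b D e z]
  unfold La mag pol
  simp only [smul_eq_mul, EE]
  rw [Finset.prod_mul_distrib]
  congr 1
  rw [← Finset.prod_subset (Finset.subset_univ (D.bx e).S)
    (f := fun i => ‖z i‖ ^ if i ∈ (D.bx e).S then D3 b i / cd D e else 0)]
  · refine prod_congr rfl fun j hj => ?_
    rw [if_pos hj]
  · intro j _ hj
    rw [if_neg hj, Real.rpow_zero]

theorem Fn_eq (M : ℝ) (q : ℝ × E4) :
    Fs b D Gs (fun _ => 0) (fun _ _ => M) (fun _ _ => M) (0, q.2) +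
      (((1 - q.1) * (HubDefs_284.boxP D (D3 b) q.2 - boxH D (D3 b) q.2) : ℝ) : ℂ) = Fn b D M q := by
  have h1 : Fs b D Gs (fun _ => 0) (fun _ _ => M) (fun _ _ => M) (0, q.2) =
      PF (EE b D) (Cf b D M) q - (((1 - q.1) * HubDefs_284.boxP D (D3 b) q.2 : ℝ) : ℂ) := by
    unfold Fs PF
    rw [Fintype.sum_sum_type, Fintype.sum_sum_type, Fintype.sum_sum_type, Fintype.sum_sum_type,
      add_sub_assoc, add_sub_assoc]
    congr 1
    congr 1
    · refine sum_congr rfl fun k _ => ?_
      simp only [PM, CC, Cf]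
      congr 1
      congr 1
      · have : (HX b D Gs (fun _ _ => M) fun _ _ => M).amp k (0, ag q.2) = M := by
          simp only [HX]
          split_ifs <;> rfl
        rw [this]
      · congr 1
        simp [StairPh_739.path, lin]
    · rw [boxP_eq, Finset.mul_sum]
      push_cast
      rw [← Finset.sum_sub_distrib]
      refine sum_congr rfl fun e _ => ?_
      have h2 : (HX b D Gs (fun _ _ => M) fun _ _ => M).La e (ag q.2) = La D e (ag q.2) := by
        unfold HubEng_370.Hub.La La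
        simp only [HX]
        rw [← Finset.prod_subset (Finset.subset_univ (D.bx e).S)]
        · refine prod_congr rfl fun j hj => ?_
          rw [if_pos hj]
        · intro j _ hj
          rw [if_neg hj]
      have h3 : mag ((HX b D Gs (fun _ _ => M) fun _ _ => M).E (.inr (.inr e))) q.2 =
          Gt (D.bx e).S (rr (D3 b) q.2) := mag_box b D e q.2
      simp only [PM, CC, Cf, HubEng_370.Hub.Cb]
      rw [h2, h3, mag_box b D e q.2]
      have h4 : (HX b D Gs (fun _ _ => M) fun _ _ => M).cb e = cc D e := rfl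
      rw [h4]
      push_cast
      ring
  rw [h1]
  unfold Fn
  push_cast
  ring

end fn

/-! ### smoothness, periodicity, weights -/

section smooth

variable {b : Bool} {D : SD 4} (h : Hyp D)

include h

theorem contDiff_La (e : Fin D.nb) : ContDiff ℝ 2 (La D e) :=
  contDiff_prod fun j hj => (contDiff_ww hj (h.lo e j hj)).comp (contDiff_apply ℝ ℝ j)

theorem coef (M : ℝ) (v : VI D) : Coef univ (EE b D v) (Cf b D M v) := by
  rcases v with i | k | e
  · refine ⟨fun j => ?_, ?_, ?_, ?_⟩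
    · simp only [EE]
      by_cases hj : j = i
      · subst hj
        right
        rw [Pi.single_eq_same]
        linarith [D3_ge b j]
      · left
        rw [Pi.single_eq_of_ne hj]
    · refine ContDiff.contDiffOn ?_
      exact contDiff_cis.comp ((contDiff_pp D i).comp ((contDiff_apply ℝ ℝ i).comp contDiff_snd))
    · intro t _ θ k
      simp only [Cf]
      by_cases hk : i = k
      · subst hk; rw [Function.update_self, cis_pp_per]
      · rw [Function.update_of_ne hk]
    · intro k hk t _ θ x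
      simp only [Cf]
      have hk' : i ≠ k := by
        rintro rfl
        simp only [EE, Pi.single_eq_same] at hk
        exact (D3_pos b i).ne' hk
      rw [Function.update_of_ne hk']
  · refine ⟨fun j => vc_exp b k j, ?_, ?_, ?_⟩
    · refine ContDiff.contDiffOn ?_
      refine contDiff_const.mul (contDiff_cis.comp ?_)
      unfold lin
      exact ContDiff.sum fun j _ => contDiff_const.mul ((contDiff_apply ℝ ℝ j).comp contDiff_snd)
    · intro t _ θ i
      simp only [Cf]
      congr 1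
      have e1 : lin b k (Function.update θ i (θ i + 2 * Real.pi)) =
          lin b k θ + 2 * Real.pi * ((vc b k i : ℕ) : ℝ) := by
        unfold lin
        rw [← Finset.add_sum_erase _ _ (Finset.mem_univ i), ← Finset.add_sum_erase _ _
          (Finset.mem_univ i), Function.update_self]
        have : ∀ j ∈ Finset.univ.erase i, (vc b k j : ℝ) *
            Function.update θ i (θ i + 2 * Real.pi) j = (vc b k j : ℝ) * θ j := fun j hj => by
          rw [Function.update_of_ne (Finset.ne_of_mem_erase hj)]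
        rw [Finset.sum_congr rfl this]
        ring
      rw [e1, cis_per_nat]
    · intro i hi t _ θ x
      simp only [Cf]
      congr 2
      have hv : (vc b k i : ℝ) = 0 := by
        simp only [EE] at hi
        linarith
      unfold lin
      refine sum_congr rfl fun j _ => ?_
      by_cases hj : j = i
      · subst hj; rw [hv, zero_mul, zero_mul]
      · rw [Function.update_of_ne hj]
  · refine ⟨fun j => ?_, ?_, ?_, ?_⟩
    · simp only [EE]
      split_ifs with hj
      · right
        have h1 := D3_ge b j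
        have h2 := cd_le h e
        rw [lt_div_iff₀ (cd_pos e)]
        linarith
      · left; rfl
    · refine ContDiff.contDiffOn ?_
      refine ContDiff.neg (Complex.ofRealCLM.contDiff.comp ?_)
      exact contDiff_fst.mul (contDiff_const.mul ((contDiff_La h e).comp contDiff_snd))
    · intro t _ θ k
      simp only [Cf]
      have : La D e (Function.update θ k (θ k + 2 * Real.pi)) = La D e θ := by
        unfold La
        refine prod_congr rfl fun j hj => ?_
        by_cases hk : j = k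
        · subst hk
          rw [Function.update_self]
          exact per_ww hj (h.lo e j hj) _
        · rw [Function.update_of_ne hk]
      rw [this]
    · intro k hk t _ θ x
      simp only [Cf]
      have hk' : k ∉ (D.bx e).S := by
        intro hk'
        simp only [EE, if_pos hk'] at hk
        exact (div_pos (D3_pos b k) (cd_pos e)).ne' hk
      have : La D e (Function.update θ k x) = La D e θ := by
        unfold La
        refine prod_congr rfl fun j hj => ?_
        rw [Function.update_of_ne]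
        rintro rfl
        exact hk' hj
      rw [this]

omit h in
/-- weights -/
theorem weight (v : VI D) : ∑ i, (D3 b i)⁻¹ * EE b D v i = 1 := by
  rcases v with i | k | e
  · simp only [EE]
    rw [Finset.sum_eq_single i]
    · rw [Pi.single_eq_same, inv_mul_cancel₀ (D3_pos b i).ne']
    · intro j _ hj
      rw [Pi.single_eq_of_ne hj, mul_zero]
    · intro h; exact absurd (Finset.mem_univ i) h
  · simp only [EE]
    unfold D3 DS vc
    rw [Fin.sum_univ_four]
    cases b <;> fin_cases k <;> simp <;> norm_num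
  · simp only [EE]
    have h1 : ∀ i, (D3 b i)⁻¹ * (if i ∈ (D.bx e).S then D3 b i / cd D e else 0) =
        if i ∈ (D.bx e).S then (cd D e)⁻¹ else 0 := fun i => by
      have := (D3_pos b i).ne'
      have := (cd_pos e).ne'
      split_ifs
      · field_simp
      · rw [mul_zero]
    rw [Finset.sum_congr rfl fun i _ => h1 i, ← Finset.sum_filter, Finset.filter_mem_eq_inter,
      Finset.univ_inter, Finset.sum_const, nsmul_eq_mul]
    exact mul_inv_cancel₀ (cd_pos e).ne'

theorem D3_two (e : Fin D.nb) : ∀ j ∈ (D.bx e).S, 2 < D3 b j := fun j _ => by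
  linarith [D3_ge b j]

theorem contDiff_boxH : ContDiff ℝ 2 (boxH D (D3 b)) := by
  unfold boxH
  refine ContDiff.sum fun e _ => contDiff_const.mul ?_
  exact contDiff_HB (S_ne e) (D3_two h e) (fun j hj => per_ww hj (h.lo e j hj))
    fun j hj => contDiff_ww hj (h.lo e j hj)

omit h in
theorem boxH_act (s : ℝ) (z : E4) : boxH D (D3 b) (act (fun i => (D3 b i)⁻¹) s z) =
    Real.exp s * boxH D (D3 b) z := by
  unfold boxH
  rw [Finset.mul_sum]
  refine sum_congr rfl fun e _ => ?_
  rw [HB_act _ (fun j _ => inv_mul_cancel₀ (D3_pos b j).ne')]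
  ring

theorem contDiff_Fn (M : ℝ) : ContDiffOn ℝ 2 (Fn b D M) (univ ×ˢ univ) := by
  unfold Fn
  refine (PF_smooth isOpen_univ (coef h M)).sub ?_
  refine ContDiff.contDiffOn (Complex.ofRealCLM.contDiff.comp ?_)
  exact (contDiff_const.sub contDiff_fst).mul ((contDiff_boxH h).comp contDiff_snd)

omit h in
theorem Fn_wh (M : ℝ) (t s : ℝ) (z : E4) : Fn b D M (t, act (fun i => (D3 b i)⁻¹) s z) =
    Real.exp s • Fn b D M (t, z) := by
  unfold Fn
  rw [PF_wh _ (weight (b := b) (D := D))]
  simp only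
  rw [boxH_act, smul_sub, Complex.real_smul, Complex.real_smul]
  push_cast
  ring

/-! ### derivatives -/

theorem fderiv_Fn (M t : ℝ) (z y : E4) : fderiv ℝ (Fn b D M) (t, z) (0, y) =
    fderiv ℝ (PF (EE b D) (Cf b D M)) (t, z) (0, y) -
      (((1 - t) * fderiv ℝ (boxH D (D3 b)) z y : ℝ) : ℂ) := by
  have h1 : HasFDerivAt (PF (EE b D) (Cf b D M)) (fderiv ℝ (PF (EE b D) (Cf b D M)) (t, z))
      (t, z) := by
    refine DifferentiableAt.hasFDerivAt ?_
    exact ((PF_smooth isOpen_univ (coef h M) (t, z) ⟨mem_univ _, mem_univ _⟩).contDiffAt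
      (by simp)).differentiableAt (by norm_num)
  have h2 : HasFDerivAt (boxH D (D3 b)) (fderiv ℝ (boxH D (D3 b)) z) z :=
    ((contDiff_boxH h).differentiable (by norm_num) z).hasFDerivAt
  have h3 : HasFDerivAt (fun q : ℝ × E4 => boxH D (D3 b) q.2)
      ((fderiv ℝ (boxH D (D3 b)) z).comp (ContinuousLinearMap.snd ℝ ℝ E4)) (t, z) :=
    HasFDerivAt.comp (t, z) (g := boxH D (D3 b)) (f := fun q : ℝ × E4 => q.2) h2 hasFDerivAt_snd
  have h4 : HasFDerivAt (fun q : ℝ × E4 => (1 - q.1))
      (-(ContinuousLinearMap.fst ℝ ℝ E4)) (t, z) := by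
    have := (hasFDerivAt_fst (𝕜 := ℝ) (p := ((t, z) : ℝ × E4))).const_sub (1 : ℝ)
    exact this
  have h5 := h4.mul h3
  have h6 := Complex.ofRealCLM.hasFDerivAt.comp (t, z) h5
  have h7 := h1.sub h6
  have h8 : HasFDerivAt (Fn b D M) _ (t, z) := h7
  rw [h8.fderiv]
  simp

theorem fderiv_boxH_rad (z : E4) (i : Fin 4) :
    fderiv ℝ (boxH D (D3 b)) z (Pi.single i (z i)) =
      ∑ e, cd D e * cc D e * (D3 b i * Hn (D.bx e).S i (rr (D3 b) z) * La D e (ag z)) := by
  have h1 : ∀ e : Fin D.nb, DifferentiableAt ℝ (HB (D.bx e).S (D3 b) (ww D e)) z := fun e =>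
    (contDiff_HB (S_ne e) (D3_two h e) (fun j hj => per_ww hj (h.lo e j hj))
      fun j hj => contDiff_ww hj (h.lo e j hj)).differentiable (by norm_num) z
  have h2 : HasFDerivAt (boxH D (D3 b))
      (∑ e, (cd D e * cc D e) • fderiv ℝ (HB (D.bx e).S (D3 b) (ww D e)) z) z := by
    unfold boxH
    exact HasFDerivAt.fun_sum fun e _ => (h1 e).hasFDerivAt.const_mul _
  rw [h2.fderiv, _root_.sum_apply]
  refine sum_congr rfl fun e _ => ?_
  rw [_root_.smul_apply, fderiv_HB_rad (S_ne e) (D3_two h e)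
    (fun j hj => per_ww hj (h.lo e j hj)) fun j hj => contDiff_ww hj (h.lo e j hj), smul_eq_mul]
  rfl

theorem fderiv_boxH_ang (z : E4) (i : Fin 4) :
    fderiv ℝ (boxH D (D3 b)) z (Pi.single i (Complex.I * z i)) =
      ∑ e, cd D e * cc D e * (Ht (D.bx e).S (rr (D3 b) z) * dL (D.bx e).S (ww D e) i (ag z)) := by
  have h1 : ∀ e : Fin D.nb, DifferentiableAt ℝ (HB (D.bx e).S (D3 b) (ww D e)) z := fun e =>
    (contDiff_HB (S_ne e) (D3_two h e) (fun j hj => per_ww hj (h.lo e j hj))
      fun j hj => contDiff_ww hj (h.lo e j hj)).differentiable (by norm_num) z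
  have h2 : HasFDerivAt (boxH D (D3 b))
      (∑ e, (cd D e * cc D e) • fderiv ℝ (HB (D.bx e).S (D3 b) (ww D e)) z) z := by
    unfold boxH
    exact HasFDerivAt.fun_sum fun e _ => (h1 e).hasFDerivAt.const_mul _
  rw [h2.fderiv, _root_.sum_apply]
  refine sum_congr rfl fun e _ => ?_
  rw [_root_.smul_apply, fderiv_HB_ang (S_ne e) (D3_two h e)
    (fun j hj => per_ww hj (h.lo e j hj)) fun j hj => contDiff_ww hj (h.lo e j hj), smul_eq_mul,
    Ht_rr]

/-! ### angular derivatives of the coefficients -/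

omit h in
theorem dC_own (M t : ℝ) (θ : Fin 4 → ℝ) (i k : Fin 4) : dC (Cf b D M (.inl i)) t θ k =
      if k = i then ((deriv (pp D i) (θ i) : ℝ) : ℂ) * (Complex.I * cis (pp D i (θ i))) else 0 := by
  unfold dC
  simp only [Cf]
  split_ifs with hk
  · subst hk
    simp only [Function.update_self]
    have h1 := (hasDerivAt_cis (pp D k (θ k))).scomp (θ k)
      ((contDiff_pp D k).differentiable (by norm_num) (θ k)).hasDerivAt
    rw [Complex.real_smul] at h1
    exact h1.deriv
  · simp only [Function.update_of_ne (Ne.symm hk)]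
    exact deriv_const _ _

omit h in
theorem dC_cpl (M t : ℝ) (θ : Fin 4 → ℝ) (k : Fin 2) (i : Fin 4) :
    dC (Cf b D M (.inr (.inl k))) t θ i =
      (M : ℂ) * (((vc b k i : ℝ) : ℂ) * (Complex.I * cis (lin b k θ))) := by
  unfold dC
  simp only [Cf]
  have h1 : HasDerivAt (fun x => lin b k (Function.update θ i x)) (vc b k i : ℝ) (θ i) := by
    have e1 : (fun x => lin b k (Function.update θ i x)) = fun x => (vc b k i : ℝ) * x +
        ∑ j ∈ Finset.univ.erase i, (vc b k j : ℝ) * θ j := by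
      funext x
      unfold lin
      rw [← Finset.add_sum_erase _ _ (Finset.mem_univ i), Function.update_self]
      congr 1
      exact sum_congr rfl fun j hj => by rw [Function.update_of_ne (Finset.ne_of_mem_erase hj)]
    rw [e1]
    simpa using ((hasDerivAt_id (θ i)).const_mul (vc b k i : ℝ)).add_const
      (∑ j ∈ Finset.univ.erase i, (vc b k j : ℝ) * θ j)
  have h2 : HasDerivAt cis (Complex.I * cis (lin b k θ))
      ((fun x => lin b k (Function.update θ i x)) (θ i)) := by
    simp only [Function.update_eq_self]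
    exact hasDerivAt_cis _
  have h3 := h2.scomp (θ i) h1
  rw [Complex.real_smul] at h3
  exact (h3.const_mul (M : ℂ)).deriv

theorem dC_box (M t : ℝ) (θ : Fin 4 → ℝ) (e : Fin D.nb) (i : Fin 4) :
    dC (Cf b D M (.inr (.inr e))) t θ i =
      -((t * (cc D e * dL (D.bx e).S (ww D e) i θ) : ℝ) : ℂ) := by
  unfold dC
  simp only [Cf]
  have h1 := hasDerivAt_prod_l (fun j hj => contDiff_ww hj (h.lo e j hj)) θ i
    (S := (D.bx e).S) (l := ww D e)
  have h2 : HasDerivAt (fun x => La D e (Function.update θ i x))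
      (dL (D.bx e).S (ww D e) i θ) (θ i) := by
    have h3 : HasDerivAt (fun s : ℝ => La D e (Function.update θ i (θ i + s)))
        (dL (D.bx e).S (ww D e) i θ) (θ i - θ i) := by
      rw [sub_self]; exact h1
    have h4 := h3.comp_sub_const (θ i) (θ i)
    refine h4.congr_of_eventuallyEq (Eventually.of_forall fun x => ?_)
    simp only [add_sub_cancel]
  exact ((h2.const_mul (cc D e)).const_mul t).ofReal_comp.neg.deriv

end smooth

/-! ### the system -/

/-- value of a mixed box (without windows) -/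
def mv (D : SD 4) (e : Fin D.nb) (x : (ℝ × (Fin 4 → ℝ)) × (Fin 4 → ℝ)) : ℝ :=
  (1 - x.1.1) * (cd D e * cc D e * Ht (D.bx e).S x.2) + x.1.1 * (cc D e * Gt (D.bx e).S x.2)

/-- Euler derivative of a mixed box (without windows) -/
def mn (D : SD 4) (e : Fin D.nb) (i : Fin 4) (x : (ℝ × (Fin 4 → ℝ)) × (Fin 4 → ℝ)) : ℝ :=
  (1 - x.1.1) * (cd D e * cc D e * Hn (D.bx e).S i x.2) + x.1.1 * (cc D e * Gn (D.bx e).S i x.2)

/-- the system -/
def sys (b : Bool) (D : SD 4) : Sys (Fin 4) (ℝ × (Fin 4 → ℝ)) where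
  e i y := cis (pp D i (y.2 i))
  ea y := cis (lin b 0 y.2)
  eb y := cis (lin b 1 y.2)
  va i _ := sh b false i
  vb i _ := sh b true i
  q i y := deriv (pp D i) (y.2 i)
  A i _ := (vc b 0 i : ℝ)
  B i _ := (vc b 1 i : ℝ)
  B0 x := ∑ e, mv D e x * La D e x.1.2
  N i x := ∑ e, mn D e i x * La D e x.1.2
  T i x := ∑ e, mv D e x * dL (D.bx e).S (ww D e) i x.1.2

section system

variable {b : Bool} {D : SD 4} (h : Hyp D)

theorem continuous_mv (e : Fin D.nb) : Continuous (mv D e) := by
  unfold mv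
  exact ((continuous_const.sub (continuous_fst.comp continuous_fst)).mul
    (continuous_const.mul ((continuous_Ht (S_ne e)).comp continuous_snd))).add
    ((continuous_fst.comp continuous_fst).mul
    (continuous_const.mul ((continuous_Gt (S_ne e)).comp continuous_snd)))

theorem continuous_mn (e : Fin D.nb) (i : Fin 4) : Continuous (mn D e i) := by
  unfold mn
  exact ((continuous_const.sub (continuous_fst.comp continuous_fst)).mul
    (continuous_const.mul ((continuous_Hn (S_ne e) i).comp continuous_snd))).add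
    ((continuous_fst.comp continuous_fst).mul
    (continuous_const.mul ((continuous_Gn (S_ne e) i).comp continuous_snd)))

theorem continuous_lin (k : Fin 2) : Continuous (lin b k) := by
  unfold lin
  exact continuous_finsetSum _ fun j _ => continuous_const.mul (continuous_apply j)

include h in
theorem continuous_La (e : Fin D.nb) : Continuous (La D e) := (contDiff_La h e).continuous

include h in
theorem continuous_dL (e : Fin D.nb) (i : Fin 4) : Continuous (dL (D.bx e).S (ww D e) i) := by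
  unfold dL
  split_ifs with hi
  · refine Continuous.mul ?_ ?_
    · refine continuous_finsetProd _ fun j hj => ?_
      have hj' := Finset.mem_of_mem_erase hj
      exact (contDiff_ww hj' (h.lo e j hj')).continuous.comp (continuous_apply j)
    · exact ((contDiff_ww hi (h.lo e i hi)).continuous_deriv (by norm_num)).comp
        (continuous_apply i)
  · exact continuous_const

include h in
theorem cont : (sys b D).Cont where
  e i := (contDiff_cis (n := 2)).continuous.comp ((contDiff_pp D i).continuous.comp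
    ((continuous_apply i).comp continuous_snd))
  ea := (contDiff_cis (n := 2)).continuous.comp ((continuous_lin 0).comp continuous_snd)
  eb := (contDiff_cis (n := 2)).continuous.comp ((continuous_lin 1).comp continuous_snd)
  va _ := continuous_const
  vb _ := continuous_const
  q i := ((contDiff_pp D i).continuous_deriv (by norm_num)).comp
    ((continuous_apply i).comp continuous_snd)
  A _ := continuous_const
  B _ := continuous_const
  B0 := by
    show Continuous fun x : (ℝ × (Fin 4 → ℝ)) × (Fin 4 → ℝ) => ∑ e, mv D e x * La D e x.1.2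
    exact continuous_finsetSum _ fun e _ => (continuous_mv e).mul
      ((continuous_La h e).comp (continuous_snd.comp continuous_fst))
  N i := by
    show Continuous fun x : (ℝ × (Fin 4 → ℝ)) × (Fin 4 → ℝ) => ∑ e, mn D e i x * La D e x.1.2
    exact continuous_finsetSum _ fun e _ => (continuous_mn e i).mul
      ((continuous_La h e).comp (continuous_snd.comp continuous_fst))
  T i := by
    show Continuous fun x : (ℝ × (Fin 4 → ℝ)) × (Fin 4 → ℝ) =>
      ∑ e, mv D e x * dL (D.bx e).S (ww D e) i x.1.2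
    exact continuous_finsetSum _ fun e _ => (continuous_mv e).mul
      ((continuous_dL h e i).comp (continuous_snd.comp continuous_fst))

theorem mv_smul (e : Fin D.nb) (y : ℝ × (Fin 4 → ℝ)) (r : Fin 4 → ℝ) {c : ℝ} (hc : 0 < c) :
    mv D e (y, c • r) = c * mv D e (y, r) := by
  simp only [mv]
  rw [Ht_smul hc, Gt_smul (S_ne e) hc]
  ring

theorem mn_smul (e : Fin D.nb) (i : Fin 4) (y : ℝ × (Fin 4 → ℝ)) (r : Fin 4 → ℝ) {c : ℝ}
    (hc : 0 < c) : mn D e i (y, c • r) = c * mn D e i (y, r) := by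
  simp only [mn]
  rw [Hn_smul hc, Gn_smul (S_ne e) hc]
  ring

theorem hom : (sys b D).Hom where
  B0 y r c hc := by
    simp only [sys, mv_smul _ _ _ hc]
    rw [Finset.mul_sum]
    exact Finset.sum_congr rfl fun e _ => by ring
  N i y r c hc := by
    simp only [sys, mn_smul _ _ _ _ hc]
    rw [Finset.mul_sum]
    exact Finset.sum_congr rfl fun e _ => by ring
  T i y r c hc := by
    simp only [sys, mv_smul _ _ _ hc]
    rw [Finset.mul_sum]
    exact Finset.sum_congr rfl fun e _ => by ring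

theorem mv_nonneg (e : Fin D.nb) {t : ℝ} (ht : t ∈ Icc (0 : ℝ) 1) (θ r : Fin 4 → ℝ) :
    0 ≤ mv D e ((t, θ), r) := by
  simp only [mv]
  have h1 : 0 ≤ 1 - t := by linarith [ht.2]
  have h2 := (cd_pos e).le
  have h3 := (cc_pos e).le
  exact add_nonneg (mul_nonneg h1 (mul_nonneg (mul_nonneg h2 h3) Ht_nonneg))
    (mul_nonneg ht.1 (mul_nonneg h3 Gt_nonneg))

theorem mn_nonneg (e : Fin D.nb) (i : Fin 4) {t : ℝ} (ht : t ∈ Icc (0 : ℝ) 1)
    (θ r : Fin 4 → ℝ) : 0 ≤ mn D e i ((t, θ), r) := by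
  simp only [mn]
  have h1 : 0 ≤ 1 - t := by linarith [ht.2]
  have h2 := (cd_pos e).le
  have h3 := (cc_pos e).le
  exact add_nonneg (mul_nonneg h1 (mul_nonneg (mul_nonneg h2 h3) (Hn_nonneg _)))
    (mul_nonneg ht.1 (mul_nonneg h3 (Gn_nonneg _)))

theorem mn_zero {e : Fin D.nb} {j : Fin 4} (hj : j ∈ (D.bx e).S) (i : Fin 4)
    (y : ℝ × (Fin 4 → ℝ)) {r : Fin 4 → ℝ} (hr : r j = 0) : mn D e i (y, r) = 0 := by
  simp only [mn]
  rw [Hn_zero hj hr, Gn_zero hj hr]
  ring

theorem mn_zero' {e : Fin D.nb} {i : Fin 4} (hi : i ∉ (D.bx e).S) (x) : mn D e i x = 0 := by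
  simp only [mn, Hn, Gn, if_neg hi]
  ring

theorem mv_zero {e : Fin D.nb} {j : Fin 4} (hj : j ∈ (D.bx e).S)
    (y : ℝ × (Fin 4 → ℝ)) {r : Fin 4 → ℝ} (hr : r j = 0) : mv D e (y, r) = 0 := by
  simp only [mv]
  rw [Ht_zero hj hr, Gt_zero hj hr]
  ring

theorem sum_mn (e : Fin D.nb) (x) : ∑ i, mn D e i x = mv D e x := by
  simp only [mn, mv]
  rw [Finset.sum_add_distrib, ← Finset.mul_sum, ← Finset.mul_sum, ← Finset.mul_sum,
    ← Finset.mul_sum, sum_Hn (S_ne e), sum_Gn (S_ne e)]

include h in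
theorem La_nonneg (e : Fin D.nb) (θ : Fin 4 → ℝ) : 0 ≤ La D e θ :=
  Finset.prod_nonneg fun j hj => ww_nonneg hj (h.lo e j hj) _

theorem N_zero (y : ℝ × (Fin 4 → ℝ)) (r : Fin 4 → ℝ) (i : Fin 4) (hr : r i = 0) :
    (sys b D).N i (y, r) = 0 := by
  show ∑ e, mn D e i (y, r) * La D e y.2 = 0
  refine Finset.sum_eq_zero fun e _ => ?_
  by_cases hi : i ∈ (D.bx e).S
  · rw [mn_zero hi i y hr, zero_mul]
  · rw [mn_zero' hi, zero_mul]

theorem T_zero (y : ℝ × (Fin 4 → ℝ)) (r : Fin 4 → ℝ) (i : Fin 4) (hr : r i = 0) :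
    (sys b D).T i (y, r) = 0 := by
  show ∑ e, mv D e (y, r) * dL (D.bx e).S (ww D e) i y.2 = 0
  refine Finset.sum_eq_zero fun e _ => ?_
  by_cases hi : i ∈ (D.bx e).S
  · rw [mv_zero hi y hr, zero_mul]
  · rw [dL, if_neg hi, mul_zero]

/-! ### own terms minus mixed boxes -/

include h in
theorem kill (e : Fin D.nb) {t : ℝ} (ht : t ∈ Icc (0 : ℝ) 1) (θ : Fin 4 → ℝ) {r : Fin 4 → ℝ}
    (hr : ∀ j ∈ (D.bx e).S, 0 < r j) :
    ∃ j ∈ (D.bx e).S, r j < mn D e j ((t, θ), r) := by
  obtain ⟨j, hj, hmin⟩ := Finset.exists_min_image (D.bx e).S r (S_ne e)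
  refine ⟨j, hj, ?_⟩
  have a : ∀ i ∈ (D.bx e).S, |r i| = r i := fun i hi => abs_of_pos (hr i hi)
  have h1 := Hn_min (S_ne e) (fun i hi => by rw [a i hi]; exact hr i hi) hj
    fun i hi => by rw [a i hi, a j hj]; exact hmin i hi
  have h2 := Gn_min (S_ne e) (r := r) hj fun i hi => by rw [a i hi, a j hj]; exact hmin i hi
  rw [a j hj] at h1 h2
  have h3 : ((D.bx e).S.card : ℝ) = cd D e := rfl
  rw [h3] at h1 h2
  have hn := Hn_nonneg (S := (D.bx e).S) (r := r) j
  have gn := Gn_nonneg (S := (D.bx e).S) (r := r) j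
  have c0 := cd_pos e
  have c1 := cc_gt h e
  have hrj := hr j hj
  simp only [mn]
  set H := Hn (D.bx e).S j r
  set G := Gn (D.bx e).S j r
  set k := cd D e
  set c := cc D e
  -- `k H k ≥ r`, `k G ≥ r`
  have e1 : c * r j ≤ k * (k * c * H) := by nlinarith
  have e2 : c * r j ≤ k * (c * G) := by nlinarith
  have e3 : c * r j ≤ k * ((1 - t) * (k * c * H) + t * (c * G)) := by
    have t0 : 0 ≤ 1 - t := by linarith [ht.2]
    have m1 := mul_le_mul_of_nonneg_left e1 t0
    have m2 := mul_le_mul_of_nonneg_left e2 ht.1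
    linarith
  have e4 : k * r j < c * r j := mul_lt_mul_of_pos_right c1 hrj
  exact lt_of_mul_lt_mul_left (lt_of_lt_of_le e4 e3) c0.le

include h in
/-- **own terms minus mixed boxes have no bad points** -/
theorem own_reg {t : ℝ} (ht : t ∈ Icc (0 : ℝ) 1) (θ r : Fin 4 → ℝ) (hr : ∀ i, 0 ≤ r i)
    (hr0 : r ≠ 0) {ζ : ℂ} (hζ : ‖ζ‖ = 1) : ¬ ((sys b D).pt (t, θ) r 0 0).Bad ζ := by
  intro hb
  refine OwnBox_896.own_boxes (V := Fin D.nb) (S := fun g => (D.bx g).S)
    (Nb := fun g i => mn D g i ((t, θ), r) * La D g θ) (r := r)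
    (e := fun i => cis (pp D i (θ i))) (q := fun i => deriv (pp D i) (θ i))
    (T := fun i => ∑ e, mv D e ((t, θ), r) * dL (D.bx e).S (ww D e) i θ)
    (B0 := ∑ e, mv D e ((t, θ), r) * La D e θ) (ζ := ζ)
    hr (fun i _ => norm_cis _) hr0 hζ (fun g i => ?_) ?_ (fun g i hi j hj => ?_)
    (fun g hg he hex => ?_) (fun i hi hre => ?_) ?_ (fun i => ?_) fun i => ?_
  · exact mul_nonneg (mn_nonneg g i ht θ r) (La_nonneg h g θ)
  · refine Finset.sum_congr rfl fun g _ => ?_
    rw [← Finset.sum_mul, sum_mn]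
  · refine lt_of_le_of_ne (hr j) fun h0 => ?_
    have hi' : 0 < mn D g i ((t, θ), r) * La D g θ := hi
    rw [mn_zero hj i _ h0.symm, zero_mul] at hi'
    exact lt_irrefl _ hi'
  · have hw : ∀ j ∈ (D.bx g).S, ww D g j (θ j) = 1 := by
      intro j hj
      rcases win01 hj (h.lo g j hj) (he j hj) with h1 | h1
      · exfalso
        obtain ⟨i, hi⟩ := hex
        have hi' : 0 < mn D g i ((t, θ), r) * La D g θ := hi
        have : La D g θ = 0 := Finset.prod_eq_zero hj h1
        rw [this, mul_zero] at hi'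
        exact lt_irrefl _ hi'
      · exact h1
    have hL : La D g θ = 1 := Finset.prod_eq_one hw
    obtain ⟨j, hj, h2⟩ := kill h g ht θ hg
    refine ⟨j, hj, ?_⟩
    show r j < mn D g j ((t, θ), r) * La D g θ
    rw [hL, mul_one]
    exact h2
  · have hq : deriv (pp D i) (θ i) ≠ 0 := by
      intro h0
      have h1 : 0 ≤ (cis (pp D i (θ i))).re := hre
      rw [cis_pp_flat D i h0] at h1
      norm_num at h1
    refine ⟨hq, Finset.sum_eq_zero fun e _ => ?_⟩
    unfold dL
    split_ifs with hi'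
    · rw [win_const hi' (h.lo e i hi') hq, mul_zero, mul_zero]
    · rw [mul_zero]
  · have h1 := hb.zero
    simp only [Sys.pt, sys, Complex.ofReal_zero, zero_mul, add_zero] at h1
    exact sub_eq_zero.1 h1
  · have h1 := hb.rad i
    simp only [Sys.pt, sys, zero_mul, mul_zero, add_zero] at h1
    exact h1
  · have h1 := hb.ang i
    simp only [Sys.pt, sys, zero_mul, mul_zero, add_zero] at h1
    exact h1

/-! ### from the conormal of the derivative to a bad point -/

theorem mag_own (z : E4) (i : Fin 4) : mag (EE b D (.inl i)) z = rr (D3 b) z i :=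
  PolCpt_943.mag_single i (D3 b i) z

theorem mag_share {be : Fin 4 → ℝ} {E : Fin 4 → ℝ} (hE : ∀ j, E j = be j * D3 b j) (z : E4) :
    mag E z = ∏ j, |rr (D3 b) z j| ^ be j := by
  rw [mag]
  refine Finset.prod_congr rfl fun j _ => ?_
  rw [abs_rr, rr, hE, mul_comm, Real.rpow_mul (norm_nonneg _)]

theorem mag_c0 (z : E4) : mag (EE b D (.inr (.inl 0))) z =
    ∏ j, |rr (D3 b) z j| ^ sh b false j := mag_share (vc_sh0 b) z

theorem mag_c1 (z : E4) : mag (EE b D (.inr (.inl 1))) z =
    ∏ j, |rr (D3 b) z j| ^ sh b true j := mag_share (vc_sh1 b) z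

theorem re_term (ζ : ℂ) (a m : ℝ) (c : ℂ) :
    (conj ζ * ((a : ℂ) * ((m : ℂ) * c))).re = a * (m * (conj ζ * c).re) := by
  have : conj ζ * ((a : ℂ) * ((m : ℂ) * c)) = ((a * m : ℝ) : ℂ) * (conj ζ * c) := by
    push_cast; ring
  rw [this, Complex.re_ofReal_mul, mul_assoc]

theorem re_term' (ζ : ℂ) (m : ℝ) (c : ℂ) :
    (conj ζ * ((m : ℂ) * c)).re = m * (conj ζ * c).re := by
  have : conj ζ * ((m : ℂ) * c) = ((m : ℝ) : ℂ) * (conj ζ * c) := by ring
  rw [this, Complex.re_ofReal_mul]

theorem re_ofReal (ζ : ℂ) (x : ℝ) : (conj ζ * (x : ℂ)).re = x * ζ.re := by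
  rw [mul_comm, Complex.re_ofReal_mul, Complex.conj_re]

include h in
theorem bridge (M : ℝ) {t : ℝ} {z : E4} (h0 : Fn b D M (t, z) = 0) {ζ : ℂ}
    (hc : ∀ y : E4, (conj ζ * fderiv ℝ (Fn b D M) (t, z) (0, y)).re = 0) :
    ((sys b D).pt (t, ag z) (rr (D3 b) z) (M * ∏ j, |rr (D3 b) z j| ^ sh b false j)
      (M * ∏ j, |rr (D3 b) z j| ^ sh b true j)).Bad ζ := by
  refine ⟨?_, fun i => ?_, fun i => ?_⟩
  · -- the value
    unfold Fn PF at h0
    simp only [PM, Fintype.sum_sum_type, Fin.sum_univ_two, mag_own, mag_c0, mag_c1, mag_box, Cf,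
      boxH, HB] at h0
    simp only [Sys.pt, sys, mv]
    rw [← h0]
    have e1 : ∀ e : Fin D.nb, Hm (D.bx e).S (rr (D3 b) z) * ∏ j ∈ (D.bx e).S,
        ww D e j (z j).arg = Ht (D.bx e).S (rr (D3 b) z) * La D e (ag z) := fun e => by
      rw [Ht_rr]; rfl
    simp only [e1]
    have e2 : (((1 - t) * ∑ e, cd D e * cc D e * (Ht (D.bx e).S (rr (D3 b) z) *
        La D e (ag z)) : ℝ) : ℂ) - ∑ e : Fin D.nb, ((Gt (D.bx e).S (rr (D3 b) z) : ℝ) : ℂ) *
          (-((t * (cc D e * La D e (ag z)) : ℝ) : ℂ)) =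
        ((∑ e, ((1 - t) * (cd D e * cc D e * Ht (D.bx e).S (rr (D3 b) z)) +
          t * (cc D e * Gt (D.bx e).S (rr (D3 b) z))) * La D e (ag z) : ℝ) : ℂ) := by
      rw [Finset.mul_sum]
      push_cast
      rw [← Finset.sum_sub_distrib]
      refine Finset.sum_congr rfl fun e _ => ?_
      ring
    rw [← e2]
    push_cast
    ring
  · -- radial
    have h1 := hc (Pi.single i (z i))
    rw [fderiv_Fn h, fderiv_radial isOpen_univ (coef h M) (mem_univ t), fderiv_boxH_rad h, mul_sub,
      Complex.sub_re, re_ofReal, Finset.mul_sum, Complex.re_sum] at h1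
    simp only [PM, re_term, Fintype.sum_sum_type, Fin.sum_univ_two, mag_own, mag_c0, mag_c1,
      mag_box, Cf] at h1
    simp only [EE] at h1
    rw [re_term', re_term'] at h1
    have e1 : ∑ x, (Pi.single x (D3 b x) : Fin 4 → ℝ) i * (rr (D3 b) z x *
        (conj ζ * cis (pp D x (ag z x))).re) =
        D3 b i * (rr (D3 b) z i * rp ζ (cis (pp D i (ag z i)))) := by
      rw [Finset.sum_eq_single i]
      · rw [Pi.single_eq_same]; rfl
      · intro x _ hx
        rw [Pi.single_eq_of_ne (Ne.symm hx), zero_mul]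
      · intro hi; exact absurd (Finset.mem_univ i) hi
    have e2 : ∑ e : Fin D.nb, (if i ∈ (D.bx e).S then D3 b i / cd D e else 0) *
        (Gt (D.bx e).S (rr (D3 b) z) *
          (conj ζ * (-((t * (cc D e * La D e (ag z)) : ℝ) : ℂ))).re) -
        (1 - t) * (∑ e, cd D e * cc D e * (D3 b i * Hn (D.bx e).S i (rr (D3 b) z) *
          La D e (ag z))) * ζ.re =
        -(D3 b i * ((∑ e, ((1 - t) * (cd D e * cc D e * Hn (D.bx e).S i (rr (D3 b) z)) +
          t * (cc D e * Gn (D.bx e).S i (rr (D3 b) z))) * La D e (ag z)) * ζ.re)) := by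
      rw [Finset.mul_sum, Finset.sum_mul, Finset.sum_mul, Finset.mul_sum,
        ← Finset.sum_sub_distrib, ← Finset.sum_neg_distrib]
      refine Finset.sum_congr rfl fun e _ => ?_
      rw [re_neg]
      have e3 : (if i ∈ (D.bx e).S then D3 b i / cd D e else 0) * Gt (D.bx e).S (rr (D3 b) z) =
          D3 b i * Gn (D.bx e).S i (rr (D3 b) z) := by
        unfold Gn
        split_ifs
        · unfold cd; ring
        · ring
      linear_combination (-(t * (cc D e * La D e (ag z)) * ζ.re)) * e3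
    simp only [Sys.pt, sys, mn]
    have hD := (D3_pos b i).ne'
    refine mul_left_cancel₀ hD ?_
    have v0 := vc_sh0 b i
    have v1 := vc_sh1 b i
    rw [e1, v0, v1] at h1
    have r0 : (conj ζ * cis (lin b 0 (ag z))).re = rp ζ (cis (lin b 0 (ag z))) := rfl
    have r1 : (conj ζ * cis (lin b 1 (ag z))).re = rp ζ (cis (lin b 1 (ag z))) := rfl
    rw [r0, r1] at h1
    linear_combination h1 - e2
  · -- angular
    have h1 := hc (Pi.single i (Complex.I * z i))
    rw [fderiv_Fn h, fderiv_angular isOpen_univ (coef h M) (mem_univ t), fderiv_boxH_ang h,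
      mul_sub, Complex.sub_re, re_ofReal, Finset.mul_sum, Complex.re_sum] at h1
    simp only [re_term', Fintype.sum_sum_type, Fin.sum_univ_two, mag_own, mag_c0, mag_c1,
      mag_box, dC_own, dC_cpl, dC_box h] at h1
    have e1 : ∑ x, rr (D3 b) z x * (conj ζ * (if i = x then
        ((deriv (pp D x) (ag z x) : ℝ) : ℂ) * (Complex.I * cis (pp D x (ag z x))) else 0)).re =
        -(deriv (pp D i) (ag z i) * (rr (D3 b) z i * ip ζ (cis (pp D i (ag z i))))) := by
      rw [Finset.sum_eq_single i]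
      · rw [if_pos rfl, re_I]; ring
      · intro x _ hx
        rw [if_neg (Ne.symm hx), mul_zero, Complex.zero_re, mul_zero]
      · intro hi; exact absurd (Finset.mem_univ i) hi
    rw [e1] at h1
    have e2 : ∑ e : Fin D.nb, Gt (D.bx e).S (rr (D3 b) z) *
        (conj ζ * (-((t * (cc D e * dL (D.bx e).S (ww D e) i (ag z)) : ℝ) : ℂ))).re -
        (1 - t) * (∑ e, cd D e * cc D e * (Ht (D.bx e).S (rr (D3 b) z) *
          dL (D.bx e).S (ww D e) i (ag z))) * ζ.re =
        -((∑ e, ((1 - t) * (cd D e * cc D e * Ht (D.bx e).S (rr (D3 b) z)) +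
          t * (cc D e * Gt (D.bx e).S (rr (D3 b) z))) *
            dL (D.bx e).S (ww D e) i (ag z)) * ζ.re) := by
      rw [Finset.mul_sum, Finset.sum_mul, Finset.sum_mul,
        ← Finset.sum_sub_distrib, ← Finset.sum_neg_distrib]
      refine Finset.sum_congr rfl fun e _ => ?_
      rw [re_neg]
      ring
    have e3 : ∀ w : ℂ, (conj ζ * (Complex.I * w)).re = -ip ζ w := fun w => by
      have := re_I ζ w 1
      rwa [Complex.ofReal_one, one_mul, one_mul] at this
    rw [e3, e3] at h1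
    simp only [Sys.pt, sys, mv]
    linear_combination -h1 + e2

/-! ### the arrow -/

include h in
theorem B0_nonneg {y : ℝ × (Fin 4 → ℝ)} (hy : y.1 ∈ Icc (0 : ℝ) 1) (r : Fin 4 → ℝ) :
    0 ≤ (sys b D).B0 (y, r) := by
  show 0 ≤ ∑ e, mv D e (y, r) * La D e y.2
  exact Finset.sum_nonneg fun e _ => mul_nonneg (mv_nonneg e hy y.2 r) (La_nonneg h e _)

include h in
/-- **arrow C3b, literal form**: harmonic boxes → product boxes. -/
theorem boxP' : BoxP b D := by
  have hK : IsCompact (Icc (0 : ℝ) 1 ×ˢ (Set.pi univ fun _ : Fin 4 => Icc (-Real.pi) Real.pi)) :=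
    isCompact_Icc.prod (isCompact_univ_pi fun _ => isCompact_Icc)
  obtain ⟨κ, hκ, H⟩ := Start_862.start b (sys b D) (cont h) hom hK (StLit_143.sh_al b)
    (StLit_143.sh_al b) (η := 1 / 2) (by norm_num) (fun y _ => norm_cis _) (fun y _ => norm_cis _)
    (fun y hy r _ => B0_nonneg h hy.1 r)
    (fun y _ r i hr => N_zero y r i hr) (fun y _ r i hr => T_zero y r i hr)
    (fun y _ => StLit_143.nonDeg_sh b) (fun y _ => Or.inl (nonDeg_vc b))
    (fun y hy r hr hr0 ζ hζ => own_reg h hy.1 y.2 r hr hr0 hζ)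
  refine ⟨2 / κ, fun M hM => ?_⟩
  have hM0 : 0 < M := lt_of_lt_of_le (by positivity) hM
  have hMκ : M⁻¹ < κ := by
    rw [inv_lt_comm₀ hM0 hκ]
    have : κ⁻¹ < 2 / κ := by
      rw [inv_eq_one_div]
      exact div_lt_div_of_pos_right (by norm_num) hκ
    exact this.trans_le hM
  have hF : (fun q : ℝ × E4 => Fs b D Gs (fun _ => 0) (fun _ _ => M) (fun _ _ => M) (0, q.2) +
      (((1 - q.1) * (HubDefs_284.boxP D (D3 b) q.2 - boxH D (D3 b) q.2) : ℝ) : ℂ)) = Fn b D M :=
    funext fun q => Fn_eq b D M q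
  rw [hF]
  refine ⟨⟨univ, isOpen_univ, subset_univ _, (contDiff_Fn h M).mono
    fun _ _ => ⟨mem_univ _, mem_univ _⟩⟩, fun t _ => ⟨fun i => (D3 b i)⁻¹,
    fun i => inv_pos.2 (D3_pos b i), fun s x => Fn_wh M t s x⟩, fun t ht z hz h0 c => ?_⟩
  by_contra hne
  push Not at hne
  let L : E4 →ₗ[ℝ] ℂ := ((fderiv ℝ (Fn b D M) (t, z)).comp
    (ContinuousLinearMap.inr ℝ ℝ E4)).toLinearMap
  have hL : ∀ y, L y = fderiv ℝ (Fn b D M) (t, z) (0, y) := fun y => rfl
  obtain ⟨ζ, hζ, h1⟩ := exists_conormal L fun hall => by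
    obtain ⟨y, hy⟩ := hall c
    exact hne y hy
  have hbad := bridge h M h0 (ζ := ζ) fun y => by rw [← hL]; exact h1 y
  have hr := rr_nonneg (D3 b) z
  have hpa : 0 ≤ ∏ j, |rr (D3 b) z j| ^ sh b false j :=
    Finset.prod_nonneg fun _ _ => Real.rpow_nonneg (abs_nonneg _) _
  have hpb : 0 ≤ ∏ j, |rr (D3 b) z j| ^ sh b true j :=
    Finset.prod_nonneg fun _ _ => Real.rpow_nonneg (abs_nonneg _) _
  refine H M⁻¹ (inv_pos.2 hM0).le hMκ (t, ag z) ⟨ht, fun i _ => ?_⟩ (rr (D3 b) z) _ _ ζ
    ⟨hr, mul_nonneg hM0.le hpa, mul_nonneg hM0.le hpb, ?_⟩ hζ ?_ hbad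
  · exact ⟨(Complex.neg_pi_lt_arg _).le, Complex.arg_le_pi _⟩
  · obtain ⟨i, hi⟩ : ∃ i, z i ≠ 0 := by
      by_contra h'
      push Not at h'
      exact hz (funext h')
    have h2 : 0 < rr (D3 b) z i := rr_pos hi
    have h3 : rr (D3 b) z i ≤ ∑ j, rr (D3 b) z j :=
      Finset.single_le_sum (fun j _ => hr j) (Finset.mem_univ i)
    have h4 := mul_nonneg hM0.le hpa
    have h5 := mul_nonneg hM0.le hpb
    linarith
  · rw [StLit_143.prod_a hr, StLit_143.prod_b hr]
    exact Start_862.mem_Rel_pure b (t, ag z) hM0 (hr 0)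

end system

/-- **arrow C3b** for `f` (`b = true`, `D = DfL`) and `g` (`b = false`, `D = DgL`). -/
theorem boxP (b : Bool) (D : SD 4)
    (hlo : ∀ e, ∀ j ∈ (D.bx e).S, (D.bx e).lo j ≤ (D.bx e).hi j)
    (hcd : ∀ e, (D.bx e).S.card ≤ 3) : BoxP b D := boxP' ⟨hlo, hcd⟩

/-- the end function of the path is the start of `StartP`. -/
theorem box_zeq {b : Bool} {D : SD 4} {M : ℝ}
    (hp : HPath0 fun q : ℝ × E4 => Fs b D Gs (fun _ => 0) (fun _ _ => M) (fun _ _ => M) (0, q.2) +
      (((1 - q.1) * (HubDefs_284.boxP D (D3 b) q.2 - boxH D (D3 b) q.2) : ℝ) : ℂ)) :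
    ZEq (F2 b D M) fun z => Fs b D Gs (fun _ => 0) (fun _ _ => M) (fun _ _ => M) (0, z) := by
  have h1 := hp.link
  have e0 : (fun x : E4 => Fs b D Gs (fun _ => 0) (fun _ _ => M) (fun _ _ => M) (0, x) +
      (((1 - 0) * (HubDefs_284.boxP D (D3 b) x - boxH D (D3 b) x) : ℝ) : ℂ)) = F2 b D M := by
    funext x
    rw [sub_zero, one_mul]
    rfl
  have e1 : (fun x : E4 => Fs b D Gs (fun _ => 0) (fun _ _ => M) (fun _ _ => M) (0, x) +
      (((1 - 1) * (HubDefs_284.boxP D (D3 b) x - boxH D (D3 b) x) : ℝ) : ℂ)) =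
      fun x => Fs b D Gs (fun _ => 0) (fun _ _ => M) (fun _ _ => M) (0, x) := by
    funext x
    rw [sub_self, zero_mul, Complex.ofReal_zero, add_zero]
  have h2 : ZEq (fun x : E4 => Fs b D Gs (fun _ => 0) (fun _ _ => M) (fun _ _ => M) (0, x) +
      (((1 - 0) * (HubDefs_284.boxP D (D3 b) x - boxH D (D3 b) x) : ℝ) : ℂ))
    (fun x : E4 => Fs b D Gs (fun _ => 0) (fun _ _ => M) (fun _ _ => M) (0, x) +
      (((1 - 1) * (HubDefs_284.boxP D (D3 b) x - boxH D (D3 b) x) : ℝ) : ℂ)) := h1
  rw [e0, e1] at h2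
  exact h2

end Crest.Agent.R267.HarmProd_896
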