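import Crest.Agent.R267.EndDef_864
import Crest.Agent.R267.IsotB_92

/-!
# Homogeneous graph systems: vectors, signs, segments (row 267, T3-end)

Used by `HasMat_652`.
-/

set_option autoImplicit false

namespace Crest.Agent.R267.HasMatA_652

open Set Metric
open scoped RealInnerProductSpace
open Crest.Agent.R267.GS_808 Crest.Agent.R267.EndDef_864 Crest.Agent.R267.IsotB_92

/-! ### vectors -/

section vec

variable {n : ℕ}

lemma add_ap (v w : W n) (j : Fin (n + 3)) : (v + w) j = v j + w j := rfl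
lemma sub_ap (v w : W n) (j : Fin (n + 3)) : (v - w) j = v j - w j := rfl
lemma smul_ap (c : ℝ) (v : W n) (j : Fin (n + 3)) : (c • v) j = c * v j := rfl
lemma neg_ap (v : W n) (j : Fin (n + 3)) : (-v) j = -v j := rfl
lemma zero_ap (j : Fin (n + 3)) : (0 : W n) j = 0 := rfl

lemma vec_add (f g : Fin (n + 3) → ℝ) : vec (fun j => f j + g j) = vec f + vec g := rfl
lemma vec_sub (f g : Fin (n + 3) → ℝ) : vec (fun j => f j - g j) = vec f - vec g := rfl
lemma vec_smul (c : ℝ) (f : Fin (n + 3) → ℝ) : vec (fun j => c * f j) = c • vec f := rfl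

lemma proj_add (a v w : W n) : proj a (v + w) = proj a v + proj a w := by
  simp only [proj, inner_add_right, add_div, add_smul]
  abel

lemma proj_sub (a v w : W n) : proj a (v - w) = proj a v - proj a w := by
  simp only [proj, inner_sub_right, sub_div, sub_smul]
  abel

lemma proj_smul (a v : W n) (c : ℝ) : proj a (c • v) = c • proj a v := by
  simp only [proj, inner_smul_right, smul_sub, smul_smul, mul_div_assoc]

lemma inner_proj {a : W n} (ha : a ≠ 0) (v : W n) : ⟪a, proj a v⟫ = 0 := by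
  have h : ‖a‖ ^ 2 ≠ 0 := by
    have := norm_pos_iff.2 ha
    positivity
  rw [proj, inner_sub_right, inner_smul_right, real_inner_self_eq_norm_sq, div_mul_cancel₀ _ h,
    sub_self]

lemma norm_proj_le (a v : W n) : ‖proj a v‖ ≤ ‖v‖ := by
  by_cases ha : a = 0
  · simp [proj, ha]
  have h := norm_pos_iff.2 ha
  have h1 : ‖proj a v‖ ^ 2 = ‖v‖ ^ 2 - ⟪a, v⟫ ^ 2 / ‖a‖ ^ 2 := by
    rw [← real_inner_self_eq_norm_sq, ← real_inner_self_eq_norm_sq v]
    simp only [proj, inner_sub_left, inner_sub_right, inner_smul_left, inner_smul_right,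
      real_inner_self_eq_norm_sq, real_inner_comm a v]
    have h2 : ‖a‖ ≠ 0 := h.ne'
    simp only [conj_trivial]
    field_simp
    ring
  have h3 : 0 ≤ ⟪a, v⟫ ^ 2 / ‖a‖ ^ 2 := by positivity
  exact abs_le_of_sq_le_sq' (by linarith) (norm_nonneg v) |>.2

lemma abs_ap_le (v : W n) (j : Fin (n + 3)) : |v j| ≤ ‖v‖ := by
  have h : v j ^ 2 ≤ ‖v‖ ^ 2 := by
    rw [norm_sq_def]
    exact Finset.single_le_sum (f := fun j => v j ^ 2) (fun i _ => sq_nonneg _) (Finset.mem_univ j)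
  exact abs_le_of_sq_le_sq h (norm_nonneg v)

/-- the model vector. -/
noncomputable def gv (s a : W n) (c : ℝ) (Δ w : Fin (n + 3) → ℝ) : W n :=
  vec (fun j => max (s j) 0 * Δ j) + c • proj a (vec w)

lemma gv_ap (s a : W n) (c : ℝ) (Δ w : Fin (n + 3) → ℝ) (p : Fin (n + 3)) :
    gv s a c Δ w p = max (s p) 0 * Δ p + c * (w p - ⟪a, vec w⟫ / ‖a‖ ^ 2 * a p) := rfl

lemma gv_seg (s a : W n) (c : ℝ) (Δ w Δ' w' : Fin (n + 3) → ℝ) (t : ℝ) :
    (1 - t) • gv s a c Δ w + t • gv s a c Δ' w' =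
      gv s a c (fun j => (1 - t) * Δ j + t * Δ' j) (fun j => (1 - t) * w j + t * w' j) := by
  have h : vec (n := n) (fun j => (1 - t) * w j + t * w' j) = (1 - t) • vec w + t • vec w' := rfl
  rw [gv, gv, gv, h, proj_add, proj_smul, proj_smul]
  ext p
  simp only [add_ap, smul_ap, vec_apply]
  ring

lemma inner_gv {s a : W n} (ha : a ≠ 0) (c : ℝ) (Δ w : Fin (n + 3) → ℝ) :
    ⟪a, gv s a c Δ w⟫ = ∑ j, a j * (max (s j) 0 * Δ j) := by
  rw [gv, inner_add_right, inner_smul_right, inner_proj ha, mul_zero, add_zero, inner_def]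
  rfl

/-- sign conditions for a conormal `a` at `s` without negative rays. -/
lemma gv_ne_A {s a : W n} {c : ℝ} {Δ w : Fin (n + 3) → ℝ} (ha : a ≠ 0)
    (hp : ∀ j, 0 < a j → 0 < s j) (hn : ∀ j, a j < 0 → s j ≤ 0) (hc : 0 ≤ c)
    (hc0 : c = 0 → ∀ j, 0 < s j) (hΔ : ∀ j, 0 ≤ Δ j) (hw : ∀ j, 0 < w j) (hi : ∃ i, 0 < Δ i)
    (hout : ∃ j, 0 ≤ a j) : gv s a c Δ w ≠ 0 := by
  intro h
  obtain ⟨i, hi⟩ := hi
  have hc' : ∀ p, max (s p) 0 * Δ p + c * (w p - ⟪a, vec w⟫ / ‖a‖ ^ 2 * a p) = 0 := fun p => by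
    rw [← gv_ap, h, zero_ap]
  set μ := ⟪a, vec w⟫ / ‖a‖ ^ 2 with hμ
  have hsum : ∑ j, a j * (max (s j) 0 * Δ j) = 0 := by
    rw [← inner_gv ha, h, inner_zero_right]
  rcases hc.eq_or_lt with hc1 | hc1
  · have h1 := hc0 hc1.symm i
    have h2 := hc' i
    rw [← hc1, zero_mul, add_zero, max_eq_left h1.le] at h2
    exact absurd h2 (mul_pos h1 hi).ne'
  have hmx : ∀ p, 0 ≤ max (s p) 0 * Δ p := fun p => mul_nonneg (le_max_right _ _) (hΔ p)
  have h0 : ∀ p, a p ≠ 0 := fun p hp0 => by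
    have h1 := hc' p
    rw [hp0, mul_zero, sub_zero] at h1
    have := mul_pos hc1 (hw p)
    linarith [hmx p]
  have hneg : ∀ p, a p < 0 → μ < 0 := fun p hap => by
    have h1 := hc' p
    rw [max_eq_right (hn p hap), zero_mul, zero_add, mul_eq_zero] at h1
    have h2 := h1.resolve_left hc1.ne'
    have h3 := hw p
    by_contra h4
    have := mul_nonpos_of_nonneg_of_nonpos (not_lt.1 h4) hap.le
    linarith
  have hpos : ∀ p, 0 < a p → 0 < μ := fun p hap => by
    have h1 := hc' p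
    by_contra h4
    have h5 := mul_nonpos_of_nonpos_of_nonneg (not_lt.1 h4) hap.le
    have h6 : 0 < c * (w p - μ * a p) := mul_pos hc1 (by linarith [hw p])
    linarith [hmx p]
  obtain ⟨q, hq⟩ := hout
  have hq' : 0 < a q := lt_of_le_of_ne hq (h0 q).symm
  have hμ0 := hpos q hq'
  have hall : ∀ p, 0 < a p := fun p => by
    rcases lt_or_gt_of_ne (h0 p) with h1 | h1
    · exact absurd (hneg p h1) (not_lt.2 hμ0.le)
    · exact h1
  have h7 := (Finset.sum_eq_zero_iff_of_nonneg (fun p _ =>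
    mul_nonneg (hall p).le (hmx p))).1 hsum i (Finset.mem_univ i)
  have h8 := hp i (hall i)
  rw [max_eq_left h8.le] at h7
  exact absurd h7 (mul_pos (hall i) (mul_pos h8 hi)).ne'

/-- the same for incomparable data. -/
lemma gv_ne_B {s a : W n} {c : ℝ} {Δ w : Fin (n + 3) → ℝ} (ha : a ≠ 0)
    (hp : ∀ j, 0 < a j → 0 < s j) (hn : ∀ j, a j < 0 → s j ≤ 0) (hc : 0 ≤ c)
    (hc0 : c = 0 → ∀ j, 0 < s j) (hw : ∀ j, Δ j ≠ 0 → 0 < Δ j * w j)
    {i j : Fin (n + 3)} (hi : 0 < Δ i) (hj : Δ j < 0) : gv s a c Δ w ≠ 0 := by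
  intro h
  have hc' : ∀ p, max (s p) 0 * Δ p + c * (w p - ⟪a, vec w⟫ / ‖a‖ ^ 2 * a p) = 0 := fun p => by
    rw [← gv_ap, h, zero_ap]
  set μ := ⟪a, vec w⟫ / ‖a‖ ^ 2 with hμ
  have hsum : ∑ j, a j * (max (s j) 0 * Δ j) = 0 := by
    rw [← inner_gv ha, h, inner_zero_right]
  rcases hc.eq_or_lt with hc1 | hc1
  · have h1 := hc0 hc1.symm i
    have h2 := hc' i
    rw [← hc1, zero_mul, add_zero, max_eq_left h1.le] at h2
    exact absurd h2 (mul_pos h1 hi).ne'
  have hwi : 0 < w i := (mul_pos_iff_of_pos_left hi).1 (hw i hi.ne')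
  have hwj : w j < 0 := by
    have := hw j hj.ne
    by_contra h1
    linarith [mul_nonpos_of_nonpos_of_nonneg hj.le (not_lt.1 h1)]
  have hi1 : 0 < μ * a i := by
    have h1 := hc' i
    have h2 : 0 ≤ max (s i) 0 * Δ i := mul_nonneg (le_max_right _ _) hi.le
    by_contra h4
    have h6 : 0 < c * (w i - μ * a i) := mul_pos hc1 (by linarith)
    linarith
  have hj1 : μ * a j < 0 := by
    have h1 := hc' j
    have h2 : max (s j) 0 * Δ j ≤ 0 := mul_nonpos_of_nonneg_of_nonpos (le_max_right _ _) hj.le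
    by_contra h4
    have h6 : c * (w j - μ * a j) < 0 := mul_neg_of_pos_of_neg hc1 (by linarith)
    linarith
  rcases lt_trichotomy μ 0 with hm | hm | hm
  · have hai : a i < 0 := by
      by_contra h1
      linarith [mul_nonpos_of_nonpos_of_nonneg hm.le (not_lt.1 h1)]
    have haj : 0 < a j := by
      by_contra h1
      linarith [mul_nonneg_of_nonpos_of_nonpos hm.le (not_lt.1 h1)]
    have hle : ∀ p ∈ Finset.univ, a p * (max (s p) 0 * Δ p) ≤ 0 := fun p _ => by
      rcases lt_trichotomy (a p) 0 with h1 | h1 | h1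
      · rw [max_eq_right (hn p h1)]; simp
      · rw [h1]; simp
      · have h2 := hp p h1
        rw [max_eq_left h2.le]
        have h3 : Δ p ≤ 0 := by
          by_contra h4
          have h5 := (mul_pos_iff_of_pos_left (not_le.1 h4)).1 (hw p (not_le.1 h4).ne')
          have h6 := hc' p
          rw [max_eq_left h2.le] at h6
          have h7 := mul_pos h2 (not_le.1 h4)
          have h8 : 0 < c * (w p - μ * a p) :=
            mul_pos hc1 (by linarith [mul_neg_of_neg_of_pos hm h1])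
          linarith
        exact mul_nonpos_of_nonneg_of_nonpos h1.le (mul_nonpos_of_nonneg_of_nonpos h2.le h3)
    have h7 := (Finset.sum_eq_zero_iff_of_nonpos hle).1 hsum j (Finset.mem_univ j)
    have h8 := hp j haj
    rw [max_eq_left h8.le] at h7
    exact absurd h7 (mul_neg_of_pos_of_neg haj (mul_neg_of_pos_of_neg h8 hj)).ne
  · rw [hm, zero_mul] at hi1
    exact lt_irrefl _ hi1
  · have hai : 0 < a i := (mul_pos_iff_of_pos_left hm).1 hi1
    have hge : ∀ p ∈ Finset.univ, 0 ≤ a p * (max (s p) 0 * Δ p) := fun p _ => by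
      rcases lt_trichotomy (a p) 0 with h1 | h1 | h1
      · rw [max_eq_right (hn p h1)]; simp
      · rw [h1]; simp
      · have h2 := hp p h1
        rw [max_eq_left h2.le]
        have h3 : 0 ≤ Δ p := by
          by_contra h4
          have h4' := not_le.1 h4
          have h5 : w p < 0 := by
            have := hw p h4'.ne
            by_contra h1'
            linarith [mul_nonpos_of_nonpos_of_nonneg h4'.le (not_lt.1 h1')]
          have h6 := hc' p
          rw [max_eq_left h2.le] at h6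
          have h7 := mul_neg_of_pos_of_neg h2 h4'
          have h8 : c * (w p - μ * a p) < 0 :=
            mul_neg_of_pos_of_neg hc1 (by linarith [mul_pos hm h1])
          linarith
        exact mul_nonneg h1.le (mul_nonneg h2.le h3)
    have h7 := (Finset.sum_eq_zero_iff_of_nonneg hge).1 hsum i (Finset.mem_univ i)
    have h8 := hp i hai
    rw [max_eq_left h8.le] at h7
    exact absurd h7 (mul_pos hai (mul_pos h8 hi)).ne'

/-- comparable data with a common negative ray `j`. -/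
lemma gv_ne_C {s a : W n} {c : ℝ} {Δ w : Fin (n + 3) → ℝ} (ha : a ≠ 0)
    (hp : ∀ j, 0 < a j → 0 < s j) (hc : 0 ≤ c)
    (hc0 : c = 0 → ∀ j, 0 < s j) (hw : ∀ j, Δ j ≠ 0 → 0 < Δ j * w j) (hΔ : ∀ j, 0 ≤ Δ j)
    {i j : Fin (n + 3)} (hi : 0 < Δ i) (hj : Δ j = 0) (hwj : w j < 0) (haj : a j ≤ 0) :
    gv s a c Δ w ≠ 0 := by
  intro h
  have hc' : ∀ p, max (s p) 0 * Δ p + c * (w p - ⟪a, vec w⟫ / ‖a‖ ^ 2 * a p) = 0 := fun p => by
    rw [← gv_ap, h, zero_ap]
  set μ := ⟪a, vec w⟫ / ‖a‖ ^ 2 with hμ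
  have hsum : ∑ j, a j * (max (s j) 0 * Δ j) = 0 := by
    rw [← inner_gv ha, h, inner_zero_right]
  rcases hc.eq_or_lt with hc1 | hc1
  · have h1 := hc0 hc1.symm i
    have h2 := hc' i
    rw [← hc1, zero_mul, add_zero, max_eq_left h1.le] at h2
    exact absurd h2 (mul_pos h1 hi).ne'
  have hm : 0 < μ := by
    have h1 := hc' j
    rw [hj, mul_zero, zero_add, mul_eq_zero] at h1
    have h2 := h1.resolve_left hc1.ne'
    by_contra h3
    linarith [mul_nonneg_of_nonpos_of_nonpos (not_lt.1 h3) haj]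
  have hwi : ∀ p, 0 < Δ p → 0 < w p := fun p h1 => (mul_pos_iff_of_pos_left h1).1 (hw p h1.ne')
  have hap : ∀ p, 0 < Δ p → 0 < a p := fun p h1 => by
    have h2 := hc' p
    have h3 : 0 ≤ max (s p) 0 * Δ p := mul_nonneg (le_max_right _ _) h1.le
    by_contra h4
    have h5 := mul_nonpos_of_nonneg_of_nonpos hm.le (not_lt.1 h4)
    have h6 : 0 < c * (w p - μ * a p) := mul_pos hc1 (by linarith [hwi p h1])
    linarith
  have hge : ∀ p ∈ Finset.univ, 0 ≤ a p * (max (s p) 0 * Δ p) := fun p _ => by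
    rcases (hΔ p).eq_or_lt with h1 | h1
    · rw [← h1]; simp
    · exact mul_nonneg (hap p h1).le (mul_nonneg (le_max_right _ _) h1.le)
  have h7 := (Finset.sum_eq_zero_iff_of_nonneg hge).1 hsum i (Finset.mem_univ i)
  have h8 := hp i (hap i hi)
  rw [max_eq_left h8.le] at h7
  exact absurd h7 (mul_pos (hap i hi) (mul_pos h8 hi)).ne'

end vec

/-! ### standard maps -/

section std

variable {n : ℕ}

lemma pt_last (u : Bc n) (z : ℝ) : pt u z (Fin.last n) = z := by simp [pt]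

lemma pt_castSucc (u : Bc n) (z : ℝ) (i : Fin n) : pt u z i.castSucc = u i := by simp [pt]

lemma continuous_pt : Continuous fun p : Bc n × ℝ => pt p.1 p.2 := by
  unfold pt
  refine (PiLp.continuous_toLp 2 _).comp ?_
  refine continuous_pi fun i => ?_
  refine Fin.lastCases ?_ (fun i => ?_) i
  · simpa using continuous_snd
  · have h : Continuous fun p : Bc n × ℝ => p.1 i := (continuous_apply i).comp continuous_fst
    simpa using h

lemma continuous_al : Continuous (al (n := n)) := by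
  have h : Continuous fun u : Bc n => (u, 1 - ‖u‖) := by fun_prop
  exact continuous_pt.comp h

lemma continuous_ga : Continuous (ga (n := n)) := by
  have h : Continuous fun u : Bc n => (-(4 * (1 - ‖u‖)) • u, 2 * ‖u‖ - 1) := by fun_prop
  exact continuous_pt.comp h

lemma inner_pt (u u' : Bc n) (z z' : ℝ) : ⟪pt u z, pt u' z'⟫ = (∑ i, u i * u' i) + z * z' := by
  have h : ⟪pt u z, pt u' z'⟫ = ∑ j, pt u z j * pt u' z' j := by
    rw [PiLp.inner_apply]
    exact Finset.sum_congr rfl fun j _ => by simp [mul_comm]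
  rw [h, Fin.sum_univ_castSucc]
  simp only [pt_last, pt_castSucc]

lemma ec_eq : ec n = pt 0 1 := by
  ext i
  refine Fin.lastCases ?_ (fun i => ?_) i
  · simp [pt, ec]
  · simp [pt, ec, (Fin.castSucc_lt_last i).ne]

lemma inner_ec_pt (u : Bc n) (z : ℝ) : ⟪ec n, pt u z⟫ = z := by
  rw [ec_eq, inner_pt]
  simp

lemma sum_sq_pos {u : Bc n} (hu : u ≠ 0) : 0 < ∑ i, u i * u i := by
  obtain ⟨i, hi⟩ := Function.ne_iff.1 hu
  exact Finset.sum_pos' (fun j _ => mul_self_nonneg _) ⟨i, Finset.mem_univ i, mul_self_pos.2 hi⟩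

lemma sum_sq_nonneg (u : Bc n) : 0 ≤ ∑ i, u i * u i :=
  Finset.sum_nonneg fun _ _ => mul_self_nonneg _

end std

/-! ### the data at a base point -/

section D

variable {n m : ℕ} (D : HD n m)

lemma gt_of_div {s : W n} (hs : s ≠ 0) {j : Fin (n + 3)} (h : D.d < s j / ‖s‖) :
    D.d * ‖s‖ < s j := by
  rwa [lt_div_iff₀ (norm_pos_iff.2 hs)] at h

lemma lt_of_div {s : W n} (hs : s ≠ 0) {j : Fin (n + 3)} (h : s j / ‖s‖ < -D.d) :
    s j < -(D.d * ‖s‖) := by
  rw [div_lt_iff₀ (norm_pos_iff.2 hs)] at h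
  linarith

lemma Yp_le {x : ℝ} (h : x ≤ D.d) : D.Yp x ≤ 0 := by
  rcases lt_or_ge x (-D.d) with h1 | h1
  · exact (D.Ypn x h1).le
  · exact (D.Yp0 x (abs_le.2 ⟨h1, h⟩)).le

lemma Ym_le (x : ℝ) : D.Ym x ≤ 0 := by
  rcases lt_or_ge D.d x with h1 | h1
  · exact (D.Ymn x h1).le
  · rw [D.Ymp x h1]; exact Yp_le D h1

lemma nrm_pos {k : Fin m} {s : W n} (hs : s ≠ 0) {j : Fin (n + 3)} (h : 0 < D.nrm k s j) :
    D.d * ‖s‖ < s j := by
  refine gt_of_div D hs ?_
  by_contra h1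
  have h2 : D.nrm k s j ≤ 0 := by
    show (if D.neg k j then D.Ym (s j / ‖s‖) else D.Yp (s j / ‖s‖)) ≤ 0
    split_ifs
    · exact Ym_le D _
    · exact Yp_le D (not_lt.1 h1)
  linarith

lemma dpos {s : W n} (hs : s ≠ 0) : 0 < D.d * ‖s‖ := mul_pos D.hd (norm_pos_iff.2 hs)

lemma nz_pos {s : W n} (hs : s ≠ 0) {j : Fin (n + 3)} (h : 0 < D.nz s j) :
    D.d * ‖s‖ < s j := by
  refine gt_of_div D hs ?_
  by_contra h1
  have h2 : D.nz s j ≤ 0 := Yp_le D (not_lt.1 h1)
  linarith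

lemma nz_neg {s : W n} (hs : s ≠ 0) {j : Fin (n + 3)} (h : D.nz s j < 0) :
    s j < -(D.d * ‖s‖) := by
  refine lt_of_div D hs ?_
  by_contra h1
  have h2 : 0 ≤ D.nz s j := by
    show 0 ≤ D.Yp (s j / ‖s‖)
    rcases lt_or_ge D.d (s j / ‖s‖) with h3 | h3
    · exact (D.Ypp _ h3).le
    · exact (D.Yp0 _ (abs_le.2 ⟨not_lt.1 h1, h3⟩)).ge
  linarith

lemma nz_le {s : W n} (hs : s ≠ 0) {j : Fin (n + 3)} (h : s j ≤ D.d * ‖s‖) : D.nz s j ≤ 0 := by
  by_contra h1
  linarith [nz_pos D hs (not_le.1 h1)]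

lemma nrm_le {k : Fin m} {s : W n} (hs : s ≠ 0) {j : Fin (n + 3)} (h : s j ≤ D.d * ‖s‖) :
    D.nrm k s j ≤ 0 := by
  by_contra h1
  linarith [nrm_pos D hs (not_le.1 h1)]

lemma nrm_neg_ray {k : Fin m} {j : Fin (n + 3)} (h : D.neg k j = true) (s : W n) :
    D.nrm k s j ≤ 0 := by
  show (if D.neg k j then D.Ym (s j / ‖s‖) else D.Yp (s j / ‖s‖)) ≤ 0
  rw [if_pos h]
  exact Ym_le D _

lemma nrm_eq_nz {k : Fin m} {s : W n} (hs : s ≠ 0) {j : Fin (n + 3)} (h : s j ≤ D.d * ‖s‖) :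
    D.nrm k s j = D.nz s j := by
  show (if D.neg k j then D.Ym (s j / ‖s‖) else D.Yp (s j / ‖s‖)) = D.Yp (s j / ‖s‖)
  split_ifs
  · exact D.Ymp _ ((div_le_iff₀ (norm_pos_iff.2 hs)).2 h)
  · rfl

lemma nrm_eq_nz' {k : Fin m} {s : W n} {j : Fin (n + 3)} (h : D.neg k j = false) :
    D.nrm k s j = D.nz s j := by
  show (if D.neg k j then D.Ym (s j / ‖s‖) else D.Yp (s j / ‖s‖)) = D.Yp (s j / ‖s‖)
  rw [h]
  rfl

lemma nrm_eq_nrm {k l : Fin m} {s : W n} {j : Fin (n + 3)} (h : D.neg k j = D.neg l j) :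
    D.nrm k s j = D.nrm l s j := by
  show (if D.neg k j then D.Ym (s j / ‖s‖) else D.Yp (s j / ‖s‖)) =
    (if D.neg l j then D.Ym (s j / ‖s‖) else D.Yp (s j / ‖s‖))
  rw [h]

/-- some coordinate is large. -/
lemma exists_big {s : W n} (hs : s ≠ 0) : ∃ j, D.d * ‖s‖ < |s j| := by
  by_contra h
  push Not at h
  have h1 : ‖s‖ ^ 2 ≤ ∑ _j : Fin (n + 3), (D.d * ‖s‖) ^ 2 := by
    rw [norm_sq_def]
    refine Finset.sum_le_sum fun j _ => ?_
    rw [← sq_abs]
    exact pow_le_pow_left₀ (abs_nonneg _) (h j) 2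
  rw [Finset.sum_const, Finset.card_univ, Fintype.card_fin, nsmul_eq_mul] at h1
  push_cast at h1
  have h2 : 0 < ‖s‖ ^ 2 := by
    have := norm_pos_iff.2 hs
    positivity
  have h3 := D.hdN
  nlinarith

lemma nrm_ne {k : Fin m} {s : W n} (hs : s ≠ 0) : D.nrm k s ≠ 0 := by
  obtain ⟨j, hj⟩ := exists_big D hs
  intro h
  have h1 : D.nrm k s j = 0 := by rw [h]; rfl
  have h0 := norm_pos_iff.2 hs
  have h2 : (if D.neg k j then D.Ym (s j / ‖s‖) else D.Yp (s j / ‖s‖)) = 0 := h1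
  rcases lt_abs.1 hj with h3 | h3
  · have h4 : D.d < s j / ‖s‖ := (lt_div_iff₀ h0).2 h3
    split_ifs at h2
    · exact absurd h2 (D.Ymn _ h4).ne
    · exact absurd h2 (D.Ypp _ h4).ne'
  · have h4 : s j / ‖s‖ < -D.d := (div_lt_iff₀ h0).2 (by linarith)
    have h5 := D.Ypn _ h4
    split_ifs at h2
    · rw [D.Ymp _ (by linarith [D.hd])] at h2
      exact absurd h2 h5.ne
    · exact absurd h2 h5.ne

lemma nz_ne {s : W n} (hs : s ≠ 0) : D.nz s ≠ 0 := by
  obtain ⟨j, hj⟩ := exists_big D hs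
  intro h
  have h1 : D.nz s j = 0 := by rw [h]; rfl
  have h0 := norm_pos_iff.2 hs
  have h2 : D.Yp (s j / ‖s‖) = 0 := h1
  rcases lt_abs.1 hj with h3 | h3
  · exact absurd h2 (D.Ypp _ ((lt_div_iff₀ h0).2 h3)).ne'
  · exact absurd h2 (D.Ypn _ ((div_lt_iff₀ h0).2 (by linarith))).ne

lemma hsP {s : W n} {j : Fin (n + 3)} (h : 0 < s j) : 0 < D.hs s j := by
  have h0 : 0 < ‖s‖ := norm_pos_iff.2 fun h1 => by rw [h1] at h; exact lt_irrefl _ h
  exact mul_pos h0 (D.ppp _ (div_pos h h0))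

lemma hsN {s : W n} {j : Fin (n + 3)} (h : s j ≤ 0) : D.hs s j ≤ 0 :=
  mul_nonpos_of_nonneg_of_nonpos (norm_nonneg _)
    (D.ppn _ (div_nonpos_of_nonpos_of_nonneg h (norm_nonneg _)))

lemma hs_big {s : W n} (hs : s ≠ 0) {j : Fin (n + 3)} (h : D.d * ‖s‖ < s j) : D.hs s j = s j := by
  have h0 : 0 < ‖s‖ := norm_pos_iff.2 hs
  show ‖s‖ * D.pp (s j / ‖s‖) = s j
  rw [D.ppd _ (by rw [le_div_iff₀ h0]; exact h.le), mul_div_cancel₀ _ h0.ne']

/-- the coefficient of the displacement. -/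
noncomputable def cf (s : W n) : ℝ := D.ep * ‖s‖ * D.th s

lemma cf_nonneg (s : W n) : 0 ≤ cf D s :=
  mul_nonneg (mul_nonneg D.hep.le (norm_nonneg _)) (D.th0 s)

lemma cf_le (s : W n) : cf D s ≤ D.ep * ‖s‖ :=
  mul_le_of_le_one_right (mul_nonneg D.hep.le (norm_nonneg _)) (D.th1 s)

lemma cf_zero {s : W n} (hs : s ≠ 0) (h : cf D s = 0) (j : Fin (n + 3)) : 0 < s j := by
  refine D.thp s hs ?_ j
  have h1 : D.ep * ‖s‖ ≠ 0 := mul_ne_zero D.hep.ne' (norm_ne_zero_iff.2 hs)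
  exact (mul_eq_zero.1 h).resolve_left h1

lemma eta_eq (k : Fin m) (s : W n) :
    D.eta k s = gv (D.hs s) (D.nrm k s) (cf D s) (D.sg k) (D.V k) := rfl

lemma gv_sub (s a : W n) (c : ℝ) (Δ w Δ' w' : Fin (n + 3) → ℝ) :
    gv s a c Δ w - gv s a c Δ' w' =
      gv s a c (fun j => Δ j - Δ' j) (fun j => w j - w' j) := by
  rw [gv, gv, gv, vec_sub w w', proj_sub]
  ext p
  simp only [add_ap, sub_ap, smul_ap, vec_apply]
  ring

/-- perturbations of size `ep ‖s‖ (‖V k‖ + ‖V l‖)` do not change signs of big coordinates. -/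
lemma sign_big {s : W n} (hs : s ≠ 0) {k l : Fin m} {j : Fin (n + 3)}
    (hj : D.sg k j ≠ D.sg l j) (hd : D.d * ‖s‖ < s j) {r : ℝ}
    (hr : |r| ≤ D.ep * ‖s‖ * (‖vec (n := n) (D.V k)‖ + ‖vec (n := n) (D.V l)‖)) :
    0 < (D.sg k j - D.sg l j) * (max (D.hs s j) 0 * (D.sg k j - D.sg l j) + r) := by
  have h0 := norm_pos_iff.2 hs
  have hsj : 0 < s j := (dpos D hs).trans hd
  have hΔ : 0 < |D.sg k j - D.sg l j| := abs_pos.2 (sub_ne_zero.2 hj)
  have h1 := D.small k l j hj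
  have h2 : |r| < s j * |D.sg k j - D.sg l j| := by
    calc |r| ≤ ‖s‖ * (D.ep * (‖vec (n := n) (D.V k)‖ + ‖vec (n := n) (D.V l)‖)) := by
          linarith
      _ < ‖s‖ * (D.d * |D.sg k j - D.sg l j|) := mul_lt_mul_of_pos_left h1 h0
      _ = (D.d * ‖s‖) * |D.sg k j - D.sg l j| := by ring
      _ < s j * |D.sg k j - D.sg l j| := mul_lt_mul_of_pos_right hd hΔ
  rw [hs_big D hs hd, max_eq_left hsj.le]
  have h3 : (D.sg k j - D.sg l j) * (s j * (D.sg k j - D.sg l j) + r) =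
      s j * |D.sg k j - D.sg l j| ^ 2 + (D.sg k j - D.sg l j) * r := by
    rw [sq_abs]; ring
  have h4 : -(|D.sg k j - D.sg l j| * |r|) ≤ (D.sg k j - D.sg l j) * r := by
    rw [← abs_mul]
    exact neg_abs_le _
  rw [h3]
  nlinarith [mul_lt_mul_of_pos_left h2 hΔ]

/-- the difference of two cores before the linear map. -/
noncomputable def df (k l : Fin m) (s : W n) : W n := D.eta k s - D.eta l s

/-- the model with conormal `a`. -/
noncomputable def gm (k l : Fin m) (s a : W n) : W n :=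
  gv (D.hs s) a (cf D s) (fun j => D.sg k j - D.sg l j) (fun j => D.V k j - D.V l j)

lemma df_big {s : W n} (hs : s ≠ 0) {k l : Fin m} {j : Fin (n + 3)}
    (hj : D.sg k j ≠ D.sg l j) (hd : D.d * ‖s‖ < s j) :
    0 < (D.sg k j - D.sg l j) * df D k l s j := by
  have h : df D k l s j = max (D.hs s j) 0 * (D.sg k j - D.sg l j) +
      (cf D s * proj (D.nrm k s) (vec (D.V k)) j - cf D s * proj (D.nrm l s) (vec (D.V l)) j) := by
    show D.eta k s j - D.eta l s j = _
    rw [eta_eq, eta_eq]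
    show (max (D.hs s j) 0 * D.sg k j + cf D s * proj (D.nrm k s) (vec (D.V k)) j) -
      (max (D.hs s j) 0 * D.sg l j + cf D s * proj (D.nrm l s) (vec (D.V l)) j) = _
    ring
  rw [h]
  refine sign_big D hs hj hd ?_
  have h1 := (abs_ap_le (proj (D.nrm k s) (vec (D.V k))) j).trans (norm_proj_le _ _)
  have h2 := (abs_ap_le (proj (D.nrm l s) (vec (D.V l))) j).trans (norm_proj_le _ _)
  have h3 := cf_nonneg D s
  have h4 := cf_le D s
  have h5 : |cf D s * proj (D.nrm k s) (vec (D.V k)) j - cf D s * proj (D.nrm l s) (vec (D.V l)) j|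
      ≤ cf D s * ‖vec (n := n) (D.V k)‖ + cf D s * ‖vec (n := n) (D.V l)‖ := by
    refine (abs_sub _ _).trans (add_le_add ?_ ?_)
    · rw [abs_mul, abs_of_nonneg h3]
      exact mul_le_mul_of_nonneg_left h1 h3
    · rw [abs_mul, abs_of_nonneg h3]
      exact mul_le_mul_of_nonneg_left h2 h3
  have h6 : 0 ≤ ‖vec (n := n) (D.V k)‖ + ‖vec (n := n) (D.V l)‖ := by positivity
  nlinarith

lemma gm_big {s : W n} (hs : s ≠ 0) (a : W n) {k l : Fin m} {j : Fin (n + 3)}
    (hj : D.sg k j ≠ D.sg l j) (hd : D.d * ‖s‖ < s j) :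
    0 < (D.sg k j - D.sg l j) * gm D k l s a j := by
  have h : gm D k l s a j = max (D.hs s j) 0 * (D.sg k j - D.sg l j) +
      cf D s * proj a (vec fun j => D.V k j - D.V l j) j := rfl
  rw [h]
  refine sign_big D hs hj hd ?_
  have h1 := (abs_ap_le (proj a (vec fun j => D.V k j - D.V l j)) j).trans (norm_proj_le _ _)
  have h2 : ‖vec (n := n) fun j => D.V k j - D.V l j‖ ≤
      ‖vec (n := n) (D.V k)‖ + ‖vec (n := n) (D.V l)‖ := by
    rw [vec_sub]
    exact norm_sub_le _ _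
  have h3 := cf_nonneg D s
  have h4 := cf_le D s
  rw [abs_mul, abs_of_nonneg h3]
  exact mul_le_mul h4 (h1.trans h2) (abs_nonneg _) (mul_nonneg D.hep.le (norm_nonneg _))

lemma seg_ne_of_coord {v w : W n} {x : ℝ} {j : Fin (n + 3)} (hv : 0 < x * v j) (hw : 0 < x * w j)
    {t : ℝ} (ht : t ∈ Icc (0 : ℝ) 1) : (1 - t) • v + t • w ≠ 0 := by
  intro h
  have h1 : (1 - t) * v j + t * w j = 0 := by
    have : ((1 - t) • v + t • w) j = 0 := by rw [h]; rfl
    simpa [add_ap, smul_ap] using this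
  have h2 : (1 - t) * (x * v j) + t * (x * w j) = 0 := by
    calc _ = x * ((1 - t) * v j + t * w j) := by ring
      _ = 0 := by rw [h1, mul_zero]
  rcases lt_or_ge t (1 / 2) with h3 | h3
  · nlinarith [mul_pos (by linarith : (0 : ℝ) < 1 - t) hv, mul_nonneg ht.1 hw.le]
  · nlinarith [mul_nonneg (by linarith [ht.2] : (0 : ℝ) ≤ 1 - t) hv.le,
      mul_pos (by linarith : (0 : ℝ) < t) hw]

/-- if no big coordinate separates the strands then their conormals agree. -/
lemma nrm_common {s : W n} (hs : s ≠ 0) {k l : Fin m}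
    (h : ∀ j, D.d * ‖s‖ < s j → D.sg k j = D.sg l j) : D.nrm k s = D.nrm l s := by
  ext j
  rcases lt_or_ge (D.d * ‖s‖) (s j) with h1 | h1
  · exact nrm_eq_nrm D (D.ray k l j (h j h1))
  · rw [nrm_eq_nz D hs h1, nrm_eq_nz D hs h1]

lemma df_common {s : W n} {k l : Fin m} (h : D.nrm k s = D.nrm l s) :
    df D k l s = gm D k l s (D.nrm k s) := by
  rw [df, eta_eq, eta_eq, ← h, gv_sub]
  rfl

/-- comparable strands: the conormals may be replaced by `nz`. -/
lemma seg_pos {s : W n} (hs : s ≠ 0) (hout : ∃ j, -(D.d * ‖s‖) < s j) {k l : Fin m}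
    (hkl : Pos D.sg D.V D.neg k l) {t : ℝ} (ht : t ∈ Icc (0 : ℝ) 1) :
    (1 - t) • df D k l s + t • gm D k l s (D.nz s) ≠ 0 := by
  by_cases h : ∃ j, D.d * ‖s‖ < s j ∧ D.sg k j ≠ D.sg l j
  · obtain ⟨j, h1, h2⟩ := h
    exact seg_ne_of_coord (df_big D hs h2 h1) (gm_big D hs _ h2 h1) ht
  push Not at h
  have hc := nrm_common D hs h
  have hz : D.nrm k s = D.nz s := by
    ext j
    rcases lt_or_ge (D.d * ‖s‖) (s j) with h1 | h1
    · exact nrm_eq_nz' D (hkl.2.2.2 j (h j h1))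
    · exact nrm_eq_nz D hs h1
  rw [df_common D hc, hz, ← add_smul, sub_add_cancel, one_smul]
  obtain ⟨j, hj⟩ := hout
  refine gv_ne_A (nz_ne D hs) (fun j h => hsP D ((dpos D hs).trans (nz_pos D hs h)))
    (fun j h => hsN D ((nz_neg D hs h).trans (neg_neg_of_pos (dpos D hs))).le) (cf_nonneg D s)
    (fun h j => hsP D (cf_zero D hs h j)) (fun j => sub_nonneg.2 (hkl.1 j)) (fun j => sub_pos.2 (hkl.2.2.1 j))
    ?_ ⟨j, ?_⟩
  · obtain ⟨i, hi⟩ := hkl.2.1
    exact ⟨i, sub_pos.2 hi⟩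
  · by_contra h1
    linarith [nz_neg D hs (not_le.1 h1)]

/-- second step for comparable strands. -/
lemma seg_pos' {s : W n} (hs : s ≠ 0) (hout : ∃ j, -(D.d * ‖s‖) < s j) {k l : Fin m}
    (hkl : Pos D.sg D.V D.neg k l) {t : ℝ} (ht : t ∈ Icc (0 : ℝ) 1) :
    (1 - t) • gm D k l s (D.nz s) + t • gv (D.hs s) (D.nz s) (cf D s) (fun _ => 1) (fun _ => 1) ≠ 0 := by
  rw [gm, gv_seg]
  obtain ⟨j, hj⟩ := hout
  have h1t : 0 ≤ 1 - t := by linarith [ht.2]
  refine gv_ne_A (nz_ne D hs) (fun j h => hsP D ((dpos D hs).trans (nz_pos D hs h)))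
    (fun j h => hsN D ((nz_neg D hs h).trans (neg_neg_of_pos (dpos D hs))).le) (cf_nonneg D s)
    (fun h j => hsP D (cf_zero D hs h j)) (fun j => ?_) (fun j => ?_) ?_ ⟨j, ?_⟩
  · have := mul_nonneg h1t (sub_nonneg.2 (hkl.1 j))
    linarith [ht.1]
  · have h2 := sub_pos.2 (hkl.2.2.1 j)
    rcases ht.1.eq_or_lt with h3 | h3
    · rw [← h3]; simpa using h2
    · have := mul_nonneg h1t h2.le
      linarith
  · obtain ⟨i, hi⟩ := hkl.2.1
    refine ⟨i, ?_⟩
    have h2 := sub_pos.2 hi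
    rcases ht.1.eq_or_lt with h3 | h3
    · rw [← h3]; simpa using h2
    · have := mul_nonneg h1t h2.le
      linarith
  · by_contra h1
    linarith [nz_neg D hs (not_le.1 h1)]

lemma hVΔ {k l : Fin m} (j : Fin (n + 3)) (h : D.sg k j - D.sg l j ≠ 0) :
    0 < (D.sg k j - D.sg l j) * (D.V k j - D.V l j) := D.hV k l j (sub_ne_zero.1 h)

lemma hVpos {k l : Fin m} {j : Fin (n + 3)} (h : D.sg l j < D.sg k j) : D.V l j < D.V k j := by
  have h1 := D.hV k l j h.ne'
  have h2 := (mul_pos_iff_of_pos_left (sub_pos.2 h)).1 h1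
  linarith

/-- incomparable strands, first step. -/
lemma seg_mix {s : W n} (hs : s ≠ 0) {k l : Fin m} {i j : Fin (n + 3)}
    (hi : D.sg l i < D.sg k i) (hj : D.sg k j < D.sg l j) {t : ℝ} (ht : t ∈ Icc (0 : ℝ) 1) :
    (1 - t) • df D k l s + t • gm D k l s (D.nz s) ≠ 0 := by
  by_cases h : ∃ j, D.d * ‖s‖ < s j ∧ D.sg k j ≠ D.sg l j
  · obtain ⟨j, h1, h2⟩ := h
    exact seg_ne_of_coord (df_big D hs h2 h1) (gm_big D hs _ h2 h1) ht
  push Not at h
  rw [df_common D (nrm_common D hs h)]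
  have hi1 : s i ≤ D.d * ‖s‖ := by
    by_contra h1
    exact hi.ne' (h i (not_le.1 h1))
  have hj1 : s j ≤ D.d * ‖s‖ := by
    by_contra h1
    exact hj.ne (h j (not_le.1 h1))
  intro h0
  have hc : ∀ p, max (D.hs s p) 0 * (D.sg k p - D.sg l p) + cf D s * ((D.V k p - D.V l p) -
      ((1 - t) * (⟪D.nrm k s, vec fun j => D.V k j - D.V l j⟫ / ‖D.nrm k s‖ ^ 2 * D.nrm k s p) +
        t * (⟪D.nz s, vec fun j => D.V k j - D.V l j⟫ / ‖D.nz s‖ ^ 2 * D.nz s p))) = 0 := by
    intro p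
    have h1 : ((1 - t) • gm D k l s (D.nrm k s) + t • gm D k l s (D.nz s)) p = 0 := by
      rw [h0]; rfl
    rw [add_ap, smul_ap, smul_ap, gm, gm, gv_ap, gv_ap] at h1
    linear_combination h1
  set μ1 := ⟪D.nrm k s, vec fun j => D.V k j - D.V l j⟫ / ‖D.nrm k s‖ ^ 2
  set μ2 := ⟪D.nz s, vec fun j => D.V k j - D.V l j⟫ / ‖D.nz s‖ ^ 2
  have hci := hc i
  have hcj := hc j
  rw [nrm_eq_nz D hs hi1] at hci
  rw [nrm_eq_nz D hs hj1] at hcj
  have hzi := nz_le D hs hi1
  have hzj := nz_le D hs hj1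
  have hΔi := sub_pos.2 hi
  have hΔj := sub_neg.2 hj
  have hwi := sub_pos.2 (hVpos D hi)
  have hwj := sub_neg.2 (hVpos D hj)
  have hmi : 0 ≤ max (D.hs s i) 0 := le_max_right _ _
  have hmj : 0 ≤ max (D.hs s j) 0 := le_max_right _ _
  rcases (cf_nonneg D s).eq_or_lt with hc1 | hc1
  · have h2 := hsP D (cf_zero D hs hc1.symm i)
    rw [← hc1, zero_mul, add_zero, max_eq_left h2.le] at hci
    exact absurd hci (mul_pos h2 hΔi).ne'
  have e1 : 0 < ((1 - t) * μ1 + t * μ2) * D.nz s i := by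
    by_contra h4
    have h6 : 0 < cf D s * ((D.V k i - D.V l i) -
      ((1 - t) * (μ1 * D.nz s i) + t * (μ2 * D.nz s i))) := mul_pos hc1 (by
        have : (1 - t) * (μ1 * D.nz s i) + t * (μ2 * D.nz s i) =
          ((1 - t) * μ1 + t * μ2) * D.nz s i := by ring
        rw [this]; linarith)
    linarith [mul_nonneg hmi hΔi.le]
  have e2 : ((1 - t) * μ1 + t * μ2) * D.nz s j < 0 := by
    by_contra h4
    have h6 : cf D s * ((D.V k j - D.V l j) -
      ((1 - t) * (μ1 * D.nz s j) + t * (μ2 * D.nz s j))) < 0 := mul_neg_of_pos_of_neg hc1 (by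
        have : (1 - t) * (μ1 * D.nz s j) + t * (μ2 * D.nz s j) =
          ((1 - t) * μ1 + t * μ2) * D.nz s j := by ring
        rw [this]; linarith)
    linarith [mul_nonpos_of_nonneg_of_nonpos hmj hΔj.le]
  rcases le_or_gt 0 ((1 - t) * μ1 + t * μ2) with h7 | h7
  · linarith [mul_nonpos_of_nonneg_of_nonpos h7 hzi]
  · linarith [mul_nonneg_of_nonpos_of_nonpos h7.le hzj]

/-- the vector `e_i - e_j` (as a function). -/
def ee (i j : Fin (n + 3)) : Fin (n + 3) → ℝ := fun p => (if p = i then 1 else 0) - if p = j then 1 else 0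

lemma ee_i {i j : Fin (n + 3)} (h : i ≠ j) : ee i j i = 1 := by simp [ee, h]
lemma ee_j {i j : Fin (n + 3)} (h : i ≠ j) : ee i j j = -1 := by simp [ee, h.symm]
lemma ee_o {i j p : Fin (n + 3)} (h1 : p ≠ i) (h2 : p ≠ j) : ee i j p = 0 := by simp [ee, h1, h2]

/-- incomparable strands, second step. -/
lemma seg_mix' {s : W n} (hs : s ≠ 0) {k l : Fin m} {i j : Fin (n + 3)}
    (hi : D.sg l i < D.sg k i) (hj : D.sg k j < D.sg l j) {t : ℝ} (ht : t ∈ Icc (0 : ℝ) 1) :
    (1 - t) • gm D k l s (D.nz s) + t • gv (D.hs s) (D.nz s) (cf D s) (ee i j) (ee i j) ≠ 0 := by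
  have hij : i ≠ j := by
    rintro rfl
    exact lt_asymm hi hj
  have h1t : 0 ≤ 1 - t := by linarith [ht.2]
  have pos : ∀ x : ℝ, 0 < x → 0 < (1 - t) * x + t * 1 := fun x hx => by
    rcases ht.1.eq_or_lt with h3 | h3
    · rw [← h3]; simpa using hx
    · have := mul_nonneg h1t hx.le
      linarith
  rw [gm, gv_seg]
  refine gv_ne_B (i := i) (j := j) (nz_ne D hs) (fun j h => hsP D ((dpos D hs).trans (nz_pos D hs h)))
    (fun j h => hsN D ((nz_neg D hs h).trans (neg_neg_of_pos (dpos D hs))).le) (cf_nonneg D s)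
    (fun h j => hsP D (cf_zero D hs h j)) (fun p hp => ?_) ?_ ?_
  · by_cases h1 : p = i
    · rw [h1, ee_i hij]
      exact mul_pos (pos _ (sub_pos.2 hi)) (pos _ (sub_pos.2 (hVpos D hi)))
    by_cases h2 : p = j
    · rw [h2, ee_j hij]
      have a1 := pos _ (sub_pos.2 hj)
      have a2 := pos _ (sub_pos.2 (hVpos D hj))
      nlinarith [mul_pos a1 a2]
    · rw [ee_o h1 h2, mul_zero, add_zero] at hp ⊢
      have h3 : 0 < 1 - t := lt_of_le_of_ne h1t fun h => hp (by rw [← h, zero_mul])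
      have h4 : D.sg k p - D.sg l p ≠ 0 := fun h => hp (by rw [h, mul_zero])
      have h5 := hVΔ D p h4
      rw [add_zero]
      have : (1 - t) * (D.sg k p - D.sg l p) * ((1 - t) * (D.V k p - D.V l p)) =
        ((1 - t) * (1 - t)) * ((D.sg k p - D.sg l p) * (D.V k p - D.V l p)) := by ring
      rw [this]
      positivity
  · show 0 < (1 - t) * (D.sg k i - D.sg l i) + t * ee i j i
    rw [ee_i hij]
    exact pos _ (sub_pos.2 hi)
  · show (1 - t) * (D.sg k j - D.sg l j) + t * ee i j j < 0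
    rw [ee_j hij]
    have a1 := pos _ (sub_pos.2 hj)
    linarith

/-- comparable strands with a common negative ray, first step. -/
lemma seg_neg {s : W n} (hs : s ≠ 0) {k l : Fin m} (hle : ∀ p, D.sg l p ≤ D.sg k p)
    {i j : Fin (n + 3)} (hi : D.sg l i < D.sg k i) (hj : D.sg k j = D.sg l j)
    (hv : D.V k j < D.V l j) (hn : D.neg k j = true) {t : ℝ} (ht : t ∈ Icc (0 : ℝ) 1) :
    (1 - t) • df D k l s + t • gm D k l s (D.nrm k s) ≠ 0 := by
  by_cases h : ∃ j, D.d * ‖s‖ < s j ∧ D.sg k j ≠ D.sg l j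
  · obtain ⟨j, h1, h2⟩ := h
    exact seg_ne_of_coord (df_big D hs h2 h1) (gm_big D hs _ h2 h1) ht
  push Not at h
  rw [df_common D (nrm_common D hs h), ← add_smul, sub_add_cancel, one_smul]
  exact gv_ne_C (i := i) (j := j) (nrm_ne D hs) (fun j h => hsP D ((dpos D hs).trans (nrm_pos D hs h)))
    (cf_nonneg D s) (fun h j => hsP D (cf_zero D hs h j)) (fun p hp => hVΔ D p hp)
    (fun p => sub_nonneg.2 (hle p)) (sub_pos.2 hi) (sub_eq_zero.2 hj) (sub_neg.2 hv)
    (nrm_neg_ray D hn s)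

/-- second step. -/
lemma seg_neg' {s : W n} (hs : s ≠ 0) {k l : Fin m} (hle : ∀ p, D.sg l p ≤ D.sg k p)
    {i j : Fin (n + 3)} (hi : D.sg l i < D.sg k i) (hj : D.sg k j = D.sg l j)
    (hv : D.V k j < D.V l j) (hn : D.neg k j = true) {t : ℝ} (ht : t ∈ Icc (0 : ℝ) 1) :
    (1 - t) • gm D k l s (D.nrm k s) +
      t • gv (D.hs s) (D.nrm k s) (cf D s) (fun p => if p = i then 1 else 0) (ee i j) ≠ 0 := by
  have hij : i ≠ j := by
    rintro rfl
    exact hi.ne' hj
  have h1t : 0 ≤ 1 - t := by linarith [ht.2]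
  have pos : ∀ x : ℝ, 0 < x → 0 < (1 - t) * x + t * 1 := fun x hx => by
    rcases ht.1.eq_or_lt with h3 | h3
    · rw [← h3]; simpa using hx
    · have := mul_nonneg h1t hx.le
      linarith
  rw [gm, gv_seg]
  refine gv_ne_C (i := i) (j := j) (nrm_ne D hs) (fun j h => hsP D ((dpos D hs).trans (nrm_pos D hs h)))
    (cf_nonneg D s) (fun h j => hsP D (cf_zero D hs h j)) (fun p hp => ?_) (fun p => ?_) ?_ ?_ ?_
    (nrm_neg_ray D hn s)
  · by_cases h1 : p = i
    · rw [h1, ee_i hij, if_pos rfl]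
      exact mul_pos (pos _ (sub_pos.2 hi)) (pos _ (sub_pos.2 (hVpos D hi)))
    rw [if_neg h1, mul_zero, add_zero] at hp ⊢
    have h2 : p ≠ j := by
      rintro rfl
      exact hp (by rw [hj, sub_self, mul_zero])
    rw [ee_o h1 h2, mul_zero, add_zero]
    have h3 : 0 < 1 - t := lt_of_le_of_ne h1t fun h => hp (by rw [← h, zero_mul])
    have h4 : D.sg k p - D.sg l p ≠ 0 := fun h => hp (by rw [h, mul_zero])
    have h5 := hVΔ D p h4
    have : (1 - t) * (D.sg k p - D.sg l p) * ((1 - t) * (D.V k p - D.V l p)) =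
      ((1 - t) * (1 - t)) * ((D.sg k p - D.sg l p) * (D.V k p - D.V l p)) := by ring
    rw [this]
    positivity
  · have h3 := mul_nonneg h1t (sub_nonneg.2 (hle p))
    have h4 : 0 ≤ t * (if p = i then (1 : ℝ) else 0) := by
      split_ifs
      · linarith [ht.1]
      · simp
    exact add_nonneg h3 h4
  · rw [if_pos rfl]
    exact pos _ (sub_pos.2 hi)
  · rw [if_neg hij.symm, hj, sub_self, mul_zero, mul_zero, add_zero]
  · show (1 - t) * (D.V k j - D.V l j) + t * ee i j j < 0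
    rw [ee_j hij]
    have a1 := pos _ (sub_pos.2 hv)
    linarith

/-- coordinate difference of the final model, positive. -/
lemma diff_pos {s a : W n} {c : ℝ} {i j : Fin (n + 3)} (hij : i ≠ j) (ha : a ≠ 0)
    (hp : ∀ p, 0 < a p → 0 < s p) (hc : 0 ≤ c) (hc0 : c = 0 → ∀ p, 0 < s p)
    (Δ : Fin (n + 3) → ℝ) (hi : Δ i = 1) (hj : Δ j ≤ 0)
    (hj' : Δ j < 0 ∨ a j ≤ 0) :
    0 < gv s a c Δ (ee i j) i - gv s a c Δ (ee i j) j := by
  have hna : 0 < ‖a‖ ^ 2 := by
    have := norm_pos_iff.2 ha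
    positivity
  have hin : ⟪a, vec (ee i j)⟫ = a i - a j := by
    rw [inner_def]
    simp only [vec_apply, ee, mul_sub, mul_ite, mul_one, mul_zero, Finset.sum_sub_distrib,
      Finset.sum_ite_eq', Finset.mem_univ, if_true]
  have hsq : a i ^ 2 + a j ^ 2 ≤ ‖a‖ ^ 2 := by
    rw [norm_sq_def]
    have := Finset.sum_le_sum_of_subset_of_nonneg (s := {i, j}) (t := Finset.univ)
      (f := fun p => a p ^ 2) (Finset.subset_univ _) (fun p _ _ => sq_nonneg _)
    rwa [Finset.sum_pair hij] at this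
  rw [gv_ap, gv_ap, hin, ee_i hij, ee_j hij, hi]
  have hmi : 0 ≤ max (s i) 0 := le_max_right _ _
  have hmj : 0 ≤ max (s j) 0 := le_max_right _ _
  have h1 : max (s i) 0 * 1 + c * (1 - (a i - a j) / ‖a‖ ^ 2 * a i) -
      (max (s j) 0 * Δ j + c * (-1 - (a i - a j) / ‖a‖ ^ 2 * a j)) =
      max (s i) 0 + max (s j) 0 * (-Δ j) + c * (2 - (a i - a j) ^ 2 / ‖a‖ ^ 2) := by
    ring
  rw [h1]
  have h2 : (a i - a j) ^ 2 / ‖a‖ ^ 2 ≤ 2 := by
    rw [div_le_iff₀ hna]
    nlinarith [sq_nonneg (a i + a j)]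
  have h3 : 0 ≤ max (s j) 0 * (-Δ j) := mul_nonneg hmj (by linarith)
  rcases hc.eq_or_lt with hc1 | hc1
  · have h4 := hc0 hc1.symm i
    rw [← hc1, zero_mul, add_zero, max_eq_left h4.le]
    linarith
  rcases h2.eq_or_lt with h4 | h4
  · -- then a i = - a j, nonzero
    rw [div_eq_iff hna.ne'] at h4
    have h5 : a i + a j = 0 := by
      have : (a i + a j) ^ 2 ≤ 0 := by nlinarith
      exact pow_eq_zero_iff two_ne_zero |>.1 (le_antisymm this (sq_nonneg _))
    have h6 : 0 ≤ c * (2 - (a i - a j) ^ 2 / ‖a‖ ^ 2) := mul_nonneg hc1.le (by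
      rw [h4]
      field_simp
      norm_num)
    have h7 : a i ≠ 0 := by
      intro h7
      have h8 : a j = 0 := by linarith
      rw [h7, h8] at h4
      nlinarith
    rcases lt_or_gt_of_ne h7 with h8 | h8
    · have h9 : 0 < a j := by linarith
      have h10 := hp j h9
      rcases hj' with h11 | h11
      · have : 0 < max (s j) 0 * (-Δ j) := mul_pos (lt_max_of_lt_left h10) (by linarith)
        linarith
      · linarith
    · have h10 := hp i h8
      have : 0 < max (s i) 0 := lt_max_of_lt_left h10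
      linarith
  · have : 0 < c * (2 - (a i - a j) ^ 2 / ‖a‖ ^ 2) := mul_pos hc1 (by linarith)
    linarith

/-! #### the linear map -/

/-- `(1/‖s‖) L A(s)`. -/
noncomputable def T (s v : W n) : W n := (1 / ‖s‖) • L n (D.A s v)

lemma hor_add (v w : W n) : hor (v + w) = hor v + hor w := by
  simp only [hor, inner_add_right, add_smul]
  abel

lemma hor_smul (c : ℝ) (v : W n) : hor (c • v) = c • hor v := by
  simp only [hor, inner_smul_right, smul_sub, smul_smul]

lemma inner_u1_self : ⟪u1 n, u1 n⟫ = 1 := by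
  rw [real_inner_self_eq_norm_sq, norm_u1, one_pow]

lemma inner_u1_hor (v : W n) : ⟪u1 n, hor v⟫ = 0 := by
  rw [hor, inner_sub_right, inner_smul_right, inner_u1_self, mul_one, sub_self]

lemma A_add (s v w : W n) : D.A s (v + w) = D.A s v + D.A s w := by
  simp only [HD.A, hor_add, inner_add_right, add_div, mul_add, add_smul]
  abel

lemma A_smul (s v : W n) (c : ℝ) : D.A s (c • v) = c • D.A s v := by
  simp only [HD.A, hor_smul, inner_smul_right, smul_add, smul_smul]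
  congr 2
  ring

lemma T_add (s v w : W n) : T D s (v + w) = T D s v + T D s w := by
  rw [T, A_add, map_add, smul_add]; rfl

lemma T_smul (s v : W n) (c : ℝ) : T D s (c • v) = c • T D s v := by
  rw [T, A_smul, map_smul, smul_comm]; rfl

lemma T_sub (s v w : W n) : T D s (v - w) = T D s v - T D s w := by
  rw [sub_eq_add_neg, T_add, ← neg_one_smul ℝ w, T_smul, neg_one_smul, ← sub_eq_add_neg]

lemma T_ne {s v : W n} (hs : s ≠ 0) (hv : v ≠ 0) : T D s v ≠ 0 := by
  intro h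
  have h1 : D.A s v = 0 := by
    have h2 := (smul_eq_zero.1 h).resolve_left (one_div_ne_zero (norm_ne_zero_iff.2 hs))
    exact (map_eq_zero_iff (L n) (L n).injective).1 h2
  have h3 : hor (D.A s v) = hor v := by
    rw [HD.A, hor_add, hor_smul]
    have : hor (u1 n) = 0 := by rw [hor, inner_u1_self, one_smul, sub_self]
    rw [this, smul_zero, add_zero]
  have h4 : hor v = 0 := by
    rw [← h3, h1, hor, inner_zero_right, zero_smul, sub_zero]
  rw [HD.A, h4, inner_zero_right, zero_div, mul_zero, zero_smul, add_zero] at h1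
  exact hv h1

/-- height of `T s v`. -/
lemma inner_ec_T (s v : W n) : ⟪ec (n + 2), T D s v⟫ = (1 / ‖s‖) *
    (⟪u1 n, v⟫ + D.ka s * (⟪D.nz s, hor v⟫ / ⟪D.nz s, u1 n⟫)) := by
  rw [T, inner_smul_right, inner_ec_L, HD.A, inner_add_right, inner_smul_right, inner_u1_self,
    mul_one]

lemma inner_nz_hor {s : W n} (v : W n) : ⟪D.nz s, hor v⟫ =
    ⟪D.nz s, v⟫ - ⟪u1 n, v⟫ * ⟪D.nz s, u1 n⟫ := by
  rw [hor, inner_sub_right, inner_smul_right]

/-- height for `v ⊥ nz s`. -/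
lemma inner_ec_T' {s v : W n} (h : ⟪D.nz s, v⟫ = 0) (h' : ⟪D.nz s, u1 n⟫ ≠ 0) :
    ⟪ec (n + 2), T D s v⟫ = (1 / ‖s‖) * ((1 - D.ka s) * ⟪u1 n, v⟫) := by
  rw [inner_ec_T, inner_nz_hor, h]
  field_simp
  ring

/-- horizontal products. -/
lemma inner_L_T {s v w : W n} (h : ⟪u1 n, w⟫ = 0) : ⟪L n w, T D s v⟫ = (1 / ‖s‖) * ⟪w, v⟫ := by
  rw [T, inner_smul_right, inner_L, HD.A, inner_add_right, inner_smul_right,
    real_inner_comm (u1 n) w, h, mul_zero, add_zero]

/-! #### base points -/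

/-- base point over a point of the closed cube. -/
noncomputable def sB (u : Bc (n + 2)) : W n := bp u (1 - ‖u‖ - D.m0 u)

lemma ret_eq {u : Bc (n + 2)} (hu : ‖u‖ ≤ 1) : ret u = u := by
  rw [ret, max_eq_left hu, div_one, one_smul]

lemma sb_eq {u : Bc (n + 2)} (hu : ‖u‖ ≤ 1) : D.sb u = sB D u := by
  rw [HD.sb, ret_eq hu]; rfl

lemma sB_ne {u : Bc (n + 2)} (hu : ‖u‖ ≤ 1) : sB D u ≠ 0 := by
  obtain ⟨j, hj⟩ := D.out u hu
  intro h
  have h1 : bp (n := n) u (1 - ‖u‖ - D.m0 u) = 0 := h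
  rw [h1, norm_zero, mul_zero, neg_zero] at hj
  exact lt_irrefl _ hj

lemma sB_out {u : Bc (n + 2)} (hu : ‖u‖ ≤ 1) : ∃ j, -(D.d * ‖sB D u‖) < sB D u j := D.out u hu

lemma sB_wall {u : Bc (n + 2)} (hu : ‖u‖ = 1) : D.ka (sB D u) = 1 ∧ ∀ j, sB D u j < 0 := by
  have h : sB D u = bp u (-D.m0 u) := by rw [sB, hu]; congr 1; ring
  rw [h]
  exact D.wall u hu

lemma L_sB (u : Bc (n + 2)) : L n (sB D u) = pt u (1 - ‖u‖ - D.m0 u) := by
  rw [sB, bp, L_L]

lemma L_hor_sB (u : Bc (n + 2)) : L n (hor (sB D u)) = pt u 0 := by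
  rw [hor, map_sub, map_smul, L_u1, L_sB, ← inner_ec_L, L_sB, inner_ec_pt]
  ext i
  refine Fin.lastCases ?_ (fun i => ?_) i
  · show pt u _ (Fin.last _) - _ * ec (n + 2) (Fin.last _) = pt u 0 (Fin.last _)
    rw [pt_last, pt_last, ec_eq, pt_last]
    ring
  · show pt u _ i.castSucc - _ * ec (n + 2) i.castSucc = pt u 0 i.castSucc
    rw [pt_castSucc, pt_castSucc, ec_eq, pt_castSucc]
    simp

lemma continuous_sB : Continuous (sB D) := by
  have h : Continuous fun u : Bc (n + 2) => (u, 1 - ‖u‖ - D.m0 u) := by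
    have := D.cm0
    fun_prop
  exact (L n).continuous.comp (continuous_pt.comp h)

lemma sB_mem {u : Bc (n + 2)} (hu : u ∈ closedBall (0 : Bc (n + 2)) 1) : sB D u ∈ ({0}ᶜ : Set (W n)) :=
  sB_ne D (norm_le_of_mem hu)

lemma cont_ap (j : Fin (n + 3)) : Continuous fun s : W n => s j :=
  (EuclideanSpace.proj (𝕜 := ℝ) j : W n →L[ℝ] ℝ).continuous

lemma cont_vec {X : Type*} [TopologicalSpace X] {S : Set X} {f : X → Fin (n + 3) → ℝ}
    (h : ∀ j, ContinuousOn (fun x => f x j) S) : ContinuousOn (fun x => vec (n := n) (f x)) S :=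
  (PiLp.continuous_toLp 2 _).comp_continuousOn (continuousOn_pi.2 h)

lemma cont_quot (j : Fin (n + 3)) :
    ContinuousOn (fun u => sB D u j / ‖sB D u‖) (closedBall 0 1) := by
  refine ContinuousOn.div ?_ ?_ fun u hu => norm_ne_zero_iff.2 (sB_mem D hu)
  · exact ((cont_ap j).comp (continuous_sB D)).continuousOn
  · exact (continuous_sB D).norm.continuousOn

lemma cont_nrm (k : Fin m) : ContinuousOn (fun u => D.nrm k (sB D u)) (closedBall 0 1) := by
  refine cont_vec fun j => ?_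
  by_cases h : D.neg k j
  · simp only [h, if_true]
    exact D.cYm.comp_continuousOn (cont_quot D j)
  · simp only [h]
    exact D.cYp.comp_continuousOn (cont_quot D j)

lemma cont_nz : ContinuousOn (fun u => D.nz (sB D u)) (closedBall 0 1) :=
  cont_vec fun j => D.cYp.comp_continuousOn (cont_quot D j)

lemma cont_cf : ContinuousOn (fun u => cf D (sB D u)) (closedBall 0 1) := by
  have h : ContinuousOn (fun u => D.th (sB D u)) (closedBall 0 1) :=
    D.cth.comp (continuous_sB D).continuousOn fun u hu => sB_mem D hu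
  exact ((continuousOn_const (c := D.ep)).mul (continuous_sB D).norm.continuousOn).mul h

lemma cont_gv {a : Bc (n + 2) → W n} (ca : ContinuousOn a (closedBall 0 1))
    (ha : ∀ u, ‖u‖ ≤ 1 → a u ≠ 0) (Δ w : Fin (n + 3) → ℝ) :
    ContinuousOn (fun u => gv (D.hs (sB D u)) (a u) (cf D (sB D u)) Δ w) (closedBall 0 1) := by
  have h1 : ContinuousOn (fun u => vec (n := n) fun j => max (D.hs (sB D u) j) 0 * Δ j)
      (closedBall 0 1) := by
    refine cont_vec fun j => ?_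
    have h : ContinuousOn (fun u => ‖sB D u‖ * D.pp (sB D u j / ‖sB D u‖)) (closedBall 0 1) :=
      (continuous_sB D).norm.continuousOn.mul (D.cpp.comp_continuousOn (cont_quot D j))
    have h' : Continuous fun x : ℝ => max x 0 * Δ j := by fun_prop
    exact h'.comp_continuousOn h
  have h2 : ContinuousOn (fun u => proj (a u) (vec w)) (closedBall 0 1) := by
    have h3 : ContinuousOn (fun u => ⟪a u, vec w⟫ / ‖a u‖ ^ 2) (closedBall 0 1) := by
      refine ContinuousOn.div ?_ ?_ ?_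
      · exact ca.inner continuousOn_const
      · exact ca.norm.pow 2
      · intro u hu
        have := norm_pos_iff.2 (ha u (norm_le_of_mem hu))
        positivity
    exact continuousOn_const.sub (h3.smul ca)
  exact h1.add ((cont_cf D).smul h2)

lemma nz_u1_neg {s : W n} (hs : s ≠ 0) (h : ∀ j, s j ≤ D.d * ‖s‖) : ⟪D.nz s, u1 n⟫ < 0 := by
  rw [real_inner_comm, inner_u1]
  refine div_neg_of_neg_of_pos ?_ (sqrt_pos n)
  have h1 : ∀ j, D.nz s j ≤ 0 := fun j => nz_le D hs (h j)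
  refine lt_of_le_of_ne (Finset.sum_nonpos fun j _ => h1 j) fun h2 => ?_
  have h3 := (Finset.sum_eq_zero_iff_of_nonpos (fun j _ => h1 j)).1 h2
  exact nz_ne D hs (by ext j; exact h3 j (Finset.mem_univ j))

lemma nz_u1_ka {s : W n} (hs : s ≠ 0) (h : D.ka s ≠ 0) : ⟪D.nz s, u1 n⟫ < 0 :=
  nz_u1_neg D hs fun j => (D.kap s hs h j).le

lemma cont_T {f : Bc (n + 2) → W n} (cf' : ContinuousOn f (closedBall 0 1)) :
    ContinuousOn (fun u => T D (sB D u) (f u)) (closedBall 0 1) := by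
  have hsB := continuous_sB D
  have hhor : ContinuousOn (fun u => hor (f u)) (closedBall 0 1) := by
    have hc : Continuous fun v : W n => hor v := by
      unfold hor
      fun_prop
    exact hc.comp_continuousOn cf'
  have hka : ContinuousOn (fun u => D.ka (sB D u)) (closedBall 0 1) :=
    D.cka.comp hsB.continuousOn fun u hu => sB_mem D hu
  have hsum : ContinuousOn (fun u => D.A (sB D u) (f u)) (closedBall 0 1) := by
    intro u0 hu0
    by_cases h : ∀ j, sB D u0 j ≤ D.d * ‖sB D u0‖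
    · have h1 := nz_u1_neg D (sB_mem D hu0) h
      have c1 : ContinuousWithinAt (fun u => ⟪D.nz (sB D u), hor (f u)⟫) (closedBall 0 1) u0 :=
        ((cont_nz D).inner hhor) u0 hu0
      have c2 : ContinuousWithinAt (fun u => ⟪D.nz (sB D u), u1 n⟫) (closedBall 0 1) u0 :=
        ((cont_nz D).inner continuousOn_const) u0 hu0
      exact (cf' u0 hu0).add (((hka u0 hu0).mul (c1.div c2 h1.ne)).smul
        continuousWithinAt_const)
    · push Not at h
      obtain ⟨j, hj⟩ := h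
      have hopen : IsOpen {u : Bc (n + 2) | D.d * ‖sB D u‖ < sB D u j} :=
        isOpen_lt (continuous_const.mul hsB.norm) ((cont_ap j).comp hsB)
      have hev : ∀ᶠ u in nhdsWithin u0 (closedBall 0 1), D.A (sB D u) (f u) = f u := by
        filter_upwards [mem_nhdsWithin_of_mem_nhds (hopen.mem_nhds hj), self_mem_nhdsWithin]
          with u hu hu1
        have h2 : D.ka (sB D u) = 0 := by
          by_contra h3
          exact lt_asymm hu (D.kap _ (sB_mem D hu1) h3 j)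
        rw [HD.A, h2, zero_mul, zero_smul, add_zero]
      refine (cf' u0 hu0).congr_of_eventuallyEq hev ?_
      have h2 : D.ka (sB D u0) = 0 := by
        by_contra h3
        exact lt_asymm hj (D.kap _ (sB_mem D hu0) h3 j)
      rw [HD.A, h2, zero_mul, zero_smul, add_zero]
  have h1 : ContinuousOn (fun u => 1 / ‖sB D u‖) (closedBall 0 1) :=
    continuousOn_const.div hsB.norm.continuousOn fun u hu => norm_ne_zero_iff.2 (sB_mem D hu)
  exact h1.smul ((L n).continuous.comp_continuousOn hsum)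

/-- horizontality at the wall. -/
lemma hor_T {u : Bc (n + 2)} (hu : ‖u‖ = 1) {v : W n} (h : ⟪D.nz (sB D u), v⟫ = 0) :
    ⟪ec (n + 2), T D (sB D u) v⟫ = 0 := by
  obtain ⟨h1, h2⟩ := sB_wall D hu
  have hs := sB_ne D hu.le
  have h3 := nz_u1_ka D hs (by rw [h1]; exact one_ne_zero)
  rw [inner_ec_T' D h h3.ne, h1, sub_self, zero_mul, mul_zero]

/-- at the wall `gv` is orthogonal to the conormal. -/
lemma wall_gv {u : Bc (n + 2)} (hu : ‖u‖ = 1) {a : W n} (ha : a = D.nz (sB D u))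
    (Δ w : Fin (n + 3) → ℝ) : ⟪D.nz (sB D u), gv (D.hs (sB D u)) a (cf D (sB D u)) Δ w⟫ = 0 := by
  obtain ⟨h1, h2⟩ := sB_wall D hu
  rw [ha, inner_gv (nz_ne D (sB_ne D hu.le))]
  refine Finset.sum_eq_zero fun j _ => ?_
  rw [max_eq_right (hsN D (h2 j).le), zero_mul, mul_zero]

lemma wall_nrm {u : Bc (n + 2)} (hu : ‖u‖ = 1) (k : Fin m) :
    D.nrm k (sB D u) = D.nz (sB D u) := by
  obtain ⟨h1, h2⟩ := sB_wall D hu
  have hs := sB_ne D hu.le
  ext j
  exact nrm_eq_nz D hs ((h2 j).le.trans (dpos D hs).le)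

lemma wall_df {u : Bc (n + 2)} (hu : ‖u‖ = 1) (k l : Fin m) :
    ⟪D.nz (sB D u), df D k l (sB D u)⟫ = 0 := by
  rw [df_common D ((wall_nrm D hu k).trans (wall_nrm D hu l).symm), gm]
  exact wall_gv D hu (wall_nrm D hu k) _ _

/-- straight segments before `T`. -/
lemma fhT {f g : Bc (n + 2) → W n} (cf' : ContinuousOn f (closedBall 0 1))
    (cg : ContinuousOn g (closedBall 0 1))
    (wf : ∀ u, ‖u‖ = 1 → ⟪D.nz (sB D u), f u⟫ = 0)
    (wg : ∀ u, ‖u‖ = 1 → ⟪D.nz (sB D u), g u⟫ = 0)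
    (h : ∀ u, ‖u‖ ≤ 1 → ∀ t ∈ Icc (0 : ℝ) 1, (1 - t) • f u + t • g u ≠ 0) :
    FH (ec (n + 2)) (fun u => T D (sB D u) (f u)) (fun u => T D (sB D u) (g u)) := by
  refine fh_of_segment (cont_T D cf') (cont_T D cg) (fun u hu => hor_T D hu (wf u hu))
    (fun u hu => hor_T D hu (wg u hu)) fun u hu t ht => ?_
  rw [← T_smul, ← T_smul, ← T_add]
  exact T_ne D (sB_ne D hu) (h u hu t ht)

lemma cont_eta (k : Fin m) : ContinuousOn (fun u => D.eta k (sB D u)) (closedBall 0 1) :=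
  cont_gv D (cont_nrm D k) (fun u hu => nrm_ne D (sB_ne D hu)) _ _

lemma cont_df (k l : Fin m) : ContinuousOn (fun u => df D k l (sB D u)) (closedBall 0 1) :=
  (cont_eta D k).sub (cont_eta D l)

lemma cont_gm (k l : Fin m) {a : Bc (n + 2) → W n} (ca : ContinuousOn a (closedBall 0 1))
    (ha : ∀ u, ‖u‖ ≤ 1 → a u ≠ 0) :
    ContinuousOn (fun u => gm D k l (sB D u) (a u)) (closedBall 0 1) := cont_gv D ca ha _ _

/-- Chebyshev. -/
lemma cheb (s : W n) : 0 ≤ ⟪hor s, D.nz s⟫ := by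
  have h1 : Monovary (fun j => D.nz s j) (fun j => s j) := fun i j hij =>
    D.mYp (div_le_div_of_nonneg_right hij.le (norm_nonneg s))
  have h2 := h1.sum_mul_sum_le_card_mul_sum
  rw [Fintype.card_fin] at h2
  push_cast at h2
  have h3 : ⟪hor s, D.nz s⟫ = (∑ j, D.nz s j * s j) -
      (∑ j, D.nz s j) * (∑ j, s j) / (n + 3 : ℝ) := by
    rw [hor, inner_sub_left, inner_smul_left, inner_u1, inner_u1, inner_def]
    simp only [conj_trivial]
    have h4 : √(n + 3 : ℝ) * √(n + 3 : ℝ) = n + 3 := Real.mul_self_sqrt (by positivity)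
    have h5 := (sqrt_pos n).ne'
    have h6 : (∑ j, s j) / √(n + 3 : ℝ) * ((∑ j, D.nz s j) / √(n + 3 : ℝ)) =
        (∑ j, D.nz s j) * (∑ j, s j) / (n + 3 : ℝ) := by
      rw [div_mul_div_comm, h4]
      ring
    rw [h6]
    congr 1
    exact Finset.sum_congr rfl fun j _ => mul_comm _ _
  rw [h3]
  have h7 : (0 : ℝ) < n + 3 := by positivity
  rw [sub_nonneg, div_le_iff₀ h7]
  linarith

end D

end Crest.Agent.R267.HasMatA_652
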