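import Crest.Agent.R267.Hm_951

/-!
# Row 267 (helper951): the class `Hm`, part 2: stable link equivalence

* `sph_of_equiv`: an equivariant homeomorphism `ℂ^ι → ℂ^ι'` induces a homeomorphism of spheres;
* `exists_pch`: change of weights;
* `oplus f g`: sum with separated variables;
* `Tame f`, `TPath f g`, `SEq f g` (stable link equivalence) and their calculus.
-/

set_option autoImplicit false
set_option linter.unusedSectionVars false

noncomputable section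

open Set Filter Topology Metric
open scoped NNReal ContDiff
open Crest.Agent.R267.Reg_808 Crest.Agent.R267.FlowG_951 Crest.Agent.R267.Mneg_951
open Crest.Agent.R267.Cone_808 Crest.Agent.R267.SphReg_808

namespace Crest.Agent.R267.Hm_951

section Equiv

variable {ι ι' : Type*} [Fintype ι] [Fintype ι']

/-- `f` is weighted homogeneous of degree `1` -/
def WH (w : ι → ℝ) (f : (ι → ℂ) → ℂ) : Prop :=
  ∀ (s : ℝ) (x : ι → ℂ), f (act w s x) = Real.exp s • f x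

theorem WH.zero {w : ι → ℝ} {f : (ι → ℂ) → ℂ} (h : WH w f) : f 0 = 0 := by
  have h1 := h 1 0
  rw [act_zero] at h1
  have h2 : (Real.exp 1 - 1) • f 0 = 0 := by rw [sub_smul, one_smul, ← h1, sub_self]
  refine (smul_eq_zero.1 h2).resolve_left ?_
  have := Real.add_one_lt_exp (x := 1) one_ne_zero
  linarith

theorem equiv_zero {w : ι → ℝ} {w' : ι' → ℝ} (hw' : ∀ i, 0 < w' i) {φ : (ι → ℂ) → (ι' → ℂ)}
    (hφ : ∀ s x, φ (act w s x) = act w' s (φ x)) : φ 0 = 0 := by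
  by_contra h
  have h1 := hφ 1 0
  rw [act_zero] at h1
  have h2 := nsq_act_strictMono hw' h (show (0 : ℝ) < 1 from one_pos)
  simp only [act_zero_time] at h2
  rw [← h1] at h2
  exact lt_irrefl _ h2

theorem round_trip {v : ι → ℝ} {v' : ι' → ℝ}
    (hv : ∀ i, 0 < v i) (hv' : ∀ i, 0 < v' i) (a : (ι → ℂ) → (ι' → ℂ)) (b : (ι' → ℂ) → (ι → ℂ))
    (hb : ∀ s x, b (act v' s x) = act v s (b x))
    (hab : ∀ x, b (a x) = x) (s : Sph ι) (h1 : a s ≠ 0)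
    (h2 : b (act v' (-tau hv' ⟨a s, h1⟩) (a s)) ≠ 0) :
    act v (-tau hv ⟨b (act v' (-tau hv' ⟨a s, h1⟩) (a s)), h2⟩)
      (b (act v' (-tau hv' ⟨a s, h1⟩) (a s))) = s := by
  set τ := tau hv' ⟨a s, h1⟩ with hτ
  have e1 : b (act v' (-τ) (a s)) = act v (-τ) s := by rw [hb, hab]
  have e2 : tau hv ⟨b (act v' (-τ) (a s)), h2⟩ = -τ := by
    apply tau_eq
    show nsq (act v (- -τ) (b (act v' (-τ) (a s)))) = 1
    rw [e1, neg_neg, act_act_neg]
    exact s.2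
  rw [e2, e1, neg_neg, act_act_neg]

/-- **an equivariant homeomorphism induces a homeomorphism of spheres** -/
theorem sph_of_equiv {w : ι → ℝ} {w' : ι' → ℝ} (hw : ∀ i, 0 < w i) (hw' : ∀ i, 0 < w' i)
    (φ : (ι → ℂ) ≃ₜ (ι' → ℂ)) (hφ : ∀ s x, φ (act w s x) = act w' s (φ x)) :
    ∃ h : Sph ι ≃ₜ Sph ι', ∀ s : Sph ι, ∃ t : ℝ, (h s : ι' → ℂ) = act w' t (φ s) := by
  have h0 : φ 0 = 0 := equiv_zero hw' hφ
  have hφ' : ∀ s x, φ.symm (act w' s x) = act w s (φ.symm x) := by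
    intro s x
    apply φ.injective
    rw [φ.apply_symm_apply, hφ, φ.apply_symm_apply]
  have h0' : φ.symm 0 = 0 := equiv_zero hw hφ'
  have hne : ∀ s : Sph ι, φ s ≠ 0 := fun s h => s.ne_zero (φ.injective (by rw [h, h0]))
  have hne' : ∀ s : Sph ι', φ.symm s ≠ 0 :=
    fun s h => s.ne_zero (φ.symm.injective (by rw [h, h0']))
  have hc : Continuous fun s : Sph ι => act w' (-tau hw' ⟨φ s, hne s⟩) (φ s) := by
    have h1 : Continuous fun s : Sph ι => φ s := φ.continuous.comp continuous_subtype_val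
    have h2 : Continuous fun s : Sph ι => tau hw' ⟨φ s, hne s⟩ :=
      (continuous_tau hw').comp (Continuous.subtype_mk h1 _)
    exact (continuous_act w').comp (h2.neg.prodMk h1)
  have hc' : Continuous fun s : Sph ι' => act w (-tau hw ⟨φ.symm s, hne' s⟩) (φ.symm s) := by
    have h1 : Continuous fun s : Sph ι' => φ.symm s := φ.symm.continuous.comp continuous_subtype_val
    have h2 : Continuous fun s : Sph ι' => tau hw ⟨φ.symm s, hne' s⟩ :=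
      (continuous_tau hw).comp (Continuous.subtype_mk h1 _)
    exact (continuous_act w).comp (h2.neg.prodMk h1)
  refine ⟨{ toFun := fun s => ⟨act w' (-tau hw' ⟨φ s, hne s⟩) (φ s), nsq_tau hw' ⟨φ s, hne s⟩⟩
            invFun := fun s => ⟨act w (-tau hw ⟨φ.symm s, hne' s⟩) (φ.symm s),
              nsq_tau hw ⟨φ.symm s, hne' s⟩⟩
            left_inv := fun s => Subtype.ext ?_
            right_inv := fun s => Subtype.ext ?_
            continuous_toFun := hc.subtype_mk _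
            continuous_invFun := hc'.subtype_mk _ }, fun s => ⟨_, rfl⟩⟩
  · exact round_trip hw hw' φ φ.symm hφ' φ.symm_apply_apply s _ _
  · exact round_trip hw' hw φ.symm φ hφ φ.apply_symm_apply s _ _

/-- change of weights -/
theorem exists_pch {w w' : ι → ℝ} (hw : ∀ i, 0 < w i) (hw' : ∀ i, 0 < w' i) :
    ∃ φ : (ι → ℂ) ≃ₜ (ι → ℂ), (∀ s x, φ (act w s x) = act w' s (φ x)) ∧
      ∀ x, nsq x = 1 → φ x = x := by
  let k : {x : ι → ℂ // x ≠ 0} ≃ₜ {x : ι → ℂ // x ≠ 0} := (polar hw).trans (polar hw').symm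
  have key : ∀ {v v' : ι → ℝ} (hv : ∀ i, 0 < v i) (hv' : ∀ i, 0 < v' i),
      ∀ U ∈ 𝓝 (0 : ι → ℂ), ∀ᶠ x in 𝓝 (0 : ι → ℂ), ∀ hx : x ≠ 0,
        ((polar hv').symm (polar hv ⟨x, hx⟩) : ι → ℂ) ∈ U := by
    intro v v' hv hv' U hU
    obtain ⟨M, hM⟩ := exists_time_small hv' hU
    filter_upwards [tau_tendsto hv M] with x hx hx0
    rw [polar_symm_apply]
    exact hM _ _ (by rw [polar_apply_snd]; exact hx hx0)
  obtain ⟨φ, h0, hφ⟩ := extend_homeo k (key hw hw') (key hw' hw)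
  have hval : ∀ x (hx : x ≠ 0), φ x = act w' (tau hw ⟨x, hx⟩) (act w (-tau hw ⟨x, hx⟩) x) :=
    fun x hx => hφ x hx
  refine ⟨φ, fun s x => ?_, fun x hx => ?_⟩
  · by_cases hx : x = 0
    · rw [hx, act_zero, h0, act_zero]
    · have hx' : act w s x ≠ 0 := act_ne_zero hx
      have ht : tau hw ⟨act w s x, hx'⟩ = s + tau hw ⟨x, hx⟩ := by
        apply tau_eq
        show nsq (act w (-(s + tau hw ⟨x, hx⟩)) (act w s x)) = 1
        rw [← act_add]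
        have := nsq_tau hw ⟨x, hx⟩
        have e : -(s + tau hw ⟨x, hx⟩) + s = -tau hw ⟨x, hx⟩ := by ring
        rw [e]
        exact this
      rw [hval _ hx', hval _ hx, ht, ← act_add w, ← act_add w']
      congr 2
      ring
  · have hx0 : x ≠ 0 := by
      rintro rfl
      have : nsq (0 : ι → ℂ) = 0 := nsq_eq_zero.2 rfl
      rw [this] at hx
      exact zero_ne_one hx
    have ht : tau hw ⟨x, hx0⟩ = 0 := by
      apply tau_eq
      show nsq (act w (-0) x) = 1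
      rw [neg_zero, act_zero_time, hx]
    rw [hval _ hx0, ht, neg_zero, act_zero_time, act_zero_time]

theorem act_half (s : ℝ) (x : ι → ℂ) : act (fun _ => (1 / 2 : ℝ)) s x = Real.exp (s / 2) • x := by
  funext i
  simp only [act, Pi.smul_apply, Complex.real_smul]
  congr 3
  ring

/-- two weighted homogeneous functions which agree on the sphere -/
theorem eq_comp_of_unit {w w' : ι → ℝ} (hw : ∀ i, 0 < w i)
    {f g : (ι → ℂ) → ℂ} (hf : WH w f) (hg : WH w' g) (hfg : ∀ x, nsq x = 1 → f x = g x)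
    {φ : (ι → ℂ) → (ι → ℂ)} (hφ : ∀ s x, φ (act w s x) = act w' s (φ x)) (h0 : φ 0 = 0)
    (h1 : ∀ x, nsq x = 1 → φ x = x) (x : ι → ℂ) : f x = g (φ x) := by
  by_cases hx : x = 0
  · rw [hx, h0, hf.zero, hg.zero]
  · have e : x = act w (tau hw ⟨x, hx⟩) (act w (-tau hw ⟨x, hx⟩) x) := (act_act_neg w _ _).symm
    have hn := nsq_tau hw ⟨x, hx⟩
    rw [e, hf, hφ, hg, h1 _ hn, hfg _ hn]

end Equiv

/-! ### sums -/

section Sum

variable {ι κ : Type*} [Fintype ι] [Fintype κ]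

/-- sum with separated variables -/
def oplus (f : (ι → ℂ) → ℂ) (g : (κ → ℂ) → ℂ) : (ι ⊕ κ → ℂ) → ℂ :=
  fun z => f (fun i => z (Sum.inl i)) + g (fun i => z (Sum.inr i))

theorem act_elim (w : ι → ℝ) (v : κ → ℝ) (s : ℝ) (z : ι ⊕ κ → ℂ) :
    Homeomorph.sumArrowHomeomorphProdArrow (act (Sum.elim w v) s z) =
      (act w s (Homeomorph.sumArrowHomeomorphProdArrow z).1,
        act v s (Homeomorph.sumArrowHomeomorphProdArrow z).2) := rfl

theorem elim_pos {w : ι → ℝ} {v : κ → ℝ} (hw : ∀ i, 0 < w i) (hv : ∀ i, 0 < v i) :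
    ∀ i, 0 < Sum.elim w v i := by
  rintro (i | i)
  · exact hw i
  · exact hv i

theorem oplus_apply (f : (ι → ℂ) → ℂ) (g : (κ → ℂ) → ℂ) (z : ι ⊕ κ → ℂ) :
    oplus f g z = f (Homeomorph.sumArrowHomeomorphProdArrow z).1 +
      g (Homeomorph.sumArrowHomeomorphProdArrow z).2 := rfl

theorem WH.oplus {w : ι → ℝ} {v : κ → ℝ} {f : (ι → ℂ) → ℂ} {g : (κ → ℂ) → ℂ} (hf : WH w f)
    (hg : WH v g) : WH (Sum.elim w v) (oplus f g) := by
  intro s z
  rw [oplus_apply, act_elim, hf, hg, oplus_apply, smul_add]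

end Sum

/-! ### tame functions and elementary paths -/

section Tame

variable {ι ι' κ κ' τ : Type} [Fintype ι] [Fintype ι'] [Fintype κ] [Fintype κ'] [Fintype τ]

/-- `f` and `g` are the ends of a path in the class `MP`, up to equivariant homeomorphisms. -/
def TPath (f : (ι → ℂ) → ℂ) (g : (ι' → ℂ) → ℂ) : Prop :=
  ∃ (w : ι → ℝ) (w' : ι' → ℝ) (E : Type) (_ : NormedAddCommGroup E) (_ : NormedSpace ℝ E)
    (_ : FiniteDimensional ℝ E) (H : ℝ × E → ℂ) (Ψ : (ι → ℂ) ≃ₜ E) (Ψ' : (ι' → ℂ) ≃ₜ E),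
    (∀ i, 0 < w i) ∧ (∀ i, 0 < w' i) ∧ MP H ∧
    (∀ s x, Ψ (act w s x) = Real.exp (s / 2) • Ψ x) ∧
    (∀ s x, Ψ' (act w' s x) = Real.exp (s / 2) • Ψ' x) ∧
    (∀ x, f x = H (0, Ψ x)) ∧ ∀ x, g x = H (1, Ψ' x)

/-- tame functions: members of the class up to an equivariant homeomorphism. -/
def Tame (f : (ι → ℂ) → ℂ) : Prop :=
  ∃ (w : ι → ℝ) (E : Type) (_ : NormedAddCommGroup E) (_ : NormedSpace ℝ E)
    (_ : FiniteDimensional ℝ E) (G : E → ℂ) (Ψ : (ι → ℂ) ≃ₜ E),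
    (∀ i, 0 < w i) ∧ MP (fun p : ℝ × E => G p.2) ∧
    (∀ s x, Ψ (act w s x) = Real.exp (s / 2) • Ψ x) ∧ ∀ x, f x = G (Ψ x)

theorem Tame.tpath {f : (ι → ℂ) → ℂ} (h : Tame f) : TPath f f := by
  obtain ⟨w, E, i1, i2, i3, G, Ψ, hw, hG, hΨ, hf⟩ := h
  exact ⟨w, w, E, i1, i2, i3, fun p => G p.2, Ψ, Ψ, hw, hw, hG, hΨ, hΨ, hf, hf⟩

theorem Tame.wh {f : (ι → ℂ) → ℂ} (h : Tame f) : ∃ w : ι → ℝ, (∀ i, 0 < w i) ∧ WH w f := by
  obtain ⟨w, E, i1, i2, i3, G, Ψ, hw, hG, hΨ, hf⟩ := h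
  refine ⟨w, hw, fun s x => ?_⟩
  have h1 := hG.hom 0 (by simp) (Real.exp (s / 2)) (Real.exp_pos _) (Ψ x)
  rw [hf, hΨ, hf]
  refine h1.trans ?_
  rw [← Real.exp_nat_mul]
  congr 2
  push_cast
  ring

/-- homeomorphism of spheres from an elementary path -/
theorem TPath.link {f : (ι → ℂ) → ℂ} {g : (ι' → ℂ) → ℂ} (h : TPath f g) :
    ∃ k : Sph ι ≃ₜ Sph ι', ∀ s : Sph ι, f s = 0 ↔ g (k s) = 0 := by
  obtain ⟨w, w', E, i1, i2, i3, H, Ψ, Ψ', hw, hw', hH, hΨ, hΨ', hf, hg⟩ := h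
  obtain ⟨a, ha, ha0, haN, -⟩ := hH.exists_homeo
  have hΨs : ∀ (s : ℝ) (y : E), Ψ'.symm (Real.exp (s / 2) • y) = act w' s (Ψ'.symm y) := by
    intro s y
    apply Ψ'.injective
    rw [Ψ'.apply_symm_apply, hΨ', Ψ'.apply_symm_apply]
  let φ : (ι → ℂ) ≃ₜ (ι' → ℂ) := Ψ.trans (a.trans Ψ'.symm)
  have hφ : ∀ x, φ x = Ψ'.symm (a (Ψ x)) := fun x => rfl
  have hφe : ∀ s x, φ (act w s x) = act w' s (φ x) := by
    intro s x
    rw [hφ, hφ, hΨ, ha _ (Real.exp_pos _), hΨs]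
  obtain ⟨k, hk⟩ := sph_of_equiv hw hw' φ hφe
  refine ⟨k, fun s => ?_⟩
  obtain ⟨t, ht⟩ := hk s
  have hz : ∀ x, g (φ x) = 0 ↔ f x = 0 := by
    intro x
    rw [hg, hφ, Ψ'.apply_symm_apply, hf]
    exact zero_iff_of haN (Ψ x)
  have hgt : g (k s) = 0 ↔ g (φ s) = 0 := by
    rw [ht, hg, hg, hΨ', hH.hom 1 (by simp) _ (Real.exp_pos _), smul_eq_zero,
      or_iff_right (pow_ne_zero 2 (Real.exp_pos _).ne')]
  rw [hgt, hz]

/-- product chart -/
def prodChart {E E' : Type} [TopologicalSpace E] [TopologicalSpace E'] (Ψ : (ι → ℂ) ≃ₜ E)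
    (Ψ' : (κ → ℂ) ≃ₜ E') : (ι ⊕ κ → ℂ) ≃ₜ E × E' :=
  Homeomorph.sumArrowHomeomorphProdArrow.trans (Ψ.prodCongr Ψ')

theorem prodChart_apply {E E' : Type} [TopologicalSpace E] [TopologicalSpace E'] (Ψ : (ι → ℂ) ≃ₜ E)
    (Ψ' : (κ → ℂ) ≃ₜ E') (z : ι ⊕ κ → ℂ) :
    prodChart Ψ Ψ' z = (Ψ (fun i => z (Sum.inl i)), Ψ' (fun i => z (Sum.inr i))) := rfl

theorem prodChart_act {E E' : Type} [NormedAddCommGroup E] [NormedSpace ℝ E]
    [NormedAddCommGroup E'] [NormedSpace ℝ E'] {Ψ : (ι → ℂ) ≃ₜ E} {Ψ' : (κ → ℂ) ≃ₜ E'}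
    {w : ι → ℝ} {v : κ → ℝ} (h : ∀ s x, Ψ (act w s x) = Real.exp (s / 2) • Ψ x)
    (h' : ∀ s x, Ψ' (act v s x) = Real.exp (s / 2) • Ψ' x) (s : ℝ) (z : ι ⊕ κ → ℂ) :
    prodChart Ψ Ψ' (act (Sum.elim w v) s z) = Real.exp (s / 2) • prodChart Ψ Ψ' z := by
  rw [prodChart_apply, prodChart_apply, Prod.smul_mk, ← h, ← h']
  rfl

theorem TPath.oplus {f : (ι → ℂ) → ℂ} {g : (ι' → ℂ) → ℂ} {f' : (κ → ℂ) → ℂ} {g' : (κ' → ℂ) → ℂ}
    (h : TPath f g) (h' : TPath f' g') : TPath (oplus f f') (oplus g g') := by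
  obtain ⟨w, w', E, i1, i2, i3, H, Ψ, Ψ', hw, hw', hH, hΨ, hΨ', hf, hg⟩ := h
  obtain ⟨v, v', E', j1, j2, j3, K, Θ, Θ', hv, hv', hK, hΘ, hΘ', hf', hg'⟩ := h'
  refine ⟨Sum.elim w v, Sum.elim w' v', E × E', inferInstance, inferInstance, inferInstance,
    osum H K, prodChart Ψ Θ, prodChart Ψ' Θ', elim_pos hw hv, elim_pos hw' hv', hH.sum hK,
    prodChart_act hΨ hΘ, prodChart_act hΨ' hΘ', fun z => ?_, fun z => ?_⟩
  · show f _ + f' _ = _
    rw [hf, hf']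
    rfl
  · show g _ + g' _ = _
    rw [hg, hg']
    rfl

theorem Tame.oplus {f : (ι → ℂ) → ℂ} {g : (κ → ℂ) → ℂ} (h : Tame f) (h' : Tame g) :
    Tame (oplus f g) := by
  obtain ⟨w, E, i1, i2, i3, G, Ψ, hw, hG, hΨ, hf⟩ := h
  obtain ⟨v, E', j1, j2, j3, K, Θ, hv, hK, hΘ, hg⟩ := h'
  refine ⟨Sum.elim w v, E × E', inferInstance, inferInstance, inferInstance,
    fun p => G p.1 + K p.2, prodChart Ψ Θ, elim_pos hw hv, hG.sum hK,
    prodChart_act hΨ hΘ, fun z => ?_⟩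
  show f _ + g _ = _
  rw [hf, hg]
  rfl

/-! ### stable link equivalence -/

/-- **stable link equivalence** -/
def SEq (f : (ι → ℂ) → ℂ) (g : (ι' → ℂ) → ℂ) : Prop :=
  ∀ (κ : Type) [Fintype κ] (h : (κ → ℂ) → ℂ), Tame h →
    ∃ k : Sph (ι ⊕ κ) ≃ₜ Sph (ι' ⊕ κ), ∀ s : Sph (ι ⊕ κ),
      Hm_951.oplus f h s = 0 ↔ Hm_951.oplus g h (k s) = 0

theorem SEq.refl (f : (ι → ℂ) → ℂ) : SEq f f := fun _ _ _ _ => ⟨Homeomorph.refl _, fun _ => Iff.rfl⟩

theorem SEq.symm {f : (ι → ℂ) → ℂ} {g : (ι' → ℂ) → ℂ} (h : SEq f g) : SEq g f := by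
  intro κ _ u hu
  obtain ⟨k, hk⟩ := h κ u hu
  refine ⟨k.symm, fun s => ?_⟩
  rw [hk, k.apply_symm_apply]

theorem SEq.trans {f : (ι → ℂ) → ℂ} {g : (ι' → ℂ) → ℂ} {u : (τ → ℂ) → ℂ} (h : SEq f g)
    (h' : SEq g u) : SEq f u := by
  intro κ _ v hv
  obtain ⟨k, hk⟩ := h κ v hv
  obtain ⟨l, hl⟩ := h' κ v hv
  exact ⟨k.trans l, fun s => (hk s).trans (hl (k s))⟩

/-- elementary paths -/
theorem TPath.seq {f : (ι → ℂ) → ℂ} {g : (ι' → ℂ) → ℂ} (h : TPath f g) : SEq f g :=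
  fun _ _ _ hu => (h.oplus hu.tpath).link

/-- equivariant homeomorphisms -/
theorem seq_of_equiv {f : (ι → ℂ) → ℂ} {g : (ι' → ℂ) → ℂ} {w : ι → ℝ} {w' : ι' → ℝ}
    (hw : ∀ i, 0 < w i) (hw' : ∀ i, 0 < w' i) (hg : WH w' g) (φ : (ι → ℂ) ≃ₜ (ι' → ℂ))
    (hφ : ∀ s x, φ (act w s x) = act w' s (φ x)) (hfg : ∀ x, f x = g (φ x)) : SEq f g := by
  intro κ _ u hu
  obtain ⟨v, hv, huv⟩ := hu.wh
  let θ : (ι ⊕ κ → ℂ) ≃ₜ (ι' ⊕ κ → ℂ) :=
    (prodChart φ (Homeomorph.refl (κ → ℂ))).trans Homeomorph.sumArrowHomeomorphProdArrow.symm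
  have e1 : ∀ z i, θ z (Sum.inl i) = φ (fun i => z (Sum.inl i)) i := fun z i => rfl
  have e2 : ∀ z i, θ z (Sum.inr i) = z (Sum.inr i) := fun z i => rfl
  have hθ : ∀ s z, θ (act (Sum.elim w v) s z) = act (Sum.elim w' v) s (θ z) := by
    intro s z
    funext i
    rcases i with i | i
    · rw [e1]
      have h1 : (fun i => act (Sum.elim w v) s z (Sum.inl i)) = act w s (fun i => z (Sum.inl i)) :=
        rfl
      rw [h1, hφ]
      rfl
    · rw [e2]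
      rfl
  obtain ⟨k, hk⟩ := sph_of_equiv (elim_pos hw hv) (elim_pos hw' hv) θ hθ
  refine ⟨k, fun s => ?_⟩
  obtain ⟨t, ht⟩ := hk s
  have h1 : Hm_951.oplus g u (θ s) = Hm_951.oplus f u s := by
    show g (fun i => θ s (Sum.inl i)) + u (fun i => θ s (Sum.inr i)) = f _ + u _
    rw [hfg]
    rfl
  rw [ht, hg.oplus huv, smul_eq_zero, or_iff_right (Real.exp_pos t).ne', h1]

/-- weighted homogeneous functions (any weights) which agree on the unit sphere -/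
theorem seq_of_unit {f g : (ι → ℂ) → ℂ} {w w' : ι → ℝ} (hw : ∀ i, 0 < w i) (hw' : ∀ i, 0 < w' i)
    (hf : WH w f) (hg : WH w' g) (hfg : ∀ x, nsq x = 1 → f x = g x) : SEq f g := by
  obtain ⟨φ, hφ, h1⟩ := exists_pch hw hw'
  exact seq_of_equiv hw hw' hg φ hφ
    (eq_comp_of_unit hw hf hg hfg hφ (equiv_zero hw' hφ) h1)

/-- reindexing -/
theorem nsq_reindex (e : ι ≃ ι') (x : ι' → ℂ) : nsq (fun i => x (e i)) = nsq x := by
  unfold nsq
  exact Equiv.sum_comp e fun i => ‖x i‖ ^ 2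

/-- reindexing of spheres -/
def sphReindex (e : ι ≃ ι') : Sph ι ≃ₜ Sph ι' where
  toFun s := ⟨fun i => (s : ι → ℂ) (e.symm i), by rw [nsq_reindex e.symm]; exact s.2⟩
  invFun s := ⟨fun i => (s : ι' → ℂ) (e i), by rw [nsq_reindex e]; exact s.2⟩
  left_inv s := by
    apply Subtype.ext
    funext i
    simp
  right_inv s := by
    apply Subtype.ext
    funext i
    simp
  continuous_toFun := by
    refine Continuous.subtype_mk (continuous_pi fun i => ?_) _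
    exact (continuous_apply _).comp continuous_subtype_val
  continuous_invFun := by
    refine Continuous.subtype_mk (continuous_pi fun i => ?_) _
    exact (continuous_apply _).comp continuous_subtype_val

theorem sphReindex_apply (e : ι ≃ ι') (s : Sph ι) (i : ι') :
    (sphReindex e s : ι' → ℂ) i = (s : ι → ℂ) (e.symm i) := rfl

/-- **sums** -/
theorem SEq.oplus {f : (ι → ℂ) → ℂ} {f' : (ι' → ℂ) → ℂ} {g : (κ → ℂ) → ℂ} {g' : (κ' → ℂ) → ℂ}
    (h : SEq f f') (h' : SEq g g') (hf' : Tame f') (hg : Tame g) :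
    SEq (oplus f g) (oplus f' g') := by
  intro τ _ u hu
  obtain ⟨k, hk⟩ := h (κ ⊕ τ) (Hm_951.oplus g u) (hg.oplus hu)
  obtain ⟨l, hl⟩ := h' (ι' ⊕ τ) (Hm_951.oplus f' u) (hf'.oplus hu)
  let e₁ : (ι ⊕ κ) ⊕ τ ≃ ι ⊕ (κ ⊕ τ) := Equiv.sumAssoc ι κ τ
  let e₂ : ι' ⊕ (κ ⊕ τ) ≃ κ ⊕ (ι' ⊕ τ) :=
    (Equiv.sumAssoc ι' κ τ).symm.trans
      (((Equiv.sumComm ι' κ).sumCongr (Equiv.refl τ)).trans (Equiv.sumAssoc κ ι' τ))
  let e₃ : κ' ⊕ (ι' ⊕ τ) ≃ (ι' ⊕ κ') ⊕ τ :=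
    (Equiv.sumAssoc κ' ι' τ).symm.trans ((Equiv.sumComm κ' ι').sumCongr (Equiv.refl τ))
  refine ⟨(sphReindex e₁).trans (k.trans ((sphReindex e₂).trans (l.trans (sphReindex e₃)))),
    fun s => ?_⟩
  have h1 : Hm_951.oplus (Hm_951.oplus f g) u s =
      Hm_951.oplus f (Hm_951.oplus g u) (sphReindex e₁ s) := add_assoc _ _ _
  have h2 : ∀ s : Sph (ι' ⊕ (κ ⊕ τ)), Hm_951.oplus f' (Hm_951.oplus g u) s =
      Hm_951.oplus g (Hm_951.oplus f' u) (sphReindex e₂ s) := fun s => by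
    show f' _ + (g _ + u _) = g _ + (f' _ + u _)
    exact add_left_comm _ _ _
  have h3 : ∀ s : Sph (κ' ⊕ (ι' ⊕ τ)), Hm_951.oplus g' (Hm_951.oplus f' u) s =
      Hm_951.oplus (Hm_951.oplus f' g') u (sphReindex e₃ s) := fun s => by
    show g' _ + (f' _ + u _) = (f' _ + g' _) + u _
    rw [← add_assoc, add_comm (g' _)]
    rfl
  rw [h1, hk, h2, hl, h3]
  rfl

/-- the zero function in no variable is tame -/
theorem tame_empty : Tame (fun _ : Empty → ℂ => (0 : ℂ)) := by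
  refine ⟨fun _ => 1, Empty → ℂ, inferInstance, inferInstance, inferInstance, fun _ => 0,
    Homeomorph.refl _, fun i => i.elim, ?_, fun s x => Subsingleton.elim _ _, fun _ => rfl⟩
  refine ⟨fun t _ x => differentiableAt_const _, ?_, fun t _ r _ x => by simp, fun t _ x hx =>
    absurd (Subsingleton.elim x 0) hx⟩
  have : fderiv ℝ (fun _ : ℝ × (Empty → ℂ) => (0 : ℂ)) = fun _ => 0 := by
    funext p
    exact (hasFDerivAt_const (0 : ℂ) p).fderiv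
  rw [this]
  intro p hp
  exact ⟨0, univ, univ_mem, by intro q _ q' _; simp⟩

/-- **homeomorphism of the links** -/
theorem SEq.link {f : (ι → ℂ) → ℂ} {g : (ι' → ℂ) → ℂ} (h : SEq f g) :
    ∃ k : Sph ι ≃ₜ Sph ι', ∀ s : Sph ι, f s = 0 ↔ g (k s) = 0 := by
  obtain ⟨k, hk⟩ := h Empty (fun _ => 0) tame_empty
  refine ⟨(sphReindex (Equiv.sumEmpty ι Empty).symm).trans (k.trans
    (sphReindex (Equiv.sumEmpty ι' Empty))), fun s => ?_⟩
  have h1 : f s = Hm_951.oplus f (fun _ : Empty → ℂ => (0 : ℂ))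
      (sphReindex (Equiv.sumEmpty ι Empty).symm s) := (add_zero _).symm
  have h2 : ∀ s : Sph (ι' ⊕ Empty), g (sphReindex (Equiv.sumEmpty ι' Empty) s) =
      Hm_951.oplus g (fun _ : Empty → ℂ => (0 : ℂ)) s := fun s => (add_zero _).symm
  rw [h1, hk, ← h2]
  rfl

end Tame

end Crest.Agent.R267.Hm_951
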