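import Crest.Agent.R267.HubDefs_284
import Crest.Agent.R267.Asm406_808
import Crest.Agent.R267.NdY_484
import Crest.Agent.R267.SFLDc_330

/-!
# S0406, hub step: assembly (helper284)

* bridges between the stages of `HubDefs_284` (`fs_slice`, `fs_one`, `fs_zero`, `hx_zero`);
* `hub` : `PowP`, `BoxP`, `StartP`, `Path1P`, `Path2P` give
  `∃ M0, ∀ M ≥ M0, ZEq (F1 b D M) (XX b D).fn`;
* `xx_ok`, `xx_okF`, `xx_okG` : the final polar data are admissible;
* `ArmsP b D` (C1) and `hubProp` : the function level `HubProp b D`;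
* `lit` : the literal S0406.
-/

set_option autoImplicit false

noncomputable section

open Finset Set
open Crest.Agent.R267.T3aNDefs_88 Crest.Agent.R267.Hm_951 Crest.Agent.R267.Ang_739
open Crest.Agent.R267.GlNDefs_9 Crest.Agent.R267.NdR_484 Crest.Agent.R267.StairFn_739
open Crest.Agent.R267.WordPh_9 Crest.Agent.R267.WordPh2_9 Crest.Agent.R267.HubDefs_284
open Crest.Agent.R267.PolF_943 Crest.Agent.R267.NdY_484 Crest.Agent.R267.Asm406_808
open Crest.Agent.R267.SFLDc_330 Crest.Agent.R267.SFLDb_330 Crest.Agent.R267.SFLDa_330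
open Crest.Agent.R267.SFDefs_330 Crest.Agent.R267.SFLD_330

namespace Crest.Agent.R267.HubAsm_284

variable (b : Bool) (D : SD 4)

/-! ### slices of the hub family -/

/-- a slice only sees the values of the parameters at that time. -/
theorem fs_slice (H : ℕ → ℕ → ℝ → ℝ) (s : ℝ → ℝ) (A B : ℝ → ℝ → ℝ) (t : ℝ) (z : E4) :
    Fs b D H s A B (t, z) =
      Fs b D H (fun _ => s t) (fun _ x => A t x) (fun _ x => B t x) (0, z) := by
  unfold Fs PF
  refine Finset.sum_congr rfl fun v _ => ?_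
  rcases v with i | k | e <;> rfl

/-- at `s = 1` the family is the hub function. -/
theorem fs_one (H : ℕ → ℕ → ℝ → ℝ) (A B : ℝ → ℝ → ℝ) :
    Fs b D H (fun _ => 1) A B = (HX b D H A B).fn := by
  funext q
  unfold Fs HubEng_370.Hub.fn PF
  refine Finset.sum_congr rfl fun v _ => ?_
  rcases v with i | k | e
  · rfl
  · unfold PM
    congr 1
    show ((HX b D H A B).amp k (q.1, ag q.2) : ℂ) *
        cis (StairPh_739.path (Ph b H k) (hh b D) (vc b k) (1, ag q.2)) =
      ((HX b D H A B).amp k (q.1, ag q.2) : ℂ) *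
        cis (Ph b H k (StairPh_739.lft (hh b D) (ag q.2)))
    rw [StairPh_739.path]
    simp
  · rfl

/-- at `s = 0` the family does not see the staircases. -/
theorem fs_zero (H H' : ℕ → ℕ → ℝ → ℝ) (A B : ℝ → ℝ → ℝ) :
    Fs b D H (fun _ => 0) A B = Fs b D H' (fun _ => 0) A B := by
  funext q
  unfold Fs PF
  refine Finset.sum_congr rfl fun v _ => ?_
  rcases v with i | k | e
  · rfl
  · unfold PM
    congr 1
    show ((HX b D H A B).amp k (q.1, ag q.2) : ℂ) *
        cis (StairPh_739.path (Ph b H k) (hh b D) (vc b k) (0, ag q.2)) =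
      ((HX b D H' A B).amp k (q.1, ag q.2) : ℂ) *
        cis (StairPh_739.path (Ph b H' k) (hh b D) (vc b k) (0, ag q.2))
    rw [StairPh_739.path, StairPh_739.path]
    simp only [zero_mul, add_zero]
    rfl
  · rfl

theorem hx_slice (H : ℕ → ℕ → ℝ → ℝ) (A B : ℝ → ℝ → ℝ) (t : ℝ) (z : E4) :
    (HX b D H A B).fn (t, z) = (HX b D H (fun _ x => A t x) (fun _ x => B t x)).fn (0, z) := by
  rw [← fs_one, ← fs_one, fs_slice]

/-- magnitude of a box -/
theorem mag_box (S : Finset (Fin 4)) (d : Fin 4 → ℝ) (z : E4) :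
    mag (fun j => if j ∈ S then d j else 0) z = ∏ j ∈ S, ‖z j‖ ^ d j := by
  unfold mag
  rw [← Finset.prod_filter_mul_prod_filter_not Finset.univ (fun j => j ∈ S)]
  have h1 : ∏ j ∈ Finset.univ.filter (fun j => ¬ j ∈ S), ‖z j‖ ^ (if j ∈ S then d j else 0) =
      1 := by
    refine Finset.prod_eq_one fun j hj => ?_
    rw [if_neg (Finset.mem_filter.1 hj).2, Real.rpow_zero]
  rw [h1, mul_one]
  refine Finset.prod_congr (by ext; simp) fun j hj => ?_
  show ‖z j‖ ^ (if j ∈ S then d j else 0) = _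
  rw [if_pos (by simpa using hj)]

/-- the end of the hub step. -/
theorem hx_zero (H : ℕ → ℕ → ℝ → ℝ) (A B : ℝ → ℝ → ℝ) {t : ℝ} (hA : ∀ x, A t x = 0)
    (hB : ∀ x, B t x = 0) (z : E4) : (HX b D H A B).fn (t, z) = (XX b D).fn z := by
  unfold HubEng_370.Hub.fn PF
  rw [Fintype.sum_sum_type, Fintype.sum_sum_type]
  have e1 : ∀ i : Fin 4, PM ((HX b D H A B).E (Sum.inl i)) ((HX b D H A B).C (Sum.inl i)) (t, z) =
      pc (D3 b i) 1 (pp D i) (z i) := by
    intro i
    show (mag (Pi.single i (D3 b i)) z : ℂ) * cis (pp D i (ag z i)) = _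
    rw [HubEng_370.Hub.mag_single]
    simp only [pc, pol, Complex.real_smul, Complex.ofReal_one, one_mul]
    rfl
  have e2 : ∀ k : Fin 2, PM ((HX b D H A B).E (Sum.inr (Sum.inl k)))
      ((HX b D H A B).C (Sum.inr (Sum.inl k))) (t, z) = 0 := by
    intro k
    have : (HX b D H A B).amp k (t, ag z) = 0 := by
      show (if k = 0 then A t (ag z 0) else B t (ag z 0)) = 0
      rw [hA, hB, ite_self]
    show (mag _ z : ℂ) * ((((HX b D H A B).amp k (t, ag z) : ℝ) : ℂ) * _) = 0
    rw [this]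
    simp
  have e3 : ∀ e : Fin D.nb, PM ((HX b D H A B).E (Sum.inr (Sum.inr e)))
      ((HX b D H A B).C (Sum.inr (Sum.inr e))) (t, z) =
      -((cc D e * ∏ j ∈ (D.bx e).S, pol (D3 b j / cd D e) (ww D e j) (z j) : ℝ) : ℂ) := by
    intro e
    show (mag (fun j => if j ∈ (D.bx e).S then D3 b j / cd D e else 0) z : ℂ) *
      (-((cc D e * (∏ j, (if j ∈ (D.bx e).S then ww D e j else fun _ => 1) (ag z j)) : ℝ) : ℂ)) = _
    rw [mag_box]
    have h1 : ∏ j, (if j ∈ (D.bx e).S then ww D e j else fun _ => (1 : ℝ)) (ag z j) =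
        ∏ j ∈ (D.bx e).S, ww D e j (ag z j) := by
      rw [← Finset.prod_filter_mul_prod_filter_not Finset.univ (fun j => j ∈ (D.bx e).S)]
      have h2 : ∏ j ∈ Finset.univ.filter (fun j => ¬ j ∈ (D.bx e).S),
          (if j ∈ (D.bx e).S then ww D e j else fun _ => (1 : ℝ)) (ag z j) = 1 := by
        refine Finset.prod_eq_one fun j hj => ?_
        rw [if_neg (Finset.mem_filter.1 hj).2]
      rw [h2, mul_one]
      refine Finset.prod_congr (by ext; simp) fun j hj => ?_
      rw [if_pos (by simpa using hj)]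
    have h3 : ∏ j ∈ (D.bx e).S, pol (D3 b j / cd D e) (ww D e j) (z j) =
        (∏ j ∈ (D.bx e).S, ‖z j‖ ^ (D3 b j / cd D e)) * ∏ j ∈ (D.bx e).S, ww D e j (ag z j) := by
      rw [← Finset.prod_mul_distrib]
      rfl
    rw [h1, h3]
    push_cast
    ring
  rw [Finset.sum_congr rfl fun i _ => e1 i, Finset.sum_congr rfl fun k _ => e2 k,
    Finset.sum_congr rfl fun e _ => e3 e]
  unfold PD.fn
  simp only [Finset.sum_const_zero, zero_add, Finset.sum_neg_distrib, Complex.ofReal_sum]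
  rfl

/-! ### the chain -/

/-- **the hub step**: from `F1` to the final polar function. -/
theorem hub (hP : PowP b D) (hB : BoxP b D) (hS : StartP b D) (h1 : Path1P b D)
    (h2 : Path2P b D) : ∃ M0 : ℝ, ∀ M ≥ M0, ZEq (F1 b D M) (XX b D).fn := by
  obtain ⟨mB, hB⟩ := hB
  obtain ⟨mS, hS⟩ := hS
  obtain ⟨m1, h1⟩ := h1
  obtain ⟨m2, h2⟩ := h2
  refine ⟨max (max mB mS) (max m1 m2), fun M hM => ?_⟩
  have z0 := hP M
  have z1 := (hB M (((le_max_left _ _).trans (le_max_left _ _)).trans hM)).link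
  have z2 := (hS M (((le_max_right _ _).trans (le_max_left _ _)).trans hM)).link
  have z3 := (h1 M (((le_max_left _ _).trans (le_max_right _ _)).trans hM)).link
  have z4 := (h2 M (((le_max_right _ _).trans (le_max_right _ _)).trans hM)).link
  -- the corners
  have e0 : (fun x : E4 => (fun q : ℝ × E4 => Fs b D Gs (fun _ => 0) (fun _ _ => M) (fun _ _ => M)
      (0, q.2) + (((1 - q.1) * (boxP D (D3 b) q.2 - boxH D (D3 b) q.2) : ℝ) : ℂ)) (0, x)) =
      F2 b D M := by
    funext x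
    simp only [F2, sub_zero, one_mul]
  have e1 : (fun x : E4 => (fun q : ℝ × E4 => Fs b D Gs (fun _ => 0) (fun _ _ => M) (fun _ _ => M)
      (0, q.2) + (((1 - q.1) * (boxP D (D3 b) q.2 - boxH D (D3 b) q.2) : ℝ) : ℂ)) (1, x)) =
      fun x => Fs b D (Hs dd_pos) (fun t => t) (fun _ _ => M) (fun _ _ => M) (0, x) := by
    funext x
    simp only [sub_self, zero_mul, Complex.ofReal_zero, add_zero]
    rw [fs_zero b D Gs (Hs dd_pos)]
    exact (fs_slice b D (Hs dd_pos) (fun t => t) (fun _ _ => M) (fun _ _ => M) 0 x).symm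
  have e2 : (fun x : E4 => Fs b D (Hs dd_pos) (fun t => t) (fun _ _ => M) (fun _ _ => M) (1, x)) =
      fun x => (HX b D (Hs dd_pos) (fun t x => M * (1 - t * (1 - chi b D x)))
        fun t x => M * (1 - t * chi b D x)).fn (0, x) := by
    funext x
    rw [fs_slice, fs_one, hx_slice b D (Hs dd_pos) (fun t x => M * (1 - t * (1 - chi b D x)))]
    simp only [zero_mul, sub_zero, mul_one]
  have e3 : (fun x : E4 => (HX b D (Hs dd_pos) (fun t x => M * (1 - t * (1 - chi b D x)))
        fun t x => M * (1 - t * chi b D x)).fn (1, x)) =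
      fun x => (HX b D (Hs dd_pos) (fun t x => (1 - t) * (M * chi b D x))
        fun t x => (1 - t) * (M * (1 - chi b D x))).fn (0, x) := by
    funext x
    rw [hx_slice, hx_slice b D (Hs dd_pos) (fun t x => (1 - t) * (M * chi b D x))]
    simp only [one_mul, sub_zero, sub_sub_cancel]
  have e4 : (fun x : E4 => (HX b D (Hs dd_pos) (fun t x => (1 - t) * (M * chi b D x))
        fun t x => (1 - t) * (M * (1 - chi b D x))).fn (1, x)) = (XX b D).fn := by
    funext x
    exact hx_zero b D _ _ _ (fun y => by ring) (fun y => by ring) x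
  rw [e0, e1] at z1
  rw [e2] at z2
  rw [e3] at z3
  rw [e4] at z4
  exact z0.trans (z1.trans (z2.trans (z3.trans z4)))

/-! ### the final polar data are admissible -/

variable {b D}

theorem sn_pm (j : Fin 4) (l : ℕ) : D.sn j l = 1 ∨ D.sn j l = -1 := by
  unfold SD.sn
  split
  · exact Or.inr rfl
  · exact Or.inl rfl

theorem D3_big (b : Bool) (j : Fin 4) : 15 / 2 ≤ D3 b j := by
  cases b <;> fin_cases j <;> norm_num [D3, DS]

/-- **the final polar data are admissible.** -/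
theorem xx_ok (hc : ∀ e, (D.bx e).S.card = 2 ∨ (D.bx e).S.card = 3)
    (hlo : ∀ e, ∀ j ∈ (D.bx e).S, (D.bx e).lo j ≤ (D.bx e).hi j) : (XX b D).Ok where
  hdg := fun j => by
    have := D3_big b j
    show 2 < D3 b j
    linarith
  hdg2 := fun e j _ => by
    have h1 := D3_big b j
    show 2 * ((D.bx e).S.card : ℝ) < D3 b j
    rcases hc e with h | h <;> rw [h] <;> norm_num <;> linarith
  arcs := fun j => warcs (arcsE (D.M j))
  ph := fun j => wrd (arcsE (D.M j)) (sn_pm (D := D) j)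
  hc := fun e => by
    show ((D.bx e).S.card : ℝ) < if (D.bx e).S.card = 2 then 5 / 2 else 4
    rcases hc e with h | h <;> rw [h] <;> norm_num
  lam := fun e j hj => winA' (arcsE (D.M j)) (hlo e j hj) (D.hhi e j hj)

/-! ### the function level -/

variable (b D)

/-- **C1**: the official arms are joined to arms in target form. -/
def ArmsP : Prop := ∃ r1 : ℝ, 0 < r1 ∧ ∀ r, 0 < r → r ≤ r1 → ∃ W1 : ℝ, ∀ W, W1 ≤ W →
  ∃ A : Fin 3 → ℂ × ℂ → ℂ, (∀ v, AEq b v (Ab b W r v) (A v)) ∧ ∀ v, Tgt b D v (A v)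

variable {b D}

/-- the official arms are arms. -/
theorem arm_Ab (b : Bool) : ∃ r1 : ℝ, 0 < r1 ∧ ∃ W0 : ℝ, ∀ W ≥ W0, ∀ r, 0 < r → r ≤ r1 →
    ∀ v, Arm b v (Ab b W r v) := by
  obtain ⟨r1, hr1, W0, _, H⟩ := NdZ_484.arms_arm
  refine ⟨r1, hr1, W0, fun W hW r hr hrr => ?_⟩
  obtain ⟨h1, h2⟩ := H W hW r hr hrr
  cases b
  · exact h2
  · exact h1

/-- **the function level** `HubProp` from the arrows C1, C2, C3, C4, C7. -/
theorem hubProp (hA : ArmsP b D) (hG : GamP b D) (hP : PowP b D) (hB : BoxP b D)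
    (hS : StartP b D) (h1 : Path1P b D) (h2 : Path2P b D) (hX : (XX b D).Ok) : HubProp b D := by
  obtain ⟨mh, hh⟩ := hub b D hP hB hS h1 h2
  obtain ⟨r1, hr1, h⟩ := hA
  obtain ⟨r2, hr2, W0, H⟩ := arm_Ab b
  refine ⟨min r1 r2, lt_min hr1 hr2, fun r hr hrr => ?_⟩
  obtain ⟨W1, h⟩ := h r hr (hrr.trans (min_le_left _ _))
  refine ⟨max W0 W1, fun W hW M0 => ?_⟩
  obtain ⟨A, hA, hT⟩ := h W ((le_max_right _ _).trans hW)
  obtain ⟨hArm, m, _, hm⟩ := zeq_of_aeq
    (H W ((le_max_left _ _).trans hW) r hr (hrr.trans (min_le_right _ _))) hA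
  obtain ⟨mg, hg⟩ := hG A hArm hT
  refine ⟨max (max M0 m) (max mg mh), (le_max_left _ _).trans (le_max_left _ _), XX b D, hX, ?_⟩
  exact (hm _ ((le_max_right _ _).trans (le_max_left _ _))).trans
    ((hg _ ((le_max_left _ _).trans (le_max_right _ _))).trans
      (hh _ ((le_max_right _ _).trans (le_max_right _ _))))

end Crest.Agent.R267.HubAsm_284
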