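import Crest.Agent.R267.HubEng_370

/-!
# Row 267 (helper370): real form and rounding of the pointwise data `Out` of `HubEng_370`

At a critical zero: signs `es i`, `sv v ∈ {1, -1}`, primed magnitudes `R' = R |rf|`, `r' = r |rf|`,
`B' = ζ.re B`, the exact radial equations `real`, bounds `R'_ge`, .., integer positions `pos`.
-/

set_option autoImplicit false
set_option linter.unusedSectionVars false

noncomputable section

open Set Filter Topology
open scoped ContDiff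
open Crest.Agent.R267.Ang_739 Crest.Agent.R267.StairFn_739 Crest.Agent.R267.StairPh_739
open Crest.Agent.R267.LemL_951 Crest.Agent.R267.PolF_943 Crest.Agent.R267.RndP_222
open Crest.Agent.R267.HubEng_370

namespace Crest.Agent.R267.HubEng_370

variable {ι ε β : Type} [Fintype ι] [DecidableEq ι] [Fintype ε] [Fintype β]

namespace Hub

variable (H : Hub ι ε β)

/-- own sign (`-1` if the variable vanishes) -/
def es (z : ι → ℂ) (ζ : ℂ) (i : ι) : ℝ := if 0 < H.R z i ∧ 0 < rf ζ (H.ka z i) then 1 else -1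

/-- primed own modulus -/
def Rp (z : ι → ℂ) (ζ : ℂ) (i : ι) : ℝ := H.R z i * |rf ζ (H.ka z i)|

/-- sign of a coupling -/
def sv (z : ι → ℂ) (ζ : ℂ) (v : ε) : ℝ := if 0 < rf ζ (H.ta z v) then 1 else -1

/-- primed modulus of a coupling -/
def rp (t : ℝ) (z : ι → ℂ) (ζ : ℂ) (v : ε) : ℝ := H.r t z v * |rf ζ (H.ta z v)|

/-- primed deletion -/
def Bp (z : ι → ℂ) (ζ : ℂ) (c : β) : ℝ := ζ.re * H.B z c

variable {H} {T : Set ℝ} {e t : ℝ} {z : ι → ℂ} {ζ : ℂ}

theorem es_pm (i : ι) : H.es z ζ i = 1 ∨ H.es z ζ i = -1 := by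
  unfold es; split_ifs
  · exact Or.inl rfl
  · exact Or.inr rfl

theorem sv_pm (v : ε) : H.sv z ζ v = 1 ∨ H.sv z ζ v = -1 := by
  unfold sv; split_ifs
  · exact Or.inl rfl
  · exact Or.inr rfl

theorem es_zero {i : ι} (hi : z i = 0) (hD : H.D i ≠ 0) : H.es z ζ i = -1 := by
  unfold es
  rw [if_neg]
  rintro ⟨h1, -⟩
  rw [R, hi, norm_zero, Real.zero_rpow hD] at h1
  exact lt_irrefl _ h1

theorem sign_mul (x : ℝ) : (if 0 < x then (1 : ℝ) else -1) * |x| = x := by
  split_ifs with h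
  · rw [abs_of_pos h, one_mul]
  · rw [abs_of_nonpos (not_lt.1 h)]; ring

theorem es_mul (i : ι) : H.es z ζ i * H.Rp z ζ i = H.R z i * rf ζ (H.ka z i) := by
  unfold es Rp
  rcases (R_nonneg (H := H) z i).eq_or_lt with h0 | h0
  · rw [← h0]; simp
  · by_cases h1 : 0 < rf ζ (H.ka z i)
    · rw [if_pos ⟨h0, h1⟩, abs_of_pos h1, one_mul]
    · rw [if_neg fun h => h1 h.2, abs_of_nonpos (not_lt.1 h1)]; ring

theorem sv_mul (v : ε) : H.sv z ζ v * H.rp t z ζ v = H.r t z v * rf ζ (H.ta z v) := by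
  unfold sv rp
  rw [mul_left_comm, sign_mul]

/-- **real radial equations** -/
theorem Out.real (o : H.Out e t z ζ) (i : ι) :
    H.es z ζ i * H.Rp z ζ i + ∑ v, H.sh v i / H.D i * (H.sv z ζ v * H.rp t z ζ v) =
      ∑ c, H.th c i / H.D i * H.Bp z ζ c := by
  have h1 := o.rad i
  rw [es_mul]
  simp only [sv_mul]
  rw [h1, Finset.mul_sum]
  exact Finset.sum_congr rfl fun c _ => by rw [Bp]; ring

/-- all own directions are almost parallel to the conormal -/
theorem Out.jf_own (h : H.Ok T e) (o : H.Out e t z ζ) {i : ι} (hi : 0 < H.R z i) :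
    |jf ζ (H.ka z i)| ≤ e := by
  by_cases hp : deriv (H.p i) (ag z i) = 0
  · rcases o.alt with h1 | h1
    · rcases h.st i (ag z i) with h2 | h2 | h2
      · exact absurd hp h2.1
      · exact absurd hp h2.1
      · have : H.ka z i = -1 := h2.2.2.1
        rw [this]
        simpa [jf] using h1
    · exact absurd (h1.2.1 i hp) hi.ne'
  · exact o.own i hi hp

theorem Out.Rp_bd (h : H.Ok T e) (o : H.Out e t z ζ) (i : ι) :
    (1 - e) * H.R z i ≤ H.Rp z ζ i ∧ H.Rp z ζ i ≤ H.R z i := by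
  rcases (R_nonneg (H := H) z i).eq_or_lt with h0 | h0
  · unfold Rp; rw [← h0]; simp
  · have h1 := rf_abs o.norm (norm_cis _) (o.jf_own h h0)
    unfold Rp
    constructor
    · rw [mul_comm]; exact mul_le_mul_of_nonneg_left h1.1 h0.le
    · have := mul_le_mul_of_nonneg_left h1.2 h0.le
      rwa [mul_one] at this

theorem Out.rp_bd (h : H.Ok T e) (ht : t ∈ Icc (0 : ℝ) 1) (o : H.Out e t z ζ) (v : ε) :
    (1 - 2 * e) * H.r t z v ≤ H.rp t z ζ v ∧ H.rp t z ζ v ≤ H.r t z v := by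
  rcases (h.r_nonneg ht z v).eq_or_lt with h0 | h0
  · unfold rp; rw [← h0]; simp
  · have h1 := rf_abs o.norm (norm_cis _) (o.cpl v h0)
    unfold rp
    constructor
    · rw [mul_comm]; exact mul_le_mul_of_nonneg_left h1.1 h0.le
    · have := mul_le_mul_of_nonneg_left h1.2 h0.le
      rwa [mul_one] at this

theorem Out.Bp_bd (h : H.Ok T e) (o : H.Out e t z ζ) (c : β) :
    (1 - e) * H.B z c ≤ H.Bp z ζ c ∧ H.Bp z ζ c ≤ H.B z c := by
  have hB := h.B_nonneg z c
  rcases o.alt with h1 | h1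
  · have h2 := re_bd o.norm o.re h1
    unfold Bp
    constructor
    · exact mul_le_mul_of_nonneg_right h2.1 hB
    · have := mul_le_mul_of_nonneg_right h2.2 hB
      rwa [one_mul] at this
  · unfold Bp
    rw [h1.2.2.2 c]; simp

theorem Rp_nonneg (i : ι) : 0 ≤ H.Rp z ζ i := mul_nonneg (R_nonneg z i) (abs_nonneg _)

theorem Ok.rp_nonneg (h : H.Ok T e) (ht : t ∈ Icc (0 : ℝ) 1) (v : ε) : 0 ≤ H.rp t z ζ v :=
  mul_nonneg (h.r_nonneg ht z v) (abs_nonneg _)

theorem Ok.Bp_nonneg (h : H.Ok T e) (hr : 0 ≤ ζ.re) (c : β) : 0 ≤ H.Bp z ζ c :=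
  mul_nonneg hr (h.B_nonneg z c)

/-- `Rp` vanishes only with the variable -/
theorem Out.Rp_pos_iff (h : H.Ok T e) (he : e < 1) (o : H.Out e t z ζ) (i : ι) :
    0 < H.Rp z ζ i ↔ z i ≠ 0 := by
  rw [← h.R_pos_iff z i]
  constructor
  · intro h1; exact h1.trans_le (o.Rp_bd h i).2
  · intro h1
    exact lt_of_lt_of_le (mul_pos (by linarith) h1) (o.Rp_bd h i).1

/-! ### the real case: positions -/

/-- own phases are close to multiples of `π`, with the right sign -/
theorem Out.pos_own (h : H.Ok T e) (he : 5 * e < 1) (o : H.Out e t z ζ) (hr : |ζ.im| ≤ e) {i : ι}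
    (hi : 0 < H.R z i) :
    ∃ n : ℤ, |H.p i (ag z i) - Real.pi * n| ≤ 4 * e ∧ H.es z ζ i = eps n := by
  obtain ⟨n, hn⟩ := rnd o.norm hr (o.jf_own h hi)
  refine ⟨n, hn, ?_⟩
  have h1 := rf_near o.norm o.re hr hn
  have h3 : rf ζ (cis (H.p i (ag z i))) = rf ζ (H.ka z i) := rfl
  rw [h3] at h1
  unfold es
  rcases eps_pm n with h2 | h2
  · rw [h2] at h1 ⊢
    rw [if_pos ⟨hi, by linarith [h1.1]⟩]
  · rw [h2] at h1 ⊢
    rw [if_neg fun h4 => by linarith [h1.1, h4.2]]

/-- reduced phases are close to multiples of `π` -/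
theorem Out.pos (h : H.Ok T e) (o : H.Out e t z ζ) (hr : |ζ.im| ≤ e) {i : ι}
    (hi : 0 < H.R z i) : ∃ n : ℤ, |H.ph i (ag z i) - Real.pi * n| ≤ 4 * e := by
  refine rnd o.norm hr ?_
  rcases h.st i (ag z i) with h2 | h2 | h2
  · rw [h2.2.2]; exact o.jf_own h hi
  · rw [h2.2.2]; simpa [jf] using hr
  · rw [h2.2.2.2]; simpa [jf] using hr

/-- a flat own term has the sign `-1` -/
theorem Out.es_flat (h : H.Ok T e) (o : H.Out e t z ζ) {i : ι}
    (hp : deriv (H.p i) (ag z i) = 0) : H.es z ζ i = -1 := by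
  unfold es
  rw [if_neg]
  rintro ⟨-, h1⟩
  rcases h.st i (ag z i) with h2 | h2 | h2
  · exact absurd hp h2.1
  · exact absurd hp h2.1
  · have : H.ka z i = -1 := h2.2.2.1
    rw [this] at h1
    have h3 : rf ζ (-1) = -ζ.re := by simp [rf]
    rw [h3] at h1
    linarith [o.re]

/-- an own term of sign `1` is in a lobe -/
theorem Out.es_one (h : H.Ok T e) (o : H.Out e t z ζ) {i : ι} (h1 : H.es z ζ i = 1) :
    deriv (H.p i) (ag z i) ≠ 0 := by
  intro hp
  rw [o.es_flat h hp] at h1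
  norm_num at h1

/-- the sign of a coupling whose phase is close to `π m` -/
theorem Out.sv_eq (o : H.Out e t z ζ) (hr : |ζ.im| ≤ e) {v : ε} {m : ℤ} {e' : ℝ}
    (hm : |H.Φ v (lft H.ph (ag z)) - Real.pi * m| ≤ e') (he : e + e' < 1) :
    H.sv z ζ v = eps m := by
  have h1 := rf_near o.norm o.re hr hm
  have h3 : rf ζ (cis (H.Φ v (lft H.ph (ag z)))) = rf ζ (H.ta z v) := rfl
  rw [h3] at h1
  unfold sv
  rcases eps_pm m with h2 | h2
  · rw [h2] at h1 ⊢
    rw [if_pos (by linarith [h1.1])]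
  · rw [h2] at h1 ⊢
    rw [if_neg (by linarith [h1.1])]

/-! ### the non real case -/

/-- in the non real case a coupling has the sign of a variable in a hub lobe -/
theorem Out.sv_im (h : H.Ok T e) (he : 3 * e < 1) (o : H.Out e t z ζ) (hr : e < |ζ.im|) {v : ε}
    (hv : 0 < H.r t z v) : ∃ i, H.act z i ∧ 0 < H.R z i ∧ H.sh v i ≠ 0 ∧
      H.sv z ζ v = H.es z ζ i := by
  rcases o.alt with h1 | h1
  · exact absurd h1 (not_le.2 hr)
  obtain ⟨i, hi, hR, hs, hc⟩ := h1.2.2.1 v hv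
  refine ⟨i, hi, hR, hs, ?_⟩
  have h2 := rf_abs o.norm (norm_cis _) (o.jf_own h hR)
  have h3 := sgn_close o.norm hc (by
    show 2 * e < |rf ζ (H.ka z i)|
    have : |rf ζ (cis (H.p i (ag z i)))| = |rf ζ (H.ka z i)| := rfl
    rw [this] at h2
    linarith [h2.1])
  unfold sv es
  by_cases h4 : 0 < rf ζ (H.ka z i)
  · rw [if_pos (h3.1.1 h4), if_pos ⟨hR, h4⟩]
  · rw [if_neg (fun h5 => h4 (h3.1.2 h5)), if_neg (fun h5 => h4 h5.2)]

/-- in the non real case all deletions vanish -/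
theorem Out.Bp_im (o : H.Out e t z ζ) (hr : e < |ζ.im|) (c : β) : H.Bp z ζ c = 0 := by
  rcases o.alt with h1 | h1
  · exact absurd h1 (not_le.2 hr)
  · unfold Bp; rw [h1.2.2.2 c, mul_zero]

end Hub

end Crest.Agent.R267.HubEng_370
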