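import Mathlib

/-!
# Row 267, T3N hub step for `f` (helper568): real sign patterns

Variables `0, 1, 2, 3 = x, y, z, w`; own magnitudes `R i ≥ 0`, own signs `e i = ± 1`
(`e i = 1`: on a positive ray; `e i = -1`: off-lobe), couplings `a` (`x² y z`) and `b` (`(y z)⁵`)
with signs `sa, sb = ± 1`, boxes `c` with support `S c`, exponents `th c i`, magnitude `de c ≥ 0`
and window `la c`.  `N i = ∑ c, th c i * de c`.

Radial equations of a critical zero (divided by the degrees `5/2, 10, 10, 15`):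
`e 0 R 0 + (4/5) sa a = N 0`, `e i R i + (sa a + 5 sb b) / 10 = N i` (`i = 1, 2`), `e 3 R 3 = N 3`.
-/

set_option autoImplicit false

namespace Crest.Agent.R267.PatF_568

open Finset

/-- boxes at a point. -/
structure Bx {κ : Type} [Fintype κ] (R e : Fin 4 → ℝ) (S : κ → Finset (Fin 4))
    (th : κ → Fin 4 → ℝ) (la de : κ → ℝ) : Prop where
  R0 : ∀ i, 0 ≤ R i
  e1 : ∀ i, e i = 1 ∨ e i = -1
  th0 : ∀ c i, 0 ≤ th c i
  ths : ∀ c i, i ∉ S c → th c i = 0
  de0 : ∀ c, 0 ≤ de c
  /-- at the rays the windows are `0` or `1`. -/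
  la01 : ∀ c, (∀ i ∈ S c, e i = 1) → la c = 0 ∨ la c = 1
  off : ∀ c, la c = 0 → de c = 0
  /-- AM-GM: the constant is bigger than the critical one. -/
  amgm : ∀ c, la c = 1 → (∀ i ∈ S c, th c i * de c ≤ R i) → de c = 0
  zero : ∀ c, ∀ i ∈ S c, R i = 0 → de c = 0
  pos : ∀ c, la c = 1 → (∀ i ∈ S c, 0 < R i) → 0 < de c

section

variable {κ : Type} [Fintype κ] {R e : Fin 4 → ℝ} {S : κ → Finset (Fin 4)}
  {th : κ → Fin 4 → ℝ} {la de : κ → ℝ}

theorem Bx.N_nonneg (h : Bx R e S th la de) (i : Fin 4) : 0 ≤ ∑ c, th c i * de c :=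
  Finset.sum_nonneg fun c _ => mul_nonneg (h.th0 c i) (h.de0 c)

theorem Bx.le_N (h : Bx R e S th la de) (c : κ) (i : Fin 4) : th c i * de c ≤ ∑ c, th c i * de c :=
  Finset.single_le_sum (f := fun c => th c i * de c)
    (fun c _ => mul_nonneg (h.th0 c i) (h.de0 c)) (Finset.mem_univ c)

/-- if `R i ≥ N i` on the support of a box with window `1`, the box vanishes. -/
theorem Bx.box_zero (h : Bx R e S th la de) {c : κ} (hc : la c = 1)
    (hR : ∀ i ∈ S c, ∑ c, th c i * de c ≤ R i) : de c = 0 :=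
  h.amgm c hc fun i hi => (h.le_N c i).trans (hR i hi)

theorem Bx.no_box (h : Bx R e S th la de) {c : κ} (hc : la c = 1)
    (hR : ∀ i ∈ S c, ∑ c, th c i * de c ≤ R i ∧ 0 < R i) : False :=
  (h.pos c hc fun i hi => (hR i hi).2).ne' (h.box_zero hc fun i hi => (hR i hi).1)

theorem Bx.N_zero (h : Bx R e S th la de) {i : Fin 4} (hi : ∀ c, i ∈ S c → de c = 0) :
    ∑ c, th c i * de c = 0 :=
  Finset.sum_eq_zero fun c _ => by
    by_cases hc : i ∈ S c
    · rw [hi c hc, mul_zero]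
    · rw [h.ths c i hc, zero_mul]

/-- own terms minus boxes: no critical zero. -/
theorem Bx.own (h : Bx R e S th la de) (hE : ∀ i, e i * R i = ∑ c, th c i * de c) (i : Fin 4) :
    R i = 0 := by
  have hde : ∀ c, de c = 0 := by
    intro c
    by_cases hall : ∀ i ∈ S c, e i = 1
    · rcases h.la01 c hall with h0 | h1
      · exact h.off c h0
      · refine h.box_zero h1 fun i hi => ?_
        rw [← hE i, hall i hi, one_mul]
    · push Not at hall
      obtain ⟨i, hi, hne⟩ := hall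
      have hm : e i = -1 := (h.e1 i).resolve_left hne
      have h1 := hE i
      have h2 := h.N_nonneg i
      have h3 := h.R0 i
      rw [hm] at h1
      exact h.zero c i hi (by linarith)
  have h1 := hE i
  simp only [hde, mul_zero, Finset.sum_const_zero] at h1
  rcases h.e1 i with h2 | h2 <;> rw [h2] at h1 <;> linarith

/-- **real sign patterns of `f`**: there is no critical zero for `B = 0` and for
`25 B² ≤ (4/5)⁸ A¹⁰`. -/
theorem patF (h : Bx R e S th la de) {A B a b sa sb : ℝ} (hB : 0 ≤ B)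
    (ha : 0 ≤ a) (hb : 0 ≤ b) (haA : a ^ 10 = A ^ 10 * (R 0 ^ 8 * (R 1 * R 2)))
    (hbB : b ^ 2 = B ^ 2 * (R 1 * R 2)) (hsa : sa = 1 ∨ sa = -1) (hsb : sb = 1 ∨ sb = -1)
    (hAB : B = 0 ∨ 25 * B ^ 2 ≤ (4 / 5) ^ 8 * A ^ 10)
    (hx : e 0 * R 0 + 4 / 5 * (sa * a) = ∑ c, th c 0 * de c)
    (hy : e 1 * R 1 + (sa * a + 5 * (sb * b)) / 10 = ∑ c, th c 1 * de c)
    (hz : e 2 * R 2 + (sa * a + 5 * (sb * b)) / 10 = ∑ c, th c 2 * de c)
    (hw : e 3 * R 3 = ∑ c, th c 3 * de c)
    -- the tables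
    (Pm : sa = -1 → e 0 = 1 → e 1 = 1 → e 2 = 1 → ∃ c, S c ⊆ {0, 1, 2} ∧ la c = 1)
    (Pp : sa = 1 → ∃ i ∈ ({0, 1, 2} : Finset (Fin 4)), e i = 1 ∧ ∀ c, i ∈ S c → la c = 0)
    (Qm : sb = -1 → e 1 = 1 → e 2 = 1 → ∃ c, S c ⊆ {1, 2} ∧ la c = 1)
    (Qp : sb = 1 → ∃ i ∈ ({1, 2} : Finset (Fin 4)), e i = 1 ∧
      ∀ c, i ∈ S c → la c = 0 ∨ 0 ∈ S c) (i : Fin 4) : R i = 0 := by
  have R0 := h.R0
  have N0 := h.N_nonneg
  have e1 := h.e1
  -- positive couplings have positive factors
  have hapos : 0 < a → 0 < R 0 ∧ 0 < R 1 ∧ 0 < R 2 := by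
    intro h0
    have h1 : 0 < A ^ 10 * (R 0 ^ 8 * (R 1 * R 2)) := haA ▸ pow_pos h0 10
    have h2 : R 0 ≠ 0 := by
      intro h3; rw [h3] at h1; norm_num at h1
    have h3 : R 1 ≠ 0 := by
      intro h3; rw [h3] at h1; norm_num at h1
    have h4 : R 2 ≠ 0 := by
      intro h3; rw [h3] at h1; norm_num at h1
    exact ⟨lt_of_le_of_ne (R0 0) h2.symm, lt_of_le_of_ne (R0 1) h3.symm,
      lt_of_le_of_ne (R0 2) h4.symm⟩
  have hbpos : 0 < b → 0 < R 1 ∧ 0 < R 2 := by
    intro h0
    have h1 : 0 < B ^ 2 * (R 1 * R 2) := hbB ▸ pow_pos h0 2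
    have h3 : R 1 ≠ 0 := by
      intro h3; rw [h3] at h1; norm_num at h1
    have h4 : R 2 ≠ 0 := by
      intro h3; rw [h3] at h1; norm_num at h1
    exact ⟨lt_of_le_of_ne (R0 1) h3.symm, lt_of_le_of_ne (R0 2) h4.symm⟩
  -- the sign is positive when `e i * R i ≥ 0` and `R i > 0`
  have esg : ∀ i, 0 < R i → 0 ≤ e i * R i → e i = 1 := fun i hi h1 =>
    (e1 i).resolve_right fun h2 => by rw [h2] at h1; linarith
  have own : a = 0 → b = 0 → ∀ i, R i = 0 := by
    intro h1 h2
    refine h.own fun i => ?_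
    rw [h1, h2, mul_zero, mul_zero] at hy hz
    rw [h1, mul_zero, mul_zero] at hx
    fin_cases i
    · simpa using hx
    · simpa using hy
    · simpa using hz
    · simpa using hw
  -- only `b`: face `x = 0`
  have bonly : a = 0 → 0 < b → sb = 1 → False := by
    intro h1 h2 h3
    obtain ⟨hR1, hR2⟩ := hbpos h2
    have hR0 : R 0 = 0 := by
      by_contra hne
      have h4 : A ^ 10 * (R 0 ^ 8 * (R 1 * R 2)) = 0 := by rw [← haA, h1]; norm_num
      have h5 : 0 < R 0 ^ 8 * (R 1 * R 2) :=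
        mul_pos (pow_pos (lt_of_le_of_ne (R0 0) (Ne.symm hne)) 8) (mul_pos hR1 hR2)
      have h6 : A = 0 := by
        by_contra hA0
        exact absurd h4 (mul_ne_zero (pow_ne_zero _ hA0) h5.ne')
      have h7 : B = 0 := by
        rcases hAB with h8 | h8
        · exact h8
        · rw [h6] at h8
          nlinarith [sq_nonneg B]
      rw [h7] at hbB
      have : 0 < b ^ 2 := pow_pos h2 2
      rw [hbB] at this
      norm_num at this
    obtain ⟨i, hi, hei, hbx⟩ := Qp h3
    have hN : ∑ c, th c i * de c = 0 := h.N_zero fun c hc => by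
      rcases hbx c hc with h4 | h4
      · exact h.off c h4
      · exact h.zero c 0 h4 hR0
    have h5 := R0 i
    rw [h1, h3] at hy hz
    rcases (by simpa using hi : i = 1 ∨ i = 2) with rfl | rfl
    · rw [hei, hN] at hy; linarith
    · rw [hei, hN] at hz; linarith
  -- `b` negative, own signs of `y`, `z` positive
  have bneg : sb = -1 → 0 < b → sa * a ≤ 5 * b → False := by
    intro h3 h2 h4
    obtain ⟨hR1, hR2⟩ := hbpos h2
    rw [h3] at hy hz
    have hN1 := N0 1
    have hN2 := N0 2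
    have he1 : e 1 = 1 := esg 1 hR1 (by linarith)
    have he2 : e 2 = 1 := esg 2 hR2 (by linarith)
    obtain ⟨c, hc, hl⟩ := Qm h3 he1 he2
    refine h.no_box hl fun i hi => ?_
    rcases (by simpa using hc hi : i = 1 ∨ i = 2) with rfl | rfl
    · rw [he1] at hy; exact ⟨by linarith, hR1⟩
    · rw [he2] at hz; exact ⟨by linarith, hR2⟩
  -- `a` negative and dominating
  have aneg : sa = -1 → 0 < a → 5 * (sb * b) ≤ a → False := by
    intro h3 h2 h4
    obtain ⟨hR0, hR1, hR2⟩ := hapos h2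
    rw [h3] at hx hy hz
    have hN0 := N0 0
    have hN1 := N0 1
    have hN2 := N0 2
    have he0 : e 0 = 1 := esg 0 hR0 (by linarith)
    have he1 : e 1 = 1 := esg 1 hR1 (by linarith)
    have he2 : e 2 = 1 := esg 2 hR2 (by linarith)
    obtain ⟨c, hc, hl⟩ := Pm h3 he0 he1 he2
    refine h.no_box hl fun i hi => ?_
    rcases (by simpa using hc hi : i = 0 ∨ i = 1 ∨ i = 2) with rfl | rfl | rfl
    · rw [he0] at hx; exact ⟨by linarith, hR0⟩
    · rw [he1] at hy; exact ⟨by linarith, hR1⟩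
    · rw [he2] at hz; exact ⟨by linarith, hR2⟩
  -- `a` positive
  have apos : sa = 1 → 0 < a → 0 < a + 5 * (sb * b) → False := by
    intro h3 h2 h4
    obtain ⟨i, hi, hei, hbx⟩ := Pp h3
    have hN : ∑ c, th c i * de c = 0 := h.N_zero fun c hc => h.off c (hbx c hc)
    have h5 := R0 i
    rw [h3] at hx hy hz
    rcases (by simpa using hi : i = 0 ∨ i = 1 ∨ i = 2) with rfl | rfl | rfl
    · rw [hei, hN] at hx; linarith
    · rw [hei, hN] at hy; linarith
    · rw [hei, hN] at hz; linarith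
  rcases ha.eq_or_lt with ha0 | ha0 <;> rcases hb.eq_or_lt with hb0 | hb0
  · exact own ha0.symm hb0.symm i
  · exfalso
    rcases hsb with h1 | h1
    · exact bonly ha0.symm hb0 h1
    · exact bneg h1 hb0 (by rw [← ha0]; linarith)
  · exfalso
    rcases hsa with h1 | h1
    · exact apos h1 ha0 (by rw [← hb0]; linarith)
    · exact aneg h1 ha0 (by rw [← hb0]; linarith)
  · exfalso
    rcases hsa with h1 | h1 <;> rcases hsb with h2 | h2
    · exact apos h1 ha0 (by rw [h2]; linarith)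
    · by_cases h3 : a ≤ 5 * b
      · exact bneg h2 hb0 (by rw [h1]; linarith)
      · exact apos h1 ha0 (by rw [h2]; linarith)
    · by_cases h3 : 5 * b ≤ a
      · exact aneg h1 ha0 (by rw [h2]; linarith)
      · -- `X ≥ (4/5) a` and `A` large
        obtain ⟨hR0, hR1, hR2⟩ := hapos ha0
        have hB0 : B ≠ 0 := by
          rintro rfl
          have : 0 < b ^ 2 := pow_pos hb0 2
          rw [hbB] at this
          norm_num at this
        have hAB' := hAB.resolve_left hB0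
        rw [h1] at hx
        have hN0 := N0 0
        have he0 : e 0 = 1 := esg 0 hR0 (by linarith)
        rw [he0] at hx
        have h4 : 4 / 5 * a ≤ R 0 := by linarith
        have h5 : (4 / 5 * a) ^ 8 ≤ R 0 ^ 8 := pow_le_pow_left₀ (by positivity) h4 8
        have hYZ : 0 < R 1 * R 2 := mul_pos hR1 hR2
        have h6 : A ^ 10 * ((4 / 5 * a) ^ 8 * (R 1 * R 2)) ≤ a ^ 10 := by
          rw [haA]
          gcongr
        have h7 : (4 / 5) ^ 8 * A ^ 10 * (R 1 * R 2) ≤ a ^ 2 := by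
          have h8 : 0 < a ^ 8 := pow_pos ha0 8
          have h9 : a ^ 8 * ((4 / 5) ^ 8 * A ^ 10 * (R 1 * R 2)) ≤ a ^ 8 * a ^ 2 := by
            calc a ^ 8 * ((4 / 5) ^ 8 * A ^ 10 * (R 1 * R 2))
                = A ^ 10 * ((4 / 5 * a) ^ 8 * (R 1 * R 2)) := by ring
              _ ≤ a ^ 10 := h6
              _ = a ^ 8 * a ^ 2 := by ring
          exact le_of_mul_le_mul_left h9 h8
        have h8 : (5 * b) ^ 2 ≤ a ^ 2 := by
          calc (5 * b) ^ 2 = 25 * B ^ 2 * (R 1 * R 2) := by rw [mul_pow, hbB]; ring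
            _ ≤ (4 / 5) ^ 8 * A ^ 10 * (R 1 * R 2) := by gcongr
            _ ≤ a ^ 2 := h7
        exact h3 (abs_le_of_sq_le_sq' h8 ha).2
    · exact bneg h2 hb0 (by rw [h1]; linarith)

end

/-- **non real conormal, `f`** (all boxes and flat couplings vanish): the sign of `a` is the sign of
one of the own terms, the sign of `b` is the sign of `y` or `z`. -/
theorem patF_im {R e : Fin 4 → ℝ} (R0 : ∀ i, 0 ≤ R i) (e1 : ∀ i, e i = 1 ∨ e i = -1)
    {B a b sa sb : ℝ} (ha : 0 ≤ a) (hb : 0 ≤ b) (hbB : b ^ 2 = B ^ 2 * (R 1 * R 2))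
    (hx : e 0 * R 0 + 4 / 5 * (sa * a) = 0)
    (hy : e 1 * R 1 + (sa * a + 5 * (sb * b)) / 10 = 0)
    (hz : e 2 * R 2 + (sa * a + 5 * (sb * b)) / 10 = 0) (hw : e 3 * R 3 = 0)
    (Ta : 0 < a → sa = e 0 ∨ sa = e 1 ∨ sa = e 2) (Tb : 0 < b → sb = e 1 ∨ sb = e 2)
    (i : Fin 4) : R i = 0 := by
  have zero : ∀ i, e i * R i = 0 → R i = 0 := fun i h => by
    rcases e1 i with h2 | h2 <;> rw [h2] at h <;> linarith
  have hR0 := R0 0
  have hR1 := R0 1
  have hR2 := R0 2
  have key : a = 0 ∧ b = 0 := by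
    rcases hb.eq_or_lt with hb0 | hb0
    · refine ⟨?_, hb0.symm⟩
      rw [← hb0] at hy hz
      by_contra hne
      have ha0 := lt_of_le_of_ne ha (Ne.symm hne)
      rcases Ta ha0 with h | h | h <;> rw [h] at hx hy hz <;>
        rcases e1 0 with h0 | h0 <;> rcases e1 1 with h1 | h1 <;> rcases e1 2 with h2 | h2 <;>
        rw [h0] at hx <;> rw [h1] at hy <;> rw [h2] at hz <;>
        (simp only [h0, h1, h2] at hx hy hz; linarith)
    · exfalso
      have h3 : R 1 ≠ 0 ∧ R 2 ≠ 0 := by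
        have h4 : 0 < B ^ 2 * (R 1 * R 2) := hbB ▸ pow_pos hb0 2
        constructor <;> intro h5 <;> rw [h5] at h4 <;> norm_num at h4
      have h1 := lt_of_le_of_ne hR1 h3.1.symm
      have h2 := lt_of_le_of_ne hR2 h3.2.symm
      -- `e 1 = e 2`
      have h12 : e 1 = e 2 := by
        rcases e1 1 with h | h <;> rcases e1 2 with h' | h' <;> rw [h, h'] <;>
          rw [h] at hy <;> rw [h'] at hz <;> exfalso <;> linarith
      have hsb : sb = e 1 := by
        rcases Tb hb0 with h | h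
        · exact h
        · rw [h, h12]
      rw [hsb] at hy hz
      have ha0 : 0 < a := by
        by_contra hne
        have : a = 0 := le_antisymm (not_lt.1 hne) ha
        rw [this] at hy
        rcases e1 1 with h | h <;> rw [h] at hy <;> linarith
      rcases Ta ha0 with h | h | h
      · rw [h] at hx
        rcases e1 0 with h' | h' <;> rw [h'] at hx <;> linarith
      · rw [h] at hy
        rcases e1 1 with h' | h' <;> rw [h'] at hy <;> linarith
      · rw [h, ← h12] at hy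
        rcases e1 1 with h' | h' <;> rw [h'] at hy <;> linarith
  rw [key.1, key.2] at hy hz
  rw [key.1] at hx
  apply zero
  fin_cases i
  · simpa using hx
  · simpa using hy
  · simpa using hz
  · simpa using hw

end Crest.Agent.R267.PatF_568
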