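import Crest.Agent.R267.PatF_568

/-!
# Row 267, C7-f (helper440): robust real sign patterns of `f`

`PatF_568.patF` with
* arbitrary positive shares `wy`, `wz` of the couplings in the `y`- and `z`-equations
  (`a`: `(4/5, wy, wz)`, `b`: `(0, 5 wy, 5 wz)`);
* one-sided relations between the magnitudes (`hkey`), so that it applies to
  `R' = |c| R`, `a' = |c_a| a`, `b' = |c_b| b` with `|c| ∈ [0.95, 1]`.
-/

set_option autoImplicit false

namespace Crest.Agent.R267.PatFR_440

open Finset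
open Crest.Agent.R267.PatF_568

section

variable {κ : Type} [Fintype κ] {R e : Fin 4 → ℝ} {S : κ → Finset (Fin 4)}
  {th : κ → Fin 4 → ℝ} {la de : κ → ℝ}

/-- **robust real sign patterns of `f`**. -/
theorem patFR (h : Bx R e S th la de) {a b sa sb wy wz : ℝ} (hwy : 0 < wy) (hwz : 0 < wz)
    (ha : 0 ≤ a) (hb : 0 ≤ b)
    (hapos : 0 < a → 0 < R 0 ∧ 0 < R 1 ∧ 0 < R 2)
    (hbpos : 0 < b → 0 < R 1 ∧ 0 < R 2)
    (hx0 : a = 0 → 0 < b → R 0 = 0)
    (hkey : 0 < a → 0 < b → 4 / 5 * a ≤ R 0 → 5 * b ≤ a)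
    (hsa : sa = 1 ∨ sa = -1) (hsb : sb = 1 ∨ sb = -1)
    (hx : e 0 * R 0 + 4 / 5 * (sa * a) = ∑ c, th c 0 * de c)
    (hy : e 1 * R 1 + wy * (sa * a + 5 * (sb * b)) = ∑ c, th c 1 * de c)
    (hz : e 2 * R 2 + wz * (sa * a + 5 * (sb * b)) = ∑ c, th c 2 * de c)
    (hw : e 3 * R 3 = ∑ c, th c 3 * de c)
    -- the tables
    (Pm : sa = -1 → e 0 = 1 → e 1 = 1 → e 2 = 1 → ∃ c, S c ⊆ {0, 1, 2} ∧ la c = 1)
    (Pp : sa = 1 → 0 < a → ∃ i ∈ ({0, 1, 2} : Finset (Fin 4)), e i = 1 ∧ ∀ c, i ∈ S c → la c = 0)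
    (Qm : sb = -1 → e 1 = 1 → e 2 = 1 → ∃ c, S c ⊆ {1, 2} ∧ la c = 1)
    (Qp : sb = 1 → 0 < b → ∃ i ∈ ({1, 2} : Finset (Fin 4)), e i = 1 ∧
      ∀ c, i ∈ S c → la c = 0 ∨ 0 ∈ S c) (i : Fin 4) : R i = 0 := by
  have R0 := h.R0
  have N0 := h.N_nonneg
  have e1 := h.e1
  have esg : ∀ i, 0 < R i → 0 ≤ e i * R i → e i = 1 := fun i hi h1 =>
    (e1 i).resolve_right fun h2 => by rw [h2] at h1; linarith
  have own : a = 0 → b = 0 → ∀ i, R i = 0 := by
    intro h1 h2
    refine h.own fun i => ?_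
    rw [h1, h2] at hy hz
    rw [h1] at hx
    fin_cases i
    · simpa using hx
    · simpa using hy
    · simpa using hz
    · simpa using hw
  have bonly : a = 0 → 0 < b → sb = 1 → False := by
    intro h1 h2 h3
    have hR0 : R 0 = 0 := hx0 h1 h2
    obtain ⟨i, hi, hei, hbx⟩ := Qp h3 h2
    have hN : ∑ c, th c i * de c = 0 := h.N_zero fun c hc => by
      rcases hbx c hc with h4 | h4
      · exact h.off c h4
      · exact h.zero c 0 h4 hR0
    have h5 := R0 i
    rw [h1, h3] at hy hz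
    have py : 0 < wy * b := mul_pos hwy h2
    have pz : 0 < wz * b := mul_pos hwz h2
    rcases (by simpa using hi : i = 1 ∨ i = 2) with rfl | rfl
    · rw [hei, hN] at hy; nlinarith
    · rw [hei, hN] at hz; nlinarith
  have bneg : sb = -1 → 0 < b → sa * a ≤ 5 * b → False := by
    intro h3 h2 h4
    obtain ⟨hR1, hR2⟩ := hbpos h2
    rw [h3] at hy hz
    have hN1 := N0 1
    have hN2 := N0 2
    have q1 : wy * (sa * a + 5 * (-1 * b)) ≤ 0 :=
      mul_nonpos_of_nonneg_of_nonpos hwy.le (by linarith)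
    have q2 : wz * (sa * a + 5 * (-1 * b)) ≤ 0 :=
      mul_nonpos_of_nonneg_of_nonpos hwz.le (by linarith)
    have he1 : e 1 = 1 := esg 1 hR1 (by linarith)
    have he2 : e 2 = 1 := esg 2 hR2 (by linarith)
    obtain ⟨c, hc, hl⟩ := Qm h3 he1 he2
    refine h.no_box hl fun i hi => ?_
    rcases (by simpa using hc hi : i = 1 ∨ i = 2) with rfl | rfl
    · rw [he1] at hy; exact ⟨by linarith, hR1⟩
    · rw [he2] at hz; exact ⟨by linarith, hR2⟩
  have aneg : sa = -1 → 0 < a → 5 * (sb * b) ≤ a → False := by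
    intro h3 h2 h4
    obtain ⟨hR0, hR1, hR2⟩ := hapos h2
    rw [h3] at hx hy hz
    have hN0 := N0 0
    have hN1 := N0 1
    have hN2 := N0 2
    have q1 : wy * (-1 * a + 5 * (sb * b)) ≤ 0 :=
      mul_nonpos_of_nonneg_of_nonpos hwy.le (by linarith)
    have q2 : wz * (-1 * a + 5 * (sb * b)) ≤ 0 :=
      mul_nonpos_of_nonneg_of_nonpos hwz.le (by linarith)
    have he0 : e 0 = 1 := esg 0 hR0 (by linarith)
    have he1 : e 1 = 1 := esg 1 hR1 (by linarith)
    have he2 : e 2 = 1 := esg 2 hR2 (by linarith)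
    obtain ⟨c, hc, hl⟩ := Pm h3 he0 he1 he2
    refine h.no_box hl fun i hi => ?_
    rcases (by simpa using hc hi : i = 0 ∨ i = 1 ∨ i = 2) with rfl | rfl | rfl
    · rw [he0] at hx; exact ⟨by linarith, hR0⟩
    · rw [he1] at hy; exact ⟨by linarith, hR1⟩
    · rw [he2] at hz; exact ⟨by linarith, hR2⟩
  have apos : sa = 1 → 0 < a → 0 < a + 5 * (sb * b) → False := by
    intro h3 h2 h4
    obtain ⟨i, hi, hei, hbx⟩ := Pp h3 h2
    have hN : ∑ c, th c i * de c = 0 := h.N_zero fun c hc => h.off c (hbx c hc)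
    have h5 := R0 i
    rw [h3] at hx hy hz
    have q1 : 0 < wy * (1 * a + 5 * (sb * b)) := mul_pos hwy (by linarith)
    have q2 : 0 < wz * (1 * a + 5 * (sb * b)) := mul_pos hwz (by linarith)
    rcases (by simpa using hi : i = 0 ∨ i = 1 ∨ i = 2) with rfl | rfl | rfl
    · rw [hei, hN] at hx; linarith
    · rw [hei, hN] at hy; linarith
    · rw [hei, hN] at hz; linarith
  rcases ha.eq_or_lt with ha0 | ha0 <;> rcases hb.eq_or_lt with hb0 | hb0
  · exact own ha0.symm hb0.symm i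
  · exfalso
    rcases hsb with h1 | h1
    · exact bonly ha0.symm hb0 h1
    · exact bneg h1 hb0 (by rw [← ha0]; linarith)
  · exfalso
    rcases hsa with h1 | h1
    · exact apos h1 ha0 (by rw [← hb0]; linarith)
    · exact aneg h1 ha0 (by rw [← hb0]; linarith)
  · exfalso
    rcases hsa with h1 | h1 <;> rcases hsb with h2 | h2
    · exact apos h1 ha0 (by rw [h2]; linarith)
    · by_cases h3 : a ≤ 5 * b
      · exact bneg h2 hb0 (by rw [h1]; linarith)
      · exact apos h1 ha0 (by rw [h2]; linarith)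
    · by_cases h3 : 5 * b ≤ a
      · exact aneg h1 ha0 (by rw [h2]; linarith)
      · obtain ⟨hR0, hR1, hR2⟩ := hapos ha0
        rw [h1] at hx
        have hN0 := N0 0
        have he0 : e 0 = 1 := esg 0 hR0 (by linarith)
        rw [he0] at hx
        exact h3 (hkey ha0 hb0 (by linarith))
    · exact bneg h2 hb0 (by rw [h1]; linarith)

end

/-- **non real conormal, `f`** (all boxes and flat couplings vanish). -/
theorem patFR_im {R e : Fin 4 → ℝ} (R0 : ∀ i, 0 ≤ R i) (e1 : ∀ i, e i = 1 ∨ e i = -1)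
    {a b sa sb wy wz : ℝ} (hwy : 0 < wy) (hwz : 0 < wz) (ha : 0 ≤ a) (hb : 0 ≤ b)
    (hbpos : 0 < b → 0 < R 1 ∧ 0 < R 2)
    (hx : e 0 * R 0 + 4 / 5 * (sa * a) = 0)
    (hy : e 1 * R 1 + wy * (sa * a + 5 * (sb * b)) = 0)
    (hz : e 2 * R 2 + wz * (sa * a + 5 * (sb * b)) = 0) (hw : e 3 * R 3 = 0)
    (Ta : 0 < a → sa = e 0 ∨ sa = e 1 ∨ sa = e 2) (Tb : 0 < b → sb = e 1 ∨ sb = e 2)
    (i : Fin 4) : R i = 0 := by
  have zero : ∀ i, e i * R i = 0 → R i = 0 := fun i h => by
    rcases e1 i with h2 | h2 <;> rw [h2] at h <;> linarith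
  have hR0 := R0 0
  have hR1 := R0 1
  have hR2 := R0 2
  have key : a = 0 ∧ b = 0 := by
    rcases hb.eq_or_lt with hb0 | hb0
    · refine ⟨?_, hb0.symm⟩
      rw [← hb0] at hy hz
      by_contra hne
      have ha0 := lt_of_le_of_ne ha (Ne.symm hne)
      have p1 := mul_pos hwy ha0
      have p2 := mul_pos hwz ha0
      rcases Ta ha0 with h | h | h <;> rw [h] at hx hy hz <;>
        rcases e1 0 with h0 | h0 <;> rcases e1 1 with h1 | h1 <;> rcases e1 2 with h2 | h2 <;>
        rw [h0] at hx <;> rw [h1] at hy <;> rw [h2] at hz <;>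
        (simp only [h0, h1, h2] at hx hy hz; nlinarith)
    · exfalso
      obtain ⟨h1, h2⟩ := hbpos hb0
      -- `e 1 = e 2`
      have h12 : e 1 = e 2 := by
        rcases e1 1 with h | h <;> rcases e1 2 with h' | h' <;> rw [h, h'] <;>
          rw [h] at hy <;> rw [h'] at hz <;> exfalso
        · have q1 : wy * (sa * a + 5 * (sb * b)) < 0 := by linarith
          have q2 : 0 < wz * (sa * a + 5 * (sb * b)) := by linarith
          have q3 := neg_of_mul_neg_right q1 hwy.le
          have q4 := pos_of_mul_pos_right q2 hwz.le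
          linarith
        · have q1 : 0 < wy * (sa * a + 5 * (sb * b)) := by linarith
          have q2 : wz * (sa * a + 5 * (sb * b)) < 0 := by linarith
          have q3 := neg_of_mul_neg_right q2 hwz.le
          have q4 := pos_of_mul_pos_right q1 hwy.le
          linarith
      have hsb : sb = e 1 := by
        rcases Tb hb0 with h | h
        · exact h
        · rw [h, h12]
      rw [hsb] at hy hz
      have pb := mul_pos hwy hb0
      have ha0 : 0 < a := by
        by_contra hne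
        have : a = 0 := le_antisymm (not_lt.1 hne) ha
        rw [this] at hy
        rcases e1 1 with h | h <;> rw [h] at hy <;> nlinarith
      have pa := mul_pos hwy ha0
      rcases Ta ha0 with h | h | h
      · rw [h] at hx
        rcases e1 0 with h' | h' <;> rw [h'] at hx <;> linarith
      · rw [h] at hy
        rcases e1 1 with h' | h' <;> rw [h'] at hy <;> nlinarith
      · rw [h, ← h12] at hy
        rcases e1 1 with h' | h' <;> rw [h'] at hy <;> nlinarith
  rw [key.1, key.2] at hy hz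
  rw [key.1] at hx
  apply zero
  fin_cases i
  · simpa using hx
  · simpa using hy
  · simpa using hz
  · simpa using hw

/-! ### the magnitudes -/

/-- one-sided consequence of `B a⁵ = A⁵ x⁴ b` for the true magnitudes `at, bt, xt`. -/
theorem key_of {A B at' bt xt ka kb kx : ℝ} (hA : 0 < A) (hB : 0 < B) (hBA : 16 * B ≤ A ^ 5)
    (hid : B * at' ^ 5 = A ^ 5 * (xt ^ 4 * bt)) (hat : 0 ≤ at') (hbt : 0 ≤ bt)
    (hka : 19 / 20 ≤ ka) (hkb : kb ≤ 1) (hkx0 : 0 < kx) (hkx : kx ≤ 1) :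
    (ka * at' = 0 → 0 < kb * bt → kx * xt = 0) ∧
      (0 < ka * at' → 0 ≤ kx * xt → 4 / 5 * (ka * at') ≤ kx * xt →
        5 * (kb * bt) ≤ ka * at') := by
  constructor
  · intro h1 h2
    have h3 : at' = 0 := (mul_eq_zero.1 h1).resolve_left (by linarith)
    have h4 : 0 < bt := by
      by_contra h5
      have : bt = 0 := le_antisymm (not_lt.1 h5) hbt
      rw [this, mul_zero] at h2
      exact lt_irrefl _ h2
    rw [h3] at hid
    have h5 : A ^ 5 * (xt ^ 4 * bt) = 0 := by rw [← hid]; ring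
    have h6 : xt ^ 4 * bt = 0 := (mul_eq_zero.1 h5).resolve_left (by positivity)
    have h7 : xt ^ 4 = 0 := (mul_eq_zero.1 h6).resolve_right h4.ne'
    have h8 : xt = 0 := by
      by_contra h9
      exact pow_ne_zero 4 h9 h7
    rw [h8, mul_zero]
  · intro h1 h0 h2
    have h3 : 0 < at' := by
      by_contra h5
      have : at' = 0 := le_antisymm (not_lt.1 h5) hat
      rw [this, mul_zero] at h1
      exact lt_irrefl _ h1
    have hxt : 0 ≤ xt := by
      by_contra h5
      have := mul_neg_of_pos_of_neg hkx0 (not_le.1 h5)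
      linarith
    have h4 : 19 / 25 * at' ≤ xt := by
      have h5 : kx * xt ≤ xt := by nlinarith
      have h6 : 19 / 20 * at' ≤ ka * at' := mul_le_mul_of_nonneg_right hka hat
      linarith
    have h5 : (19 / 25 * at') ^ 4 ≤ xt ^ 4 := pow_le_pow_left₀ (by positivity) h4 4
    have h6 : A ^ 5 * ((19 / 25 * at') ^ 4 * bt) ≤ B * at' ^ 5 := by
      rw [hid]; gcongr
    have h7 : (19 / 25) ^ 4 * A ^ 5 * bt ≤ B * at' := by
      have h8 : 0 < at' ^ 4 := pow_pos h3 4
      refine le_of_mul_le_mul_left ?_ h8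
      calc at' ^ 4 * ((19 / 25) ^ 4 * A ^ 5 * bt) = A ^ 5 * ((19 / 25 * at') ^ 4 * bt) := by ring
        _ ≤ B * at' ^ 5 := h6
        _ = at' ^ 4 * (B * at') := by ring
    have h8 : (19 / 25) ^ 4 * (16 * B) * bt ≤ B * at' := by
      refine le_trans ?_ h7
      gcongr
    have h9 : (19 / 25) ^ 4 * 16 * bt ≤ at' := by
      refine le_of_mul_le_mul_left ?_ hB
      calc B * ((19 / 25) ^ 4 * 16 * bt) = (19 / 25) ^ 4 * (16 * B) * bt := by ring
        _ ≤ B * at' := h8
    have h10 : kb * bt ≤ bt := by nlinarith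
    have h11 : 19 / 20 * at' ≤ ka * at' := mul_le_mul_of_nonneg_right hka hat
    nlinarith

end Crest.Agent.R267.PatFR_440
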