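import Crest.Agent.R267.HubBx_370
import Crest.Agent.R267.PatFR_440
import Crest.Agent.R267.TabF_440

/-!
# Row 267, C7-f (helper440): the hub path of `f`

`StF` : positions (states) of the three variables of the literal words of `DfL`.
`noOut` : for `B = 0` or `0 < A`, `16 B ≤ A⁵` the literal hub function has no critical zero.
`path1`, `path2` : `Path1P true DfL`, `Path2P true DfL`, from `StF`.
-/

set_option autoImplicit false

noncomputable section

open Finset Set
open Crest.Agent.R267.T3aNDefs_88 Crest.Agent.R267.Ang_739 Crest.Agent.R267.StairFn_739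
open Crest.Agent.R267.GlNDefs_9 Crest.Agent.R267.HubDefs_284 Crest.Agent.R267.HubEng_370
open Crest.Agent.R267.WordPh_9 Crest.Agent.R267.WordPh2_9 Crest.Agent.R267.HubInst_370
open Crest.Agent.R267.PolF_943 Crest.Agent.R267.LemL_951 Crest.Agent.R267.RndP_222
open Crest.Agent.R267.StairPh_739 Crest.Agent.R267.HubBx_370 Crest.Agent.R267.SFLDc_330
open Crest.Agent.R267.PatFR_440
open Crest.Agent.R267.TabF_440 (VS ipos laF Hyp eps_al eps_be)

namespace Crest.Agent.R267.HubF_440

/-- windows of the variable `j` at the angle `x`. -/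
def Wd (j : Fin 4) (x : ℝ) (lo hi : ℕ) : ℝ :=
  wn (aE (DfL.M j)) (bE (DfL.M j)) lo hi x

/-- **positions**: a variable whose own phase is close to a multiple of `π` is in a state. -/
def StF : Prop := ∀ i : Fin 3, ∀ x : ℝ, ∀ m : ℤ, ∀ t ≤ 1 / 10,
  |pp DfL i.castSucc x - Real.pi * m| ≤ t → ∃ s : ℕ, ∃ k : ℤ,
    VS i s (Wd i.castSucc x) ∧
    |hh true DfL i.castSucc x - Real.pi * (ipos i s k : ℤ)| ≤ t ∧
    (StTab_568.plus i s = true ↔ eps m = 1)

/-! ### magnitudes -/

/-- one-sided consequences of `B a⁵ = A⁵ x⁴ b` for perturbed magnitudes. -/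
theorem key2 {A B a b x a' b' x' : ℝ} (hA : 0 < A) (hB : 0 < B) (hBA : 16 * B ≤ A ^ 5)
    (hid : B * a ^ 5 = A ^ 5 * (x ^ 4 * b)) (ha : 0 ≤ a) (hb : 0 ≤ b) (hx : 0 ≤ x)
    (h1 : 19 / 20 * a ≤ a') (h2 : b' ≤ b) (h3 : x' ≤ x) (h3' : 0 ≤ x') :
    (a' = 0 → 0 < b' → x' = 0) ∧ (0 < a' → a' ≤ a → 4 / 5 * a' ≤ x' → 5 * b' ≤ a') := by
  constructor
  · intro h4 h5
    have h6 : a = 0 := le_antisymm (by linarith) ha
    rw [h6] at hid
    have h7 : A ^ 5 * (x ^ 4 * b) = 0 := by rw [← hid]; ring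
    have h8 : x ^ 4 * b = 0 := (mul_eq_zero.1 h7).resolve_left (by positivity)
    have h9 : x ^ 4 = 0 := (mul_eq_zero.1 h8).resolve_right (by linarith)
    have h10 : x = 0 := by
      by_contra h11
      exact pow_ne_zero 4 h11 h9
    exact le_antisymm (by linarith) h3'
  · intro h4 h4' h5
    have h6 : 0 < a := lt_of_lt_of_le h4 h4'
    have h7 : 19 / 25 * a ≤ x := by linarith
    have h8 : (19 / 25 * a) ^ 4 ≤ x ^ 4 := pow_le_pow_left₀ (by positivity) h7 4
    have h9 : A ^ 5 * ((19 / 25 * a) ^ 4 * b) ≤ B * a ^ 5 := by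
      rw [hid]; gcongr
    have h10 : (19 / 25) ^ 4 * A ^ 5 * b ≤ B * a := by
      have h11 : 0 < a ^ 4 := pow_pos h6 4
      refine le_of_mul_le_mul_left ?_ h11
      calc a ^ 4 * ((19 / 25) ^ 4 * A ^ 5 * b) = A ^ 5 * ((19 / 25 * a) ^ 4 * b) := by ring
        _ ≤ B * a ^ 5 := h9
        _ = a ^ 4 * (B * a) := by ring
    have h11 : (19 / 25) ^ 4 * (16 * B) * b ≤ B * a := by
      refine le_trans ?_ h10
      gcongr
    have h12 : (19 / 25) ^ 4 * 16 * b ≤ a := by
      refine le_of_mul_le_mul_left ?_ hB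
      calc B * ((19 / 25) ^ 4 * 16 * b) = (19 / 25) ^ 4 * (16 * B) * b := by ring
        _ ≤ B * a := h11
    nlinarith

/-! ### the boxes with the window `0` over vanishing variables -/

theorem bx_mono {κ : Type} [Fintype κ] {R e : Fin 4 → ℝ} {S : κ → Finset (Fin 4)}
    {th : κ → Fin 4 → ℝ} {la la' de : κ → ℝ} (h : PatF_568.Bx R e S th la de)
    (h01 : ∀ c, (∀ i ∈ S c, e i = 1) → la' c = 0 ∨ la' c = 1)
    (hla : ∀ c, la' c = la c ∨ (la' c = 0 ∧ ∃ i ∈ S c, R i = 0)) :
    PatF_568.Bx R e S th la' de where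
  R0 := h.R0
  e1 := h.e1
  th0 := h.th0
  ths := h.ths
  de0 := h.de0
  la01 := h01
  off := fun c hc => by
    rcases hla c with h1 | ⟨-, i, hi, h2⟩
    · exact h.off c (h1 ▸ hc)
    · exact h.zero c i hi h2
  amgm := fun c hc => by
    rcases hla c with h1 | ⟨h1, -⟩
    · exact h.amgm c (h1 ▸ hc)
    · rw [h1] at hc; norm_num at hc
  zero := h.zero
  pos := fun c hc => by
    rcases hla c with h1 | ⟨h1, -⟩
    · exact h.pos c (h1 ▸ hc)
    · rw [h1] at hc; norm_num at hc

variable {A B : ℝ → ℝ → ℝ} {t : ℝ} {z : Fin 4 → ℂ} {ζ : ℂ}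

theorem e4 : 4 * (15 * dd) ≤ 1 / 10 := by rw [edd]; norm_num

/-- the states at a real point. -/
theorem exists_hyp (hSt : StF) (F : Facts true DfL) (hs : Sched true DfL A B)
    (o : (HH true DfL A B).Out (15 * dd) t z ζ) (hr : |ζ.im| ≤ 15 * dd) :
    ∃ (s : Fin 3 → ℕ) (k : Fin 3 → ℤ),
      Hyp (fun j => z j ≠ 0) (fun j => Wd j (ag z j)) s ((HH true DfL A B).es z ζ) ∧
      ∀ i : Fin 3, z i.castSucc ≠ 0 →
        |hh true DfL i.castSucc (ag z i.castSucc) - Real.pi * (ipos i (s i) (k i) : ℤ)| ≤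
          4 * (15 * dd) := by
  have h : (HH true DfL A B).Ok univ (15 * dd) := ok dd_pos F hs
  have he5 : 5 * (15 * dd) < 1 := by rw [edd]; norm_num
  have hex : ∀ i : Fin 3, ∃ (s : ℕ) (k : ℤ), (z i.castSucc ≠ 0 →
      VS i s (Wd i.castSucc (ag z i.castSucc)) ∧
      |hh true DfL i.castSucc (ag z i.castSucc) - Real.pi * (ipos i s k : ℤ)| ≤ 4 * (15 * dd)) ∧
      (z i.castSucc = 0 → s = 0) ∧
      (HH true DfL A B).es z ζ i.castSucc = if StTab_568.plus i s then 1 else -1 := by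
    intro i
    by_cases hz : z i.castSucc = 0
    · refine ⟨0, 0, fun h1 => absurd hz h1, fun _ => rfl, ?_⟩
      rw [Hub.es_zero hz (h.D0 _).ne']
      fin_cases i <;> rfl
    · obtain ⟨n, hn, hen⟩ := Hub.Out.pos_own h he5 o hr ((h.R_pos_iff z i.castSucc).2 hz)
      obtain ⟨s, k, hv, hk, hp⟩ := hSt i (ag z i.castSucc) n (4 * (15 * dd)) e4 hn
      refine ⟨s, k, fun _ => ⟨hv, hk⟩, fun h1 => absurd h1 hz, ?_⟩
      rw [hen]
      by_cases h1 : StTab_568.plus i s = true
      · rw [if_pos h1]; exact hp.1 h1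
      · rw [if_neg h1]
        rcases eps_pm n with h2 | h2
        · exact absurd (hp.2 h2) h1
        · exact h2
  choose s k h1 h2 h3 using hex
  refine ⟨s, k, ⟨fun hz => (h1 0 hz).1, fun hz => (h1 1 hz).1, fun hz => (h1 2 hz).1,
    fun hz => h2 0 (not_not.1 hz), fun hz => h2 1 (not_not.1 hz), fun hz => h2 2 (not_not.1 hz),
    h3 0, h3 1, h3 2, ?_⟩, fun i hz => (h1 i hz).2⟩
  intro he _ lo hi hlo hhi
  exact wn01 (arcsE (DfL.M 3)) hlo hhi (Hub.Out.es_one h o he)

/-- **no critical zero of the literal hub function of `f`**. -/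
theorem noOut (hSt : StF) (F : Facts true DfL) (hs : Sched true DfL A B)
    (ht : t ∈ Icc (0 : ℝ) 1) (hz : z ≠ 0)
    (hAB : B t (ag z 0) = 0 ∨
      (0 < A t (ag z 0) ∧ 0 < B t (ag z 0) ∧ 16 * B t (ag z 0) ≤ A t (ag z 0) ^ 5)) :
    ¬ (HH true DfL A B).Out (15 * dd) t z ζ := by
  intro o
  have h : (HH true DfL A B).Ok univ (15 * dd) := ok dd_pos F hs
  have he1 : 15 * dd < 1 := by rw [edd]; norm_num
  -- all primed magnitudes vanish: contradiction
  have hfin : ¬ ∀ i, (HH true DfL A B).Rp z ζ i = 0 := by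
    intro hall
    apply hz
    funext i
    by_contra hne
    exact ((Hub.Out.Rp_pos_iff h he1 o i).2 hne).ne' (hall i)
  have R0 := fun i => Hub.Rp_nonneg (H := HH true DfL A B) (z := z) (ζ := ζ) i
  have a0 := h.rp_nonneg ht (z := z) (ζ := ζ) 0
  have b0 := h.rp_nonneg ht (z := z) (ζ := ζ) 1
  have rbd := fun v => Hub.Out.rp_bd h ht o v
  have rpos : ∀ v, 0 < (HH true DfL A B).rp t z ζ v → 0 < (HH true DfL A B).r t z v :=
    fun v hv => lt_of_lt_of_le hv (rbd v).2
  have hpos : ∀ v i, 0 < (HH true DfL A B).rp t z ζ v → vc true v i ≠ 0 →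
      0 < (HH true DfL A B).Rp z ζ i := fun v i hv hi =>
    (Hub.Out.Rp_pos_iff h he1 o i).2 (r_pos_var (rpos v hv) hi)
  have hapos : 0 < (HH true DfL A B).rp t z ζ 0 → 0 < (HH true DfL A B).Rp z ζ 0 ∧
      0 < (HH true DfL A B).Rp z ζ 1 ∧ 0 < (HH true DfL A B).Rp z ζ 2 := fun hv =>
    ⟨hpos 0 0 hv (by decide), hpos 0 1 hv (by decide), hpos 0 2 hv (by decide)⟩
  have hbpos : 0 < (HH true DfL A B).rp t z ζ 1 → 0 < (HH true DfL A B).Rp z ζ 1 ∧
      0 < (HH true DfL A B).Rp z ζ 2 := fun hv =>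
    ⟨hpos 1 1 hv (by decide), hpos 1 2 hv (by decide)⟩
  obtain ⟨q0, q1, q2, q3⟩ := eq_f F o
  rcases le_or_gt |ζ.im| (15 * dd) with hr | hr
  · -- real conormal
    obtain ⟨s, k, hyp, hk⟩ := exists_hyp hSt F hs o hr
    have hu : (fun i : Fin 3 => lft (HH true DfL A B).ph (ag z) i.castSucc) =
        fun i : Fin 3 => hh true DfL i.castSucc (ag z i.castSucc) := rfl
    -- signs of the couplings
    have hsA : 0 < (HH true DfL A B).rp t z ζ 0 →
        (HH true DfL A B).sv z ζ 0 = if StTab_568.sa s then 1 else -1 := by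
      intro hv
      have hz0 : z 0 ≠ 0 := r_pos_var (rpos 0 hv) (by decide)
      have hz1 : z 1 ≠ 0 := r_pos_var (rpos 0 hv) (by decide)
      have hz2 : z 2 ≠ 0 := r_pos_var (rpos 0 hv) (by decide)
      have hN : Near (fun i : Fin 3 => hh true DfL i.castSucc (ag z i.castSucc))
          (ipos 0 (s 0) (k 0)) (ipos 1 (s 1) (k 1)) (ipos 2 (s 2) (k 2)) (4 * (15 * dd)) :=
        ⟨hk 0 hz0, hk 1 hz1, hk 2 hz2⟩
      have h1 := near_fAl dd_pos (by rw [edd]; norm_num) hN
      have h2 : (HH true DfL A B).Φ 0 (lft (HH true DfL A B).ph (ag z)) =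
          fAl (Hs dd_pos) (fun i : Fin 3 => hh true DfL i.castSucc (ag z i.castSucc)) := rfl
      rw [← h2] at h1
      rw [← eps_al s k]
      exact Hub.Out.sv_eq o hr h1 (by unfold dd; norm_num)
    have hsB : 0 < (HH true DfL A B).rp t z ζ 1 →
        (HH true DfL A B).sv z ζ 1 = if StTab_568.sb s then 1 else -1 := by
      intro hv
      have hz1 : z 1 ≠ 0 := r_pos_var (rpos 1 hv) (by decide)
      have hz2 : z 2 ≠ 0 := r_pos_var (rpos 1 hv) (by decide)
      have h1 := near_fBe dd_pos (u := fun i : Fin 3 => hh true DfL i.castSucc (ag z i.castSucc))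
        (hk 1 hz1) (hk 2 hz2)
      have h2 : (HH true DfL A B).Φ 1 (lft (HH true DfL A B).ph (ag z)) =
          fBe (Hs dd_pos) (fun i : Fin 3 => hh true DfL i.castSucc (ag z i.castSucc)) := rfl
      rw [← h2] at h1
      rw [← eps_be s k]
      exact Hub.Out.sv_eq o hr h1 (by unfold dd; norm_num)
    have eA : (HH true DfL A B).sv z ζ 0 * (HH true DfL A B).rp t z ζ 0 =
        (if StTab_568.sa s then 1 else -1) * (HH true DfL A B).rp t z ζ 0 := by
      rcases a0.eq_or_lt with h0 | h0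
      · rw [← h0]; simp
      · rw [hsA h0]
    have eB : (HH true DfL A B).sv z ζ 1 * (HH true DfL A B).rp t z ζ 1 =
        (if StTab_568.sb s then 1 else -1) * (HH true DfL A B).rp t z ζ 1 := by
      rcases b0.eq_or_lt with h0 | h0
      · rw [← h0]; simp
      · rw [hsB h0]
    rw [eA] at q0
    rw [eA, eB] at q1 q2
    -- the boxes
    have hbx := bx F hs o
    have hbx' : PatF_568.Bx ((HH true DfL A B).Rp z ζ) ((HH true DfL A B).es z ζ)
        (fun c => (DfL.bx c).S) (HubBx_370.sb DfL)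
        (laF (fun j => z j ≠ 0) fun j => Wd j (ag z j)) ((HH true DfL A B).Bp z ζ) := by
      refine bx_mono hbx hyp.la01 fun c => ?_
      by_cases hall : ∀ j ∈ (DfL.bx c).S, z j ≠ 0
      · left
        show laF _ _ c = (HH true DfL A B).La c (ag z)
        rw [La_eq]
        unfold laF
        rw [if_pos hall]
        rfl
      · right
        refine ⟨by unfold laF; rw [if_neg hall], ?_⟩
        push Not at hall
        obtain ⟨j, hj, hj0⟩ := hall
        refine ⟨j, hj, ?_⟩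
        by_contra hne
        exact (Hub.Out.Rp_pos_iff h he1 o j).1 (lt_of_le_of_ne (R0 j) (Ne.symm hne)) hj0
    -- the magnitudes
    have hmag : ((HH true DfL A B).rp t z ζ 0 = 0 → 0 < (HH true DfL A B).rp t z ζ 1 →
          (HH true DfL A B).Rp z ζ 0 = 0) ∧
        (0 < (HH true DfL A B).rp t z ζ 0 → 0 < (HH true DfL A B).rp t z ζ 1 →
          4 / 5 * (HH true DfL A B).rp t z ζ 0 ≤ (HH true DfL A B).Rp z ζ 0 →
          5 * (HH true DfL A B).rp t z ζ 1 ≤ (HH true DfL A B).rp t z ζ 0) := by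
      rcases hAB with hB | ⟨hA, hB, hAB⟩
      · have hr1 : (HH true DfL A B).r t z 1 = 0 := by
          rw [r_eq, if_neg (by decide), hB, zero_mul]
        have hp1 : ¬ 0 < (HH true DfL A B).rp t z ζ 1 := fun h1 => (rpos 1 h1).ne' hr1
        exact ⟨fun _ h1 => absurd h1 hp1, fun _ h1 => absurd h1 hp1⟩
      · have h19 : 19 / 20 * (HH true DfL A B).r t z 0 ≤ (HH true DfL A B).rp t z ζ 0 := by
          refine le_trans ?_ (rbd 0).1
          refine mul_le_mul_of_nonneg_right ?_ (h.r_nonneg ht z 0)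
          rw [edd]; norm_num
        have key := key2 hA hB hAB (rel_f (D := DfL) (A := A) (B := B) (t := t) (z := z))
          (h.r_nonneg ht z 0) (h.r_nonneg ht z 1) (Hub.R_nonneg z 0) h19 (rbd 1).2
          (Hub.Out.Rp_bd h o 0).2 (R0 0)
        exact ⟨key.1, fun h1 _ h2 => key.2 h1 (rbd 0).2 h2⟩
    refine hfin fun i => ?_
    refine patFR hbx' (wy := 1 / 10) (wz := 1 / 10) (by norm_num) (by norm_num) a0 b0 hapos hbpos
      hmag.1 hmag.2 ?_ ?_ q0 q1 q2 q3 ?_ ?_ ?_ ?_ i
    · split_ifs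
      · exact Or.inl rfl
      · exact Or.inr rfl
    · split_ifs
      · exact Or.inl rfl
      · exact Or.inr rfl
    · intro h1 h2 h3 h4
      refine hyp.Pm ?_ h2 h3 h4
      by_contra h5
      rw [if_pos (by simpa using h5)] at h1
      norm_num at h1
    · intro h1 _
      refine hyp.Pp ?_
      by_contra h5
      rw [if_neg h5] at h1
      norm_num at h1
    · intro h1 h3 h4
      refine hyp.Qm ?_ h3 h4
      by_contra h5
      rw [if_pos (by simpa using h5)] at h1
      norm_num at h1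
    · intro h1 _
      refine hyp.Qp ?_
      by_contra h5
      rw [if_neg h5] at h1
      norm_num at h1
  · -- non real conormal
    have hB0 : ∀ c, (HH true DfL A B).Bp z ζ c = 0 := fun c => Hub.Out.Bp_im o hr c
    have hsum : ∀ i, ∑ c, HubBx_370.sb DfL c i * (HH true DfL A B).Bp z ζ c = 0 := fun i =>
      Finset.sum_eq_zero fun c _ => by rw [hB0 c, mul_zero]
    rw [hsum] at q0 q1 q2 q3
    have he3 : 3 * (15 * dd) < 1 := by rw [edd]; norm_num
    have hv0 : ∀ i : Fin 4, (HH true DfL A B).sh 0 i ≠ 0 → i = 0 ∨ i = 1 ∨ i = 2 := by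
      intro i hi
      fin_cases i
      · exact Or.inl rfl
      · exact Or.inr (Or.inl rfl)
      · exact Or.inr (Or.inr rfl)
      · exfalso
        apply hi
        show 3 * ((vc true 0 3 : ℕ) : ℝ) = 0
        simp [vc]
    have hv1 : ∀ i : Fin 4, (HH true DfL A B).sh 1 i ≠ 0 → i = 1 ∨ i = 2 := by
      intro i hi
      fin_cases i
      · exfalso
        apply hi
        show 3 * ((vc true 1 0 : ℕ) : ℝ) = 0
        simp [vc]
      · exact Or.inl rfl
      · exact Or.inr rfl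
      · exfalso
        apply hi
        show 3 * ((vc true 1 3 : ℕ) : ℝ) = 0
        simp [vc]
    refine hfin fun i => ?_
    refine patFR_im R0 (fun i => Hub.es_pm i) (wy := 1 / 10) (wz := 1 / 10) (by norm_num)
      (by norm_num) a0 b0 hbpos q0 q1 q2 q3 ?_ ?_ i
    · intro hv
      obtain ⟨i, -, -, h1, h2⟩ := Hub.Out.sv_im h he3 o hr (rpos 0 hv)
      rcases hv0 i h1 with rfl | rfl | rfl
      · exact Or.inl h2
      · exact Or.inr (Or.inl h2)
      · exact Or.inr (Or.inr h2)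
    · intro hv
      obtain ⟨i, -, -, h1, h2⟩ := Hub.Out.sv_im h he3 o hr (rpos 1 hv)
      rcases hv1 i h1 with rfl | rfl
      · exact Or.inl h2
      · exact Or.inr h2

theorem chi_one (x : ℝ) : chi true DfL x = 1 := rfl

/-- **C7-f, first half**. -/
theorem path1 (hSt : StF) (F : Facts true DfL) : Path1P true DfL := by
  refine path1P F (M0 := 2) fun M hM hM0 t ht z hz ζ => ?_
  refine noOut hSt F (sched1 F hM0) ht hz ?_
  simp only [chi_one]
  rcases ht.2.lt_or_eq with h1 | h1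
  · right
    have h2 : 0 < M := by linarith
    have h3 : (2 : ℝ) ^ 4 ≤ M ^ 4 := pow_le_pow_left₀ (by norm_num) hM 4
    have h4 : 0 < 1 - t := by linarith
    refine ⟨by nlinarith, by nlinarith, ?_⟩
    have h5 : M * (1 - t * (1 - 1)) = M := by ring
    rw [h5]
    have h6 : M * (1 - t * 1) ≤ M := by nlinarith [ht.1]
    calc 16 * (M * (1 - t * 1)) ≤ 16 * M := by linarith
      _ ≤ M ^ 4 * M := by nlinarith
      _ = M ^ 5 := by ring
  · left
    rw [h1]; ring

/-- **C7-f, second half**. -/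
theorem path2 (hSt : StF) (F : Facts true DfL) : Path2P true DfL := by
  refine path2P F (M0 := 2) fun M hM hM0 t ht z hz ζ => ?_
  refine noOut hSt F (sched2 F hM0) ht hz ?_
  left
  simp only [chi_one]
  ring

end Crest.Agent.R267.HubF_440
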