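import Crest.Agent.R267.StaW_568
import Crest.Agent.R267.TabF_440
import Crest.Agent.R267.StTabG_222

/-!
# Row 267, C7 (helper568): the literal state facts `StF` (helper440) and `StG` (helper222)
-/

set_option autoImplicit false

noncomputable section

open Finset Set
open Crest.Agent.R267.GlNDefs_9 Crest.Agent.R267.WordPh_9 Crest.Agent.R267.WordPh2_9
open Crest.Agent.R267.HubDefs_284 Crest.Agent.R267.HubInst_370 Crest.Agent.R267.HubFacts_370
open Crest.Agent.R267.T3aNDefs_88 Crest.Agent.R267.SFLDc_330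
open Crest.Agent.R267.RndP_222 Crest.Agent.R267.StaW_568

namespace Crest.Agent.R267.StFG_568

variable {b : Bool} {D : SD 4}

/-- **states of the literal words**. -/
theorem sta (N : Num b D) (j : Fin 4) {τ x : ℝ} (hτ0 : 0 ≤ τ) (hτ : τ ≤ 1)
    (hx : ∃ m : ℤ, |pp D j x - Real.pi * m| ≤ τ) :
    ∃ s, Sta (D.M j) (nh b j) (aE (D.M j)) (bE (D.M j)) (D.sn j) τ x s :=
  exists_sta (arcsE (D.M j)) (sn_pm j) (nh_pos b j) (N.nM j) (N.hs j) hτ0 hτ hx

theorem win01 (D : SD 4) (j : Fin 4) {lo hi : ℕ} (hlo : lo ≤ hi) (hhi : hi ≤ D.M j) {x : ℝ}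
    (hx : 0 < Real.cos (pp D j x)) :
    wn (aE (D.M j)) (bE (D.M j)) lo hi x = 0 ∨ wn (aE (D.M j)) (bE (D.M j)) lo hi x = 1 :=
  StaW_568.win01 (arcsE (D.M j)) (sn_pm j) hlo hhi hx

theorem eps_one (m : ℤ) : eps m = 1 ↔ m % 2 = 0 := by
  unfold eps
  split_ifs with h
  · exact ⟨fun _ => h, fun _ => rfl⟩
  · exact ⟨fun h1 => by norm_num at h1, fun h1 => absurd h1 h⟩

/-! ### `f` -/

theorem nhf (i : Fin 3) : 2 * nh true i.castSucc = StTab_568.per i := by fin_cases i <;> rfl

theorem Mf (i : Fin 3) : DfL.M i.castSucc = (![18, 24, 14] : Fin 3 → ℕ) i := by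
  fin_cases i <;> rfl

/-- **`StF`** (helper440). -/
theorem stF (i : Fin 3) (x : ℝ) (m : ℤ) (t : ℝ) (ht : t ≤ 1 / 10)
    (hx : |pp DfL i.castSucc x - Real.pi * m| ≤ t) :
    ∃ (s : ℕ) (k : ℤ), TabF_440.VS i s
        (fun lo hi => wn (aE (DfL.M i.castSucc)) (bE (DfL.M i.castSucc)) lo hi x) ∧
      |hh true DfL i.castSucc x - Real.pi * (TabF_440.ipos i s k : ℤ)| ≤ t ∧
      (StTab_568.plus i s = true ↔ eps m = 1) := by
  have ht0 : 0 ≤ t := (abs_nonneg _).trans hx
  obtain ⟨s, h⟩ := sta num_f i.castSucc ht0 (by linarith) ⟨m, hx⟩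
  have hn := nhf i
  have hM := Mf i
  have hnM := num_f.nM i.castSucc
  have h1n := nh_pos true i.castSucc
  have hper : StTab_568.per i / 2 = nh true i.castSucc := by omega
  obtain ⟨k, hk⟩ := h.ph
  refine ⟨s, k, ?_, ?_, ?_⟩
  · refine ⟨by rw [← hn]; exact h.le, ?_, ?_, ?_, ?_, ?_, ?_⟩
    · intro hs
      rw [hper, ← hM]
      exact h.arm1 (by omega)
    · intro h1 h2
      rw [hper, ← hM]
      by_contra hc
      have := h.arm0 _ _ (by omega) (by omega) le_rfl hc
      omega
    · intro lo hi h1 h2 h3 h4 h5 h6 h7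
      exact h.hub1 _ _ (by omega) (by omega) (by omega) h5 (by omega) (by omega)
    · intro lo hi h1 h2 h3 h4
      by_contra hc
      have := h.hub0 _ _ (by omega) (by omega) hc
      apply h4
      rcases this with h5 | h5
      · left; omega
      · right; omega
    · intro hs lo hi h1 h2
      rw [← hM] at h2
      exact win01 DfL i.castSucc h1 h2 (h.own.2 (by omega))
    · intro h1 h2 l h3 h4
      rw [← hM] at h4
      by_contra hc
      have := h.arm0 _ _ (by omega) (by omega) h4 hc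
      omega
  · have e1 : TabF_440.ipos i s k = posz (nh true i.castSucc) s + 2 * (nh true i.castSucc : ℕ) * k := by
      unfold TabF_440.ipos posz StTab_568.pos
      rw [← hn]
      split_ifs <;> push_cast <;> ring
    rw [e1]
    exact hk
  · have h2 : StTab_568.plus i s = true ↔ (s = 2 * nh true i.castSucc ∨ s % 2 = 1) := by
      unfold StTab_568.plus
      rw [Bool.or_eq_true, beq_iff_eq, beq_iff_eq, hn]
    rw [h2, ← h.own, eps_one, ← cos_near hx (by linarith)]
    rfl

/-! ### `g` -/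

theorem nhg (i : Fin 3) : nh false i.castSucc = 5 := by fin_cases i <;> rfl

/-- **`StG`** (helper222, #3720), any `t ≤ 1`. -/
theorem stG {t : ℝ} (ht0 : 0 ≤ t) (ht : t ≤ 1) (i : Fin 3) (x : ℝ)
    (hx : ∃ m : ℤ, |pp DgL i.castSucc x - Real.pi * m| ≤ t) :
    ∃ s ≤ 10, ∃ k : ℤ, |hh false DgL i.castSucc x -
        Real.pi * ((StTabG_222.pos s + 10 * k : ℤ) : ℝ)| ≤ t ∧
      (0 < Real.cos (pp DgL i.castSucc x) ↔ StTabG_222.plus s = true) ∧
      (∀ (W : StTab_568.Win) (lo hi : ℕ),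
        (W = .arm ∧ lo = 4 ∧ hi = DgL.M i.castSucc ∨ W = .hub (lo + 1) (hi + 1) ∧ lo ≤ hi ∧ hi ≤ 4) →
        (StTabG_222.plus s = true →
          wn (aE (DgL.M i.castSucc)) (bE (DgL.M i.castSucc)) lo hi x = 0 ∨
          wn (aE (DgL.M i.castSucc)) (bE (DgL.M i.castSucc)) lo hi x = 1) ∧
        (StTabG_222.poss s W = false →
          wn (aE (DgL.M i.castSucc)) (bE (DgL.M i.castSucc)) lo hi x = 0) ∧
        (StTabG_222.full s W = true → W ≠ .no →
          wn (aE (DgL.M i.castSucc)) (bE (DgL.M i.castSucc)) lo hi x = 1)) ∧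
      (∀ lo hi : ℕ, 4 ≤ lo → lo ≤ hi → hi ≤ DgL.M i.castSucc →
        (StTabG_222.plus s = true →
          wn (aE (DgL.M i.castSucc)) (bE (DgL.M i.castSucc)) lo hi x = 0 ∨
          wn (aE (DgL.M i.castSucc)) (bE (DgL.M i.castSucc)) lo hi x = 1) ∧
        (s ≠ 10 → s ≠ 0 →
          wn (aE (DgL.M i.castSucc)) (bE (DgL.M i.castSucc)) lo hi x = 0)) := by
  obtain ⟨s, h⟩ := sta num_g i.castSucc ht0 ht hx
  have hn := nhg i
  have hnM := num_g.nM i.castSucc
  have hle := h.le
  have hplus : StTabG_222.plus s = true ↔ (s = 2 * nh false i.castSucc ∨ s % 2 = 1) := by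
    unfold StTabG_222.plus
    rw [Bool.or_eq_true, beq_iff_eq, beq_iff_eq, hn]
  obtain ⟨k, hk⟩ := h.ph
  refine ⟨s, by omega, k, ?_, ?_, ?_, ?_⟩
  · have e1 : (StTabG_222.pos s + 10 * k : ℤ) =
        posz (nh false i.castSucc) s + 2 * (nh false i.castSucc : ℕ) * k := by
      unfold StTabG_222.pos posz
      rw [hn]
      push_cast
      ring
    rw [e1]
    exact hk
  · rw [hplus]; exact h.own
  · rintro W lo hi (⟨rfl, rfl, rfl⟩ | ⟨rfl, h1, h2⟩)
    · refine ⟨fun h3 => win01 DgL _ (by omega) le_rfl (h.own.2 (hplus.1 h3)), fun h3 => ?_,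
        fun h3 _ => ?_⟩
      · simp only [StTabG_222.poss, Bool.or_eq_false_iff, beq_eq_false_iff_ne, ne_eq] at h3
        by_contra hc
        have := h.arm0 _ _ (by omega) (by omega) le_rfl hc
        omega
      · simp only [StTabG_222.full, beq_iff_eq] at h3
        have := h.arm1 (by omega)
        rwa [hn] at this
    · refine ⟨fun h3 => win01 DgL _ h1 (by omega) (h.own.2 (hplus.1 h3)), fun h3 => ?_,
        fun h3 _ => ?_⟩
      · by_contra hc
        have h4 := h.hub0 _ _ h1 (by omega) hc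
        have : StTabG_222.poss s (.hub (lo + 1) (hi + 1)) = true := by
          simp only [StTabG_222.poss, Bool.or_eq_true, Bool.and_eq_true, bne_iff_ne, beq_iff_eq,
            decide_eq_true_eq, ne_eq]
          rcases h4 with h5 | h5
          · left; omega
          · right; omega
        rw [this] at h3
        exact absurd h3 (by decide)
      · simp only [StTabG_222.full, StTabG_222.ray, Bool.and_eq_true, bne_iff_ne, beq_iff_eq,
          decide_eq_true_eq, ne_eq] at h3
        exact h.hub1 _ _ h1 (by omega) (by omega) h3.1.1.2 (by omega) (by omega)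
  · intro lo hi h1 h2 h3
    refine ⟨fun h4 => win01 DgL _ h2 h3 (h.own.2 (hplus.1 h4)), fun h4 h5 => ?_⟩
    by_contra hc
    have := h.arm0 _ _ (by omega) h2 h3 hc
    omega

end Crest.Agent.R267.StFG_568
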