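import Crest.Agent.R267.HubBx_370
import Crest.Agent.R267.PatFR_440
import Crest.Agent.R267.StFG_568

/-!
# Row 267, C7-f (helper568, independent copy): no `Out` for `f`, hence `Path1P`, `Path2P` for `DfL`
-/

set_option autoImplicit false

noncomputable section

open Finset Set
open Crest.Agent.R267.T3aNDefs_88 Crest.Agent.R267.Ang_739 Crest.Agent.R267.StairFn_739
open Crest.Agent.R267.StairPh_739
open Crest.Agent.R267.GlNDefs_9 Crest.Agent.R267.HubDefs_284 Crest.Agent.R267.HubEng_370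
open Crest.Agent.R267.WordPh_9 Crest.Agent.R267.WordPh2_9 Crest.Agent.R267.HubInst_370
open Crest.Agent.R267.PolF_943 Crest.Agent.R267.LemL_951 Crest.Agent.R267.RndP_222
open Crest.Agent.R267.HubBx_370 Crest.Agent.R267.HubFacts_370 Crest.Agent.R267.SFLDc_330
open Crest.Agent.R267.TabF_440

namespace Crest.Agent.R267.HubF_568

variable {A B : ℝ → ℝ → ℝ} {t : ℝ} {z : Fin 4 → ℂ} {ζ : ℂ}

/-- condition on the coefficients. -/
def AB (A B : ℝ → ℝ → ℝ) : Prop := ∀ t ∈ Icc (0 : ℝ) 1, ∀ x,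
  B t x = 0 ∨ (0 < A t x ∧ 16 * B t x ≤ A t x ^ 5)

/-- windows at a point. -/
def WF (z : Fin 4 → ℂ) (j : Fin 4) (lo hi : ℕ) : ℝ :=
  wn (aE (DfL.M j)) (bE (DfL.M j)) lo hi (ag z j)

theorem laF_eq (c : Fin DfL.nb) (h : ∀ j ∈ (DfL.bx c).S, z j ≠ 0) :
    laF (fun j => z j ≠ 0) (WF z) c = (HH true DfL A B).La c (ag z) := by
  rw [laF, if_pos h, La_eq]
  rfl

theorem laF_one {c : Fin DfL.nb} (h : laF (fun j => z j ≠ 0) (WF z) c = 1) :
    (HH true DfL A B).La c (ag z) = 1 := by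
  by_cases hn : ∀ j ∈ (DfL.bx c).S, z j ≠ 0
  · rw [← laF_eq c hn, h]
  · rw [laF, if_neg hn] at h
    norm_num at h

/-- the state of a variable at a real critical zero. -/
theorem exists_state (o : (HH true DfL A B).Out (15 * dd) t z ζ) (hs : Sched true DfL A B)
    (hr : |ζ.im| ≤ 15 * dd) (i : Fin 3) : ∃ (s : ℕ) (k : ℤ),
      (z i.castSucc ≠ 0 → VS i s (WF z i.castSucc)) ∧
      (z i.castSucc ≠ 0 → |hh true DfL i.castSucc (ag z i.castSucc) - Real.pi * (ipos i s k : ℤ)|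
        ≤ 4 * (15 * dd)) ∧
      (¬ z i.castSucc ≠ 0 → s = 0) ∧
      (HH true DfL A B).es z ζ i.castSucc = if StTab_568.plus i s then 1 else -1 := by
  have h : (HH true DfL A B).Ok univ (15 * dd) := ok dd_pos facts_f hs
  have he : 5 * (15 * dd) < 1 := by rw [edd]; norm_num
  have he' : 4 * (15 * dd) ≤ 1 / 10 := by rw [edd]; norm_num
  by_cases hz : z i.castSucc = 0
  · refine ⟨0, 0, fun h1 => absurd hz h1, fun h1 => absurd hz h1, fun _ => rfl, ?_⟩
    have h1 : (HH true DfL A B).es z ζ i.castSucc = -1 := by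
      refine Hub.es_zero hz ?_
      have := D3_pos true i.castSucc
      show D3 true i.castSucc ≠ 0
      linarith
    rw [h1, if_neg]
    fin_cases i <;> decide
  · have hR : 0 < (HH true DfL A B).R z i.castSucc := (h.R_pos_iff z _).2 hz
    obtain ⟨m, hm, hes⟩ := o.pos_own h he hr hR
    obtain ⟨s, k, h1, h2, h3⟩ := StFG_568.stF i (ag z i.castSucc) m _ he' hm
    refine ⟨s, k, fun _ => h1, fun _ => h2, fun h4 => absurd hz h4, ?_⟩
    rw [hes]
    by_cases h4 : StTab_568.plus i s = true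
    · rw [if_pos h4, h3.1 h4]
    · rw [if_neg h4]
      exact (eps_pm m).resolve_left fun h5 => h4 (h3.2 h5)

/-- **the real case**. -/
theorem real_f (hAB : AB A B) (o : (HH true DfL A B).Out (15 * dd) t z ζ)
    (hs : Sched true DfL A B) (ht : t ∈ Icc (0 : ℝ) 1) (hr : |ζ.im| ≤ 15 * dd) : z = 0 := by
  classical
  have h : (HH true DfL A B).Ok univ (15 * dd) := ok dd_pos facts_f hs
  have he1 : 15 * dd < 1 := by rw [edd]; norm_num
  choose s k hVS hpos hs0 hes using exists_state o hs hr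
  have hyp : Hyp (fun j => z j ≠ 0) (WF z) s ((HH true DfL A B).es z ζ) :=
    ⟨hVS 0, hVS 1, hVS 2, hs0 0, hs0 1, hs0 2, hes 0, hes 1, hes 2, fun h1 _ lo hi h2 h3 =>
      wn01 (arcsE (DfL.M 3)) h2 h3 (o.es_one h h1)⟩
  have hbx := bx facts_f hs o
  have hR0 : ∀ i, z i = 0 → (HH true DfL A B).Rp z ζ i = 0 := fun i hi => by
    by_contra hne
    exact (o.Rp_pos_iff h he1 i).1 (lt_of_le_of_ne (hbx.R0 i) (Ne.symm hne)) hi
  have hbx' : PatF_568.Bx ((HH true DfL A B).Rp z ζ) ((HH true DfL A B).es z ζ)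
      (fun c => (DfL.bx c).S) (sb DfL) (laF (fun j => z j ≠ 0) (WF z))
      ((HH true DfL A B).Bp z ζ) := by
    refine ⟨hbx.R0, hbx.e1, hbx.th0, hbx.ths, hbx.de0, fun c hc => hyp.la01 c hc,
      fun c hc => ?_, fun c hc => hbx.amgm c (laF_one hc), hbx.zero,
      fun c hc => hbx.pos c (laF_one hc)⟩
    by_cases hn : ∀ j ∈ (DfL.bx c).S, z j ≠ 0
    · rw [laF_eq (A := A) (B := B) c hn] at hc
      exact hbx.off c hc
    · push Not at hn
      obtain ⟨j, hj, hzj⟩ := hn
      exact hbx.zero c j hj (hR0 j hzj)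
  -- the couplings
  set a := (HH true DfL A B).rp t z ζ 0 with ha
  set b := (HH true DfL A B).rp t z ζ 1 with hb
  have ha0 : 0 ≤ a := h.rp_nonneg ht 0
  have hb0 : 0 ≤ b := h.rp_nonneg ht 1
  have rpos : ∀ v, 0 < (HH true DfL A B).rp t z ζ v → 0 < (HH true DfL A B).r t z v :=
    fun v hv => hv.trans_le (o.rp_bd h ht v).2
  have Rpos : ∀ i, z i ≠ 0 → 0 < (HH true DfL A B).Rp z ζ i := fun i hi =>
    (o.Rp_pos_iff h he1 i).2 hi
  have za : 0 < a → z 0 ≠ 0 ∧ z 1 ≠ 0 ∧ z 2 ≠ 0 := fun h1 =>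
    ⟨r_pos_var (rpos 0 h1) (by decide), r_pos_var (rpos 0 h1) (by decide),
      r_pos_var (rpos 0 h1) (by decide)⟩
  have zb : 0 < b → z 1 ≠ 0 ∧ z 2 ≠ 0 := fun h1 =>
    ⟨r_pos_var (rpos 1 h1) (by decide), r_pos_var (rpos 1 h1) (by decide)⟩
  have hτ : 0 ≤ 4 * (15 * dd) := by rw [edd]; norm_num
  -- signs
  have sga : 0 < a → (HH true DfL A B).sv z ζ 0 = if StTab_568.sa s then 1 else -1 := by
    intro h1
    obtain ⟨h2, h3, h4⟩ := za h1
    have hn : Near (fun i : Fin 3 => lft (hh true DfL) (ag z) i.castSucc) (ipos 0 (s 0) (k 0))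
        (ipos 1 (s 1) (k 1)) (ipos 2 (s 2) (k 2)) (4 * (15 * dd)) :=
      ⟨hpos 0 h2, hpos 1 h3, hpos 2 h4⟩
    have h5 := near_fAl dd_pos hτ hn
    rw [← eps_al s k]
    refine Hub.Out.sv_eq o hr (v := 0) (e' := 3 * dd + 4 * (15 * dd)) h5 ?_
    unfold dd; norm_num
  have sgb : 0 < b → (HH true DfL A B).sv z ζ 1 = if StTab_568.sb s then 1 else -1 := by
    intro h1
    obtain ⟨h3, h4⟩ := zb h1
    have h5 := near_fBe (u := fun i : Fin 3 => lft (hh true DfL) (ag z) i.castSucc)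
      dd_pos (hpos 1 h3) (hpos 2 h4)
    rw [← eps_be s k]
    refine Hub.Out.sv_eq o hr (v := 1) (e' := dd + 4 * (15 * dd)) h5 ?_
    unfold dd; norm_num
  have ea : (HH true DfL A B).sv z ζ 0 * a = (if StTab_568.sa s then 1 else -1) * a := by
    rcases ha0.eq_or_lt with h1 | h1
    · rw [← h1, mul_zero, mul_zero]
    · rw [sga h1]
  have eb : (HH true DfL A B).sv z ζ 1 * b = (if StTab_568.sb s then 1 else -1) * b := by
    rcases hb0.eq_or_lt with h1 | h1
    · rw [← h1, mul_zero, mul_zero]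
    · rw [sgb h1]
  obtain ⟨hx, hy, hz, hw⟩ := eq_f facts_f o
  rw [← ha, ← hb, ea, eb] at hy hz
  rw [← ha, ea] at hx
  -- magnitudes
  have key : (a = 0 → 0 < b → (HH true DfL A B).Rp z ζ 0 = 0) ∧
      (0 < a → 0 < b → 4 / 5 * a ≤ (HH true DfL A B).Rp z ζ 0 → 5 * b ≤ a) := by
    rcases hAB t ht (ag z 0) with hB | ⟨hA, hBA⟩
    · have : b ≤ 0 := by
        have h1 : (HH true DfL A B).r t z 1 = 0 := by
          rw [r_eq, if_neg (by decide), hB, zero_mul]
        have h2 := (o.rp_bd h ht 1).2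
        rw [h1] at h2
        exact h2
      exact ⟨fun _ h1 => absurd h1 (not_lt.2 this), fun _ h1 => absurd h1 (not_lt.2 this)⟩
    · rcases (hs.B0 t ht (ag z 0)).eq_or_lt with hB | hB
      · have : b ≤ 0 := by
          have h1 : (HH true DfL A B).r t z 1 = 0 := by
            rw [r_eq, if_neg (by decide), ← hB, zero_mul]
          have h2 := (o.rp_bd h ht 1).2
          rw [h1] at h2
          exact h2
        exact ⟨fun _ h1 => absurd h1 (not_lt.2 this), fun _ h1 => absurd h1 (not_lt.2 this)⟩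
      · have hid := rel_f (D := DfL) (A := A) (B := B) (t := t) (z := z)
        have hr0 := h.r_nonneg ht z 0
        have hr1 := h.r_nonneg ht z 1
        have hbd0 := o.rp_bd h ht 0
        have hbd1 := o.rp_bd h ht 1
        have hbdR := o.Rp_bd h 0
        have hedd : 15 * dd = 3 / 2000 := edd
        rw [hedd] at hbd0 hbd1 hbdR
        -- `a = ka r`, `b = kb r`, `R' = kx R`
        have hR0' := Hub.R_nonneg (H := HH true DfL A B) z 0
        obtain ⟨ka, hka1, hka⟩ : ∃ ka, 19 / 20 ≤ ka ∧ ka * (HH true DfL A B).r t z 0 = a := by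
          rcases hr0.eq_or_lt with h1 | h1
          · refine ⟨1, by norm_num, ?_⟩
            rw [← h1] at hbd0 ⊢
            linarith
          · refine ⟨a / (HH true DfL A B).r t z 0, ?_, div_mul_cancel₀ _ h1.ne'⟩
            rw [le_div_iff₀ h1]
            nlinarith [hbd0.1]
        obtain ⟨kb, hkb1, hkb⟩ : ∃ kb, kb ≤ 1 ∧ kb * (HH true DfL A B).r t z 1 = b := by
          rcases hr1.eq_or_lt with h1 | h1
          · refine ⟨1, le_rfl, ?_⟩
            rw [← h1] at hbd1 ⊢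
            linarith
          · refine ⟨b / (HH true DfL A B).r t z 1, ?_, div_mul_cancel₀ _ h1.ne'⟩
            rw [div_le_iff₀ h1]
            linarith [hbd1.2]
        obtain ⟨kx, hkx0, hkx1, hkx⟩ : ∃ kx, 0 < kx ∧ kx ≤ 1 ∧
            kx * (HH true DfL A B).R z 0 = (HH true DfL A B).Rp z ζ 0 := by
          rcases hR0'.eq_or_lt with h1 | h1
          · refine ⟨1, one_pos, le_rfl, ?_⟩
            rw [← h1] at hbdR ⊢
            linarith
          · refine ⟨(HH true DfL A B).Rp z ζ 0 / (HH true DfL A B).R z 0, ?_, ?_,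
              div_mul_cancel₀ _ h1.ne'⟩
            · exact div_pos (by nlinarith [hbdR.1]) h1
            · rw [div_le_iff₀ h1]
              linarith [hbdR.2]
        have hk := PatFR_440.key_of (A := A t (ag z 0)) (B := B t (ag z 0)) hA hB hBA hid hr0 hr1
          hka1 hkb1 hkx0 hkx1
        rw [hka, hkb, hkx] at hk
        exact ⟨hk.1, fun h1 h2 h3 => hk.2 h1 (hbx.R0 0) h3⟩
  have hfin := PatFR_440.patFR hbx' (a := a) (b := b)
    (sa := if StTab_568.sa s then 1 else -1) (sb := if StTab_568.sb s then 1 else -1)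
    (wy := 1 / 10) (wz := 1 / 10) (by norm_num) (by norm_num) ha0 hb0
    (fun h1 => ⟨Rpos 0 (za h1).1, Rpos 1 (za h1).2.1, Rpos 2 (za h1).2.2⟩)
    (fun h1 => ⟨Rpos 1 (zb h1).1, Rpos 2 (zb h1).2⟩) key.1 key.2
    (by split_ifs <;> simp) (by split_ifs <;> simp) hx hy hz hw
    (fun h1 h2 h3 h4 => hyp.Pm (by
      by_contra hc
      rw [if_pos (by simpa using hc)] at h1
      norm_num at h1) h2 h3 h4)
    (fun h1 _ => hyp.Pp (by
      by_contra hc
      rw [if_neg hc] at h1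
      norm_num at h1))
    (fun h1 h2 h3 => hyp.Qm (by
      by_contra hc
      rw [if_pos (by simpa using hc)] at h1
      norm_num at h1) h2 h3)
    (fun h1 _ => hyp.Qp (by
      by_contra hc
      rw [if_neg hc] at h1
      norm_num at h1))
  funext i
  by_contra hne
  exact (Rpos i hne).ne' (hfin i)

/-- **the non real case**. -/
theorem im_f (o : (HH true DfL A B).Out (15 * dd) t z ζ)
    (hs : Sched true DfL A B) (ht : t ∈ Icc (0 : ℝ) 1) (hr : 15 * dd < |ζ.im|) : z = 0 := by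
  have h : (HH true DfL A B).Ok univ (15 * dd) := ok dd_pos facts_f hs
  have he1 : 15 * dd < 1 := by rw [edd]; norm_num
  have he3 : 3 * (15 * dd) < 1 := by rw [edd]; norm_num
  have hbx := bx facts_f hs o
  obtain ⟨hx, hy, hz, hw⟩ := eq_f facts_f o
  have hB : ∀ c, (HH true DfL A B).Bp z ζ c = 0 := o.Bp_im hr
  simp only [hB, mul_zero, Finset.sum_const_zero] at hx hy hz hw
  have rpos : ∀ v, 0 < (HH true DfL A B).rp t z ζ v → 0 < (HH true DfL A B).r t z v :=
    fun v hv => hv.trans_le (o.rp_bd h ht v).2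
  have Rpos : ∀ i, z i ≠ 0 → 0 < (HH true DfL A B).Rp z ζ i := fun i hi =>
    (o.Rp_pos_iff h he1 i).2 hi
  have v0 : ∀ v : Fin 2, ∀ i : Fin 4, (HH true DfL A B).sh v i ≠ 0 → vc true v i ≠ 0 := by
    intro v i hi hc
    apply hi
    show 3 * (vc true v i : ℝ) = 0
    rw [hc]; simp
  have hfin := PatFR_440.patFR_im hbx.R0 hbx.e1 (a := (HH true DfL A B).rp t z ζ 0)
    (b := (HH true DfL A B).rp t z ζ 1) (wy := 1 / 10) (wz := 1 / 10) (by norm_num) (by norm_num)
    (h.rp_nonneg ht 0) (h.rp_nonneg ht 1)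
    (fun h1 => ⟨Rpos 1 (r_pos_var (rpos 1 h1) (by decide)),
      Rpos 2 (r_pos_var (rpos 1 h1) (by decide))⟩) hx hy hz hw
    (fun h1 => by
      obtain ⟨i, -, -, h2, h3⟩ := o.sv_im h he3 hr (rpos 0 h1)
      have h4 := v0 0 i h2
      rw [h3]
      fin_cases i
      · exact Or.inl rfl
      · exact Or.inr (Or.inl rfl)
      · exact Or.inr (Or.inr rfl)
      · exact absurd rfl h4)
    (fun h1 => by
      obtain ⟨i, -, -, h2, h3⟩ := o.sv_im h he3 hr (rpos 1 h1)
      have h4 := v0 1 i h2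
      rw [h3]
      fin_cases i
      · exact absurd rfl h4
      · exact Or.inl rfl
      · exact Or.inr rfl
      · exact absurd rfl h4)
  funext i
  by_contra hne
  exact (Rpos i hne).ne' (hfin i)

/-- **no `Out` for `f`**. -/
theorem noOut (hAB : AB A B) (hs : Sched true DfL A B) (ht : t ∈ Icc (0 : ℝ) 1) (hz : z ≠ 0) :
    ¬ (HH true DfL A B).Out (15 * dd) t z ζ := by
  intro o
  rcases le_or_gt |ζ.im| (15 * dd) with h | h
  · exact hz (real_f hAB o hs ht h)
  · exact hz (im_f o hs ht h)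

/-- **C7, first half, for `f`**. -/
theorem path1P_f : Path1P true DfL :=
  path1P facts_f (M0 := 2) fun M hM hM0 t ht z hz ζ =>
    noOut (fun t ht x => Or.inr (by
      rw [chi_true]
      have h1 : M * (1 - t * (1 - 1)) = M := by ring
      rw [h1, mul_one]
      refine ⟨by linarith, ?_⟩
      have h2 : M * (1 - t) ≤ M := by nlinarith [ht.1]
      have h3 : (2 : ℝ) ^ 4 ≤ M ^ 4 := pow_le_pow_left₀ (by norm_num) hM 4
      nlinarith)) (sched1 facts_f hM0) ht hz

/-- **C7, second half, for `f`**. -/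
theorem path2P_f : Path2P true DfL :=
  path2P facts_f (M0 := 2) fun M hM hM0 t ht z hz ζ =>
    noOut (fun t ht x => Or.inl (by
      rw [chi_true]; ring)) (sched2 facts_f hM0) ht hz

end Crest.Agent.R267.HubF_568
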