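import Crest.Agent.R267.PatF_568

/-!
# Row 267, T3N hub step for `g` (helper222): real sign patterns, robust form

Same letters as `PatF_568`: variables `0, 1, 2, 3 = x, y, z, w`, own magnitudes `R i`, own signs
`e i = ± 1`, couplings `a` (`x³ y z`) and `b` (`x y² z²`), signs `sa, sb = ± 1`, boxes `c`.

Radial equations (equal shares):
`e 0 R 0 + (3 sa a + sb b) / 5 = N 0`, `e i R i + (sa a + 2 sb b) / 5 = N i` (`i = 1, 2`),
`e 3 R 3 = N 3`.  The monomial identities are used one-sidedly with a factor `k`: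
`b R0 A² ≤ k B a²`, `a R1 R2 B³ ≤ k A b³`.  The tables are needed only for `0 < a`, `0 < b`.
-/

set_option autoImplicit false

namespace Crest.Agent.R267.PatGR_222

open Finset
open Crest.Agent.R267.PatF_568

variable {κ : Type} [Fintype κ] {R e : Fin 4 → ℝ} {S : κ → Finset (Fin 4)}
  {th : κ → Fin 4 → ℝ} {la de : κ → ℝ}

/-- **real sign patterns of `g`.** -/
theorem patG (h : Bx R e S th la de) {A B a b sa sb k : ℝ}
    (hA : 0 ≤ A) (hB : 0 ≤ B) (hk : 0 ≤ k) (ha : 0 ≤ a) (hb : 0 ≤ b)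
    (hapos : 0 < a → 0 < R 0 ∧ 0 < R 1 ∧ 0 < R 2) (hbpos : 0 < b → 0 < R 0 ∧ 0 < R 1 ∧ 0 < R 2)
    (hI1 : b * R 0 * A ^ 2 ≤ k * B * a ^ 2) (hI2 : a * (R 1 * R 2) * B ^ 3 ≤ k * A * b ^ 3)
    (hsa : sa = 1 ∨ sa = -1) (hsb : sb = 1 ∨ sb = -1)
    (hx : e 0 * R 0 + (3 * (sa * a) + sb * b) / 5 = ∑ c, th c 0 * de c)
    (hy : e 1 * R 1 + (sa * a + 2 * (sb * b)) / 5 = ∑ c, th c 1 * de c)
    (hz : e 2 * R 2 + (sa * a + 2 * (sb * b)) / 5 = ∑ c, th c 2 * de c)
    (hw : e 3 * R 3 = ∑ c, th c 3 * de c)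
    -- the signs of vanishing couplings are free
    (h0a : a = 0 → sa = sb) (h0b : b = 0 → sb = sa)
    -- the tables
    (Tmm : 0 < a ∨ 0 < b → sa = -1 → sb = -1 → e 0 = 1 → e 1 = 1 → e 2 = 1 →
      ∃ c, S c ⊆ {0, 1, 2} ∧ la c = 1)
    (Tpp : 0 < a ∨ 0 < b → sa = 1 → sb = 1 →
      ∃ i ∈ ({0, 1, 2} : Finset (Fin 4)), e i = 1 ∧ ∀ c, i ∈ S c → la c = 0)
    (Tpm0 : 0 < a → 0 < b → sa = 1 → sb = -1 →
      e 0 = 1 ∧ ∀ c, 0 ∈ S c → la c = 0 ∨ (th c 0 ≤ th c 1 ∧ th c 0 ≤ th c 2))
    (Tpm1 : 0 < a → 0 < b → sa = 1 → sb = -1 → e 0 = 1 → e 1 = 1 → e 2 = 1 →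
      ∃ c, S c ⊆ {0, 1, 2} ∧ la c = 1)
    (Tpm2 : 0 < a → 0 < b → sa = 1 → sb = -1 → (∃ c, 0 ∈ S c ∧ la c ≠ 0) → 27 * k * A < B ^ 3)
    (Tmp0 : 0 < a → 0 < b → sa = -1 → sb = 1 → e 0 = -1 →
      ∃ i ∈ ({1, 2} : Finset (Fin 4)), e i = 1 ∧ ∀ c, i ∈ S c → la c = 0 ∨ th c i ≤ th c 0)
    (Tmp1 : 0 < a → 0 < b → sa = -1 → sb = 1 → e 0 = 1 →
      (∃ i ∈ ({1, 2} : Finset (Fin 4)), e i = 1 ∧ ∃ c, S c = {0, i} ∧ la c = 1 ∧
        th c i ≤ th c 0 ∧ ∀ c', i ∈ S c' → c' = c ∨ la c' = 0) ∧ 4 * k * B < A ^ 2)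
    (i : Fin 4) : R i = 0 := by
  have R0 := h.R0
  have N0 := h.N_nonneg
  have e1 := h.e1
  have own : a = 0 → b = 0 → ∀ i, R i = 0 := by
    intro h1 h2
    refine h.own fun i => ?_
    rw [h1, h2] at hx hy hz
    simp only [mul_zero, add_zero, zero_div] at hx hy hz
    fin_cases i
    · simpa using hx
    · simpa using hy
    · simpa using hz
    · simpa using hw
  -- if all own signs are `1` and no own term is below its boxes then there is no box
  have key : (0 < a ∨ 0 < b) → (∑ c, th c 0 * de c ≤ R 0) → (∑ c, th c 1 * de c ≤ R 1) →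
      (∑ c, th c 2 * de c ≤ R 2) → (∃ c, S c ⊆ {0, 1, 2} ∧ la c = 1) → False := by
    intro hab h0 h1 h2 ⟨c, hc, hl⟩
    obtain ⟨hR0, hR1, hR2⟩ : 0 < R 0 ∧ 0 < R 1 ∧ 0 < R 2 := by
      rcases hab with hab | hab
      · exact hapos hab
      · exact hbpos hab
    refine h.no_box hl fun i hi => ?_
    rcases (by simpa using hc hi : i = 0 ∨ i = 1 ∨ i = 2) with rfl | rfl | rfl
    · exact ⟨h0, hR0⟩
    · exact ⟨h1, hR1⟩
    · exact ⟨h2, hR2⟩
  -- a positive number `e i * R i` forces the sign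
  have esg : ∀ i, 0 < e i * R i → e i = 1 := fun i h1 =>
    (e1 i).resolve_right fun h2 => by
      rw [h2] at h1
      have := R0 i
      linarith
  by_cases hab : 0 < a ∨ 0 < b
  swap
  · push Not at hab
    exact own (le_antisymm hab.1 ha) (le_antisymm hab.2 hb) i
  exfalso
  have hR : 0 < R 0 ∧ 0 < R 1 ∧ 0 < R 2 := by
    rcases hab with hab | hab
    · exact hapos hab
    · exact hbpos hab
  obtain ⟨hR0, hR1, hR2⟩ := hR
  have hsum : 0 < a + b := by
    rcases hab with h1 | h1 <;> linarith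
  -- equal signs
  have same : sa = sb → False := by
    intro hs
    rcases hsa with h1 | h1
    · rw [← hs, h1] at hx hy hz
      obtain ⟨i, hi, hei, hbx⟩ := Tpp hab h1 (by rw [← hs, h1])
      have hN : ∑ c, th c i * de c = 0 := h.N_zero fun c hc => h.off c (hbx c hc)
      have h5 := R0 i
      rcases (by simpa using hi : i = 0 ∨ i = 1 ∨ i = 2) with rfl | rfl | rfl
      · rw [hei, hN] at hx; linarith
      · rw [hei, hN] at hy; linarith
      · rw [hei, hN] at hz; linarith
    · rw [← hs, h1] at hx hy hz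
      have hN0 := N0 0
      have hN1 := N0 1
      have hN2 := N0 2
      have he0 : e 0 = 1 := esg 0 (by linarith)
      have he1 : e 1 = 1 := esg 1 (by linarith)
      have he2 : e 2 = 1 := esg 2 (by linarith)
      rw [he0] at hx
      rw [he1] at hy
      rw [he2] at hz
      exact key hab (by linarith) (by linarith) (by linarith)
        (Tmm hab h1 (by rw [← hs, h1]) he0 he1 he2)
  rcases ha.eq_or_lt with ha0 | ha0
  · exact same (h0a ha0.symm)
  rcases hb.eq_or_lt with hb0 | hb0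
  · exact same (h0b hb0.symm).symm
  rcases hsa with h1 | h1 <;> rcases hsb with h2 | h2
  · exact same (h1.trans h2.symm)
  · -- `(+, -)`
    rw [h1, h2] at hx hy hz
    obtain ⟨he0, hT⟩ := Tpm0 ha0 hb0 h1 h2
    rw [he0] at hx
    have hN01 : ∑ c, th c 0 * de c ≤ ∑ c, th c 1 * de c := by
      refine Finset.sum_le_sum fun c _ => ?_
      by_cases hc : (0 : Fin 4) ∈ S c
      · rcases hT c hc with h3 | h3
        · rw [h.off c h3, mul_zero, mul_zero]
        · exact mul_le_mul_of_nonneg_right h3.1 (h.de0 c)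
      · rw [h.ths c 0 hc, zero_mul]
        exact mul_nonneg (h.th0 c 1) (h.de0 c)
    have hN02 : ∑ c, th c 0 * de c ≤ ∑ c, th c 2 * de c := by
      refine Finset.sum_le_sum fun c _ => ?_
      by_cases hc : (0 : Fin 4) ∈ S c
      · rcases hT c hc with h3 | h3
        · rw [h.off c h3, mul_zero, mul_zero]
        · exact mul_le_mul_of_nonneg_right h3.2 (h.de0 c)
      · rw [h.ths c 0 hc, zero_mul]
        exact mul_nonneg (h.th0 c 2) (h.de0 c)
    have hN0 := N0 0
    -- the own signs of `y`, `z` are positive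
    have he1 : e 1 = 1 := by
      refine (e1 1).resolve_right fun h3 => ?_
      rw [h3] at hy
      linarith
    have he2 : e 2 = 1 := by
      refine (e1 2).resolve_right fun h3 => ?_
      rw [h3] at hz
      linarith
    rw [he1] at hy
    rw [he2] at hz
    rcases lt_or_ge (3 * a) b with h3 | h3
    · exact key hab (by linarith) (by linarith) (by linarith) (Tpm1 ha0 hb0 h1 h2 he0 he1 he2)
    · -- a triple box is on
      have hon : ∃ c, (0 : Fin 4) ∈ S c ∧ la c ≠ 0 := by
        by_contra hcon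
        push Not at hcon
        have : ∑ c, th c 0 * de c = 0 := h.N_zero fun c hc => h.off c (hcon c hc)
        rw [this] at hx
        linarith
      have hAB := Tpm2 ha0 hb0 h1 h2 hon
      have b1 : b ≤ 3 * R 1 := by linarith
      have b2 : b ≤ 3 * R 2 := by linarith
      have b3 : b ^ 3 ≤ 27 * (a * (R 1 * R 2)) := by
        calc b ^ 3 = b * (b * b) := by ring
          _ ≤ (3 * a) * ((3 * R 1) * (3 * R 2)) :=
            mul_le_mul h3 (mul_le_mul b1 b2 hb0.le (by linarith)) (by positivity) (by linarith)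
          _ = 27 * (a * (R 1 * R 2)) := by ring
      have hpos : 0 < a * (R 1 * R 2) := by positivity
      have b5 : a * (R 1 * R 2) * (27 * k * A) < a * (R 1 * R 2) * B ^ 3 :=
        mul_lt_mul_of_pos_left hAB hpos
      have hkA : 0 ≤ k * A := mul_nonneg hk hA
      have b6 : k * A * b ^ 3 ≤ k * A * (27 * (a * (R 1 * R 2))) :=
        mul_le_mul_of_nonneg_left b3 hkA
      linarith
  · -- `(-, +)`
    rw [h1, h2] at hx hy hz
    rcases e1 0 with he0 | he0
    · obtain ⟨⟨i, hi, hei, c, hSc, hlc, hth, hoth⟩, hAB⟩ := Tmp1 ha0 hb0 h1 h2 he0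
      rw [he0] at hx
      have hNi : ∑ c, th c i * de c = th c i * de c := by
        refine Finset.sum_eq_single c (fun c' _ hne => ?_) fun hc => absurd (mem_univ c) hc
        by_cases hic : i ∈ S c'
        · rcases hoth c' hic with h3 | h3
          · exact absurd h3 hne
          · rw [h.off c' h3, mul_zero]
        · rw [h.ths c' i hic, zero_mul]
      have hle : ∑ c, th c i * de c ≤ ∑ c, th c 0 * de c := by
        rw [hNi]
        exact (mul_le_mul_of_nonneg_right hth (h.de0 c)).trans (h.le_N c 0)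
      have hRi : 0 < R i := by
        rcases (by simpa using hi : i = 1 ∨ i = 2) with rfl | rfl
        · exact hR1
        · exact hR2
      have hi' : R i + (-1 * a + 2 * (1 * b)) / 5 = ∑ c, th c i * de c := by
        rcases (by simpa using hi : i = 1 ∨ i = 2) with rfl | rfl
        · rw [hei] at hy; linarith
        · rw [hei] at hz; linarith
      rcases le_or_gt (2 * b) a with h3 | h3
      · refine h.no_box hlc fun j hj => ?_
        rw [hSc, mem_insert, mem_singleton] at hj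
        rcases hj with rfl | rfl
        · exact ⟨by linarith, hR0⟩
        · exact ⟨by linarith, hRi⟩
      · have b1 : a / 2 ≤ R 0 := by linarith
        have b2 : a / 2 * (a / 2) ≤ b * R 0 := mul_le_mul (by linarith) b1 (by linarith) hb0.le
        have b4 : 0 < b * R 0 := mul_pos hb0 hR0
        have b5 : b * R 0 * (4 * k * B) < b * R 0 * A ^ 2 := mul_lt_mul_of_pos_left hAB b4
        have b6 : k * B * (a / 2 * (a / 2)) ≤ k * B * (b * R 0) :=
          mul_le_mul_of_nonneg_left b2 (mul_nonneg hk hB)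
        linarith
    · obtain ⟨i, hi, hei, hbx⟩ := Tmp0 ha0 hb0 h1 h2 he0
      rw [he0] at hx
      have hle : ∑ c, th c i * de c ≤ ∑ c, th c 0 * de c := by
        refine Finset.sum_le_sum fun c _ => ?_
        by_cases hc : i ∈ S c
        · rcases hbx c hc with h3 | h3
          · rw [h.off c h3, mul_zero, mul_zero]
          · exact mul_le_mul_of_nonneg_right h3 (h.de0 c)
        · rw [h.ths c i hc, zero_mul]
          exact mul_nonneg (h.th0 c 0) (h.de0 c)
      have hN0 := N0 0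
      rcases (by simpa using hi : i = 1 ∨ i = 2) with rfl | rfl
      · rw [hei] at hy; linarith
      · rw [hei] at hz; linarith
  · exact same (h1.trans h2.symm)

/-- **real sign patterns of `g`**, with the table signs of both couplings (also when one of them
vanishes). -/
theorem patG2 (h : Bx R e S th la de) {A B a b sa sb k : ℝ}
    (hA : 0 ≤ A) (hB : 0 ≤ B) (hk : 0 ≤ k) (ha : 0 ≤ a) (hb : 0 ≤ b)
    (hI1 : b * R 0 * A ^ 2 ≤ k * B * a ^ 2) (hI2 : a * (R 1 * R 2) * B ^ 3 ≤ k * A * b ^ 3)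
    (hsa : sa = 1 ∨ sa = -1) (hsb : sb = 1 ∨ sb = -1)
    (hx : e 0 * R 0 + (3 * (sa * a) + sb * b) / 5 = ∑ c, th c 0 * de c)
    (hy : e 1 * R 1 + (sa * a + 2 * (sb * b)) / 5 = ∑ c, th c 1 * de c)
    (hz : e 2 * R 2 + (sa * a + 2 * (sb * b)) / 5 = ∑ c, th c 2 * de c)
    (hw : e 3 * R 3 = ∑ c, th c 3 * de c)
    -- everything below is needed only if one of the couplings is active
    (T : 0 < a ∨ 0 < b → 0 < R 0 ∧ 0 < R 1 ∧ 0 < R 2 ∧
      (sa = -1 → sb = -1 → e 0 = 1 → e 1 = 1 → e 2 = 1 → ∃ c, S c ⊆ {0, 1, 2} ∧ la c = 1) ∧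
      (sa = 1 → sb = 1 → ∃ i ∈ ({0, 1, 2} : Finset (Fin 4)), e i = 1 ∧
        ∀ c, i ∈ S c → la c = 0) ∧
      (sa = 1 → sb = -1 → e 0 = 1 ∧
        ∀ c, 0 ∈ S c → la c = 0 ∨ (th c 0 ≤ th c 1 ∧ th c 0 ≤ th c 2)) ∧
      (sa = 1 → sb = -1 → e 0 = 1 → e 1 = 1 → e 2 = 1 → ∃ c, S c ⊆ {0, 1, 2} ∧ la c = 1) ∧
      (sa = 1 → sb = -1 → 0 < a → 27 * k * A < B ^ 3) ∧
      (sa = -1 → sb = 1 → e 0 = -1 → ∃ i ∈ ({1, 2} : Finset (Fin 4)), e i = 1 ∧
        ∀ c, i ∈ S c → la c = 0 ∨ th c i ≤ th c 0) ∧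
      (sa = -1 → sb = 1 → e 0 = 1 → (∃ i ∈ ({1, 2} : Finset (Fin 4)), e i = 1 ∧
        ∃ c, S c = {0, i} ∧ la c = 1 ∧ th c i ≤ th c 0 ∧
          ∀ c', i ∈ S c' → c' = c ∨ la c' = 0) ∧ (0 < b → 4 * k * B < A ^ 2)))
    (i : Fin 4) : R i = 0 := by
  have R0 := h.R0
  have N0 := h.N_nonneg
  have e1 := h.e1
  have own : a = 0 → b = 0 → ∀ i, R i = 0 := by
    intro h1 h2
    refine h.own fun i => ?_
    rw [h1, h2] at hx hy hz
    simp only [mul_zero, add_zero, zero_div] at hx hy hz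
    fin_cases i
    · simpa using hx
    · simpa using hy
    · simpa using hz
    · simpa using hw
  have esg : ∀ i, 0 < e i * R i → e i = 1 := fun i h1 =>
    (e1 i).resolve_right fun h2 => by
      rw [h2] at h1
      have := R0 i
      linarith
  by_cases hab : 0 < a ∨ 0 < b
  swap
  · push Not at hab
    exact own (le_antisymm hab.1 ha) (le_antisymm hab.2 hb) i
  exfalso
  obtain ⟨hR0, hR1, hR2, Tmm, Tpp, Tpm0, Tpm1, Tpm2, Tmp0, Tmp1⟩ := T hab
  have key : (∑ c, th c 0 * de c ≤ R 0) → (∑ c, th c 1 * de c ≤ R 1) →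
      (∑ c, th c 2 * de c ≤ R 2) → (∃ c, S c ⊆ {0, 1, 2} ∧ la c = 1) → False := by
    intro h0 h1 h2 ⟨c, hc, hl⟩
    refine h.no_box hl fun i hi => ?_
    rcases (by simpa using hc hi : i = 0 ∨ i = 1 ∨ i = 2) with rfl | rfl | rfl
    · exact ⟨h0, hR0⟩
    · exact ⟨h1, hR1⟩
    · exact ⟨h2, hR2⟩
  have hsum : 0 < a + b := by
    rcases hab with h1 | h1 <;> linarith
  rcases hsa with h1 | h1 <;> rcases hsb with h2 | h2
  · rw [h1, h2] at hx hy hz
    obtain ⟨i, hi, hei, hbx⟩ := Tpp h1 h2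
    have hN : ∑ c, th c i * de c = 0 := h.N_zero fun c hc => h.off c (hbx c hc)
    have h5 := R0 i
    rcases (by simpa using hi : i = 0 ∨ i = 1 ∨ i = 2) with rfl | rfl | rfl
    · rw [hei, hN] at hx; linarith
    · rw [hei, hN] at hy; linarith
    · rw [hei, hN] at hz; linarith
  · -- `(+, -)`
    rw [h1, h2] at hx hy hz
    obtain ⟨he0, hT⟩ := Tpm0 h1 h2
    rw [he0] at hx
    have hN01 : ∑ c, th c 0 * de c ≤ ∑ c, th c 1 * de c := by
      refine Finset.sum_le_sum fun c _ => ?_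
      by_cases hc : (0 : Fin 4) ∈ S c
      · rcases hT c hc with h3 | h3
        · rw [h.off c h3, mul_zero, mul_zero]
        · exact mul_le_mul_of_nonneg_right h3.1 (h.de0 c)
      · rw [h.ths c 0 hc, zero_mul]
        exact mul_nonneg (h.th0 c 1) (h.de0 c)
    have hN02 : ∑ c, th c 0 * de c ≤ ∑ c, th c 2 * de c := by
      refine Finset.sum_le_sum fun c _ => ?_
      by_cases hc : (0 : Fin 4) ∈ S c
      · rcases hT c hc with h3 | h3
        · rw [h.off c h3, mul_zero, mul_zero]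
        · exact mul_le_mul_of_nonneg_right h3.2 (h.de0 c)
      · rw [h.ths c 0 hc, zero_mul]
        exact mul_nonneg (h.th0 c 2) (h.de0 c)
    have hN0 := N0 0
    have he1 : e 1 = 1 := by
      refine (e1 1).resolve_right fun h3 => ?_
      rw [h3] at hy
      linarith
    have he2 : e 2 = 1 := by
      refine (e1 2).resolve_right fun h3 => ?_
      rw [h3] at hz
      linarith
    rw [he1] at hy
    rw [he2] at hz
    rcases lt_or_ge (3 * a) b with h3 | h3
    · exact key (by linarith) (by linarith) (by linarith) (Tpm1 h1 h2 he0 he1 he2)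
    · have ha0 : 0 < a := by linarith
      have hAB := Tpm2 h1 h2 ha0
      have b1 : b ≤ 3 * R 1 := by linarith
      have b2 : b ≤ 3 * R 2 := by linarith
      have b3 : b ^ 3 ≤ 27 * (a * (R 1 * R 2)) := by
        calc b ^ 3 = b * (b * b) := by ring
          _ ≤ (3 * a) * ((3 * R 1) * (3 * R 2)) :=
            mul_le_mul h3 (mul_le_mul b1 b2 hb (by linarith)) (by positivity) (by linarith)
          _ = 27 * (a * (R 1 * R 2)) := by ring
      have hpos : 0 < a * (R 1 * R 2) := by positivity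
      have b5 : a * (R 1 * R 2) * (27 * k * A) < a * (R 1 * R 2) * B ^ 3 :=
        mul_lt_mul_of_pos_left hAB hpos
      have b6 : k * A * b ^ 3 ≤ k * A * (27 * (a * (R 1 * R 2))) :=
        mul_le_mul_of_nonneg_left b3 (mul_nonneg hk hA)
      linarith
  · -- `(-, +)`
    rw [h1, h2] at hx hy hz
    rcases e1 0 with he0 | he0
    · obtain ⟨⟨i, hi, hei, c, hSc, hlc, hth, hoth⟩, hAB⟩ := Tmp1 h1 h2 he0
      rw [he0] at hx
      have hNi : ∑ c, th c i * de c = th c i * de c := by
        refine Finset.sum_eq_single c (fun c' _ hne => ?_) fun hc => absurd (mem_univ c) hc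
        by_cases hic : i ∈ S c'
        · rcases hoth c' hic with h3 | h3
          · exact absurd h3 hne
          · rw [h.off c' h3, mul_zero]
        · rw [h.ths c' i hic, zero_mul]
      have hle : ∑ c, th c i * de c ≤ ∑ c, th c 0 * de c := by
        rw [hNi]
        exact (mul_le_mul_of_nonneg_right hth (h.de0 c)).trans (h.le_N c 0)
      have hRi : 0 < R i := by
        rcases (by simpa using hi : i = 1 ∨ i = 2) with rfl | rfl
        · exact hR1
        · exact hR2
      have hi' : R i + (-1 * a + 2 * (1 * b)) / 5 = ∑ c, th c i * de c := by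
        rcases (by simpa using hi : i = 1 ∨ i = 2) with rfl | rfl
        · rw [hei] at hy; linarith
        · rw [hei] at hz; linarith
      rcases le_or_gt (2 * b) a with h3 | h3
      · refine h.no_box hlc fun j hj => ?_
        rw [hSc, mem_insert, mem_singleton] at hj
        rcases hj with rfl | rfl
        · exact ⟨by linarith, hR0⟩
        · exact ⟨by linarith, hRi⟩
      · have hb0 : 0 < b := by linarith
        have b1 : a / 2 ≤ R 0 := by linarith
        have b2 : a / 2 * (a / 2) ≤ b * R 0 := mul_le_mul (by linarith) b1 (by linarith) hb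
        have b4 : 0 < b * R 0 := mul_pos hb0 hR0
        have b5 : b * R 0 * (4 * k * B) < b * R 0 * A ^ 2 := mul_lt_mul_of_pos_left (hAB hb0) b4
        have b6 : k * B * (a / 2 * (a / 2)) ≤ k * B * (b * R 0) :=
          mul_le_mul_of_nonneg_left b2 (mul_nonneg hk hB)
        linarith
    · obtain ⟨i, hi, hei, hbx⟩ := Tmp0 h1 h2 he0
      rw [he0] at hx
      have hle : ∑ c, th c i * de c ≤ ∑ c, th c 0 * de c := by
        refine Finset.sum_le_sum fun c _ => ?_
        by_cases hc : i ∈ S c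
        · rcases hbx c hc with h3 | h3
          · rw [h.off c h3, mul_zero, mul_zero]
          · exact mul_le_mul_of_nonneg_right h3 (h.de0 c)
        · rw [h.ths c i hc, zero_mul]
          exact mul_nonneg (h.th0 c 0) (h.de0 c)
      have hN0 := N0 0
      rcases (by simpa using hi : i = 1 ∨ i = 2) with rfl | rfl
      · rw [hei] at hy; linarith
      · rw [hei] at hz; linarith
  · rw [h1, h2] at hx hy hz
    have hN0 := N0 0
    have hN1 := N0 1
    have hN2 := N0 2
    have he0 : e 0 = 1 := esg 0 (by linarith)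
    have he1 : e 1 = 1 := esg 1 (by linarith)
    have he2 : e 2 = 1 := esg 2 (by linarith)
    rw [he0] at hx
    rw [he1] at hy
    rw [he2] at hz
    exact key (by linarith) (by linarith) (by linarith) (Tmm h1 h2 he0 he1 he2)

/-- **non real conormal, `g`** (all boxes and flat couplings vanish). -/
theorem patG_im {R e : Fin 4 → ℝ} (R0 : ∀ i, 0 ≤ R i) (e1 : ∀ i, e i = 1 ∨ e i = -1)
    {a b sa sb : ℝ} (ha : 0 ≤ a) (hb : 0 ≤ b)
    (hapos : 0 < a → 0 < R 0 ∧ 0 < R 1 ∧ 0 < R 2) (hbpos : 0 < b → 0 < R 0 ∧ 0 < R 1 ∧ 0 < R 2)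
    (hx : e 0 * R 0 + (3 * (sa * a) + sb * b) / 5 = 0)
    (hy : e 1 * R 1 + (sa * a + 2 * (sb * b)) / 5 = 0)
    (hz : e 2 * R 2 + (sa * a + 2 * (sb * b)) / 5 = 0) (hw : e 3 * R 3 = 0)
    (Tb : 0 < b → sb = e 0 ∨ sb = e 1 ∨ sb = e 2)
    (Ta : 0 < a → sa = e 0 ∨ sa = e 1 ∨ sa = e 2)
    (Tab : 0 < a → 0 < b → sa = e 0 ∨ sa = sb)
    (i : Fin 4) : R i = 0 := by
  have zero : ∀ i, e i * R i = 0 → R i = 0 := fun i h => by
    rcases e1 i with h2 | h2 <;> rw [h2] at h <;> linarith
  have key : a = 0 ∧ b = 0 := by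
    by_contra hcon
    have hab : 0 < a ∨ 0 < b := by
      by_contra h1
      push Not at h1
      exact hcon ⟨le_antisymm h1.1 ha, le_antisymm h1.2 hb⟩
    obtain ⟨hR0, hR1, hR2⟩ : 0 < R 0 ∧ 0 < R 1 ∧ 0 < R 2 := by
      rcases hab with hab | hab
      · exact hapos hab
      · exact hbpos hab
    have h12 : e 1 = e 2 := by
      rcases e1 1 with h | h <;> rcases e1 2 with h' | h' <;> rw [h, h'] <;>
        rw [h] at hy <;> rw [h'] at hz <;> exfalso <;> linarith
    rcases ha.eq_or_lt with ha0 | ha0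
    · have hb0 : 0 < b := hab.resolve_left (by rw [← ha0]; exact lt_irrefl 0)
      rw [← ha0] at hx hy hz
      rcases Tb hb0 with h | h | h <;> rw [h] at hx hy hz <;>
        rcases e1 0 with h0 | h0 <;> rcases e1 1 with h1 | h1 <;> rcases e1 2 with h2 | h2 <;>
        simp only [h0, h1, h2] at hx hy hz <;> linarith
    rcases hb.eq_or_lt with hb0 | hb0
    · rw [← hb0] at hx hy hz
      rcases Ta ha0 with h | h | h <;> rw [h] at hx hy hz <;>
        rcases e1 0 with h0 | h0 <;> rcases e1 1 with h1 | h1 <;> rcases e1 2 with h2 | h2 <;>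
        simp only [h0, h1, h2] at hx hy hz <;> linarith
    rcases Tab ha0 hb0 with h | h
    · -- `sa = e 0`
      rcases Tb hb0 with h' | h' | h' <;> rw [h, h'] at hx hy hz <;>
        rcases e1 0 with h0 | h0 <;> rcases e1 1 with h1 | h1 <;> rcases e1 2 with h2 | h2 <;>
        simp only [h0, h1, h2] at hx hy hz <;> linarith
    · rcases Tb hb0 with h' | h' | h' <;> rw [h, h'] at hx hy hz <;>
        rcases e1 0 with h0 | h0 <;> rcases e1 1 with h1 | h1 <;> rcases e1 2 with h2 | h2 <;>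
        simp only [h0, h1, h2] at hx hy hz <;> linarith
  rw [key.1, key.2] at hx hy hz
  simp only [mul_zero, add_zero, zero_div] at hx hy hz
  apply zero
  fin_cases i
  · simpa using hx
  · simpa using hy
  · simpa using hz
  · simpa using hw

end Crest.Agent.R267.PatGR_222
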