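import Crest.Agent.R267.StPos_370
import Crest.Agent.R267.TabF_440
import Crest.Agent.R267.StTabG_222

/-!
# Row 267 (helper370): states in the letters of 440 (`f`, `TabF_440.VS`) and of 222 (`g`,
`StTabG_222`)
-/

set_option autoImplicit false

noncomputable section

open Finset Set
open Crest.Agent.R267.T3aNDefs_88 Crest.Agent.R267.Ang_739
open Crest.Agent.R267.GlNDefs_9 Crest.Agent.R267.HubDefs_284
open Crest.Agent.R267.WordPh_9 Crest.Agent.R267.WordPh2_9 Crest.Agent.R267.HubInst_370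
open Crest.Agent.R267.HubFacts_370 Crest.Agent.R267.StPos_370
open Crest.Agent.R267.SFLDc_330 Crest.Agent.R267.SFLDb_330
open Crest.Agent.R267.RndP_222 (eps eps_even eps_odd)
open Crest.Agent.R267.StTab_568 (Win)

namespace Crest.Agent.R267.StF_370

theorem eps_cos {p t : ℝ} {m : ℤ} (ht : t ≤ 1 / 4) (h : |p - Real.pi * m| ≤ t) :
    0 < Real.cos p ↔ eps m = 1 := by
  rcases Int.emod_two_eq_zero_or_one m with h1 | h1
  · obtain ⟨c, hc⟩ : ∃ c, m = 2 * c := ⟨m / 2, by omega⟩
    rw [eps_even h1]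
    refine ⟨fun _ => rfl, fun _ => cos_near_even ht (m := c) ?_⟩
    rw [← hc]; exact h
  · obtain ⟨c, hc⟩ : ∃ c, m = 2 * c + 1 := ⟨m / 2, by omega⟩
    rw [eps_odd h1]
    have h2 : Real.cos p < 0 := cos_near_odd ht (m := c) (by rw [← hc]; exact h)
    constructor
    · intro h3; linarith
    · intro h3; norm_num at h3

/-- **StF** (440) -/
theorem stF : ∀ i : Fin 3, ∀ x : ℝ, ∀ m : ℤ, ∀ t ≤ (1 / 10 : ℝ),
    |pp DfL i.castSucc x - Real.pi * m| ≤ t → ∃ s : ℕ, ∃ k : ℤ,
      TabF_440.VS i s (fun lo hi => wn (aE (DfL.M i.castSucc)) (bE (DfL.M i.castSucc)) lo hi x) ∧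
      |hh true DfL i.castSucc x - Real.pi * ((TabF_440.ipos i s k : ℤ) : ℝ)| ≤ t ∧
      (StTab_568.plus i s = true ↔ eps m = 1) := by
  intro i x m t ht hm
  have hn : StTab_568.per i = 2 * nh true i.castSucc := by fin_cases i <;> rfl
  have hM : DfL.M i.castSucc = ![18, 24, 14] i := by fin_cases i <;> rfl
  have hnM' : ∀ i : Fin 3, nh true i.castSucc ≤ ![18, 24, 14] i := by decide
  have hnM := hnM' i
  have hn1 : 1 ≤ nh true i.castSucc := nh_pos true _
  obtain ⟨s, k, S⟩ := state_lit num_f i.castSucc (τ := t) (by linarith) ⟨m, hm⟩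
  have hp2 : StTab_568.per i / 2 - 1 = nh true i.castSucc - 1 := by rw [hn]; omega
  rw [hM] at S ⊢
  refine ⟨s, k, ⟨?_, ?_, ?_, ?_, ?_, ?_, ?_⟩, ?_, ?_⟩
  · rw [hn]; exact S.le
  · intro hs
    rw [hp2]
    exact S.wJ1 _ _ (by omega) rfl (by rw [hs, hn]) (by omega)
  · intro h0 h1
    rw [hn] at h1
    rw [hp2]
    rcases Nat.mod_two_eq_zero_or_one s with h2 | h2
    · exact S.wgap _ _ (by omega) le_rfl (by omega) (by omega) h2 (by omega)
    · rw [S.wray _ _ (by omega) le_rfl (by omega) h2, if_neg (by omega)]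
  · intro lo hi h1 h2 h3 h4 h5 h6 h7
    rw [hn] at h3 h4
    rw [S.wray (lo - 1) (hi - 1) (by omega) (by omega) (by omega) h5, if_pos (by omega)]
  · intro lo hi h1 h2 h3 h4
    rw [hn] at h3 h4
    by_cases h5 : s = 2 * nh true i.castSucc
    · exact S.wJ0 _ _ (by omega) (by omega) h5 (by omega)
    · by_cases h6 : s = 0
      · exact S.wzero _ _ (by omega) (by omega) h6 (by omega)
      · rcases Nat.mod_two_eq_zero_or_one s with h7 | h7
        · exact S.wgap _ _ (by omega) (by omega) h5 h6 h7 (by omega)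
        · rw [S.wray _ _ (by omega) (by omega) h5 h7, if_neg (by omega)]
  · intro h1 lo hi h2 h3
    rw [hn] at h1
    exact S.w01 lo hi h2 h3 h1
  · intro h1 h2 l h3 h4
    rw [hn] at h1 h3
    rw [S.wray _ _ (by omega) h4 (by omega) h2, if_neg (by omega)]
  · have h1 := S.near
    have h2 : (TabF_440.ipos i s k : ℤ) = ps0 (nh true i.castSucc) s +
        2 * (nh true i.castSucc : ℤ) * k := by
      unfold TabF_440.ipos StTab_568.pos ps0
      rw [hn]
      split_ifs <;> push_cast <;> ring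
    rw [h2]
    exact h1
  · rw [← eps_cos (by linarith) hm, S.sgn, TabF_440.plus_iff, hn]
    rfl

/-- **StG** (222) -/
theorem stG : ∀ i : Fin 3, ∀ x : ℝ, ∀ t ≤ (1 / 4 : ℝ),
    (∃ m : ℤ, |pp DgL i.castSucc x - Real.pi * m| ≤ t) → ∃ s : ℕ, ∃ k : ℤ, s ≤ 10 ∧
      |hh false DgL i.castSucc x - Real.pi * ((StTabG_222.pos s + 10 * k : ℤ) : ℝ)| ≤ t ∧
      (0 < Real.cos (pp DgL i.castSucc x) ↔ StTabG_222.plus s = true) ∧
      (∀ lo hi, lo ≤ hi → hi ≤ DgL.M i.castSucc → StTabG_222.plus s = true →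
        wn (aE (DgL.M i.castSucc)) (bE (DgL.M i.castSucc)) lo hi x = 0 ∨
        wn (aE (DgL.M i.castSucc)) (bE (DgL.M i.castSucc)) lo hi x = 1) ∧
      (∀ (W : Win) (lo hi : ℕ), (W = .arm ∧ lo = 4 ∧ hi = DgL.M i.castSucc) ∨
          (W = .hub (lo + 1) (hi + 1) ∧ lo < hi ∧ hi ≤ 4) →
        (StTabG_222.poss s W = false →
          wn (aE (DgL.M i.castSucc)) (bE (DgL.M i.castSucc)) lo hi x = 0) ∧
        (StTabG_222.full s W = true →
          wn (aE (DgL.M i.castSucc)) (bE (DgL.M i.castSucc)) lo hi x = 1)) ∧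
      -- windows inside the word sector vanish on the hub rays
      (StTabG_222.ray s = true → ∀ lo hi, 4 ≤ lo → lo ≤ hi → hi ≤ DgL.M i.castSucc →
        wn (aE (DgL.M i.castSucc)) (bE (DgL.M i.castSucc)) lo hi x = 0) := by
  intro i x t ht hm
  have hn : nh false i.castSucc = 5 := by fin_cases i <;> rfl
  have hM : 10 ≤ DgL.M i.castSucc := by
    have h1 : ∀ i : Fin 3, 10 ≤ MM i.castSucc := by decide
    exact h1 i
  obtain ⟨s, k, S⟩ := state_lit num_g i.castSucc (τ := t) ht hm
  rw [hn] at S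
  set M := DgL.M i.castSucc with hMd
  have hplus : StTabG_222.plus s = true ↔ Plus 5 s := by
    unfold StTabG_222.plus Plus
    simp
  have hray : StTabG_222.ray s = true ↔ s ≠ 10 ∧ s % 2 = 1 := by
    unfold StTabG_222.ray
    simp
  refine ⟨s, k, S.le, ?_, ?_, ?_, ?_, ?_⟩
  · have h1 := S.near
    have h2 : (StTabG_222.pos s + 10 * k : ℤ) = ps0 5 s + 2 * ((5 : ℕ) : ℤ) * k := by
      unfold StTabG_222.pos ps0
      split_ifs <;> push_cast <;> ring
    rw [h2]
    exact h1
  · rw [hplus]; exact S.sgn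
  · intro lo hi h1 h2 h3
    exact S.w01 lo hi h1 h2 (hplus.1 h3)
  · rintro W lo hi (⟨rfl, rfl, rfl⟩ | ⟨rfl, h1, h2⟩)
    · constructor
      · intro h3
        simp only [StTabG_222.poss, Bool.or_eq_false_iff, beq_eq_false_iff_ne, ne_eq] at h3
        rcases Nat.mod_two_eq_zero_or_one s with h4 | h4
        · have hle := S.le
          exact S.wgap _ _ (by omega) le_rfl (by omega) h3.2 h4 (by omega)
        · have hle := S.le
          rw [S.wray _ _ (by omega) le_rfl (by omega) h4, if_neg (by omega)]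
      · intro h3
        simp only [StTabG_222.full, beq_iff_eq] at h3
        exact S.wJ1 _ _ (by omega) rfl (by omega) (by omega)
    · constructor
      · intro h3
        simp only [StTabG_222.poss, Bool.or_eq_false_iff, Bool.and_eq_false_iff,
          decide_eq_false_iff_not, bne_eq_false_iff_eq, beq_eq_false_iff_ne, ne_eq] at h3
        by_cases h5 : s = 10
        · exact S.wJ0 _ _ (by omega) (by omega) h5 (by omega)
        · by_cases h6 : s = 0
          · exact S.wzero _ _ (by omega) (by omega) h6 (by omega)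
          · rcases Nat.mod_two_eq_zero_or_one s with h7 | h7
            · exact S.wgap _ _ (by omega) (by omega) h5 h6 h7 (by omega)
            · rw [S.wray _ _ (by omega) (by omega) h5 h7, if_neg (by omega)]
      · intro h3
        simp only [StTabG_222.full, Bool.and_eq_true, decide_eq_true_eq] at h3
        have h4 := hray.1 h3.1.1
        rw [S.wray _ _ (by omega) (by omega) h4.1 h4.2, if_pos (by omega)]
  · intro h1 lo hi h2 h3 h4
    have h5 := hray.1 h1
    have hle := S.le
    rw [S.wray _ _ h3 h4 h5.1 h5.2, if_neg (by omega)]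

end Crest.Agent.R267.StF_370
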