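import Crest.Agent.R267.HubBx_370
import Crest.Agent.R267.StF_370
import Crest.Agent.R267.BoxMapG_769
import Crest.Agent.R267.PatGR_222

/-!
# Row 267, S0406, hub step C7 for `g` (helper222)

`no_out` : pointwise exclusion of 370's `Out` for the literal `HH false DgL A B`;
`path1`, `path2` : `Path1P false DgL`, `Path2P false DgL`.
-/

set_option autoImplicit false

noncomputable section

open Finset Set
open Crest.Agent.R267.T3aNDefs_88 Crest.Agent.R267.Ang_739
open Crest.Agent.R267.GlNDefs_9 Crest.Agent.R267.StairFn_739 Crest.Agent.R267.HubDefs_284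
open Crest.Agent.R267.StairPh_739 Crest.Agent.R267.PolF_943 Crest.Agent.R267.HubEng_370
open Crest.Agent.R267.LemL_951 Crest.Agent.R267.WordPh_9 Crest.Agent.R267.WordPh2_9
open Crest.Agent.R267.HubInst_370 Crest.Agent.R267.RndP_222
open Crest.Agent.R267.StTabG_222 (pos plus ray full poss boxG fullB possB)
open Crest.Agent.R267.SFLDc_330 Crest.Agent.R267.HubFacts_370
open Crest.Agent.R267.HubBx_370 (HH edd La_eq)
open Crest.Agent.R267.BoxMapG_769 (bx bx_inj w_notMem of_no of_arm of_hub other lohi)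
open Crest.Agent.R267.StTab_568 (Win)

namespace Crest.Agent.R267.HubG_222

theorem mem_bx (c : Fin 11) (i : Fin 3) :
    i.castSucc ∈ (DgL.bx (bx c)).S ↔ boxG c i ≠ .no := BoxMapG_769.mem_iff c i

/-- the literal window of the variable `i` -/
def wi (i : Fin 3) (lo hi : ℕ) : ℝ → ℝ :=
  wn (aE (DgL.M i.castSucc)) (bE (DgL.M i.castSucc)) lo hi

/-- what is known at a state `s` of the variable `i` -/
structure St (t : ℝ) (i : Fin 3) (x : ℝ) (s : ℕ) : Prop where
  le : s ≤ 10
  near : ∃ k : ℤ, |hh false DgL i.castSucc x - Real.pi * ((pos s + 10 * k : ℤ) : ℝ)| ≤ t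
  sgn : 0 < Real.cos (pp DgL i.castSucc x) ↔ plus s = true
  hub0 : ∀ lo hi, lo < hi → hi ≤ 4 → poss s (.hub (lo + 1) (hi + 1)) = false →
    wi i lo hi x = 0
  hub1 : ∀ lo hi, lo < hi → hi ≤ 4 → full s (.hub (lo + 1) (hi + 1)) = true →
    wi i lo hi x = 1
  arm0 : poss s .arm = false → wi i 4 (DgL.M i.castSucc) x = 0
  arm1 : full s .arm = true → wi i 4 (DgL.M i.castSucc) x = 1
  ray0 : ray s = true → ∀ lo hi, 4 ≤ lo → lo ≤ hi → hi ≤ DgL.M i.castSucc → wi i lo hi x = 0

theorem exists_st (i : Fin 3) (x : ℝ) {t : ℝ} (ht : t ≤ 1 / 4)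
    (h : ∃ m : ℤ, |pp DgL i.castSucc x - Real.pi * m| ≤ t) : ∃ s, St t i x s := by
  obtain ⟨s, k, h1, h2, h3, -, h5, h6⟩ := StF_370.stG i x t ht h
  exact ⟨s, h1, ⟨k, h2⟩, h3, fun lo hi a b c => (h5 _ lo hi (Or.inr ⟨rfl, a, b⟩)).1 c,
    fun lo hi a b c => (h5 _ lo hi (Or.inr ⟨rfl, a, b⟩)).2 c,
    fun c => (h5 _ 4 _ (Or.inl ⟨rfl, rfl, rfl⟩)).1 c,
    fun c => (h5 _ 4 _ (Or.inl ⟨rfl, rfl, rfl⟩)).2 c, h6⟩

variable {A B : ℝ → ℝ → ℝ} {τ : ℝ}

/-! ### windows at states -/

theorem La_zero (e : Fin DgL.nb) {θ : Fin 4 → ℝ} {j : Fin 4} (hj : j ∈ (DgL.bx e).S)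
    (h : HubDefs_284.ww DgL e j (θ j) = 0) : (HH false DgL A B).La e θ = 0 := by
  rw [La_eq]
  exact Finset.prod_eq_zero hj h

theorem La_full {θ : Fin 4 → ℝ} {s : Fin 3 → ℕ} (h : ∀ i, St τ i (θ i.castSucc) (s i))
    {c : Fin 11} (hc : fullB c s = true) : (HH false DgL A B).La (bx c) θ = 1 := by
  have hW : ∀ i, full (s i) (boxG c i) = true := by
    unfold fullB at hc
    simp only [Bool.and_eq_true] at hc
    intro i
    fin_cases i
    · exact hc.1.1
    · exact hc.1.2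
    · exact hc.2
  rw [La_eq]
  refine Finset.prod_eq_one fun j hj => ?_
  induction j using Fin.lastCases with
  | last => exact absurd hj (w_notMem c)
  | cast i =>
    have h2 := hW i
    cases hb : boxG c i with
    | no => exact absurd hj (of_no hb)
    | arm =>
      rw [hb] at h2
      have h1 := of_arm hb
      have := (h i).arm1 h2
      unfold HubDefs_284.ww
      rw [h1.2.1, h1.2.2]
      exact this
    | hub lo hi =>
      rw [hb] at h2
      obtain ⟨h5, h3, h4, h6⟩ := of_hub hb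
      have h7 := lohi (bx c) _ h5
      subst h3 h4
      exact (h i).hub1 _ _ h7 (by omega) h2

theorem La_poss {θ : Fin 4 → ℝ} {s : Fin 3 → ℕ} (h : ∀ i, St τ i (θ i.castSucc) (s i))
    {c : Fin 11} (hc : possB c s = false) : (HH false DgL A B).La (bx c) θ = 0 := by
  have hW : ∃ i, poss (s i) (boxG c i) = false := by
    unfold possB at hc
    simp only [Bool.and_eq_false_iff] at hc
    rcases hc with (h1 | h1) | h1
    · exact ⟨0, h1⟩
    · exact ⟨1, h1⟩
    · exact ⟨2, h1⟩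
  obtain ⟨i, hi⟩ := hW
  cases hb : boxG c i with
  | no => rw [hb] at hi; exact absurd hi (by simp [poss])
  | arm =>
    rw [hb] at hi
    have h1 := of_arm hb
    refine La_zero _ h1.1 ?_
    have := (h i).arm0 hi
    unfold HubDefs_284.ww
    rw [h1.2.1, h1.2.2]
    exact this
  | hub lo hi' =>
    rw [hb] at hi
    obtain ⟨h5, h3, h4, h6⟩ := of_hub hb
    have h7 := lohi (bx c) _ h5
    subst h3 h4
    exact La_zero _ h5 ((h i).hub0 _ _ h7 (by omega) hi)

theorem ray_plus {s : ℕ} (h : ray s = true) : plus s = true := by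
  unfold ray at h
  simp only [Bool.and_eq_true, bne_iff_ne, ne_eq, beq_iff_eq] at h
  simp only [plus, Bool.or_eq_true, beq_iff_eq]
  exact Or.inr h.2

/-- every box is a table box or vanishes on the hub rays of its variables -/
theorem box_cases {θ : Fin 4 → ℝ} {s : Fin 3 → ℕ} (h : ∀ i, St τ i (θ i.castSucc) (s i))
    (e : Fin DgL.nb) {i : Fin 3} (hi : i.castSucc ∈ (DgL.bx e).S) (hs : ray (s i) = true) :
    (∃ c, e = bx c ∧ boxG c i ≠ .no) ∨ (HH false DgL A B).La e θ = 0 := by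
  by_cases he : ∃ c, bx c = e
  · obtain ⟨c, rfl⟩ := he
    exact Or.inl ⟨c, rfl, (mem_bx c i).1 hi⟩
  · push Not at he
    obtain ⟨v, h1, h2, h3, h4⟩ := other e he
    right
    have hv : i = v := by
      rw [h1, Finset.mem_insert, Finset.mem_singleton] at hi
      rcases hi with hi | hi
      · exact Fin.castSucc_injective 3 hi
      · exact absurd hi (Fin.castSucc_lt_last i).ne
    subst hv
    exact La_zero _ hi ((h i).ray0 hs _ _ h2 h3.le h4)

/-! ### signs -/

theorem eps_iff (n : ℤ) : eps n = 1 ↔ n % 2 = 0 := by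
  unfold eps
  split_ifs with h
  · exact ⟨fun _ => h, fun _ => rfl⟩
  · exact ⟨fun h1 => by norm_num at h1, fun h1 => absurd h1 h⟩

theorem eps_iff' (n : ℤ) : eps n = -1 ↔ ¬ n % 2 = 0 := by
  unfold eps
  split_ifs with h
  · exact ⟨fun h1 => by norm_num at h1, fun h1 => absurd h h1⟩
  · exact ⟨fun _ => h, fun _ => rfl⟩

section mono

variable {ι ε β : Type} [Fintype ι] [DecidableEq ι] [Fintype ε] [Fintype β]
  {H : Hub ι ε β} {T : Set ℝ} {e e' t : ℝ} {z : ι → ℂ} {ζ : ℂ}

theorem ok_mono (h : H.Ok T e) (he : e ≤ e') : H.Ok T e' :=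
  { h with
    e0 := h.e0.trans he
    Φp := fun v => (h.Φp v).mono he }

theorem out_mono (h : H.Out e t z ζ) (he : e ≤ e') : H.Out e' t z ζ :=
  { h with
    own := fun i a b => (h.own i a b).trans he
    cpl := fun v a => (h.cpl v a).trans (by linarith)
    alt := by
      by_cases h1 : |ζ.im| ≤ e'
      · exact Or.inl h1
      · push Not at h1
        rcases h.alt with h2 | h2
        · exact absurd h1 (by linarith)
        · refine Or.inr ⟨h1, h2.2.1, fun v hv => ?_, h2.2.2.2⟩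
          obtain ⟨i, a, b, c, d⟩ := h2.2.2.1 v hv
          exact ⟨i, a, b, c, d.trans he⟩ }

end mono


/-! ### the real case -/

variable {t : ℝ} {z : Fin 4 → ℂ} {ζ : ℂ}

theorem Φ0_eq (u : Fin 4 → ℝ) :
    (HH false DgL A B).Φ 0 u = gAl (Hs dd_pos) (fun i : Fin 3 => u i.castSucc) := rfl

theorem Φ1_eq (u : Fin 4 → ℝ) :
    (HH false DgL A B).Φ 1 u = gBe (Hs dd_pos) (fun i : Fin 3 => u i.castSucc) := rfl

/-- states and table signs at a critical zero with almost real conormal -/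
theorem states (hs : Sched false DgL A B) (o : (HH false DgL A B).Out (15 * dd) t z ζ)
    (hr : |ζ.im| ≤ 1 / 100) (hz : ∀ i : Fin 3, z i.castSucc ≠ 0) :
    ∃ s : Fin 3 → ℕ, (∀ i, St (1 / 25) i (ag z i.castSucc) (s i)) ∧
      (∀ i : Fin 3, (HH false DgL A B).es z ζ i.castSucc = 1 ↔ plus (s i) = true) ∧
      ((HH false DgL A B).sv z ζ 0 = 1 ↔ StTabG_222.sa s = true) ∧
      ((HH false DgL A B).sv z ζ 1 = 1 ↔ StTabG_222.sb s = true) := by
  have he : 15 * dd ≤ 1 / 100 := by rw [edd]; norm_num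
  have h : (HH false DgL A B).Ok univ (1 / 100) := ok_mono (ok dd_pos facts_g hs) he
  have o' : (HH false DgL A B).Out (1 / 100) t z ζ := out_mono o he
  have own := fun i : Fin 3 => Hub.Out.pos_own h (by norm_num) o' hr
    (i := i.castSucc) ((h.R_pos_iff z _).2 (hz i))
  choose n hn using own
  have hn' : ∀ i : Fin 3, |pp DgL i.castSucc (ag z i.castSucc) - Real.pi * n i| ≤ 1 / 25 :=
    fun i => (hn i).1.trans (by norm_num)
  have ex := fun i : Fin 3 => exists_st i (ag z i.castSucc) (t := 1 / 25) (by norm_num)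
    ⟨n i, hn' i⟩
  choose s S using ex
  have hk := fun i => (S i).near
  choose k hk using hk
  have nr : Near (fun i : Fin 3 => lft (HH false DgL A B).ph (ag z) i.castSucc)
      (pos (s 0) + 10 * k 0) (pos (s 1) + 10 * k 1) (pos (s 2) + 10 * k 2) (1 / 25) :=
    ⟨hk 0, hk 1, hk 2⟩
  have hd4 : dd = 1 / 10000 := rfl
  have hN : ∀ i : Fin 3, ∃ l : ℤ, (pos (s i) + 10 * k i) = pos (s i) + 10 * l :=
    fun i => ⟨k i, rfl⟩
  refine ⟨s, S, fun i => ?_, ?_, ?_⟩
  · rw [(hn i).2, ← StF_370.eps_cos (by norm_num) (hn' i)]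
    exact (S i).sgn
  · rw [Hub.Out.sv_eq o' hr (v := 0) (e' := 3 * dd + 1 / 25) (near_gAl dd_pos nr)
      (by rw [hd4]; norm_num), eps_iff]
    exact (StTabG_222.sa_eq hN).symm
  · rw [Hub.Out.sv_eq o' hr (v := 1) (e' := 2 * dd + 1 / 25) (near_gBe dd_pos nr)
      (by rw [hd4]; norm_num), eps_iff]
    exact (StTabG_222.sb_eq hN).symm

theorem neg_of {x : ℝ} {b : Bool} (h : x = 1 ↔ b = true) (hx : x = -1) : b = false := by
  cases b
  · rfl
  · have := h.2 rfl
    rw [hx] at this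
    norm_num at this

theorem sub3 (c : Fin 11) : (DgL.bx (bx c)).S ⊆ {0, 1, 2} := by
  intro j hj
  have h3 := w_notMem c
  fin_cases j
  · decide
  · decide
  · decide
  · exact absurd hj h3

theorem sb_mem {e : Fin DgL.nb} {j : Fin 4} (h : j ∈ (DgL.bx e).S) :
    HubBx_370.sb DgL e j = 1 / cd DgL e := by
  unfold HubBx_370.sb
  rw [if_pos h]

theorem S_pair {c : Fin 11} {i : Fin 3} (h0 : boxG c 0 ≠ .no) (hi : boxG c i ≠ .no)
    (h : ∀ j, j ≠ 0 → j ≠ i → boxG c j = .no) :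
    (DgL.bx (bx c)).S = {(0 : Fin 3).castSucc, i.castSucc} := by
  ext j
  rw [Finset.mem_insert, Finset.mem_singleton]
  induction j using Fin.lastCases with
  | last =>
    refine ⟨fun hj => absurd hj (w_notMem c), fun hj => ?_⟩
    rcases hj with hj | hj
    · exact absurd hj.symm (Fin.castSucc_lt_last _).ne
    · exact absurd hj.symm (Fin.castSucc_lt_last _).ne
  | cast l =>
    rw [mem_bx]
    constructor
    · intro hl
      by_contra hcon
      push Not at hcon
      exact hl (h l (fun h5 => hcon.1 (by rw [h5])) fun h5 => hcon.2 (by rw [h5]))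
    · rintro (hl | hl)
      · rw [Fin.castSucc_injective 3 hl]; exact h0
      · rw [Fin.castSucc_injective 3 hl]; exact hi

/-- **the real case** -/
theorem real_case (hs : Sched false DgL A B) (ht : t ∈ Icc (0 : ℝ) 1)
    (o : (HH false DgL A B).Out (15 * dd) t z ζ) (hr : |ζ.im| ≤ 1 / 100)
    (h1 : wi 0 4 (DgL.M 0) (ag z 0) = 1 →
      B t (ag z 0) = 0 ∨ 4 * (51 / 50) * B t (ag z 0) < A t (ag z 0) ^ 2)
    (h0 : wi 0 4 (DgL.M 0) (ag z 0) = 0 →
      A t (ag z 0) = 0 ∨ 27 * (51 / 50) * A t (ag z 0) < B t (ag z 0) ^ 3) (i : Fin 4) :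
    (HH false DgL A B).Rp z ζ i = 0 := by
  have hok : (HH false DgL A B).Ok univ (15 * dd) := ok dd_pos facts_g hs
  have he1 : 15 * dd < 1 := by rw [edd]; norm_num
  obtain ⟨q0, q1, q2, q3⟩ := HubBx_370.eq_g facts_g o
  refine PatGR_222.patG2 (HubBx_370.bx facts_g hs o) (hs.A0 t ht (ag z 0)) (hs.B0 t ht (ag z 0))
    (by norm_num : (0 : ℝ) ≤ 51 / 50) (hok.rp_nonneg ht 0) (hok.rp_nonneg ht 1)
    (HubBx_370.rel_g1 facts_g hs ht o) (HubBx_370.rel_g2 facts_g hs ht o) (Hub.sv_pm 0)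
    (Hub.sv_pm 1) q0 q1 q2 q3 (fun hab => ?_) i
  have hz : ∀ i : Fin 3, z i.castSucc ≠ 0 := by
    intro i
    rcases hab with hv | hv
    · refine HubBx_370.r_pos_var (k := 0) (hv.trans_le (Hub.Out.rp_bd hok ht o 0).2) ?_
      fin_cases i <;> decide
    · refine HubBx_370.r_pos_var (k := 1) (hv.trans_le (Hub.Out.rp_bd hok ht o 1).2) ?_
      fin_cases i <;> decide
  obtain ⟨s, S, he, hsa, hsb⟩ := states hs o hr hz
  obtain ⟨T1, T2, T3, T4, T5⟩ := StTabG_222.tab s fun i => (S i).le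
  have hpos : ∀ i : Fin 3, 0 < (HH false DgL A B).Rp z ζ i.castSucc := fun i =>
    (Hub.Out.Rp_pos_iff hok he1 o _).2 (hz i)
  refine ⟨hpos 0, hpos 1, hpos 2, ?_, ?_, ?_, ?_, ?_, ?_, ?_⟩
  · -- `(-, -)`
    intro a1 a2 e0 e1 e2
    obtain ⟨c, hc⟩ := T1 (neg_of hsa a1) (neg_of hsb a2) fun i => (he i).1 (by
      fin_cases i
      · exact e0
      · exact e1
      · exact e2)
    exact ⟨bx c, sub3 c, La_full S hc⟩
  · -- `(+, +)`
    intro a1 a2
    obtain ⟨i, hi, hc⟩ := T2 (hsa.1 a1) (hsb.1 a2)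
    refine ⟨i.castSucc, by fin_cases i <;> decide, (he i).2 (ray_plus hi), fun e hie => ?_⟩
    rcases box_cases S e hie hi with ⟨c, rfl, hb⟩ | h
    · exact La_poss S (hc c hb)
    · exact h
  · -- `(+, -)`, `x`
    intro a1 a2
    obtain ⟨hi, hc, -⟩ := T3 (hsa.1 a1) (neg_of hsb a2)
    refine ⟨(he 0).2 (ray_plus hi), fun e hie => ?_⟩
    rcases box_cases (i := 0) S e hie hi with ⟨c, rfl, hb⟩ | h
    · rcases hc c hb with h | ⟨h, h'⟩
      · exact Or.inl (La_poss S h)
      · right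
        have m1 : (1 : Fin 4) ∈ (DgL.bx (bx c)).S := (mem_bx c 1).2 h
        have m2 : (2 : Fin 4) ∈ (DgL.bx (bx c)).S := (mem_bx c 2).2 h'
        rw [sb_mem hie, sb_mem m1, sb_mem m2]
        exact ⟨le_rfl, le_rfl⟩
    · exact Or.inl h
  · -- `(+, -)`, box
    intro a1 a2 e0 e1 e2
    obtain ⟨-, -, hc⟩ := T3 (hsa.1 a1) (neg_of hsb a2)
    obtain ⟨c, hc⟩ := hc ((he 1).1 e1) ((he 2).1 e2)
    exact ⟨bx c, sub3 c, La_full S hc⟩
  · -- `(+, -)`, coefficients
    intro a1 a2 ha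
    obtain ⟨hi, -, -⟩ := T3 (hsa.1 a1) (neg_of hsb a2)
    have hχ : wi 0 4 (DgL.M 0) (ag z 0) = 0 := (S 0).ray0 hi 4 _ le_rfl
      (by have := lohi (bx 0) 0 (by decide); have := DgL.hhi (bx 0) 0 (by decide); decide) le_rfl
    rcases h0 hχ with h | h
    · exfalso
      have : (HH false DgL A B).rp t z ζ 0 = 0 := by
        unfold Hub.rp
        rw [HubBx_370.r_eq, if_pos rfl, h]
        ring
      rw [this] at ha
      exact lt_irrefl _ ha
    · exact h
  · -- `(-, +)`, own sign of `x` negative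
    intro a1 a2 e0
    obtain ⟨i, hi0, hi, hc⟩ := T4 (neg_of hsa a1) (hsb.1 a2) (neg_of (he 0) e0)
    refine ⟨i.castSucc, ?_, (he i).2 (ray_plus hi), fun e hie => ?_⟩
    · fin_cases i
      · exact absurd rfl hi0
      · decide
      · decide
    rcases box_cases S e hie hi with ⟨c, rfl, hb⟩ | h
    · rcases hc c hb with h | h
      · exact Or.inl (La_poss S h)
      · right
        have m0 : (0 : Fin 4) ∈ (DgL.bx (bx c)).S := (mem_bx c 0).2 h
        rw [sb_mem hie, sb_mem m0]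
    · exact Or.inl h
  · -- `(-, +)`, own sign of `x` positive
    intro a1 a2 e0
    obtain ⟨hs0, i, hi0, hi, c, hf, hb0, hbi, hbo, hun⟩ :=
      T5 (neg_of hsa a1) (hsb.1 a2) ((he 0).1 e0)
    have m0 : (0 : Fin 4) ∈ (DgL.bx (bx c)).S := (mem_bx c 0).2 hb0
    have mi : i.castSucc ∈ (DgL.bx (bx c)).S := (mem_bx c i).2 hbi
    refine ⟨⟨i.castSucc, ?_, (he i).2 (ray_plus hi), bx c, S_pair hb0 hbi hbo, La_full S hf, ?_,
      fun e hie => ?_⟩, fun hb => ?_⟩
    · fin_cases i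
      · exact absurd rfl hi0
      · decide
      · decide
    · rw [sb_mem mi, sb_mem m0]
    · rcases box_cases S e hie hi with ⟨c', rfl, hb'⟩ | h
      · rcases hun c' hb' with h | h
        · exact Or.inl (by rw [h])
        · exact Or.inr (La_poss S h)
      · exact Or.inr h
    · have hχ : wi 0 4 (DgL.M 0) (ag z 0) = 1 := (S 0).arm1 (by rw [hs0]; rfl)
      rcases h1 hχ with h | h
      · exfalso
        have : (HH false DgL A B).rp t z ζ 1 = 0 := by
          unfold Hub.rp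
          rw [HubBx_370.r_eq, if_neg (by decide), h]
          ring
        rw [this] at hb
        exact lt_irrefl _ hb
      · exact h


/-! ### the non real case -/

theorem im_sum (o : (HH false DgL A B).Out (15 * dd) t z ζ) (hr : 15 * dd < |ζ.im|)
    (i : Fin 4) : ∑ c, HubBx_370.sb DgL c i * (HH false DgL A B).Bp z ζ c = 0 :=
  Finset.sum_eq_zero fun c _ => by rw [Hub.Out.Bp_im o hr c, mul_zero]

/-- the sign of a coupling is one of the own signs -/
theorem sv_own (hs : Sched false DgL A B) (ht : t ∈ Icc (0 : ℝ) 1)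
    (o : (HH false DgL A B).Out (15 * dd) t z ζ) (hr : 15 * dd < |ζ.im|) (k : Fin 2)
    (hk : 0 < (HH false DgL A B).rp t z ζ k) :
    (HH false DgL A B).sv z ζ k = (HH false DgL A B).es z ζ 0 ∨
      (HH false DgL A B).sv z ζ k = (HH false DgL A B).es z ζ 1 ∨
      (HH false DgL A B).sv z ζ k = (HH false DgL A B).es z ζ 2 := by
  have hok : (HH false DgL A B).Ok univ (15 * dd) := ok dd_pos facts_g hs
  have he1 : 3 * (15 * dd) < 1 := by rw [edd]; norm_num
  obtain ⟨i, -, -, hi, h⟩ := Hub.Out.sv_im hok he1 o hr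
    (hk.trans_le (Hub.Out.rp_bd hok ht o k).2)
  fin_cases i
  · exact Or.inl h
  · exact Or.inr (Or.inl h)
  · exact Or.inr (Or.inr h)
  · exfalso
    refine hi ?_
    show 3 * (vc false k 3 : ℝ) = 0
    fin_cases k <;> simp [vc]

/-- the coupling `α` follows `x` or `β` -/
theorem sv_ab (hs : Sched false DgL A B) (ht : t ∈ Icc (0 : ℝ) 1)
    (o : (HH false DgL A B).Out (15 * dd) t z ζ) (hr : 1 / 100 < |ζ.im|)
    (ha : 0 < (HH false DgL A B).rp t z ζ 0) (hb : 0 < (HH false DgL A B).rp t z ζ 1) :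
    (HH false DgL A B).sv z ζ 0 = (HH false DgL A B).es z ζ 0 ∨
      (HH false DgL A B).sv z ζ 0 = (HH false DgL A B).sv z ζ 1 := by
  have hok : (HH false DgL A B).Ok univ (15 * dd) := ok dd_pos facts_g hs
  have hd4 : dd = 1 / 10000 := rfl
  have ha' := ha.trans_le (Hub.Out.rp_bd hok ht o 0).2
  have hb' := hb.trans_le (Hub.Out.rp_bd hok ht o 1).2
  have hz0 : z 0 ≠ 0 := HubBx_370.r_pos_var (k := 0) ha' (by decide)
  have hR0 : 0 < (HH false DgL A B).R z 0 := (hok.R_pos_iff z 0).2 hz0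
  have sl := Hs_sl dd_pos (m := 1) (n := 2) (by norm_num) (by norm_num)
  set u : Fin 3 → ℝ := fun i => lft (HH false DgL A B).ph (ag z) i.castSucc with hu
  have hα : (HH false DgL A B).ta z 0 = cis (gAl (Hs dd_pos) u) := rfl
  have hβ : (HH false DgL A B).ta z 1 = cis (gBe (Hs dd_pos) u) := rfl
  have hmix : gAl (Hs dd_pos) u = gBe (Hs dd_pos) u +
      Hs dd_pos 1 2 (u 0 - gBe (Hs dd_pos) u) := rfl
  have hu0 : cis (u 0) = cis (gBe (Hs dd_pos) u) * cis (u 0 - gBe (Hs dd_pos) u) := by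
    rw [← cis_add]; congr 1; ring
  rcases lt_or_ge 0 (deriv (Hs dd_pos 1 2) (u 0 - gBe (Hs dd_pos) u)) with h1 | h1
  · left
    have h2 := sl.one _ h1
    have h3 : ‖(HH false DgL A B).ta z 0 - cis (u 0)‖ ≤ 5 * dd := by
      rw [hα, hmix, cis_add, hu0, ← mul_sub, norm_mul, norm_cis, one_mul]
      exact h2
    have hst := hok.st 0 (ag z 0)
    have hcase : cis (u 0) = (HH false DgL A B).ka z 0 ∨ cis (u 0) = -1 := by
      rcases hst with h | h | h
      · exact Or.inl h.2.2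
      · exact Or.inr h.2.2
      · exact Or.inr h.2.2.2
    rcases hcase with h4 | h4
    · rw [h4] at h3
      have h5 := rf_abs o.norm (norm_cis _) (Hub.Out.jf_own hok o hR0)
      have h6 := sgn_close o.norm h3 (by
        have : |rf ζ (cis ((HH false DgL A B).p 0 (ag z 0)))| =
          |rf ζ ((HH false DgL A B).ka z 0)| := rfl
        rw [this, edd] at h5
        have := h5.1
        rw [hd4]
        linarith)
      unfold Hub.sv Hub.es
      by_cases h7 : 0 < rf ζ ((HH false DgL A B).ka z 0)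
      · rw [if_pos (h6.1.1 h7), if_pos ⟨hR0, h7⟩]
      · rw [if_neg (fun h8 => h7 (h6.1.2 h8)), if_neg (fun h8 => h7 h8.2)]
    · exfalso
      rw [h4] at h3
      have h5 := Stair_739.jf_close o.norm h3
      have h6 := o.cpl 0 ha'
      have h7 : jf ζ (-1) = ζ.im := by simp [jf]
      rw [h7] at h5
      rw [edd] at h6
      rw [hd4] at h5
      have h8 := abs_le.1 h5
      have h9 := abs_le.1 h6
      rcases abs_cases ζ.im with h10 | h10 <;> linarith [h10.1, h8.1, h8.2, h9.1, h9.2]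
  · right
    have h2 := sl.zero _ (lt_of_le_of_lt h1 one_pos)
    have h3 : ‖(HH false DgL A B).ta z 0 - (HH false DgL A B).ta z 1‖ ≤ 5 * dd := by
      rw [hα, hβ, hmix, cis_add]
      have : cis (gBe (Hs dd_pos) u) * cis (Hs dd_pos 1 2 (u 0 - gBe (Hs dd_pos) u)) -
          cis (gBe (Hs dd_pos) u) = cis (gBe (Hs dd_pos) u) *
            (cis (Hs dd_pos 1 2 (u 0 - gBe (Hs dd_pos) u)) - 1) := by ring
      rw [this, norm_mul, norm_cis, one_mul]
      exact h2
    have h5 := rf_abs o.norm (norm_cis _) (o.cpl 1 hb')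
    have h6 := sgn_close o.norm h3 (by
      have : |rf ζ (cis ((HH false DgL A B).Φ 1 (lft (HH false DgL A B).ph (ag z))))| =
        |rf ζ ((HH false DgL A B).ta z 1)| := rfl
      rw [this, edd] at h5
      have := h5.1
      rw [hd4]
      linarith)
    unfold Hub.sv
    by_cases h7 : 0 < rf ζ ((HH false DgL A B).ta z 1)
    · rw [if_pos (h6.1.1 h7), if_pos h7]
    · rw [if_neg (fun h8 => h7 (h6.1.2 h8)), if_neg h7]

/-- **the non real case** -/
theorem im_case (hs : Sched false DgL A B) (ht : t ∈ Icc (0 : ℝ) 1)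
    (o : (HH false DgL A B).Out (15 * dd) t z ζ) (hr : 1 / 100 < |ζ.im|) (i : Fin 4) :
    (HH false DgL A B).Rp z ζ i = 0 := by
  have hok : (HH false DgL A B).Ok univ (15 * dd) := ok dd_pos facts_g hs
  have he1 : 15 * dd < 1 := by rw [edd]; norm_num
  have hr' : 15 * dd < |ζ.im| := by rw [edd]; linarith
  obtain ⟨q0, q1, q2, q3⟩ := HubBx_370.eq_g facts_g o
  rw [im_sum o hr'] at q0 q1 q2 q3
  have hpos : ∀ k : Fin 2, 0 < (HH false DgL A B).rp t z ζ k →
      0 < (HH false DgL A B).Rp z ζ 0 ∧ 0 < (HH false DgL A B).Rp z ζ 1 ∧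
        0 < (HH false DgL A B).Rp z ζ 2 := by
    intro k hk
    have hk' := hk.trans_le (Hub.Out.rp_bd hok ht o k).2
    refine ⟨?_, ?_, ?_⟩
    · exact (Hub.Out.Rp_pos_iff hok he1 o _).2
        (HubBx_370.r_pos_var hk' (by fin_cases k <;> decide))
    · exact (Hub.Out.Rp_pos_iff hok he1 o _).2
        (HubBx_370.r_pos_var hk' (by fin_cases k <;> decide))
    · exact (Hub.Out.Rp_pos_iff hok he1 o _).2
        (HubBx_370.r_pos_var hk' (by fin_cases k <;> decide))
  exact PatGR_222.patG_im (fun i => Hub.Rp_nonneg i) (fun i => Hub.es_pm i)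
    (hok.rp_nonneg ht 0) (hok.rp_nonneg ht 1) (hpos 0) (hpos 1) q0 q1 q2 q3
    (sv_own hs ht o hr' 1) (sv_own hs ht o hr' 0) (sv_ab hs ht o hr) i

/-! ### the paths -/

/-- **no critical zero of the hub function of `g`** -/
theorem no_out (hs : Sched false DgL A B) (ht : t ∈ Icc (0 : ℝ) 1) (hz : z ≠ 0)
    (h1 : ∀ x, chi false DgL x = 1 → B t x = 0 ∨ 4 * (51 / 50) * B t x < A t x ^ 2)
    (h0 : ∀ x, chi false DgL x = 0 → A t x = 0 ∨ 27 * (51 / 50) * A t x < B t x ^ 3) :
    ¬ (HH false DgL A B).Out (15 * dd) t z ζ := by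
  intro o
  have hok : (HH false DgL A B).Ok univ (15 * dd) := ok dd_pos facts_g hs
  have he1 : 15 * dd < 1 := by rw [edd]; norm_num
  have key : ∀ i, (HH false DgL A B).Rp z ζ i = 0 := by
    rcases le_or_gt |ζ.im| (1 / 100) with hr | hr
    · exact real_case hs ht o hr (h1 _) (h0 _)
    · exact im_case hs ht o hr
  refine hz (funext fun i => ?_)
  by_contra hne
  exact ((Hub.Out.Rp_pos_iff hok he1 o i).2 hne).ne' (key i)

/-- **C7, `g`, first half** -/
theorem path1 : Path1P false DgL := by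
  refine path1P facts_g (M0 := 6) fun M hM hM0 t ht z hz ζ => ?_
  refine no_out (sched1 facts_g hM0) ht hz (fun x hx => Or.inr ?_) fun x hx => Or.inr ?_
  · rw [hx]
    nlinarith [ht.1, ht.2, mul_nonneg hM0 ht.1]
  · rw [hx]
    have h2 : (36 : ℝ) * M ≤ M ^ 3 := by
      have : (36 : ℝ) ≤ M ^ 2 := by nlinarith
      nlinarith
    have h3 : (M * (1 - t * 0)) ^ 3 = M ^ 3 := by ring
    rw [h3]
    nlinarith [ht.1, ht.2, mul_nonneg hM0 ht.1]

/-- **C7, `g`, second half** -/
theorem path2 : Path2P false DgL := by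
  refine path2P facts_g (M0 := 0) fun M _ hM0 t ht z hz ζ => ?_
  refine no_out (sched2 facts_g hM0) ht hz (fun x hx => Or.inl ?_) fun x hx => Or.inl ?_
  · rw [hx]; ring
  · rw [hx]; ring

end Crest.Agent.R267.HubG_222
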