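import Crest.Agent.R267.Asm406_808
import Crest.Agent.R267.SFLDc_330

/-!
# Row 267 (helper808): S0406 for the literal box lists `DfL`, `DgL` (SFLDc_330)

`lit_L`: certificate, T3aN, GLUE-N and `HubProp` for `DfL` and `DgL` give the literal S0406.
-/

set_option autoImplicit false

namespace Crest.Agent.R267.Top406L_808

open Matrix
open Crest.Agent.R267.Asm406_808 Crest.Agent.R267.SFLDc_330 Crest.Agent.R267.SFLD_330
open Crest.Agent.R267.GlNDefs_9

theorem cd_fL (e : Fin DfL.nb) : cd DfL e ≤ 3 := by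
  unfold cd
  exact_mod_cast card_fL e

theorem cd_gL (e : Fin DgL.nb) : cd DgL e ≤ 3 := by
  unfold cd
  exact_mod_cast card_gL e

/-- **S0406** from the certificate, T3aN, GLUE-N and the function level. -/
theorem lit_L
    (h : ∃ P : Matrix (Fin 2049) (Fin 2049) ℤ, Pᵀ * NLb_330.pAg * P = NLb_330.pAf)
    (hT : T3aNP (n := 1) DfL) (hT' : T3aNP (n := 1) DgL) (hG : GluP DfL) (hG' : GluP DgL)
    (hF : HubProp true DfL) (hH : HubProp false DgL) : NdZ_484.Lit :=
  lit_of_data let_fL let_gL neg_fL neg_gL cd_fL cd_gL h hT hT' hG hG' hF hH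

end Crest.Agent.R267.Top406L_808
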