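import Crest.Agent.R267.HubDefs_284
import Crest.Agent.R267.Top406L_808

/-!
# Row 267 (helper808): the final polar data of the hub step are admissible

`xx_f : (XX true DfL).Ok`, `xx_g : (XX false DgL).Ok`.
-/

set_option autoImplicit false

noncomputable section

namespace Crest.Agent.R267.HubOk_808

open Crest.Agent.R267.T3aNDefs_88 Crest.Agent.R267.GlNDefs_9 Crest.Agent.R267.HubDefs_284
open Crest.Agent.R267.WordPh_9 Crest.Agent.R267.WordPh2_9 Crest.Agent.R267.SFLDc_330
open Crest.Agent.R267.Top406L_808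

theorem sn_or {N : ℕ} (D : SD N) (j : Fin N) (l : ℕ) : D.sn j l = 1 ∨ D.sn j l = -1 := by
  unfold SD.sn
  split
  · exact Or.inr rfl
  · exact Or.inl rfl

theorem seven_lt (b : Bool) (j : Fin 4) : 7 < D3 b j := by
  cases b <;> fin_cases j <;> norm_num [D3, DS]

theorem xx_ok {b : Bool} {D : SD 4} (h3 : ∀ e, cd D e ≤ 3)
    (hlo : ∀ e, ∀ j ∈ (D.bx e).S, (D.bx e).lo j ≤ (D.bx e).hi j) : (XX b D).Ok where
  hdg := fun j => by
    have := seven_lt b j
    show 2 < D3 b j
    linarith
  hdg2 := fun e j _ => by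
    have h1 := seven_lt b j
    have h2 := h3 e
    show 2 * cd D e < D3 b j
    linarith
  arcs := fun j => warcs (arcsE (D.M j))
  ph := fun j => wrd (arcsE (D.M j)) (sn_or D j)
  hc := fun e => by
    show cd D e < cc D e
    have h := h3 e
    unfold cc
    split
    · next h2 => rw [cd, h2]; norm_num
    · linarith
  lam := fun e j hj => winA' (arcsE (D.M j)) (hlo e j hj) (D.hhi e j hj)

theorem xx_f : (XX true DfL).Ok := xx_ok cd_fL (by decide +kernel)

theorem xx_g : (XX false DgL).Ok := xx_ok cd_gL (by decide +kernel)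

end Crest.Agent.R267.HubOk_808
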