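import Crest.Agent.R267.StartP_143
import Crest.Agent.R267.SFLDc_330

/-!
# Row 267 (S0406), arrow C4 (helper143): `StartP` for 330's data `DfL`, `DgL`
-/

set_option autoImplicit false

namespace Crest.Agent.R267.StartPL_143

open Crest.Agent.R267.HubDefs_284 Crest.Agent.R267.SFLDc_330 Crest.Agent.R267.HubInst_370

/-- **C4 for `f`** -/
theorem startP_f (F : Facts true DfL) : StartP true DfL := StartP_143.startP F (by decide)

/-- **C4 for `g`** -/
theorem startP_g (F : Facts false DgL) : StartP false DgL := StartP_143.startP F (by decide)

end Crest.Agent.R267.StartPL_143
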