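import Crest.Agent.R267.HubAsm_284
import Crest.Agent.R267.HubOk_808
import Crest.Agent.R267.GamP_920
import Crest.Agent.R267.BoxLit_896
import Crest.Agent.R267.StartPL_143
import Crest.Agent.R267.HubFacts_370

/-!
# S0406, the function level of `f` and `g` (helper284)

Everything but C1 (`ArmsP`), the power change (`PowP`) and the pointwise parts of C7
(`Path1P`, `Path2P`) inserted.
-/

set_option autoImplicit false

open Crest.Agent.R267.HubDefs_284 Crest.Agent.R267.HubAsm_284 Crest.Agent.R267.Asm406_808
open Crest.Agent.R267.SFLDc_330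

namespace Crest.Agent.R267.HubHP_284

/-- **the function level of `f`**. -/
theorem hubF (hA : ArmsP true DfL) (hP : PowP true DfL) (h1 : Path1P true DfL)
    (h2 : Path2P true DfL) : HubProp true DfL :=
  hubProp hA (GamP_920.gamP true DfL) hP BoxLit_896.boxP_f
    (StartPL_143.startP_f HubFacts_370.facts_f) h1 h2 HubOk_808.xx_f

/-- **the function level of `g`**. -/
theorem hubG (hA : ArmsP false DgL) (hP : PowP false DgL) (h1 : Path1P false DgL)
    (h2 : Path2P false DgL) : HubProp false DgL :=
  hubProp hA (GamP_920.gamP false DgL) hP BoxLit_896.boxP_g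
    (StartPL_143.startP_g HubFacts_370.facts_g) h1 h2 HubOk_808.xx_g

end Crest.Agent.R267.HubHP_284
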