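import Crest.Agent.R267.HubBx_370
import Crest.Agent.R267.PatFR_440
import Crest.Agent.R267.PatGR_222

/-!
# Row 267 (helper370): the non real case of C7 for `f` and `g`

* `Ok.mono`, `Out.mono`: the tolerance may be increased;
* `im_f : 15 dd < |ζ.im| → z = 0`, `im_g : 45 dd < |ζ.im| → z = 0`, for all schedules.
-/

set_option autoImplicit false

noncomputable section

open Finset Set
open Crest.Agent.R267.T3aNDefs_88 Crest.Agent.R267.Ang_739 Crest.Agent.R267.StairFn_739
open Crest.Agent.R267.StairPh_739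
open Crest.Agent.R267.GlNDefs_9 Crest.Agent.R267.HubDefs_284 Crest.Agent.R267.HubEng_370
open Crest.Agent.R267.HubInst_370 Crest.Agent.R267.HubBx_370
open Crest.Agent.R267.PolF_943 Crest.Agent.R267.LemL_951 Crest.Agent.R267.RndP_222

namespace Crest.Agent.R267.HubIm_370

/-! ### monotonicity in the tolerance -/

section mono

variable {ι ε β : Type} [Fintype ι] [DecidableEq ι] [Fintype ε] [Fintype β]
variable {H : Hub ι ε β} {T : Set ℝ} {e e' t : ℝ} {z : ι → ℂ} {ζ : ℂ}

theorem Ok.mono (h : H.Ok T e) (he : e ≤ e') : H.Ok T e' :=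
  { h with
    e0 := h.e0.trans he
    Φp := fun v => (h.Φp v).mono he }

theorem Out.mono (o : H.Out e t z ζ) (he : e ≤ e') : H.Out e' t z ζ where
  norm := o.norm
  re := o.re
  rad := o.rad
  own := fun i hi hp => (o.own i hi hp).trans he
  ownJ := o.ownJ
  cpl := fun v hv => (o.cpl v hv).trans (by linarith)
  alt := by
    rcases le_or_gt |ζ.im| e' with h1 | h1
    · exact Or.inl h1
    · right
      rcases o.alt with h2 | h2
      · exact absurd (h2.trans he) (not_le.2 h1)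
      · refine ⟨h1, h2.2.1, fun v hv => ?_, h2.2.2.2⟩
        obtain ⟨i, a, b, c, d⟩ := h2.2.2.1 v hv
        exact ⟨i, a, b, c, d.trans he⟩

end mono

variable {D : SD 4} {A B : ℝ → ℝ → ℝ} {t : ℝ} {z : Fin 4 → ℂ} {ζ : ℂ}

theorem box_zero_sum {b : Bool} (o : (HH b D A B).Out (15 * dd) t z ζ)
    (hr : 15 * dd < |ζ.im|) (i : Fin 4) : ∑ c, sb D c i * (HH b D A B).Bp z ζ c = 0 :=
  Finset.sum_eq_zero fun c _ => by rw [Hub.Out.Bp_im o hr c, mul_zero]

theorem zero_of {b : Bool} (F : Facts b D) (hs : Sched b D A B)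
    (o : (HH b D A B).Out (15 * dd) t z ζ) (h : ∀ i, (HH b D A B).Rp z ζ i = 0) : z = 0 := by
  have hok : (HH b D A B).Ok univ (15 * dd) := ok dd_pos F hs
  funext i
  by_contra hne
  have := (Hub.Out.Rp_pos_iff hok (by rw [edd]; norm_num) o i).2 hne
  rw [h i] at this
  exact lt_irrefl _ this

/-- **non real case of `f`** -/
theorem im_f (F : Facts true D) (hs : Sched true D A B) (ht : t ∈ Icc (0 : ℝ) 1)
    (o : (HH true D A B).Out (15 * dd) t z ζ) (hr : 15 * dd < |ζ.im|) : z = 0 := by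
  have hok : (HH true D A B).Ok univ (15 * dd) := ok dd_pos F hs
  have hzs := box_zero_sum o hr
  obtain ⟨e0, e1, e2, e3⟩ := eq_f F o
  rw [hzs] at e0 e1 e2 e3
  have he : 15 * dd < 1 := by rw [edd]; norm_num
  have hrp : ∀ k, 0 < (HH true D A B).rp t z ζ k → 0 < (HH true D A B).r t z k := by
    intro k hk
    exact hk.trans_le (Hub.Out.rp_bd hok ht o k).2
  have hvz : ∀ k i, 0 < (HH true D A B).rp t z ζ k → vc true k i ≠ 0 →
      0 < (HH true D A B).Rp z ζ i := by
    intro k i hk hi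
    exact (Hub.Out.Rp_pos_iff hok he o i).2 (r_pos_var (hrp k hk) hi)
  refine zero_of F hs o (PatFR_440.patFR_im (wy := 1 / 10) (wz := 1 / 10)
    (fun i => Hub.Rp_nonneg i) (fun i => Hub.es_pm i) (by norm_num) (by norm_num)
    (hok.rp_nonneg ht 0) (hok.rp_nonneg ht 1) (fun hb => ⟨hvz 1 1 hb (by decide),
      hvz 1 2 hb (by decide)⟩) e0 e1 e2 e3 ?_ ?_)
  · intro ha
    obtain ⟨i, -, -, hsh, hsv⟩ := Hub.Out.sv_im hok (by rw [edd]; norm_num) o hr (hrp 0 ha)
    rw [hsv]
    fin_cases i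
    · exact Or.inl rfl
    · exact Or.inr (Or.inl rfl)
    · exact Or.inr (Or.inr rfl)
    · exact absurd (show 3 * (vc true 0 3 : ℝ) = 0 by simp [vc]) hsh
  · intro hb
    obtain ⟨i, -, -, hsh, hsv⟩ := Hub.Out.sv_im hok (by rw [edd]; norm_num) o hr (hrp 1 hb)
    rw [hsv]
    fin_cases i
    · exact absurd (show 3 * (vc true 1 0 : ℝ) = 0 by simp [vc]) hsh
    · exact Or.inl rfl
    · exact Or.inr rfl
    · exact absurd (show 3 * (vc true 1 3 : ℝ) = 0 by simp [vc]) hsh

/-! ### nesting of the phases of `g` -/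

theorem nest {d : ℝ} (hd : 0 < d) (u : Fin 3 → ℝ) :
    ‖cis (gAl (Hs hd) u) - cis (gBe (Hs hd) u)‖ ≤ 5 * d ∨
    ‖cis (gAl (Hs hd) u) - cis (u 0)‖ ≤ 5 * d := by
  have hH := Hs_sl hd (by norm_num : 0 < 2) (by norm_num : 1 ≤ 2)
  have e1 : gAl (Hs hd) u = gBe (Hs hd) u + Hs hd 1 2 (u 0 - gBe (Hs hd) u) := rfl
  rcases lt_or_ge (deriv (Hs hd 1 2) (u 0 - gBe (Hs hd) u)) 1 with h1 | h1
  · left
    have h2 := hH.zero _ h1
    rw [e1, cis_add]
    have h3 : cis (gBe (Hs hd) u) * cis (Hs hd 1 2 (u 0 - gBe (Hs hd) u)) -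
        cis (gBe (Hs hd) u) =
        cis (gBe (Hs hd) u) * (cis (Hs hd 1 2 (u 0 - gBe (Hs hd) u)) - 1) := by ring
    rw [h3, norm_mul, norm_cis, one_mul]
    exact h2
  · right
    have h2 := hH.one _ (by linarith : 0 < deriv (Hs hd 1 2) (u 0 - gBe (Hs hd) u))
    have h3 : cis (u 0) = cis (gBe (Hs hd) u) * cis (u 0 - gBe (Hs hd) u) := by
      rw [← cis_add]; congr 1; ring
    rw [e1, cis_add, h3]
    have h4 : cis (gBe (Hs hd) u) * cis (Hs hd 1 2 (u 0 - gBe (Hs hd) u)) -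
        cis (gBe (Hs hd) u) * cis (u 0 - gBe (Hs hd) u) =
        cis (gBe (Hs hd) u) *
          (cis (Hs hd 1 2 (u 0 - gBe (Hs hd) u)) - cis (u 0 - gBe (Hs hd) u)) := by ring
    rw [h4, norm_mul, norm_cis, one_mul]
    exact h2

/-- **non real case of `g`** -/
theorem im_g (F : Facts false D) (hs : Sched false D A B) (ht : t ∈ Icc (0 : ℝ) 1)
    (o : (HH false D A B).Out (15 * dd) t z ζ) (hr : 45 * dd < |ζ.im|) : z = 0 := by
  have hok : (HH false D A B).Ok univ (15 * dd) := ok dd_pos F hs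
  have hdd := dd_pos
  have hr' : 15 * dd < |ζ.im| := by linarith
  have hzs := box_zero_sum o hr'
  obtain ⟨e0, e1, e2, e3⟩ := eq_g F o
  rw [hzs] at e0 e1 e2 e3
  have he : 15 * dd < 1 := by rw [edd]; norm_num
  have hrp : ∀ k, 0 < (HH false D A B).rp t z ζ k → 0 < (HH false D A B).r t z k := by
    intro k hk
    exact hk.trans_le (Hub.Out.rp_bd hok ht o k).2
  have hvz : ∀ k i, 0 < (HH false D A B).rp t z ζ k → vc false k i ≠ 0 →
      0 < (HH false D A B).Rp z ζ i := by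
    intro k i hk hi
    exact (Hub.Out.Rp_pos_iff hok he o i).2 (r_pos_var (hrp k hk) hi)
  have hT : ∀ k, 0 < (HH false D A B).rp t z ζ k →
      (HH false D A B).sv z ζ k = (HH false D A B).es z ζ 0 ∨
      (HH false D A B).sv z ζ k = (HH false D A B).es z ζ 1 ∨
      (HH false D A B).sv z ζ k = (HH false D A B).es z ζ 2 := by
    intro k hk
    obtain ⟨i, -, -, hsh, hsv⟩ := Hub.Out.sv_im hok (by rw [edd]; norm_num) o hr' (hrp k hk)
    rw [hsv]
    fin_cases i
    · exact Or.inl rfl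
    · exact Or.inr (Or.inl rfl)
    · exact Or.inr (Or.inr rfl)
    · refine absurd ?_ hsh
      fin_cases k
      · show 3 * (vc false 0 3 : ℝ) = 0
        simp [vc]
      · show 3 * (vc false 1 3 : ℝ) = 0
        simp [vc]
  refine zero_of F hs o (PatGR_222.patG_im (fun i => Hub.Rp_nonneg i) (fun i => Hub.es_pm i)
    (hok.rp_nonneg ht 0) (hok.rp_nonneg ht 1)
    (fun ha => ⟨hvz 0 0 ha (by decide), hvz 0 1 ha (by decide), hvz 0 2 ha (by decide)⟩)
    (fun hb => ⟨hvz 1 0 hb (by decide), hvz 1 1 hb (by decide), hvz 1 2 hb (by decide)⟩)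
    e0 e1 e2 e3 (hT 1) (hT 0) ?_)
  intro ha hb
  have ha' := hrp 0 ha
  have hb' := hrp 1 hb
  set u := lft (hh false D) (ag z) with hu
  have hta0 : (HH false D A B).ta z 0 = cis (gAl (Hs dd_pos) fun i : Fin 3 => u i.castSucc) := rfl
  have hta1 : (HH false D A B).ta z 1 = cis (gBe (Hs dd_pos) fun i : Fin 3 => u i.castSucc) := rfl
  have hj0 := o.cpl 0 ha'
  have hj1 := o.cpl 1 hb'
  have hR0 : 0 < (HH false D A B).R z 0 :=
    (hok.R_pos_iff z 0).2 (r_pos_var (b := false) ha' (show vc false 0 0 ≠ 0 by decide))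
  have hsgn : ∀ w : ℂ, ‖w‖ = 1 → |jf ζ w| ≤ 2 * (15 * dd) →
      ‖(HH false D A B).ta z 0 - w‖ ≤ 5 * dd →
      (0 < rf ζ w ↔ 0 < rf ζ ((HH false D A B).ta z 0)) := by
    intro w hw hj hc
    have h1 := rf_abs o.norm hw hj
    exact (sgn_close o.norm hc (by rw [edd] at h1; unfold dd; linarith [h1.1])).1
  rcases nest dd_pos (fun i : Fin 3 => u i.castSucc) with h1 | h1
  · right
    rw [← hta0, ← hta1] at h1
    have h2 := hsgn _ (norm_cis _) hj1 h1
    unfold Hub.sv
    by_cases h3 : 0 < rf ζ ((HH false D A B).ta z 1)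
    · rw [if_pos (h2.1 h3), if_pos h3]
    · rw [if_neg (fun h => h3 (h2.2 h)), if_neg h3]
  · left
    rw [← hta0] at h1
    have hst := hok.st 0 (ag z 0)
    rcases hst with h2 | h2 | h2
    · -- in a hub lobe
      have h3 : cis (u (Fin.castSucc 0)) = (HH false D A B).ka z 0 := h2.2.2
      have h1' : ‖(HH false D A B).ta z 0 - (HH false D A B).ka z 0‖ ≤ 5 * dd := by
        rw [← h3]; exact h1
      have hjk := Hub.Out.jf_own hok o hR0
      have h4 := hsgn _ (norm_cis _) (hjk.trans (by linarith)) h1'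
      unfold Hub.sv Hub.es
      by_cases h5 : 0 < rf ζ ((HH false D A B).ka z 0)
      · rw [if_pos (h4.1 h5), if_pos ⟨hR0, h5⟩]
      · rw [if_neg (fun h => h5 (h4.2 h)), if_neg (fun h => h5 h.2)]
    · exfalso
      have h3 : cis (u (Fin.castSucc 0)) = -1 := h2.2.2
      have h1' : ‖(HH false D A B).ta z 0 - (-1)‖ ≤ 5 * dd := by rw [← h3]; exact h1
      have h4 := Stair_739.jf_close o.norm h1'
      have h5 : jf ζ (-1) = ζ.im := by simp [jf]
      rw [h5] at h4
      have h6 := abs_sub_abs_le_abs_sub ζ.im (jf ζ ((HH false D A B).ta z 0))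
      rw [abs_sub_comm] at h6
      linarith
    · exfalso
      have h3 : cis (u (Fin.castSucc 0)) = -1 := h2.2.2.2
      have h1' : ‖(HH false D A B).ta z 0 - (-1)‖ ≤ 5 * dd := by rw [← h3]; exact h1
      have h4 := Stair_739.jf_close o.norm h1'
      have h5 : jf ζ (-1) = ζ.im := by simp [jf]
      rw [h5] at h4
      have h6 := abs_sub_abs_le_abs_sub ζ.im (jf ζ ((HH false D A B).ta z 0))
      rw [abs_sub_comm] at h6
      linarith

end Crest.Agent.R267.HubIm_370
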