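import Crest.Agent.R267.HubDefs_284
import Crest.Agent.R267.SegN_951

/-!
# Row 267 (helper370): `Ok` of 370's engine for the literal hub functions `HX` of `HubDefs_284`
(both `f` and `g`)

* `pull`: the phases of 739 (`Fin 3 → ℝ`) as phases of four variables;
* `Facts b D`: facts on the literal words, windows; `Sched`: schedules of the coefficients;
* `ok : Facts b D → Sched .. → (HX b D (Hs hd) A B).Ok univ (15 d)`;
* `path_of`: `HPath0 (HX ..).fn` from the exclusion of `Out`;
* `sched1`, `sched2`: the schedules of `Path1P`, `Path2P`; `path1P`, `path2P`.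
-/

set_option autoImplicit false

noncomputable section

open Finset Set
open scoped ContDiff
open Crest.Agent.R267.T3aNDefs_88 Crest.Agent.R267.Hm_951 Crest.Agent.R267.Ang_739
open Crest.Agent.R267.GlNDefs_9 Crest.Agent.R267.StairFn_739 Crest.Agent.R267.HubDefs_284
open Crest.Agent.R267.StairPh_739 Crest.Agent.R267.PolF_943 Crest.Agent.R267.HubEng_370
open Crest.Agent.R267.LemL_951 Crest.Agent.R267.WordPh_9 Crest.Agent.R267.WordPh2_9

namespace Crest.Agent.R267.HubInst_370

/-! ### pulling back phases of three variables -/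

/-- restriction to the first three variables -/
def rs (u : Fin 4 → ℝ) : Fin 3 → ℝ := fun i => u i.castSucc

/-- phase of four variables -/
def pull (Φ : (Fin 3 → ℝ) → ℝ) (u : Fin 4 → ℝ) : ℝ := Φ (rs u)

/-- restriction as a linear map -/
def rsL : (Fin 4 → ℝ) →L[ℝ] (Fin 3 → ℝ) :=
  ContinuousLinearMap.pi fun i => ContinuousLinearMap.proj (R := ℝ) (φ := fun _ : Fin 4 => ℝ)
    i.castSucc

theorem rsL_apply (u : Fin 4 → ℝ) : rsL u = rs u := rfl

theorem rs_single (j : Fin 3) (a : ℝ) : rs (Pi.single j.castSucc a) = Pi.single j a := by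
  funext i
  by_cases h : i = j
  · subst h; simp [rs]
  · have : i.castSucc ≠ j.castSucc := fun h' => h (Fin.castSucc_injective 3 h')
    simp [rs, Pi.single_eq_of_ne h, Pi.single_eq_of_ne this]

theorem rs_single_last (a : ℝ) : rs (Pi.single (Fin.last 3) a) = 0 := by
  funext i
  show (Pi.single (Fin.last 3) a : Fin 4 → ℝ) i.castSucc = 0
  exact Pi.single_eq_of_ne (Fin.castSucc_lt_last i).ne _

theorem fderiv_pull {Φ : (Fin 3 → ℝ) → ℝ} (h : Differentiable ℝ Φ) (u v : Fin 4 → ℝ) :
    fderiv ℝ (pull Φ) u v = fderiv ℝ Φ (rs u) (rs v) := by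
  have h1 : HasFDerivAt (pull Φ) ((fderiv ℝ Φ (rs u)).comp rsL) u :=
    HasFDerivAt.comp (f := fun u => rsL u) (g := Φ) u (h (rs u)).hasFDerivAt rsL.hasFDerivAt
  rw [h1.fderiv]
  rfl

theorem wt_pull {Φ : (Fin 3 → ℝ) → ℝ} (h : Differentiable ℝ Φ) (u : Fin 4 → ℝ) (j : Fin 3) :
    wt (pull Φ) u j.castSucc = wt Φ (rs u) j := by
  rw [wt, wt, fderiv_pull h, rs_single]

theorem wt_pull_last {Φ : (Fin 3 → ℝ) → ℝ} (h : Differentiable ℝ Φ) (u : Fin 4 → ℝ) :
    wt (pull Φ) u (Fin.last 3) = 0 := by
  rw [wt, fderiv_pull h, rs_single_last, map_zero]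

theorem sum_wt_pull {Φ : (Fin 3 → ℝ) → ℝ} (h : Differentiable ℝ Φ) (u : Fin 4 → ℝ) :
    ∑ i, wt (pull Φ) u i = ∑ j, wt Φ (rs u) j := by
  rw [Fin.sum_univ_castSucc, wt_pull_last h, add_zero]
  exact Finset.sum_congr rfl fun j _ => wt_pull h u j

theorem ph_pull {Φ : (Fin 3 → ℝ) → ℝ} {e : ℝ} (h : Ph Φ e) : Ph (pull Φ) e where
  smooth := h.smooth.comp (f := fun u => rsL u) rsL.contDiff
  nn := fun u i => by
    induction i using Fin.lastCases with
    | last => rw [wt_pull_last h.diff]
    | cast j => rw [wt_pull h.diff]; exact h.nn _ _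
  sum_le := fun u => by rw [sum_wt_pull h.diff]; exact h.sum_le _
  close := fun u i hi => by
    induction i using Fin.lastCases with
    | last => rw [wt_pull_last h.diff] at hi; exact absurd hi (lt_irrefl _)
    | cast j =>
      rw [wt_pull h.diff] at hi
      exact h.close (rs u) j hi
  flat := fun u hu => by
    rw [sum_wt_pull h.diff] at hu
    exact h.flat (rs u) hu

theorem rs_update_last (u : Fin 4 → ℝ) (x : ℝ) : rs (Function.update u (Fin.last 3) x) = rs u := by
  funext i
  exact Function.update_of_ne (Fin.castSucc_lt_last i).ne _ _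

theorem rs_update (u : Fin 4 → ℝ) (j : Fin 3) (x : ℝ) :
    rs (Function.update u j.castSucc x) = Function.update (rs u) j x := by
  funext i
  by_cases h : i = j
  · subst h; simp [rs]
  · have : i.castSucc ≠ j.castSucc := fun h' => h (Fin.castSucc_injective 3 h')
    simp [rs, Function.update_of_ne h, Function.update_of_ne this]

/-! ### the instance -/

variable {D : SD 4} {b : Bool} {A B : ℝ → ℝ → ℝ}

/-- phases of the couplings, in three variables -/
def Phi (b : Bool) (Hf : ℕ → ℕ → ℝ → ℝ) (k : Fin 2) : (Fin 3 → ℝ) → ℝ :=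
  bif b then (if k = 0 then fAl Hf else fBe Hf) else (if k = 0 then gAl Hf else gBe Hf)

theorem Ph_eq (b : Bool) (Hf : ℕ → ℕ → ℝ → ℝ) (k : Fin 2) : Ph b Hf k = pull (Phi b Hf k) := rfl

/-- **facts on the words and windows** -/
structure Facts (b : Bool) (D : SD 4) : Prop where
  card : ∀ e, (D.bx e).S.card = 2 ∨ (D.bx e).S.card = 3
  lohi : ∀ e, ∀ j ∈ (D.bx e).S, (D.bx e).lo j ≤ (D.bx e).hi j
  hC : ∀ j, ContDiff ℝ 2 (hh b D j)
  hdeg : ∀ j x, hh b D j (x + 2 * Real.pi) = hh b D j x + 2 * Real.pi * nh b j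
  st : ∀ j x, (deriv (pp D j) x ≠ 0 ∧ deriv (hh b D j) x = deriv (pp D j) x ∧
      cis (hh b D j x) = cis (pp D j x)) ∨
    (deriv (pp D j) x ≠ 0 ∧ deriv (hh b D j) x = 0 ∧ cis (hh b D j x) = -1) ∨
    (deriv (pp D j) x = 0 ∧ deriv (hh b D j) x = 0 ∧ cis (pp D j x) = -1 ∧
      cis (hh b D j x) = -1)
  lamd : ∀ e, ∀ j ∈ (D.bx e).S, ∀ x, deriv (pp D j) x ≠ 0 → deriv (ww D e j) x = 0
  χC : ContDiff ℝ 2 (chi b D)
  χper : ∀ x, chi b D (x + 2 * Real.pi) = chi b D x
  χ01 : ∀ x, 0 ≤ chi b D x ∧ chi b D x ≤ 1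
  χd : ∀ x, deriv (pp D 0) x ≠ 0 → deriv (chi b D) x = 0

/-- schedules of the coefficients -/
structure Sched (b : Bool) (D : SD 4) (A B : ℝ → ℝ → ℝ) : Prop where
  Asm : ContDiff ℝ 2 fun q : ℝ × ℝ => A q.1 q.2
  Bsm : ContDiff ℝ 2 fun q : ℝ × ℝ => B q.1 q.2
  A0 : ∀ t ∈ Icc (0 : ℝ) 1, ∀ x, 0 ≤ A t x
  B0 : ∀ t ∈ Icc (0 : ℝ) 1, ∀ x, 0 ≤ B t x
  Aper : ∀ t x, A t (x + 2 * Real.pi) = A t x
  Bper : ∀ t x, B t (x + 2 * Real.pi) = B t x
  Ad : ∀ t x, deriv (pp D 0) x ≠ 0 → deriv (A t) x = 0
  Bd : ∀ t x, deriv (pp D 0) x ≠ 0 → deriv (B t) x = 0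
  Bind : b = true → ∀ t x y, B t x = B t y

theorem D3_pos (b : Bool) (j : Fin 4) : 15 / 2 ≤ D3 b j := by
  cases b <;> fin_cases j <;> norm_num [D3, DS]

theorem phi_ph {d : ℝ} (hd : 0 < d) (k : Fin 2) :
    StairFn_739.Ph (Phi b (Hs hd) k) (15 * d) := by
  fin_cases k
  · cases b
    · exact ph_gAl hd
    · exact ph_fAl hd
  · cases b
    · exact (ph_gBe hd).mono (by linarith)
    · exact (ph_fBe hd).mono (by linarith)

theorem phi_sh {d : ℝ} (hd : 0 < d) (k : Fin 2) (i : Fin 3) : ∃ m : ℕ,
    Sh (Phi b (Hs hd) k) (Pi.single i (2 * Real.pi * (nh b i.castSucc : ℕ)))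
      (2 * Real.pi * m) := by
  cases b
  · have h5 : nh false i.castSucc = 5 := by fin_cases i <;> rfl
    rw [h5]
    have := sh_g (eqv_Hs hd) i
    fin_cases k
    · exact ⟨_, this.2⟩
    · exact ⟨_, this.1⟩
  · have h5 : nh true i.castSucc = ![3, 10, 10] i := by fin_cases i <;> rfl
    rw [h5]
    have := sh_f (eqv_Hs hd) i
    fin_cases k
    · exact ⟨_, this.2⟩
    · exact ⟨_, this.1⟩

theorem vc_last (k : Fin 2) : vc b k (Fin.last 3) = 0 := by
  cases b <;> fin_cases k <;> rfl

theorem phi_ind {d : ℝ} (hd : 0 < d) (k : Fin 2) (i : Fin 4) (hs : vc b k i = 0)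
    (u : Fin 4 → ℝ) (x : ℝ) :
    pull (Phi b (Hs hd) k) (Function.update u i x) = pull (Phi b (Hs hd) k) u := by
  induction i using Fin.lastCases with
  | last => rw [pull, rs_update_last]; rfl
  | cast j =>
    cases b
    · exfalso
      fin_cases k <;> fin_cases j <;> exact absurd hs (by decide)
    · fin_cases k
      · exfalso
        fin_cases j <;> exact absurd hs (by decide)
      · have hj : j = 0 := by
          fin_cases j
          · rfl
          · exact absurd hs (by decide)
          · exact absurd hs (by decide)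
        subst hj
        rw [pull, rs_update]
        show fBe (Hs hd) (Function.update (rs u) 0 x) = fBe (Hs hd) (rs u)
        simp [fBe, mix, co]

theorem pull_shift {d : ℝ} (hd : 0 < d) (k : Fin 2) (F : Facts b D) (i : Fin 4)
    (θ : Fin 4 → ℝ) :
    cis (pull (Phi b (Hs hd) k) (lft (hh b D) (Function.update θ i (θ i + 2 * Real.pi)))) =
      cis (pull (Phi b (Hs hd) k) (lft (hh b D) θ)) := by
  have e1 : lft (hh b D) (Function.update θ i (θ i + 2 * Real.pi)) =
      Function.update (lft (hh b D) θ) i (hh b D i (θ i + 2 * Real.pi)) := by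
    funext j
    by_cases hj : j = i
    · subst hj; simp [lft]
    · simp [lft, Function.update_of_ne hj]
  rw [e1]
  induction i using Fin.lastCases with
  | last => rw [pull, rs_update_last]; rfl
  | cast j =>
    rw [pull, rs_update, F.hdeg]
    obtain ⟨m, hm⟩ := phi_sh (b := b) hd k j
    have e2 : Function.update (rs (lft (hh b D) θ)) j
        (hh b D j.castSucc (θ j.castSucc) + 2 * Real.pi * (nh b j.castSucc : ℕ)) =
        rs (lft (hh b D) θ) + Pi.single j (2 * Real.pi * (nh b j.castSucc : ℕ)) := by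
      funext l
      by_cases hl : l = j
      · subst hl
        simp [rs, lft]
      · simp [Function.update_of_ne hl, Pi.single_eq_of_ne hl]
    rw [e2, hm, cis_per_nat]
    rfl

theorem sh_sum (b : Bool) (k : Fin 2) : ∑ i, 3 * (vc b k i : ℝ) / D3 b i = 1 := by
  rw [Fin.sum_univ_four]
  cases b <;> fin_cases k <;> simp [D3, DS, vc] <;> norm_num

theorem sh_two (b : Bool) (k : Fin 2) (i : Fin 4) :
    3 * (vc b k i : ℝ) = 0 ∨ 2 < 3 * (vc b k i : ℝ) := by
  rcases Nat.eq_zero_or_pos (vc b k i) with h | h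
  · left; rw [h]; norm_num
  · right
    have : (1 : ℝ) ≤ vc b k i := by exact_mod_cast h
    linarith

theorem cd_eq (F : Facts b D) (e : Fin D.nb) : cd D e = 2 ∨ cd D e = 3 := by
  rcases F.card e with h | h
  · left; show ((D.bx e).S.card : ℝ) = 2; rw [h]; norm_num
  · right; show ((D.bx e).S.card : ℝ) = 3; rw [h]; norm_num

theorem cd_pos (F : Facts b D) (e : Fin D.nb) : 0 < cd D e := by
  rcases cd_eq F e with h | h <;> rw [h] <;> norm_num

theorem sn_pm (j : Fin 4) (l : ℕ) : D.sn j l = 1 ∨ D.sn j l = -1 := by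
  unfold SD.sn
  split_ifs
  · exact Or.inr rfl
  · exact Or.inl rfl

theorem pp_C2 (D : SD 4) (j : Fin 4) : ContDiff ℝ 2 (pp D j) := contDiff_wph (arcsE (D.M j))

theorem pp_per (D : SD 4) (j : Fin 4) (x : ℝ) :
    cis (pp D j (x + 2 * Real.pi)) = cis (pp D j x) := by
  have h1 : pp D j (x + 2 * Real.pi) = pp D j x + tot (D.sn j) (D.M j) :=
    wph_add x
  obtain ⟨n, hn⟩ := exists_tot (sn_pm (D := D) j) (D.M j)
  rw [h1, hn, cis_per]

theorem ww_win (F : Facts b D) (e : Fin D.nb) (j : Fin 4) (hj : j ∈ (D.bx e).S) :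
    WinA (D.M j) (aE (D.M j)) (bE (D.M j)) ((D.bx e).lo j) ((D.bx e).hi j) (ww D e j) :=
  winA (arcsE (D.M j)) (F.lohi e j hj) (D.hhi e j hj)

/-- **the hypotheses of the engine** -/
theorem ok {d : ℝ} (hd : 0 < d) (F : Facts b D) (hs : Sched b D A B) :
    (HX b D (Hs hd) A B).Ok univ (15 * d) where
  D2 := fun j => by
    have := D3_pos b j
    show 2 < D3 b j
    linarith
  sh2 := sh_two b
  th2 := fun e j => by
    show (if j ∈ (D.bx e).S then D3 b j / cd D e else 0) = 0 ∨
      2 < (if j ∈ (D.bx e).S then D3 b j / cd D e else 0)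
    split_ifs with hj
    · right
      have h1 := D3_pos b j
      have h2 := cd_pos F e
      rw [lt_div_iff₀ h2]
      rcases cd_eq F e with h | h <;> rw [h] <;> linarith
    · exact Or.inl rfl
  shW := sh_sum b
  thW := fun e => by
    have h2 := cd_pos F e
    have h1 : ∀ j, (if j ∈ (D.bx e).S then D3 b j / cd D e else 0) / D3 b j =
        if j ∈ (D.bx e).S then 1 / cd D e else 0 := by
      intro j
      have : D3 b j ≠ 0 := by have := D3_pos b j; intro h; rw [h] at this; linarith
      split_ifs with hj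
      · field_simp
      · simp
    show ∑ j, (if j ∈ (D.bx e).S then D3 b j / cd D e else 0) / D3 b j = 1
    rw [Finset.sum_congr rfl fun j _ => h1 j, Finset.sum_ite_mem, Finset.univ_inter,
      Finset.sum_const, nsmul_eq_mul]
    show (cd D e) * (1 / cd D e) = 1
    field_simp
  pC := pp_C2 D
  pper := pp_per D
  phC := F.hC
  e0 := by linarith
  Φp := fun k => ph_pull (phi_ph hd k)
  Φper := fun k i θ => pull_shift hd k F i θ
  Φind := fun k i hi u x => by
    have h0 : vc b k i = 0 := by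
      have h1 : 3 * (vc b k i : ℝ) = 0 := hi
      have h2 : (vc b k i : ℝ) = 0 := by linarith
      exact_mod_cast h2
    exact phi_ind hd k i h0 u x
  ampC := fun k => by
    have hA : ContDiff ℝ 2 fun q : ℝ × (Fin 4 → ℝ) => A q.1 (q.2 0) :=
      hs.Asm.comp (contDiff_fst.prodMk ((contDiff_apply ℝ ℝ (0 : Fin 4)).comp contDiff_snd))
    have hB : ContDiff ℝ 2 fun q : ℝ × (Fin 4 → ℝ) => B q.1 (q.2 0) :=
      hs.Bsm.comp (contDiff_fst.prodMk ((contDiff_apply ℝ ℝ (0 : Fin 4)).comp contDiff_snd))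
    show ContDiffOn ℝ 2 (fun q : ℝ × (Fin 4 → ℝ) =>
      if k = 0 then A q.1 (q.2 0) else B q.1 (q.2 0)) _
    by_cases hk : k = 0
    · simp only [hk, if_true]; exact hA.contDiffOn
    · simp only [hk, if_false]; exact hB.contDiffOn
  amp0 := fun k t ht θ => by
    show 0 ≤ if k = 0 then A t (θ 0) else B t (θ 0)
    split_ifs
    · exact hs.A0 t ht _
    · exact hs.B0 t ht _
  ampper := fun k i t _ θ => by
    show (if k = 0 then A t (Function.update θ i (θ i + 2 * Real.pi) 0) else
      B t (Function.update θ i (θ i + 2 * Real.pi) 0)) = if k = 0 then A t (θ 0) else B t (θ 0)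
    by_cases hi : i = 0
    · subst hi
      rw [Function.update_self, hs.Aper, hs.Bper]
    · rw [Function.update_of_ne (Ne.symm hi)]
  ampind := fun k i hi t _ θ x => by
    show (if k = 0 then A t (Function.update θ i x 0) else B t (Function.update θ i x 0)) =
      if k = 0 then A t (θ 0) else B t (θ 0)
    by_cases hi0 : i = 0
    · subst hi0
      have h0 : vc b k 0 = 0 := by
        have h1 : 3 * (vc b k 0 : ℝ) = 0 := hi
        have h2 : (vc b k 0 : ℝ) = 0 := by linarith
        exact_mod_cast h2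
      cases b
      · exfalso
        fin_cases k <;> exact absurd h0 (by decide)
      · fin_cases k
        · exact absurd h0 (by decide)
        · show B t _ = B t _
          exact hs.Bind rfl t _ _
    · rw [Function.update_of_ne (Ne.symm hi0)]
  cb0 := fun e => by
    show 0 ≤ cc D e
    unfold cc
    split_ifs <;> norm_num
  lamC := fun e j => by
    show ContDiff ℝ 2 (if j ∈ (D.bx e).S then ww D e j else fun _ => 1)
    split_ifs with hj
    · exact (ww_win F e j hj).smooth
    · exact contDiff_const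
  lam0 := fun e j x => by
    show 0 ≤ (if j ∈ (D.bx e).S then ww D e j else fun _ => 1) x
    split_ifs with hj
    · exact (ww_win F e j hj).nn x
    · exact zero_le_one
  lamper := fun e j x => by
    show (if j ∈ (D.bx e).S then ww D e j else fun _ => 1) (x + 2 * Real.pi) =
      (if j ∈ (D.bx e).S then ww D e j else fun _ => 1) x
    split_ifs with hj
    · exact (ww_win F e j hj).per x
    · rfl
  lamind := fun e j hj x y => by
    show (if j ∈ (D.bx e).S then ww D e j else fun _ => 1) x =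
      (if j ∈ (D.bx e).S then ww D e j else fun _ => 1) y
    by_cases hj' : j ∈ (D.bx e).S
    · exfalso
      have h1 : (if j ∈ (D.bx e).S then D3 b j / cd D e else 0) = 0 := hj
      rw [if_pos hj'] at h1
      have h2 := cd_pos F e
      have h3 := D3_pos b j
      exact (div_pos (by linarith) h2).ne' h1
    · rw [if_neg hj']
  st := F.st
  lamd := fun e j x hp => by
    show deriv (if j ∈ (D.bx e).S then ww D e j else fun _ => 1) x = 0
    split_ifs with hj
    · exact F.lamd e j hj x hp
    · exact deriv_const x 1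
  ampd := fun k i t _ θ hp => by
    show deriv (fun x => if k = 0 then A t (Function.update θ i x 0) else
      B t (Function.update θ i x 0)) (θ i) = 0
    by_cases hi : i = 0
    · subst hi
      simp only [Function.update_self]
      have hp' : deriv (pp D 0) (θ 0) ≠ 0 := hp
      by_cases hk : k = 0
      · simp only [hk, if_true]
        exact hs.Ad t _ hp'
      · simp only [hk, if_false]
        exact hs.Bd t _ hp'
    · simp only [Function.update_of_ne (Ne.symm hi)]
      exact deriv_const _ _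

/-- **the step of the hub path** from the exclusion of `Out` -/
theorem path_of {d : ℝ} (hd : 0 < d) (F : Facts b D) (hs : Sched b D A B)
    (hno : ∀ t ∈ Icc (0 : ℝ) 1, ∀ z : Fin 4 → ℂ, z ≠ 0 → ∀ ζ,
      ¬ (HX b D (Hs hd) A B).Out (15 * d) t z ζ) :
    HPath0 (HX b D (Hs hd) A B).fn :=
  (ok hd F hs).hpath0 isOpen_univ (subset_univ _) hno

/-! ### schedules of C7 -/

theorem χd (F : Facts b D) {x : ℝ} (hx : deriv (pp D 0) x ≠ 0) : HasDerivAt (chi b D) 0 x := by
  have h2 := (F.χC.differentiable (by norm_num) x).hasDerivAt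
  rwa [F.χd x hx] at h2

theorem chi_true (D : SD 4) (x : ℝ) : chi true D x = 1 := rfl

theorem χsm (F : Facts b D) : ContDiff ℝ 2 fun q : ℝ × ℝ => chi b D q.2 :=
  F.χC.comp contDiff_snd

theorem sched1 (F : Facts b D) {M : ℝ} (hM : 0 ≤ M) :
    Sched b D (fun t x => M * (1 - t * (1 - chi b D x))) fun t x => M * (1 - t * chi b D x) where
  Asm := contDiff_const.mul (contDiff_const.sub (contDiff_fst.mul (contDiff_const.sub (χsm F))))
  Bsm := contDiff_const.mul (contDiff_const.sub (contDiff_fst.mul (χsm F)))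
  A0 := fun t ht x => mul_nonneg hM (by nlinarith [ht.1, ht.2, (F.χ01 x).1, (F.χ01 x).2])
  B0 := fun t ht x => mul_nonneg hM (by nlinarith [ht.1, ht.2, (F.χ01 x).1, (F.χ01 x).2])
  Aper := fun t x => by simp only [F.χper]
  Bper := fun t x => by simp only [F.χper]
  Ad := fun t x hx => by
    have := ((((χd F hx).const_sub 1).const_mul t).const_sub 1).const_mul M
    simp only [neg_zero, mul_zero] at this
    exact this.deriv
  Bd := fun t x hx => by
    have := (((χd F hx).const_mul t).const_sub 1).const_mul M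
    simp only [neg_zero, mul_zero] at this
    exact this.deriv
  Bind := fun hb t x y => by subst hb; rfl

theorem sched2 (F : Facts b D) {M : ℝ} (hM : 0 ≤ M) :
    Sched b D (fun t x => (1 - t) * (M * chi b D x)) fun t x => (1 - t) * (M * (1 - chi b D x))
    where
  Asm := (contDiff_const.sub contDiff_fst).mul (contDiff_const.mul (χsm F))
  Bsm := (contDiff_const.sub contDiff_fst).mul (contDiff_const.mul (contDiff_const.sub (χsm F)))
  A0 := fun t ht x => mul_nonneg (by linarith [ht.2]) (mul_nonneg hM (F.χ01 x).1)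
  B0 := fun t ht x => mul_nonneg (by linarith [ht.2])
    (mul_nonneg hM (by linarith [(F.χ01 x).2]))
  Aper := fun t x => by simp only [F.χper]
  Bper := fun t x => by simp only [F.χper]
  Ad := fun t x hx => by
    have := ((χd F hx).const_mul M).const_mul (1 - t)
    simp only [mul_zero] at this
    exact this.deriv
  Bd := fun t x hx => by
    have := (((χd F hx).const_sub 1).const_mul M).const_mul (1 - t)
    simp only [neg_zero, mul_zero] at this
    exact this.deriv
  Bind := fun hb t x y => by subst hb; rfl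

/-- **C7, first half**, from the exclusion of `Out` for large `M` -/
theorem path1P (F : Facts b D) {M0 : ℝ} (hno : ∀ M ≥ M0, 0 ≤ M → ∀ t ∈ Icc (0 : ℝ) 1,
    ∀ z : Fin 4 → ℂ, z ≠ 0 → ∀ ζ, ¬ (HX b D (Hs dd_pos)
      (fun t x => M * (1 - t * (1 - chi b D x))) fun t x => M * (1 - t * chi b D x)).Out
      (15 * dd) t z ζ) : Path1P b D :=
  ⟨max M0 0, fun M hM => path_of dd_pos F (sched1 F (le_of_max_le_right hM))
    (hno M (le_of_max_le_left hM) (le_of_max_le_right hM))⟩

/-- **C7, second half**, from the exclusion of `Out` for large `M` -/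
theorem path2P (F : Facts b D) {M0 : ℝ} (hno : ∀ M ≥ M0, 0 ≤ M → ∀ t ∈ Icc (0 : ℝ) 1,
    ∀ z : Fin 4 → ℂ, z ≠ 0 → ∀ ζ, ¬ (HX b D (Hs dd_pos)
      (fun t x => (1 - t) * (M * chi b D x)) fun t x => (1 - t) * (M * (1 - chi b D x))).Out
      (15 * dd) t z ζ) : Path2P b D :=
  ⟨max M0 0, fun M hM => path_of dd_pos F (sched2 F (le_of_max_le_right hM))
    (hno M (le_of_max_le_left hM) (le_of_max_le_right hM))⟩

end Crest.Agent.R267.HubInst_370
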