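import Crest.Agent.R267.HubTop2_808
import Crest.Agent.R267.EndN6_277

/-!
# Row 267 (helper808): S0406 from the function level (T3aN, GLUE-N and the certificate inserted)
-/

set_option autoImplicit false

noncomputable section

namespace Crest.Agent.R267.HubTop3_808

open Crest.Agent.R267.SFLDc_330 Crest.Agent.R267.Asm406_808

/-- **S0406** from the function level of `f` and `g`. -/
theorem lit_two (hF : HubProp true DfL) (hH : HubProp false DgL) : NdZ_484.Lit :=
  HubTop2_808.lit_hub (EndN6_277.t3aN (n := 1) DfL) (EndN6_277.t3aN (n := 1) DgL) hF hH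

end Crest.Agent.R267.HubTop3_808
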