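import Crest.Agent.R267.HubHP_284
import Crest.Agent.R267.HubTop3_808

/-!
# S0406 from the open arrows (helper284)
-/

set_option autoImplicit false

open Crest.Agent.R267.HubDefs_284 Crest.Agent.R267.HubAsm_284
open Crest.Agent.R267.SFLDc_330

namespace Crest.Agent.R267.HubLit_284

/-- **S0406** from C1, the power change and C7. -/
theorem lit_open (hAf : ArmsP true DfL) (hAg : ArmsP false DgL) (hPf : PowP true DfL)
    (hPg : PowP false DgL) (h1f : Path1P true DfL) (h2f : Path2P true DfL)
    (h1g : Path1P false DgL) (h2g : Path2P false DgL) : NdZ_484.Lit :=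
  HubTop3_808.lit_two (HubHP_284.hubF hAf hPf h1f h2f) (HubHP_284.hubG hAg hPg h1g h2g)

end Crest.Agent.R267.HubLit_284
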