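import Crest.Agent.R267.HubTop_808
import Crest.Agent.R267.GlnAsm_9

/-!
# Row 267 (helper808): S0406 from T3aN and the function level (GLUE-N inserted)
-/

set_option autoImplicit false

noncomputable section

namespace Crest.Agent.R267.HubTop2_808

open Crest.Agent.R267.SFLD_330 Crest.Agent.R267.SFLDc_330 Crest.Agent.R267.Asm406_808

/-- **S0406** from T3aN and the function level (certificate and GLUE-N inserted). -/
theorem lit_hub (hT : T3aNP (n := 1) DfL) (hT' : T3aNP (n := 1) DgL)
    (hF : HubProp true DfL) (hH : HubProp false DgL) : NdZ_484.Lit :=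
  HubTop_808.lit_fin hT hT' (GlnAsm_9.gluP DfL (by norm_num)) (GlnAsm_9.gluP DgL (by norm_num))
    hF hH

end Crest.Agent.R267.HubTop2_808
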