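import Crest.Agent.R267.HubF_440
import Crest.Agent.R267.StFG_568

/-!
# Row 267, C7-f (helper440): the two halves of the hub path of `f`, unconditional
-/

set_option autoImplicit false

namespace Crest.Agent.R267.PathF_440

open Crest.Agent.R267.HubDefs_284 Crest.Agent.R267.SFLDc_330

theorem stF : HubF_440.StF := fun i x m t ht hx => StFG_568.stF i x m t ht hx

/-- **C7-f, first half**: `(M, M) → (M, 0)`. -/
theorem path1P_f : Path1P true DfL := HubF_440.path1 stF HubFacts_370.facts_f

/-- **C7-f, second half**: `(M, 0) → (0, 0)`. -/
theorem path2P_f : Path2P true DfL := HubF_440.path2 stF HubFacts_370.facts_f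

end Crest.Agent.R267.PathF_440
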