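import Crest.Agent.R267.PolF_943

/-!
# Row 267 (helper315): power change `z i ↦ ‖z i‖ ^ (κ i - 1) z i` (arrow C3 (i))

`pw κ` is a homeomorphism of `ι → ℂ` (`0 < κ i`), equivariant for the weights `w`, `κ w`;
`ag`, `mag`, `PF` transform by `E ↦ κ E`; `zeq_pow : ZEq G (G ∘ pw κ)`.
-/

set_option autoImplicit false
set_option linter.unusedSectionVars false

noncomputable section

open Set Filter Topology Metric
open scoped ContDiff
open Crest.Agent.R267.Cone_808 Crest.Agent.R267.SphReg_808 Crest.Agent.R267.Hm_951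
open Crest.Agent.R267.PolF_943

namespace Crest.Agent.R267.PowC_315

variable {ι : Type} [Fintype ι] [DecidableEq ι]

/-- planar power change -/
def pw1 (k : ℝ) (z : ℂ) : ℂ := ((‖z‖ ^ (k - 1) : ℝ) : ℂ) * z

/-- power change in every variable -/
def pw (κ : ι → ℝ) (z : ι → ℂ) : ι → ℂ := fun i => pw1 (κ i) (z i)

@[simp] theorem pw1_zero (k : ℝ) : pw1 k 0 = 0 := by simp [pw1]

theorem norm_pw1 {k : ℝ} (hk : 0 < k) (z : ℂ) : ‖pw1 k z‖ = ‖z‖ ^ k := by
  by_cases hz : z = 0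
  · subst hz
    rw [pw1_zero, norm_zero, Real.zero_rpow hk.ne']
  · have h : 0 < ‖z‖ := norm_pos_iff.2 hz
    rw [pw1, norm_mul, Complex.norm_real, Real.norm_of_nonneg (Real.rpow_nonneg h.le _)]
    calc ‖z‖ ^ (k - 1) * ‖z‖ = ‖z‖ ^ (k - 1) * ‖z‖ ^ (1 : ℝ) := by rw [Real.rpow_one]
      _ = ‖z‖ ^ k := by rw [← Real.rpow_add h]; congr 1; ring

theorem arg_pw1 (k : ℝ) (z : ℂ) : (pw1 k z).arg = z.arg := by
  by_cases hz : z = 0
  · subst hz; simp
  · rw [pw1]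
    exact Complex.arg_real_mul _ (Real.rpow_pos_of_pos (norm_pos_iff.2 hz) _)

theorem pw1_eq_zero {k : ℝ} (hk : 0 < k) {z : ℂ} : pw1 k z = 0 ↔ z = 0 := by
  rw [← norm_eq_zero, norm_pw1 hk, Real.rpow_eq_zero (norm_nonneg _) hk.ne', norm_eq_zero]

theorem pw1_pw1 {k l : ℝ} (hk : 0 < k) (hkl : k * l = 1) (z : ℂ) : pw1 l (pw1 k z) = z := by
  by_cases hz : z = 0
  · subst hz; simp
  · have h : 0 < ‖z‖ := norm_pos_iff.2 hz
    have e : pw1 l (pw1 k z) = (((‖z‖ ^ k) ^ (l - 1) * ‖z‖ ^ (k - 1) : ℝ) : ℂ) * z := by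
      rw [pw1, norm_pw1 hk, pw1]
      push_cast
      ring
    have e2 : (‖z‖ ^ k) ^ (l - 1) * ‖z‖ ^ (k - 1) = 1 := by
      rw [← Real.rpow_mul h.le, ← Real.rpow_add h]
      have : k * (l - 1) + (k - 1) = 0 := by linear_combination hkl
      rw [this, Real.rpow_zero]
    rw [e, e2, Complex.ofReal_one, one_mul]

theorem continuous_pw1 {k : ℝ} (hk : 0 < k) : Continuous (pw1 k) := by
  rw [continuous_iff_continuousAt]
  intro z
  by_cases hz : z = 0
  · subst hz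
    rw [ContinuousAt, pw1_zero, tendsto_zero_iff_norm_tendsto_zero]
    have h1 : Continuous fun z : ℂ => ‖z‖ ^ k :=
      continuous_norm.rpow_const fun _ => Or.inr hk.le
    have h2 := h1.tendsto (0 : ℂ)
    rw [norm_zero, Real.zero_rpow hk.ne'] at h2
    exact h2.congr fun z => (norm_pw1 hk z).symm
  · have h1 : ContinuousAt (fun z : ℂ => ‖z‖ ^ (k - 1)) z :=
      continuous_norm.continuousAt.rpow_const (Or.inl (norm_ne_zero_iff.2 hz))
    exact (Complex.continuous_ofReal.continuousAt.comp h1).mul continuousAt_id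

theorem pw1_smul {k : ℝ} {r : ℝ} (hr : 0 < r) (z : ℂ) :
    pw1 k ((r : ℂ) * z) = ((r ^ k : ℝ) : ℂ) * pw1 k z := by
  by_cases hz : z = 0
  · subst hz; simp
  · have h : 0 < ‖z‖ := norm_pos_iff.2 hz
    rw [pw1, pw1, norm_mul, Complex.norm_real, Real.norm_of_nonneg hr.le,
      Real.mul_rpow hr.le h.le]
    have e : r ^ k = r ^ (k - 1) * r := by
      calc r ^ k = r ^ (k - 1 + 1) := by congr 1; ring
        _ = r ^ (k - 1) * r := by rw [Real.rpow_add hr, Real.rpow_one]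
    rw [e]
    push_cast
    ring

/-- **the power change as a homeomorphism** -/
def pwH (κ : ι → ℝ) (hκ : ∀ i, 0 < κ i) : (ι → ℂ) ≃ₜ (ι → ℂ) where
  toFun := pw κ
  invFun := pw fun i => (κ i)⁻¹
  left_inv z := by
    funext i
    exact pw1_pw1 (hκ i) (mul_inv_cancel₀ (hκ i).ne') (z i)
  right_inv z := by
    funext i
    exact pw1_pw1 (inv_pos.2 (hκ i)) (inv_mul_cancel₀ (hκ i).ne') (z i)
  continuous_toFun := continuous_pi fun i => (continuous_pw1 (hκ i)).comp (continuous_apply i)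
  continuous_invFun := continuous_pi fun i =>
    (continuous_pw1 (inv_pos.2 (hκ i))).comp (continuous_apply i)

@[simp] theorem pwH_apply (κ : ι → ℝ) (hκ : ∀ i, 0 < κ i) (z : ι → ℂ) :
    pwH κ hκ z = pw κ z := rfl

theorem pw_act {κ : ι → ℝ} (hκ : ∀ i, 0 < κ i) (w : ι → ℝ) (s : ℝ) (z : ι → ℂ) :
    pw κ (act w s z) = act (fun i => κ i * w i) s (pw κ z) := by
  funext i
  show pw1 (κ i) ((Real.exp (s * w i) : ℂ) * z i) = (Real.exp (s * (κ i * w i)) : ℂ) * pw1 (κ i) (z i)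
  rw [pw1_smul (Real.exp_pos _), ← Real.exp_mul]
  congr 3
  ring

theorem ag_pw (κ : ι → ℝ) (z : ι → ℂ) : ag (pw κ z) = ag z := by
  funext i
  exact arg_pw1 _ _

theorem norm_pw {κ : ι → ℝ} (hκ : ∀ i, 0 < κ i) (z : ι → ℂ) (i : ι) :
    ‖pw κ z i‖ = ‖z i‖ ^ κ i := norm_pw1 (hκ i) _

theorem mag_pw {κ : ι → ℝ} (hκ : ∀ i, 0 < κ i) (E : ι → ℝ) (z : ι → ℂ) :
    mag E (pw κ z) = mag (fun i => κ i * E i) z := by
  refine Finset.prod_congr rfl fun i _ => ?_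
  rw [norm_pw hκ, ← Real.rpow_mul (norm_nonneg _)]

theorem PM_pw {Y : Type*} {κ : ι → ℝ} (hκ : ∀ i, 0 < κ i) (E : ι → ℝ)
    (C : Y × (ι → ℝ) → ℂ) (t : Y) (z : ι → ℂ) :
    PM E C (t, pw κ z) = PM (fun i => κ i * E i) C (t, z) := by
  rw [PM, PM]
  simp only
  rw [mag_pw hκ, ag_pw]

theorem PF_pw {Y V : Type*} [Fintype V] {κ : ι → ℝ} (hκ : ∀ i, 0 < κ i) (E : V → ι → ℝ)
    (C : V → Y × (ι → ℝ) → ℂ) (t : Y) (z : ι → ℂ) :
    PF E C (t, pw κ z) = PF (fun v i => κ i * E v i) C (t, z) :=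
  Finset.sum_congr rfl fun v _ => PM_pw hκ (E v) (C v) t z

/-- **power change**: any function whose zero set is invariant under a weight action. -/
theorem zeq_pow {κ : ι → ℝ} (hκ : ∀ i, 0 < κ i) {w : ι → ℝ} (hw : ∀ i, 0 < w i)
    {G : (ι → ℂ) → ℂ} (hG : ∀ (s : ℝ) x, G x = 0 → G (act w s x) = 0) :
    ZEq G fun z => G (pw κ z) := by
  refine (zeq_of_equiv (w := fun i => w i / κ i) (w' := w) (fun i => div_pos (hw i) (hκ i)) hw hG
    (pwH κ hκ) (fun s x => ?_) fun x => Iff.rfl).symm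
  rw [pwH_apply, pwH_apply, pw_act hκ]
  congr 1
  funext i
  have := (hκ i).ne'
  field_simp

/-- the same for a weighted homogeneous function -/
theorem zeq_pow' {κ : ι → ℝ} (hκ : ∀ i, 0 < κ i) {w : ι → ℝ} (hw : ∀ i, 0 < w i)
    {G : (ι → ℂ) → ℂ} (hG : ∀ (s : ℝ) x, G (act w s x) = Real.exp s • G x) :
    ZEq G fun z => G (pw κ z) :=
  zeq_pow hκ hw fun s x hx => by rw [hG, hx, smul_zero]

end Crest.Agent.R267.PowC_315
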