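import Crest.Agent.R267.GamP_920
import Crest.Agent.R267.PowC_315

/-!
# S0406, hub step, C3a (helper920): `PowP b D`

`F2 b D M = F1 b D M ∘ (z ↦ z |z|²)` (`F2_eq`), and helper315's `zeq_pow'`.
-/

set_option autoImplicit false
set_option linter.unusedSectionVars false

noncomputable section

open Set Filter Topology Metric Finset
open scoped ContDiff
open Crest.Agent.R267.Cone_808 Crest.Agent.R267.Hm_951 Crest.Agent.R267.Ang_739
open Crest.Agent.R267.T3aNDefs_88 (SD Box Hm)
open Crest.Agent.R267.GlNDefs_9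
open Crest.Agent.R267.HubDefs_284 Crest.Agent.R267.PowC_315
open Crest.Agent.R267.PolF_943 (mag ag PM PF)
open Crest.Agent.R267.StairFn_739 Crest.Agent.R267.NdR_484
open Crest.Agent.R267.GamM_100 (ws core_ws ws_sum ws_zero wm_one_pos)
open Crest.Agent.R267.Gam_100 (core_P3 P3 P3s P3u Core)
open Crest.Agent.R267.GamP_920 (EX_act EX_congr core_eq)

namespace Crest.Agent.R267.PowP_920

theorem cis_add' (x y : ℝ) : cis (x + y) = cis x * cis y := by
  unfold cis
  rw [← Complex.exp_add]
  congr 1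
  push_cast
  ring

theorem cis_nat_mul (n : ℕ) (x : ℝ) : cis (n * x) = cis x ^ n := by
  unfold cis
  rw [← Complex.exp_nat_mul]
  congr 1
  push_cast
  ring

/-- powers of the power change -/
theorem pw1_pow (z : ℂ) (n : ℕ) :
    pw1 3 z ^ n = ((‖z‖ ^ (3 * (n : ℝ)) : ℝ) : ℂ) * cis (n * z.arg) := by
  by_cases hz : z = 0
  · subst hz
    rcases n with _ | n
    · simp [cis]
    · rw [pw1_zero, zero_pow (Nat.succ_ne_zero n), norm_zero, Real.zero_rpow (by positivity)]
      simp
  · have h0 : 0 < ‖z‖ := norm_pos_iff.2 hz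
    have e1 : z = ((‖z‖ : ℝ) : ℂ) * cis z.arg := (Complex.norm_mul_exp_arg_mul_I z).symm
    have e2 : pw1 3 z = ((‖z‖ ^ (3 : ℝ) : ℝ) : ℂ) * cis z.arg := by
      unfold pw1
      nth_rewrite 2 [e1]
      rw [← mul_assoc, ← Complex.ofReal_mul]
      congr 2
      nth_rewrite 2 [← Real.rpow_one ‖z‖]
      rw [← Real.rpow_add h0]
      norm_num
    rw [e2, mul_pow, ← Complex.ofReal_pow, ← Real.rpow_mul_natCast h0.le, cis_nat_mul]

/-- monomials after the power change -/
theorem mono_pw (v : Fin 4 → ℕ) (z : Fin 4 → ℂ) :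
    ∏ j, pw (fun _ => 3) z j ^ v j =
      ((mag (fun j => 3 * (v j : ℝ)) z : ℝ) : ℂ) * cis (∑ j, v j * ag z j) := by
  simp only [pw, pw1_pow, mag, ag, Fin.prod_univ_four, Fin.sum_univ_four, cis_add']
  push_cast
  ring

/-- the core after the power change -/
theorem core_pw (b : Bool) (z : Fin 4 → ℂ) :
    core b (pw (fun _ => 3) z 0) (pw (fun _ => 3) z 1 * pw (fun _ => 3) z 2) =
      ∏ j, pw (fun _ => 3) z j ^ vc b 0 j + ∏ j, pw (fun _ => 3) z j ^ vc b 1 j := by
  cases b
  · simp [core, vc, Fin.prod_univ_four]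
    ring
  · simp [core, vc, Fin.prod_univ_four]
    ring

theorem mag_single (i : Fin 4) (d : ℝ) (z : Fin 4 → ℂ) : mag (Pi.single i d) z = ‖z i‖ ^ d := by
  unfold mag
  rw [Finset.prod_eq_single i]
  · rw [Pi.single_eq_same]
  · intro j _ hj
    rw [Pi.single_eq_of_ne hj, Real.rpow_zero]
  · intro h
    exact absurd (Finset.mem_univ i) h

theorem box_eq (b : Bool) (D : SD 4) (e : Fin D.nb) (z : Fin 4 → ℂ) :
    mag (fun j => if j ∈ (D.bx e).S then D3 b j / cd D e else 0) z *
      ∏ j, (if j ∈ (D.bx e).S then ww D e j else fun _ => 1) (ag z j) =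
    ∏ j ∈ (D.bx e).S, pol (D3 b j / cd D e) (ww D e j) (z j) := by
  unfold mag
  rw [← Finset.prod_mul_distrib, ← Finset.prod_subset (Finset.subset_univ (D.bx e).S)]
  · refine Finset.prod_congr rfl fun j hj => ?_
    simp only [if_pos hj]
    rfl
  · intro j _ hj
    simp only [if_neg hj, Real.rpow_zero, one_mul]

/-- **stage 2 is stage 1 after the power change** -/
theorem F2_eq (b : Bool) (D : SD 4) (M : ℝ) (z : Fin 4 → ℂ) :
    F2 b D M z = F1 b D M (pw (fun _ => 3) z) := by
  have h3 : ∀ _ : Fin 4, (0 : ℝ) < 3 := fun _ => by norm_num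
  have hE : EX D (DS b) (pw (fun _ => 3) z) = EX D (D3 b) z := by
    refine EX_congr D (fun j => ?_) fun j => arg_pw1 _ _
    rw [norm_pw h3, ← Real.rpow_mul (norm_nonneg _)]
    rfl
  have hF : Fs b D Gs (fun _ => 0) (fun _ _ => M) (fun _ _ => M) (0, z) =
      own D (D3 b) z + ((M : ℂ) * ∏ j, pw (fun _ => 3) z j ^ vc b 0 j +
        (M : ℂ) * ∏ j, pw (fun _ => 3) z j ^ vc b 1 j) - (boxP D (D3 b) z : ℂ) := by
    unfold Fs PF
    rw [Fintype.sum_sum_type, Fintype.sum_sum_type, sub_eq_add_neg, add_assoc]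
    congr 1
    · unfold own
      refine Finset.sum_congr rfl fun i _ => ?_
      show ((mag (Pi.single i (D3 b i)) z : ℝ) : ℂ) * cis (pp D i (ag z i)) = _
      rw [mag_single]
      unfold pc pol
      simp only [Complex.real_smul, Complex.ofReal_one, one_mul]
      rfl
    · congr 1
      · have hk : ∀ k : Fin 2, PM ((HX b D Gs (fun _ _ => M) fun _ _ => M).E (Sum.inr (Sum.inl k)))
            (CC b D Gs (fun _ => 0) (fun _ _ => M) (fun _ _ => M) (Sum.inr (Sum.inl k))) (0, z) =
            (M : ℂ) * ∏ j, pw (fun _ => 3) z j ^ vc b k j := by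
          intro k
          rw [mono_pw]
          show ((mag (fun j => 3 * (vc b k j : ℝ)) z : ℝ) : ℂ) *
            (((if k = 0 then M else M : ℝ) : ℂ) *
              cis ((1 - (0 : ℝ)) * (∑ i, (vc b k i : ℝ) * ag z i) + (0 : ℝ) * _)) = _
          rw [ite_self, sub_zero, one_mul, zero_mul, add_zero]
          ring
        rw [Fin.sum_univ_two, hk, hk]
      · unfold boxP
        rw [Complex.ofReal_sum, ← Finset.sum_neg_distrib]
        refine Finset.sum_congr rfl fun e _ => ?_
        show ((mag (fun j => if j ∈ (D.bx e).S then D3 b j / cd D e else 0) z : ℝ) : ℂ) *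
          -((cc D e * ∏ j, (if j ∈ (D.bx e).S then ww D e j else fun _ => 1) (ag z j) : ℝ) : ℂ) = _
        rw [← box_eq b D e z]
        push_cast
        ring
  unfold F2 F1
  rw [hF, hE, core_pw]
  unfold EX
  push_cast
  ring

theorem F1_act (b : Bool) (D : SD 4) (M s : ℝ) (z : Fin 4 → ℂ) :
    F1 b D M (act (ws b) s z) = Real.exp s • F1 b D M z := by
  have hP := core_ws (core_P3 b (m := fun _ => 1) (n := fun _ => bif b then 0 else 1)
    (k := fun _ => 1) contDiff_const contDiff_const contDiff_const (fun _ _ => one_ne_zero)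
    (fun hb _ _ => by rw [hb]; exact one_ne_zero) (fun hb _ _ => by rw [hb]; norm_num))
    (ws_zero b) (ws_sum b)
  have h := hP.hom 0 ⟨le_rfl, zero_le_one⟩ s (z 0) (z 1 * z 2)
  rw [core_eq, core_eq] at h
  have e : act (ws b) s z 1 * act (ws b) s z 2 =
      (((Real.exp (s * ws b 1) : ℝ) : ℂ) * ((Real.exp (s * ws b 2) : ℝ) : ℂ)) * (z 1 * z 2) := by
    unfold act
    ring
  unfold F1
  rw [EX_act, e, smul_add]
  congr 1
  rw [show act (ws b) s z 0 = ((Real.exp (s * ws b 0) : ℝ) : ℂ) * z 0 from rfl, h, mul_smul_comm]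

/-- **C3a, power change** -/
theorem powP (b : Bool) (D : SD 4) : PowP b D := by
  intro M
  have h := zeq_pow' (κ := fun _ : Fin 4 => (3 : ℝ)) (fun _ => by norm_num) (wm_one_pos b)
    (F1_act b D M)
  have e : F2 b D M = fun z => F1 b D M (pw (fun _ => 3) z) := funext (F2_eq b D M)
  rw [e]
  exact h

end Crest.Agent.R267.PowP_920
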