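import Crest.Agent.R267.HubTop3_808
import Crest.Agent.R267.HubOk_808
import Crest.Agent.R267.HubAsm_284
import Crest.Agent.R267.GamP_920
import Crest.Agent.R267.PowP_920
import Crest.Agent.R267.BoxLit_896
import Crest.Agent.R267.StartPL_143
import Crest.Agent.R267.HubFacts_370
import Crest.Agent.R267.PathF_440
import Crest.Agent.R267.NAsmF_407

/-!
# Row 267 (helper808): S0406 from the exits of the arms and C7 for `g`
-/

set_option autoImplicit false

noncomputable section

namespace Crest.Agent.R267.HubTop4_808

open Crest.Agent.R267.SFLDc_330 Crest.Agent.R267.HubDefs_284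

/-- **S0406** from the exits of the six arms and the hub path of `g`. -/
theorem lit_last (hEf : ∀ v, NAsm_407.ExitP true DfL v) (hEg : ∀ v, NAsm_407.ExitP false DgL v)
    (h1 : Path1P false DgL) (h2 : Path2P false DgL) : NdZ_484.Lit :=
  HubTop3_808.lit_two
    (HubAsm_284.hubProp (NAsmF_407.armsP true DfL hEf) (GamP_920.gamP true DfL)
      (PowP_920.powP true DfL) BoxLit_896.boxP_f (StartPL_143.startP_f HubFacts_370.facts_f)
      PathF_440.path1P_f PathF_440.path2P_f HubOk_808.xx_f)
    (HubAsm_284.hubProp (NAsmF_407.armsP false DgL hEg) (GamP_920.gamP false DgL)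
      (PowP_920.powP false DgL) BoxLit_896.boxP_g (StartPL_143.startP_g HubFacts_370.facts_g)
      h1 h2 HubOk_808.xx_g)

end Crest.Agent.R267.HubTop4_808
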