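import Crest.Agent.R267.NSArmT_780
import Crest.Agent.R267.SFLDc_330
import Crest.Agent.R267.GlNDefs_9

/-!
# Row 267, N2: matching of the signed tables with the data `DfL`, `DgL` (helper780)

`DL b = DfL, DgL`. For every arm `v : Fin 3` (arcs in 9's numbering: arc `0` = plate, arc `l + 1` =
lobe `l` of `SD`; a window `[lo, hi)` of lobes = arcs `lo < k ≤ hi`):
* `n_eq : (sn b v).n = (DL b).M v.castSucc + 1`;
* `sg_eq : k ≤ M → (S.sg k : ℝ) = se (D.sn v.castSucc) k`;
* `kill_box : k ≤ M → l ≤ 14 → (S.kill k l ↔ ∃ e, S_e = {v, 3} ∧ lo v < k ∧ k ≤ hi v ∧ lo 3 < l ∧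
  l ≤ hi 3)`, `box_disj` (the windows in `v` of two such boxes are disjoint), `box_facts`.
-/

set_option autoImplicit false

noncomputable section

namespace Crest.Agent.R267.NSArmM_780

open Finset
open Crest.Agent.R267.T3aNDefs_88 Crest.Agent.R267.SFLDb_330 Crest.Agent.R267.SFLDc_330
open Crest.Agent.R267.NSDefs_966 Crest.Agent.R267.NSArm_780 Crest.Agent.R267.NSArmT_780

/-- the data of the germ `b` -/
def DL (b : Bool) : SD 4 := bif b then DfL else DgL

theorem n_eq (b : Bool) (v : Fin 3) : (sn b v).n = (DL b).M v.castSucc + 1 := by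
  fin_cases v <;> cases b <;> rfl

/-- signs of the arcs, as booleans -/
theorem sg_list (b : Bool) (v : Fin 3) : ∀ i : Fin (sn b v).n,
    (sn b v).sg.getD (i : ℕ) true = ((i : ℕ) == 0 || !((DL b).neg v.castSucc ((i : ℕ) - 1))) := by
  fin_cases v <;> cases b <;> decide +kernel

theorem mod_eq {n k : ℕ} (h : k < n) : ((k : ℤ) % (n : ℤ)).toNat = k := by
  rw [Int.emod_eq_of_lt (by positivity) (by exact_mod_cast h), Int.toNat_natCast]

theorem sg_eq (b : Bool) (v : Fin 3) (k : ℕ) (hk : k ≤ (DL b).M v.castSucc) :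
    (((sn b v).S.sg k : ℤ) : ℝ) = GlNDefs_9.se ((DL b).sn v.castSucc) k := by
  have hk' : k < (sn b v).n := by rw [n_eq]; omega
  have h1 := sg_list b v ⟨k, hk'⟩
  have h2 : (sn b v).S.sg k =
      if (sn b v).sg.getD k true = true then 1 else -1 := by
    show (if (sn b v).sg.getD ((k : ℤ) % ((sn b v).n : ℤ)).toNat true = true then (1 : ℤ) else -1) = _
    rw [mod_eq hk']
  rw [h2, h1]
  unfold GlNDefs_9.se SD.sn
  rcases k with _ | k
  · simp
  · simp only [Nat.add_sub_cancel, Nat.add_eq_zero_iff, one_ne_zero, and_false, if_false]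
    cases h : (DL b).neg v.castSucc k <;> simp

/-! ### boxes -/

/-- the box has exactly the variables `v, 3` -/
def flag (v : Fin 3) (b : B4) : Bool :=
  decide (∀ j : Fin 4, (iv b j).isSome = true ↔ (j = v.castSucc ∨ j = 3))

theorem flag_iff (v : Fin 3) (b : B4) : (mkB b).S = {v.castSucc, 3} ↔ flag v b = true := by
  unfold flag
  rw [decide_eq_true_eq, Finset.ext_iff]
  refine forall_congr' fun j => ?_
  have h1 : j ∈ (mkB b).S ↔ (iv b j).isSome = true := by
    show j ∈ univ.filter (fun j => (iv b j).isSome = true) ↔ _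
    simp
  rw [h1, Finset.mem_insert, Finset.mem_singleton]

/-- the cell `(k, l)` (arcs) is in the box -/
def hitC (v : Fin 3) (b : B4) (k l : ℕ) : Bool :=
  flag v b && (decide ((mkB b).lo v.castSucc < k) && decide (k ≤ (mkB b).hi v.castSucc) &&
    (decide ((mkB b).lo 3 < l) && decide (l ≤ (mkB b).hi 3)))

/-- list of boxes -/
def LL (b : Bool) : List B4 := bif b then bxFL else bxGL

theorem ex_iff (b : Bool) (P : Box 4 → Prop) :
    (∃ e, P ((DL b).bx e)) ↔ ∃ x ∈ LL b, P (mkB x) := by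
  cases b
  · constructor
    · rintro ⟨e, h⟩
      exact ⟨bxGL.get e, List.get_mem _ e, h⟩
    · rintro ⟨x, hx, h⟩
      obtain ⟨e, rfl⟩ := List.mem_iff_get.1 hx
      exact ⟨e, h⟩
  · constructor
    · rintro ⟨e, h⟩
      exact ⟨bxFL.get e, List.get_mem _ e, h⟩
    · rintro ⟨x, hx, h⟩
      obtain ⟨e, rfl⟩ := List.mem_iff_get.1 hx
      exact ⟨e, h⟩

theorem cell_list (b : Bool) (v : Fin 3) : ∀ (k : Fin (sn b v).n) (l : Fin 15),
    decide ((sn b v).c.getD (k : ℕ) 0 ≤ (l : ℕ)) = (LL b).any fun x => hitC v x k l := by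
  fin_cases v <;> cases b <;> decide +kernel

/-- **killed cells = boxes of the variables `v, w`** -/
theorem kill_box (b : Bool) (v : Fin 3) (k l : ℕ) (hk : k ≤ (DL b).M v.castSucc) (hl : l ≤ 14) :
    (sn b v).S.kill k l ↔ ∃ e, ((DL b).bx e).S = {v.castSucc, 3} ∧
      ((DL b).bx e).lo v.castSucc < k ∧ k ≤ ((DL b).bx e).hi v.castSucc ∧
      ((DL b).bx e).lo 3 < l ∧ l ≤ ((DL b).bx e).hi 3 := by
  have hk' : k < (sn b v).n := by rw [n_eq]; omega
  have h1 := cell_list b v ⟨k, hk'⟩ ⟨l, by omega⟩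
  have h2 : ((l : ℤ) % 15).toNat = l := by omega
  have h3 : (sn b v).S.kill k l ↔ ((LL b).any fun x => hitC v x k l) = true := by
    rw [← h1, decide_eq_true_eq, sn_kill, mod_eq hk', h2]
  rw [h3, List.any_eq_true,
    ex_iff b fun B => B.S = {v.castSucc, 3} ∧ B.lo v.castSucc < k ∧ k ≤ B.hi v.castSucc ∧
      B.lo 3 < l ∧ l ≤ B.hi 3]
  refine exists_congr fun x => and_congr_right fun _ => ?_
  simp only [hitC, Bool.and_eq_true, decide_eq_true_eq, flag_iff, and_assoc]

theorem all_iff (b : Bool) {P : Box 4 → Prop} (h : ∀ x ∈ LL b, P (mkB x)) (e : Fin (DL b).nb) :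
    P ((DL b).bx e) := by
  cases b
  · exact h _ (List.get_mem bxGL e)
  · exact h _ (List.get_mem bxFL e)

/-- facts on the boxes of the variables `v, w` -/
theorem box_facts (b : Bool) (v : Fin 3) (e : Fin (DL b).nb)
    (he : ((DL b).bx e).S = {v.castSucc, 3}) :
    ((DL b).bx e).hi v.castSucc = ((DL b).bx e).lo v.castSucc + 1 ∧
      ((DL b).bx e).hi v.castSucc ≤ (DL b).M v.castSucc ∧
      ((DL b).bx e).lo 3 < ((DL b).bx e).hi 3 ∧ ((DL b).bx e).hi 3 = 14 := by
  have H : ∀ (b : Bool) (v : Fin 3), ∀ x ∈ LL b, flag v x = true →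
      ((mkB x).hi v.castSucc = (mkB x).lo v.castSucc + 1 ∧ (mkB x).hi v.castSucc ≤ MM v.castSucc ∧
        (mkB x).lo 3 < (mkB x).hi 3 ∧ (mkB x).hi 3 = 14) := by
    intro b v
    fin_cases v <;> cases b <;> decide +kernel
  have h1 := all_iff b (P := fun B => B.S = {v.castSucc, 3} → (B.hi v.castSucc =
    B.lo v.castSucc + 1 ∧ B.hi v.castSucc ≤ MM v.castSucc ∧ B.lo 3 < B.hi 3 ∧ B.hi 3 = 14))
    (fun x hx h => H b v x hx ((flag_iff v x).1 h)) e he
  have h2 : (DL b).M = MM := by cases b <;> rfl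
  rw [h2]
  exact h1

/-- the windows in `v` of two boxes are disjoint -/
theorem box_disj (b : Bool) (v : Fin 3) (e e' : Fin (DL b).nb)
    (he : ((DL b).bx e).S = {v.castSucc, 3}) (he' : ((DL b).bx e').S = {v.castSucc, 3})
    (hne : e ≠ e') : ((DL b).bx e).hi v.castSucc ≤ ((DL b).bx e').lo v.castSucc ∨
      ((DL b).bx e').hi v.castSucc ≤ ((DL b).bx e).lo v.castSucc := by
  have H : ∀ (b : Bool) (v : Fin 3), ∀ e e' : Fin (LL b).length,
      flag v ((LL b).get e) = true → flag v ((LL b).get e') = true → e ≠ e' →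
        ((mkB ((LL b).get e)).hi v.castSucc ≤ (mkB ((LL b).get e')).lo v.castSucc ∨
          (mkB ((LL b).get e')).hi v.castSucc ≤ (mkB ((LL b).get e)).lo v.castSucc) := by
    intro b v
    fin_cases v <;> cases b <;> decide +kernel
  cases b
  · exact H false v e e' ((flag_iff _ _).1 he) ((flag_iff _ _).1 he') hne
  · exact H true v e e' ((flag_iff _ _).1 he) ((flag_iff _ _).1 he') hne

end Crest.Agent.R267.NSArmM_780
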