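import Crest.Agent.R267.HubTop4_808
import Crest.Agent.R267.HubG_222
import Crest.Agent.R267.ArmExD_649
import Crest.Agent.R267.ArmExitF_502
import Crest.Agent.R267.NSArmM_780

/-!
# Row 267 (helper808): S0406

The exits of the six arms (helper649, helper502, helper780) and the hub path of `g` (helper222) are
inserted: `lit : NdZ_484.Lit`.
-/

set_option autoImplicit false

noncomputable section

namespace Crest.Agent.R267.HubTop5_808

open Finset
open Crest.Agent.R267.T3aNDefs_88 Crest.Agent.R267.SFLDc_330 Crest.Agent.R267.HubDefs_284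
open Crest.Agent.R267.NSDefs_966 Crest.Agent.R267.NSArm_780 Crest.Agent.R267.NSArmM_780
open Crest.Agent.R267.ArmExC_649 Crest.Agent.R267.ArmExD_649
open Crest.Agent.R267.ArmExitB_502 Crest.Agent.R267.ArmExitE_502

theorem ww_eq (D : SD 4) (v : Fin 3) (θ ω : ℝ) : (XV D v).WW θ ω = WW D v θ ω := by
  unfold XD.WW WW
  exact (Finset.sum_subtype (univ.filter fun e => (D.bx e).S = {v.castSucc, 3})
    (fun x => by simp) fun e => ww D e v.castSucc θ * ww D e 3 ω).symm

theorem he_eq (D : SD 4) (v : Fin 3) (u0 W : ℝ) : (XV D v).hE (ca u0) (cb W) = HE D v u0 W := by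
  funext z
  unfold XD.hE HE
  rw [ww_eq]
  rfl

theorem co {u0 W : ℝ} (h : 0 < u0) (hW : u0 ≤ W) : CO u0 W (ca u0) (cb W) := by
  have w := NSBridge_966.wt_ca_cb h (h.trans_le hW)
  exact ⟨h, hW, NSBridge_966.contDiff_ca u0, NSBridge_966.contDiff_cb W, w.α0, w.α1, w.αn, w.αl,
    w.β0, w.β1, w.βn, w.βl⟩

theorem exit3 {D : SD 4} (hD : DOk D) (b : Bool) (v : Fin 3) : Exit3 b D v := by
  obtain ⟨u1, h1, W1, hW1, H⟩ := ArmExitF_502.exit3 hD.hlo hD.hM3 hD.hs3 v
  refine ⟨u1, h1, max W1 u1, fun u0 W hu0 hu hW => ?_⟩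
  obtain ⟨A, hA, hT⟩ := H u0 W (ca u0) (cb W) hu ((le_max_left _ _).trans hW)
    (co hu0 (hu.trans ((le_max_right _ _).trans hW))) b
  rw [he_eq] at hA
  exact ⟨A, hA, hT⟩

theorem mtch (b : Bool) (v : Fin 3) : Match (sn b v).S (DL b) v where
  n := n_eq b v
  sg := fun i hi => sg_eq b v i hi
  kill := fun i l hi hl => by
    rw [kill_box b v i l hi hl]
    unfold Kl
    refine exists_congr fun e => ?_
    tauto

theorem dok (b : Bool) : DOk (DL b) := by
  cases b
  · exact ⟨BoxLit_896.lo_gL, rfl, fun l => rfl⟩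
  · exact ⟨BoxLit_896.lo_fL, rfl, fun l => rfl⟩

theorem exitP (b : Bool) (v : Fin 3) : NAsm_407.ExitP b (DL b) v :=
  exitP_of (dok b) (mtch b v) (exit3 (dok b) b v)

/-- **the literal S0406.** -/
theorem lit : NdZ_484.Lit :=
  HubTop4_808.lit_last (exitP true) (exitP false) HubG_222.path1 HubG_222.path2

end Crest.Agent.R267.HubTop5_808
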