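import Crest.Agent.R267.Top406L_808
import Crest.Agent.R267.NdY_484
import Crest.Agent.R267.Cert_330

/-!
# Row 267 (helper808): S0406, top

* `hubProp_of_aeq`: `HubProp` from chains of arm homotopies (`NdY_484.AEq`, one arm at a time)
  followed by a `ZEq` of the amalgam with an admissible polar function;
* `lit_fin`: S0406 from T3aN, GLUE-N and `HubProp` (certificate inserted).
-/

set_option autoImplicit false

namespace Crest.Agent.R267.HubTop_808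

open Set
open Crest.Agent.R267.Hm_951 Crest.Agent.R267.NdR_484 Crest.Agent.R267.NdY_484
open Crest.Agent.R267.T3aNDefs_88 Crest.Agent.R267.GlNDefs_9
open Crest.Agent.R267.Asm406_808 Crest.Agent.R267.SFLDc_330 Crest.Agent.R267.SFLD_330

/-- the official arms are arms. -/
theorem arm_Ab (b : Bool) : ∃ r1 : ℝ, 0 < r1 ∧ ∃ W0 : ℝ, 1 ≤ W0 ∧ ∀ W ≥ W0, ∀ r, 0 < r → r ≤ r1 →
    ∀ v, Arm b v (Ab b W r v) := by
  obtain ⟨r1, hr1, W0, hW0, H⟩ := NdZ_484.arms_arm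
  refine ⟨r1, hr1, W0, hW0, fun W hW r hr hrr => ?_⟩
  obtain ⟨h1, h2⟩ := H W hW r hr hrr
  cases b
  · exact h2
  · exact h1

/-- **the function level after chains of homotopies of the arms.** -/
theorem hubProp_of_aeq {b : Bool} {D : SD 4}
    (h : ∃ r1 : ℝ, 0 < r1 ∧ ∀ r, 0 < r → r ≤ r1 → ∃ W1 : ℝ, ∀ W, W1 ≤ W →
      ∃ A : Fin 3 → ℂ × ℂ → ℂ, (∀ v, AEq b v (Ab b W r v) (A v)) ∧
        ((∀ v, Arm b v (A v)) → ∀ M0 : ℝ, ∃ M ≥ M0, ∃ X : PD D, X.Ok ∧ ZEq (am b M A) X.fn)) :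
    HubProp b D := by
  obtain ⟨r1, hr1, h⟩ := h
  obtain ⟨r2, hr2, W0, hW0, H⟩ := arm_Ab b
  refine ⟨min r1 r2, lt_min hr1 hr2, fun r hr hrr => ?_⟩
  obtain ⟨W1, h⟩ := h r hr (hrr.trans (min_le_left _ _))
  refine ⟨max W0 W1, fun W hW M0 => ?_⟩
  obtain ⟨A, hA, h⟩ := h W ((le_max_right _ _).trans hW)
  obtain ⟨h1, m, _, hm⟩ := zeq_of_aeq
    (H W ((le_max_left _ _).trans hW) r hr (hrr.trans (min_le_right _ _))) hA
  obtain ⟨M, hM, X, hX, hZ⟩ := h h1 (max M0 m)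
  exact ⟨M, (le_max_left _ _).trans hM, X, hX, (hm M ((le_max_right _ _).trans hM)).trans hZ⟩

/-- **S0406** from T3aN, GLUE-N and the function level (certificate inserted). -/
theorem lit_fin (hT : T3aNP (n := 1) DfL) (hT' : T3aNP (n := 1) DgL) (hG : GluP DfL)
    (hG' : GluP DgL) (hF : HubProp true DfL) (hH : HubProp false DgL) : NdZ_484.Lit :=
  Top406L_808.lit_L Cert_330.cert hT hT' hG hG' hF hH

end Crest.Agent.R267.HubTop_808
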