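import Mathlib

set_option autoImplicit false

/-!
# Lipschitz isotopy extension (row 267, node ISOEXT)

* `flow_homeo`: the time-one map of a bounded, uniformly Lipschitz time dependent vector field.
* `isoExt`: ambient homeomorphism carrying `e 0` to `e 1` for a Lipschitz family of embeddings of a
  compact metric space in a finite dimensional inner product space.
* `isoExtSphere`: the same on the unit sphere.
-/

namespace Crest.Agent.R267.IsoExt_806

open Set Function Metric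
open scoped NNReal Topology

section Flow

variable {E : Type*} [NormedAddCommGroup E] [NormedSpace ℝ E]

/-- `γ` is an integral curve of `v` on `[0,1]`. -/
def IsCurve (v : ℝ → E → E) (γ : ℝ → E) : Prop :=
  ∀ t ∈ Icc (0:ℝ) 1, HasDerivWithinAt γ (v t (γ t)) (Icc 0 1) t

lemma IsCurve.continuousOn {v : ℝ → E → E} {γ : ℝ → E} (h : IsCurve v γ) :
    ContinuousOn γ (Icc 0 1) := fun t ht => (h t ht).continuousWithinAt

lemma IsCurve.right {v : ℝ → E → E} {γ : ℝ → E} (h : IsCurve v γ) :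
    ∀ t ∈ Ico (0:ℝ) 1, HasDerivWithinAt γ (v t (γ t)) (Ici t) t := by
  intro t ht
  have h1 := h t ⟨ht.1, ht.2.le⟩
  refine h1.mono_of_mem_nhdsWithin ?_
  exact Filter.mem_of_superset (Icc_mem_nhdsGE ht.2) (Icc_subset_Icc_left ht.1)

lemma IsCurve.reverse {v : ℝ → E → E} {γ : ℝ → E} (h : IsCurve v γ) :
    IsCurve (fun t x => - v (1 - t) x) (fun t => γ (1 - t)) := by
  intro t ht
  have ht' : (1 - t) ∈ Icc (0:ℝ) 1 := ⟨by linarith [ht.2], by linarith [ht.1]⟩
  have h1 := h (1 - t) ht'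
  have h2 : HasDerivWithinAt (fun s : ℝ => 1 - s) (-1) (Icc (0:ℝ) 1) t := by
    simpa using ((hasDerivAt_id t).const_sub 1).hasDerivWithinAt
  have h3 : MapsTo (fun s : ℝ => 1 - s) (Icc (0:ℝ) 1) (Icc (0:ℝ) 1) := by
    intro s hs
    exact ⟨by linarith [hs.2], by linarith [hs.1]⟩
  have h4 := HasDerivWithinAt.scomp t h1 h2 h3
  simpa [Function.comp_def] using h4

variable [CompleteSpace E]

lemma exists_curve {v : ℝ → E → E} {K : ℝ≥0} {C : ℝ≥0}
    (hl : ∀ t, LipschitzWith K (v t)) (hc : ∀ x, Continuous fun t => v t x)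
    (hb : ∀ t x, ‖v t x‖ ≤ C) (x : E) : ∃ γ : ℝ → E, γ 0 = x ∧ IsCurve v γ := by
  have h0 : (0:ℝ) ∈ Icc (0:ℝ) 1 := ⟨le_rfl, zero_le_one⟩
  have hP : IsPicardLindelof v (tmin := 0) (tmax := 1) ⟨0, h0⟩ x C 0 C K := by
    refine ⟨fun t _ => (hl t).lipschitzOnWith, fun y _ => (hc y).continuousOn,
      fun t _ y _ => hb t y, ?_⟩
    simp
  obtain ⟨α, h1, h2⟩ := hP.exists_eq_forall_mem_Icc_hasDerivWithinAt₀
  exact ⟨α, h1, h2⟩

omit [CompleteSpace E] in
lemma dist_curve {v : ℝ → E → E} {K : ℝ≥0} (hl : ∀ t, LipschitzWith K (v t)) {γ γ' : ℝ → E}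
    (h : IsCurve v γ) (h' : IsCurve v γ') :
    dist (γ 1) (γ' 1) ≤ dist (γ 0) (γ' 0) * Real.exp K := by
  have := dist_le_of_trajectories_ODE hl h.continuousOn h.right h'.continuousOn h'.right le_rfl 1
    ⟨zero_le_one, le_rfl⟩
  simpa using this

/-- forward map -/
lemma flow_map {v : ℝ → E → E} {K : ℝ≥0} {C : ℝ≥0}
    (hl : ∀ t, LipschitzWith K (v t)) (hc : ∀ x, Continuous fun t => v t x)
    (hb : ∀ t x, ‖v t x‖ ≤ C) :
    ∃ Φ : E → E, Continuous Φ ∧ (∀ x, ∃ γ, IsCurve v γ ∧ γ 0 = x ∧ γ 1 = Φ x) ∧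
      ∀ γ, IsCurve v γ → Φ (γ 0) = γ 1 := by
  choose α h0 h1 using exists_curve hl hc hb
  refine ⟨fun x => α x 1, ?_, fun x => ⟨α x, h1 x, h0 x, rfl⟩, ?_⟩
  · have : LipschitzWith (Real.toNNReal (Real.exp K)) (fun x => α x 1) := by
      refine LipschitzWith.of_dist_le_mul fun x y => ?_
      have := dist_curve hl (h1 x) (h1 y)
      rw [h0, h0] at this
      rw [Real.coe_toNNReal _ (Real.exp_pos _).le, mul_comm]
      exact this
    exact this.continuous
  · intro γ hγ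
    have := dist_curve hl (h1 (γ 0)) hγ
    rw [h0, dist_self, zero_mul] at this
    exact dist_le_zero.1 this

/-- The time one map of a bounded Lipschitz time dependent vector field is a homeomorphism. -/
theorem flow_homeo {v : ℝ → E → E} {K : ℝ≥0} {C : ℝ≥0}
    (hl : ∀ t, LipschitzWith K (v t)) (hc : ∀ x, Continuous fun t => v t x)
    (hb : ∀ t x, ‖v t x‖ ≤ C) :
    ∃ Φ : E ≃ₜ E, (∀ x, ∃ γ, IsCurve v γ ∧ γ 0 = x ∧ γ 1 = Φ x) ∧
      ∀ γ, IsCurve v γ → Φ (γ 0) = γ 1 := by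
  obtain ⟨Φ, c1, e1, u1⟩ := flow_map hl hc hb
  have hl' : ∀ t, LipschitzWith K ((fun t x => - v (1 - t) x) t) := fun t => (hl (1 - t)).neg
  have hc' : ∀ x, Continuous fun t => (fun t x => - v (1 - t) x) t x := fun x =>
    ((hc x).comp (by fun_prop : Continuous fun t : ℝ => 1 - t)).neg
  have hb' : ∀ t x, ‖(fun t x => - v (1 - t) x) t x‖ ≤ C := by
    intro t x
    simpa using hb (1 - t) x
  obtain ⟨Ψ, c2, e2, u2⟩ := flow_map hl' hc' hb'
  have hΨΦ : ∀ x, Ψ (Φ x) = x := by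
    intro x
    obtain ⟨γ, hγ, h0, h1⟩ := e1 x
    have := u2 _ hγ.reverse
    simp only [sub_zero, sub_self] at this
    rw [← h1, this, h0]
  have hΦΨ : ∀ x, Φ (Ψ x) = x := by
    intro x
    obtain ⟨γ, hγ, h0, h1⟩ := e2 x
    have hr := hγ.reverse
    have hr' : IsCurve v (fun t => γ (1 - t)) := by
      intro t ht
      have := hr t ht
      simpa using this
    have := u1 _ hr'
    simp only [sub_zero, sub_self] at this
    rw [← h1, this, h0]
  exact ⟨⟨⟨Φ, Ψ, hΨΦ, hΦΨ⟩, c1, c2⟩, e1, u1⟩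

end Flow

section Extend

variable {E : Type*} [NormedAddCommGroup E]
variable {M : Type*} [MetricSpace M] [CompactSpace M] [Nonempty M]

/-- McShane extension of a real function on the track, jointly continuous in time. -/
lemma mcshane (e : ℝ → M → E) (g : ℝ → M → ℝ) (he : Continuous (uncurry e))
    (hg : Continuous (uncurry g)) {c K : ℝ} (hc0 : 0 < c) (hK : 0 ≤ K)
    (hc : ∀ t x y, c * dist x y ≤ dist (e t x) (e t y))
    (hgL : ∀ t x y, |g t x - g t y| ≤ K * dist x y) :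
    ∃ G : ℝ → E → ℝ, Continuous (uncurry G) ∧ (∀ t p q, |G t p - G t q| ≤ (K / c) * dist p q) ∧
      ∀ t x, G t (e t x) = g t x := by
  set K' : ℝ := K / c with hK'
  have hK'0 : 0 ≤ K' := div_nonneg hK hc0.le
  have hKc : K' * c = K := by rw [hK']; field_simp
  -- the function
  let H : (ℝ × E) → M → ℝ := fun z x => g z.1 x + K' * dist z.2 (e z.1 x)
  have hH : Continuous (uncurry H) := by
    have h1 : Continuous fun w : (ℝ × E) × M => g w.1.1 w.2 :=
      hg.comp (by fun_prop : Continuous fun w : (ℝ × E) × M => (w.1.1, w.2))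
    have h2 : Continuous fun w : (ℝ × E) × M => e w.1.1 w.2 :=
      he.comp (by fun_prop : Continuous fun w : (ℝ × E) × M => (w.1.1, w.2))
    exact h1.add (continuous_const.mul ((by fun_prop : Continuous fun w : (ℝ × E) × M => w.1.2).dist h2))
  have hcont : Continuous fun z => sInf (H z '' (univ : Set M)) :=
    isCompact_univ.continuous_sInf hH
  have hbdd : ∀ z, BddBelow (H z '' (univ : Set M)) := fun z =>
    (isCompact_univ.image (hH.comp (by fun_prop : Continuous fun x : M => (z, x)))).bddBelow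
  have hne : ∀ z, (H z '' (univ : Set M)).Nonempty := fun z => (univ_nonempty).image _
  refine ⟨fun t p => sInf (H (t, p) '' univ), hcont, ?_, ?_⟩
  · have key : ∀ t p q, sInf (H (t, p) '' univ) ≤ sInf (H (t, q) '' univ) + K' * dist p q := by
      intro t p q
      rw [← sub_le_iff_le_add]
      refine le_csInf (hne _) ?_
      rintro _ ⟨x, -, rfl⟩
      have h1 : sInf (H (t, p) '' univ) ≤ H (t, p) x := csInf_le (hbdd _) ⟨x, mem_univ _, rfl⟩
      have h2 : H (t, p) x ≤ H (t, q) x + K' * dist p q := by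
        simp only [H]
        have := dist_triangle p q (e t x)
        nlinarith
      linarith
    intro t p q
    rw [abs_le]
    constructor
    · have := key t q p
      rw [dist_comm q p] at this
      linarith
    · have := key t p q
      linarith
  · intro t x
    apply le_antisymm
    · have : H (t, e t x) x = g t x := by simp [H]
      rw [← this]
      exact csInf_le (hbdd _) ⟨x, mem_univ _, rfl⟩
    · refine le_csInf (hne _) ?_
      rintro _ ⟨y, -, rfl⟩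
      simp only [H]
      have h1 := hgL t x y
      have h2 := hc t x y
      have h3 : g t x - g t y ≤ K * dist x y := (abs_le.1 h1).2
      have h4 : K * dist x y ≤ K' * dist (e t x) (e t y) := by
        rw [← hKc, mul_assoc]
        exact mul_le_mul_of_nonneg_left h2 hK'0
      linarith

variable [InnerProductSpace ℝ E] [FiniteDimensional ℝ E]

/-- clipping -/
noncomputable def clip (B s : ℝ) : ℝ := max (-B) (min B s)

lemma clip_of_abs_le {B s : ℝ} (h : |s| ≤ B) : clip B s = s := by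
  rw [abs_le] at h
  unfold clip
  rw [min_eq_right h.2, max_eq_right h.1]

lemma abs_clip_le {B : ℝ} (hB : 0 ≤ B) (s : ℝ) : |clip B s| ≤ B := by
  unfold clip
  rw [abs_le]
  constructor
  · exact le_max_left _ _
  · exact max_le (by linarith) (min_le_left _ _)

lemma abs_clip_sub_clip (B s s' : ℝ) : |clip B s - clip B s'| ≤ |s - s'| := by
  unfold clip
  have h1 : |max (-B) (min B s) - max (-B) (min B s')| ≤ |min B s - min B s'| := by
    rw [max_comm (-B), max_comm (-B)]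
    exact abs_max_sub_max_le_abs _ _ _
  refine h1.trans ?_
  have := abs_min_sub_min_le_max B s B s'
  simpa using this

/-- Extension of a vector valued function on the track: bounded, jointly continuous, uniformly
Lipschitz. -/
lemma vecExt (e : ℝ → M → E) (g : ℝ → M → E) (he : Continuous (uncurry e))
    (hg : Continuous (uncurry g)) {c K B : ℝ} (hc0 : 0 < c) (hK : 0 ≤ K) (hB0 : 0 ≤ B)
    (hc : ∀ t x y, c * dist x y ≤ dist (e t x) (e t y))
    (hgL : ∀ t x y, ‖g t x - g t y‖ ≤ K * dist x y) (hB : ∀ t x, ‖g t x‖ ≤ B) :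
    ∃ (X : ℝ → E → E) (L B' : ℝ), 0 ≤ L ∧ 0 ≤ B' ∧ Continuous (uncurry X) ∧
      (∀ t p q, ‖X t p - X t q‖ ≤ L * dist p q) ∧ (∀ t p, ‖X t p‖ ≤ B') ∧
      ∀ t x, X t (e t x) = g t x := by
  classical
  set b := stdOrthonormalBasis ℝ E
  have hgi : ∀ i, ∃ G : ℝ → E → ℝ, Continuous (uncurry G) ∧
      (∀ t p q, |G t p - G t q| ≤ (K / c) * dist p q) ∧
      ∀ t x, G t (e t x) = inner ℝ (b i) (g t x) := by
    intro i
    refine mcshane e (fun t x => inner ℝ (b i) (g t x)) he ?_ hc0 hK hc ?_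
    · exact continuous_const.inner hg
    · intro t x y
      rw [← inner_sub_right]
      refine (abs_real_inner_le_norm _ _).trans ?_
      rw [b.orthonormal.1 i, one_mul]
      exact hgL t x y
  choose G hG1 hG2 hG3 using hgi
  set n : ℝ := (Fintype.card (Fin (Module.finrank ℝ E)) : ℝ)
  have hn : 0 ≤ n := Nat.cast_nonneg _
  have hKc : 0 ≤ K / c := div_nonneg hK hc0.le
  refine ⟨fun t p => ∑ i, clip B (G i t p) • b i, n * (K / c), n * B, by positivity, by positivity,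
    ?_, ?_, ?_, ?_⟩
  · have : Continuous fun z : ℝ × E => ∑ i, clip B (G i z.1 z.2) • b i := by
      refine continuous_finsetSum _ fun i _ => ?_
      refine Continuous.smul ?_ continuous_const
      unfold clip
      exact continuous_const.max (continuous_const.min (hG1 i))
    exact this
  · intro t p q
    rw [← Finset.sum_sub_distrib]
    refine (norm_sum_le _ _).trans ?_
    have : ∀ i ∈ (Finset.univ : Finset (Fin (Module.finrank ℝ E))),
        ‖clip B (G i t p) • b i - clip B (G i t q) • b i‖ ≤ (K / c) * dist p q := by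
      intro i _
      rw [← sub_smul, norm_smul, b.orthonormal.1 i, mul_one, Real.norm_eq_abs]
      exact (abs_clip_sub_clip _ _ _).trans (hG2 i t p q)
    refine (Finset.sum_le_card_nsmul _ _ _ this).trans ?_
    rw [nsmul_eq_mul, Finset.card_univ, mul_assoc]
  · intro t p
    refine (norm_sum_le _ _).trans ?_
    have : ∀ i ∈ (Finset.univ : Finset (Fin (Module.finrank ℝ E))),
        ‖clip B (G i t p) • b i‖ ≤ B := by
      intro i _
      rw [norm_smul, b.orthonormal.1 i, mul_one, Real.norm_eq_abs]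
      exact abs_clip_le hB0 _
    refine (Finset.sum_le_card_nsmul _ _ _ this).trans ?_
    rw [nsmul_eq_mul, Finset.card_univ]
  · intro t x
    have : ∀ i, clip B (G i t (e t x)) = inner ℝ (b i) (g t x) := by
      intro i
      rw [hG3 i t x]
      apply clip_of_abs_le
      refine (abs_real_inner_le_norm _ _).trans ?_
      rw [b.orthonormal.1 i, one_mul]
      exact hB t x
    simp only [this]
    exact b.sum_repr' (g t x)

end Extend

section Main

variable {E : Type*} [NormedAddCommGroup E] [InnerProductSpace ℝ E] [FiniteDimensional ℝ E]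
variable {M : Type*} [MetricSpace M] [CompactSpace M]

omit [FiniteDimensional ℝ E] in
/-- product of a bounded Lipschitz function and a bounded Lipschitz vector field -/
lemma lip_smul {f : E → ℝ} {X : E → E} {a L B : ℝ}
    (hf : ∀ p q, |f p - f q| ≤ a * dist p q) (hf1 : ∀ p, |f p| ≤ 1)
    (hX : ∀ p q, ‖X p - X q‖ ≤ L * dist p q) (hB : ∀ p, ‖X p‖ ≤ B) (ha : 0 ≤ a) (p q : E) :
    ‖f p • X p - f q • X q‖ ≤ (a * B + L) * dist p q := by
  have h : f p • X p - f q • X q = (f p - f q) • X p + f q • (X p - X q) := by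
    rw [sub_smul, smul_sub]; abel
  rw [h]
  refine (norm_add_le _ _).trans ?_
  rw [norm_smul, norm_smul, Real.norm_eq_abs, Real.norm_eq_abs]
  have h1 : |f p - f q| * ‖X p‖ ≤ (a * dist p q) * B :=
    mul_le_mul (hf p q) (hB p) (norm_nonneg _) (by positivity)
  have h2 : |f q| * ‖X p - X q‖ ≤ 1 * (L * dist p q) :=
    mul_le_mul (hf1 q) (hX p q) (norm_nonneg _) zero_le_one
  nlinarith

/-- The vector field used in the isotopy extension theorem. -/
lemma exists_field [Nonempty M] (e e' : ℝ → M → E) {c K : ℝ} (hc0 : 0 < c) (hK : 0 ≤ K)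
    (he : ContinuousOn (uncurry e) (Icc (0:ℝ) 1 ×ˢ univ))
    (he' : ContinuousOn (uncurry e') (Icc (0:ℝ) 1 ×ˢ univ))
    (hc : ∀ t ∈ Icc (0:ℝ) 1, ∀ x y, c * dist x y ≤ dist (e t x) (e t y))
    (hL : ∀ t ∈ Icc (0:ℝ) 1, ∀ x y, ‖e' t x - e' t y‖ ≤ K * dist x y) {δ : ℝ} (hδ : 0 < δ) :
    ∃ (v : ℝ → E → E) (L B : ℝ), 0 ≤ L ∧ 0 ≤ B ∧ (∀ t p q, ‖v t p - v t q‖ ≤ L * dist p q) ∧
      (∀ t p, ‖v t p‖ ≤ B) ∧ (∀ p, Continuous fun t => v t p) ∧
      (∀ t ∈ Icc (0:ℝ) 1, ∀ x, v t (e t x) = e' t x) ∧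
      ∀ p, (∀ t ∈ Icc (0:ℝ) 1, ∀ x, δ ≤ dist p (e t x)) → ∀ t, v t p = 0 := by
  set π : ℝ → ℝ := fun t => max 0 (min 1 t) with hπdef
  have hπc : Continuous π := by
    rw [hπdef]; fun_prop
  have hπm : ∀ t, π t ∈ Icc (0:ℝ) 1 := fun t =>
    ⟨le_max_left _ _, max_le zero_le_one (min_le_left _ _)⟩
  have hπ : ∀ t ∈ Icc (0:ℝ) 1, π t = t := by
    intro t ht
    simp only [hπdef]
    rw [min_eq_right ht.2, max_eq_right ht.1]
  have hE : Continuous (uncurry fun t x => e (π t) x) := by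
    have h1 : Continuous fun z : ℝ × M => (π z.1, z.2) := by fun_prop
    have h2 := he.comp_continuous h1 (fun z => ⟨hπm z.1, mem_univ _⟩)
    exact h2
  have hE' : Continuous (uncurry fun t x => e' (π t) x) := by
    have h1 : Continuous fun z : ℝ × M => (π z.1, z.2) := by fun_prop
    have h2 := he'.comp_continuous h1 (fun z => ⟨hπm z.1, mem_univ _⟩)
    exact h2
  -- bound for e'
  obtain ⟨B, hB⟩ : ∃ B : ℝ, ∀ t ∈ Icc (0:ℝ) 1, ∀ x, ‖e' t x‖ ≤ B := by
    have hcomp : IsCompact (Icc (0:ℝ) 1 ×ˢ (univ : Set M)) := isCompact_Icc.prod isCompact_univ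
    obtain ⟨B, hB⟩ := hcomp.exists_bound_of_continuousOn he'
    exact ⟨B, fun t ht x => hB (t, x) ⟨ht, mem_univ _⟩⟩
  have hB0 : 0 ≤ B := by
    obtain ⟨x⟩ := ‹Nonempty M›
    exact (norm_nonneg _).trans (hB 0 ⟨le_rfl, zero_le_one⟩ x)
  obtain ⟨X, L, B', hL0, hB'0, hXc, hXL, hXB, hXe⟩ := vecExt (fun t x => e (π t) x)
    (fun t x => e' (π t) x) hE hE' hc0 hK hB0 (fun t => hc _ (hπm t)) (fun t => hL _ (hπm t))
    (fun t => hB _ (hπm t))
  -- the track
  set T : Set E := (uncurry e) '' (Icc (0:ℝ) 1 ×ˢ (univ : Set M)) with hT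
  have hTne : T.Nonempty := by
    obtain ⟨x⟩ := ‹Nonempty M›
    exact ⟨e 0 x, (0, x), ⟨⟨le_rfl, zero_le_one⟩, mem_univ _⟩, rfl⟩
  set χ : E → ℝ := fun p => max 0 (1 - infDist p T / δ) with hχ
  have hχ1 : ∀ p, |χ p| ≤ 1 := by
    intro p
    rw [abs_of_nonneg (le_max_left _ _)]
    refine max_le zero_le_one ?_
    have : 0 ≤ infDist p T / δ := div_nonneg infDist_nonneg hδ.le
    linarith
  have hχL : ∀ p q, |χ p - χ q| ≤ (1 / δ) * dist p q := by
    intro p q
    simp only [hχ]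
    rw [max_comm 0, max_comm 0]
    refine (abs_max_sub_max_le_abs _ _ _).trans ?_
    have h1 : 1 - infDist p T / δ - (1 - infDist q T / δ) = (infDist q T - infDist p T) / δ := by
      ring
    rw [h1, abs_div, abs_of_pos hδ, one_div, div_eq_inv_mul]
    refine mul_le_mul_of_nonneg_left ?_ (inv_nonneg.2 hδ.le)
    have h2 := (lipschitz_infDist_pt T).dist_le_mul q p
    rw [Real.dist_eq, NNReal.coe_one, one_mul, dist_comm] at h2
    exact h2
  refine ⟨fun t p => χ p • X t p, 1 / δ * B' + L, B', by positivity, hB'0, ?_, ?_, ?_, ?_, ?_⟩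
  · intro t p q
    exact lip_smul hχL hχ1 (hXL t) (hXB t) (by positivity) p q
  · intro t p
    rw [norm_smul, Real.norm_eq_abs]
    calc |χ p| * ‖X t p‖ ≤ 1 * B' := mul_le_mul (hχ1 p) (hXB t p) (norm_nonneg _) zero_le_one
      _ = B' := one_mul _
  · intro p
    exact continuous_const.smul (hXc.comp (by fun_prop : Continuous fun t : ℝ => (t, p)))
  · intro t ht x
    have h1 : infDist (e t x) T = 0 := infDist_zero_of_mem ⟨(t, x), ⟨ht, mem_univ _⟩, rfl⟩
    have h2 : χ (e t x) = 1 := by simp [hχ, h1]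
    have h3 := hXe t x
    simp only [hπ t ht] at h3
    simp only [h2, one_smul]
    exact h3
  · intro p hp t
    have h1 : δ ≤ infDist p T := by
      rw [le_infDist hTne]
      rintro _ ⟨⟨s, x⟩, ⟨hs, -⟩, rfl⟩
      exact hp s hs x
    have h2 : χ p = 0 := by
      simp only [hχ]
      apply max_eq_left
      have : 1 ≤ infDist p T / δ := by rwa [one_le_div hδ]
      linarith
    simp [h2]

/-- **Lipschitz isotopy extension** in a finite dimensional inner product space. -/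
theorem isoExt (e e' : ℝ → M → E) {c K : ℝ} (hc0 : 0 < c) (hK : 0 ≤ K)
    (he : ContinuousOn (uncurry e) (Icc (0:ℝ) 1 ×ˢ univ))
    (he' : ContinuousOn (uncurry e') (Icc (0:ℝ) 1 ×ˢ univ))
    (hd : ∀ t ∈ Icc (0:ℝ) 1, ∀ x, HasDerivWithinAt (fun s => e s x) (e' t x) (Icc 0 1) t)
    (hc : ∀ t ∈ Icc (0:ℝ) 1, ∀ x y, c * dist x y ≤ dist (e t x) (e t y))
    (hL : ∀ t ∈ Icc (0:ℝ) 1, ∀ x y, ‖e' t x - e' t y‖ ≤ K * dist x y) {δ : ℝ} (hδ : 0 < δ) :
    ∃ Φ : E ≃ₜ E, (∀ x, Φ (e 0 x) = e 1 x) ∧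
      ∀ p, (∀ t ∈ Icc (0:ℝ) 1, ∀ x, δ ≤ dist p (e t x)) → Φ p = p := by
  rcases isEmpty_or_nonempty M with hM | hM
  · exact ⟨Homeomorph.refl E, fun x => (IsEmpty.false x).elim, fun p _ => rfl⟩
  obtain ⟨v, L, B, hL0, hB0, hvL, hvB, hvc, hve, hv0⟩ :=
    exists_field e e' hc0 hK he he' hc hL hδ
  obtain ⟨Φ, -, hΦ⟩ := flow_homeo (v := v) (K := ⟨L, hL0⟩) (C := ⟨B, hB0⟩)
    (fun t => LipschitzWith.of_dist_le_mul fun p q => by
      rw [dist_eq_norm]; exact hvL t p q) hvc hvB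
  refine ⟨Φ, fun x => ?_, fun p hp => ?_⟩
  · refine hΦ (fun t => e t x) fun t ht => ?_
    rw [hve t ht x]
    exact hd t ht x
  · refine hΦ (fun _ => p) fun t ht => ?_
    rw [hv0 p hp t]
    exact hasDerivWithinAt_const _ _ _

/-- Retraction on the closed unit ball. -/
noncomputable def ret (p : E) : E := (max 1 ‖p‖)⁻¹ • p

omit [FiniteDimensional ℝ E] in
lemma norm_ret_le (p : E) : ‖ret p‖ ≤ 1 := by
  unfold ret
  have h : 0 < max 1 ‖p‖ := lt_of_lt_of_le one_pos (le_max_left _ _)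
  rw [norm_smul, norm_inv, Real.norm_eq_abs, abs_of_pos h, inv_mul_le_iff₀ h, mul_one]
  exact le_max_right _ _

omit [FiniteDimensional ℝ E] in
lemma ret_lip (p q : E) : ‖ret p - ret q‖ ≤ 2 * dist p q := by
  unfold ret
  set a := max 1 ‖p‖
  set b := max 1 ‖q‖
  have ha : 1 ≤ a := le_max_left _ _
  have hb : 1 ≤ b := le_max_left _ _
  have ha0 : 0 < a := by linarith
  have hb0 : 0 < b := by linarith
  have hqb : ‖q‖ ≤ b := le_max_right _ _
  have h : a⁻¹ • p - b⁻¹ • q = a⁻¹ • (p - q) + (a⁻¹ - b⁻¹) • q := by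
    rw [smul_sub, sub_smul]; abel
  rw [h]
  refine (norm_add_le _ _).trans ?_
  rw [norm_smul, norm_smul, Real.norm_eq_abs, Real.norm_eq_abs, abs_of_pos (inv_pos.2 ha0),
    dist_eq_norm]
  have h1 : a⁻¹ * ‖p - q‖ ≤ ‖p - q‖ := by
    have : a⁻¹ ≤ 1 := inv_le_one_of_one_le₀ ha
    nlinarith [norm_nonneg (p - q)]
  have h2 : |a⁻¹ - b⁻¹| * ‖q‖ ≤ ‖p - q‖ := by
    have h3 : a⁻¹ - b⁻¹ = (b - a) / (a * b) := by field_simp
    rw [h3, abs_div, abs_of_pos (mul_pos ha0 hb0), div_mul_eq_mul_div, div_le_iff₀ (mul_pos ha0 hb0)]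
    have h4 : |b - a| ≤ ‖p - q‖ := by
      have h5 : |b - a| ≤ |‖q‖ - ‖p‖| := by
        simp only [a, b]
        rw [max_comm 1, max_comm 1]
        exact abs_max_sub_max_le_abs _ _ _
      refine h5.trans ?_
      rw [← norm_neg (p - q), neg_sub]
      exact abs_norm_sub_norm_le _ _
    calc |b - a| * ‖q‖ ≤ ‖p - q‖ * b := mul_le_mul h4 hqb (norm_nonneg _) (norm_nonneg _)
      _ ≤ ‖p - q‖ * (a * b) := by
        refine mul_le_mul_of_nonneg_left ?_ (norm_nonneg _)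
        nlinarith
  linarith

omit [FiniteDimensional ℝ E] in
/-- norm preservation -/
lemma norm_curve {v : ℝ → E → E} {B : ℝ}
    (hv : ∀ t ∈ Icc (0:ℝ) 1, ∀ x : E, |inner ℝ x (v t x)| ≤ B * |‖x‖ ^ 2 - 1|) {γ : ℝ → E}
    (h : IsCurve v γ) (h0 : ‖γ 0‖ = 1) : ‖γ 1‖ = 1 := by
  have hu : ∀ t ∈ Ico (0:ℝ) 1, HasDerivWithinAt (fun t => ‖γ t‖ ^ 2 - 1)
      (2 * inner ℝ (γ t) (v t (γ t))) (Ici t) t := by
    intro t ht
    have := (h.right t ht).norm_sq
    exact this.sub_const 1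
  have hc : ContinuousOn (fun t => ‖γ t‖ ^ 2 - 1) (Icc 0 1) :=
    ((h.continuousOn.norm).pow 2).sub continuousOn_const
  have := eq_zero_of_abs_deriv_le_mul_abs_self_of_eq_zero_right (K := 2 * B) hc hu (by simp [h0])
    (by
      intro t ht
      rw [Real.norm_eq_abs, Real.norm_eq_abs, abs_mul, abs_two, mul_assoc]
      exact mul_le_mul_of_nonneg_left (hv t ⟨ht.1, ht.2.le⟩ (γ t)) zero_le_two) 1
    ⟨zero_le_one, le_rfl⟩
  have h1 : ‖γ 1‖ ^ 2 = 1 := by linarith
  nlinarith [norm_nonneg (γ 1)]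

/-- **Lipschitz isotopy extension** on the unit sphere. -/
theorem isoExtSphere (e e' : ℝ → M → E) {c K : ℝ} (hc0 : 0 < c) (hK : 0 ≤ K)
    (he : ContinuousOn (uncurry e) (Icc (0:ℝ) 1 ×ˢ univ))
    (he' : ContinuousOn (uncurry e') (Icc (0:ℝ) 1 ×ˢ univ))
    (hd : ∀ t ∈ Icc (0:ℝ) 1, ∀ x, HasDerivWithinAt (fun s => e s x) (e' t x) (Icc 0 1) t)
    (hc : ∀ t ∈ Icc (0:ℝ) 1, ∀ x y, c * dist x y ≤ dist (e t x) (e t y))
    (hL : ∀ t ∈ Icc (0:ℝ) 1, ∀ x y, ‖e' t x - e' t y‖ ≤ K * dist x y)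
    (hS : ∀ t ∈ Icc (0:ℝ) 1, ∀ x, ‖e t x‖ = 1) {δ : ℝ} (hδ : 0 < δ) :
    ∃ Φ : E ≃ₜ E, (∀ p, ‖p‖ = 1 ↔ ‖Φ p‖ = 1) ∧ (∀ x, Φ (e 0 x) = e 1 x) ∧
      ∀ p, (∀ t ∈ Icc (0:ℝ) 1, ∀ x, δ ≤ dist p (e t x)) → Φ p = p := by
  rcases isEmpty_or_nonempty M with hM | hM
  · exact ⟨Homeomorph.refl E, fun p => Iff.rfl, fun x => (IsEmpty.false x).elim, fun p _ => rfl⟩
  obtain ⟨v, L, B, hL0, hB0, hvL, hvB, hvc, hve, hv0⟩ :=
    exists_field e e' hc0 hK he he' hc hL hδ
  set w : ℝ → E → E := fun t p => v t p - inner ℝ (v t p) (ret p) • ret p with hw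
  have hin : ∀ t p, |inner ℝ (v t p) (ret p)| ≤ B := by
    intro t p
    refine (abs_real_inner_le_norm _ _).trans ?_
    calc ‖v t p‖ * ‖ret p‖ ≤ B * 1 := mul_le_mul (hvB t p) (norm_ret_le p) (norm_nonneg _) hB0
      _ = B := mul_one B
  have hwB : ∀ t p, ‖w t p‖ ≤ 2 * B := by
    intro t p
    refine (norm_sub_le _ _).trans ?_
    rw [norm_smul, Real.norm_eq_abs]
    have h1 := hvB t p
    have h2 : |inner ℝ (v t p) (ret p)| * ‖ret p‖ ≤ B * 1 :=
      mul_le_mul (hin t p) (norm_ret_le p) (norm_nonneg _) hB0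
    linarith
  have hwL : ∀ t p q, ‖w t p - w t q‖ ≤ (2 * L + 4 * B) * dist p q := by
    intro t p q
    have e1 : w t p - w t q = (v t p - v t q) - (inner ℝ (v t p - v t q) (ret p) • ret p +
        inner ℝ (v t q) (ret p - ret q) • ret p + inner ℝ (v t q) (ret q) • (ret p - ret q)) := by
      simp only [hw, inner_sub_left, inner_sub_right, sub_smul, smul_sub]
      abel
    rw [e1]
    have b1 := hvL t p q
    have b2 : ‖inner ℝ (v t p - v t q) (ret p) • ret p‖ ≤ L * dist p q := by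
      rw [norm_smul, Real.norm_eq_abs]
      have h1 : |inner ℝ (v t p - v t q) (ret p)| ≤ L * dist p q := by
        refine (abs_real_inner_le_norm _ _).trans ?_
        calc ‖v t p - v t q‖ * ‖ret p‖ ≤ (L * dist p q) * 1 :=
              mul_le_mul b1 (norm_ret_le p) (norm_nonneg _) (by positivity)
          _ = L * dist p q := mul_one _
      calc |inner ℝ (v t p - v t q) (ret p)| * ‖ret p‖ ≤ (L * dist p q) * 1 :=
              mul_le_mul h1 (norm_ret_le p) (norm_nonneg _) (by positivity)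
          _ = L * dist p q := mul_one _
    have b3 : ‖inner ℝ (v t q) (ret p - ret q) • ret p‖ ≤ B * (2 * dist p q) := by
      rw [norm_smul, Real.norm_eq_abs]
      have h1 : |inner ℝ (v t q) (ret p - ret q)| ≤ B * (2 * dist p q) := by
        refine (abs_real_inner_le_norm _ _).trans ?_
        exact mul_le_mul (hvB t q) (ret_lip p q) (norm_nonneg _) hB0
      calc |inner ℝ (v t q) (ret p - ret q)| * ‖ret p‖ ≤ (B * (2 * dist p q)) * 1 :=
              mul_le_mul h1 (norm_ret_le p) (norm_nonneg _) (by positivity)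
          _ = B * (2 * dist p q) := mul_one _
    have b4 : ‖inner ℝ (v t q) (ret q) • (ret p - ret q)‖ ≤ B * (2 * dist p q) := by
      rw [norm_smul, Real.norm_eq_abs]
      exact mul_le_mul (hin t q) (ret_lip p q) (norm_nonneg _) hB0
    refine (norm_sub_le _ _).trans ?_
    have b5 := norm_add₃_le (a := inner ℝ (v t p - v t q) (ret p) • ret p)
      (b := inner ℝ (v t q) (ret p - ret q) • ret p) (c := inner ℝ (v t q) (ret q) • (ret p - ret q))
    nlinarith
  have hwc : ∀ p, Continuous fun t => w t p := by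
    intro p
    have := hvc p
    exact this.sub ((this.inner continuous_const).smul continuous_const)
  have hwin : ∀ t, ∀ x : E, |inner ℝ x (w t x)| ≤ B * |‖x‖ ^ 2 - 1| := by
    intro t x
    simp only [hw, inner_sub_right, inner_smul_right]
    rcases le_total 1 ‖x‖ with h1 | h1
    · have hr : ret x = ‖x‖⁻¹ • x := by simp [ret, max_eq_right h1]
      have hx0 : ‖x‖ ≠ 0 := by linarith
      have : inner ℝ x (v t x) - inner ℝ (v t x) (ret x) * inner ℝ x (ret x) = 0 := by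
        rw [hr, inner_smul_right, inner_smul_right, real_inner_self_eq_norm_sq,
          real_inner_comm x (v t x)]
        field_simp
        ring
      rw [this, abs_zero]
      positivity
    · have hr : ret x = x := by simp [ret, max_eq_left h1]
      have : inner ℝ x (v t x) - inner ℝ (v t x) (ret x) * inner ℝ x (ret x) =
          inner ℝ x (v t x) * (1 - ‖x‖ ^ 2) := by
        rw [hr, real_inner_self_eq_norm_sq, real_inner_comm x (v t x)]
        ring
      rw [this, abs_mul, abs_sub_comm 1]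
      refine mul_le_mul_of_nonneg_right ?_ (abs_nonneg _)
      refine (abs_real_inner_le_norm _ _).trans ?_
      calc ‖x‖ * ‖v t x‖ ≤ 1 * B := mul_le_mul h1 (hvB t x) (norm_nonneg _) zero_le_one
        _ = B := one_mul B
  have hK1 : 0 ≤ 2 * L + 4 * B := by positivity
  have hK2 : 0 ≤ 2 * B := by positivity
  obtain ⟨Φ, hΦe, hΦ⟩ := flow_homeo (v := w) (K := ⟨2 * L + 4 * B, hK1⟩) (C := ⟨2 * B, hK2⟩)
    (fun t => LipschitzWith.of_dist_le_mul fun p q => by
      rw [dist_eq_norm]; exact hwL t p q) hwc hwB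
  refine ⟨Φ, fun p => ?_, fun x => ?_, fun p hp => ?_⟩
  · obtain ⟨γ, hγ, h0, h1⟩ := hΦe p
    rw [← h0, ← h1.trans (congrArg Φ h0.symm)]
    constructor
    · exact norm_curve (fun t _ x => hwin t x) hγ
    · intro h
      have hr := hγ.reverse
      have := norm_curve (B := B) (v := fun t x => - w (1 - t) x) (fun t _ x => by
        simpa [inner_neg_right] using hwin (1 - t) x) hr (by simpa using h)
      simpa using this
  · refine hΦ (fun t => e t x) fun t ht => ?_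
    have h1 : w t (e t x) = e' t x := by
      have hr : ret (e t x) = e t x := by simp [ret, hS t ht x]
      have horth : inner ℝ (e' t x) (e t x) = 0 := by
        have h2 := (hd t ht x).norm_sq
        have h3 : HasDerivWithinAt (fun s => ‖e s x‖ ^ 2) 0 (Icc 0 1) t := by
          refine (hasDerivWithinAt_const t (Icc (0:ℝ) 1) (1:ℝ)).congr ?_ ?_
          · intro s hs
            simp [hS s hs x]
          · simp [hS t ht x]
        have h4 : UniqueDiffWithinAt ℝ (Icc (0:ℝ) 1) t := uniqueDiffOn_Icc zero_lt_one t ht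
        have h5 := h4.eq_deriv _ h2 h3
        rw [real_inner_comm]
        linarith
      simp only [hw, hve t ht x, hr, horth, zero_smul, sub_zero]
    rw [h1]
    exact hd t ht x
  · refine hΦ (fun _ => p) fun t ht => ?_
    have : w t p = 0 := by simp [hw, hv0 p hp t]
    rw [this]
    exact hasDerivWithinAt_const _ _ _

end Main

section LocalGlobal

variable {E : Type*} [NormedAddCommGroup E] {M : Type*} [MetricSpace M] [CompactSpace M]

/-- Local bi-Lipschitz bounds + injectivity give a global bound. -/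
theorem exists_lower (e : ℝ → M → E) (he : ContinuousOn (uncurry e) (Icc (0:ℝ) 1 ×ˢ univ))
    (hinj : ∀ t ∈ Icc (0:ℝ) 1, Injective (e t))
    (hloc : ∀ t ∈ Icc (0:ℝ) 1, ∀ x : M, ∃ c > 0, ∀ᶠ z : ℝ × (M × M) in
      𝓝[Icc (0:ℝ) 1 ×ˢ univ] (t, (x, x)), c * dist z.2.1 z.2.2 ≤ dist (e z.1 z.2.1) (e z.1 z.2.2)) :
    ∃ c > 0, ∀ t ∈ Icc (0:ℝ) 1, ∀ x y, c * dist x y ≤ dist (e t x) (e t y) := by
  have hcomp : IsCompact (Icc (0:ℝ) 1 ×ˢ (univ : Set (M × M))) :=
    isCompact_Icc.prod isCompact_univ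
  have key : ∃ c > 0, ∀ z ∈ Icc (0:ℝ) 1 ×ˢ (univ : Set (M × M)),
      c * dist z.2.1 z.2.2 ≤ dist (e z.1 z.2.1) (e z.1 z.2.2) := by
    refine hcomp.induction_on (p := fun S => ∃ c > 0, ∀ z ∈ S,
      c * dist z.2.1 z.2.2 ≤ dist (e z.1 z.2.1) (e z.1 z.2.2)) ⟨1, one_pos, by simp⟩ ?_ ?_ ?_
    · rintro S T hST ⟨c, hc, h⟩
      exact ⟨c, hc, fun z hz => h z (hST hz)⟩
    · rintro S T ⟨c, hc, h⟩ ⟨d, hd, h'⟩
      refine ⟨min c d, lt_min hc hd, ?_⟩
      rintro z (hz | hz)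
      · exact (mul_le_mul_of_nonneg_right (min_le_left _ _) dist_nonneg).trans (h z hz)
      · exact (mul_le_mul_of_nonneg_right (min_le_right _ _) dist_nonneg).trans (h' z hz)
    · rintro ⟨t, x, y⟩ ⟨ht, -⟩
      by_cases hxy : x = y
      · subst hxy
        obtain ⟨c, hc, h⟩ := hloc t ht x
        exact ⟨_, h, c, hc, fun z hz => hz⟩
      · -- off the diagonal
        have h1 : ContinuousOn (fun z : ℝ × (M × M) => dist (e z.1 z.2.1) (e z.1 z.2.2))
            (Icc (0:ℝ) 1 ×ˢ univ) := by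
          have a1 : ContinuousOn (fun z : ℝ × (M × M) => e z.1 z.2.1) (Icc (0:ℝ) 1 ×ˢ univ) :=
            he.comp (by fun_prop : Continuous fun z : ℝ × (M × M) => (z.1, z.2.1)).continuousOn
              (fun z hz => ⟨hz.1, mem_univ _⟩)
          have a2 : ContinuousOn (fun z : ℝ × (M × M) => e z.1 z.2.2) (Icc (0:ℝ) 1 ×ˢ univ) :=
            he.comp (by fun_prop : Continuous fun z : ℝ × (M × M) => (z.1, z.2.2)).continuousOn
              (fun z hz => ⟨hz.1, mem_univ _⟩)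
          exact fun z hz => Filter.Tendsto.dist (a1 z hz) (a2 z hz)
        have h2 : 0 < dist (e t x) (e t y) := dist_pos.2 fun h => hxy (hinj t ht h)
        set r := dist (e t x) (e t y)
        have h3 : ∀ᶠ z in 𝓝[Icc (0:ℝ) 1 ×ˢ univ] ((t, (x, y)) : ℝ × (M × M)),
            r / 2 < dist (e z.1 z.2.1) (e z.1 z.2.2) :=
          (h1 (t, (x, y)) ⟨ht, mem_univ _⟩).eventually_const_lt (by
            simp only [r] at h2 ⊢; linarith)
        set D := Metric.diam (univ : Set M)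
        have hD : 0 ≤ D := Metric.diam_nonneg
        refine ⟨_, h3, r / 2 / (D + 1), by positivity, fun z hz => ?_⟩
        have hz' : r / 2 < dist (e z.1 z.2.1) (e z.1 z.2.2) := hz
        refine le_trans ?_ hz'.le
        have h4 : dist z.2.1 z.2.2 ≤ D := Metric.dist_le_diam_of_mem
          (isCompact_univ.isBounded) (mem_univ _) (mem_univ _)
        rw [div_mul_eq_mul_div, div_le_iff₀ (by positivity)]
        have : 0 ≤ r / 2 := by positivity
        nlinarith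
  obtain ⟨c, hc, h⟩ := key
  exact ⟨c, hc, fun t ht x y => h (t, (x, y)) ⟨ht, mem_univ _⟩⟩

/-- Local Lipschitz bounds + continuity give a global Lipschitz bound. -/
theorem exists_upper (e : ℝ → M → E) (he : ContinuousOn (uncurry e) (Icc (0:ℝ) 1 ×ˢ univ))
    (hloc : ∀ t ∈ Icc (0:ℝ) 1, ∀ x : M, ∃ K : ℝ, ∀ᶠ z : ℝ × (M × M) in
      𝓝[Icc (0:ℝ) 1 ×ˢ univ] (t, (x, x)), ‖e z.1 z.2.1 - e z.1 z.2.2‖ ≤ K * dist z.2.1 z.2.2) :
    ∃ K, 0 ≤ K ∧ ∀ t ∈ Icc (0:ℝ) 1, ∀ x y, ‖e t x - e t y‖ ≤ K * dist x y := by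
  have hcomp : IsCompact (Icc (0:ℝ) 1 ×ˢ (univ : Set (M × M))) :=
    isCompact_Icc.prod isCompact_univ
  have hcomp' : IsCompact (Icc (0:ℝ) 1 ×ˢ (univ : Set M)) := isCompact_Icc.prod isCompact_univ
  obtain ⟨B, hB⟩ := hcomp'.exists_bound_of_continuousOn he
  have key : ∃ K, 0 ≤ K ∧ ∀ z ∈ Icc (0:ℝ) 1 ×ˢ (univ : Set (M × M)),
      ‖e z.1 z.2.1 - e z.1 z.2.2‖ ≤ K * dist z.2.1 z.2.2 := by
    refine hcomp.induction_on (p := fun S => ∃ K, 0 ≤ K ∧
      ∀ z ∈ S ∩ Icc (0:ℝ) 1 ×ˢ (univ : Set (M × M)),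
      ‖e z.1 z.2.1 - e z.1 z.2.2‖ ≤ K * dist z.2.1 z.2.2) ⟨1, zero_le_one, by simp⟩ ?_ ?_ ?_ |>.imp
      fun K h => ⟨h.1, fun z hz => h.2 z ⟨hz, hz⟩⟩
    · rintro S T hST ⟨c, hc, h⟩
      exact ⟨c, hc, fun z hz => h z ⟨hST hz.1, hz.2⟩⟩
    · rintro S T ⟨c, hc, h⟩ ⟨d, hd, h'⟩
      refine ⟨max c d, le_max_of_le_left hc, ?_⟩
      rintro z ⟨hz | hz, hz'⟩
      · exact (h z ⟨hz, hz'⟩).trans (mul_le_mul_of_nonneg_right (le_max_left _ _) dist_nonneg)
      · exact (h' z ⟨hz, hz'⟩).trans (mul_le_mul_of_nonneg_right (le_max_right _ _) dist_nonneg)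
    · rintro ⟨t, x, y⟩ ⟨ht, -⟩
      by_cases hxy : x = y
      · subst hxy
        obtain ⟨K, h⟩ := hloc t ht x
        refine ⟨_, h, max K 0, le_max_right _ _, fun z hz => ?_⟩
        have h1 : ‖e z.1 z.2.1 - e z.1 z.2.2‖ ≤ K * dist z.2.1 z.2.2 := hz.1
        exact h1.trans (mul_le_mul_of_nonneg_right (le_max_left _ _) dist_nonneg)
      · have h2 : 0 < dist x y := dist_pos.2 hxy
        have h3 : ∀ᶠ z in 𝓝[Icc (0:ℝ) 1 ×ˢ univ] ((t, (x, y)) : ℝ × (M × M)),
            dist x y / 2 < dist z.2.1 z.2.2 := by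
          have hc1 : Continuous fun z : ℝ × (M × M) => dist z.2.1 z.2.2 := by fun_prop
          exact (hc1.continuousAt.continuousWithinAt).eventually_const_lt (by
            show dist x y / 2 < dist x y
            linarith)
        refine ⟨_, h3, 2 * |B| / (dist x y / 2), by positivity, fun z hz => ?_⟩
        have hz1 : dist x y / 2 < dist z.2.1 z.2.2 := hz.1
        have h4 : ‖e z.1 z.2.1 - e z.1 z.2.2‖ ≤ 2 * |B| := by
          refine (norm_sub_le _ _).trans ?_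
          have a1 := hB (z.1, z.2.1) ⟨hz.2.1, mem_univ _⟩
          have a2 := hB (z.1, z.2.2) ⟨hz.2.1, mem_univ _⟩
          simp only [uncurry_apply_pair] at a1 a2
          linarith [le_abs_self B]
        refine h4.trans ?_
        rw [div_mul_eq_mul_div, le_div_iff₀ (by positivity)]
        exact mul_le_mul_of_nonneg_left hz1.le (by positivity)
  obtain ⟨K, hK, h⟩ := key
  exact ⟨K, hK, fun t ht x y => h (t, (x, y)) ⟨ht, mem_univ _⟩⟩

end LocalGlobal

section LocalVersions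

variable {E : Type*} [NormedAddCommGroup E] [InnerProductSpace ℝ E] [FiniteDimensional ℝ E]
variable {M : Type*} [MetricSpace M] [CompactSpace M]

/-- isotopy extension on the unit sphere from local hypotheses. -/
theorem isoExtSphere_of_local (e e' : ℝ → M → E)
    (he : ContinuousOn (uncurry e) (Icc (0:ℝ) 1 ×ˢ univ))
    (he' : ContinuousOn (uncurry e') (Icc (0:ℝ) 1 ×ˢ univ))
    (hd : ∀ t ∈ Icc (0:ℝ) 1, ∀ x, HasDerivWithinAt (fun s => e s x) (e' t x) (Icc 0 1) t)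
    (hinj : ∀ t ∈ Icc (0:ℝ) 1, Injective (e t))
    (hloc : ∀ t ∈ Icc (0:ℝ) 1, ∀ x : M, ∃ c > 0, ∀ᶠ z : ℝ × (M × M) in
      𝓝[Icc (0:ℝ) 1 ×ˢ univ] (t, (x, x)), c * dist z.2.1 z.2.2 ≤ dist (e z.1 z.2.1) (e z.1 z.2.2))
    (hloc' : ∀ t ∈ Icc (0:ℝ) 1, ∀ x : M, ∃ K : ℝ, ∀ᶠ z : ℝ × (M × M) in
      𝓝[Icc (0:ℝ) 1 ×ˢ univ] (t, (x, x)), ‖e' z.1 z.2.1 - e' z.1 z.2.2‖ ≤ K * dist z.2.1 z.2.2)
    (hS : ∀ t ∈ Icc (0:ℝ) 1, ∀ x, ‖e t x‖ = 1) {δ : ℝ} (hδ : 0 < δ) :
    ∃ Φ : E ≃ₜ E, (∀ p, ‖p‖ = 1 ↔ ‖Φ p‖ = 1) ∧ (∀ x, Φ (e 0 x) = e 1 x) ∧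
      ∀ p, (∀ t ∈ Icc (0:ℝ) 1, ∀ x, δ ≤ dist p (e t x)) → Φ p = p := by
  obtain ⟨c, hc0, hc⟩ := exists_lower e he hinj hloc
  obtain ⟨K, hK, hL⟩ := exists_upper e' he' hloc'
  exact isoExtSphere e e' hc0 hK he he' hd hc hL hS hδ

/-- isotopy extension in `E` from local hypotheses. -/
theorem isoExt_of_local (e e' : ℝ → M → E)
    (he : ContinuousOn (uncurry e) (Icc (0:ℝ) 1 ×ˢ univ))
    (he' : ContinuousOn (uncurry e') (Icc (0:ℝ) 1 ×ˢ univ))
    (hd : ∀ t ∈ Icc (0:ℝ) 1, ∀ x, HasDerivWithinAt (fun s => e s x) (e' t x) (Icc 0 1) t)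
    (hinj : ∀ t ∈ Icc (0:ℝ) 1, Injective (e t))
    (hloc : ∀ t ∈ Icc (0:ℝ) 1, ∀ x : M, ∃ c > 0, ∀ᶠ z : ℝ × (M × M) in
      𝓝[Icc (0:ℝ) 1 ×ˢ univ] (t, (x, x)), c * dist z.2.1 z.2.2 ≤ dist (e z.1 z.2.1) (e z.1 z.2.2))
    (hloc' : ∀ t ∈ Icc (0:ℝ) 1, ∀ x : M, ∃ K : ℝ, ∀ᶠ z : ℝ × (M × M) in
      𝓝[Icc (0:ℝ) 1 ×ˢ univ] (t, (x, x)), ‖e' z.1 z.2.1 - e' z.1 z.2.2‖ ≤ K * dist z.2.1 z.2.2)
    {δ : ℝ} (hδ : 0 < δ) :
    ∃ Φ : E ≃ₜ E, (∀ x, Φ (e 0 x) = e 1 x) ∧
      ∀ p, (∀ t ∈ Icc (0:ℝ) 1, ∀ x, δ ≤ dist p (e t x)) → Φ p = p := by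
  obtain ⟨c, hc0, hc⟩ := exists_lower e he hinj hloc
  obtain ⟨K, hK, hL⟩ := exists_upper e' he' hloc'
  exact isoExt e e' hc0 hK he he' hd hc hL hδ

end LocalVersions

end Crest.Agent.R267.IsoExt_806
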