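import Crest.Agent.Lib.ODEFlow

/-!
# Row 267 (helper808): isotopies of a compact level set from a time-dependent vector field

`K = ρ ⁻¹ {c}` compact, `V (t, x)` a `C^1` field on an open neighbourhood `U` of `[0,1] × K` with
`dρ (V) = 0`.  Then the solutions of `x' = V (t, x)` give an isotopy of `K`.
-/

set_option autoImplicit false
set_option linter.unusedSectionVars false

noncomputable section

open Set Filter Topology
open scoped ContDiff
open Crest.Agent.Lib.ODEFlow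

namespace Crest.Agent.R267.Iso_808

/-- A function with zero derivative on an interval is constant there. -/
lemma eq_of_hasDerivAt_zero {F : Type*} [NormedAddCommGroup F] [NormedSpace ℝ F] {f : ℝ → F}
    {a b : ℝ} (hf : ∀ s ∈ uIcc a b, HasDerivAt f 0 s) : f b = f a := by
  have h := (convex_uIcc a b).norm_image_sub_le_of_norm_hasDerivWithin_le (C := 0)
    (f := f) (f' := fun _ => (0 : F)) (fun s hs => (hf s hs).hasDerivWithinAt) (by simp)
    (left_mem_uIcc (a := a) (b := b)) (right_mem_uIcc (a := a) (b := b))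
  simp only [zero_mul] at h
  exact sub_eq_zero.1 (norm_le_zero_iff.1 h)

variable {E : Type*} [NormedAddCommGroup E] [NormedSpace ℝ E] [CompleteSpace E]
variable {G : Type*} [NormedAddCommGroup G] [NormedSpace ℝ G]

/-- the suspended field -/
def susp (σ : ℝ) (V : ℝ × E → E) : ℝ × E → ℝ × E := fun z => (σ, V z)

lemma contDiffOn_susp {σ : ℝ} {V : ℝ × E → E} {U : Set (ℝ × E)} (hV : ContDiffOn ℝ 1 V U) :
    ContDiffOn ℝ 1 (susp σ V) U := contDiffOn_const.prodMk hV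

/-- one-sided statement: solutions stay in the level set -/
lemma stay_aux {σ : ℝ} {ρ : E → G} {c : G} {U : Set (ℝ × E)} (hU : IsOpen U)
    {V : ℝ × E → E} (hV : ContDiffOn ℝ 1 V U)
    (hρ : ∀ p ∈ U, DifferentiableAt ℝ ρ p.2) (hρV : ∀ p ∈ U, fderiv ℝ ρ p.2 (V p) = 0)
    {s : ℝ} {x : E} {t : ℝ} (h : ((s, x), t) ∈ dom (susp σ V) U) (hx : ρ x = c) :
    (flow (susp σ V) U ((s, x), t)).1 = s + σ * t ∧ ρ (flow (susp σ V) U ((s, x), t)).2 = c := by
  have hv := contDiffOn_susp (σ := σ) hV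
  have hmem : ∀ u ∈ uIcc 0 t, ((s, x), u) ∈ dom (susp σ V) U := fun u hu => mem_dom_of_uIcc h hu
  have h0 := flow_zero hU hv (mem_of_mem_dom h)
  constructor
  · have hd : ∀ u ∈ uIcc 0 t,
        HasDerivAt (fun u => (flow (susp σ V) U ((s, x), u)).1 - σ * u) 0 u := by
      intro u hu
      have h1 := hasDerivAt_flow hU hv (hmem u hu)
      have h2 : HasDerivAt (fun u => (flow (susp σ V) U ((s, x), u)).1) σ u := by
        have h2' := ((ContinuousLinearMap.fst ℝ ℝ E).hasFDerivAt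
          (x := flow (susp σ V) U ((s, x), u))).comp_hasDerivAt u h1
        exact h2'
      have h3 := h2.sub ((hasDerivAt_id u).const_mul σ)
      rw [mul_one, sub_self] at h3
      exact h3
    have h4 := eq_of_hasDerivAt_zero hd
    rw [h0] at h4
    simp only [mul_zero, sub_zero] at h4
    linarith
  · have hd : ∀ u ∈ uIcc 0 t, HasDerivAt (fun u => ρ (flow (susp σ V) U ((s, x), u)).2) 0 u := by
      intro u hu
      have hm := hmem u hu
      have hz := flow_mem hU hv hm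
      have h1 := hasDerivAt_flow hU hv hm
      have h2 : HasDerivAt (fun u => (flow (susp σ V) U ((s, x), u)).2)
          (V (flow (susp σ V) U ((s, x), u))) u := by
        have h2' := ((ContinuousLinearMap.snd ℝ ℝ E).hasFDerivAt
          (x := flow (susp σ V) U ((s, x), u))).comp_hasDerivAt u h1
        exact h2'
      have h3 := (hρ _ hz).hasFDerivAt.comp_hasDerivAt u h2
      rw [hρV _ hz] at h3
      exact h3
    have h4 := eq_of_hasDerivAt_zero hd
    rw [h0] at h4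
    rw [h4]
    exact hx

/-- existence, one sided -/
lemma dom_aux {σ : ℝ} {ρ : E → G} {c : G} (hK : IsCompact (ρ ⁻¹' {c}))
    {U : Set (ℝ × E)} (hU : IsOpen U) (hKU : Icc (0 : ℝ) 1 ×ˢ (ρ ⁻¹' {c}) ⊆ U)
    {V : ℝ × E → E} (hV : ContDiffOn ℝ 1 V U)
    (hρ : ∀ p ∈ U, DifferentiableAt ℝ ρ p.2) (hρV : ∀ p ∈ U, fderiv ℝ ρ p.2 (V p) = 0)
    {s : ℝ} {x : E} {t : ℝ} (ht : 0 ≤ t) (hs : s ∈ Icc (0 : ℝ) 1)
    (hst : s + σ * t ∈ Icc (0 : ℝ) 1) (hx : ρ x = c) :
    ((s, x), t) ∈ dom (susp σ V) U := by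
  have hv := contDiffOn_susp (σ := σ) hV
  have hmem : (s, x) ∈ Icc (0 : ℝ) 1 ×ˢ (ρ ⁻¹' {c}) := ⟨hs, hx⟩
  refine mem_dom_of_compact hU hv (isCompact_Icc.prod hK) hKU (hKU hmem)
    (fun u hu hd => ?_) ht
  obtain ⟨h1, h2⟩ := stay_aux hU hV hρ hρV hd hx
  refine ⟨?_, h2⟩
  rw [h1]
  -- `s + σ u` is between `s` and `s + σ t`
  rcases le_total 0 σ with h | h
  · exact ⟨by have := mul_nonneg h hu.1; linarith [hs.1],
      (add_le_add_right (mul_le_mul_of_nonneg_left hu.2.le h) s).trans hst.2⟩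
  · refine ⟨hst.1.trans (add_le_add_right (mul_le_mul_of_nonpos_left hu.2.le h) s), ?_⟩
    have := mul_nonpos_of_nonpos_of_nonneg h hu.1
    linarith [hs.2]

lemma neg_susp (V : ℝ × E → E) :
    (fun y => -(susp 1 V y)) = susp (-1) (fun y => -V y) := by
  funext y; rfl

/-- existence in both directions -/
lemma mem_dom_both {ρ : E → G} {c : G} (hK : IsCompact (ρ ⁻¹' {c}))
    {U : Set (ℝ × E)} (hU : IsOpen U) (hKU : Icc (0 : ℝ) 1 ×ˢ (ρ ⁻¹' {c}) ⊆ U)
    {V : ℝ × E → E} (hV : ContDiffOn ℝ 1 V U)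
    (hρ : ∀ p ∈ U, DifferentiableAt ℝ ρ p.2) (hρV : ∀ p ∈ U, fderiv ℝ ρ p.2 (V p) = 0)
    {s : ℝ} {x : E} {t : ℝ} (hs : s ∈ Icc (0 : ℝ) 1)
    (hst : s + t ∈ Icc (0 : ℝ) 1) (hx : ρ x = c) :
    ((s, x), t) ∈ dom (susp 1 V) U := by
  rcases le_total 0 t with h | h
  · exact dom_aux hK hU hKU hV hρ hρV h hs (by rwa [one_mul]) hx
  · rw [← neg_mem_dom_iff, neg_susp]
    refine dom_aux hK hU hKU hV.neg hρ (fun p hp => ?_) (neg_nonneg.2 h) hs (by simpa using hst) hx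
    rw [map_neg, hρV p hp, neg_zero]

/-- **isotopy of a compact level set** -/
theorem exists_isotopy {ρ : E → G} {c : G} (hK : IsCompact (ρ ⁻¹' {c}))
    {U : Set (ℝ × E)} (hU : IsOpen U) (hKU : Icc (0 : ℝ) 1 ×ˢ (ρ ⁻¹' {c}) ⊆ U)
    {V : ℝ × E → E} (hV : ContDiffOn ℝ 1 V U)
    (hρ : ∀ p ∈ U, DifferentiableAt ℝ ρ p.2) (hρV : ∀ p ∈ U, fderiv ℝ ρ p.2 (V p) = 0) :
    ∃ (Φ : Icc (0 : ℝ) 1 → ((ρ ⁻¹' {c} : Set E) ≃ₜ (ρ ⁻¹' {c} : Set E)))
      (γ : (ρ ⁻¹' {c} : Set E) → ℝ → E),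
      (Continuous fun p : Icc (0 : ℝ) 1 × (ρ ⁻¹' {c} : Set E) => Φ p.1 p.2) ∧
      (Continuous fun p : Icc (0 : ℝ) 1 × (ρ ⁻¹' {c} : Set E) => (Φ p.1).symm p.2) ∧
      (∀ x, Φ ⟨0, by simp⟩ x = x) ∧
      (∀ (x) (t : Icc (0 : ℝ) 1), γ x (t : ℝ) = Φ t x) ∧
      (∀ x, ∀ t ∈ Icc (0 : ℝ) 1, HasDerivAt (γ x) (V (t, γ x t)) t) ∧
      (∀ x : (ρ ⁻¹' {c} : Set E), (∀ t ∈ Icc (0 : ℝ) 1, V (t, x) = 0) → ∀ t, Φ t x = x) := by
  have hv := contDiffOn_susp (σ := 1) hV
  have hdom : ∀ {s : ℝ} {x : E} {t : ℝ}, s ∈ Icc (0 : ℝ) 1 → s + t ∈ Icc (0 : ℝ) 1 → ρ x = c →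
      ((s, x), t) ∈ dom (susp 1 V) U := fun hs hst hx => mem_dom_both hK hU hKU hV hρ hρV hs hst hx
  have hst : ∀ {s : ℝ} {x : E} {t : ℝ}, s ∈ Icc (0 : ℝ) 1 → s + t ∈ Icc (0 : ℝ) 1 → ρ x = c →
      (flow (susp 1 V) U ((s, x), t)).1 = s + t ∧ ρ (flow (susp 1 V) U ((s, x), t)).2 = c := by
    intro s x t hs hst hx
    have := stay_aux hU hV hρ hρV (hdom hs hst hx) hx
    rwa [one_mul] at this
  have hcont : ContinuousOn (flow (susp 1 V) U) (dom (susp 1 V) U) :=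
    (contDiffOn_flow (n := 1) le_rfl hU hv).continuousOn
  let f : Icc (0 : ℝ) 1 → (ρ ⁻¹' {c} : Set E) → (ρ ⁻¹' {c} : Set E) := fun t x =>
    ⟨(flow (susp 1 V) U ((0, (x : E)), (t : ℝ))).2,
      (hst ⟨le_rfl, zero_le_one⟩ (by simp) x.2).2⟩
  let g : Icc (0 : ℝ) 1 → (ρ ⁻¹' {c} : Set E) → (ρ ⁻¹' {c} : Set E) := fun t x =>
    ⟨(flow (susp 1 V) U (((t : ℝ), (x : E)), -(t : ℝ))).2,
      (hst t.2 (by simp) x.2).2⟩
  have hf : Continuous fun p : Icc (0 : ℝ) 1 × (ρ ⁻¹' {c} : Set E) => f p.1 p.2 := by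
    refine Continuous.subtype_mk (continuous_snd.comp ?_) _
    refine hcont.comp_continuous (by fun_prop :
      Continuous fun p : Icc (0 : ℝ) 1 × (ρ ⁻¹' {c} : Set E) =>
        (((0 : ℝ), (p.2 : E)), (p.1 : ℝ))) fun p => ?_
    exact hdom ⟨le_rfl, zero_le_one⟩ (by simp) p.2.2
  have hg : Continuous fun p : Icc (0 : ℝ) 1 × (ρ ⁻¹' {c} : Set E) => g p.1 p.2 := by
    refine Continuous.subtype_mk (continuous_snd.comp ?_) _
    refine hcont.comp_continuous (by fun_prop :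
      Continuous fun p : Icc (0 : ℝ) 1 × (ρ ⁻¹' {c} : Set E) =>
        (((p.1 : ℝ), (p.2 : E)), -(p.1 : ℝ))) fun p => ?_
    exact hdom p.1.2 (by simp) p.2.2
  have hgf : ∀ t x, g t (f t x) = x := by
    intro t x
    apply Subtype.ext
    have h1 := hst (s := 0) (x := x) (t := t) ⟨le_rfl, zero_le_one⟩ (by simp) x.2
    have h2 := flow_neg_flow hU hv
      (hdom (s := 0) (x := x) (t := t) ⟨le_rfl, zero_le_one⟩ (by simp) x.2)
    have h3 : flow (susp 1 V) U ((0, (x : E)), (t : ℝ)) = ((t : ℝ), ((f t x : _) : E)) :=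
      Prod.ext (by rw [h1.1]; simp) rfl
    rw [h3] at h2
    show (flow (susp 1 V) U (((t : ℝ), ((f t x : _) : E)), -(t : ℝ))).2 = x
    rw [h2.2]
  have hfg : ∀ t x, f t (g t x) = x := by
    intro t x
    apply Subtype.ext
    have h1 := hst (s := t) (x := x) (t := -t) t.2 (by simp) x.2
    have h2 := flow_neg_flow hU hv (hdom (s := t) (x := x) (t := -t) t.2 (by simp) x.2)
    have h3 : flow (susp 1 V) U (((t : ℝ), (x : E)), -(t : ℝ)) = ((0 : ℝ), ((g t x : _) : E)) :=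
      Prod.ext (by rw [h1.1]; simp) rfl
    rw [h3, neg_neg] at h2
    show (flow (susp 1 V) U (((0 : ℝ), ((g t x : _) : E)), (t : ℝ))).2 = x
    rw [h2.2]
  refine ⟨fun t =>
    { toFun := f t
      invFun := g t
      left_inv := hgf t
      right_inv := hfg t
      continuous_toFun := hf.comp (by fun_prop : Continuous fun x => (t, x))
      continuous_invFun := hg.comp (by fun_prop : Continuous fun x => (t, x)) },
    fun x t => (flow (susp 1 V) U ((0, (x : E)), t)).2, hf, hg, fun x => ?_, fun x t => rfl,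
    fun x t ht => ?_, fun x hx t => ?_⟩
  · apply Subtype.ext
    show (flow (susp 1 V) U ((0, (x : E)), 0)).2 = x
    rw [flow_zero hU hv (hKU ⟨⟨le_rfl, zero_le_one⟩, x.2⟩)]
  · have hm := hdom (s := 0) (x := x) (t := t) ⟨le_rfl, zero_le_one⟩ (by simpa using ht) x.2
    have h1 := hasDerivAt_flow hU hv hm
    have h2 : HasDerivAt (fun u => (flow (susp 1 V) U ((0, (x : E)), u)).2)
        (V (flow (susp 1 V) U ((0, (x : E)), t))) t := by
      have h2' := ((ContinuousLinearMap.snd ℝ ℝ E).hasFDerivAt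
        (x := flow (susp 1 V) U ((0, (x : E)), t))).comp_hasDerivAt t h1
      exact h2'
    have h3 := hst (s := 0) (x := x) (t := t) ⟨le_rfl, zero_le_one⟩ (by simpa using ht) x.2
    have h4 : flow (susp 1 V) U ((0, (x : E)), t) =
        (t, (flow (susp 1 V) U ((0, (x : E)), t)).2) := Prod.ext (by rw [h3.1]; simp) rfl
    rw [h4] at h2
    exact h2
  · apply Subtype.ext
    show (flow (susp 1 V) U ((0, (x : E)), (t : ℝ))).2 = x
    have h1 := flow_of_integralCurve' hU hv (c := fun s => (s, (x : E))) (x := ((0 : ℝ), (x : E)))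
      (l := t) rfl (fun s hs => hKU ⟨?_, x.2⟩) (fun s hs => ?_)
    · rw [h1.2]
    · rw [uIcc_of_le t.2.1] at hs
      exact ⟨hs.1, hs.2.trans t.2.2⟩
    · rw [uIcc_of_le t.2.1] at hs
      have h2 := (hasDerivAt_id s).prodMk (hasDerivAt_const s (x : E))
      have h3 : susp 1 V (s, (x : E)) = (1, 0) := by
        unfold susp
        rw [hx s ⟨hs.1, hs.2.trans t.2.2⟩]
      rw [h3]
      exact h2

end Crest.Agent.R267.Iso_808
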