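import Crest.Agent.R267.MinRot_118
import Crest.Agent.R267.Triv_88

/-!
# Moving finitely many small balls with normals by fibrewise homeomorphisms (row 267, T1)

`exists_step` : one small step.  `exists_path` : a whole path over a compact parameter space.
-/

set_option autoImplicit false
open scoped InnerProductSpace
open Topology Set

namespace Crest.Agent.R267.Move_118

open MinRot_118

variable {V : Type*} [NormedAddCommGroup V] [InnerProductSpace ℝ V]

/-- the radial cut-off: `1` for `t ≤ r`, `0` for `2 r ≤ t` -/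
noncomputable def cut (r t : ℝ) : ℝ := max 0 (min 1 (2 - t / r))

theorem cut_nonneg (r t : ℝ) : 0 ≤ cut r t := le_max_left _ _
theorem cut_le_one (r t : ℝ) : cut r t ≤ 1 := max_le zero_le_one (min_le_left _ _)

theorem cut_eq_one {r t : ℝ} (hr : 0 < r) (h : t ≤ r) : cut r t = 1 := by
  have : t / r ≤ 1 := (div_le_one hr).2 h
  unfold cut
  rw [min_eq_left (by linarith), max_eq_right zero_le_one]

theorem cut_eq_zero {r t : ℝ} (hr : 0 < r) (h : 2 * r ≤ t) : cut r t = 0 := by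
  have : 2 ≤ t / r := (le_div_iff₀ hr).2 h
  unfold cut
  rw [min_eq_right (by linarith), max_eq_left (by linarith)]

theorem continuous_cut (r : ℝ) : Continuous (cut r) := by unfold cut; fun_prop

theorem abs_cut_sub {r : ℝ} (hr : 0 < r) (s t : ℝ) : |cut r s - cut r t| ≤ |s - t| / r := by
  unfold cut
  have h1 : |max 0 (min 1 (2 - s / r)) - max 0 (min 1 (2 - t / r))| ≤
      |min 1 (2 - s / r) - min 1 (2 - t / r)| := by
    refine (abs_max_sub_max_le_max (0 : ℝ) (min 1 (2 - s / r)) 0 (min 1 (2 - t / r))).trans ?_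
    rw [sub_self, abs_zero]
    exact max_le (abs_nonneg _) le_rfl
  refine h1.trans ((abs_min_sub_min_le_max _ _ _ _).trans ?_)
  rw [sub_self, abs_zero]
  refine max_le (by positivity) ?_
  rw [show (2 - s / r) - (2 - t / r) = (t - s) / r by ring, abs_div, abs_of_pos hr, abs_sub_comm]

/-- the displacement of one ball -/
noncomputable def dsp (x x' ν ν' y : V) : V := (x' - x) + (rot ν ν' (y - x) - (y - x))

/-- the cut-off displacement -/
noncomputable def psh (r : ℝ) (x x' ν ν' y : V) : V := cut r ‖y - x‖ • dsp x x' ν ν' y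

theorem dsp_sub {x x' ν ν' : V} {η : ℝ} (hν : ‖ν‖ = 1) (hν' : ‖ν'‖ = 1) (h : 0 ≤ ⟪ν, ν'⟫_ℝ)
    (hη : ‖ν' - ν‖ ≤ η) (y y' : V) : ‖dsp x x' ν ν' y - dsp x x' ν ν' y'‖ ≤ 6 * η * ‖y - y'‖ := by
  have e : dsp x x' ν ν' y - dsp x x' ν ν' y' = rot ν ν' (y - y') - (y - y') := by
    have : rot ν ν' (y - x) - rot ν ν' (y' - x) = rot ν ν' (y - y') := by
      rw [← map_sub]; congr 1; abel
    unfold dsp
    rw [← this]; abel
  rw [e]
  refine (norm_rot_sub_le hν hν' h _).trans ?_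
  gcongr

theorem norm_dsp_le {x x' ν ν' : V} {η : ℝ} (hν : ‖ν‖ = 1) (hν' : ‖ν'‖ = 1) (h : 0 ≤ ⟪ν, ν'⟫_ℝ)
    (hη : ‖ν' - ν‖ ≤ η) (hx : ‖x' - x‖ ≤ η) (y : V) :
    ‖dsp x x' ν ν' y‖ ≤ η + 6 * η * ‖y - x‖ := by
  unfold dsp
  refine (norm_add_le _ _).trans (add_le_add hx ?_)
  refine (norm_rot_sub_le hν hν' h _).trans ?_
  gcongr

theorem psh_sub {x x' ν ν' : V} {r η : ℝ} (hr : 0 < r) (hη0 : 0 ≤ η) (hν : ‖ν‖ = 1)
    (hν' : ‖ν'‖ = 1) (h : 0 ≤ ⟪ν, ν'⟫_ℝ) (hη : ‖ν' - ν‖ ≤ η) (hx : ‖x' - x‖ ≤ η) (y y' : V) :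
    ‖psh r x x' ν ν' y - psh r x x' ν ν' y'‖ ≤ η * (18 + 1 / r) * ‖y - y'‖ := by
  wlog hle : ‖y' - x‖ ≤ ‖y - x‖ generalizing y y'
  · rw [norm_sub_rev, norm_sub_rev y y']
    exact this y' y (le_of_not_ge hle)
  by_cases h2 : 2 * r ≤ ‖y' - x‖
  · unfold psh
    rw [cut_eq_zero hr h2, cut_eq_zero hr (h2.trans hle), zero_smul, zero_smul, sub_zero, norm_zero]
    positivity
  push Not at h2
  have e : psh r x x' ν ν' y - psh r x x' ν ν' y' =
      cut r ‖y - x‖ • (dsp x x' ν ν' y - dsp x x' ν ν' y') +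
      (cut r ‖y - x‖ - cut r ‖y' - x‖) • dsp x x' ν ν' y' := by
    unfold psh; module
  rw [e]
  refine (norm_add_le _ _).trans ?_
  rw [norm_smul, norm_smul, Real.norm_eq_abs, Real.norm_eq_abs, abs_of_nonneg (cut_nonneg _ _)]
  have h3 : |cut r ‖y - x‖ - cut r ‖y' - x‖| ≤ ‖y - y'‖ / r := by
    refine (abs_cut_sub hr _ _).trans ?_
    gcongr
    have := abs_norm_sub_norm_le (y - x) (y' - x)
    rwa [sub_sub_sub_cancel_right] at this
  have h4 : ‖dsp x x' ν ν' y'‖ ≤ η + 12 * η * r := by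
    refine (norm_dsp_le hν hν' h hη hx y').trans ?_
    have : 6 * η * ‖y' - x‖ ≤ 6 * η * (2 * r) := by gcongr
    linarith
  calc cut r ‖y - x‖ * ‖dsp x x' ν ν' y - dsp x x' ν ν' y'‖ +
        |cut r ‖y - x‖ - cut r ‖y' - x‖| * ‖dsp x x' ν ν' y'‖
      ≤ 1 * (6 * η * ‖y - y'‖) + (‖y - y'‖ / r) * (η + 12 * η * r) := by
        gcongr
        · exact cut_le_one _ _
        · exact dsp_sub hν hν' h hη y y'
    _ = η * (18 + 1 / r) * ‖y - y'‖ := by field_simp; ring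

theorem inner_nonneg_of_close {ν ν' : V} (hν : ‖ν‖ = 1) (hν' : ‖ν'‖ = 1) (h : ‖ν' - ν‖ ≤ 1) :
    0 ≤ ⟪ν, ν'⟫_ℝ := by
  have := norm_sub_sq_real ν' ν
  rw [hν, hν', real_inner_comm] at this
  have h2 : ‖ν' - ν‖ ^ 2 ≤ 1 := by
    have := norm_nonneg (ν' - ν)
    nlinarith
  linarith

/-- a fibrewise homeomorphism over `X` -/
structure FHom (X V : Type*) [TopologicalSpace X] [TopologicalSpace V] where
  fwd : X → V → V
  bwd : X → V → V
  cont_fwd : Continuous (Function.uncurry fwd)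
  cont_bwd : Continuous (Function.uncurry bwd)
  bwd_fwd : ∀ p y, bwd p (fwd p y) = y
  fwd_bwd : ∀ p y, fwd p (bwd p y) = y

namespace FHom

variable {X : Type*} [TopologicalSpace X] {W : Type*} [TopologicalSpace W]

/-- identity -/
def refl : FHom X W where
  fwd _ y := y
  bwd _ y := y
  cont_fwd := continuous_snd
  cont_bwd := continuous_snd
  bwd_fwd _ _ := rfl
  fwd_bwd _ _ := rfl

/-- composition, `f` first -/
def trans (f g : FHom X W) : FHom X W where
  fwd p y := g.fwd p (f.fwd p y)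
  bwd p y := f.bwd p (g.bwd p y)
  cont_fwd := g.cont_fwd.comp (continuous_fst.prodMk f.cont_fwd)
  cont_bwd := f.cont_bwd.comp (continuous_fst.prodMk g.cont_bwd)
  bwd_fwd p y := by rw [g.bwd_fwd, f.bwd_fwd]
  fwd_bwd p y := by rw [f.fwd_bwd, g.fwd_bwd]

/-- inverse -/
def symm (f : FHom X W) : FHom X W where
  fwd := f.bwd
  bwd := f.fwd
  cont_fwd := f.cont_bwd
  cont_bwd := f.cont_fwd
  bwd_fwd := f.fwd_bwd
  fwd_bwd := f.bwd_fwd

/-- the homeomorphism of the product -/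
def homeo (f : FHom X W) : (X × W) ≃ₜ (X × W) where
  toFun z := (z.1, f.fwd z.1 z.2)
  invFun z := (z.1, f.bwd z.1 z.2)
  left_inv z := by simp [f.bwd_fwd]
  right_inv z := by simp [f.fwd_bwd]
  continuous_toFun := continuous_fst.prodMk f.cont_fwd
  continuous_invFun := continuous_fst.prodMk f.cont_bwd

end FHom

/-- **One small step.** -/
theorem exists_step [CompleteSpace V] {X : Type*} [TopologicalSpace X] {ι : Type*} [Fintype ι]
    {x x' ν ν' : ι → X → V} (hx : ∀ i, Continuous (x i)) (hx' : ∀ i, Continuous (x' i))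
    (hν : ∀ i, Continuous (ν i)) (hν' : ∀ i, Continuous (ν' i)) (nν : ∀ i p, ‖ν i p‖ = 1)
    (nν' : ∀ i p, ‖ν' i p‖ = 1) {r η : ℝ} (hr : 0 < r) (hη0 : 0 ≤ η) (hη1 : η ≤ 1)
    (hη : Fintype.card ι * (η * (18 + 1 / r)) ≤ 1 / 2)
    (hd : ∀ p i j, i ≠ j → 4 * r ≤ ‖x i p - x j p‖)
    (hxx : ∀ i p, ‖x' i p - x i p‖ ≤ η) (hνν : ∀ i p, ‖ν' i p - ν i p‖ ≤ η) :
    ∃ Θ : FHom X V,
      (∀ p i v, ‖v‖ ≤ r → Θ.fwd p (x i p + v) = x' i p + rot (ν i p) (ν' i p) v) ∧
      (∀ p y, (∀ i, 2 * r ≤ ‖y - x i p‖) → Θ.fwd p y = y) ∧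
      (∀ p, (∀ i, x' i p = x i p) → (∀ i, ν' i p = ν i p) → ∀ y, Θ.fwd p y = y) ∧
      (∀ (W : Submodule ℝ V) (p : X), (∀ i, x' i p - x i p ∈ W) → (∀ i, ν' i p = ν i p) →
        ∀ y, Θ.fwd p y - y ∈ W) := by
  classical
  have h0 : ∀ i p, 0 ≤ ⟪ν i p, ν' i p⟫_ℝ := fun i p =>
    inner_nonneg_of_close (nν i p) (nν' i p) ((hνν i p).trans hη1)
  set φ : X → V → V := fun p y => ∑ i, psh r (x i p) (x' i p) (ν i p) (ν' i p) y with hφ
  have hcont : Continuous (Function.uncurry φ) := by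
    refine continuous_finsetSum _ fun i _ => ?_
    unfold psh dsp
    have h1 : Continuous fun z : X × V => x i z.1 := (hx i).comp continuous_fst
    have h1' : Continuous fun z : X × V => x' i z.1 := (hx' i).comp continuous_fst
    have h2 : Continuous fun z : X × V => z.2 - x i z.1 := continuous_snd.sub h1
    have h3 : Continuous fun z : X × V => rot (ν i z.1) (ν' i z.1) (z.2 - x i z.1) :=
      continuous_rot ((hν i).comp continuous_fst) ((hν' i).comp continuous_fst) h2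
        fun z => by have := h0 i z.1; positivity
    exact ((continuous_cut r).comp h2.norm).smul ((h1'.sub h1).add (h3.sub h2))
  have hL : ∀ p, LipschitzWith (1 / 2) (φ p) := by
    intro p
    refine LipschitzWith.of_dist_le_mul fun y y' => ?_
    rw [dist_eq_norm, dist_eq_norm, hφ]
    simp only
    rw [← Finset.sum_sub_distrib]
    refine (norm_sum_le _ _).trans ?_
    refine (Finset.sum_le_sum fun i _ => psh_sub hr hη0 (nν i p) (nν' i p) (h0 i p) (hνν i p)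
      (hxx i p) y y').trans ?_
    rw [Finset.sum_const, Finset.card_univ, nsmul_eq_mul, ← mul_assoc]
    have : ((1 / 2 : NNReal) : ℝ) = 1 / 2 := by norm_num
    rw [this]
    gcongr
  obtain ⟨Ψ, hΨc, hΨ1, hΨ2⟩ := Triv_88.exists_param_inverse φ hcont hL
  refine ⟨⟨fun p y => y + φ p y, Ψ, continuous_snd.add hcont, hΨc, hΨ1, hΨ2⟩, ?_, ?_, ?_, ?_⟩
  · intro p i v hv
    have hs : φ p (x i p + v) = psh r (x i p) (x' i p) (ν i p) (ν' i p) (x i p + v) := by
      refine Finset.sum_eq_single i (fun j _ hji => ?_) (fun h => absurd (Finset.mem_univ i) h)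
      have : 2 * r ≤ ‖x i p + v - x j p‖ := by
        have h1 := hd p i j (Ne.symm hji)
        have h2 : ‖x i p - x j p‖ ≤ ‖x i p + v - x j p‖ + ‖v‖ := by
          have := norm_sub_le (x i p + v - x j p) v
          rwa [show x i p + v - x j p - v = x i p - x j p by abel] at this
        linarith
      unfold psh
      rw [cut_eq_zero hr this, zero_smul]
    show x i p + v + φ p (x i p + v) = _
    rw [hs]
    unfold psh dsp
    rw [add_sub_cancel_left, cut_eq_one hr hv, one_smul]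
    abel
  · intro p y hy
    show y + φ p y = y
    rw [hφ]
    simp only
    rw [Finset.sum_eq_zero, add_zero]
    intro i _
    unfold psh
    rw [cut_eq_zero hr (hy i), zero_smul]
  · intro p h1 h2 y
    show y + φ p y = y
    rw [hφ]
    simp only
    rw [Finset.sum_eq_zero, add_zero]
    intro i _
    unfold psh dsp
    rw [h1, h2, rot_self (nν i p), sub_self, sub_self, add_zero, smul_zero]
  · intro W p h1 h2 y
    show y + φ p y - y ∈ W
    rw [add_sub_cancel_left]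
    refine Submodule.sum_mem _ fun i _ => ?_
    unfold psh dsp
    rw [h2, rot_self (nν i p), sub_self, add_zero]
    exact W.smul_mem _ (h1 i)

/-- the minimal rotation as an isometric isomorphism -/
noncomputable def rotE {a b : V} (ha : ‖a‖ = 1) (hb : ‖b‖ = 1) (h : 1 + ⟪a, b⟫_ℝ ≠ 0) :
    V ≃ₗᵢ[ℝ] V where
  toLinearEquiv := LinearEquiv.ofLinear (rot a b) (rot b a)
    (LinearMap.ext fun v => rot_rot' ha hb h v) (LinearMap.ext fun v => rot_rot ha hb h v)
  norm_map' v := norm_rot ha hb h v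

theorem rotE_apply {a b : V} (ha : ‖a‖ = 1) (hb : ‖b‖ = 1) (h : 1 + ⟪a, b⟫_ℝ ≠ 0) (v : V) :
    rotE ha hb h v = rot a b v := rfl

/-- `Θ` carries the `r`-balls with normals `(x, ν)` rigidly to those of `(x', ν')`. -/
def Carries {X : Type*} [TopologicalSpace X] {ι : Type*} (r : ℝ) (Θ : FHom X V)
    (x ν x' ν' : ι → X → V) : Prop :=
  ∀ p i, ∃ R : V ≃ₗᵢ[ℝ] V, R (ν i p) = ν' i p ∧
    ∀ v, ‖v‖ ≤ r → Θ.fwd p (x i p + v) = x' i p + R v

theorem Carries.refl {X : Type*} [TopologicalSpace X] {ι : Type*} (r : ℝ) (x ν : ι → X → V) :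
    Carries r (FHom.refl : FHom X V) x ν x ν :=
  fun _ _ => ⟨LinearIsometryEquiv.refl ℝ V, rfl, fun _ _ => rfl⟩

theorem Carries.trans {X : Type*} [TopologicalSpace X] {ι : Type*} {r : ℝ} {Θ Θ' : FHom X V}
    {x ν x' ν' x'' ν'' : ι → X → V} (h : Carries r Θ x ν x' ν') (h' : Carries r Θ' x' ν' x'' ν'') :
    Carries r (Θ.trans Θ') x ν x'' ν'' := by
  intro p i
  obtain ⟨R, h1, h2⟩ := h p i
  obtain ⟨R', h1', h2'⟩ := h' p i
  refine ⟨R.trans R', ?_, fun v hv => ?_⟩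
  · rw [LinearIsometryEquiv.trans_apply, h1, h1']
  · show Θ'.fwd p (Θ.fwd p (x i p + v)) = _
    rw [h2 v hv, h2' (R v) (by rwa [R.norm_map])]
    rfl

/-- a tube (or thick disc) is carried to the corresponding one: for every condition `P` on the
pair (norm, scalar product with the normal) -/
theorem Carries.image {X : Type*} [TopologicalSpace X] {ι : Type*} {r : ℝ} {Θ : FHom X V}
    {x ν x' ν' : ι → X → V} (h : Carries r Θ x ν x' ν') (p : X) (i : ι) (P : ℝ → ℝ → Prop)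
    (hP : ∀ s t, P s t → s ≤ r) :
    Θ.fwd p '' {y | P ‖y - x i p‖ ⟪y - x i p, ν i p⟫_ℝ} =
      {y | P ‖y - x' i p‖ ⟪y - x' i p, ν' i p⟫_ℝ} := by
  obtain ⟨R, h1, h2⟩ := h p i
  ext y
  simp only [mem_image, mem_setOf_eq]
  constructor
  · rintro ⟨z, hz, rfl⟩
    have e : x i p + (z - x i p) = z := by abel
    have := h2 (z - x i p) (hP _ _ hz)
    rw [e] at this
    rw [this, add_sub_cancel_left, ← h1, R.norm_map, R.inner_map_map]
    exact hz
  · intro hy
    refine ⟨x i p + R.symm (y - x' i p), ?_, ?_⟩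
    · rw [add_sub_cancel_left, R.symm.norm_map]
      have : ⟪R.symm (y - x' i p), ν i p⟫_ℝ = ⟪y - x' i p, ν' i p⟫_ℝ := by
        rw [← R.inner_map_map, R.apply_symm_apply, h1]
      rw [this]
      exact hy
    · rw [h2 _ (by rw [R.symm.norm_map]; exact hP _ _ hy), R.apply_symm_apply]
      abel

/-- **A whole path.**  `hU` (uniform continuity in time, uniformly in the parameter) is automatic
for compact `X`, see `exists_path_compact`. -/
theorem exists_path [CompleteSpace V] {X : Type*} [TopologicalSpace X] {ι : Type*} [Fintype ι]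
    {x ν : ι → X → ℝ → V} (hx : ∀ i t, Continuous fun p => x i p t)
    (hν : ∀ i t, Continuous fun p => ν i p t) (nν : ∀ i p t, ‖ν i p t‖ = 1) {r : ℝ} (hr : 0 < r)
    (hd : ∀ p, ∀ t ∈ Icc (0 : ℝ) 1, ∀ i j, i ≠ j → 4 * r ≤ ‖x i p t - x j p t‖)
    (hU : ∀ ε > 0, ∃ N : ℕ, 0 < N ∧ ∀ s ∈ Icc (0 : ℝ) 1, ∀ t ∈ Icc (0 : ℝ) 1, |s - t| ≤ 1 / N →
      ∀ i p, ‖x i p s - x i p t‖ ≤ ε ∧ ‖ν i p s - ν i p t‖ ≤ ε) :
    ∃ Θ : FHom X V,
      Carries r Θ (fun i p => x i p 0) (fun i p => ν i p 0) (fun i p => x i p 1)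
        (fun i p => ν i p 1) ∧
      (∀ p y, (∀ t ∈ Icc (0 : ℝ) 1, ∀ i, 2 * r ≤ ‖y - x i p t‖) → Θ.fwd p y = y) ∧
      (∀ p, (∀ t ∈ Icc (0 : ℝ) 1, ∀ i, x i p t = x i p 0 ∧ ν i p t = ν i p 0) →
        ∀ y, Θ.fwd p y = y) ∧
      (∀ (W : Submodule ℝ V) (p : X), (∀ t ∈ Icc (0 : ℝ) 1, ∀ i, x i p t - x i p 0 ∈ W) →
        (∀ t ∈ Icc (0 : ℝ) 1, ∀ i, ν i p t = ν i p 0) → ∀ y, Θ.fwd p y - y ∈ W) := by
  set c : ℝ := 18 + 1 / r with hc
  have hc0 : 0 < c := by positivity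
  set η : ℝ := min 1 (1 / (2 * (Fintype.card ι + 1) * c)) with hηdef
  have hη0 : 0 < η := by positivity
  have hη1 : η ≤ 1 := min_le_left _ _
  have hη : Fintype.card ι * (η * c) ≤ 1 / 2 := by
    have h1 : η ≤ 1 / (2 * (Fintype.card ι + 1) * c) := min_le_right _ _
    have h2 : (0 : ℝ) ≤ Fintype.card ι := by positivity
    calc (Fintype.card ι : ℝ) * (η * c)
        ≤ Fintype.card ι * ((1 / (2 * (Fintype.card ι + 1) * c)) * c) := by gcongr
      _ = Fintype.card ι / (2 * (Fintype.card ι + 1)) := by field_simp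
      _ ≤ 1 / 2 := by
        rw [div_le_div_iff₀ (by positivity) (by norm_num)]
        linarith
  obtain ⟨N, hN, hNs⟩ := hU η hη0
  have hN' : (0 : ℝ) < N := by exact_mod_cast hN
  have key : ∀ k : ℕ, k ≤ N → ∃ Θ : FHom X V,
      Carries r Θ (fun i p => x i p 0) (fun i p => ν i p 0) (fun i p => x i p (k / N))
        (fun i p => ν i p (k / N)) ∧
      (∀ p y, (∀ t ∈ Icc (0 : ℝ) 1, ∀ i, 2 * r ≤ ‖y - x i p t‖) → Θ.fwd p y = y) ∧
      (∀ p, (∀ t ∈ Icc (0 : ℝ) 1, ∀ i, x i p t = x i p 0 ∧ ν i p t = ν i p 0) →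
        ∀ y, Θ.fwd p y = y) ∧
      (∀ (W : Submodule ℝ V) (p : X), (∀ t ∈ Icc (0 : ℝ) 1, ∀ i, x i p t - x i p 0 ∈ W) →
        (∀ t ∈ Icc (0 : ℝ) 1, ∀ i, ν i p t = ν i p 0) → ∀ y, Θ.fwd p y - y ∈ W) := by
    intro k
    induction k with
    | zero =>
      intro _
      refine ⟨FHom.refl, ?_, fun _ _ _ => rfl, fun _ _ _ => rfl, fun W _ _ _ y => ?_⟩
      · simpa using Carries.refl r (fun i p => x i p 0) (fun i p => ν i p 0)
      · show y - y ∈ W
        rw [sub_self]; exact W.zero_mem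
    | succ k ih =>
      intro hk
      obtain ⟨Θ, h1, h2, h3, h4⟩ := ih (by omega)
      have hk' : (k : ℝ) + 1 ≤ N := by exact_mod_cast hk
      have m0 : (k : ℝ) / N ∈ Icc (0 : ℝ) 1 :=
        ⟨by positivity, by rw [div_le_one hN']; linarith⟩
      have m1 : ((k + 1 : ℕ) : ℝ) / N ∈ Icc (0 : ℝ) 1 :=
        ⟨by positivity, by rw [div_le_one hN']; push_cast; linarith⟩
      have hst : |((k + 1 : ℕ) : ℝ) / N - (k : ℝ) / N| ≤ 1 / N := by
        rw [← sub_div]
        push_cast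
        rw [add_sub_cancel_left, abs_of_pos (by positivity)]
      obtain ⟨Θ', g1, g2, g3, g4⟩ := exists_step (x := fun i p => x i p (k / N))
        (x' := fun i p => x i p ((k + 1 : ℕ) / N)) (ν := fun i p => ν i p (k / N))
        (ν' := fun i p => ν i p ((k + 1 : ℕ) / N)) (fun i => hx i _) (fun i => hx i _)
        (fun i => hν i _) (fun i => hν i _) (fun i p => nν i p _) (fun i p => nν i p _) hr hη0.le
        hη1 hη (fun p i j hij => hd p _ m0 i j hij) (fun i p => (hNs _ m1 _ m0 hst i p).1)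
        (fun i p => (hNs _ m1 _ m0 hst i p).2)
      refine ⟨Θ.trans Θ', h1.trans ?_, ?_, ?_, ?_⟩
      · intro p i
        have h0 : 1 + ⟪ν i p (k / N), ν i p ((k + 1 : ℕ) / N)⟫_ℝ ≠ 0 := by
          have := inner_nonneg_of_close (nν i p (k / N)) (nν i p ((k + 1 : ℕ) / N))
            ((hNs _ m1 _ m0 hst i p).2.trans hη1)
          positivity
        exact ⟨rotE (nν _ _ _) (nν _ _ _) h0, rot_left (nν _ _ _) h0, fun v hv => g1 p i v hv⟩
      · intro p y hy
        show Θ'.fwd p (Θ.fwd p y) = y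
        rw [h2 p y hy, g2 p y fun i => hy _ m0 i]
      · intro p hp y
        show Θ'.fwd p (Θ.fwd p y) = y
        rw [h3 p hp y, g3 p (fun i => by rw [(hp _ m1 i).1, (hp _ m0 i).1])
          (fun i => by rw [(hp _ m1 i).2, (hp _ m0 i).2])]
      · intro W p hp hp' y
        show Θ'.fwd p (Θ.fwd p y) - y ∈ W
        have e : Θ'.fwd p (Θ.fwd p y) - y =
          (Θ'.fwd p (Θ.fwd p y) - Θ.fwd p y) + (Θ.fwd p y - y) := by abel
        rw [e]
        refine W.add_mem (g4 W p (fun i => ?_) (fun i => ?_) _) (h4 W p hp hp' y)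
        · have e2 : x i p ((k + 1 : ℕ) / N) - x i p (k / N) =
            (x i p ((k + 1 : ℕ) / N) - x i p 0) - (x i p (k / N) - x i p 0) := by abel
          rw [e2]
          exact W.sub_mem (hp _ m1 i) (hp _ m0 i)
        · rw [hp' _ m1, hp' _ m0]
  obtain ⟨Θ, h⟩ := key N le_rfl
  rw [div_self hN'.ne'] at h
  exact ⟨Θ, h⟩

/-- uniform continuity in time over a compact parameter space -/
theorem exists_unif {X : Type*} [TopologicalSpace X] [CompactSpace X] {x : X → ℝ → V}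
    (hx : Continuous fun z : X × ℝ => x z.1 z.2) {ε : ℝ} (hε : 0 < ε) :
    ∃ δ > 0, ∀ s ∈ Icc (0 : ℝ) 1, ∀ t ∈ Icc (0 : ℝ) 1, |s - t| < δ →
      ∀ p, ‖x p s - x p t‖ ≤ ε := by
  let F : C(ℝ × X, V) := ⟨fun z => x z.2 z.1, hx.comp continuous_swap⟩
  have hc := (ContinuousMap.curry F).continuous
  have hu := isCompact_Icc.uniformContinuousOn_of_continuous (hc.continuousOn (s := Icc (0 : ℝ) 1))
  rw [Metric.uniformContinuousOn_iff] at hu
  obtain ⟨δ, hδ, h⟩ := hu ε hε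
  refine ⟨δ, hδ, fun s hs t ht hst p => ?_⟩
  have h1 := h s hs t ht (by rwa [Real.dist_eq])
  have h2 := ContinuousMap.dist_apply_le_dist (f := ContinuousMap.curry F s)
    (g := ContinuousMap.curry F t) p
  rw [dist_eq_norm] at h2
  exact h2.trans h1.le

/-- **A whole path over a compact parameter space.** -/
theorem exists_path_compact [CompleteSpace V] {X : Type*} [TopologicalSpace X] [CompactSpace X]
    {ι : Type*} [Fintype ι] {x ν : ι → X → ℝ → V}
    (hx : ∀ i, Continuous fun z : X × ℝ => x i z.1 z.2)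
    (hν : ∀ i, Continuous fun z : X × ℝ => ν i z.1 z.2)
    (nν : ∀ i p t, ‖ν i p t‖ = 1) {r : ℝ} (hr : 0 < r)
    (hd : ∀ p, ∀ t ∈ Icc (0 : ℝ) 1, ∀ i j, i ≠ j → 4 * r ≤ ‖x i p t - x j p t‖) :
    ∃ Θ : FHom X V,
      Carries r Θ (fun i p => x i p 0) (fun i p => ν i p 0) (fun i p => x i p 1)
        (fun i p => ν i p 1) ∧
      (∀ p y, (∀ t ∈ Icc (0 : ℝ) 1, ∀ i, 2 * r ≤ ‖y - x i p t‖) → Θ.fwd p y = y) ∧
      (∀ p, (∀ t ∈ Icc (0 : ℝ) 1, ∀ i, x i p t = x i p 0 ∧ ν i p t = ν i p 0) →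
        ∀ y, Θ.fwd p y = y) ∧
      (∀ (W : Submodule ℝ V) (p : X), (∀ t ∈ Icc (0 : ℝ) 1, ∀ i, x i p t - x i p 0 ∈ W) →
        (∀ t ∈ Icc (0 : ℝ) 1, ∀ i, ν i p t = ν i p 0) → ∀ y, Θ.fwd p y - y ∈ W) := by
  refine exists_path (fun i t => (hx i).comp (continuous_id.prodMk continuous_const))
    (fun i t => (hν i).comp (continuous_id.prodMk continuous_const)) nν hr hd fun ε hε => ?_
  choose δ hδ h using fun i => exists_unif (hx i) hε
  choose δ' hδ' h' using fun i => exists_unif (hν i) hε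
  obtain ⟨d, hd0, hd1⟩ : ∃ d > 0, ∀ i, d ≤ δ i ∧ d ≤ δ' i := by
    rcases isEmpty_or_nonempty ι with hι | hι
    · exact ⟨1, one_pos, fun i => (hι.false i).elim⟩
    · obtain ⟨i0, hi0⟩ := Finite.exists_min fun i => min (δ i) (δ' i)
      exact ⟨min (δ i0) (δ' i0), lt_min (hδ _) (hδ' _), fun i =>
        ⟨(hi0 i).trans (min_le_left _ _), (hi0 i).trans (min_le_right _ _)⟩⟩
  obtain ⟨n, hn⟩ := exists_nat_one_div_lt hd0
  refine ⟨n + 1, Nat.succ_pos _, fun s hs t ht hst i p => ?_⟩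
  have : |s - t| < d := by
    refine lt_of_le_of_lt hst ?_
    push_cast
    exact hn
  exact ⟨h i s hs t ht (this.trans_le (hd1 i).1) p, h' i s hs t ht (this.trans_le (hd1 i).2) p⟩

end Crest.Agent.R267.Move_118
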