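import Crest.Agent.R267.Class1_184
import Crest.Agent.R267.Move_118

/-!
# T1b (row 267): an isotopy of systems gives a fibrewise homeomorphism of `B × V`

`isot_path`: for an isotopy `Isot p x ν x' ν' X N` of systems (`Class1_184`), a linear isomorphism
`L` of the fibre with an inner product space `V`, and `ε > 0`, there are `R` and `r₀ > 0` such that
for every `0 < r ≤ r₀` there is a fibrewise homeomorphism `Θ` of `B × V` over `B`
* carrying rigidly the `r`-balls around the cores with normals of the first system to those of the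
  second one over the cube,
* which is the identity for `1 + ε ≤ ‖u‖` and for `R ≤ ‖v‖`, over the part of the boundary at
  rest (and radially outside of it),
* which moves points only in the direction of `H` for `1 ≤ ‖u‖`.
-/

set_option autoImplicit false
set_option linter.unusedSectionVars false
open Topology Filter Set Module

namespace Crest.Agent.R267.IsotPath_184

open BallExt_88 Class1_184 Move_118

variable {m μ : ℕ} {V : Type*} [NormedAddCommGroup V] [InnerProductSpace ℝ V] [CompleteSpace V]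

/-- unit vector -/
noncomputable def un (v : V) : V := ‖v‖⁻¹ • v

lemma norm_un {v : V} (h : v ≠ 0) : ‖un v‖ = 1 := by
  rw [un, norm_smul, norm_inv, norm_norm, inv_mul_cancel₀ (norm_ne_zero_iff.2 h)]

lemma continuousOn_un : ContinuousOn (un : V → V) {0}ᶜ := by
  unfold un
  exact (continuousOn_id.norm.inv₀ fun v hv => norm_ne_zero_iff.2 hv).smul continuousOn_id

/-- damping -/
noncomputable def lam (ε : ℝ) (u : B m) : ℝ := max 0 (min 1 (1 - (‖u‖ - 1) / ε))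

lemma continuous_lam (ε : ℝ) : Continuous (lam ε : B m → ℝ) := by unfold lam; fun_prop

lemma lam_nonneg (ε : ℝ) (u : B m) : 0 ≤ lam ε u := le_max_left _ _
lemma lam_le_one (ε : ℝ) (u : B m) : lam ε u ≤ 1 := max_le zero_le_one (min_le_left _ _)

lemma lam_one {ε : ℝ} (hε : 0 < ε) {u : B m} (h : ‖u‖ ≤ 1) : lam ε u = 1 := by
  unfold lam
  have : 1 ≤ 1 - (‖u‖ - 1) / ε := by
    have : (‖u‖ - 1) / ε ≤ 0 := div_nonpos_of_nonpos_of_nonneg (by linarith) hε.le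
    linarith
  rw [min_eq_left this, max_eq_right zero_le_one]

lemma lam_zero {ε : ℝ} (hε : 0 < ε) {u : B m} (h : 1 + ε ≤ ‖u‖) : lam ε u = 0 := by
  unfold lam
  have : 1 - (‖u‖ - 1) / ε ≤ 0 := by
    have : 1 ≤ (‖u‖ - 1) / ε := by rw [le_div_iff₀ hε]; linarith
    linarith
  rw [min_eq_right (this.trans zero_le_one), max_eq_left this]

/-- time -/
noncomputable def tm (ε : ℝ) (u : B m) (t : ℝ) : ℝ := -1 + 2 * (t * lam ε u)

lemma tm_mem (ε : ℝ) (u : B m) {t : ℝ} (ht : t ∈ Icc (0:ℝ) 1) : |tm ε u t| ≤ 1 := by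
  unfold tm
  have h1 := lam_nonneg ε u
  have h2 := lam_le_one ε u
  have h3 : 0 ≤ t * lam ε u := mul_nonneg ht.1 h1
  have h4 : t * lam ε u ≤ 1 := mul_le_one₀ ht.2 h1 h2
  rw [abs_le]; constructor <;> linarith

lemma tm_zero (ε : ℝ) (u : B m) : tm ε u 0 = -1 := by unfold tm; ring

lemma tm_one {ε : ℝ} (hε : 0 < ε) {u : B m} (h : ‖u‖ ≤ 1) : tm ε u 1 = 1 := by
  unfold tm; rw [lam_one hε h]; ring

lemma tm_far {ε : ℝ} (hε : 0 < ε) {u : B m} (h : 1 + ε ≤ ‖u‖) (t : ℝ) : tm ε u t = -1 := by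
  unfold tm; rw [lam_zero hε h]; ring

lemma continuous_tm (ε : ℝ) : Continuous fun z : B m × ℝ => tm ε z.1 z.2 := by
  unfold tm
  have := (continuous_lam (m := m) ε).comp (continuous_fst (X := B m) (Y := ℝ))
  exact continuous_const.add (continuous_const.mul (continuous_snd.mul this))

/-- uniform continuity in time -/
lemma unif_time {W : Type*} [NormedAddCommGroup W] {f : B m × ℝ → W}
    (hf : ContinuousOn f (Metric.closedBall 0 1)) (ε' : ℝ) {ε : ℝ} (hε : 0 < ε) :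
    ∃ d > 0, ∀ s ∈ Icc (0:ℝ) 1, ∀ t ∈ Icc (0:ℝ) 1, |s - t| < d → ∀ u : B m,
      ‖f (retr u, tm ε' u s) - f (retr u, tm ε' u t)‖ ≤ ε := by
  have hK : IsCompact (Metric.closedBall (0 : B m × ℝ) 1) := isCompact_closedBall _ _
  have hu := hK.uniformContinuousOn_of_continuous hf
  rw [Metric.uniformContinuousOn_iff] at hu
  obtain ⟨δ, hδ, h⟩ := hu ε hε
  refine ⟨δ / 2, half_pos hδ, fun s hs t ht hst u => ?_⟩
  rw [← dist_eq_norm]
  refine (h _ ?_ _ ?_ ?_).le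
  · rw [mem_closedBall_zero_iff, norm_le_one_iff]; exact ⟨norm_retr_le u, tm_mem ε' u hs⟩
  · rw [mem_closedBall_zero_iff, norm_le_one_iff]; exact ⟨norm_retr_le u, tm_mem ε' u ht⟩
  · rw [Prod.dist_eq, dist_self, Real.dist_eq, max_lt_iff]
    refine ⟨hδ, ?_⟩
    have : tm ε' u s - tm ε' u t = 2 * ((s - t) * lam ε' u) := by unfold tm; ring
    rw [this, abs_mul, abs_mul, abs_of_nonneg (lam_nonneg ε' u), abs_of_pos (by norm_num : (0:ℝ) < 2)]
    have h1 := lam_le_one ε' u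
    have h0 := lam_nonneg ε' u
    have h2 : |s - t| * lam ε' u ≤ |s - t| := mul_le_of_le_one_right (abs_nonneg _) h1
    linarith

section
variable {p : Fin μ → B m} {x ν x' ν' : Fin μ → B m → F m}
    {X N : Fin μ → B m × ℝ → F m}

/-- path of cores -/
noncomputable def pth (L : F m ≃L[ℝ] V) (X : Fin μ → B m × ℝ → F m) (ε : ℝ) (k : Fin μ) (u : B m)
    (t : ℝ) : V := L (X k (retr u, tm ε u t))

/-- path of normals -/
noncomputable def nth (L : F m ≃L[ℝ] V) (N : Fin μ → B m × ℝ → F m) (ε : ℝ) (k : Fin μ) (u : B m)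
    (t : ℝ) : V := un (L (N k (retr u, tm ε u t)))

lemma cz (ε : ℝ) : Continuous fun z : B m × ℝ => (retr z.1, tm ε z.1 z.2) :=
  (continuous_retr.comp continuous_fst).prodMk (continuous_tm ε)

lemma LN_ne (hI : Isot p x ν x' ν' X N) (L : F m ≃L[ℝ] V) (k : Fin μ) (z : B m × ℝ) :
    L (N k z) ≠ 0 := fun h => hI.N_ne z k (by simpa using congrArg L.symm h)

lemma continuous_unN (hI : Isot p x ν x' ν' X N) (L : F m ≃L[ℝ] V) (k : Fin μ) :
    Continuous fun z : B m × ℝ => un (L (N k z)) :=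
  continuousOn_un.comp_continuous (L.continuous.comp (hI.cN k)) (fun z => LN_ne hI L k z)

lemma continuous_pth (hI : Isot p x ν x' ν' X N) (L : F m ≃L[ℝ] V) (ε : ℝ) (k : Fin μ) :
    Continuous fun z : B m × ℝ => pth L X ε k z.1 z.2 :=
  L.continuous.comp ((hI.cX k).comp (cz ε))

lemma continuous_nth (hI : Isot p x ν x' ν' X N) (L : F m ≃L[ℝ] V) (ε : ℝ) (k : Fin μ) :
    Continuous fun z : B m × ℝ => nth L N ε k z.1 z.2 :=
  (continuous_unN hI L k).comp (cz ε)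

lemma norm_nth (hI : Isot p x ν x' ν' X N) (L : F m ≃L[ℝ] V) (ε : ℝ) (k : Fin μ) (u : B m)
    (t : ℝ) : ‖nth L N ε k u t‖ = 1 := norm_un (LN_ne hI L k _)

lemma mem_ball (ε : ℝ) (u : B m) {t : ℝ} (ht : t ∈ Icc (0:ℝ) 1) :
    (retr u, tm ε u t) ∈ Metric.closedBall (0 : B m × ℝ) 1 := by
  rw [mem_closedBall_zero_iff, norm_le_one_iff]; exact ⟨norm_retr_le u, tm_mem ε u ht⟩

lemma exists_dist (hI : Isot p x ν x' ν' X N) (L : F m ≃L[ℝ] V) :
    ∃ c₀ > 0, ∀ k l, k ≠ l → ∀ z ∈ Metric.closedBall (0 : B m × ℝ) 1,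
      c₀ ≤ ‖L (X k z) - L (X l z)‖ := by
  have hK : IsCompact (Metric.closedBall (0 : B m × ℝ) 1) := isCompact_closedBall _ _
  have hKne : (Metric.closedBall (0 : B m × ℝ) 1).Nonempty := ⟨0, by simp⟩
  have hc : ∀ q : Fin μ × Fin μ, ∃ c : ℝ, 0 < c ∧ (q.1 ≠ q.2 →
      ∀ z ∈ Metric.closedBall (0 : B m × ℝ) 1, c ≤ ‖L (X q.1 z) - L (X q.2 z)‖) := by
    rintro ⟨k, l⟩
    by_cases hkl : k = l
    · exact ⟨1, one_pos, fun h => absurd hkl h⟩
    · have hcont : Continuous fun z => ‖L (X k z) - L (X l z)‖ :=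
        ((L.continuous.comp (hI.cX k)).sub (L.continuous.comp (hI.cX l))).norm
      obtain ⟨z0, hz0, hmin⟩ := hK.exists_isMinOn hKne hcont.continuousOn
      refine ⟨‖L (X k z0) - L (X l z0)‖, ?_, fun _ z hz => hmin hz⟩
      rw [norm_pos_iff, sub_ne_zero]
      exact fun h => hI.ne z0 k l hkl (L.injective h)
  choose c hc0 hc1 using hc
  rcases isEmpty_or_nonempty (Fin μ × Fin μ) with hι | hι
  · exact ⟨1, one_pos, fun k l => (hι.false (k, l)).elim⟩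
  · obtain ⟨q, hq⟩ := Finite.exists_min c
    exact ⟨c q, hc0 q, fun k l hkl z hz => (hq (k, l)).trans (hc1 (k, l) hkl z hz)⟩

lemma exists_bound (hI : Isot p x ν x' ν' X N) (L : F m ≃L[ℝ] V) :
    ∃ C : ℝ, ∀ k, ∀ z ∈ Metric.closedBall (0 : B m × ℝ) 1, ‖L (X k z)‖ ≤ C := by
  have hK : IsCompact (Metric.closedBall (0 : B m × ℝ) 1) := isCompact_closedBall _ _
  have h1 : ∀ k, ∃ C : ℝ, ∀ z ∈ Metric.closedBall (0 : B m × ℝ) 1, ‖L (X k z)‖ ≤ C := by
    intro k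
    obtain ⟨C, hC⟩ := (hK.image_of_continuousOn
      (L.continuous.comp (hI.cX k)).continuousOn).isBounded.exists_norm_le
    exact ⟨C, fun z hz => hC _ (mem_image_of_mem _ hz)⟩
  choose C hC using h1
  refine ⟨∑ k, |C k|, fun k z hz => (hC k z hz).trans ((le_abs_self _).trans ?_)⟩
  exact Finset.single_le_sum (f := fun k => |C k|) (fun i _ => abs_nonneg _) (Finset.mem_univ k)

lemma exists_unifN (hI : Isot p x ν x' ν' X N) (L : F m ≃L[ℝ] V) (ε : ℝ) {ε' : ℝ}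
    (hε' : 0 < ε') :
    ∃ n : ℕ, 0 < n ∧ ∀ s ∈ Icc (0 : ℝ) 1, ∀ t ∈ Icc (0 : ℝ) 1, |s - t| ≤ 1 / n →
      ∀ i u, ‖pth L X ε i u s - pth L X ε i u t‖ ≤ ε' ∧
        ‖nth L N ε i u s - nth L N ε i u t‖ ≤ ε' := by
  choose d hd h using fun k => unif_time (f := fun z => L (X k z))
    (L.continuous.comp (hI.cX k)).continuousOn ε hε'
  choose d' hd' h' using fun k => unif_time (f := fun z => un (L (N k z)))
    (continuous_unN hI L k).continuousOn ε hε'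
  obtain ⟨D, hD0, hD1⟩ : ∃ D > 0, ∀ i, D ≤ d i ∧ D ≤ d' i := by
    rcases isEmpty_or_nonempty (Fin μ) with hι | hι
    · exact ⟨1, one_pos, fun i => (hι.false i).elim⟩
    · obtain ⟨i0, hi0⟩ := Finite.exists_min fun i => min (d i) (d' i)
      exact ⟨min (d i0) (d' i0), lt_min (hd _) (hd' _), fun i =>
        ⟨(hi0 i).trans (min_le_left _ _), (hi0 i).trans (min_le_right _ _)⟩⟩
  obtain ⟨n, hn⟩ := exists_nat_one_div_lt hD0
  refine ⟨n + 1, Nat.succ_pos _, fun s hs t ht hst i u => ?_⟩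
  have : |s - t| < D := by
    refine lt_of_le_of_lt hst ?_
    push_cast
    exact hn
  exact ⟨h i s hs t ht (this.trans_le (hD1 i).1) u, h' i s hs t ht (this.trans_le (hD1 i).2) u⟩

lemma nth_rest (hI : Isot p x ν x' ν' X N) (L : F m ≃L[ℝ] V) (ε : ℝ) (u : B m) (hu : 1 ≤ ‖u‖)
    {t : ℝ} (ht : t ∈ Icc (0:ℝ) 1) (k : Fin μ) : nth L N ε k u t = nth L N ε k u 0 := by
  have a1 := (hI.bdry _ (tm_mem ε u ht)).nu k (retr u) (norm_retr_eq hu)
  have a2 := (hI.bdry _ (tm_mem ε u (⟨le_rfl, zero_le_one⟩ : (0:ℝ) ∈ Icc (0:ℝ) 1))).nu k (retr u)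
    (norm_retr_eq hu)
  simp only [nth, a1, a2]

lemma pth_rest (hI : Isot p x ν x' ν' X N) (L : F m ≃L[ℝ] V) (ε : ℝ) (u : B m) (hu : 1 ≤ ‖u‖)
    (ho : Off (retr u)) {t : ℝ} (ht : t ∈ Icc (0:ℝ) 1) (k : Fin μ) :
    pth L X ε k u t = pth L X ε k u 0 := by
  have a1 := (hI.bdry _ (tm_mem ε u ht)).off k (retr u) (norm_retr_eq hu) ho
  have a2 := (hI.bdry _ (tm_mem ε u (⟨le_rfl, zero_le_one⟩ : (0:ℝ) ∈ Icc (0:ℝ) 1))).off k
    (retr u) (norm_retr_eq hu) ho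
  simp only [pth, a1, a2]

/-- the hyperplane `H` in `V` -/
def Hsub (L : F m ≃L[ℝ] V) : Submodule ℝ V :=
  LinearMap.ker ((LinearMap.snd ℝ (B m) ℝ).comp (L.symm : V →ₗ[ℝ] F m))

lemma mem_Hsub {L : F m ≃L[ℝ] V} {y : V} : y ∈ Hsub L ↔ (L.symm y).2 = 0 := Iff.rfl

lemma pth_Hsub (hI : Isot p x ν x' ν' X N) (L : F m ≃L[ℝ] V) (ε : ℝ) (u : B m) (hu : 1 ≤ ‖u‖)
    {t : ℝ} (ht : t ∈ Icc (0:ℝ) 1) (k : Fin μ) :
    pth L X ε k u t - pth L X ε k u 0 ∈ Hsub L := by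
  have a1 := (hI.bdry _ (tm_mem ε u ht)).face k (retr u) (norm_retr_eq hu)
  have a2 := (hI.bdry _ (tm_mem ε u (⟨le_rfl, zero_le_one⟩ : (0:ℝ) ∈ Icc (0:ℝ) 1))).face k
    (retr u) (norm_retr_eq hu)
  rw [mem_Hsub, pth, pth, ← map_sub, ContinuousLinearEquiv.symm_apply_apply, Prod.snd_sub, a1, a2,
    sub_self]

/-- **T1b**: isotopy of systems gives a fibrewise homeomorphism. -/
theorem isot_path (hI : Isot p x ν x' ν' X N) (L : F m ≃L[ℝ] V) {ε : ℝ}
    (hε : 0 < ε) :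
    ∃ R r₀ : ℝ, 0 < r₀ ∧ ∀ r, 0 < r → r ≤ r₀ → ∃ Θ : FHom (B m) V,
      (∀ u k, ‖u‖ ≤ 1 → ∃ Q : V ≃ₗᵢ[ℝ] V, Q (un (L (ν k u))) = un (L (ν' k u)) ∧
        ∀ v, ‖v‖ ≤ r → Θ.fwd u (L (x k u) + v) = L (x' k u) + Q v) ∧
      (∀ u k, ∃ Q : V ≃ₗᵢ[ℝ] V, Q (nth L N ε k u 0) = nth L N ε k u 1 ∧
        ∀ v, ‖v‖ ≤ r → Θ.fwd u (pth L X ε k u 0 + v) = pth L X ε k u 1 + Q v) ∧
      (∀ u y, R ≤ ‖y‖ → Θ.fwd u y = y) ∧
      (∀ u, 1 + ε ≤ ‖u‖ → ∀ y, Θ.fwd u y = y) ∧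
      (∀ u, 1 ≤ ‖u‖ → Off (retr u) → ∀ y, Θ.fwd u y = y) ∧
      (∀ u, 1 ≤ ‖u‖ → ∀ y, (L.symm (Θ.fwd u y - y)).2 = 0) := by
  obtain ⟨c₀, hc₀, hdist⟩ := exists_dist hI L
  obtain ⟨C, hC⟩ := exists_bound hI L
  refine ⟨C + c₀, c₀ / 4, by positivity, fun r hr hrr => ?_⟩
  obtain ⟨Θ, h1, h2, h3, h4⟩ := exists_path (X := B m) (V := V) (x := pth L X ε)
    (ν := nth L N ε)
    (fun i t => (continuous_pth hI L ε i).comp (f := fun u => (u, t)) (by fun_prop))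
    (fun i t => (continuous_nth hI L ε i).comp (f := fun u => (u, t)) (by fun_prop))
    (norm_nth hI L ε) hr
    (fun u t ht i j hij => by
      have h7 : 4 * r ≤ c₀ := by linarith
      exact h7.trans (hdist i j hij _ (mem_ball ε u ht)))
    (fun ε' hε' => exists_unifN hI L ε hε')
  refine ⟨Θ, ?_, ?_, ?_, ?_, ?_, ?_⟩
  · intro u k hu
    obtain ⟨Q, q1, q2⟩ := h1 u k
    simp only [pth, nth, tm_zero, tm_one hε hu, retr_eq hu] at q1 q2
    rw [hI.X_start k u hu, hI.X_fin k u hu] at q2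
    rw [hI.N_start k u hu, hI.N_fin k u hu] at q1
    exact ⟨Q, q1, q2⟩
  · intro u k
    obtain ⟨Q, q1, q2⟩ := h1 u k
    exact ⟨Q, q1, q2⟩
  · intro u y hy
    refine h2 u y fun t ht i => ?_
    have h5 : ‖pth L X ε i u t‖ ≤ C := hC i _ (mem_ball ε u ht)
    have h6 : ‖y‖ ≤ ‖y - pth L X ε i u t‖ + ‖pth L X ε i u t‖ := by
      simpa using norm_add_le (y - pth L X ε i u t) (pth L X ε i u t)
    linarith
  · intro u hu y
    refine h3 u (fun t ht i => ?_) y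
    simp only [pth, nth, tm_far hε hu]
    exact ⟨trivial, trivial⟩
  · intro u hu ho y
    exact h3 u (fun t ht i => ⟨pth_rest hI L ε u hu ho ht i, nth_rest hI L ε u hu ht i⟩) y
  · intro u hu y
    exact h4 (Hsub L) u (fun t ht i => pth_Hsub hI L ε u hu ht i)
      (fun t ht i => nth_rest hI L ε u hu ht i) y

end

end Crest.Agent.R267.IsotPath_184
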