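import Mathlib
import Crest.Agent.R267.FlowC_65

/-!
Row 267, node ISOT, part 3 (helper65): a `C^2` path of complex valued functions on the unit sphere
having `0` as a regular value all along the path has homeomorphic pairs
(sphere, zero set) at its ends; the same with compact support.
-/

set_option autoImplicit false
set_option linter.unusedSectionVars false

namespace Crest.Agent.R267.Isot_65

open Set Metric Filter
open scoped NNReal Topology RealInnerProductSpace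
open Crest.Agent.R267.FlowT_65 Crest.Agent.R267.FlowC_65

/-- a curve in `ℂ` whose velocity vanishes as long as the curve is small stays at `0` -/
theorem zero_of_zero_left (y y' : ℝ → ℂ) (η : ℝ) (hη : 0 < η)
    (hd : ∀ t ∈ Icc (0 : ℝ) 1, HasDerivWithinAt y (y' t) (Icc 0 1) t)
    (h0 : ∀ t ∈ Icc (0 : ℝ) 1, ‖y t‖ ≤ η → y' t = 0) (hz : y 0 = 0) :
    ∀ t ∈ Icc (0 : ℝ) 1, y t = 0 := by
  have hc : ContinuousOn y (Icc 0 1) := fun t ht => (hd t ht).continuousWithinAt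
  have key : Icc (0 : ℝ) 1 ⊆ {t | y t = 0} := by
    refine IsClosed.Icc_subset_of_forall_mem_nhdsWithin ?_ hz ?_
    · have : {t | y t = 0} ∩ Icc 0 1 = Icc 0 1 ∩ y ⁻¹' {0} := by
        ext; simp [and_comm]
      rw [this]
      exact hc.preimage_isClosed_of_isClosed isClosed_Icc isClosed_singleton
    · rintro x ⟨hx0, hx⟩
      have hx0' : y x = 0 := hx0
      have h1 : ∀ᶠ t in 𝓝[Icc 0 1] x, ‖y t‖ < η := by
        have h2 := (hc x (Ico_subset_Icc_self hx)).norm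
        have h3 : ‖y x‖ < η := by rw [hx0']; simpa using hη
        exact h2.eventually_lt_const h3
      have h2 : {t | t ∈ Icc (0 : ℝ) 1 ∧ ‖y t‖ < η} ∈ 𝓝[≥] x := by
        have h3 : Icc (0 : ℝ) 1 ∈ 𝓝[≥] x := Icc_mem_nhdsGE_of_mem hx
        have h4 : ∀ᶠ t in 𝓝[≥] x, ‖y t‖ < η := by
          have : 𝓝[≥] x ≤ 𝓝[Icc 0 1] x := by
            rw [nhdsWithin, nhdsWithin]
            refine le_inf inf_le_left ?_
            rw [le_principal_iff]
            exact h3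
          exact this h1
        filter_upwards [h3, h4] with t ht1 ht2
        exact ⟨ht1, ht2⟩
      obtain ⟨u, hu, hsub⟩ := mem_nhdsGE_iff_exists_Icc_subset.1 h2
      have hu' : x < u := hu
      have hconst : ∀ t ∈ Icc x u, y t = y x := by
        refine constant_of_has_deriv_right_zero (hc.mono fun t ht => (hsub ht).1) ?_
        intro t ht
        have h5 := hsub (Ico_subset_Icc_self ht)
        have h6 := hd t h5.1
        rw [h0 t h5.1 h5.2.le] at h6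
        refine h6.mono_of_mem_nhdsWithin ?_
        have h7 := hsub ⟨hu'.le, le_rfl⟩
        exact Icc_mem_nhdsGE_of_mem ⟨h5.1.1, lt_of_lt_of_le ht.2 h7.1.2⟩
      have h8 : Icc x u ∈ 𝓝[>] x := Icc_mem_nhdsGT hu'
      filter_upwards [h8] with t ht
      show y t = 0
      rw [hconst t ht, hx0']
  exact key

theorem zero_of_zero_right (y y' : ℝ → ℂ) (η : ℝ) (hη : 0 < η)
    (hd : ∀ t ∈ Icc (0 : ℝ) 1, HasDerivWithinAt y (y' t) (Icc 0 1) t)
    (h0 : ∀ t ∈ Icc (0 : ℝ) 1, ‖y t‖ ≤ η → y' t = 0) (hz : y 1 = 0) :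
    ∀ t ∈ Icc (0 : ℝ) 1, y t = 0 := by
  have key := zero_of_zero_left (fun t => y (1 - t)) (fun t => - y' (1 - t)) η hη ?_ ?_ (by simpa using hz)
  · intro t ht
    have := key (1 - t) (one_sub_mem ht)
    simpa using this
  · intro t ht
    have h1 := hd (1 - t) (one_sub_mem ht)
    have h2 : HasDerivWithinAt (fun t : ℝ => 1 - t) (-1) (Icc 0 1) t := by
      simpa using ((hasDerivAt_id t).const_sub 1).hasDerivWithinAt
    have h3 := HasDerivWithinAt.scomp t h1 h2 (fun s hs => one_sub_mem hs)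
    simpa [Function.comp_def] using h3
  · intro t ht h
    show - y' (1 - t) = 0
    rw [h0 (1 - t) (one_sub_mem ht) h, neg_zero]

variable {E : Type*} [NormedAddCommGroup E] [InnerProductSpace ℝ E] [FiniteDimensional ℝ E]

theorem hasDeriv_along (P : ℝ × E → ℂ) (X : ℝ → E → E) (γ : ℝ → E) (hγ : IsSol X γ)
    (t : ℝ) (ht : t ∈ Icc (0 : ℝ) 1) (hP : DifferentiableAt ℝ P (t, γ t)) :
    HasDerivWithinAt (fun t => P (t, γ t)) (fderiv ℝ P (t, γ t) (1, X t (γ t))) (Icc 0 1) t := by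
  have h1 : HasDerivWithinAt (fun t => (t, γ t)) ((1 : ℝ), X t (γ t)) (Icc 0 1) t :=
    (hasDerivWithinAt_id t _).prodMk (hγ t ht)
  exact hP.hasFDerivAt.comp_hasDerivWithinAt (f := fun t => (t, γ t)) t h1

theorem exists_eta (P : ℝ × E → ℂ) (Z : Set (ℝ × E)) (hZ : IsCompact Z)
    (hP : ∀ z ∈ Z, ContDiffAt ℝ 2 P z)
    (hreg : ∀ z ∈ Z, P z = 0 → ∀ w : ℂ, ∃ v : E, fderiv ℝ P z (0, v) = w) :
    ∃ η : ℝ, 0 < η ∧ ∀ z ∈ Z, (‖P z‖ ≤ η → 0 < gD P z) ∧ gD P z + gk η P z ≠ 0 := by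
  have hc : ContinuousOn (fun z => gD P z + ‖P z‖) Z := by
    intro z hz
    exact ((contDiffAt_gD P z (hP z hz)).continuousAt.add
      ((hP z hz).continuousAt.norm)).continuousWithinAt
  have hpos : ∀ z ∈ Z, 0 < gD P z + ‖P z‖ := by
    intro z hz
    by_cases h : P z = 0
    · rw [h, norm_zero, add_zero]
      exact gD_pos P z (hreg z hz h)
    · have := gD_nonneg P z
      have := norm_pos_iff.2 h
      linarith
  obtain ⟨δ, hδ, hδ'⟩ : ∃ δ : ℝ, 0 < δ ∧ ∀ z ∈ Z, δ ≤ gD P z + ‖P z‖ := by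
    rcases Z.eq_empty_or_nonempty with h | h
    · exact ⟨1, one_pos, by simp [h]⟩
    · obtain ⟨z0, hz0, hmin⟩ := hZ.exists_isMinOn h hc
      exact ⟨_, hpos z0 hz0, fun z hz => hmin hz⟩
  refine ⟨δ / 2, by positivity, fun z hz => ?_⟩
  have h1 : ‖P z‖ ≤ δ / 2 → 0 < gD P z := by
    intro h
    have := hδ' z hz
    linarith
  refine ⟨h1, ?_⟩
  by_cases h : ‖P z‖ ≤ δ / 2
  · have h2 := h1 h
    have h3 : 0 ≤ gk (δ / 2) P z := expNegInvGlue.nonneg _
    linarith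
  · push Not at h
    have h2 := gD_nonneg P z
    have h3 : 0 < gk (δ / 2) P z := by
      apply expNegInvGlue.pos_of_pos
      nlinarith
    linarith

/-- the transport field has a flow -/
theorem exists_transport (P : ℝ × E → ℂ) (Kc : Set E) (hK : IsCompact Kc) (ρ : E → ℝ)
    (hρ : ∀ x ∈ Kc, ContDiffAt ℝ 1 ρ x)
    (hP : ∀ t ∈ Icc (0 : ℝ) 1, ∀ x ∈ Kc, ContDiffAt ℝ 2 P (t, x))
    (hreg : ∀ t ∈ Icc (0 : ℝ) 1, ∀ x ∈ Kc, P (t, x) = 0 →
      ∀ w : ℂ, ∃ v : E, fderiv ℝ P (t, x) (0, v) = w)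
    (hout : ∀ η : ℝ, ∀ t ∈ Icc (0 : ℝ) 1, ∀ x ∉ Kc, ∀ᶠ z in 𝓝 (t, x), gX η ρ P z = 0) :
    ∃ η : ℝ, 0 < η ∧ (∀ t ∈ Icc (0 : ℝ) 1, ∀ x ∈ Kc, ‖P (t, x)‖ ≤ η → 0 < gD P (t, x)) ∧
      Nonempty (Flow (fun t x => gX η ρ P (t, x))) := by
  obtain ⟨η, hη, h1⟩ := exists_eta P (Icc (0 : ℝ) 1 ×ˢ Kc) (isCompact_Icc.prod hK)
    (fun z hz => hP z.1 hz.1 z.2 hz.2) (fun z hz h => hreg z.1 hz.1 z.2 hz.2 h)
  refine ⟨η, hη, fun t ht x hx h => (h1 (t, x) ⟨ht, hx⟩).1 h, ?_⟩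
  refine flow_of_C1 (gX η ρ P) Kc hK ?_ ?_
  · intro t ht x
    by_cases hx : x ∈ Kc
    · exact contDiffAt_gX η ρ P (t, x) (hP t ht x hx) (hρ x hx) (h1 (t, x) ⟨ht, hx⟩).2
    · exact contDiffAt_const.congr_of_eventuallyEq (hout η t ht x hx)
  · intro t ht x hx
    exact (hout η t ht x hx).self_of_nhds

/-- zero sets are transported along trajectories staying in the region where the field solves the
linearised equation. -/
theorem zero_iff_of_traj (P : ℝ × E → ℂ) (X : ℝ → E → E) (γ : ℝ → E) (hγ : IsSol X γ) (η : ℝ)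
    (hη : 0 < η) (hP : ∀ t ∈ Icc (0 : ℝ) 1, DifferentiableAt ℝ P (t, γ t))
    (hX : ∀ t ∈ Icc (0 : ℝ) 1, ‖P (t, γ t)‖ ≤ η → fderiv ℝ P (t, γ t) (1, X t (γ t)) = 0) :
    P (0, γ 0) = 0 ↔ P (1, γ 1) = 0 := by
  have hd : ∀ t ∈ Icc (0 : ℝ) 1, HasDerivWithinAt (fun t => P (t, γ t))
      ((fun t => fderiv ℝ P (t, γ t) (1, X t (γ t))) t) (Icc 0 1) t :=
    fun t ht => hasDeriv_along P X γ hγ t ht (hP t ht)
  constructor
  · intro h
    exact zero_of_zero_left (fun t => P (t, γ t)) _ η hη hd hX h 1 ⟨zero_le_one, le_rfl⟩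
  · intro h
    exact zero_of_zero_right (fun t => P (t, γ t)) _ η hη hd hX h 0 ⟨le_rfl, zero_le_one⟩

theorem const_isSol (X : ℝ → E → E) (x : E) (h : ∀ t ∈ Icc (0 : ℝ) 1, X t x = 0) :
    IsSol X (fun _ => x) := by
  intro t ht
  show HasDerivWithinAt (fun _ => x) (X t x) (Icc 0 1) t
  rw [h t ht]
  exact hasDerivWithinAt_const _ _ _

/-- a trajectory which meets a rest point is constant -/
theorem traj_eq_of_rest {X : ℝ → E → E} (F : Flow X) (x y : E)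
    (h : ∀ t ∈ Icc (0 : ℝ) 1, X t x = 0) (s : ℝ) (hs : s ∈ Icc (0 : ℝ) 1) (hy : F.traj y s = x) :
    ∀ t ∈ Icc (0 : ℝ) 1, F.traj y t = x :=
  F.uniq (F.traj y) (fun _ => x) (F.sol y) (const_isSol X x h) s hs hy

theorem fderiv_one_zero_eq_zero (P : ℝ × E → ℂ) (t : ℝ) (ht : t ∈ Icc (0 : ℝ) 1) (x : E)
    (hP : DifferentiableAt ℝ P (t, x)) (hc : ∀ s ∈ Icc (0 : ℝ) 1, P (s, x) = P (0, x)) :
    fderiv ℝ P (t, x) (1, 0) = 0 := by
  have h1 : HasDerivWithinAt (fun s => (s, x)) ((1 : ℝ), (0 : E)) (Icc 0 1) t :=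
    (hasDerivWithinAt_id t _).prodMk (hasDerivWithinAt_const _ _ _)
  have h2 : HasDerivWithinAt (fun s => P (s, x)) (fderiv ℝ P (t, x) (1, 0)) (Icc 0 1) t :=
    hP.hasFDerivAt.comp_hasDerivWithinAt (f := fun s => (s, x)) t h1
  have h3 : HasDerivWithinAt (fun s => P (s, x)) 0 (Icc 0 1) t :=
    (hasDerivWithinAt_const t (Icc (0 : ℝ) 1) (P (0, x))).congr (fun s hs => hc s hs) (hc t ht)
  exact (uniqueDiffOn_Icc zero_lt_one t ht).eq_deriv _ h2 h3

/-- **compact support version.** -/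
theorem isot_compact (G : ℝ → E → ℂ) (C : Set E) (hC : IsCompact C)
    (hG : ∀ s ∈ Icc (0 : ℝ) 1, ∀ x ∈ C, ContDiffAt ℝ 2 (fun z : ℝ × E => G z.1 z.2) (s, x))
    (hreg : ∀ s ∈ Icc (0 : ℝ) 1, ∀ x ∈ C, G s x = 0 → ∀ w : ℂ, ∃ v : E, fderiv ℝ (G s) x v = w)
    (hout : ∀ s ∈ Icc (0 : ℝ) 1, ∀ x ∉ C, G s x = G 0 x) :
    ∃ Φ : E ≃ₜ E, (∀ x ∉ C, Φ x = x) ∧ (∀ x, G 0 x = 0 ↔ G 1 (Φ x) = 0) := by
  classical
  set θ : ℝ → ℝ := Real.smoothTransition with hθ
  have hθm : ∀ s, θ s ∈ Icc (0 : ℝ) 1 := fun s =>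
    ⟨Real.smoothTransition.nonneg s, Real.smoothTransition.le_one s⟩
  let P : ℝ × E → ℂ := fun z => G (θ z.1) z.2
  have hP2 : ∀ s : ℝ, ∀ x ∈ C, ContDiffAt ℝ 2 P (s, x) := by
    intro s x hx
    have h1 : ContDiffAt ℝ 2 (fun z : ℝ × E => (θ z.1, z.2)) (s, x) := by
      refine ContDiffAt.prodMk ?_ contDiffAt_snd
      exact (Real.smoothTransition.contDiff.contDiffAt (x := s)).comp (s, x) contDiffAt_fst
    exact (hG (θ s) (hθm s) x hx).comp (s, x) h1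
  have hPc : ∀ s : ℝ, ∀ x ∉ C, P (s, x) = P (0, x) := by
    intro s x hx
    show G (θ s) x = G (θ 0) x
    rw [hout _ (hθm s) x hx, hout _ (hθm 0) x hx]
  have hreg' : ∀ t ∈ Icc (0 : ℝ) 1, ∀ x ∈ C, P (t, x) = 0 →
      ∀ w : ℂ, ∃ v : E, fderiv ℝ P (t, x) (0, v) = w := by
    intro t ht x hx h0 w
    obtain ⟨v, hv⟩ := hreg (θ t) (hθm t) x hx h0 w
    refine ⟨v, ?_⟩
    have h1 : HasFDerivAt (fun y : E => (t, y)) (ContinuousLinearMap.inr ℝ ℝ E) x :=
      hasFDerivAt_prodMk_right t x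
    have h2 : HasFDerivAt P (fderiv ℝ P (t, x)) (t, x) :=
      ((hP2 t x hx).differentiableAt (by norm_num)).hasFDerivAt
    have h3 : HasFDerivAt (fun y => P (t, y)) ((fderiv ℝ P (t, x)).comp
      (ContinuousLinearMap.inr ℝ ℝ E)) x := h2.comp x h1
    have h4 : fderiv ℝ (G (θ t)) x = (fderiv ℝ P (t, x)).comp (ContinuousLinearMap.inr ℝ ℝ E) :=
      h3.fderiv
    rw [h4] at hv
    simpa using hv
  have hzero : ∀ η : ℝ, ∀ t : ℝ, ∀ x ∉ C, gX η (fun _ => 1) P (t, x) = 0 := by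
    intro η t x hx
    by_cases hd : DifferentiableAt ℝ P (t, x)
    · apply gX_eq_zero
      have h1 : HasDerivAt (fun s => (s, x)) ((1 : ℝ), (0 : E)) t :=
        (hasDerivAt_id t).prodMk (hasDerivAt_const _ _)
      have h2 : HasDerivAt (fun s => P (s, x)) (fderiv ℝ P (t, x) (1, 0)) t :=
        hd.hasFDerivAt.comp_hasDerivAt (f := fun s => (s, x)) t h1
      have h3 : HasDerivAt (fun s => P (s, x)) 0 t :=
        (hasDerivAt_const t (P (0, x))).congr_of_eventuallyEq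
          (Eventually.of_forall fun s => hPc s x hx)
      exact h2.unique h3
    · apply gX_eq_zero
      rw [fderiv_zero_of_not_differentiableAt hd]
      rfl
  obtain ⟨η, hη, hpos, ⟨F⟩⟩ := exists_transport P C hC (fun _ => 1)
    (fun x _ => contDiffAt_const) (fun t _ x hx => hP2 t x hx) hreg' (by
      intro η t ht x hx
      have h1 : ∀ᶠ z : ℝ × E in 𝓝 (t, x), z.2 ∈ Cᶜ :=
        continuous_snd.continuousAt.eventually (hC.isClosed.isOpen_compl.mem_nhds hx)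
      filter_upwards [h1] with z hz
      exact hzero η z.1 z.2 hz)
  have hid : ∀ x ∉ C, ∀ t ∈ Icc (0 : ℝ) 1, F.traj x t = x := by
    intro x hx
    exact traj_eq_of_rest F x x (fun t _ => hzero η t x hx) 0 ⟨le_rfl, zero_le_one⟩ (F.traj_zero x)
  have hin : ∀ x ∈ C, ∀ t ∈ Icc (0 : ℝ) 1, F.traj x t ∈ C := by
    intro x hx t ht
    by_contra hcon
    have h1 := traj_eq_of_rest F (F.traj x t) x (fun s _ => hzero η s _ hcon) t ht rfl 0
      ⟨le_rfl, zero_le_one⟩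
    rw [F.traj_zero] at h1
    rw [← h1] at hcon
    exact hcon hx
  have hθ0 : θ 0 = 0 := Real.smoothTransition.zero
  have hθ1 : θ 1 = 1 := Real.smoothTransition.one
  refine ⟨F.toHomeo, fun x hx => ?_, fun x => ?_⟩
  · rw [← F.traj_one]
    exact hid x hx 1 ⟨zero_le_one, le_rfl⟩
  · by_cases hx : x ∈ C
    · have key := zero_iff_of_traj P _ (F.traj x) (F.sol x) η hη
        (fun t ht => (hP2 t _ (hin x hx t ht)).differentiableAt (by norm_num)) (by
          intro t ht hs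
          exact fderiv_gX η _ P _ rfl (hpos t ht _ (hin x hx t ht) hs) hη.le hs)
      rw [F.traj_zero, F.traj_one] at key
      simpa [P, hθ0, hθ1] using key
    · have h1 : F.toHomeo x = x := by
        rw [← F.traj_one]
        exact hid x hx 1 ⟨zero_le_one, le_rfl⟩
      rw [h1, hout 1 ⟨zero_le_one, le_rfl⟩ x hx]

/-! ### the sphere version -/

/-- radial extension of degree `0` -/
noncomputable def radial (G : ℝ → E → ℂ) (z : ℝ × E) : ℂ := G z.1 (‖z.2‖⁻¹ • z.2)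

theorem norm_normalize {x : E} (hx : x ≠ 0) : ‖(‖x‖⁻¹ • x)‖ = 1 := by
  rw [norm_smul, norm_inv, norm_norm, inv_mul_cancel₀ (norm_ne_zero_iff.2 hx)]

theorem contDiffAt_radial (G : ℝ → E → ℂ) (s : ℝ) (x : E) (hx : x ≠ 0)
    (hG : ContDiffAt ℝ 2 (fun z : ℝ × E => G z.1 z.2) (s, ‖x‖⁻¹ • x)) :
    ContDiffAt ℝ 2 (radial G) (s, x) := by
  have h0 : ContDiffAt ℝ 2 (fun z : ℝ × E => z.2) (s, x) := contDiffAt_snd
  have h1 : ContDiffAt ℝ 2 (fun z : ℝ × E => (z.1, ‖z.2‖⁻¹ • z.2)) (s, x) := by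
    refine ContDiffAt.prodMk contDiffAt_fst ?_
    exact ((h0.norm ℝ hx).inv (norm_ne_zero_iff.2 hx)).smul h0
  exact ContDiffAt.comp (g := fun z : ℝ × E => G z.1 z.2)
    (f := fun z : ℝ × E => (z.1, ‖z.2‖⁻¹ • z.2)) (s, x) hG h1

theorem hasDerivAt_line (P : ℝ × E → ℂ) (s : ℝ) (x v : E) (hP : DifferentiableAt ℝ P (s, x)) :
    HasDerivAt (fun t : ℝ => P (s, x + t • v)) (fderiv ℝ P (s, x) (0, v)) 0 := by
  have h1 : HasDerivAt (fun t : ℝ => (s, x + t • v)) ((0 : ℝ), v) 0 := by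
    refine HasDerivAt.prodMk (hasDerivAt_const _ _) ?_
    simpa using ((hasDerivAt_id (0 : ℝ)).smul_const v).const_add x
  have h2 : HasFDerivAt P (fderiv ℝ P (s, x)) ((fun t : ℝ => (s, x + t • v)) 0) := by
    simpa using hP.hasFDerivAt
  exact h2.comp_hasDerivAt (0 : ℝ) h1

theorem fderiv_radial_self (G : ℝ → E → ℂ) (s : ℝ) (x : E) : fderiv ℝ (radial G) (s, x) (0, x) = 0 := by
  by_cases hx : x = 0
  · rw [hx]
    have : ((0 : ℝ), (0 : E)) = 0 := rfl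
    rw [this, map_zero]
  by_cases hd : DifferentiableAt ℝ (radial G) (s, x)
  · have h1 := hasDerivAt_line (radial G) s x x hd
    have h2 : HasDerivAt (fun t : ℝ => radial G (s, x + t • x)) 0 0 := by
      refine (hasDerivAt_const (0 : ℝ) (radial G (s, x))).congr_of_eventuallyEq ?_
      have h3 : ∀ᶠ t : ℝ in 𝓝 0, -1 < t := lt_mem_nhds (by norm_num)
      filter_upwards [h3] with t ht
      have h4 : x + t • x = (1 + t) • x := by rw [add_smul, one_smul]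
      have h5 : 0 < 1 + t := by linarith
      show G s (‖x + t • x‖⁻¹ • (x + t • x)) = G s (‖x‖⁻¹ • x)
      congr 1
      rw [h4, norm_smul, Real.norm_of_nonneg h5.le, smul_smul]
      congr 1
      field_simp
    exact h1.unique h2
  · rw [fderiv_zero_of_not_differentiableAt hd]
    rfl

theorem fderiv_radial_tangent (G : ℝ → E → ℂ) (s : ℝ) (x v : E) (hx : x ≠ 0) (hv : ⟪x, v⟫ = 0)
    (hG : DifferentiableAt ℝ (G s) (‖x‖⁻¹ • x)) (hd : DifferentiableAt ℝ (radial G) (s, x)) :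
    fderiv ℝ (radial G) (s, x) (0, v) = fderiv ℝ (G s) (‖x‖⁻¹ • x) (‖x‖⁻¹ • v) := by
  have h1 := hasDerivAt_line (radial G) s x v hd
  have hx' : ‖x‖ ≠ 0 := norm_ne_zero_iff.2 hx
  have hl : HasDerivAt (fun t : ℝ => x + t • v) v 0 := by
    simpa using ((hasDerivAt_id (0 : ℝ)).smul_const v).const_add x
  have hn2 : HasDerivAt (fun t : ℝ => ‖x + t • v‖ ^ 2) 0 0 := by
    have := hl.norm_sq
    simpa [hv] using this
  have hn : HasDerivAt (fun t : ℝ => ‖x + t • v‖) 0 0 := by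
    have h3 : HasDerivAt (fun t : ℝ => Real.sqrt (‖x + t • v‖ ^ 2)) 0 0 := by
      have h4 := hn2.sqrt (by simpa using hx')
      simpa using h4
    refine h3.congr_of_eventuallyEq (Eventually.of_forall fun t => ?_)
    exact (Real.sqrt_sq (norm_nonneg _)).symm
  have hinv : HasDerivAt (fun t : ℝ => ‖x + t • v‖⁻¹) 0 0 := by
    have h3 : HasDerivAt (fun t : ℝ => ‖x + t • v‖⁻¹) (-0 / ‖x + (0 : ℝ) • v‖ ^ 2) 0 :=
      hn.inv (by simpa using hx')
    simpa using h3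
  have hN : HasDerivAt (fun t : ℝ => ‖x + t • v‖⁻¹ • (x + t • v)) (‖x‖⁻¹ • v) 0 := by
    have h3 : HasDerivAt (fun t : ℝ => ‖x + t • v‖⁻¹ • (x + t • v))
        (‖x + (0 : ℝ) • v‖⁻¹ • v + (0 : ℝ) • (x + (0 : ℝ) • v)) 0 := hinv.smul hl
    simpa only [zero_smul, add_zero] using h3
  have h2 : HasDerivAt (fun t : ℝ => radial G (s, x + t • v))
      (fderiv ℝ (G s) (‖x‖⁻¹ • x) (‖x‖⁻¹ • v)) 0 := by
    have h3 : HasFDerivAt (G s) (fderiv ℝ (G s) (‖x‖⁻¹ • x))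
        ((fun t : ℝ => ‖x + t • v‖⁻¹ • (x + t • v)) 0) := by
      simpa using hG.hasFDerivAt
    exact h3.comp_hasDerivAt (0 : ℝ) hN
  exact h1.unique h2

theorem exists_cutoff : ∃ ρ : E → ℝ, ContDiff ℝ 1 ρ ∧ (∀ x, ‖x‖ = 1 → ρ x = 1) ∧
    (∀ x, ‖x‖ ^ 2 < 1 / 2 → ρ x = 0) ∧ (∀ x, 3 / 2 < ‖x‖ ^ 2 → ρ x = 0) := by
  let f : ContDiffBump (1 : ℝ) := ⟨1 / 4, 1 / 2, by norm_num, by norm_num⟩
  refine ⟨fun x => f (‖x‖ ^ 2), f.contDiff.comp (contDiff_norm_sq ℝ), ?_, ?_, ?_⟩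
  · intro x hx
    have : ‖x‖ ^ 2 = 1 := by rw [hx]; norm_num
    show f (‖x‖ ^ 2) = 1
    rw [this]
    exact f.one_of_mem_closedBall (by simp [f])
  · intro x hx
    apply f.zero_of_le_dist
    rw [Real.dist_eq]
    show (1 : ℝ) / 2 ≤ _
    rw [abs_of_nonpos (by linarith)]
    linarith
  · intro x hx
    apply f.zero_of_le_dist
    rw [Real.dist_eq]
    show (1 : ℝ) / 2 ≤ _
    rw [abs_of_nonneg (by linarith)]
    linarith

/-- **sphere version.** -/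
theorem isot_sphere (G : ℝ → E → ℂ)
    (hG : ∀ s ∈ Icc (0 : ℝ) 1, ∀ x : E, ‖x‖ = 1 →
      ContDiffAt ℝ 2 (fun z : ℝ × E => G z.1 z.2) (s, x))
    (hreg : ∀ s ∈ Icc (0 : ℝ) 1, ∀ x : E, ‖x‖ = 1 → G s x = 0 →
      ∀ w : ℂ, ∃ v : E, ⟪x, v⟫ = 0 ∧ fderiv ℝ (G s) x v = w) :
    ∃ h : sphere (0 : E) 1 ≃ₜ sphere (0 : E) 1,
      (∀ x : sphere (0 : E) 1, G 0 x = 0 ↔ G 1 (h x) = 0) ∧
      (∀ x : sphere (0 : E) 1, (∀ s ∈ Icc (0 : ℝ) 1, G s x = G 0 x) → h x = x) := by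
  obtain ⟨ρ, hρ, hρ1, hρ2, hρ3⟩ := exists_cutoff (E := E)
  set P := radial G with hPdef
  let Kc : Set E := {x | 1 / 2 ≤ ‖x‖ ^ 2 ∧ ‖x‖ ^ 2 ≤ 3 / 2}
  have hKclosed : IsClosed Kc :=
    (isClosed_le continuous_const (continuous_norm.pow 2)).inter
      (isClosed_le (continuous_norm.pow 2) continuous_const)
  have hK : IsCompact Kc := by
    refine Metric.isCompact_of_isClosed_isBounded hKclosed ?_
    refine (isBounded_closedBall (x := (0 : E)) (r := 2)).subset ?_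
    rintro x ⟨_, hx⟩
    rw [mem_closedBall_zero_iff]
    have := norm_nonneg x
    nlinarith
  have hne : ∀ x ∈ Kc, x ≠ 0 := by
    rintro x ⟨hx, _⟩ h
    rw [h] at hx
    norm_num at hx
  have hP : ∀ t ∈ Icc (0 : ℝ) 1, ∀ x ∈ Kc, ContDiffAt ℝ 2 P (t, x) := by
    intro t ht x hx
    exact contDiffAt_radial G t x (hne x hx) (hG t ht _ (norm_normalize (hne x hx)))
  have hslice : ∀ s ∈ Icc (0 : ℝ) 1, ∀ x : E, ‖x‖ = 1 → DifferentiableAt ℝ (G s) x := by
    intro s hs x hx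
    have h1 := (hG s hs x hx).differentiableAt (by norm_num)
    exact DifferentiableAt.comp (f := fun y : E => (s, y)) (g := fun z : ℝ × E => G z.1 z.2) x h1
      (hasFDerivAt_prodMk_right s x).differentiableAt
  have hreg' : ∀ t ∈ Icc (0 : ℝ) 1, ∀ x ∈ Kc, P (t, x) = 0 →
      ∀ w : ℂ, ∃ v : E, fderiv ℝ P (t, x) (0, v) = w := by
    intro t ht x hx h0 w
    have hx0 := hne x hx
    have hx' : ‖x‖ ≠ 0 := norm_ne_zero_iff.2 hx0
    obtain ⟨v, hv, hw⟩ := hreg t ht _ (norm_normalize hx0) h0 w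
    refine ⟨‖x‖ • v, ?_⟩
    have hv' : ⟪x, v⟫ = 0 := by
      rw [real_inner_smul_left] at hv
      rcases mul_eq_zero.1 hv with h | h
      · exact absurd h (inv_ne_zero hx')
      · exact h
    rw [hPdef, fderiv_radial_tangent G t x (‖x‖ • v) hx0
      (by rw [real_inner_smul_right, hv', mul_zero])
      (hslice t ht _ (norm_normalize hx0)) ((hP t ht x hx).differentiableAt (by norm_num)),
      smul_smul, inv_mul_cancel₀ hx', one_smul, hw]
  obtain ⟨η, hη, hpos, ⟨F⟩⟩ := exists_transport P Kc hK ρ (fun x _ => hρ.contDiffAt) hP hreg' (by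
    intro η t ht x hx
    have h1 : ∀ᶠ z : ℝ × E in 𝓝 (t, x), z.2 ∈ Kcᶜ :=
      continuous_snd.continuousAt.eventually (hKclosed.isOpen_compl.mem_nhds hx)
    filter_upwards [h1] with z hz
    have h2 : ρ z.2 = 0 := by
      by_cases h3 : ‖z.2‖ ^ 2 < 1 / 2
      · exact hρ2 _ h3
      · push Not at h3
        refine hρ3 _ ?_
        by_contra h4
        push Not at h4
        exact hz ⟨h3, h4⟩
    unfold gX
    rw [h2, zero_mul, zero_smul])
  have hnorm : ∀ x : E, ‖x‖ = 1 → ∀ t ∈ Icc (0 : ℝ) 1, ‖F.traj x t‖ = 1 := by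
    intro x hx t ht
    have h1 : ∀ t ∈ Icc (0 : ℝ) 1, HasDerivWithinAt (fun t => ‖F.traj x t‖ ^ 2) 0 (Icc 0 1) t := by
      intro t ht
      have h2 := (F.sol x t ht).norm_sq
      have h3 : ⟪F.traj x t, gX η ρ P (t, F.traj x t)⟫ = 0 := by
        rw [real_inner_comm]
        exact inner_gX η ρ P _ _ (fderiv_radial_self G t _)
      rw [h3, mul_zero] at h2
      exact h2
    have h4 : ContinuousOn (fun t => ‖F.traj x t‖ ^ 2) (Icc 0 1) :=
      fun t ht => (h1 t ht).continuousWithinAt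
    have h5 := constant_of_has_deriv_right_zero h4 (fun t ht => by
      refine (h1 t (Ico_subset_Icc_self ht)).mono_of_mem_nhdsWithin ?_
      exact Icc_mem_nhdsGE_of_mem ht) t ht
    have h6 : ‖F.traj x t‖ ^ 2 = 1 := by
      rw [h5, F.traj_zero, hx]; norm_num
    have h7 := norm_nonneg (F.traj x t)
    nlinarith
  have hnorm' : ∀ x : E, ‖x‖ = 1 ↔ ‖F.toHomeo x‖ = 1 := by
    have h1 : (1 : ℝ) ∈ Icc (0 : ℝ) 1 := ⟨zero_le_one, le_rfl⟩
    have hnsq : ∀ x : E, ‖F.toHomeo x‖ ^ 2 = ‖x‖ ^ 2 := by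
      intro x
      have h2 : ∀ t ∈ Icc (0 : ℝ) 1, HasDerivWithinAt (fun t => ‖F.traj x t‖ ^ 2) 0 (Icc 0 1) t := by
        intro t ht
        have h2 := (F.sol x t ht).norm_sq
        have h3 : ⟪F.traj x t, gX η ρ P (t, F.traj x t)⟫ = 0 := by
          rw [real_inner_comm]
          exact inner_gX η ρ P _ _ (fderiv_radial_self G t _)
        rw [h3, mul_zero] at h2
        exact h2
      have h4 : ContinuousOn (fun t => ‖F.traj x t‖ ^ 2) (Icc 0 1) :=
        fun t ht => (h2 t ht).continuousWithinAt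
      have h5 := constant_of_has_deriv_right_zero h4 (fun t ht => by
        refine (h2 t (Ico_subset_Icc_self ht)).mono_of_mem_nhdsWithin ?_
        exact Icc_mem_nhdsGE_of_mem ht) 1 h1
      rw [F.traj_zero, F.traj_one] at h5
      exact h5
    intro x
    have h2 := hnsq x
    have h3 := norm_nonneg x
    have h4 := norm_nonneg (F.toHomeo x)
    constructor
    · intro h
      rw [h] at h2
      nlinarith
    · intro h
      rw [h] at h2
      nlinarith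
  have hmem : ∀ x : E, x ∈ sphere (0 : E) 1 ↔ F.toHomeo x ∈ sphere (0 : E) 1 := by
    intro x
    rw [mem_sphere_zero_iff_norm, mem_sphere_zero_iff_norm]
    exact hnorm' x
  have hKs : ∀ x : E, ‖x‖ = 1 → x ∈ Kc := by
    intro x hx
    refine ⟨?_, ?_⟩ <;> rw [hx] <;> norm_num
  have hPeq : ∀ s : ℝ, ∀ x : E, ‖x‖ = 1 → P (s, x) = G s x := by
    intro s x hx
    show G s (‖x‖⁻¹ • x) = G s x
    rw [hx, inv_one, one_smul]
  refine ⟨F.toHomeo.subtype hmem, ?_, ?_⟩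
  · rintro ⟨x, hx⟩
    rw [mem_sphere_zero_iff_norm] at hx
    have key := zero_iff_of_traj P _ (F.traj x) (F.sol x) η hη
      (fun t ht => (hP t ht _ (hKs _ (hnorm x hx t ht))).differentiableAt (by norm_num)) (by
        intro t ht hs
        exact fderiv_gX η _ P _ (hρ1 _ (hnorm x hx t ht))
          (hpos t ht _ (hKs _ (hnorm x hx t ht)) hs) hη.le hs)
    rw [F.traj_zero, F.traj_one, hPeq 0 x hx, hPeq 1 _ ((hnorm' x).1 hx)] at key
    exact key
  · rintro ⟨x, hx⟩ hc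
    rw [mem_sphere_zero_iff_norm] at hx
    apply Subtype.ext
    show F.toHomeo x = x
    rw [← F.traj_one]
    refine traj_eq_of_rest F x x ?_ 0 ⟨le_rfl, zero_le_one⟩ (F.traj_zero x) 1 ⟨zero_le_one, le_rfl⟩
    intro t ht
    apply gX_eq_zero
    refine fderiv_one_zero_eq_zero P t ht x ((hP t ht _ (hKs _ hx)).differentiableAt (by norm_num)) ?_
    intro s hs
    rw [hPeq s x hx, hPeq 0 x hx]
    exact hc s hs

end Crest.Agent.R267.Isot_65
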