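import Crest.Agent.R267.AbsK_996
import Crest.Agent.R267.R4N_957

/-!
# Row 267, T3aN: K2 in region I for the signed function
-/

set_option autoImplicit false

noncomputable section

namespace Crest.Agent.R267.K2IN_957

open Filter Topology Finset
open Crest.Agent.R267.T3aDefs_957 (st Af Bf pg NN chi gq)
open Crest.Agent.R267.T3aDefs_957.LD (Ev vt vs Cen)
open Crest.Agent.R267.T3aNDefs_88 Crest.Agent.R267.CalcN_88 Crest.Agent.R267.Calc3N_88
open Crest.Agent.R267.Calc4N_88 Crest.Agent.R267.Calc5N_88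
open Crest.Agent.R267.Calc_957 (pvd)
open Crest.Agent.R267.Calc4_957 (tau dtau dtau_apply)
open Crest.Agent.R267.TLine_996 (SA SB)
open Crest.Agent.R267.CLine_996 (lc lc_re lc_im lc_zero)
open Crest.Agent.R267.AbsG_996 Crest.Agent.R267.AbsK_996
open Crest.Agent.R267.K1N_957 (abs_im_plN re_of_crit Be_nonneg)
open Crest.Agent.R267.R4N_957 (plN_re_le LD_mono)

variable {N : ℕ}

/-- `SD.G` as an abstract lobed function. -/
def ag (D : SD N) (cB ga d : ℝ) : AG N where
  K1 := D.K1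
  ga := ga
  T := 16 * D.Mx + 1
  P := fun j => plN ga (D.sn j) (D.M j)
  B := fun z => cB * ga * ∑ e, D.Be d e z

theorem ag_G (D : SD N) (cB ga d : ℝ) : (ag D cB ga d).G d = D.G cB ga d := rfl

theorem plN_hom (ga : ℝ) (e : ℕ → ℝ) (M : ℕ) (w : ℂ) (r : ℝ) (hr : 0 < r) :
    plN ga e M ((r : ℂ) * w) = (r : ℂ) * plN ga e M w := by
  have e1 : ((r : ℂ) * w).re = r * w.re := Complex.re_ofReal_mul _ _
  have e2 : ((r : ℂ) * w).im = r * w.im := Complex.im_ofReal_mul _ _
  unfold plN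
  rw [e1, e2, mul_div_mul_left _ _ hr.ne']
  by_cases h : 0 < w.re
  · rw [if_pos h, if_pos (mul_pos hr h)]
    push_cast
    ring
  · rw [if_neg h, if_neg (fun h1 => h ((mul_pos_iff_of_pos_left hr).1 h1))]
    push_cast
    ring

theorem M_le (D : SD N) (j : Fin N) : (D.M j : ℝ) ≤ D.Mx := by
  exact_mod_cast M_le_Mx D j

theorem ag_ok (D : SD N) {cB ga : ℝ} (d : ℝ) (hc : 0 ≤ cB) (hg : 0 < ga) (hg1 : ga < 1) :
    (ag D cB ga d).Ok where
  T1 := by
    show (1 : ℝ) ≤ 16 * D.Mx + 1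
    have : (0 : ℝ) ≤ D.Mx := Nat.cast_nonneg _
    linarith
  K1T := by
    show (16 * (D.Mx : ℝ) + 1) * N ≤ (16 * D.Mx + 2) * N
    have : (0 : ℝ) ≤ N := Nat.cast_nonneg _
    gcongr
    norm_num
  ga0 := hg
  ga1 := hg1
  diff := fun j w hw => (hasFDerivAt_plN ga (D.sn j) (D.M j) hw).differentiableAt
  far := fun j w h => by
    change (16 * (D.Mx : ℝ) + 1) * w.re < |w.im| at h
    show plN ga (D.sn j) (D.M j) w = _
    have : plN ga (D.sn j) (D.M j) w = -((2 - ga : ℝ) : ℂ) * w.re - Complex.I * w.im := by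
      rcases le_or_gt w.re 0 with h1 | h1
      · exact plN_of_nonpos h1
      · refine plN_of_far (Or.inl ?_)
        have := M_le D j
        refine le_trans ?_ h.le
        gcongr
    exact this
  hom := fun j w r hr => plN_hom ga (D.sn j) (D.M j) w r hr
  re_le := fun j w h => plN_re_le (D.M j) h
  im_le := fun j w => by
    refine (abs_im_plN (abs_sn D j) (D.M j) w).trans ?_
    have h1 : (1 : ℝ) ≤ D.M j := by exact_mod_cast D.hM j
    have h2 := M_le D j
    show 3 * |w.re| + |w.im| ≤ (16 * (D.Mx : ℝ) + 1) * (|w.re| + |w.im|)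
    have h3 := abs_nonneg w.re
    have h4 := abs_nonneg w.im
    nlinarith
  crit := fun j w hw h => by
    have e : fderiv ℝ (plN ga (D.sn j) (D.M j)) w Complex.I = pbN (D.sn j) (D.M j) w := by
      rw [(hasFDerivAt_plN ga (D.sn j) (D.M j) hw).fderiv]
      simp
    change (fderiv ℝ (plN ga (D.sn j) (D.M j)) w Complex.I).im = 0 at h
    rw [e] at h
    unfold pbN at h
    split_ifs at h with hs
    · refine ⟨hs, ?_⟩
      have h1 := re_of_crit (ga := ga) (abs_sn D j) h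
      show (plN ga (D.sn j) (D.M j) w).re ≤ _
      rw [plN_of_pos hs, Complex.re_ofReal_mul, mul_comm]
      exact mul_le_mul_of_nonneg_right h1 hs.le
    · simp at h
  B0 := fun z => mul_nonneg (mul_nonneg hc hg.le) (sum_nonneg fun e _ => Be_nonneg D d e z)

/-- a real function along a line. -/
theorem comp_lc' {f : (Fin N → ℂ) → ℝ} {f' : (Fin N → ℂ) →L[ℝ] ℝ} {z : Fin N → ℂ}
    (hf : HasFDerivAt f f' z) (y : Fin N → ℂ) : HasDerivAt (fun h => f (lc z y h)) (f' y) 0 := by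
  have h1 : HasDerivAt (fun h : ℝ => lc z y h) y 0 := by
    rw [hasDerivAt_pi]
    intro i
    have : HasDerivAt (fun h : ℝ => z i + (h : ℂ) * y i) (y i) 0 := by
      simpa using ((hasDerivAt_id (0 : ℝ)).ofReal_comp.mul_const (y i)).const_add (z i)
    exact this
  have h2 : HasFDerivAt f f' (lc z y 0) := by rwa [lc_zero]
  exact h2.comp_hasDerivAt (0 : ℝ) h1

theorem dBe_nonpos (D : SD N) {cB ga d : ℝ} (hd : 0 < d) {z : Fin N → ℂ} (hz : z ≠ 0)
    (y : Fin N → ℂ)
    (h : ∀ i, z i = 0 ∨ (ag D cB ga d).T * (z i).re < |(z i).im| ∨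
      (0 < (z i).re ∧ y i = -(z i / ((z i).re : ℂ)) ∧
        ∃ r ≤ 0, HasDerivAt (fun h => (ag D cB ga d).R d (lc z y h) i) r 0))
    (e : Fin D.nb) : dBe D d z e y ≤ 0 := by
  classical
  unfold dBe
  split_ifs with hp
  swap
  · simp
  have far : ∀ j ∈ (D.bx e).S, (ag D cB ga d).T * (z j).re < |(z j).im| →
      la D z e j = 0 ∧ lad D z e j = 0 := by
    intro j hj hf
    refine win_far (D.hhi e j hj) (hp j hj) ?_
    change (16 * (D.Mx : ℝ) + 1) * (z j).re < |(z j).im| at hf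
    have := M_le D j
    have h0 := hp j hj
    refine le_trans ?_ hf.le
    gcongr
  have hne : ∀ j ∈ (D.bx e).S, z j ≠ 0 := fun j hj h0 => by
    have := hp j hj
    rw [h0] at this
    simp at this
  have e1 : dPw D z e y = 0 := by
    unfold dPw
    rw [ContinuousLinearMap.sum_apply]
    refine sum_eq_zero fun j hj => ?_
    rw [ContinuousLinearMap.smul_apply, smul_eq_mul]
    rcases h j with h0 | h0 | ⟨h0, h1, -⟩
    · exact absurd h0 (hne j hj)
    · rw [(far j hj h0).2]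
      ring
    · rw [dtau_apply, h1]
      have a1 : (-(z j / ((z j).re : ℂ))).re = -1 := by
        rw [Complex.neg_re, Complex.div_ofReal_re, div_self h0.ne']
      have a2 : (-(z j / ((z j).re : ℂ))).im = -tau z j := by
        rw [Complex.neg_im, Complex.div_ofReal_im]
        rfl
      rw [a1, a2]
      simp
  simp only [ContinuousLinearMap.add_apply, ContinuousLinearMap.smul_apply, smul_eq_mul]
  rw [e1, mul_zero, add_zero]
  by_cases hf : ∃ j ∈ (D.bx e).S, (ag D cB ga d).T * (z j).re < |(z j).im|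
  · obtain ⟨j, hj, hf⟩ := hf
    rw [Pw_of_la D hj (far j hj hf).1, zero_mul]
  · push Not at hf
    refine mul_nonpos_of_nonneg_of_nonpos (Pw_nonneg D z e) ?_
    unfold dhh
    rw [ContinuousLinearMap.sum_apply]
    refine sum_nonpos fun j hj => ?_
    rw [ContinuousLinearMap.smul_apply, smul_eq_mul]
    refine mul_nonpos_of_nonneg_of_nonpos (hd_nonneg D d z e j) ?_
    obtain ⟨-, -, r, hr, hr'⟩ := ((h j).resolve_left (hne j hj)).resolve_left (not_lt.2 (hf j hj))
    have h3 := comp_lc' (hasFDerivAt_R D hd hz (hp j hj)) y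
    have h4 : dR D d z j y = r := h3.unique hr'
    rw [h4]
    exact hr

theorem ag_BOk (D : SD N) {cB ga d : ℝ} (hc : 0 ≤ cB) (hg : 0 < ga) (hd : 0 < d) :
    BOk (ag D cB ga d) d := by
  intro z hz y h
  refine ⟨cB * ga * ∑ e, dBe D d z e y, ?_, ?_⟩
  · exact mul_nonpos_of_nonneg_of_nonpos (mul_nonneg hc hg.le)
      (sum_nonpos fun e _ => dBe_nonpos D hd hz y h e)
  · exact (HasDerivAt.fun_sum fun e _ => comp_lc' (hasFDerivAt_Be D hd hz e) y).const_mul _

/-- **K2 in region I** (no condition on `G z`). -/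
theorem k2IN (D : SD N) : Ev fun c g d => ∀ z : Fin N → ℂ, z ≠ 0 →
    ¬ II D z → ∃ Y : Fin N → ℝ, (fderiv ℝ (D.G c g d) z (vs 1 Y)).im = 0 ∧
      0 < (fderiv ℝ (D.G c g d) z (vs 1 Y)).re := by
  obtain ⟨d0, hd0, hdk⟩ := exists_dOk1 (N := N) D.K1 (16 * D.Mx + 1)
  have h1 : Ev fun c g d => 0 < c ∧ 0 < g ∧ g * (9 * N + 1) ≤ 1 / 2 ∧ 0 < d ∧ d ≤ d0 := by
    refine ⟨1, one_pos, fun c hc => ⟨1 / (2 * (9 * N + 1)), by positivity, fun g hg hg' =>
      ⟨d0, hd0, fun d h h' => ⟨by linarith, hg, ?_, h, h'⟩⟩⟩⟩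
    rw [le_div_iff₀ (by positivity)] at hg'
    linarith
  refine LD_mono h1 fun c g d ⟨hc, hg, hg1, hdp, hd1⟩ z hz h2 => ?_
  have hN0 : (0 : ℝ) ≤ N := Nat.cast_nonneg _
  have hg2 : g < 1 := by nlinarith
  have hG : DifferentiableAt ℝ ((ag D c g d).G d) z :=
    (hasFDerivAt_G D c g hdp hz).differentiableAt
  have hok := ag_ok D d hc.le hg hg2
  obtain ⟨k1, k2, k3⟩ := hdk d hdp hd1 (ag D c g d) hok rfl rfl
  exact AbsK_996.k2I hok hdp k1 k2 k3 hg1 (ag_BOk D hc.le hg hdp) hz hG (not_le.1 h2)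

end Crest.Agent.R267.K2IN_957
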