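import Crest.Agent.R267.AbsK_996
import Crest.Agent.R267.R4_996

/-!
# Row 267, T3a: K2 in region I for `T3aDefs_957.LD.G`
-/

set_option autoImplicit false

noncomputable section

namespace Crest.Agent.R267.K2I_996

open Set Filter Topology Finset
open Crest.Agent.R267.T3aDefs_957 Crest.Agent.R267.Calc_957
open Crest.Agent.R267.TLine_996 (SA SB plt)
open Crest.Agent.R267.K1_996 (M_le_Mx pl_im_abs re_of_crit Be_nonneg)
open Crest.Agent.R267.CLine_996 (lc lc_re lc_im lc_zero hasDerivAt_H)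
open Crest.Agent.R267.AbsG_996 Crest.Agent.R267.AbsK_996

variable {N : ℕ}

/-- `LD.G` as an abstract lobed function. -/
def ag (D : LD N) (cB ga d : ℝ) : AG N where
  K1 := D.K1
  ga := ga
  T := 8 * D.Mx + 1
  P := fun j => pl ga (D.M j)
  B := fun z => cB * ga * ∑ e ∈ D.C, D.Be d e z

theorem ag_G (D : LD N) (cB ga d : ℝ) : (ag D cB ga d).G d = D.G cB ga d := rfl

lemma pl_hom (ga : ℝ) (M : ℕ) (w : ℂ) (r : ℝ) (hr : 0 < r) :
    pl ga M ((r : ℂ) * w) = (r : ℂ) * pl ga M w := by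
  have e1 : ((r : ℂ) * w).re = r * w.re := Complex.re_ofReal_mul _ _
  have e2 : ((r : ℂ) * w).im = r * w.im := Complex.im_ofReal_mul _ _
  unfold pl
  rw [e1, e2, mul_div_mul_left _ _ hr.ne']
  by_cases h : 0 < w.re
  · rw [if_pos h, if_pos (mul_pos hr h)]
    push_cast
    ring
  · rw [if_neg h, if_neg (fun h1 => h ((mul_pos_iff_of_pos_left hr).1 h1))]
    push_cast
    ring

lemma ag_ok (D : LD N) {cB ga : ℝ} (d : ℝ) (hc : 0 ≤ cB) (hg : 0 < ga) (hg1 : ga < 1) :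
    (ag D cB ga d).Ok where
  T1 := by
    show (1 : ℝ) ≤ 8 * D.Mx + 1
    have : (0 : ℝ) ≤ D.Mx := Nat.cast_nonneg _
    linarith
  K1T := by
    show (8 * (D.Mx : ℝ) + 1) * N ≤ (8 * D.Mx + 2) * N
    have : (0 : ℝ) ≤ N := Nat.cast_nonneg _
    gcongr
    norm_num
  ga0 := hg
  ga1 := hg1
  diff := fun j w hw => (Calc2_957.hasFDerivAt_pl ga (D.M j) hw).differentiableAt
  far := fun j w h => by
    change (8 * (D.Mx : ℝ) + 1) * w.re < |w.im| at h
    show pl ga (D.M j) w = _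
    have : pl ga (D.M j) w = -((2 - ga : ℝ) : ℂ) * w.re - Complex.I * w.im := by
      rcases le_or_gt w.re 0 with h1 | h1
      · exact pl_of_nonpos h1
      · refine K1_996.pl_far ?_
        unfold K1_996.Far
        rw [abs_of_pos h1]
        have := M_le_Mx D j
        refine le_trans ?_ h.le
        gcongr
    exact this
  hom := fun j w r hr => pl_hom ga (D.M j) w r hr
  re_le := fun j w h => R4_996.pl_re_le (D.M j) h
  im_le := fun j w => by
    refine (pl_im_abs ga (D.M j) w).trans ?_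
    have := M_le_Mx D j
    show (8 * (D.M j : ℝ) + 1) * (|w.re| + |w.im|) ≤ (8 * (D.Mx : ℝ) + 1) * (|w.re| + |w.im|)
    gcongr
  crit := fun j w hw h => by
    have e : fderiv ℝ (pl ga (D.M j)) w Complex.I = plt (D.M j) w := by
      rw [(Calc2_957.hasFDerivAt_pl ga (D.M j) hw).fderiv]
      simp [Calc2_957.pb, plt]
    have h1 := re_of_crit (ga := ga) (M := D.M j) (w := w) (by
      rw [← e]; exact h)
    exact ⟨h1.1, h1.2.le⟩
  B0 := fun z => mul_nonneg (mul_nonneg hc hg.le) (sum_nonneg fun e _ => Be_nonneg D d e z)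

lemma win_nonneg (m M : ℕ) (τ : ℝ) : 0 ≤ win m M τ :=
  mul_nonneg (st_nonneg _) (by have := st_le_one ((τ - (8 * M - 1)) / 2); linarith)

lemma Be_deriv (D : LD N) {cB ga d : ℝ} (hd : 0 < d) {z : Fin N → ℂ} (hz : z ≠ 0)
    (y : Fin N → ℂ)
    (h : ∀ i, z i = 0 ∨ (ag D cB ga d).T * (z i).re < |(z i).im| ∨
      (0 < (z i).re ∧ y i = -(z i / ((z i).re : ℂ)) ∧
        ∃ r ≤ 0, HasDerivAt (fun h => (ag D cB ga d).R d (lc z y h) i) r 0))
    (e : Fin N × Fin N × ℕ) : ∃ b ≤ 0, HasDerivAt (fun h => D.Be d e (lc z y h)) b 0 := by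
  have hzero : ∀ i m M, M ≤ D.Mx → (z i = 0 ∨ (ag D cB ga d).T * (z i).re < |(z i).im|) →
      ∀ᶠ h in 𝓝 (0 : ℝ), D.R d (lc z y h) i = 0 ∨
        win m M ((lc z y h i).im / (lc z y h i).re) = 0 := by
    intro i m M hM hi
    filter_upwards [off_near (A := ag D cB ga d) (y := y) hd hz hi] with h hh
    rcases hh with h1 | ⟨h1, h2⟩
    · exact Or.inl h1
    · right
      refine Curve_867.win_far (le_trans ?_ h2.le)
      show 8 * (M : ℝ) + 1 ≤ 8 * D.Mx + 1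
      have : (M : ℝ) ≤ D.Mx := by exact_mod_cast hM
      linarith
  have hMx : ∀ j, D.M j ≤ D.Mx := fun j => by
    have := M_le_Mx D j
    exact_mod_cast this
  have hd0 : ∀ f : ℝ → ℝ, (∀ᶠ h in 𝓝 (0 : ℝ), f h = 0) → ∃ b ≤ 0, HasDerivAt f b 0 :=
    fun f hf => ⟨0, le_rfl, (hasDerivAt_const (0 : ℝ) (0 : ℝ)).congr_of_eventuallyEq hf⟩
  by_cases h1 : z e.1 = 0 ∨ (ag D cB ga d).T * (z e.1).re < |(z e.1).im|
  · refine hd0 _ ?_
    filter_upwards [hzero e.1 e.2.2 (D.M e.1) (hMx _) h1] with h hh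
    unfold LD.Be
    rcases hh with hh | hh
    · rw [hh]; simp
    · rw [hh]; simp
  by_cases h2 : z e.2.1 = 0 ∨ (ag D cB ga d).T * (z e.2.1).re < |(z e.2.1).im|
  · refine hd0 _ ?_
    filter_upwards [hzero e.2.1 (D.M e.2.1 - 1) (D.M e.2.1) (hMx _) h2] with h hh
    unfold LD.Be
    rcases hh with hh | hh
    · rw [hh]; simp
    · rw [hh]; simp
  push Not at h1 h2
  obtain ⟨s1, y1, r1, hr1, k1⟩ := ((h e.1).resolve_left h1.1).resolve_left (not_lt.2 h1.2)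
  obtain ⟨s2, y2, r2, hr2, k2⟩ := ((h e.2.1).resolve_left h2.1).resolve_left (not_lt.2 h2.2)
  have nn : ∀ i, ∀ᶠ h in 𝓝 (0 : ℝ), 0 ≤ (ag D cB ga d).R d (lc z y h) i := fun i =>
    Eventually.of_forall fun h => R_nonneg _ d _ i
  have k3 := hasDerivAt_H k1 k2 (nn _) (nn _)
  set u := (ag D cB ga d).R d (lc z y 0) e.1
  set v := (ag D cB ga d).R d (lc z y 0) e.2.1
  have k4 := k3.mul_const (win e.2.2 (D.M e.1) ((z e.1).im / (z e.1).re) *
      win (D.M e.2.1 - 1) (D.M e.2.1) ((z e.2.1).im / (z e.2.1).re))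
  refine ⟨_, ?_, k4.congr_of_eventuallyEq ?_⟩
  · refine mul_nonpos_of_nonpos_of_nonneg (div_nonpos_of_nonpos_of_nonneg ?_ (sq_nonneg _))
      (mul_nonneg (win_nonneg _ _ _) (win_nonneg _ _ _))
    have a1 : v ^ 2 * r1 ≤ 0 := mul_nonpos_of_nonneg_of_nonpos (sq_nonneg _) hr1
    have a2 : u ^ 2 * r2 ≤ 0 := mul_nonpos_of_nonneg_of_nonpos (sq_nonneg _) hr2
    linarith
  · filter_upwards [tau_near s1 y1, tau_near s2 y2] with h e1 e2
    unfold LD.Be
    rw [e1, e2]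
    rfl

lemma ag_BOk (D : LD N) {cB ga d : ℝ} (hc : 0 ≤ cB) (hg : 0 < ga) (hd : 0 < d) :
    BOk (ag D cB ga d) d := by
  intro z hz y h
  choose b hb0 hb using fun e => Be_deriv D hd hz y h e
  refine ⟨cB * ga * ∑ e ∈ D.C, b e, ?_, (HasDerivAt.fun_sum fun e _ => hb e).const_mul _⟩
  exact mul_nonpos_of_nonneg_of_nonpos (mul_nonneg hc hg.le) (sum_nonpos fun e _ => hb0 e)

/-- **K2 in region I** (no condition on `G z`). -/
theorem k2I (D : LD N) (hS : D.Smooth) : LD.Ev fun c g d => ∀ z : Fin N → ℂ, z ≠ 0 →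
    D.K1 ^ 2 * SA z < SB z → ∃ Y : Fin N → ℝ, (fderiv ℝ (D.G c g d) z (LD.vs 1 Y)).im = 0 ∧
      0 < (fderiv ℝ (D.G c g d) z (LD.vs 1 Y)).re := by
  obtain ⟨d0, hd0, hdk⟩ := exists_dOk1 (N := N) D.K1 (8 * D.Mx + 1)
  have h1 : LD.Ev fun c g d => 0 < c ∧ 0 < g ∧ g * (9 * N + 1) ≤ 1 / 2 ∧ 0 < d ∧ d ≤ d0 := by
    refine ⟨1, one_pos, fun c hc => ⟨1 / (2 * (9 * N + 1)), by positivity, fun g hg hg' =>
      ⟨d0, hd0, fun d h h' => ⟨by linarith, hg, ?_, h, h'⟩⟩⟩⟩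
    rw [le_div_iff₀ (by positivity)] at hg'
    linarith
  refine (hS.and h1).mono fun c g d _ _ _ ⟨hs, hc, hg, hg1, hdp, hd1⟩ z hz h2 => ?_
  have hN0 : (0 : ℝ) ≤ N := Nat.cast_nonneg _
  have hg2 : g < 1 := by nlinarith
  have hG : DifferentiableAt ℝ ((ag D c g d).G d) z :=
    (hs.contDiffAt (isOpen_compl_singleton.mem_nhds hz)).differentiableAt (by norm_num)
  have hok := ag_ok D d hc.le hg hg2
  obtain ⟨k1, k2, k3⟩ := hdk d hdp hd1 (ag D c g d) hok rfl rfl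
  exact AbsK_996.k2I hok hdp k1 k2 k3 hg1 (ag_BOk D hc.le hg hdp) hz hG h2

end Crest.Agent.R267.K2I_996
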