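import Crest.Agent.R267.LemL_951

/-!
# K2 of T3a, region II (`|t| ≤ K1 |s|`): the inequality behind it, as a statement on numbers

At a zero of `G = ∑ χ_j P_j - B` let `u` be a unit vector with `0 < u.re` which kills all
derivatives `w_j` in the directions `i e_j`. Then `rf u (w_0) > 0`, `w_0` the derivative in the
direction `(-1, …, -1)`; `rf u (w_0) = ∑ tm j`.

* window index (`Wp j`): `0 < s j`, `P = s p`, `p = (-(1-ga) + A) + i Bv`, `R = X s`,
  `tm = rho (u.re * HB - rf u p)`, `HB = ∂B/∂R_j`;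
* other index: `P = -(2-ga) s - i t`;
* `fl j`: the cut-off is `1` near the point.
-/

set_option autoImplicit false
set_option linter.unusedSectionVars false

noncomputable section

open Finset

namespace Crest.Agent.R267.K2b_867

open Crest.Agent.R267.LemL_951

/-- the numbers at the point. -/
structure Dat (ι ε : Type) where
  ga : ℝ
  K : ℝ
  cB : ℝ
  cT : ℝ
  KM : ℝ
  cO : ℝ
  d : ℝ
  ν : ℝ
  s : ι → ℝ
  t : ι → ℝ
  X : ι → ℝ
  rho : ι → ℝ
  A : ι → ℝ
  Bv : ι → ℝ
  tB : ι → ℝ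
  kp : ι → ℝ
  tm : ι → ℝ
  Wp : ι → Prop
  fl : ι → Prop
  src : ε → ι
  tgt : ε → ι
  la : ε → ℝ
  be : ε → ℝ
  hh : ε → ℝ
  h1 : ε → ℝ
  h2 : ε → ℝ
  u : ℂ
  eu : ℝ

namespace Dat

variable {ι ε : Type} [Fintype ι] [Fintype ε] (D : Dat ι ε)

/-- value of the loop. -/
def p (j : ι) : ℂ := ⟨-(1 - D.ga) + D.A j, D.Bv j⟩

open Classical in
/-- `∂B/∂R_j`. -/
def HB (j : ι) : ℝ :=
  D.cB * D.ga * ∑ e, ((if D.src e = j then D.la e * D.be e * D.h1 e else 0) +
    (if D.tgt e = j then D.la e * D.be e * D.h2 e else 0))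

/-- the deletion term. -/
def B : ℝ := ∑ e, D.cB * D.ga * (D.hh e * (D.la e * D.be e))

/-- window index at the left flat side or on the vertical line. -/
def TT (j : ι) : Prop :=
  D.A j = -1 ∧ 1 ≤ D.kp j ∧ D.X j * D.kp j * D.u.im + D.u.re * D.tB j = 0 ∧
    |D.tB j| ≤ D.cT * D.X j ∧ (D.tB j ≠ 0 → |D.Bv j| ≤ D.KM)

/-- the windows do not move with the angle of `j`. -/
def Cst (j : ι) : Prop :=
  (∀ e, D.src e = j → D.la e = 0 ∨ D.la e = 1) ∧ (∀ e, D.tgt e = j → D.be e = 0 ∨ D.be e = 1)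

/-- right arc. -/
def RA (j : ι) : Prop := 0 ≤ D.A j ∧ D.A j ≤ 1 ∧ 1 ≤ D.eu * D.Bv j ∧ D.eu * D.Bv j ≤ 13 / 8

/-- left arc. -/
def LA (j : ι) : Prop := -1 ≤ D.A j ∧ D.A j ≤ 0 ∧ 1 ≤ -(D.eu * D.Bv j) ∧ -(D.eu * D.Bv j) ≤ 13 / 8

/-- window index on the curve. -/
def NN (j : ι) : Prop :=
  D.Cst j ∧ ((D.u.im = 0 ∧ D.A j = 1) ∨ (D.u.im ≠ 0 ∧ (D.RA j ∨ D.LA j)))

/-- hypotheses on the constants, `N` = number of variables, `M` = number of edges. -/
structure Con (N M : ℝ) : Prop where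
  hN : 1 ≤ N
  hM : 0 ≤ M
  hga : 0 < D.ga
  hga2 : D.ga ≤ 1 / 4
  hga3 : 6 * N * D.ga ≤ 1 / 8
  hcB : 12 * N < D.cB
  hcT : 0 ≤ D.cT
  hcT2 : 6 * N * (13 / 8 * D.cT) ≤ 1 / 8
  hKM : 0 ≤ D.KM
  hcT3 : D.KM * D.cT ≤ 1 / 8
  hK : 39 * N ≤ D.K
  hcO : 0 ≤ D.cO
  hd : 0 < D.d
  hd1 : N ^ 2 * (4 + 2 * D.KM + D.cO) * D.d < 1
  hd2 : 8 * N ^ 2 * D.d ≤ D.ga
  hd3 : 2 * D.d * (2 * N * (M + 1) * D.cB) < 1

/-- hypotheses at the point. -/
structure Ok : Prop where
  hu : D.u.re ^ 2 + D.u.im ^ 2 = 1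
  hu0 : 0 < D.u.re
  heu : D.eu = 1 ∨ D.eu = -1
  heu2 : D.u.im = D.eu * |D.u.im|
  hν : 0 < D.ν
  big : D.ν ^ 2 ≤ ∑ j, D.s j ^ 2
  X0 : ∀ j, 0 ≤ D.X j
  X1 : ∀ j, D.X j ≤ 1
  fl1 : ∀ j, D.fl j → D.X j = 1
  fl0 : ∀ j, ¬ D.fl j → |D.s j| ≤ 2 * D.d * D.ν
  -- window indices
  Ws : ∀ j, D.Wp j → 0 < D.s j
  rX : ∀ j, D.Wp j → D.X j ≤ D.rho j
  r6 : ∀ j, D.Wp j → D.rho j ≤ 6
  r0 : ∀ j, D.Wp j → D.X j = 0 → D.rho j = 0
  Wt : ∀ j, D.Wp j → D.tm j = D.rho j * (D.u.re * D.HB j - rf D.u (D.p j))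
  Wc : ∀ j, D.Wp j → 0 < D.X j → D.TT j ∨ D.NN j
  -- other indices
  Vt : ∀ j, ¬ D.Wp j → 0 ≤ D.tm j
  Vf : ∀ j, ¬ D.Wp j → D.fl j → D.u.im = 0 ∧ D.u.re ≤ D.tm j
  VK : ∀ j, ¬ D.Wp j → 0 < D.X j → D.K * |D.u.im| ≤ 2 * D.u.re
  VO : ∀ j, ¬ D.Wp j → ¬ D.fl j → |D.t j| ≤ D.cO * D.d * D.ν
  -- edges
  la0 : ∀ e, 0 ≤ D.la e
  la1 : ∀ e, D.la e ≤ 1
  be0 : ∀ e, 0 ≤ D.be e
  be1 : ∀ e, D.be e ≤ 1
  hh0 : ∀ e, 0 ≤ D.hh e
  h10 : ∀ e, 0 ≤ D.h1 e
  h20 : ∀ e, 0 ≤ D.h2 e
  h12 : ∀ e, 0 < D.hh e → 1 / 2 ≤ D.h1 e + D.h2 e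
  hs : ∀ e, D.hh e * (D.la e * D.be e) ≠ 0 → D.hh e ≤ D.X (D.src e) * D.s (D.src e) ∧
    D.hh e ≤ D.X (D.tgt e) * D.s (D.tgt e) ∧ D.Wp (D.src e) ∧ D.Wp (D.tgt e)
  /-- `Re G = 0`. -/
  Zr : ∑ j, (open Classical in if D.Wp j then D.X j * D.s j * (-(1 - D.ga) + D.A j)
    else -(D.X j * ((2 - D.ga) * D.s j))) = D.B
  /-- `Im G = 0`. -/
  Zi : ∑ j, (open Classical in if D.Wp j then D.X j * D.s j * D.Bv j
    else -(D.X j * D.t j)) = 0

section main

variable {D} (hc : D.Con (Fintype.card ι) (Fintype.card ε)) (ok : D.Ok)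

include hc ok

lemma cg0 : 0 < D.cB * D.ga := mul_pos (by linarith [hc.hcB, hc.hN]) hc.hga

lemma HB0 (j : ι) : 0 ≤ D.HB j := by
  unfold Dat.HB
  refine mul_nonneg (cg0 hc ok).le (Finset.sum_nonneg fun e _ => ?_)
  have h1 := mul_nonneg (mul_nonneg (ok.la0 e) (ok.be0 e)) (ok.h10 e)
  have h2 := mul_nonneg (mul_nonneg (ok.la0 e) (ok.be0 e)) (ok.h20 e)
  split_ifs <;> linarith

lemma B0 : 0 ≤ D.B := by
  unfold Dat.B
  refine Finset.sum_nonneg fun e _ => ?_
  exact mul_nonneg (cg0 hc ok).le (mul_nonneg (ok.hh0 e) (mul_nonneg (ok.la0 e) (ok.be0 e)))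

lemma exists_big : ∃ j, D.ν ≤ Fintype.card ι * |D.s j| := by
  have hν := ok.big
  by_contra h
  simp only [not_exists, not_le] at h
  have hN := hc.hN
  have hN0 : 0 < (Fintype.card ι : ℝ) := by linarith
  have hne : (Finset.univ : Finset ι).Nonempty := by
    rw [Finset.univ_nonempty_iff, ← Fintype.card_pos_iff]
    exact_mod_cast hN0
  have h1 : ∀ j, (Fintype.card ι : ℝ) ^ 2 * D.s j ^ 2 < D.ν ^ 2 := by
    intro j
    have h2 := h j
    have h3 : 0 ≤ (Fintype.card ι : ℝ) * |D.s j| := by positivity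
    calc (Fintype.card ι : ℝ) ^ 2 * D.s j ^ 2 = ((Fintype.card ι : ℝ) * |D.s j|) ^ 2 := by
          rw [mul_pow, sq_abs]
      _ < D.ν ^ 2 := pow_lt_pow_left₀ h2 h3 (by norm_num)
  have h4 : ∑ j, (Fintype.card ι : ℝ) ^ 2 * D.s j ^ 2 < ∑ _j : ι, D.ν ^ 2 :=
    Finset.sum_lt_sum_of_nonempty hne fun j _ => h1 j
  rw [← Finset.mul_sum, Finset.sum_const, Finset.card_univ, nsmul_eq_mul] at h4
  have h5 : (Fintype.card ι : ℝ) * D.ν ^ 2 ≤ (Fintype.card ι : ℝ) ^ 2 * ∑ j, D.s j ^ 2 := by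
    have h6 : (Fintype.card ι : ℝ) ≤ (Fintype.card ι : ℝ) ^ 2 := by nlinarith
    calc (Fintype.card ι : ℝ) * D.ν ^ 2 ≤ (Fintype.card ι : ℝ) ^ 2 * D.ν ^ 2 :=
          mul_le_mul_of_nonneg_right h6 (sq_nonneg _)
      _ ≤ _ := mul_le_mul_of_nonneg_left hν (sq_nonneg _)
  linarith

lemma fl_of_big {j : ι} (h : D.ν ≤ Fintype.card ι * |D.s j|) : D.fl j := by
  by_contra hf
  have h1 := ok.fl0 j hf
  have hν := ok.hν
  have hN := hc.hN
  have hd := hc.hd
  have hd1 := hc.hd1
  have hKM := hc.hKM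
  have hcO := hc.hcO
  have h3 : D.ν ≤ Fintype.card ι * (2 * D.d * D.ν) :=
    h.trans (mul_le_mul_of_nonneg_left h1 (by linarith))
  have h4 : (Fintype.card ι : ℝ) * (2 * D.d) < 1 := by
    have h5 : (Fintype.card ι : ℝ) * (2 * D.d) ≤
        (Fintype.card ι : ℝ) ^ 2 * (4 + 2 * D.KM + D.cO) * D.d := by
      have h6 : (Fintype.card ι : ℝ) * 2 ≤ (Fintype.card ι : ℝ) ^ 2 * (4 + 2 * D.KM + D.cO) := by
        have h7 : (Fintype.card ι : ℝ) ≤ (Fintype.card ι : ℝ) ^ 2 := by nlinarith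
        nlinarith [mul_nonneg (sq_nonneg (Fintype.card ι : ℝ)) hKM,
          mul_nonneg (sq_nonneg (Fintype.card ι : ℝ)) hcO]
      nlinarith
    linarith
  nlinarith

lemma rf_p (j : ι) : rf D.u (D.p j) = D.u.re * (-(1 - D.ga) + D.A j) + D.u.im * D.Bv j := rfl

lemma im_B (j : ι) : D.u.im * D.Bv j = |D.u.im| * (D.eu * D.Bv j) := by
  conv_lhs => rw [ok.heu2]
  ring

/-- `rf u p` on a right arc. -/
lemma rf_RA {j : ι} (h : D.RA j) : rf D.u (D.p j) ≤ D.u.re * D.ga + 13 / 8 * |D.u.im| := by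
  rw [rf_p hc ok, im_B hc ok]
  obtain ⟨-, h2, -, h4⟩ := h
  have h5 : |D.u.im| * (D.eu * D.Bv j) ≤ |D.u.im| * (13 / 8) :=
    mul_le_mul_of_nonneg_left h4 (abs_nonneg _)
  have h6 : D.u.re * (-(1 - D.ga) + D.A j) ≤ D.u.re * D.ga :=
    mul_le_mul_of_nonneg_left (by linarith) ok.hu0.le
  linarith

/-- `rf u p` on a left arc. -/
lemma rf_LA {j : ι} (h : D.LA j) : rf D.u (D.p j) ≤ -(D.u.re * (1 - D.ga)) := by
  rw [rf_p hc ok, im_B hc ok]
  obtain ⟨-, h2, h3, -⟩ := h
  have h5 : |D.u.im| * (D.eu * D.Bv j) ≤ 0 :=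
    mul_nonpos_of_nonneg_of_nonpos (abs_nonneg _) (by linarith)
  have h6 : D.u.re * (-(1 - D.ga) + D.A j) ≤ D.u.re * (-(1 - D.ga)) :=
    mul_le_mul_of_nonneg_left (by linarith) ok.hu0.le
  linarith

/-- `|u.im| ≤ cT u.re` if there is an active `TT` index. -/
lemma im_TT {j : ι} (h : D.TT j) (hX : 0 < D.X j) : |D.u.im| ≤ D.cT * D.u.re := by
  obtain ⟨-, h2, h3, h4, -⟩ := h
  have hu0 := ok.hu0
  have h5 : D.X j * D.kp j * |D.u.im| = D.u.re * |D.tB j| := by
    have h6 : D.X j * D.kp j * D.u.im = -(D.u.re * D.tB j) := by linarith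
    have h7 := congrArg abs h6
    rw [abs_neg, abs_mul, abs_mul, abs_mul, abs_of_pos hX,
      abs_of_pos (by linarith : 0 < D.kp j), abs_of_pos hu0] at h7
    exact h7
  have h6 : D.X j * |D.u.im| ≤ D.X j * (D.cT * D.u.re) := by
    calc D.X j * |D.u.im| ≤ D.X j * |D.u.im| * D.kp j := by
          have := mul_nonneg hX.le (abs_nonneg D.u.im)
          nlinarith
      _ = D.u.re * |D.tB j| := by rw [← h5]; ring
      _ ≤ D.u.re * (D.cT * D.X j) := mul_le_mul_of_nonneg_left h4 hu0.le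
      _ = _ := by ring
  exact le_of_mul_le_mul_left h6 hX

/-- `rf u p` at an active `TT` index. -/
lemma rf_TT {j : ι} (h : D.TT j) (hX : 0 < D.X j) :
    rf D.u (D.p j) ≤ -(D.u.re * (15 / 8 - D.ga)) := by
  have h1 := im_TT hc ok h hX
  obtain ⟨hA, h2, h3, h4, h5⟩ := h
  have hu0 := ok.hu0
  rw [rf_p hc ok, hA]
  by_cases ht : D.tB j = 0
  · rw [ht, mul_zero, add_zero] at h3
    have h6 : D.u.im = 0 := by
      rcases mul_eq_zero.1 h3 with h7 | h7
      · rcases mul_eq_zero.1 h7 with h8 | h8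
        · exact absurd h8 hX.ne'
        · linarith
      · exact h7
    rw [h6, zero_mul, add_zero]
    nlinarith
  · have h6 := h5 ht
    have h7 : D.u.im * D.Bv j ≤ D.u.re * (1 / 8) := by
      calc D.u.im * D.Bv j ≤ |D.u.im * D.Bv j| := le_abs_self _
        _ = |D.u.im| * |D.Bv j| := abs_mul _ _
        _ ≤ (D.cT * D.u.re) * D.KM :=
          mul_le_mul h1 h6 (abs_nonneg _) (mul_nonneg hc.hcT hu0.le)
        _ = D.u.re * (D.KM * D.cT) := by ring
        _ ≤ D.u.re * (1 / 8) := mul_le_mul_of_nonneg_left hc.hcT3 hu0.le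
    nlinarith

/-- lower bound for all terms. -/
lemma tm_ge (j : ι) : -(6 * (D.u.re * D.ga + 13 / 8 * |D.u.im|)) +
    (open Classical in if D.Wp j then D.u.re * (D.rho j * D.HB j) else 0) ≤ D.tm j := by
  classical
  have hu0 := ok.hu0
  have hga := hc.hga
  have hga2 := hc.hga2
  have h0 : 0 ≤ D.u.re * D.ga + 13 / 8 * |D.u.im| := by positivity
  by_cases hj : D.Wp j
  · rw [if_pos hj, ok.Wt j hj]
    have hX := ok.X0 j
    have hr := ok.rX j hj
    have hr6 := ok.r6 j hj
    have h1 : rf D.u (D.p j) * D.rho j ≤ 6 * (D.u.re * D.ga + 13 / 8 * |D.u.im|) := by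
      rcases eq_or_lt_of_le hX with h2 | h2
      · rw [ok.r0 j hj h2.symm, mul_zero]; linarith
      · have h3 : rf D.u (D.p j) ≤ D.u.re * D.ga + 13 / 8 * |D.u.im| := by
          rcases ok.Wc j hj h2 with h4 | ⟨-, ⟨h4, h5⟩ | ⟨-, h4 | h4⟩⟩
          · have := rf_TT hc ok h4 h2
            nlinarith
          · rw [rf_p hc ok, h4, h5, zero_mul, add_zero, abs_zero, mul_zero, add_zero]
            nlinarith
          · exact rf_RA hc ok h4
          · have := rf_LA hc ok h4
            nlinarith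
        calc rf D.u (D.p j) * D.rho j ≤ (D.u.re * D.ga + 13 / 8 * |D.u.im|) * D.rho j :=
              mul_le_mul_of_nonneg_right h3 (by linarith)
          _ ≤ (D.u.re * D.ga + 13 / 8 * |D.u.im|) * 6 := mul_le_mul_of_nonneg_left hr6 h0
          _ = _ := mul_comm _ _
    have h2 : D.rho j * (D.u.re * D.HB j - rf D.u (D.p j)) =
        D.u.re * (D.rho j * D.HB j) - rf D.u (D.p j) * D.rho j := by ring
    linarith
  · rw [if_neg hj, add_zero]
    have := ok.Vt j hj
    linarith

/-- one heavy index and a bound for `|u.im|` suffice. -/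
lemma pos_of_heavy {j0 : ι} (h : D.u.re * (1 - D.ga) ≤ D.tm j0)
    (hr : 6 * Fintype.card ι * (13 / 8 * |D.u.im|) ≤ D.u.re / 2) : 0 < ∑ j, D.tm j := by
  classical
  have hu0 := ok.hu0
  have h1 : ∑ j, (-(6 * (D.u.re * D.ga + 13 / 8 * |D.u.im|)) +
      if j = j0 then D.u.re * (1 - D.ga) else 0) ≤ ∑ j, D.tm j := by
    refine Finset.sum_le_sum fun j _ => ?_
    split_ifs with h2
    · rw [h2]
      have : 0 ≤ 6 * (D.u.re * D.ga + 13 / 8 * |D.u.im|) := by
        have := hc.hga; positivity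
      linarith
    · have h3 := tm_ge hc ok j
      have h4 : 0 ≤ (open Classical in if D.Wp j then D.u.re * (D.rho j * D.HB j) else 0) := by
        split_ifs with h5
        · have := HB0 hc ok j
          have := ok.X0 j
          have := ok.rX j h5
          have : 0 ≤ D.rho j := by linarith
          positivity
        · exact le_rfl
      linarith
  rw [Finset.sum_add_distrib, Finset.sum_const, Finset.card_univ, nsmul_eq_mul,
    Finset.sum_ite_eq' Finset.univ j0, if_pos (Finset.mem_univ _)] at h1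
  have h2 := hc.hga3
  have h3 := hc.hga2
  have h4 : (Fintype.card ι : ℝ) * (6 * (D.u.re * D.ga)) ≤ D.u.re * (1 / 8) := by
    calc (Fintype.card ι : ℝ) * (6 * (D.u.re * D.ga)) = D.u.re * (6 * Fintype.card ι * D.ga) := by
          ring
      _ ≤ _ := mul_le_mul_of_nonneg_left h2 hu0.le
  nlinarith

/-- a full window index which is not on the right is heavy. -/
lemma heavy_of {j : ι} (hj : D.Wp j) (hf : D.fl j)
    (h : rf D.u (D.p j) ≤ -(D.u.re * (1 - D.ga))) : D.u.re * (1 - D.ga) ≤ D.tm j := by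
  rw [ok.Wt j hj]
  have hX := ok.fl1 j hf
  have hr := ok.rX j hj
  rw [hX] at hr
  have hu0 := ok.hu0
  have h1 := mul_nonneg hu0.le (HB0 hc ok j)
  have h2 := hc.hga2
  have h3 : 0 ≤ D.u.re * (1 - D.ga) := mul_nonneg hu0.le (by linarith)
  nlinarith

/-- `u` not real: all active indices `RA`/`LA` is impossible. -/
lemma im_bound (hne : D.u.im ≠ 0) :
    6 * Fintype.card ι * (13 / 8 * |D.u.im|) ≤ D.u.re / 2 := by
  classical
  have hu0 := ok.hu0
  have hN := hc.hN
  have hN0 : 0 < (Fintype.card ι : ℝ) := by linarith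
  by_cases h1 : ∃ j, D.Wp j ∧ 0 < D.X j ∧ D.TT j
  · obtain ⟨j, -, hX, hT⟩ := h1
    have h2 := im_TT hc ok hT hX
    have h3 := hc.hcT2
    calc 6 * (Fintype.card ι : ℝ) * (13 / 8 * |D.u.im|)
        ≤ 6 * (Fintype.card ι : ℝ) * (13 / 8 * (D.cT * D.u.re)) := by
          refine mul_le_mul_of_nonneg_left ?_ (by positivity)
          linarith
      _ = (6 * Fintype.card ι * (13 / 8 * D.cT)) * D.u.re := by ring
      _ ≤ 1 / 8 * D.u.re := mul_le_mul_of_nonneg_right h3 hu0.le
      _ ≤ D.u.re / 2 := by linarith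
  · by_cases h2 : ∃ j, ¬ D.Wp j ∧ 0 < D.X j
    · obtain ⟨j, hj, hX⟩ := h2
      have h3 := ok.VK j hj hX
      have h4 := hc.hK
      have h5 : 39 * Fintype.card ι * |D.u.im| ≤ D.K * |D.u.im| :=
        mul_le_mul_of_nonneg_right h4 (abs_nonneg _)
      linarith
    · exfalso
      simp only [not_exists, not_and] at h1 h2
      have hcase : ∀ j, D.X j ≠ 0 → D.Wp j ∧ (D.RA j ∨ D.LA j) := by
        intro j hX
        have hX0 : 0 < D.X j := lt_of_le_of_ne (ok.X0 j) (Ne.symm hX)
        have hj : D.Wp j := by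
          by_contra hj
          exact h2 j hj hX0
        refine ⟨hj, ?_⟩
        rcases ok.Wc j hj hX0 with h3 | ⟨-, ⟨h3, -⟩ | ⟨-, h3⟩⟩
        · exact absurd h3 (h1 j hj hX0)
        · exact absurd h3 hne
        · exact h3
      have key : ∀ j, (if D.Wp j then D.X j * D.s j * (-(1 - D.ga) + D.A j)
          else -(D.X j * ((2 - D.ga) * D.s j))) ≤
          7 / 20 * (D.eu * (if D.Wp j then D.X j * D.s j * D.Bv j else -(D.X j * D.t j))) -
            1 / 10 * (if D.Wp j then D.X j * D.s j else 0) := by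
        intro j
        by_cases hX : D.X j = 0
        · simp [hX]
        · obtain ⟨hj, h3⟩ := hcase j hX
          rw [if_pos hj, if_pos hj, if_pos hj]
          have hR : 0 ≤ D.X j * D.s j := mul_nonneg (ok.X0 j) (ok.Ws j hj).le
          have hga2 := hc.hga2
          have h5 : -(1 - D.ga) + D.A j ≤ 7 / 20 * (D.eu * D.Bv j) - 1 / 10 := by
            rcases h3 with ⟨-, h4, h5, -⟩ | ⟨-, h4, -, h5⟩ <;> linarith
          have h6 := mul_le_mul_of_nonneg_left h5 hR
          linarith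
      have h3 := Finset.sum_le_sum fun j (_ : j ∈ (Finset.univ : Finset ι)) => key j
      rw [Finset.sum_sub_distrib, ← Finset.mul_sum, ← Finset.mul_sum, ← Finset.mul_sum] at h3
      have h4 := ok.Zr
      have h5 := ok.Zi
      have h6 := B0 hc ok
      have e1 : ∑ j, (if D.Wp j then D.X j * D.s j * (-(1 - D.ga) + D.A j)
          else -(D.X j * ((2 - D.ga) * D.s j))) = D.B := by
        rw [← h4]
      have e2 : ∑ j, (if D.Wp j then D.X j * D.s j * D.Bv j else -(D.X j * D.t j)) = 0 := by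
        rw [← h5]
      rw [e1, e2, mul_zero, mul_zero, zero_sub] at h3
      obtain ⟨j1, hj1⟩ := exists_big hc ok
      have hf1 := fl_of_big hc ok hj1
      have hX1 := ok.fl1 j1 hf1
      obtain ⟨hW1, -⟩ := hcase j1 (by rw [hX1]; exact one_ne_zero)
      have h7 : 0 < ∑ j, (if D.Wp j then D.X j * D.s j else 0) := by
        refine Finset.sum_pos' (fun j _ => ?_) ⟨j1, Finset.mem_univ _, ?_⟩
        · split_ifs with hj
          · exact mul_nonneg (ok.X0 j) (ok.Ws j hj).le
          · exact le_rfl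
        · rw [if_pos hW1, hX1, one_mul]; exact ok.Ws j1 hW1
      linarith

/-- `u` not real: there is a heavy index. -/
lemma exists_heavy (hne : D.u.im ≠ 0) : ∃ j, D.fl j ∧ D.Wp j ∧ (D.TT j ∨ D.LA j) := by
  classical
  by_contra hno
  simp only [not_exists, not_and, not_or] at hno
  have hν := ok.hν
  have hN := hc.hN
  have hN0 : 0 < (Fintype.card ι : ℝ) := by linarith
  have hd := hc.hd
  have hKM := hc.hKM
  have hcO := hc.hcO
  have hdν : 0 < D.d * D.ν := mul_pos hd hν
  have hfl : ∀ j, D.fl j → D.Wp j ∧ D.RA j := by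
    intro j hf
    have hj : D.Wp j := by
      by_contra hj
      exact hne (ok.Vf j hj hf).1
    refine ⟨hj, ?_⟩
    have h1 := hno j hf hj
    rcases ok.Wc j hj (by rw [ok.fl1 j hf]; exact one_pos) with h3 | ⟨-, ⟨h3, -⟩ | ⟨-, h3 | h3⟩⟩
    · exact absurd h3 h1.1
    · exact absurd h3 hne
    · exact h3
    · exact absurd h3 h1.2
  have heu : |D.eu| = 1 := by
    rcases ok.heu with h | h <;> simp [h]
  set c := (4 + 2 * D.KM + D.cO) * (D.d * D.ν) with hcd
  have hc0 : 0 ≤ c := by positivity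
  obtain ⟨j1, hj1⟩ := exists_big hc ok
  have hf1 := fl_of_big hc ok hj1
  have key : ∀ j, (if j = j1 then D.ν / Fintype.card ι else 0) - c ≤
      D.eu * (if D.Wp j then D.X j * D.s j * D.Bv j else -(D.X j * D.t j)) := by
    intro j
    by_cases hf : D.fl j
    · obtain ⟨hj, hRA⟩ := hfl j hf
      rw [if_pos hj, ok.fl1 j hf, one_mul]
      have hs := ok.Ws j hj
      have h1 : D.s j * 1 ≤ D.s j * (D.eu * D.Bv j) := mul_le_mul_of_nonneg_left hRA.2.2.1 hs.le
      have h2 : D.eu * (D.s j * D.Bv j) = D.s j * (D.eu * D.Bv j) := by ring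
      rw [h2]
      split_ifs with h3
      · rw [h3] at h1 ⊢
        rw [h3] at hs
        rw [abs_of_pos hs] at hj1
        have h4 : D.ν / Fintype.card ι ≤ D.s j1 := by
          rw [div_le_iff₀ hN0]; linarith
        linarith
      · linarith
    · have hs := ok.fl0 j hf
      have hjj : j ≠ j1 := by rintro rfl; exact hf hf1
      rw [if_neg hjj, zero_sub]
      have hX0 := ok.X0 j
      have hX1 := ok.X1 j
      have key2 : |D.eu * (if D.Wp j then D.X j * D.s j * D.Bv j else -(D.X j * D.t j))| ≤ c ∨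
          0 ≤ D.eu * (if D.Wp j then D.X j * D.s j * D.Bv j else -(D.X j * D.t j)) := by
        by_cases hj : D.Wp j
        · rw [if_pos hj]
          rcases eq_or_lt_of_le hX0 with h0 | h0
          · left; rw [← h0]; simpa using hc0
          · have hsp := ok.Ws j hj
            rw [abs_of_pos hsp] at hs
            have hR : 0 ≤ D.X j * D.s j := mul_nonneg hX0 hsp.le
            have hR2 : D.X j * D.s j ≤ 2 * (D.d * D.ν) := by nlinarith
            have h2 : D.eu * (D.X j * D.s j * D.Bv j) = D.X j * D.s j * (D.eu * D.Bv j) := by ring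
            have bound : ∀ b : ℝ, |D.Bv j| ≤ b → 2 * b ≤ 4 + 2 * D.KM + D.cO →
                |D.eu * (D.X j * D.s j * D.Bv j)| ≤ c := by
              intro b hb hb2
              rw [abs_mul, heu, one_mul, abs_mul, abs_of_nonneg hR]
              calc D.X j * D.s j * |D.Bv j| ≤ 2 * (D.d * D.ν) * b :=
                    mul_le_mul hR2 hb (abs_nonneg _) (by linarith)
                _ = 2 * b * (D.d * D.ν) := by ring
                _ ≤ c := mul_le_mul_of_nonneg_right hb2 hdν.le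
            rcases ok.Wc j hj h0 with h3 | ⟨-, ⟨h3, -⟩ | ⟨-, h3 | h3⟩⟩
            · left
              obtain ⟨-, hk, h4, -, h5⟩ := h3
              have ht : D.tB j ≠ 0 := by
                intro h6
                rw [h6, mul_zero, add_zero] at h4
                rcases mul_eq_zero.1 h4 with h7 | h7
                · rcases mul_eq_zero.1 h7 with h8 | h8
                  · exact h0.ne' h8
                  · linarith
                · exact hne h7
              exact bound _ (h5 ht) (by linarith)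
            · exact absurd h3 hne
            · right
              rw [h2]
              exact mul_nonneg hR (by linarith [h3.2.2.1])
            · left
              refine bound (13 / 8) ?_ (by linarith)
              have h4 : |D.eu * D.Bv j| ≤ 13 / 8 := by
                rw [abs_le]
                constructor
                · linarith [h3.2.2.2]
                · linarith [h3.2.2.1]
              rw [abs_mul, heu, one_mul] at h4
              exact h4
        · left
          rw [if_neg hj, abs_mul, heu, one_mul, abs_neg, abs_mul, abs_of_nonneg hX0]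
          have h1 := ok.VO j hj hf
          calc D.X j * |D.t j| ≤ 1 * (D.cO * D.d * D.ν) :=
                mul_le_mul hX1 h1 (abs_nonneg _) zero_le_one
            _ = D.cO * (D.d * D.ν) := by ring
            _ ≤ c := by
                rw [hcd]
                refine mul_le_mul_of_nonneg_right (by linarith) hdν.le
      rcases key2 with h | h
      · exact (abs_le.1 h).1
      · linarith
  have h1 := Finset.sum_le_sum fun j (_ : j ∈ (Finset.univ : Finset ι)) => key j
  rw [Finset.sum_sub_distrib, Finset.sum_ite_eq' Finset.univ j1, if_pos (Finset.mem_univ _),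
    Finset.sum_const, Finset.card_univ, nsmul_eq_mul, ← Finset.mul_sum] at h1
  have e2 : ∑ j, (if D.Wp j then D.X j * D.s j * D.Bv j else -(D.X j * D.t j)) = 0 := by
    rw [← ok.Zi]
  rw [e2, mul_zero] at h1
  have h2 : D.ν / Fintype.card ι ≤ Fintype.card ι * c := by linarith
  rw [div_le_iff₀ hN0] at h2
  have h3 := hc.hd1
  have h4 : (Fintype.card ι : ℝ) * c * Fintype.card ι =
      ((Fintype.card ι : ℝ) ^ 2 * (4 + 2 * D.KM + D.cO) * D.d) * D.ν := by rw [hcd]; ring
  rw [h4] at h2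
  nlinarith

/-- **the case `u` not real.** -/
lemma pos_ne (hne : D.u.im ≠ 0) : 0 < ∑ j, D.tm j := by
  obtain ⟨j, hf, hj, h⟩ := exists_heavy hc ok hne
  refine pos_of_heavy hc ok (j0 := j) (heavy_of hc ok hj hf ?_) (im_bound hc ok hne)
  have hu0 := ok.hu0
  rcases h with h | h
  · have := rf_TT hc ok h (by rw [ok.fl1 j hf]; exact one_pos)
    nlinarith
  · exact rf_LA hc ok h

/-- **the case `u` real.** -/
lemma pos_eq (h0 : D.u.im = 0) : 0 < ∑ j, D.tm j := by
  classical
  have hu0 := ok.hu0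
  have hN := hc.hN
  have hN0 : 0 < (Fintype.card ι : ℝ) := by linarith
  have hν := ok.hν
  have hd := hc.hd
  have hga := hc.hga
  have hga2 := hc.hga2
  have hM := hc.hM
  have hcB : 0 < D.cB := by linarith [hc.hcB]
  have hr : 6 * Fintype.card ι * (13 / 8 * |D.u.im|) ≤ D.u.re / 2 := by
    rw [h0, abs_zero, mul_zero, mul_zero]; linarith
  by_cases h1 : ∃ j, D.fl j ∧ (D.Wp j → D.A j = -1)
  · obtain ⟨j, hf, hA⟩ := h1
    refine pos_of_heavy hc ok (j0 := j) ?_ hr
    by_cases hj : D.Wp j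
    · refine heavy_of hc ok hj hf ?_
      rw [rf_p hc ok, hA hj, h0, zero_mul, add_zero]
      nlinarith
    · have := (ok.Vf j hj hf).2
      nlinarith
  simp only [not_exists, not_and] at h1
  have hfl : ∀ j, D.fl j → D.Wp j ∧ D.A j = 1 ∧ D.Cst j := by
    intro j hf
    have h2 := h1 j hf
    rw [Classical.not_imp] at h2
    obtain ⟨hj, hA⟩ := h2
    refine ⟨hj, ?_⟩
    rcases ok.Wc j hj (by rw [ok.fl1 j hf]; exact one_pos) with h3 | ⟨hC, ⟨-, h3⟩ | ⟨h3, -⟩⟩
    · exact absurd h3.1 hA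
    · exact ⟨h3, hC⟩
    · exact absurd h0 h3
  obtain ⟨j1, hj1⟩ := exists_big hc ok
  have hf1 := fl_of_big hc ok hj1
  -- lower bound for `B`
  have hB : D.ga * D.ν / (2 * Fintype.card ι) ≤ D.B := by
    have key : ∀ j, (if j = j1 then D.ga * D.ν / Fintype.card ι else 0) - 4 * (D.d * D.ν) ≤
        (if D.Wp j then D.X j * D.s j * (-(1 - D.ga) + D.A j)
          else -(D.X j * ((2 - D.ga) * D.s j))) := by
      intro j
      have hdν : 0 < D.d * D.ν := mul_pos hd hν
      by_cases hf : D.fl j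
      · obtain ⟨hj, hA, -⟩ := hfl j hf
        rw [if_pos hj, ok.fl1 j hf, hA, one_mul]
        have hs := ok.Ws j hj
        have h3 : D.s j * (-(1 - D.ga) + 1) = D.ga * D.s j := by ring
        rw [h3]
        split_ifs with h4
        · rw [h4]
          rw [h4] at hs
          rw [abs_of_pos hs] at hj1
          have h5 : D.ν / Fintype.card ι ≤ D.s j1 := by
            rw [div_le_iff₀ hN0]; linarith
          have h6 : D.ga * D.ν / Fintype.card ι ≤ D.ga * D.s j1 := by
            rw [mul_div_assoc]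
            exact mul_le_mul_of_nonneg_left h5 hga.le
          linarith
        · have := mul_pos hga hs
          linarith
      · have hjj : j ≠ j1 := by rintro rfl; exact hf hf1
        rw [if_neg hjj, zero_sub]
        have hs := ok.fl0 j hf
        have hX0 := ok.X0 j
        have hX1 := ok.X1 j
        split_ifs with hj
        · have hsp := ok.Ws j hj
          rw [abs_of_pos hsp] at hs
          have hR : 0 ≤ D.X j * D.s j := mul_nonneg hX0 hsp.le
          have hR2 : D.X j * D.s j ≤ 2 * (D.d * D.ν) := by nlinarith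
          rcases eq_or_lt_of_le hX0 with h3 | h3
          · rw [← h3]; simp only [zero_mul]; linarith
          · have h4 : -2 ≤ -(1 - D.ga) + D.A j := by
              rcases ok.Wc j hj h3 with h5 | ⟨-, ⟨-, h5⟩ | ⟨h5, -⟩⟩
              · rw [h5.1]; linarith
              · rw [h5]; linarith
              · exact absurd h0 h5
            nlinarith
        · have h3 : |D.X j * ((2 - D.ga) * D.s j)| ≤ 4 * (D.d * D.ν) := by
            rw [abs_mul, abs_of_nonneg hX0, abs_mul, abs_of_nonneg (by linarith : 0 ≤ 2 - D.ga)]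
            calc D.X j * ((2 - D.ga) * |D.s j|) ≤ 1 * ((2 - D.ga) * |D.s j|) :=
                  mul_le_mul_of_nonneg_right hX1
                    (mul_nonneg (by linarith) (abs_nonneg _))
              _ ≤ 1 * (2 * (2 * D.d * D.ν)) := by
                  refine mul_le_mul_of_nonneg_left ?_ zero_le_one
                  exact mul_le_mul (by linarith) hs (abs_nonneg _) (by norm_num)
              _ = _ := by ring
          have := (abs_le.1 h3).2
          linarith
    have h2 := Finset.sum_le_sum fun j (_ : j ∈ (Finset.univ : Finset ι)) => key j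
    rw [Finset.sum_sub_distrib, Finset.sum_ite_eq' Finset.univ j1, if_pos (Finset.mem_univ _),
      Finset.sum_const, Finset.card_univ, nsmul_eq_mul] at h2
    have e1 : ∑ j, (if D.Wp j then D.X j * D.s j * (-(1 - D.ga) + D.A j)
        else -(D.X j * ((2 - D.ga) * D.s j))) = D.B := by
      rw [← ok.Zr]
    rw [e1] at h2
    have h3 := hc.hd2
    have h4 : (Fintype.card ι : ℝ) * (4 * (D.d * D.ν)) ≤ D.ga * D.ν / (2 * Fintype.card ι) := by
      rw [le_div_iff₀ (by linarith)]
      calc (Fintype.card ι : ℝ) * (4 * (D.d * D.ν)) * (2 * Fintype.card ι)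
          = (8 * (Fintype.card ι : ℝ) ^ 2 * D.d) * D.ν := by ring
        _ ≤ D.ga * D.ν := mul_le_mul_of_nonneg_right h3 hν.le
    have h5 : D.ga * D.ν / Fintype.card ι = 2 * (D.ga * D.ν / (2 * Fintype.card ι)) := by
      field_simp
    linarith
  -- an edge with a large deletion term
  obtain ⟨e, he⟩ : ∃ e, D.ν / (2 * Fintype.card ι * (Fintype.card ε + 1) * D.cB) ≤
      D.hh e * (D.la e * D.be e) := by
    by_contra hno
    simp only [not_exists, not_le] at hno
    set q := D.ν / (2 * Fintype.card ι * (Fintype.card ε + 1) * D.cB) with hq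
    have hq0 : 0 < q := by positivity
    have h2 : D.B ≤ ∑ _e : ε, D.cB * D.ga * q := by
      unfold Dat.B
      refine Finset.sum_le_sum fun e _ => ?_
      exact mul_le_mul_of_nonneg_left (hno e).le (cg0 hc ok).le
    rw [Finset.sum_const, Finset.card_univ, nsmul_eq_mul] at h2
    have h3 : (Fintype.card ε : ℝ) * (D.cB * D.ga * q) <
        ((Fintype.card ε : ℝ) + 1) * (D.cB * D.ga * q) := by
      have := mul_pos (cg0 hc ok) hq0
      linarith
    have h4 : ((Fintype.card ε : ℝ) + 1) * (D.cB * D.ga * q) =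
        D.ga * D.ν / (2 * Fintype.card ι) := by
      rw [hq]; field_simp
    linarith
  have hq0 : 0 < D.ν / (2 * Fintype.card ι * (Fintype.card ε + 1) * D.cB) := by positivity
  have hne : D.hh e * (D.la e * D.be e) ≠ 0 := (lt_of_lt_of_le hq0 he).ne'
  obtain ⟨hs1, hs2, hw1, hw2⟩ := ok.hs e hne
  have hlb : D.la e * D.be e ≤ 1 := mul_le_one₀ (ok.la1 e) (ok.be0 e) (ok.be1 e)
  have hhh : D.ν / (2 * Fintype.card ι * (Fintype.card ε + 1) * D.cB) ≤ D.hh e := by
    refine he.trans ?_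
    have := mul_le_mul_of_nonneg_left hlb (ok.hh0 e)
    linarith
  have hbig : 2 * D.d * D.ν < D.hh e := by
    refine lt_of_lt_of_le ?_ hhh
    rw [lt_div_iff₀ (by positivity)]
    have h2 := hc.hd3
    calc 2 * D.d * D.ν * (2 * Fintype.card ι * (Fintype.card ε + 1) * D.cB)
        = (2 * D.d * (2 * Fintype.card ι * (Fintype.card ε + 1) * D.cB)) * D.ν := by ring
      _ < 1 * D.ν := mul_lt_mul_of_pos_right h2 hν
      _ = D.ν := one_mul _
  have hflj : ∀ j, D.Wp j → D.hh e ≤ D.X j * D.s j → D.fl j := by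
    intro j hj h2
    by_contra hf
    have h3 := ok.fl0 j hf
    have hs := ok.Ws j hj
    rw [abs_of_pos hs] at h3
    have : D.X j * D.s j ≤ 1 * D.s j := mul_le_mul_of_nonneg_right (ok.X1 j) hs.le
    linarith
  have hf1' := hflj _ hw1 hs1
  have hf2' := hflj _ hw2 hs2
  obtain ⟨-, -, hC1⟩ := hfl _ hf1'
  obtain ⟨-, -, hC2⟩ := hfl _ hf2'
  have hla : D.la e = 1 := by
    rcases hC1.1 e rfl with h2 | h2
    · exfalso; apply hne; rw [h2]; ring
    · exact h2
  have hbe : D.be e = 1 := by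
    rcases hC2.2 e rfl with h2 | h2
    · exfalso; apply hne; rw [h2]; ring
    · exact h2
  have h12 := ok.h12 e (lt_of_lt_of_le hq0 hhh)
  -- the sum of the `HB`-terms
  have hH : D.cB * D.ga * (1 / 2) ≤ ∑ j, (if D.Wp j then D.rho j * D.HB j else 0) := by
    set r : ι → ℝ := fun j => if D.Wp j then D.rho j else 0 with hrd
    have hr0 : ∀ j, 0 ≤ r j := by
      intro j
      simp only [hrd]
      split_ifs with hj
      · exact (ok.X0 j).trans (ok.rX j hj)
      · exact le_rfl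
    have e1 : ∑ j, (if D.Wp j then D.rho j * D.HB j else 0) =
        D.cB * D.ga * ∑ e, (r (D.src e) * (D.la e * D.be e * D.h1 e) +
          r (D.tgt e) * (D.la e * D.be e * D.h2 e)) := by
      have e2 : ∀ j, (if D.Wp j then D.rho j * D.HB j else 0) =
          D.cB * D.ga * ∑ e, ((if D.src e = j then r j * (D.la e * D.be e * D.h1 e) else 0) +
            (if D.tgt e = j then r j * (D.la e * D.be e * D.h2 e) else 0)) := by
        intro j
        have e3 : (if D.Wp j then D.rho j * D.HB j else 0) = r j * D.HB j := by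
          simp only [hrd]; split_ifs <;> ring
        rw [e3, Dat.HB, mul_left_comm, Finset.mul_sum]
        congr 1
        refine Finset.sum_congr rfl fun e _ => ?_
        split_ifs <;> ring
      rw [Finset.sum_congr rfl fun j _ => e2 j, ← Finset.mul_sum, Finset.sum_comm]
      congr 1
      refine Finset.sum_congr rfl fun e _ => ?_
      rw [Finset.sum_add_distrib, Finset.sum_ite_eq, Finset.sum_ite_eq,
        if_pos (Finset.mem_univ _), if_pos (Finset.mem_univ _)]
    rw [e1]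
    refine mul_le_mul_of_nonneg_left ?_ (cg0 hc ok).le
    have h2 : ∀ e', 0 ≤ r (D.src e') * (D.la e' * D.be e' * D.h1 e') +
        r (D.tgt e') * (D.la e' * D.be e' * D.h2 e') := by
      intro e'
      have a1 := mul_nonneg (mul_nonneg (ok.la0 e') (ok.be0 e')) (ok.h10 e')
      have a2 := mul_nonneg (mul_nonneg (ok.la0 e') (ok.be0 e')) (ok.h20 e')
      exact add_nonneg (mul_nonneg (hr0 _) a1) (mul_nonneg (hr0 _) a2)
    refine le_trans ?_ (Finset.single_le_sum (f := fun e' => r (D.src e') *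
      (D.la e' * D.be e' * D.h1 e') + r (D.tgt e') * (D.la e' * D.be e' * D.h2 e'))
      (fun e' _ => h2 e') (Finset.mem_univ e))
    have r1 : 1 ≤ r (D.src e) := by
      simp only [hrd, if_pos hw1]
      have := ok.rX _ hw1
      rw [ok.fl1 _ hf1'] at this
      exact this
    have r2 : 1 ≤ r (D.tgt e) := by
      simp only [hrd, if_pos hw2]
      have := ok.rX _ hw2
      rw [ok.fl1 _ hf2'] at this
      exact this
    rw [hla, hbe]
    have b1 := ok.h10 e
    have b2 := ok.h20 e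
    nlinarith
  -- conclusion
  have h2 : ∀ j, -(6 * (D.u.re * D.ga)) + D.u.re * (if D.Wp j then D.rho j * D.HB j else 0) ≤
      D.tm j := by
    intro j
    have h3 := tm_ge hc ok j
    rw [h0, abs_zero, mul_zero, add_zero] at h3
    refine le_trans (le_of_eq ?_) h3
    congr 1
    split_ifs <;> ring
  have h3 := Finset.sum_le_sum fun j (_ : j ∈ (Finset.univ : Finset ι)) => h2 j
  rw [Finset.sum_add_distrib, Finset.sum_const, Finset.card_univ, nsmul_eq_mul,
    ← Finset.mul_sum] at h3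
  refine lt_of_lt_of_le ?_ h3
  have h4 : D.u.re * (D.cB * D.ga * (1 / 2)) ≤
      D.u.re * ∑ j, (if D.Wp j then D.rho j * D.HB j else 0) :=
    mul_le_mul_of_nonneg_left hH hu0.le
  have h5 : 0 < D.u.re * D.ga := mul_pos hu0 hga
  have h6 := hc.hcB
  have h7 : (Fintype.card ι : ℝ) * (6 * (D.u.re * D.ga)) < D.u.re * (D.cB * D.ga * (1 / 2)) := by
    nlinarith
  linarith

/-- **K2, region II**: the derivative in the direction `(-1,…,-1)` is positive for `rf u`. -/
theorem pos : 0 < ∑ j, D.tm j := by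
  by_cases h : D.u.im = 0
  · exact pos_eq hc ok h
  · exact pos_ne hc ok h

end main

end Dat

end Crest.Agent.R267.K2b_867
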