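import Crest.Agent.R267.K2c_867
import Crest.Agent.R267.CurveN_867
import Crest.Agent.R267.K2bN_118

/-!
# K2 of T3aN, region II: the numbers at a point (signed lobes, deletion boxes)

`PtN` collects a point `z` of `ℂ^N`, the constants, the derivatives `ps j`, `pt j` of the planar
gauge at `z j` and the derivative `pd j` of `pvN` at the slope `ta j`; `HP`: their properties.
`w j` = derivative of `G` in the direction `i e_j`, `w0` = derivative in the direction `-(1,…,1)`.
-/

set_option autoImplicit false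
set_option linter.unusedSectionVars false
set_option linter.unusedVariables false

noncomputable section

open Finset

namespace Crest.Agent.R267.K2cN_867

open Crest.Agent.R267.LemL_951 Crest.Agent.R267.K2bN_118
open Crest.Agent.R267.T3aDefs_957 (st Af Bf pg NN chi)
open Crest.Agent.R267.Calc_957 (std st_of_le st_of_ge std_of_le std_of_ge std_nonneg std_le st_pos
  st_nonneg Afd Bfd)
open Crest.Agent.R267.T3aNDefs_88 Crest.Agent.R267.CurveN_867
open Crest.Agent.R267.K2c_867 (gq_ge abs_re_le_pg gq_ge_B abs_im_le_pg)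

/-- a point with all constants. -/
structure PtN (N : ℕ) where
  D : SD N
  cB : ℝ
  ga : ℝ
  d : ℝ
  z : Fin N → ℂ
  ps : Fin N → ℝ
  pt : Fin N → ℝ
  pd : Fin N → ℂ

namespace PtN

variable {N : ℕ} (P : PtN N)

/-- slope. -/
def ta (j : Fin N) : ℝ := (P.z j).im / (P.z j).re

def nu : ℝ := √(∑ j, (P.z j).re ^ 2)

def x (j : Fin N) : ℝ := pg P.D.K (P.z j) / P.nu

def X (j : Fin N) : ℝ := chi P.d (P.x j)

/-- derivative of the cut-off. -/
def cd (j : Fin N) : ℝ := std ((P.x j - P.d) / P.d) / P.d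

def S : ℝ := ∑ j, (P.z j).re / P.nu

/-- window index. -/
def Wp (j : Fin N) : Prop := 0 < (P.z j).re ∧ |(P.z j).im| ≤ P.D.K * (P.z j).re

def rho (j : Fin N) : ℝ := P.X j + P.x j * P.cd j - P.x j ^ 2 * P.cd j * P.S

/-- `χ s⁺`. -/
def Rr (j : Fin N) : ℝ := P.X j * max 0 (P.z j).re

def pj (j : Fin N) : ℂ := pvN P.ga (P.D.sn j) (P.D.M j) (P.ta j)

/-- support of a box. -/
def supp (e : Fin P.D.nb) : Finset (Fin N) := (P.D.bx e).S

def la (e : Fin P.D.nb) (j : Fin N) : ℝ := winN ((P.D.bx e).lo j) ((P.D.bx e).hi j) (P.ta j)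

def lad (e : Fin P.D.nb) (j : Fin N) : ℝ := wdN ((P.D.bx e).lo j) ((P.D.bx e).hi j) (P.ta j)

def hh (e : Fin P.D.nb) : ℝ := Hm (P.supp e) P.Rr

def hd (e : Fin P.D.nb) (j : Fin N) : ℝ := (P.hh e / P.Rr j) ^ 2

open Classical in
/-- derivative of the deletion term in the direction `i e_j`. -/
def tB (j : Fin N) : ℝ :=
  P.cB * P.ga * ∑ e : Fin P.D.nb, (if j ∈ P.supp e then
    P.hh e * (P.lad e j / (P.z j).re) * ∏ i ∈ (P.supp e).erase j, P.la e i else 0)

open Classical in
/-- `∂B/∂R_j`. -/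
def HB (j : Fin N) : ℝ :=
  P.cB * P.ga * ∑ e : Fin P.D.nb,
    (if j ∈ P.supp e then (∏ i ∈ P.supp e, P.la e i) * P.hd e j else 0)

open Classical in
/-- derivative of `G` in the direction `i e_j`. -/
def w (j : Fin N) : ℂ :=
  if P.Wp j then (P.X j : ℂ) * P.pd j - (P.tB j : ℂ)
  else -Complex.I * (P.X j : ℂ) +
    ((P.cd j * P.pt j / P.nu : ℝ) : ℂ) * plN P.ga (P.D.sn j) (P.D.M j) (P.z j)

open Classical in
/-- contribution of `j` to the derivative of `G` in the direction `-(1,…,1)`. -/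
def w0j (j : Fin N) : ℂ :=
  if P.Wp j then -((P.rho j : ℝ) : ℂ) * (P.pj j - (P.HB j : ℂ)) + (P.ta j : ℂ) * P.w j
  else (((2 - P.ga) * P.X j : ℝ) : ℂ) +
    (((P.cd j * P.x j * P.S - P.cd j * P.ps j) / P.nu : ℝ) : ℂ) *
      plN P.ga (P.D.sn j) (P.D.M j) (P.z j)

def w0 : ℂ := ∑ j, P.w0j j

/-- where the planar function is. -/
def Zone (j : Fin N) : Prop :=
  (∃ l < P.D.M j, |P.ta j - sgN l| < 3 ∧
    (P.pj j).re = -(1 - P.ga) + Af (P.ta j - sgN l) ∧
    (P.pj j).im = P.D.sn j l * Bf (P.ta j - sgN l) ∧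
    (P.pd j).re = Afd (P.ta j - sgN l) ∧ (P.pd j).im = P.D.sn j l * Bfd (P.ta j - sgN l)) ∨
  ((P.pj j).re = -(2 - P.ga) ∧ (P.pd j).re = 0 ∧ 1 ≤ |(P.pd j).im| ∧
    ∀ k ≤ P.D.M j, |P.ta j - 16 * k| < 1 → |(P.pj j).im| ≤ 16 * P.D.M j + 1) ∨
  ((P.pj j).re = -(2 - P.ga) ∧ (P.pd j).re = 0 ∧ |(P.pj j).im| ≤ 3)

/-- properties of the derivatives of the planar gauge and of the planar function. -/
structure HP : Prop where
  pt0 : ∀ j, 0 ≤ P.pt j * (P.z j).im
  eul : ∀ j, P.ps j * (P.z j).re + P.pt j * (P.z j).im = pg P.D.K (P.z j)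
  ptK : ∀ j, P.pt j ≠ 0 → P.D.K * |(P.z j).re| < |(P.z j).im|
  zone : ∀ j, P.Wp j → P.Zone j
  off : ∀ j, ¬ P.Wp j → plN P.ga (P.D.sn j) (P.D.M j) (P.z j) =
    -((2 - P.ga : ℝ) : ℂ) * (P.z j).re - Complex.I * (P.z j).im

/-- smallness. -/
structure Sm : Prop where
  hN : 3 ≤ N
  hd : 0 < P.d
  hdN : 2 * P.d * N ≤ 1 / 4
  hga : 0 < P.ga
  hga2 : P.ga ≤ 1 / 4
  hcg : 0 ≤ P.cB * P.ga

/-! ### elementary facts -/

section facts

variable {P}

theorem X_nonneg (j : Fin N) : 0 ≤ P.X j := st_nonneg _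

theorem X_le_one (j : Fin N) : P.X j ≤ 1 := Curve_867.st_le_one _

theorem Rr_nonneg (j : Fin N) : 0 ≤ P.Rr j :=
  mul_nonneg (st_nonneg _) (le_max_left _ _)

theorem Hm_nonneg {ι : Type} (S : Finset ι) (R : ι → ℝ) : 0 ≤ Hm S R := by
  unfold Hm
  split_ifs with h
  · exact div_nonneg zero_le_one (sum_nonneg fun j hj => div_nonneg zero_le_one (h j hj).le)
  · exact le_rfl

theorem Hm_le {ι : Type} {S : Finset ι} {R : ι → ℝ} (hR : ∀ j, 0 ≤ R j) {j : ι} (hj : j ∈ S) :
    Hm S R ≤ R j := by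
  unfold Hm
  split_ifs with h
  · have h0 := h j hj
    have h1 : 1 / R j ≤ ∑ j ∈ S, 1 / R j :=
      single_le_sum (f := fun j => 1 / R j) (fun i hi => div_nonneg zero_le_one (h i hi).le) hj
    have h2 : 0 < 1 / R j := by positivity
    calc 1 / ∑ j ∈ S, 1 / R j ≤ 1 / (1 / R j) := one_div_le_one_div_of_le h2 h1
      _ = R j := one_div_one_div _
  · exact hR j

/-- `∑ (H / R_j)² ≥ 1 / card S`. -/
theorem Hm_sum {ι : Type} {S : Finset ι} {R : ι → ℝ} (h : 0 < Hm S R) :
    1 / (S.card : ℝ) ≤ ∑ j ∈ S, (Hm S R / R j) ^ 2 := by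
  have h0 : ∀ j ∈ S, 0 < R j := by
    by_contra h1
    unfold Hm at h
    rw [if_neg h1] at h
    exact lt_irrefl _ h
  have e : Hm S R = 1 / ∑ j ∈ S, 1 / R j := by
    unfold Hm
    rw [if_pos h0]
  have hs : 0 < ∑ j ∈ S, 1 / R j := by
    rw [e] at h
    exact one_div_pos.1 h
  have hne : S.Nonempty := by
    by_contra h1
    rw [not_nonempty_iff_eq_empty] at h1
    rw [h1] at hs
    simp at hs
  have hcard : 0 < (S.card : ℝ) := by exact_mod_cast hne.card_pos
  have h1 : ∑ j ∈ S, Hm S R / R j = 1 := by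
    rw [e]
    have : ∀ j ∈ S, (1 / ∑ j ∈ S, 1 / R j) / R j = (1 / R j) / ∑ j ∈ S, 1 / R j := by
      intro j _
      ring
    rw [sum_congr rfl this, ← sum_div, div_self hs.ne']
  have h2 := sq_sum_le_card_mul_sum_sq (s := S) (f := fun j => Hm S R / R j)
  rw [h1] at h2
  rw [div_le_iff₀ hcard]
  linarith

theorem hh_nonneg (e : Fin P.D.nb) : 0 ≤ P.hh e := Hm_nonneg _ _

theorem hh_le (e : Fin P.D.nb) {j : Fin N} (hj : j ∈ P.supp e) : P.hh e ≤ P.Rr j :=
  Hm_le Rr_nonneg hj

theorem M_le_Mx (D : SD N) (j : Fin N) : (D.M j : ℝ) ≤ D.Mx := by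
  have : D.M j ≤ ∑ i, D.M i := Finset.single_le_sum (fun i _ => Nat.zero_le _) (Finset.mem_univ j)
  exact_mod_cast this

theorem K_ge (D : SD N) (hN : 1 ≤ N) : 16 * (D.Mx : ℝ) + 2 ≤ D.K := by
  unfold SD.K SD.K1
  have h1 : (1 : ℝ) ≤ N := by exact_mod_cast hN
  have h2 : (0 : ℝ) ≤ D.Mx := Nat.cast_nonneg _
  have h3 : (1 : ℝ) ≤ (N : ℝ) * N := by nlinarith
  nlinarith

end facts

/-! ### small cut-off constants -/

section small

variable {P} (hs : P.Sm) (hnu : 0 < P.nu)

include hs in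
theorem K_ge10 : 10 ≤ P.D.K := by
  have hN := hs.hN
  have h1 := K_ge P.D (by omega)
  have h2 : (1 : ℝ) ≤ P.D.Mx := by
    have h3 := M_le_Mx P.D ⟨0, by omega⟩
    have h4 : (1 : ℝ) ≤ P.D.M ⟨0, by omega⟩ := by exact_mod_cast P.D.hM _
    linarith
  linarith

include hnu in
theorem abs_s_le (j : Fin N) : |(P.z j).re| ≤ P.nu := by
  unfold nu
  rw [← Real.sqrt_sq_eq_abs]
  exact Real.sqrt_le_sqrt (Finset.single_le_sum (f := fun j => (P.z j).re ^ 2)
    (fun i _ => sq_nonneg _) (Finset.mem_univ j))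

include hnu in
theorem abs_S_le : |P.S| ≤ N := by
  unfold S
  refine (Finset.abs_sum_le_sum_abs _ _).trans ?_
  refine (Finset.sum_le_sum (g := fun _ => (1 : ℝ)) fun j _ => ?_).trans (by simp)
  rw [abs_div, abs_of_pos hnu, div_le_one hnu]
  exact abs_s_le hnu j

include hnu in
theorem x_nonneg (j : Fin N) : 0 ≤ P.x j := div_nonneg (Real.sqrt_nonneg _) hnu.le

include hnu in
theorem s_div_le (j : Fin N) : |(P.z j).re / P.nu| ≤ P.x j := by
  rw [abs_div, abs_of_pos hnu]
  unfold x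
  gcongr
  exact abs_re_le_pg _ _

include hs in
theorem cd_nonneg (j : Fin N) : 0 ≤ P.cd j := div_nonneg (std_nonneg _) hs.hd.le

include hs in
theorem lt_of_cd (j : Fin N) (h : P.cd j ≠ 0) : P.x j < 2 * P.d := by
  by_contra h1
  rw [not_lt] at h1
  have hd := hs.hd
  refine h ?_
  unfold cd
  rw [std_of_ge ((one_le_div hd).2 (by linarith)), zero_div]

include hs hnu in
theorem xcd_le (j : Fin N) : P.x j * P.cd j ≤ 15 / 4 := by
  have hd := hs.hd
  by_cases h : P.cd j = 0
  · rw [h, mul_zero]; norm_num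
  · have h1 := lt_of_cd hs j h
    have h2 := std_le ((P.x j - P.d) / P.d)
    have h3 := std_nonneg ((P.x j - P.d) / P.d)
    have h0 := x_nonneg hnu j
    unfold cd
    rw [← mul_div_assoc, div_le_iff₀ hd]
    calc P.x j * std ((P.x j - P.d) / P.d) ≤ (2 * P.d) * (15 / 8) :=
          mul_le_mul h1.le h2 h3 (by linarith)
      _ = 15 / 4 * P.d := by ring

include hs hnu in
theorem xS_le (j : Fin N) (h : P.cd j ≠ 0) : P.x j * |P.S| ≤ 1 / 4 := by
  have h1 := lt_of_cd hs j h
  have h2 := abs_S_le hnu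
  have h0 := x_nonneg hnu j
  have hd := hs.hd
  calc P.x j * |P.S| ≤ (2 * P.d) * N := mul_le_mul h1.le h2 (abs_nonneg _) (by linarith)
    _ ≤ _ := hs.hdN

theorem rho_eq (j : Fin N) : P.rho j = P.X j + P.x j * P.cd j * (1 - P.x j * P.S) := by
  unfold rho; ring

include hs hnu in
theorem X_le_rho (j : Fin N) : P.X j ≤ P.rho j := by
  rw [rho_eq]
  by_cases h : P.cd j = 0
  · rw [h]; simp
  · have h1 := xS_le hs hnu j h
    have h2 : P.x j * P.S ≤ P.x j * |P.S| :=
      mul_le_mul_of_nonneg_left (le_abs_self _) (x_nonneg hnu j)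
    have h3 := mul_nonneg (mul_nonneg (x_nonneg hnu j) (cd_nonneg hs j))
      (by linarith : 0 ≤ 1 - P.x j * P.S)
    linarith

include hs hnu in
theorem rho_le (j : Fin N) : P.rho j ≤ 6 := by
  rw [rho_eq]
  have h5 := X_le_one (P := P) j
  by_cases h : P.cd j = 0
  · rw [h]; simp; linarith
  · have h1 := xS_le hs hnu j h
    have h2 : -(P.x j * |P.S|) ≤ P.x j * P.S := by
      rw [← mul_neg]
      exact mul_le_mul_of_nonneg_left (neg_abs_le _) (x_nonneg hnu j)
    have h3 := xcd_le hs hnu j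
    have h4 : P.x j * P.cd j * (1 - P.x j * P.S) ≤ 15 / 4 * (5 / 4) :=
      mul_le_mul h3 (by linarith) (by
        have : P.x j * P.S ≤ P.x j * |P.S| :=
          mul_le_mul_of_nonneg_left (le_abs_self _) (x_nonneg hnu j)
        linarith) (by norm_num)
    linarith

include hs in
theorem cd_of_X {j : Fin N} (h : P.X j = 0) : P.cd j = 0 := by
  have hd := hs.hd
  unfold X chi at h
  unfold cd
  have h1 : (P.x j - P.d) / P.d ≤ 0 := by
    by_contra h2
    rw [not_le] at h2
    exact (st_pos h2).ne' h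
  rw [std_of_le h1, zero_div]

include hs in
theorem rho_of_X {j : Fin N} (h : P.X j = 0) : P.rho j = 0 := by
  rw [rho_eq, h, cd_of_X hs h]
  ring

include hs in
theorem X_of_fl {j : Fin N} (h : 2 * P.d ≤ P.x j) : P.X j = 1 := by
  have hd := hs.hd
  unfold X chi
  exact st_of_ge ((one_le_div hd).2 (by linarith))

include hs in
theorem cd_of_fl {j : Fin N} (h : 2 * P.d ≤ P.x j) : P.cd j = 0 := by
  by_contra h1
  exact absurd (lt_of_cd hs j h1) (not_lt.2 h)

end small

/-! ### indices off the windows -/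

section off

variable {P} (hs : P.Sm) {u : ℂ} (hnu : 0 < P.nu)
  (hP : P.HP) (hu0 : 0 < u.re) {j : Fin N} (hj : ¬ P.Wp j) (hw : rf u (P.w j) = 0)

include hP hj hw in
/-- the equation `rf u (w j) = 0`. -/
theorem off_eq : (P.X j + P.cd j * P.pt j / P.nu * (P.z j).im) * u.im =
    -(P.cd j * P.pt j / P.nu * ((2 - P.ga) * (P.z j).re * u.re)) := by
  have h1 := hw
  unfold w at h1
  rw [if_neg hj, hP.off j hj] at h1
  simp only [rf, Complex.add_re, Complex.add_im, Complex.mul_re, Complex.mul_im, Complex.neg_re,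
    Complex.neg_im, Complex.I_re, Complex.I_im, Complex.ofReal_re, Complex.ofReal_im,
    Complex.sub_re, Complex.sub_im] at h1
  linear_combination -h1

include hs hnu hP in
theorem at_nonneg (j : Fin N) : 0 ≤ P.cd j * P.pt j / P.nu * (P.z j).im := by
  have h1 := hP.pt0 j
  have h2 := cd_nonneg hs j
  calc (0 : ℝ) ≤ P.cd j * (P.pt j * (P.z j).im) / P.nu :=
        div_nonneg (mul_nonneg h2 h1) hnu.le
    _ = _ := by ring

include hP hj in
theorem off_tm : rf u (P.w0j j) = (2 - P.ga) * P.X j * u.re +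
    (P.cd j * P.x j * P.S - P.cd j * P.ps j) / P.nu *
      (-((2 - P.ga) * (P.z j).re * u.re) - (P.z j).im * u.im) := by
  unfold w0j
  rw [if_neg hj, hP.off j hj]
  simp only [rf, Complex.add_re, Complex.add_im, Complex.mul_re, Complex.mul_im, Complex.neg_re,
    Complex.neg_im, Complex.I_re, Complex.I_im, Complex.ofReal_re, Complex.ofReal_im,
    Complex.sub_re, Complex.sub_im]
  ring

include hs hnu hP hu0 hj hw in
theorem off_nonneg : 0 ≤ rf u (P.w0j j) := by
  rw [off_tm hP hj]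
  have h1 := off_eq hP hj hw
  have h2 := at_nonneg hs hnu hP j
  have h3 := X_nonneg (P := P) j
  have hga : P.ga ≤ 1 / 4 := hs.hga2
  rcases eq_or_lt_of_le (add_nonneg h3 h2) with h4 | h4
  · have h5 : P.X j = 0 := by linarith
    rw [h5, cd_of_X hs h5]
    simp
  · set a : ℝ := P.cd j * P.pt j / P.nu with ha
    set l : ℝ := 2 - P.ga with hl
    have hl0 : 0 < l := by rw [hl]; linarith
    -- the product with `X + a t`
    have h5 : (l * P.X j * u.re + (P.cd j * P.x j * P.S - P.cd j * P.ps j) / P.nu *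
        (-(l * (P.z j).re * u.re) - (P.z j).im * u.im)) * (P.X j + a * (P.z j).im) =
        u.re * l * P.X j * (P.X j + P.cd j * P.x j - P.cd j * P.x j * (P.S * ((P.z j).re / P.nu))) := by
      have e1 : a * (P.z j).im + P.cd j * P.ps j / P.nu * (P.z j).re = P.cd j * P.x j := by
        rw [ha]
        unfold x
        rw [← hP.eul j]
        ring
      have e2 : (-(l * (P.z j).re * u.re) - (P.z j).im * u.im) * (P.X j + a * (P.z j).im) =
          -(l * (P.z j).re * u.re * P.X j) := by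
        linear_combination (-(P.z j).im) * h1
      calc (l * P.X j * u.re + (P.cd j * P.x j * P.S - P.cd j * P.ps j) / P.nu *
            (-(l * (P.z j).re * u.re) - (P.z j).im * u.im)) * (P.X j + a * (P.z j).im)
          = l * P.X j * u.re * (P.X j + a * (P.z j).im) +
            (P.cd j * P.x j * P.S - P.cd j * P.ps j) / P.nu *
            ((-(l * (P.z j).re * u.re) - (P.z j).im * u.im) * (P.X j + a * (P.z j).im)) := by ring
        _ = l * P.X j * u.re * (P.X j + (a * (P.z j).im + P.cd j * P.ps j / P.nu * (P.z j).re) -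
            P.cd j * P.x j * (P.S * ((P.z j).re / P.nu))) := by rw [e2]; ring
        _ = _ := by rw [e1]; ring
    have h6 : 0 ≤ P.X j + P.cd j * P.x j - P.cd j * P.x j * (P.S * ((P.z j).re / P.nu)) := by
      by_cases h7 : P.cd j = 0
      · rw [h7]; simp [h3]
      · have h8 := xS_le hs hnu j h7
        have h9 : P.S * ((P.z j).re / P.nu) ≤ 1 / 4 := by
          calc P.S * ((P.z j).re / P.nu) ≤ |P.S * ((P.z j).re / P.nu)| := le_abs_self _
            _ = |(P.z j).re / P.nu| * |P.S| := by rw [abs_mul, mul_comm]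
            _ ≤ P.x j * |P.S| := mul_le_mul_of_nonneg_right (s_div_le hnu j) (abs_nonneg _)
            _ ≤ 1 / 4 := h8
        have h10 := mul_nonneg (mul_nonneg (cd_nonneg hs j) (x_nonneg hnu j))
          (by linarith : 0 ≤ 1 - P.S * ((P.z j).re / P.nu))
        linarith
    have h7 : 0 ≤ u.re * l * P.X j *
        (P.X j + P.cd j * P.x j - P.cd j * P.x j * (P.S * ((P.z j).re / P.nu))) :=
      mul_nonneg (mul_nonneg (mul_nonneg hu0.le hl0.le) h3) h6
    rw [← h5] at h7
    by_contra h8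
    rw [not_le] at h8
    have := mul_neg_of_neg_of_pos h8 h4
    linarith

include hs hP hj hw in
theorem off_full (hf : 2 * P.d ≤ P.x j) (hu0 : 0 < u.re) :
    u.im = 0 ∧ u.re ≤ rf u (P.w0j j) := by
  have h1 := off_eq hP hj hw
  have h2 := off_tm (u := u) hP hj
  rw [X_of_fl hs hf, cd_of_fl hs hf] at h1 h2
  have hga : P.ga ≤ 1 / 4 := hs.hga2
  constructor
  · linear_combination h1
  · rw [h2]
    have : 0 ≤ (1 - P.ga) * u.re := mul_nonneg (by linarith) hu0.le
    have e : (0 * P.x j * P.S - 0 * P.ps j) / P.nu = 0 := by simp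
    rw [e, zero_mul]
    linarith

include hs hnu hP hu0 hj hw in
theorem off_K (hX : 0 < P.X j) : P.D.K * |u.im| ≤ 2 * u.re := by
  have h1 := off_eq hP hj hw
  have h2 := at_nonneg hs hnu hP j
  have hga : P.ga ≤ 1 / 4 := hs.hga2
  have hga0 : 0 < P.ga := hs.hga
  set a : ℝ := P.cd j * P.pt j / P.nu with ha
  by_cases h0 : a = 0
  · rw [h0] at h1
    have h3 : u.im = 0 := by
      have : P.X j * u.im = 0 := by linarith
      exact (mul_eq_zero.1 this).resolve_left hX.ne'
    rw [h3, abs_zero, mul_zero]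
    linarith
  · have h3 : P.pt j ≠ 0 := by
      intro h; apply h0; rw [ha, h]; ring
    have h4 := hP.ptK j h3
    have h5 : |a| * |(P.z j).im| * |u.im| ≤ |a| * ((2 - P.ga) * |(P.z j).re| * u.re) := by
      have e1 : |a| * |(P.z j).im| = a * (P.z j).im := by rw [← abs_mul, abs_of_nonneg h2]
      have e2 : |P.X j + a * (P.z j).im| * |u.im| =
          |a| * ((2 - P.ga) * |(P.z j).re| * u.re) := by
        rw [← abs_mul, h1, abs_neg, abs_mul, abs_mul, abs_mul, abs_of_pos hu0,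
          abs_of_pos (by linarith : 0 < 2 - P.ga)]
      rw [e1, ← e2]
      refine mul_le_mul_of_nonneg_right ?_ (abs_nonneg _)
      rw [abs_of_nonneg (by linarith)]
      linarith
    have h6 : |(P.z j).im| * |u.im| ≤ (2 - P.ga) * |(P.z j).re| * u.re := by
      rw [mul_assoc] at h5
      exact le_of_mul_le_mul_left h5 (abs_pos.2 h0)
    have h7 : P.D.K * |(P.z j).re| * |u.im| ≤ (2 - P.ga) * |(P.z j).re| * u.re :=
      (mul_le_mul_of_nonneg_right h4.le (abs_nonneg _)).trans h6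
    rcases eq_or_lt_of_le (abs_nonneg (P.z j).re) with h8 | h8
    · rw [← h8, mul_zero] at h4
      rw [← h8] at h6
      have h9 : |u.im| = 0 := by
        have : |(P.z j).im| * |u.im| ≤ 0 := by linarith
        have h10 := abs_nonneg u.im
        nlinarith
      rw [h9, mul_zero]
      linarith
    · have h9 : |(P.z j).re| * (P.D.K * |u.im|) ≤ |(P.z j).re| * ((2 - P.ga) * u.re) := by
        linarith
      have h10 := le_of_mul_le_mul_left h9 h8
      have h11 : 0 ≤ P.ga * u.re := mul_nonneg hga0.le hu0.le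
      linarith

include hs hnu in
theorem off_t (hf : ¬ 2 * P.d ≤ P.x j) : |(P.z j).im| ≤ 28 * P.D.K * P.d * P.nu := by
  have hK := K_ge10 hs
  have h1 := abs_im_le_pg (K := P.D.K) (by linarith) (P.z j)
  rw [not_le] at hf
  unfold x at hf
  rw [div_lt_iff₀ hnu] at hf
  have h2 : 14 * P.D.K * pg P.D.K (P.z j) ≤ 14 * P.D.K * (2 * P.d * P.nu) :=
    mul_le_mul_of_nonneg_left hf.le (by linarith)
  linarith

end off

/-! ### window indices -/

section on

variable {P} (hs : P.Sm) {u : ℂ} (hnu : 0 < P.nu)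
  (hP : P.HP) (hu0 : 0 < u.re) {j : Fin N} (hj : P.Wp j) (hw : rf u (P.w j) = 0)

include hj in
theorem Rr_on : P.Rr j = P.X j * (P.z j).re := by
  unfold Rr
  rw [max_eq_right hj.1.le]

theorem la_nonneg (e : Fin P.D.nb) (j : Fin N) : 0 ≤ P.la e j := winN_nonneg _ _ _

theorem la_le_one (e : Fin P.D.nb) (j : Fin N) : P.la e j ≤ 1 := winN_le_one _ _ _

include hs hj in
/-- the derivative of the deletion term is small. -/
theorem abs_tB_le : |P.tB j| ≤ P.cB * P.ga * P.D.nb * P.X j := by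
  classical
  have h0 := hs.hcg
  unfold tB
  have e0 : P.cB * P.ga * P.D.nb * P.X j = P.cB * P.ga * (P.D.nb * P.X j) := by ring
  rw [abs_mul, abs_of_nonneg h0, e0]
  refine mul_le_mul_of_nonneg_left ?_ h0
  refine (Finset.abs_sum_le_sum_abs _ _).trans ?_
  refine (Finset.sum_le_sum (g := fun _ => P.X j) fun e _ => ?_).trans (by
    rw [Finset.sum_const, Finset.card_univ, nsmul_eq_mul, Fintype.card_fin])
  have hX := X_nonneg (P := P) j
  have hs := hj.1
  split_ifs with h1
  · have ha := hh_nonneg (P := P) e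
    have h2 : P.hh e ≤ P.X j * (P.z j).re := by rw [← Rr_on hj]; exact hh_le e h1
    have h3 : |P.lad e j| ≤ 1 := abs_wdN_le _ _ _
    have h4 : P.hh e * (|P.lad e j| / (P.z j).re) ≤ P.X j := by
      rw [mul_div_assoc', div_le_iff₀ hs]
      calc P.hh e * |P.lad e j| ≤ P.hh e * 1 := mul_le_mul_of_nonneg_left h3 ha
        _ ≤ _ := by linarith
    have h5 : 0 ≤ ∏ i ∈ (P.supp e).erase j, P.la e i := prod_nonneg fun i _ => la_nonneg e i
    have h6 : ∏ i ∈ (P.supp e).erase j, P.la e i ≤ 1 :=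
      prod_le_one (fun i _ => la_nonneg e i) fun i _ => la_le_one e i
    rw [abs_mul, abs_mul, abs_div, abs_of_nonneg ha, abs_of_pos hs, abs_of_nonneg h5]
    calc P.hh e * (|P.lad e j| / (P.z j).re) * ∏ i ∈ (P.supp e).erase j, P.la e i
        ≤ P.X j * 1 := mul_le_mul h4 h6 h5 hX
      _ = P.X j := mul_one _
  · rw [abs_zero]; exact hX

/-- a moving window. -/
theorem exists_wd (h : P.tB j ≠ 0) :
    ∃ m m', m' ≤ P.D.M j ∧ wdN m m' (P.ta j) ≠ 0 := by
  classical
  by_contra h0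
  push Not at h0
  refine h ?_
  unfold tB
  rw [Finset.sum_eq_zero, mul_zero]
  intro e _
  split_ifs with h1
  · have : P.lad e j = 0 := h0 _ _ (P.D.hhi e j h1)
    rw [this]
    ring
  · rfl

include hj hw in
theorem on_eq : P.X j * rf u (P.pd j) = u.re * P.tB j := by
  have h1 := hw
  unfold w at h1
  rw [if_pos hj, rf_sub, rf_real_mul, rf_ofReal] at h1
  linarith

end on

/-! ### the inequality -/

open Classical in
/-- the numbers. -/
def dat (u : ℂ) (eu : ℝ) : Dat (Fin N) (Fin P.D.nb) where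
  ga := P.ga
  K := P.D.K
  cB := P.cB
  cT := P.cB * P.ga * P.D.nb
  KM := 16 * P.D.Mx + 1
  cO := 28 * P.D.K
  d := P.d
  ν := P.nu
  s := fun j => (P.z j).re
  t := fun j => (P.z j).im
  X := P.X
  rho := P.rho
  A := fun j => (P.pj j).re + (1 - P.ga)
  Bv := fun j => (P.pj j).im
  tB := P.tB
  kp := fun j => -(P.pd j).im
  tm := fun j => if P.Wp j then P.rho j * (u.re * P.HB j - rf u (P.pj j)) else rf u (P.w0j j)
  Wp := P.Wp
  fl := fun j => 2 * P.d ≤ P.x j
  sp := P.supp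
  la := P.la
  hh := P.hh
  hd := P.hd
  u := u
  eu := eu

section final

variable {P} (hs : P.Sm) {u : ℂ} {eu : ℝ} (hnu : 0 < P.nu) (hP : P.HP) (hu0 : 0 < u.re)

include hs hP hu0 in
theorem on_cases {j : Fin N} (hj : P.Wp j) (hw : rf u (P.w j) = 0)
    (hX : 0 < P.X j) (heu : eu = 1 ∨ eu = -1) (heu2 : u.im = eu * |u.im|) :
    (P.dat u eu).TT j ∨ (P.dat u eu).UU j ∨ (P.dat u eu).NN j := by
  have h1 := on_eq hj hw
  rcases hP.zone j hj with ⟨l, hl, h2, p1, p2, p3, p4⟩ | ⟨h2, h3, h4, h5⟩ | ⟨h2, h3, h4⟩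
  · right; right
    have hA : (P.dat u eu).A j = Af (P.ta j - sgN l) := by
      simp only [dat]
      rw [p1]
      ring
    have hB : (P.dat u eu).Bv j = P.D.sn j l * Bf (P.ta j - sgN l) := by
      simp only [dat]
      rw [p2]
    have hc : |P.ta j - sgN l| ≤ 7 := by linarith
    have htB : P.tB j = 0 := by
      by_contra h3
      obtain ⟨m, m', -, hm⟩ := exists_wd h3
      exact hm (winN_const_of_cell hc).2
    rw [htB, mul_zero] at h1
    have h3 := (mul_eq_zero.1 h1).resolve_left hX.ne'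
    simp only [rf] at h3
    rw [p3, p4] at h3
    refine ⟨fun e he => (winN_const_of_cell hc).1, ?_⟩
    rw [hA]
    unfold Dat.RA Dat.LA
    rw [hA, hB]
    have hsn : P.D.sn j l = 1 ∨ P.D.sn j l = -1 := by
      unfold SD.sn
      split_ifs
      · exact Or.inr rfl
      · exact Or.inl rfl
    rcases curveN hu0 hsn h2 h3 with ⟨h4, h5⟩ | ⟨h4, h5⟩
    · exact Or.inl ⟨h4, h5⟩
    · exact Or.inr ⟨h4, h5 eu heu heu2⟩
  · left
    have h6 : (P.dat u eu).A j = -1 := by
      simp only [dat]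
      rw [h2]
      ring
    refine ⟨h6, ?_, ?_, ?_, ?_⟩
    · simp only [dat, abs_neg]
      exact h4
    · simp only [rf] at h1
      rw [h3] at h1
      simp only [dat]
      linear_combination -h1
    · exact abs_tB_le hs hj
    · intro h7
      simp only [dat] at h7 ⊢
      obtain ⟨m, m', hm', hm⟩ := exists_wd h7
      obtain ⟨k, hk, hk2⟩ := wdN_ne hm
      refine (h5 k (hk.trans hm') hk2).trans ?_
      have := M_le_Mx P.D j
      linarith
  · right; left
    refine ⟨?_, h4⟩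
    simp only [dat]
    rw [h2]
    ring

open Classical in
/-- **`rf u w0 > 0`** at a zero of `G`. -/
theorem rf_pos (hs : P.Sm) (hP : P.HP) (hnu : 0 < P.nu)
    (hc : ∀ (u : ℂ) (eu : ℝ), (P.dat u eu).Con (Fintype.card (Fin N)) (Fintype.card (Fin P.D.nb)))
    (hG : ∑ j, (P.X j : ℂ) * plN P.ga (P.D.sn j) (P.D.M j) (P.z j) =
      ((∑ e : Fin P.D.nb, P.cB * P.ga * (P.hh e * ∏ j ∈ P.supp e, P.la e j) : ℝ) : ℂ))
    (hpl : ∀ j, P.Wp j → plN P.ga (P.D.sn j) (P.D.M j) (P.z j) = ((P.z j).re : ℂ) * P.pj j)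
    {u : ℂ} (hu : u.re ^ 2 + u.im ^ 2 = 1) (hu0 : 0 < u.re)
    (hw : ∀ j, rf u (P.w j) = 0) : 0 < rf u P.w0 := by
  have hN := hs.hN
  obtain ⟨eu, heu, heu2⟩ : ∃ eu : ℝ, (eu = 1 ∨ eu = -1) ∧ u.im = eu * |u.im| := by
    rcases le_total 0 u.im with h | h
    · exact ⟨1, Or.inl rfl, by rw [abs_of_nonneg h, one_mul]⟩
    · exact ⟨-1, Or.inr rfl, by rw [abs_of_nonpos h]; ring⟩
  have hc' := hc u eu
  have hK : 16 * (P.D.Mx : ℝ) + 2 ≤ P.D.K := K_ge P.D (by omega)
  have hreal : ∀ j, P.X j * (plN P.ga (P.D.sn j) (P.D.M j) (P.z j)).re =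
      if P.Wp j then P.X j * (P.z j).re * (-(1 - P.ga) + ((P.pj j).re + (1 - P.ga)))
      else -(P.X j * ((2 - P.ga) * (P.z j).re)) := by
    intro j
    by_cases h : P.Wp j
    · rw [if_pos h, hpl j h]
      simp only [Complex.mul_re, Complex.ofReal_re, Complex.ofReal_im, zero_mul, sub_zero]
      ring
    · rw [if_neg h, hP.off j h]
      simp only [Complex.sub_re, Complex.mul_re, Complex.neg_re, Complex.neg_im,
        Complex.ofReal_re, Complex.ofReal_im, Complex.I_re, Complex.I_im]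
      ring
  have himag : ∀ j, P.X j * (plN P.ga (P.D.sn j) (P.D.M j) (P.z j)).im =
      if P.Wp j then P.X j * (P.z j).re * (P.pj j).im else -(P.X j * (P.z j).im) := by
    intro j
    by_cases h : P.Wp j
    · rw [if_pos h, hpl j h]
      simp only [Complex.mul_im, Complex.ofReal_re, Complex.ofReal_im, zero_mul, add_zero]
      ring
    · rw [if_neg h, hP.off j h]
      simp only [Complex.sub_im, Complex.mul_im, Complex.neg_re, Complex.neg_im,
        Complex.ofReal_re, Complex.ofReal_im, Complex.I_re, Complex.I_im]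
      ring
  have ok : (P.dat u eu).Ok :=
    { hu := hu
      hu0 := hu0
      heu := heu
      heu2 := heu2
      hν := hnu
      big := by
        simp only [dat]
        unfold nu
        rw [Real.sq_sqrt (Finset.sum_nonneg fun j _ => sq_nonneg _)]
      X0 := X_nonneg
      X1 := X_le_one
      fl1 := fun j hj => X_of_fl hs hj
      fl0 := fun j hj => by
        have hj' : P.x j < 2 * P.d := not_le.1 hj
        have h1 := s_div_le hnu j
        rw [abs_div, abs_of_pos hnu, div_le_iff₀ hnu] at h1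
        refine h1.trans ?_
        simp only [dat]
        exact mul_le_mul_of_nonneg_right hj'.le hnu.le
      Ws := fun j hj => hj.1
      rX := fun j _ => X_le_rho hs hnu j
      r6 := fun j _ => rho_le hs hnu j
      r0 := fun j _ h => rho_of_X hs h
      Wt := fun j hj => by
        have hj' : P.Wp j := hj
        simp only [dat, Dat.HB, Dat.p, Dat.wn]
        rw [if_pos hj']
        have e1 : (⟨-(1 - P.ga) + ((P.pj j).re + (1 - P.ga)), (P.pj j).im⟩ : ℂ) = P.pj j := by
          apply Complex.ext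
          · simp
            ring
          · simp
        rw [e1]
        congr 3 <;> (unfold HB; congr 1; exact Finset.sum_congr rfl fun e _ => by congr)
      Wc := fun j hj hX => on_cases hs hP hu0 hj (hw j) hX heu heu2
      Vt := fun j hj => by
        have hj' : ¬ P.Wp j := hj
        simp only [dat]
        rw [if_neg hj']
        exact off_nonneg hs hnu hP hu0 hj' (hw j)
      Vf := fun j hj hf => by
        have hj' : ¬ P.Wp j := hj
        simp only [dat]
        rw [if_neg hj']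
        exact off_full hs hP hj' (hw j) hf hu0
      VK := fun j hj hX => off_K hs hnu hP hu0 hj (hw j) hX
      VO := fun j _ hf => off_t hs hnu hf
      la0 := fun e j => la_nonneg e j
      la1 := fun e j => la_le_one e j
      hh0 := hh_nonneg
      hd0 := fun e j => sq_nonneg _
      h12 := fun e he => by
        have he' : 0 < Hm (P.supp e) P.Rr := he
        have h3 := Hm_sum he'
        have h4 : 0 < ((P.supp e).card : ℝ) := by
          have : 0 < (P.supp e).card := by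
            have := P.D.h2 e
            unfold supp
            omega
          exact_mod_cast this
        have h5 : ((P.supp e).card : ℝ) ≤ Fintype.card (Fin N) := by
          exact_mod_cast Finset.card_le_univ _
        rw [div_le_iff₀ h4] at h3
        have h6 : 0 ≤ ∑ j ∈ P.supp e, (Hm (P.supp e) P.Rr / P.Rr j) ^ 2 :=
          sum_nonneg fun j _ => sq_nonneg _
        calc (1 : ℝ) ≤ (∑ j ∈ P.supp e, (Hm (P.supp e) P.Rr / P.Rr j) ^ 2) * (P.supp e).card := h3
          _ ≤ (∑ j ∈ P.supp e, (Hm (P.supp e) P.Rr / P.Rr j) ^ 2) * Fintype.card (Fin N) :=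
            mul_le_mul_of_nonneg_left h5 h6
          _ = _ := mul_comm _ _
      hs := fun e he j hj => by
        have he' : P.hh e * ∏ j ∈ P.supp e, P.la e j ≠ 0 := he
        have h3 : P.hh e ≠ 0 := left_ne_zero_of_mul he'
        have h4 : ∏ j ∈ P.supp e, P.la e j ≠ 0 := right_ne_zero_of_mul he'
        have h6 : 0 < P.hh e := lt_of_le_of_ne (hh_nonneg e) (Ne.symm h3)
        have h5 : P.la e j ≠ 0 := prod_ne_zero_iff.1 h4 j hj
        have h7 : 0 < P.Rr j := h6.trans_le (hh_le e hj)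
        have h9 : 0 < (P.z j).re := by
          by_contra h10
          unfold Rr at h7
          rw [max_eq_left (not_lt.1 h10), mul_zero] at h7
          exact lt_irrefl _ h7
        have w1 : P.Wp j := by
          refine ⟨h9, ?_⟩
          have h12 : ((P.D.bx e).hi j : ℝ) ≤ P.D.M j := by exact_mod_cast P.D.hhi e j hj
          have h10 : |P.ta j| < 16 * (P.D.bx e).hi j + 1 := by
            by_contra h11
            exact h5 (winN_far (not_lt.1 h11))
          unfold ta at h10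
          rw [abs_div, abs_of_pos h9, div_lt_iff₀ h9] at h10
          have h11 := M_le_Mx P.D j
          nlinarith
        exact ⟨(hh_le e hj).trans (Rr_on w1).le, w1⟩
      Zr := by
        have h1 := congrArg Complex.re hG
        simp only [Complex.re_sum, Complex.re_ofReal_mul, Complex.ofReal_re] at h1
        rw [Finset.sum_congr rfl fun j _ => hreal j] at h1
        simp only [dat, Dat.B, Dat.wn]
        rw [← h1] <;> exact Finset.sum_congr rfl fun j _ => by congr
      Zi := by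
        have h1 := congrArg Complex.im hG
        simp only [Complex.im_sum, Complex.im_ofReal_mul, Complex.ofReal_im] at h1
        rw [Finset.sum_congr rfl fun j _ => himag j] at h1
        simp only [dat]
        rw [← h1] <;> exact Finset.sum_congr rfl fun j _ => by congr }
  have h1 := Dat.pos hc' ok
  have h2 : rf u P.w0 = ∑ j, (P.dat u eu).tm j := by
    unfold w0
    rw [rf_sum]
    refine Finset.sum_congr rfl fun j _ => ?_
    simp only [dat]
    split_ifs with h
    · unfold w0j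
      rw [if_pos h]
      have h3 := hw j
      rw [rf_add, rf_real_mul, h3, mul_zero, add_zero, ← Complex.ofReal_neg, rf_real_mul, rf_sub,
        rf_ofReal]
      ring
    · rfl
  rw [h2]
  exact h1

end final

/-! ### constants -/

/-- the condition on `cB`, `ga`, `d`. -/
def Cst (D : SD N) (c g d : ℝ) : Prop :=
  12 * (N : ℝ) ^ 2 + 1 ≤ c ∧ 0 < g ∧
    g * (48 * N + 144 * N * (c * D.nb) + 8 * (16 * D.Mx + 1) * (c * D.nb) + 4) ≤ 1 ∧ 0 < d ∧
    d * ((N : ℝ) ^ 2 * (6 + 2 * (16 * D.Mx + 1) + 28 * D.K) + 8 * N ^ 2 / g +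
      4 * N * ((D.nb : ℝ) + 1) * c + 1) ≤ 1

theorem ev_cst (D : SD N) : T3aDefs_957.LD.Ev (Cst D) := by
  refine ⟨12 * N ^ 2 + 1, by positivity, fun c hc => ?_⟩
  have hc0 : 0 < c := lt_of_lt_of_le (by positivity) hc
  have h1 : 0 < 48 * (N : ℝ) + 144 * N * (c * D.nb) + 8 * (16 * D.Mx + 1) * (c * D.nb) + 4 := by
    positivity
  refine ⟨1 / (48 * (N : ℝ) + 144 * N * (c * D.nb) + 8 * (16 * D.Mx + 1) * (c * D.nb) + 4),
    by positivity, fun g hg hg1 => ?_⟩
  have hK0 : 0 ≤ D.K := by unfold SD.K SD.K1; positivity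
  have h2 : 0 < (N : ℝ) ^ 2 * (6 + 2 * (16 * D.Mx + 1) + 28 * D.K) + 8 * N ^ 2 / g +
    4 * N * ((D.nb : ℝ) + 1) * c + 1 := by positivity
  refine ⟨1 / ((N : ℝ) ^ 2 * (6 + 2 * (16 * D.Mx + 1) + 28 * D.K) + 8 * N ^ 2 / g +
    4 * N * ((D.nb : ℝ) + 1) * c + 1), by positivity, fun d hd hd1 => ?_⟩
  refine ⟨hc, hg, ?_, hd, ?_⟩
  · rwa [le_div_iff₀ h1] at hg1
  · rwa [le_div_iff₀ h2] at hd1

theorem K_big (D : SD N) (hN : 3 ≤ N) : 72 * (N : ℝ) ≤ D.K := by
  have hN' : (3 : ℝ) ≤ N := by exact_mod_cast hN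
  have hMx : (N : ℝ) ≤ D.Mx := by
    have : ∑ j : Fin N, 1 ≤ ∑ j, D.M j := sum_le_sum fun j _ => D.hM j
    simp only [sum_const, card_univ, Fintype.card_fin, smul_eq_mul, mul_one] at this
    exact_mod_cast this
  unfold SD.K SD.K1
  have h1 : (50 : ℝ) ≤ 16 * D.Mx + 2 := by linarith
  have h2 : 50 * (3 * (N : ℝ)) ≤ (16 * D.Mx + 2) * ((N : ℝ) * N) :=
    mul_le_mul h1 (by nlinarith) (by linarith) (by linarith)
  nlinarith

theorem sm_of (hN : 3 ≤ N) (h : Cst P.D P.cB P.ga P.d) : P.Sm := by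
  obtain ⟨h1, h2, h3, h4, h5⟩ := h
  have hN' : (3 : ℝ) ≤ N := by exact_mod_cast hN
  have hK := K_big P.D hN
  have hM0 : (0 : ℝ) ≤ P.D.Mx := Nat.cast_nonneg _
  have hc0 : 0 < P.cB := lt_of_lt_of_le (by positivity) h1
  refine ⟨hN, h4, ?_, h2, ?_, by positivity⟩
  · have a1 : 0 ≤ P.d * (8 * (N : ℝ) ^ 2 / P.ga) := by positivity
    have a2 : 0 ≤ P.d * (4 * N * ((P.D.nb : ℝ) + 1) * P.cB) := by positivity
    have a3 : P.d * (8 * N) ≤
        P.d * ((N : ℝ) ^ 2 * (6 + 2 * (16 * P.D.Mx + 1) + 28 * P.D.K)) := by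
      refine mul_le_mul_of_nonneg_left ?_ h4.le
      have : (8 : ℝ) * N ≤ (N : ℝ) ^ 2 * 8 := by nlinarith
      refine this.trans (mul_le_mul_of_nonneg_left ?_ (sq_nonneg _))
      nlinarith
    linarith
  · have a1 : 0 ≤ P.ga * (48 * (N : ℝ)) := by positivity
    have a2 : 0 ≤ P.ga * (144 * N * (P.cB * P.D.nb)) := by positivity
    have a3 : 0 ≤ P.ga * (8 * (16 * P.D.Mx + 1) * (P.cB * P.D.nb)) := by positivity
    linarith

theorem con_of (hN : 3 ≤ N) (h : Cst P.D P.cB P.ga P.d) (u : ℂ) (eu : ℝ) :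
    (P.dat u eu).Con (Fintype.card (Fin N)) (Fintype.card (Fin P.D.nb)) := by
  obtain ⟨h1, h2, h3, h4, h5⟩ := h
  have hN' : (3 : ℝ) ≤ N := by exact_mod_cast hN
  have hK := K_big P.D hN
  have hM0 : (0 : ℝ) ≤ P.D.Mx := Nat.cast_nonneg _
  have hnb : (0 : ℝ) ≤ P.D.nb := Nat.cast_nonneg _
  have hc0 : 0 < P.cB := lt_of_lt_of_le (by positivity) h1
  have hK0 : 0 ≤ P.D.K := by linarith
  have b1 : 0 ≤ P.ga * (48 * (N : ℝ)) := by positivity
  have b2 : 0 ≤ P.ga * (144 * N * (P.cB * P.D.nb)) := by positivity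
  have b3 : 0 ≤ P.ga * (8 * (16 * P.D.Mx + 1) * (P.cB * P.D.nb)) := by positivity
  have c1 : 0 ≤ P.d * ((N : ℝ) ^ 2 * (6 + 2 * (16 * P.D.Mx + 1) + 28 * P.D.K)) := by positivity
  have c2 : 0 ≤ P.d * (8 * (N : ℝ) ^ 2 / P.ga) := by positivity
  have c3 : 0 ≤ P.d * (4 * N * ((P.D.nb : ℝ) + 1) * P.cB) := by positivity
  rw [Fintype.card_fin, Fintype.card_fin]
  refine { hN := by linarith, hM := hnb, hga := h2, hga2 := ?_, hga3 := ?_, hcB := ?_, hcT := ?_,
           hcT2 := ?_, hKM := ?_, hcT3 := ?_, hK := hK, hcO := ?_, hd := h4, hd1 := ?_,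
           hd2 := ?_, hd3 := ?_ }
  · show P.ga ≤ 1 / 4
    linarith
  · show 6 * (N : ℝ) * P.ga ≤ 1 / 8
    linarith
  · show 12 * (N : ℝ) ^ 2 < P.cB
    linarith
  · show 0 ≤ P.cB * P.ga * P.D.nb
    positivity
  · show 6 * (N : ℝ) * (3 * (P.cB * P.ga * P.D.nb)) ≤ 1 / 8
    linarith
  · show 0 ≤ 16 * (P.D.Mx : ℝ) + 1
    linarith
  · show (16 * (P.D.Mx : ℝ) + 1) * (P.cB * P.ga * P.D.nb) ≤ 1 / 8
    linarith
  · show 0 ≤ 28 * P.D.K
    linarith
  · show (N : ℝ) ^ 2 * (6 + 2 * (16 * (P.D.Mx : ℝ) + 1) + 28 * P.D.K) * P.d < 1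
    linarith
  · show 8 * (N : ℝ) ^ 2 * P.d ≤ P.ga
    have : P.d * (8 * (N : ℝ) ^ 2 / P.ga) ≤ 1 := by linarith
    rw [mul_div_assoc', div_le_one h2] at this
    linarith
  · show 2 * P.d * (2 * N * ((P.D.nb : ℝ) + 1) * P.cB) < 1
    linarith

end PtN

end Crest.Agent.R267.K2cN_867
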