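import Crest.Agent.R267.K2b_867
import Crest.Agent.R267.Curve_867

/-!
# K2 of T3a, region II: the numbers of `Dat` at a zero of `G`

`Pt` collects a point `z` of `ℂ^N`, the constants, a direction `u` and the derivatives `ps j`,
`pt j` of the planar gauge at `z j` (with their three properties `hP`).
`w j` = derivative of `G` in the direction `i e_j`, `w0` = derivative in the direction `-(1,…,1)`.
-/

set_option autoImplicit false
set_option linter.unusedSectionVars false
set_option linter.unusedVariables false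

noncomputable section

open Finset

namespace Crest.Agent.R267.K2c_867

open Crest.Agent.R267.LemL_951 Crest.Agent.R267.T3aDefs_957 Crest.Agent.R267.Calc_957
  Crest.Agent.R267.Curve_867 Crest.Agent.R267.K2b_867

/-! ### the linear algebra -/

theorem farkas {N : ℕ} (w : Fin N → ℂ) (w0 : ℂ) (h1 : ∃ j, (w j).im ≠ 0)
    (h : ∀ u : ℂ, u.re ^ 2 + u.im ^ 2 = 1 → 0 < u.re → (∀ j, rf u (w j) = 0) → 0 < rf u w0) :
    ∃ (a : ℝ) (Y : Fin N → ℝ), 0 ≤ a ∧ ((a : ℂ) * w0 + ∑ j, (Y j : ℂ) * w j).im = 0 ∧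
      0 < ((a : ℂ) * w0 + ∑ j, (Y j : ℂ) * w j).re := by
  classical
  obtain ⟨j0, hj0⟩ := h1
  by_cases hp : ∃ j, (w j0).re * (w j).im - (w j0).im * (w j).re ≠ 0
  · obtain ⟨j, hj⟩ := hp
    set c : ℝ := (w j0).re * (w j).im - (w j0).im * (w j).re with hc
    refine ⟨0, fun i => c * ((if i = j0 then (w j).im else 0) - (if i = j then (w j0).im else 0)),
      le_rfl, ?_, ?_⟩
    · simp only [Complex.ofReal_zero, zero_mul, zero_add, Complex.im_sum,
        Complex.mul_im, Complex.ofReal_re, Complex.ofReal_im, add_zero,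
        mul_sub, sub_mul, Finset.sum_sub_distrib, mul_ite, ite_mul, mul_zero,
        Finset.sum_ite_eq', Finset.mem_univ, if_true]
      ring
    · simp only [Complex.ofReal_zero, zero_mul, zero_add, Complex.re_sum,
        Complex.mul_re, Complex.ofReal_re, Complex.ofReal_im, sub_zero,
        mul_sub, sub_mul, Finset.sum_sub_distrib, mul_ite, ite_mul, mul_zero,
        Finset.sum_ite_eq', Finset.mem_univ, if_true]
      have : 0 < c ^ 2 := by positivity
      have e : c * (w j).im * (w j0).re - c * (w j0).im * (w j).re = c ^ 2 := by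
        rw [hc]; ring
      linarith
  · push Not at hp
    set n : ℝ := √((w j0).re ^ 2 + (w j0).im ^ 2) with hn
    have hn2 : n ^ 2 = (w j0).re ^ 2 + (w j0).im ^ 2 := Real.sq_sqrt (by positivity)
    have hn0 : 0 < n := by
      refine Real.sqrt_pos.2 ?_
      have : 0 < (w j0).im ^ 2 := by positivity
      nlinarith [sq_nonneg (w j0).re]
    obtain ⟨σ, hσ, hσ2⟩ : ∃ σ : ℝ, σ ^ 2 = 1 ∧ 0 < σ * (w j0).im := by
      rcases lt_or_gt_of_ne hj0 with h2 | h2
      · exact ⟨-1, by norm_num, by linarith⟩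
      · exact ⟨1, by norm_num, by linarith⟩
    have hu := h ⟨σ * (w j0).im / n, -(σ * (w j0).re) / n⟩ (by
      simp only
      rw [div_pow, div_pow, ← add_div, div_eq_one_iff_eq (by positivity)]
      calc (σ * (w j0).im) ^ 2 + (-(σ * (w j0).re)) ^ 2
          = σ ^ 2 * ((w j0).re ^ 2 + (w j0).im ^ 2) := by ring
        _ = n ^ 2 := by rw [hσ, one_mul, hn2]) (by simp only; positivity) (by
      intro j
      simp only [rf]
      have := hp j
      field_simp
      linear_combination (-σ) * this)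
    refine ⟨1, fun i => if i = j0 then -(w0.im / (w j0).im) else 0, zero_le_one, ?_, ?_⟩
    · simp only [Complex.ofReal_one, one_mul, Complex.add_im, Complex.im_sum, Complex.mul_im,
        Complex.ofReal_re, Complex.ofReal_im, zero_mul, add_zero, ite_mul,
        Finset.sum_ite_eq', Finset.mem_univ, if_true]
      field_simp
      ring
    · simp only [Complex.ofReal_one, one_mul, Complex.add_re, Complex.re_sum, Complex.mul_re,
        Complex.ofReal_re, Complex.ofReal_im, zero_mul, sub_zero, ite_mul,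
        Finset.sum_ite_eq', Finset.mem_univ, if_true]
      simp only [rf] at hu
      have h2 : 0 < (σ * (w j0).im) * (w0.re + -(w0.im / (w j0).im) * (w j0).re) := by
        have e : (σ * (w j0).im) * (w0.re + -(w0.im / (w j0).im) * (w j0).re) =
            n * (σ * (w j0).im / n * w0.re + -(σ * (w j0).re) / n * w0.im) := by
          field_simp
        rw [e]
        exact mul_pos hn0 hu
      exact (pos_iff_pos_of_mul_pos h2).1 hσ2

/-! ### the planar gauge -/

theorem gq_ge {K A B : ℝ} (hA : 0 ≤ A) (hB : 0 ≤ B) : A ≤ gq K A B := by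
  unfold gq
  have : 0 ≤ (max 0 (B - K ^ 2 * A)) ^ 3 / ((3 * K ^ 2 + 3) * (A + B) ^ 2) := by positivity
  linarith

theorem abs_re_le_pg (K : ℝ) (z : ℂ) : |z.re| ≤ pg K z := by
  unfold pg
  rw [← Real.sqrt_sq_eq_abs]
  exact Real.sqrt_le_sqrt (gq_ge (sq_nonneg _) (sq_nonneg _))

theorem gq_ge_B {K A B : ℝ} (hK : 1 ≤ K) (hA : 0 ≤ A) (hB : 0 ≤ B) :
    B ≤ 196 * K ^ 2 * gq K A B := by
  have hK2 : 1 ≤ K ^ 2 := by nlinarith
  rcases le_or_gt B (2 * K ^ 2 * A) with h | h
  · have h1 := gq_ge (K := K) hA hB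
    have h2 : 196 * K ^ 2 * A ≤ 196 * K ^ 2 * gq K A B :=
      mul_le_mul_of_nonneg_left h1 (by positivity)
    nlinarith
  · have hB0 : 0 < B := lt_of_le_of_lt (by positivity) h
    have h1 : B / 2 ≤ B - K ^ 2 * A := by linarith
    unfold gq
    rw [max_eq_right (by linarith)]
    have h2 : B ^ 3 / 8 ≤ (B - K ^ 2 * A) ^ 3 := by
      calc B ^ 3 / 8 = (B / 2) ^ 3 := by ring
        _ ≤ _ := pow_le_pow_left₀ (by linarith) h1 3
    have h3 : A ≤ B / 2 := by nlinarith
    have h4 : (A + B) ^ 2 ≤ 9 * B ^ 2 / 4 := by nlinarith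
    have h5 : 3 * K ^ 2 + 3 ≤ 6 * K ^ 2 := by linarith
    have h6 : (3 * K ^ 2 + 3) * (A + B) ^ 2 ≤ 6 * K ^ 2 * (9 * B ^ 2 / 4) :=
      mul_le_mul h5 h4 (sq_nonneg _) (by positivity)
    have h7 : B / (108 * K ^ 2) ≤ (B - K ^ 2 * A) ^ 3 / ((3 * K ^ 2 + 3) * (A + B) ^ 2) := by
      rw [div_le_div_iff₀ (by positivity) (by positivity)]
      calc B * ((3 * K ^ 2 + 3) * (A + B) ^ 2) ≤ B * (6 * K ^ 2 * (9 * B ^ 2 / 4)) :=
            mul_le_mul_of_nonneg_left h6 hB
        _ = B ^ 3 / 8 * (108 * K ^ 2) := by ring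
        _ ≤ (B - K ^ 2 * A) ^ 3 * (108 * K ^ 2) := mul_le_mul_of_nonneg_right h2 (by positivity)
    calc B = 108 * K ^ 2 * (B / (108 * K ^ 2)) := by field_simp
      _ ≤ 196 * K ^ 2 * (B / (108 * K ^ 2)) := by
          refine mul_le_mul_of_nonneg_right ?_ (by positivity)
          nlinarith
      _ ≤ _ := mul_le_mul_of_nonneg_left (by linarith) (by positivity)

theorem abs_im_le_pg {K : ℝ} (hK : 1 ≤ K) (z : ℂ) : |z.im| ≤ 14 * K * pg K z := by
  have h := gq_ge_B hK (sq_nonneg z.re) (sq_nonneg z.im)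
  have h1 : (0 : ℝ) ≤ gq K (z.re ^ 2) (z.im ^ 2) :=
    (sq_nonneg _).trans (gq_ge (sq_nonneg _) (sq_nonneg _))
  unfold pg
  rw [← Real.sqrt_sq_eq_abs]
  calc √(z.im ^ 2) ≤ √(196 * K ^ 2 * gq K (z.re ^ 2) (z.im ^ 2)) := Real.sqrt_le_sqrt h
    _ = √((14 * K) ^ 2 * gq K (z.re ^ 2) (z.im ^ 2)) := by congr 1; ring
    _ = 14 * K * √(gq K (z.re ^ 2) (z.im ^ 2)) := by
        rw [Real.sqrt_mul (sq_nonneg _), Real.sqrt_sq (by linarith)]

theorem gq_of_le {K A B : ℝ} (h : B ≤ K ^ 2 * A) : gq K A B = A := by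
  unfold gq
  rw [max_eq_left (by linarith)]
  simp

theorem pg_of_le {K : ℝ} (hK : 0 ≤ K) {z : ℂ} (h : |z.im| ≤ K * |z.re|) : pg K z = |z.re| := by
  unfold pg
  rw [gq_of_le, Real.sqrt_sq_eq_abs]
  calc z.im ^ 2 = |z.im| ^ 2 := (sq_abs _).symm
    _ ≤ (K * |z.re|) ^ 2 := pow_le_pow_left₀ (abs_nonneg _) h 2
    _ = K ^ 2 * z.re ^ 2 := by rw [mul_pow, sq_abs]

theorem NN_of_le {N : ℕ} {K : ℝ} {z : Fin N → ℂ}
    (h : ∑ j, (z j).im ^ 2 ≤ K ^ 2 * ∑ j, (z j).re ^ 2) : NN K z = √(∑ j, (z j).re ^ 2) := by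
  unfold NN
  rw [gq_of_le h]

/-! ### the numbers at the point -/

/-- a point with all constants. -/
structure Pt (N : ℕ) where
  D : LD N
  cB : ℝ
  ga : ℝ
  d : ℝ
  z : Fin N → ℂ
  ps : Fin N → ℝ
  pt : Fin N → ℝ

namespace Pt

variable {N : ℕ} (P : Pt N)

def s (j : Fin N) : ℝ := (P.z j).re

def t (j : Fin N) : ℝ := (P.z j).im

/-- slope. -/
def ta (j : Fin N) : ℝ := (P.z j).im / (P.z j).re

def nu : ℝ := √(∑ j, (P.z j).re ^ 2)

def x (j : Fin N) : ℝ := pg P.D.K (P.z j) / P.nu

def X (j : Fin N) : ℝ := chi P.d (P.x j)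

/-- derivative of the cut-off. -/
def cd (j : Fin N) : ℝ := std ((P.x j - P.d) / P.d) / P.d

def S : ℝ := ∑ j, (P.z j).re / P.nu

/-- window index. -/
def Wp (j : Fin N) : Prop := 0 < (P.z j).re ∧ |(P.z j).im| ≤ P.D.K * (P.z j).re

def rho (j : Fin N) : ℝ := P.X j + P.x j * P.cd j - P.x j ^ 2 * P.cd j * P.S

/-- `χ s⁺`. -/
def Rr (j : Fin N) : ℝ := P.X j * max 0 (P.z j).re

def pj (j : Fin N) : ℂ := pv P.ga (P.D.M j) (P.ta j)

/-- edges. -/
abbrev Ed := {e : Fin N × Fin N × ℕ // e ∈ P.D.C}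

def src (e : P.Ed) : Fin N := e.1.1

def tgt (e : P.Ed) : Fin N := e.1.2.1

def la (e : P.Ed) : ℝ := win e.1.2.2 (P.D.M (P.src e)) (P.ta (P.src e))

def be (e : P.Ed) : ℝ := win (P.D.M (P.tgt e) - 1) (P.D.M (P.tgt e)) (P.ta (P.tgt e))

def lad (e : P.Ed) : ℝ := wd e.1.2.2 (P.D.M (P.src e)) (P.ta (P.src e))

def bed (e : P.Ed) : ℝ := wd (P.D.M (P.tgt e) - 1) (P.D.M (P.tgt e)) (P.ta (P.tgt e))

def hh (e : P.Ed) : ℝ :=
  P.Rr (P.src e) * P.Rr (P.tgt e) / (P.Rr (P.src e) + P.Rr (P.tgt e))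

def h1 (e : P.Ed) : ℝ := (P.Rr (P.tgt e) / (P.Rr (P.src e) + P.Rr (P.tgt e))) ^ 2

def h2 (e : P.Ed) : ℝ := (P.Rr (P.src e) / (P.Rr (P.src e) + P.Rr (P.tgt e))) ^ 2

open Classical in
/-- derivative of the deletion term in the direction `i e_j`. -/
def tB (j : Fin N) : ℝ :=
  P.cB * P.ga * ∑ e : P.Ed, ((if P.src e = j then P.hh e * (P.lad e / (P.z j).re) * P.be e else 0) +
    (if P.tgt e = j then P.hh e * P.la e * (P.bed e / (P.z j).re) else 0))

open Classical in
/-- `∂B/∂R_j`. -/
def HB (j : Fin N) : ℝ :=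
  P.cB * P.ga * ∑ e : P.Ed, ((if P.src e = j then P.la e * P.be e * P.h1 e else 0) +
    (if P.tgt e = j then P.la e * P.be e * P.h2 e else 0))

open Classical in
/-- derivative of `G` in the direction `i e_j`. -/
def w (j : Fin N) : ℂ :=
  if P.Wp j then (P.X j : ℂ) * pvd (P.D.M j) (P.ta j) - (P.tB j : ℂ)
  else -Complex.I * (P.X j : ℂ) +
    ((P.cd j * P.pt j / P.nu : ℝ) : ℂ) * pl P.ga (P.D.M j) (P.z j)

open Classical in
/-- contribution of `j` to the derivative of `G` in the direction `-(1,…,1)`. -/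
def w0j (j : Fin N) : ℂ :=
  if P.Wp j then -((P.rho j : ℝ) : ℂ) * (P.pj j - (P.HB j : ℂ)) + (P.ta j : ℂ) * P.w j
  else (((2 - P.ga) * P.X j : ℝ) : ℂ) +
    (((P.cd j * P.x j * P.S - P.cd j * P.ps j) / P.nu : ℝ) : ℂ) * pl P.ga (P.D.M j) (P.z j)

def w0 : ℂ := ∑ j, P.w0j j

open Classical in
/-- the numbers. -/
def dat (u : ℂ) (eu : ℝ) : Dat (Fin N) P.Ed where
  ga := P.ga
  K := P.D.K
  cB := P.cB
  cT := P.cB * P.ga * Fintype.card P.Ed
  KM := 8 * P.D.Mx + 1
  cO := 28 * P.D.K
  d := P.d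
  ν := P.nu
  s := P.s
  t := P.t
  X := P.X
  rho := P.rho
  A := fun j => (P.pj j).re + (1 - P.ga)
  Bv := fun j => (P.pj j).im
  tB := P.tB
  kp := fun j => -(pvd (P.D.M j) (P.ta j)).im
  tm := fun j => if P.Wp j then P.rho j * (u.re * P.HB j - rf u (P.pj j)) else rf u (P.w0j j)
  Wp := P.Wp
  fl := fun j => 2 * P.d ≤ P.x j
  src := P.src
  tgt := P.tgt
  la := P.la
  be := P.be
  hh := P.hh
  h1 := P.h1
  h2 := P.h2
  u := u
  eu := eu

/-- properties of the derivatives of the planar gauge. -/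
def HP : Prop := ∀ j, 0 ≤ P.pt j * (P.z j).im ∧
  P.ps j * (P.z j).re + P.pt j * (P.z j).im = pg P.D.K (P.z j) ∧
  (P.pt j ≠ 0 → P.D.K * |(P.z j).re| < |(P.z j).im|)

/-! ### elementary facts -/

section facts

variable {P}

theorem Rr_nonneg (j : Fin N) : 0 ≤ P.Rr j :=
  mul_nonneg (st_nonneg _) (le_max_left _ _)

theorem X_nonneg (j : Fin N) : 0 ≤ P.X j := st_nonneg _

theorem X_le_one (j : Fin N) : P.X j ≤ 1 := Curve_867.st_le_one _

theorem hh_nonneg (e : P.Ed) : 0 ≤ P.hh e :=
  div_nonneg (mul_nonneg (Rr_nonneg _) (Rr_nonneg _)) (add_nonneg (Rr_nonneg _) (Rr_nonneg _))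

theorem hh_le_src (e : P.Ed) : P.hh e ≤ P.Rr (P.src e) := by
  have h1 := Rr_nonneg (P := P) (P.src e)
  have h2 := Rr_nonneg (P := P) (P.tgt e)
  unfold hh
  rcases eq_or_lt_of_le (add_nonneg h1 h2) with h | h
  · rw [← h, div_zero]; exact h1
  · rw [div_le_iff₀ h]
    nlinarith

theorem hh_le_tgt (e : P.Ed) : P.hh e ≤ P.Rr (P.tgt e) := by
  have h1 := Rr_nonneg (P := P) (P.src e)
  have h2 := Rr_nonneg (P := P) (P.tgt e)
  unfold hh
  rcases eq_or_lt_of_le (add_nonneg h1 h2) with h | h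
  · rw [← h, div_zero]; exact h2
  · rw [div_le_iff₀ h]
    nlinarith

theorem src_ne_tgt (e : P.Ed) : P.src e ≠ P.tgt e := P.D.hC e.1 e.2

theorem M_le_Mx (D : LD N) (j : Fin N) : (D.M j : ℝ) ≤ D.Mx := by
  have : D.M j ≤ ∑ i, D.M i := Finset.single_le_sum (fun i _ => Nat.zero_le _) (Finset.mem_univ j)
  exact_mod_cast this

theorem K_ge (D : LD N) (hN : 1 ≤ N) : 8 * (D.Mx : ℝ) + 2 ≤ D.K := by
  unfold LD.K LD.K1
  have h1 : (1 : ℝ) ≤ N := by exact_mod_cast hN
  have h2 : (0 : ℝ) ≤ D.Mx := Nat.cast_nonneg _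
  have h3 : (1 : ℝ) ≤ (N : ℝ) * N := by nlinarith
  nlinarith

end facts

/-! ### small cut-off constants -/

section small

variable {P} (hN : 3 ≤ N) {u : ℂ} {eu : ℝ}
  (hc : (P.dat u eu).Con (Fintype.card (Fin N)) (Fintype.card P.Ed)) (hnu : 0 < P.nu)

include hN in
theorem K_ge10 : 10 ≤ P.D.K := by
  have h1 := K_ge P.D (by omega)
  have h2 : (1 : ℝ) ≤ P.D.Mx := by
    have h3 := M_le_Mx P.D ⟨0, by omega⟩
    have h4 : (1 : ℝ) ≤ P.D.M ⟨0, by omega⟩ := by exact_mod_cast P.D.hM _
    linarith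
  linarith

include hc in
theorem d_pos : 0 < P.d := hc.hd

include hN hc in
theorem dN_le : 2 * P.d * N ≤ 1 / 4 := by
  have h1 := hc.hd1
  have h2 := K_ge10 (P := P) hN
  have hd := hc.hd
  simp only [dat, Fintype.card_fin] at h1 hd
  have h3 : (3 : ℝ) ≤ N := by exact_mod_cast hN
  have h4 : (0 : ℝ) ≤ P.D.Mx := Nat.cast_nonneg _
  have h5 : (280 : ℝ) ≤ 4 + 2 * (8 * P.D.Mx + 1) + 28 * P.D.K := by linarith
  have h6 : (N : ℝ) * 280 ≤ (N : ℝ) ^ 2 * (4 + 2 * (8 * P.D.Mx + 1) + 28 * P.D.K) :=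
    mul_le_mul (by nlinarith) h5 (by norm_num) (by positivity)
  have h7 := mul_le_mul_of_nonneg_right h6 hd.le
  nlinarith

include hnu in
theorem abs_s_le (j : Fin N) : |(P.z j).re| ≤ P.nu := by
  unfold nu
  rw [← Real.sqrt_sq_eq_abs]
  exact Real.sqrt_le_sqrt (Finset.single_le_sum (f := fun j => (P.z j).re ^ 2)
    (fun i _ => sq_nonneg _) (Finset.mem_univ j))

include hnu in
theorem abs_S_le : |P.S| ≤ N := by
  unfold S
  refine (Finset.abs_sum_le_sum_abs _ _).trans ?_
  refine (Finset.sum_le_sum (g := fun _ => (1 : ℝ)) fun j _ => ?_).trans (by simp)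
  rw [abs_div, abs_of_pos hnu, div_le_one hnu]
  exact abs_s_le hnu j

include hnu in
theorem x_nonneg (j : Fin N) : 0 ≤ P.x j := div_nonneg (Real.sqrt_nonneg _) hnu.le

include hnu in
theorem s_div_le (j : Fin N) : |(P.z j).re / P.nu| ≤ P.x j := by
  rw [abs_div, abs_of_pos hnu]
  unfold x
  gcongr
  exact abs_re_le_pg _ _

include hc in
theorem cd_nonneg (j : Fin N) : 0 ≤ P.cd j := div_nonneg (std_nonneg _) (d_pos hc).le

include hc in
theorem lt_of_cd (j : Fin N) (h : P.cd j ≠ 0) : P.x j < 2 * P.d := by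
  by_contra h1
  rw [not_lt] at h1
  have hd := d_pos hc
  refine h ?_
  unfold cd
  rw [std_of_ge ((one_le_div hd).2 (by linarith)), zero_div]

include hc hnu in
theorem xcd_le (j : Fin N) : P.x j * P.cd j ≤ 15 / 4 := by
  have hd := d_pos hc
  by_cases h : P.cd j = 0
  · rw [h, mul_zero]; norm_num
  · have h1 := lt_of_cd hc j h
    have h2 := std_le ((P.x j - P.d) / P.d)
    have h3 := std_nonneg ((P.x j - P.d) / P.d)
    have h0 := x_nonneg hnu j
    unfold cd
    rw [← mul_div_assoc, div_le_iff₀ hd]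
    calc P.x j * std ((P.x j - P.d) / P.d) ≤ (2 * P.d) * (15 / 8) :=
          mul_le_mul h1.le h2 h3 (by linarith)
      _ = 15 / 4 * P.d := by ring

include hN hc hnu in
theorem xS_le (j : Fin N) (h : P.cd j ≠ 0) : P.x j * |P.S| ≤ 1 / 4 := by
  have h1 := lt_of_cd hc j h
  have h2 := abs_S_le hnu
  have h0 := x_nonneg hnu j
  have h3 := dN_le hN hc
  have hd := d_pos hc
  calc P.x j * |P.S| ≤ (2 * P.d) * N := mul_le_mul h1.le h2 (abs_nonneg _) (by linarith)
    _ ≤ _ := h3

theorem rho_eq (j : Fin N) : P.rho j = P.X j + P.x j * P.cd j * (1 - P.x j * P.S) := by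
  unfold rho; ring

include hN hc hnu in
theorem X_le_rho (j : Fin N) : P.X j ≤ P.rho j := by
  rw [rho_eq]
  by_cases h : P.cd j = 0
  · rw [h]; simp
  · have h1 := xS_le hN hc hnu j h
    have h2 : P.x j * P.S ≤ P.x j * |P.S| :=
      mul_le_mul_of_nonneg_left (le_abs_self _) (x_nonneg hnu j)
    have h3 := mul_nonneg (mul_nonneg (x_nonneg hnu j) (cd_nonneg hc j))
      (by linarith : 0 ≤ 1 - P.x j * P.S)
    linarith

include hN hc hnu in
theorem rho_le (j : Fin N) : P.rho j ≤ 6 := by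
  rw [rho_eq]
  have h5 := X_le_one (P := P) j
  by_cases h : P.cd j = 0
  · rw [h]; simp; linarith
  · have h1 := xS_le hN hc hnu j h
    have h2 : -(P.x j * |P.S|) ≤ P.x j * P.S := by
      rw [← mul_neg]
      exact mul_le_mul_of_nonneg_left (neg_abs_le _) (x_nonneg hnu j)
    have h3 := xcd_le hc hnu j
    have h4 : P.x j * P.cd j * (1 - P.x j * P.S) ≤ 15 / 4 * (5 / 4) :=
      mul_le_mul h3 (by linarith) (by
        have : P.x j * P.S ≤ P.x j * |P.S| :=
          mul_le_mul_of_nonneg_left (le_abs_self _) (x_nonneg hnu j)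
        linarith) (by norm_num)
    linarith

include hc in
theorem cd_of_X {j : Fin N} (h : P.X j = 0) : P.cd j = 0 := by
  have hd := d_pos hc
  unfold X chi at h
  unfold cd
  have h1 : (P.x j - P.d) / P.d ≤ 0 := by
    by_contra h2
    rw [not_le] at h2
    exact (st_pos h2).ne' h
  rw [std_of_le h1, zero_div]

include hc in
theorem rho_of_X {j : Fin N} (h : P.X j = 0) : P.rho j = 0 := by
  rw [rho_eq, h, cd_of_X hc h]
  ring

include hc in
theorem X_of_fl {j : Fin N} (h : 2 * P.d ≤ P.x j) : P.X j = 1 := by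
  have hd := d_pos hc
  unfold X chi
  exact st_of_ge ((one_le_div hd).2 (by linarith))

include hc in
theorem cd_of_fl {j : Fin N} (h : 2 * P.d ≤ P.x j) : P.cd j = 0 := by
  by_contra h1
  exact absurd (lt_of_cd hc j h1) (not_lt.2 h)

include hN in
/-- off the window the planar function is linear. -/
theorem pl_off {j : Fin N} (h : ¬ P.Wp j) : pl P.ga (P.D.M j) (P.z j) =
    -((2 - P.ga : ℝ) : ℂ) * (P.z j).re - Complex.I * (P.z j).im := by
  rcases le_or_gt (P.z j).re 0 with h1 | h1
  · exact pl_of_nonpos h1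
  · refine pl_of_far (Or.inl ?_)
    have h2 : P.D.K * (P.z j).re < |(P.z j).im| := by
      by_contra h3
      exact h ⟨h1, not_lt.1 h3⟩
    have h3 := K_ge P.D (by omega)
    have h4 := M_le_Mx P.D j
    nlinarith

end small

/-! ### indices off the windows -/

section off

variable {P} (hN : 3 ≤ N) {u : ℂ} {eu : ℝ}
  (hc : (P.dat u eu).Con (Fintype.card (Fin N)) (Fintype.card P.Ed)) (hnu : 0 < P.nu)
  (hP : P.HP) (hu0 : 0 < u.re) {j : Fin N} (hj : ¬ P.Wp j) (hw : rf u (P.w j) = 0)

include hN hj hw in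
/-- the equation `rf u (w j) = 0`. -/
theorem off_eq : (P.X j + P.cd j * P.pt j / P.nu * (P.z j).im) * u.im =
    -(P.cd j * P.pt j / P.nu * ((2 - P.ga) * (P.z j).re * u.re)) := by
  have h1 := hw
  unfold w at h1
  rw [if_neg hj, pl_off hN hj] at h1
  simp only [rf, Complex.add_re, Complex.add_im, Complex.mul_re, Complex.mul_im, Complex.neg_re,
    Complex.neg_im, Complex.I_re, Complex.I_im, Complex.ofReal_re, Complex.ofReal_im,
    Complex.sub_re, Complex.sub_im] at h1
  linear_combination -h1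

include hc hnu hP in
theorem at_nonneg (j : Fin N) : 0 ≤ P.cd j * P.pt j / P.nu * (P.z j).im := by
  have h1 := (hP j).1
  have h2 := cd_nonneg hc j
  calc (0 : ℝ) ≤ P.cd j * (P.pt j * (P.z j).im) / P.nu :=
        div_nonneg (mul_nonneg h2 h1) hnu.le
    _ = _ := by ring

include hN hj in
theorem off_tm : rf u (P.w0j j) = (2 - P.ga) * P.X j * u.re +
    (P.cd j * P.x j * P.S - P.cd j * P.ps j) / P.nu *
      (-((2 - P.ga) * (P.z j).re * u.re) - (P.z j).im * u.im) := by
  unfold w0j
  rw [if_neg hj, pl_off hN hj]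
  simp only [rf, Complex.add_re, Complex.add_im, Complex.mul_re, Complex.mul_im, Complex.neg_re,
    Complex.neg_im, Complex.I_re, Complex.I_im, Complex.ofReal_re, Complex.ofReal_im,
    Complex.sub_re, Complex.sub_im]
  ring

include hN hc hnu hP hu0 hj hw in
theorem off_nonneg : 0 ≤ rf u (P.w0j j) := by
  rw [off_tm hN hj]
  have h1 := off_eq hN hj hw
  have h2 := at_nonneg hc hnu hP j
  have h3 := X_nonneg (P := P) j
  have hga : P.ga ≤ 1 / 4 := hc.hga2
  rcases eq_or_lt_of_le (add_nonneg h3 h2) with h4 | h4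
  · have h5 : P.X j = 0 := by linarith
    rw [h5, cd_of_X hc h5]
    simp
  · set a : ℝ := P.cd j * P.pt j / P.nu with ha
    set l : ℝ := 2 - P.ga with hl
    have hl0 : 0 < l := by rw [hl]; linarith
    -- the product with `X + a t`
    have h5 : (l * P.X j * u.re + (P.cd j * P.x j * P.S - P.cd j * P.ps j) / P.nu *
        (-(l * (P.z j).re * u.re) - (P.z j).im * u.im)) * (P.X j + a * (P.z j).im) =
        u.re * l * P.X j * (P.X j + P.cd j * P.x j - P.cd j * P.x j * (P.S * ((P.z j).re / P.nu))) := by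
      have e1 : a * (P.z j).im + P.cd j * P.ps j / P.nu * (P.z j).re = P.cd j * P.x j := by
        rw [ha]
        unfold x
        rw [← (hP j).2.1]
        ring
      have e2 : (-(l * (P.z j).re * u.re) - (P.z j).im * u.im) * (P.X j + a * (P.z j).im) =
          -(l * (P.z j).re * u.re * P.X j) := by
        linear_combination (-(P.z j).im) * h1
      calc (l * P.X j * u.re + (P.cd j * P.x j * P.S - P.cd j * P.ps j) / P.nu *
            (-(l * (P.z j).re * u.re) - (P.z j).im * u.im)) * (P.X j + a * (P.z j).im)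
          = l * P.X j * u.re * (P.X j + a * (P.z j).im) +
            (P.cd j * P.x j * P.S - P.cd j * P.ps j) / P.nu *
            ((-(l * (P.z j).re * u.re) - (P.z j).im * u.im) * (P.X j + a * (P.z j).im)) := by ring
        _ = l * P.X j * u.re * (P.X j + (a * (P.z j).im + P.cd j * P.ps j / P.nu * (P.z j).re) -
            P.cd j * P.x j * (P.S * ((P.z j).re / P.nu))) := by rw [e2]; ring
        _ = _ := by rw [e1]; ring
    have h6 : 0 ≤ P.X j + P.cd j * P.x j - P.cd j * P.x j * (P.S * ((P.z j).re / P.nu)) := by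
      by_cases h7 : P.cd j = 0
      · rw [h7]; simp [h3]
      · have h8 := xS_le hN hc hnu j h7
        have h9 : P.S * ((P.z j).re / P.nu) ≤ 1 / 4 := by
          calc P.S * ((P.z j).re / P.nu) ≤ |P.S * ((P.z j).re / P.nu)| := le_abs_self _
            _ = |(P.z j).re / P.nu| * |P.S| := by rw [abs_mul, mul_comm]
            _ ≤ P.x j * |P.S| := mul_le_mul_of_nonneg_right (s_div_le hnu j) (abs_nonneg _)
            _ ≤ 1 / 4 := h8
        have h10 := mul_nonneg (mul_nonneg (cd_nonneg hc j) (x_nonneg hnu j))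
          (by linarith : 0 ≤ 1 - P.S * ((P.z j).re / P.nu))
        linarith
    have h7 : 0 ≤ u.re * l * P.X j *
        (P.X j + P.cd j * P.x j - P.cd j * P.x j * (P.S * ((P.z j).re / P.nu))) :=
      mul_nonneg (mul_nonneg (mul_nonneg hu0.le hl0.le) h3) h6
    rw [← h5] at h7
    by_contra h8
    rw [not_le] at h8
    have := mul_neg_of_neg_of_pos h8 h4
    linarith

include hN hc hnu hj hw in
theorem off_full (hf : 2 * P.d ≤ P.x j) (hu0 : 0 < u.re) :
    u.im = 0 ∧ u.re ≤ rf u (P.w0j j) := by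
  have h1 := off_eq hN hj hw
  have h2 := off_tm (u := u) hN hj
  rw [X_of_fl hc hf, cd_of_fl hc hf] at h1 h2
  have hga : P.ga ≤ 1 / 4 := hc.hga2
  constructor
  · linear_combination h1
  · rw [h2]
    have : 0 ≤ (1 - P.ga) * u.re := mul_nonneg (by linarith) hu0.le
    have e : (0 * P.x j * P.S - 0 * P.ps j) / P.nu = 0 := by simp
    rw [e, zero_mul]
    linarith

include hN hc hnu hP hu0 hj hw in
theorem off_K (hX : 0 < P.X j) : P.D.K * |u.im| ≤ 2 * u.re := by
  have h1 := off_eq hN hj hw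
  have h2 := at_nonneg hc hnu hP j
  have hga : P.ga ≤ 1 / 4 := hc.hga2
  have hga0 : 0 < P.ga := hc.hga
  set a : ℝ := P.cd j * P.pt j / P.nu with ha
  by_cases h0 : a = 0
  · rw [h0] at h1
    have h3 : u.im = 0 := by
      have : P.X j * u.im = 0 := by linarith
      exact (mul_eq_zero.1 this).resolve_left hX.ne'
    rw [h3, abs_zero, mul_zero]
    linarith
  · have h3 : P.pt j ≠ 0 := by
      intro h; apply h0; rw [ha, h]; ring
    have h4 := (hP j).2.2 h3
    have h5 : |a| * |(P.z j).im| * |u.im| ≤ |a| * ((2 - P.ga) * |(P.z j).re| * u.re) := by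
      have e1 : |a| * |(P.z j).im| = a * (P.z j).im := by rw [← abs_mul, abs_of_nonneg h2]
      have e2 : |P.X j + a * (P.z j).im| * |u.im| =
          |a| * ((2 - P.ga) * |(P.z j).re| * u.re) := by
        rw [← abs_mul, h1, abs_neg, abs_mul, abs_mul, abs_mul, abs_of_pos hu0,
          abs_of_pos (by linarith : 0 < 2 - P.ga)]
      rw [e1, ← e2]
      refine mul_le_mul_of_nonneg_right ?_ (abs_nonneg _)
      rw [abs_of_nonneg (by linarith)]
      linarith
    have h6 : |(P.z j).im| * |u.im| ≤ (2 - P.ga) * |(P.z j).re| * u.re := by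
      rw [mul_assoc] at h5
      exact le_of_mul_le_mul_left h5 (abs_pos.2 h0)
    have h7 : P.D.K * |(P.z j).re| * |u.im| ≤ (2 - P.ga) * |(P.z j).re| * u.re :=
      (mul_le_mul_of_nonneg_right h4.le (abs_nonneg _)).trans h6
    rcases eq_or_lt_of_le (abs_nonneg (P.z j).re) with h8 | h8
    · rw [← h8, mul_zero] at h4
      rw [← h8] at h6
      have h9 : |u.im| = 0 := by
        have : |(P.z j).im| * |u.im| ≤ 0 := by linarith
        have h10 := abs_nonneg u.im
        nlinarith
      rw [h9, mul_zero]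
      linarith
    · have h9 : |(P.z j).re| * (P.D.K * |u.im|) ≤ |(P.z j).re| * ((2 - P.ga) * u.re) := by
        linarith
      have h10 := le_of_mul_le_mul_left h9 h8
      have h11 : 0 ≤ P.ga * u.re := mul_nonneg hga0.le hu0.le
      linarith

include hN hnu in
theorem off_t (hf : ¬ 2 * P.d ≤ P.x j) : |(P.z j).im| ≤ 28 * P.D.K * P.d * P.nu := by
  have hK := K_ge10 (P := P) hN
  have h1 := abs_im_le_pg (K := P.D.K) (by linarith) (P.z j)
  rw [not_le] at hf
  unfold x at hf
  rw [div_lt_iff₀ hnu] at hf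
  have h2 : 14 * P.D.K * pg P.D.K (P.z j) ≤ 14 * P.D.K * (2 * P.d * P.nu) :=
    mul_le_mul_of_nonneg_left hf.le (by linarith)
  linarith

end off

/-! ### window indices -/

section on

variable {P} (hN : 3 ≤ N) {u : ℂ} {eu : ℝ}
  (hc : (P.dat u eu).Con (Fintype.card (Fin N)) (Fintype.card P.Ed)) (hnu : 0 < P.nu)
  (hu0 : 0 < u.re) {j : Fin N} (hj : P.Wp j) (hw : rf u (P.w j) = 0)

include hj in
theorem Rr_on : P.Rr j = P.X j * (P.z j).re := by
  unfold Rr
  rw [max_eq_right hj.1.le]

include hj in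
/-- the derivative of the deletion term is small. -/
theorem abs_tB_le (h0 : 0 ≤ P.cB * P.ga) :
    |P.tB j| ≤ P.cB * P.ga * Fintype.card P.Ed * P.X j := by
  classical
  unfold tB
  have e0 : P.cB * P.ga * Fintype.card P.Ed * P.X j =
      P.cB * P.ga * (Fintype.card P.Ed * P.X j) := by ring
  rw [abs_mul, abs_of_nonneg h0, e0]
  refine mul_le_mul_of_nonneg_left ?_ h0
  refine (Finset.abs_sum_le_sum_abs _ _).trans ?_
  refine (Finset.sum_le_sum (g := fun _ => P.X j) fun e _ => ?_).trans (by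
    rw [Finset.sum_const, Finset.card_univ, nsmul_eq_mul])
  have hX := X_nonneg (P := P) j
  have hs := hj.1
  have key : ∀ a b c : ℝ, 0 ≤ a → a ≤ P.X j * (P.z j).re → |b| ≤ 1 → |c| ≤ 1 →
      |a * (b / (P.z j).re) * c| ≤ P.X j := by
    intro a b c ha h1 h2 h3
    rw [abs_mul, abs_mul, abs_div, abs_of_nonneg ha, abs_of_pos hs]
    have h4 : a * (|b| / (P.z j).re) ≤ P.X j := by
      rw [mul_div_assoc', div_le_iff₀ hs]
      calc a * |b| ≤ a * 1 := mul_le_mul_of_nonneg_left h2 ha
        _ ≤ _ := by linarith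
    calc a * (|b| / (P.z j).re) * |c| ≤ P.X j * 1 :=
          mul_le_mul h4 h3 (abs_nonneg _) hX
      _ = P.X j := mul_one _
  by_cases h1 : P.src e = j
  · have h2 : P.tgt e ≠ j := fun h => src_ne_tgt e (h1.trans h.symm)
    rw [if_pos h1, if_neg h2, add_zero]
    refine key _ _ _ (hh_nonneg e) ?_ (abs_wd_le _ _ _) ?_
    · rw [← Rr_on hj, ← h1]; exact hh_le_src e
    · exact (abs_of_nonneg (win_nonneg _ _ _)).trans_le (win_le_one _ _ _)
  · rw [if_neg h1, zero_add]
    by_cases h2 : P.tgt e = j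
    · rw [if_pos h2]
      have := key (P.hh e) (P.bed e) (P.la e) (hh_nonneg e)
        (by rw [← Rr_on hj, ← h2]; exact hh_le_tgt e) (abs_wd_le _ _ _)
        ((abs_of_nonneg (win_nonneg _ _ _)).trans_le (win_le_one _ _ _))
      rwa [show P.hh e * P.la e * (P.bed e / (P.z j).re) =
        P.hh e * (P.bed e / (P.z j).re) * P.la e by ring]
    · rw [if_neg h2, abs_zero]; exact hX

/-- a moving window. -/
theorem exists_wd (h : P.tB j ≠ 0) : ∃ m, wd m (P.D.M j) (P.ta j) ≠ 0 := by
  classical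
  by_contra h0
  push Not at h0
  refine h ?_
  unfold tB
  rw [Finset.sum_eq_zero, mul_zero]
  intro e _
  have e1 : (if P.src e = j then P.hh e * (P.lad e / (P.z j).re) * P.be e else 0) = 0 := by
    split_ifs with h1
    · have : P.lad e = 0 := by
        unfold lad
        rw [h1]
        exact h0 _
      rw [this]; ring
    · rfl
  have e2 : (if P.tgt e = j then P.hh e * P.la e * (P.bed e / (P.z j).re) else 0) = 0 := by
    split_ifs with h1
    · have : P.bed e = 0 := by
        unfold bed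
        rw [h1]
        exact h0 _
      rw [this]; ring
    · rfl
  rw [e1, e2, add_zero]

include hj hw in
theorem on_eq : P.X j * rf u (pvd (P.D.M j) (P.ta j)) = u.re * P.tB j := by
  have h1 := hw
  unfold w at h1
  rw [if_pos hj, rf_sub, rf_real_mul, rf_ofReal] at h1
  linarith

include hc hu0 hj hw in
theorem on_cases (hX : 0 < P.X j) (heu : eu = 1 ∨ eu = -1) (heu2 : u.im = eu * |u.im|) :
    (P.dat u eu).TT j ∨ (P.dat u eu).NN j := by
  have h0 : 0 ≤ P.cB * P.ga := by
    have h1 := hc.hcB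
    have h2 := hc.hN
    have h3 := hc.hga
    simp only [dat] at h1 h2 h3
    exact mul_nonneg (by linarith) h3.le
  have h1 := on_eq hj hw
  by_cases hl : ∀ l < P.D.M j, 3 ≤ |P.ta j - sg l|
  · left
    obtain ⟨h2, κ, h3, h4⟩ := pv_vert hl
    have h5 : (P.dat u eu).kp j = κ := by
      simp only [dat]
      rw [h4]
      simp
    have h6 : (P.dat u eu).A j = -1 := by
      simp only [dat, pj]
      rw [h2 P.ga]
      ring
    refine ⟨h6, h5.symm ▸ h3, ?_, ?_, ?_⟩
    · rw [h5]
      rw [h4] at h1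
      simp only [rf, Complex.mul_re, Complex.mul_im, Complex.neg_re,
        Complex.neg_im, Complex.I_re, Complex.I_im, Complex.ofReal_re, Complex.ofReal_im] at h1
      simp only [dat]
      linear_combination -h1
    · simp only [dat]
      exact abs_tB_le hj h0
    · intro h7
      simp only [dat] at h7 ⊢
      obtain ⟨m, hm⟩ := exists_wd h7
      refine (pv_im_of_wd P.ga hm).trans ?_
      have := M_le_Mx P.D j
      linarith
  · right
    push Not at hl
    obtain ⟨l, hl, h2⟩ := hl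
    obtain ⟨p1, p2, p3, p4⟩ := pv_lobe (ga := P.ga) hl h2
    have hA : (P.dat u eu).A j = Af (P.ta j - sg l) := by
      simp only [dat, pj]
      rw [p1]
      ring
    have hB : (P.dat u eu).Bv j = Bf (P.ta j - sg l) := by
      simp only [dat, pj]
      rw [p2]
    have htB : P.tB j = 0 := by
      by_contra h3
      obtain ⟨m, hm⟩ := exists_wd h3
      exact hm (win_const_of_cell h2).2
    rw [htB, mul_zero] at h1
    have h3 := (mul_eq_zero.1 h1).resolve_left hX.ne'
    simp only [rf] at h3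
    rw [p3, p4] at h3
    refine ⟨⟨fun e he => ?_, fun e he => ?_⟩, ?_⟩
    · have he' : P.src e = j := he
      have := (win_const_of_cell (m := e.1.2.2) (M := P.D.M j) h2).1
      simp only [dat, la]
      rw [he']
      exact this
    · have he' : P.tgt e = j := he
      have := (win_const_of_cell (m := P.D.M j - 1) (M := P.D.M j) h2).1
      simp only [dat, be]
      rw [he']
      exact this
    · rw [hA]
      unfold Dat.RA Dat.LA
      rw [hA, hB]
      rcases curve hu0 h2 h3 with ⟨h4, h5⟩ | ⟨h4, h5⟩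
      · exact Or.inl ⟨h4, h5⟩
      · exact Or.inr ⟨h4, h5 eu heu heu2⟩

end on

/-! ### the inequality -/

section final

variable {P} (hN : 3 ≤ N)

open Classical in
/-- **`rf u w0 > 0`** at a zero of `G`. -/
theorem rf_pos (hP : P.HP) (hnu : 0 < P.nu)
    (hc : ∀ (u : ℂ) (eu : ℝ), (P.dat u eu).Con (Fintype.card (Fin N)) (Fintype.card P.Ed))
    (hG : ∑ j, (P.X j : ℂ) * pl P.ga (P.D.M j) (P.z j) =
      ((∑ e : P.Ed, P.cB * P.ga * (P.hh e * (P.la e * P.be e)) : ℝ) : ℂ))
    (hN : 3 ≤ N) {u : ℂ} (hu : u.re ^ 2 + u.im ^ 2 = 1) (hu0 : 0 < u.re)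
    (hw : ∀ j, rf u (P.w j) = 0) : 0 < rf u P.w0 := by
  obtain ⟨eu, heu, heu2⟩ : ∃ eu : ℝ, (eu = 1 ∨ eu = -1) ∧ u.im = eu * |u.im| := by
    rcases le_total 0 u.im with h | h
    · exact ⟨1, Or.inl rfl, by rw [abs_of_nonneg h, one_mul]⟩
    · exact ⟨-1, Or.inr rfl, by rw [abs_of_nonpos h]; ring⟩
  have hc' := hc u eu
  have hK : 8 * (P.D.Mx : ℝ) + 2 ≤ P.D.K := K_ge P.D (by omega)
  have hreal : ∀ j, P.X j * (pl P.ga (P.D.M j) (P.z j)).re =
      if P.Wp j then P.X j * P.s j * (-(1 - P.ga) + ((P.pj j).re + (1 - P.ga)))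
      else -(P.X j * ((2 - P.ga) * P.s j)) := by
    intro j
    by_cases h : P.Wp j
    · rw [if_pos h, pl_of_pos h.1]
      simp only [Complex.mul_re, Complex.ofReal_re, Complex.ofReal_im, zero_mul, sub_zero, pj, s,
        ta]
      ring
    · rw [if_neg h, pl_off hN h]
      simp only [Complex.sub_re, Complex.mul_re, Complex.neg_re, Complex.neg_im,
        Complex.ofReal_re, Complex.ofReal_im, Complex.I_re, Complex.I_im, s]
      ring
  have himag : ∀ j, P.X j * (pl P.ga (P.D.M j) (P.z j)).im =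
      if P.Wp j then P.X j * P.s j * (P.pj j).im else -(P.X j * P.t j) := by
    intro j
    by_cases h : P.Wp j
    · rw [if_pos h, pl_of_pos h.1]
      simp only [Complex.mul_im, Complex.ofReal_re, Complex.ofReal_im, zero_mul, add_zero, pj, s,
        ta]
      ring
    · rw [if_neg h, pl_off hN h]
      simp only [Complex.sub_im, Complex.mul_im, Complex.neg_re, Complex.neg_im,
        Complex.ofReal_re, Complex.ofReal_im, Complex.I_re, Complex.I_im, t]
      ring
  have ok : (P.dat u eu).Ok :=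
    { hu := hu
      hu0 := hu0
      heu := heu
      heu2 := heu2
      hν := hnu
      big := by
        simp only [dat]
        unfold nu
        rw [Real.sq_sqrt (Finset.sum_nonneg fun j _ => sq_nonneg _)]
        exact le_rfl
      X0 := X_nonneg
      X1 := X_le_one
      fl1 := fun j hj => X_of_fl hc' hj
      fl0 := fun j hj => by
        have hj' : P.x j < 2 * P.d := not_le.1 hj
        have h1 := s_div_le hnu j
        rw [abs_div, abs_of_pos hnu, div_le_iff₀ hnu] at h1
        refine h1.trans ?_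
        simp only [dat]
        exact mul_le_mul_of_nonneg_right hj'.le hnu.le
      Ws := fun j hj => hj.1
      rX := fun j _ => X_le_rho hN hc' hnu j
      r6 := fun j _ => rho_le hN hc' hnu j
      r0 := fun j _ h => rho_of_X hc' h
      Wt := fun j hj => by
        have hj' : P.Wp j := hj
        simp only [dat, Dat.HB, Dat.p]
        rw [if_pos hj']
        have e1 : (⟨-(1 - P.ga) + ((P.pj j).re + (1 - P.ga)), (P.pj j).im⟩ : ℂ) = P.pj j := by
          apply Complex.ext
          · simp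
            ring
          · simp
        rw [e1]
        congr 3 <;> (unfold HB; congr 1; exact Finset.sum_congr rfl fun e _ => by congr)
      Wc := fun j hj hX => on_cases hc' hu0 hj (hw j) hX heu heu2
      Vt := fun j hj => by
        have hj' : ¬ P.Wp j := hj
        simp only [dat]
        rw [if_neg hj']
        exact off_nonneg hN hc' hnu hP hu0 hj' (hw j)
      Vf := fun j hj hf => by
        have hj' : ¬ P.Wp j := hj
        simp only [dat]
        rw [if_neg hj']
        exact off_full hN hc' hnu hj' (hw j) hf hu0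
      VK := fun j hj hX => off_K hN hc' hnu hP hu0 hj (hw j) hX
      VO := fun j _ hf => off_t hN hnu hf
      la0 := fun e => win_nonneg _ _ _
      la1 := fun e => win_le_one _ _ _
      be0 := fun e => win_nonneg _ _ _
      be1 := fun e => win_le_one _ _ _
      hh0 := hh_nonneg
      h10 := fun e => sq_nonneg _
      h20 := fun e => sq_nonneg _
      h12 := fun e he => by
        have he' : 0 < P.hh e := he
        simp only [dat]
        unfold h1 h2
        have h3 : P.Rr (P.src e) + P.Rr (P.tgt e) ≠ 0 := by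
          intro h4
          unfold hh at he'
          rw [h4, div_zero] at he'
          exact lt_irrefl _ he'
        rw [div_pow, div_pow, ← add_div, div_le_div_iff₀ (by norm_num) (by positivity)]
        nlinarith [sq_nonneg (P.Rr (P.src e) - P.Rr (P.tgt e))]
      hs := fun e he => by
        have he' : P.hh e * (P.la e * P.be e) ≠ 0 := he
        have h3 : P.hh e ≠ 0 := left_ne_zero_of_mul he'
        have h4 : P.la e ≠ 0 := left_ne_zero_of_mul (right_ne_zero_of_mul he')
        have h5 : P.be e ≠ 0 := right_ne_zero_of_mul (right_ne_zero_of_mul he')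
        have h6 : 0 < P.hh e := lt_of_le_of_ne (hh_nonneg e) (Ne.symm h3)
        have key : ∀ j, 0 < P.Rr j → (∃ m, win m (P.D.M j) (P.ta j) ≠ 0) → P.Wp j := by
          intro j h7 ⟨m, h8⟩
          have h9 : 0 < (P.z j).re := by
            by_contra h10
            unfold Rr at h7
            rw [max_eq_left (not_lt.1 h10), mul_zero] at h7
            exact lt_irrefl _ h7
          refine ⟨h9, ?_⟩
          have h10 : |P.ta j| < 8 * P.D.M j + 1 := by
            by_contra h11
            exact h8 (win_far (not_lt.1 h11))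
          unfold ta at h10
          rw [abs_div, abs_of_pos h9, div_lt_iff₀ h9] at h10
          have h11 := M_le_Mx P.D j
          nlinarith
        have w1 : P.Wp (P.src e) := key _ (h6.trans_le (hh_le_src e)) ⟨_, h4⟩
        have w2 : P.Wp (P.tgt e) := key _ (h6.trans_le (hh_le_tgt e)) ⟨_, h5⟩
        refine ⟨?_, ?_, w1, w2⟩
        · exact (hh_le_src e).trans (Rr_on w1).le
        · exact (hh_le_tgt e).trans (Rr_on w2).le
      Zr := by
        have h1 := congrArg Complex.re hG
        simp only [Complex.re_sum, Complex.re_ofReal_mul, Complex.ofReal_re] at h1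
        rw [Finset.sum_congr rfl fun j _ => hreal j] at h1
        simp only [dat, Dat.B]
        rw [← h1] <;> exact Finset.sum_congr rfl fun j _ => by congr
      Zi := by
        have h1 := congrArg Complex.im hG
        simp only [Complex.im_sum, Complex.im_ofReal_mul, Complex.ofReal_im] at h1
        rw [Finset.sum_congr rfl fun j _ => himag j] at h1
        simp only [dat]
        rw [← h1] <;> exact Finset.sum_congr rfl fun j _ => by congr }
  have h1 := Dat.pos hc' ok
  have h2 : rf u P.w0 = ∑ j, (P.dat u eu).tm j := by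
    unfold w0
    rw [rf_sum]
    refine Finset.sum_congr rfl fun j _ => ?_
    simp only [dat]
    split_ifs with h
    · unfold w0j
      rw [if_pos h]
      have h3 := hw j
      rw [rf_add, rf_real_mul, h3, mul_zero, add_zero, ← Complex.ofReal_neg, rf_real_mul, rf_sub,
        rf_ofReal]
      ring
    · rfl
  rw [h2]
  exact h1

end final

end Pt

end Crest.Agent.R267.K2c_867
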