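import Crest.Agent.R267.AgN_996
import Crest.Agent.R267.AbsK1_996
import Crest.Agent.R267.K2IIN_867

/-!
# Row 267, T3aN: K1Prop and K2Prop of the signed lobed function from smoothness
-/

set_option autoImplicit false

noncomputable section

namespace Crest.Agent.R267.KN_996

open Set Filter Topology Finset
open Crest.Agent.R267.T3aNDefs_88
open Crest.Agent.R267.T3aDefs_957 (LD)
open Crest.Agent.R267.TLine_996 (SA SB)
open Crest.Agent.R267.AbsG_996 Crest.Agent.R267.AbsK_996 Crest.Agent.R267.AgN_996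

variable {N : ℕ}

lemma exists_small (N : ℕ) : ∃ d0 : ℝ, 0 < d0 ∧ ∀ d, 0 < d → d ≤ d0 → (N : ℝ) * d ^ 2 < 1 := by
  refine ⟨1 / (N + 1), by positivity, fun d hd h => ?_⟩
  rw [le_div_iff₀ (by positivity)] at h
  have hN : (0 : ℝ) ≤ N := Nat.cast_nonneg _
  have h1 : d ≤ 1 := by nlinarith
  have h2 : d ^ 2 ≤ d := by nlinarith
  nlinarith

/-- **K1 of the signed function.** -/
theorem k1N (D : SD N) (hS : D.Smooth) : D.K1Prop := by
  obtain ⟨d0, hd0, hdk⟩ := exists_dOk1 (N := N) D.K1 (16 * D.Mx + 1)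
  obtain ⟨d1, hd1, hdN⟩ := exists_small N
  have h1 : LD.Ev fun c g d => 0 < c ∧ 0 < g ∧ g < 1 ∧ 0 < d ∧ d ≤ d0 ∧ d ≤ d1 :=
    ⟨1, one_pos, fun c hc => ⟨1 / 2, by norm_num, fun g hg hg' =>
      ⟨min d0 d1, lt_min hd0 hd1, fun d h h' => ⟨by linarith, hg, by linarith, h,
        h'.trans (min_le_left _ _), h'.trans (min_le_right _ _)⟩⟩⟩⟩
  refine (hS.and h1).mono fun c g d _ _ _ ⟨hs, hc, hg, hg1, hdp, h0, h2⟩ z hz _ hre => ?_
  have hG : DifferentiableAt ℝ ((agN D c g d).G d) z :=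
    (hs.contDiffAt (isOpen_compl_singleton.mem_nhds hz)).differentiableAt (by norm_num)
  have hok := agN_ok D d hc.le hg hg1
  obtain ⟨k1, k2, k3⟩ := hdk d hdp h0 (agN D c g d) hok rfl rfl
  exact AbsK1_996.k1 hok hdp (hdN d hdp h2) k1 k2 hz hG hre

/-- **K2 in region I** (no condition on `G z`). -/
theorem k2IN (D : SD N) (hS : D.Smooth) : LD.Ev fun c g d => ∀ z : Fin N → ℂ, z ≠ 0 →
    D.K1 ^ 2 * SA z < SB z → ∃ Y : Fin N → ℝ, (fderiv ℝ (D.G c g d) z (LD.vs 1 Y)).im = 0 ∧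
      0 < (fderiv ℝ (D.G c g d) z (LD.vs 1 Y)).re := by
  obtain ⟨d0, hd0, hdk⟩ := exists_dOk1 (N := N) D.K1 (16 * D.Mx + 1)
  have h1 : LD.Ev fun c g d => 0 < c ∧ 0 < g ∧ g * (9 * N + 1) ≤ 1 / 2 ∧ 0 < d ∧ d ≤ d0 := by
    refine ⟨1, one_pos, fun c hc => ⟨1 / (2 * (9 * N + 1)), by positivity, fun g hg hg' =>
      ⟨d0, hd0, fun d h h' => ⟨by linarith, hg, ?_, h, h'⟩⟩⟩⟩
    rw [le_div_iff₀ (by positivity)] at hg'
    linarith
  refine (hS.and h1).mono fun c g d _ _ _ ⟨hs, hc, hg, hg1, hdp, hd1⟩ z hz h2 => ?_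
  have hN0 : (0 : ℝ) ≤ N := Nat.cast_nonneg _
  have hg2 : g < 1 := by nlinarith
  have hG : DifferentiableAt ℝ ((agN D c g d).G d) z :=
    (hs.contDiffAt (isOpen_compl_singleton.mem_nhds hz)).differentiableAt (by norm_num)
  have hok := agN_ok D d hc.le hg hg2
  obtain ⟨k1, k2, k3⟩ := hdk d hdp hd1 (agN D c g d) hok rfl rfl
  exact AbsK_996.k2I hok hdp k1 k2 k3 hg1 (agN_BOk D hc.le hg hdp) hz hG h2

/-- **K2 of the signed function.** -/
theorem k2N (D : SD N) (hN : 3 ≤ N) (hS : D.Smooth) : D.K2Prop :=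
  ((k2IN D hS).and (K2IIN_867.k2IIN hN (k1N D hS))).mono
    fun c g d _ _ _ ⟨h1, h2⟩ z hz hG => by
      rcases le_or_gt (SB z) (D.K1 ^ 2 * SA z) with h | h
      · exact h2 z hz h hG
      · obtain ⟨Y, a, b⟩ := h1 z hz h
        exact ⟨1, Y, zero_le_one, a, b⟩

end Crest.Agent.R267.KN_996
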