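import Crest.Agent.R267.LDs_667
import Crest.Agent.R267.LDy_667
import Crest.Agent.R267.LDz_667

set_option autoImplicit false
set_option maxRecDepth 100000

namespace Crest.Agent.R267.LCc_667

open LightG_667 LightK_667 LightE_667 LightF_667

theorem a0 : ckC LDs_667.m LDs_667.cg LDs_667.cf LDy_667.y LDz_667.z LDs_667.nhr LDs_667.s 0 = true := by decide +kernel

theorem a1 : ckC LDs_667.m LDs_667.cg LDs_667.cf LDy_667.y LDz_667.z LDs_667.nhr LDs_667.s 1 = true := by decide +kernel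

theorem a2 : ckC LDs_667.m LDs_667.cg LDs_667.cf LDy_667.y LDz_667.z LDs_667.nhr LDs_667.s 2 = true := by decide +kernel

theorem a3 : ckC LDs_667.m LDs_667.cg LDs_667.cf LDy_667.y LDz_667.z LDs_667.nhr LDs_667.s 3 = true := by decide +kernel

theorem a4 : ckC LDs_667.m LDs_667.cg LDs_667.cf LDy_667.y LDz_667.z LDs_667.nhr LDs_667.s 4 = true := by decide +kernel

theorem a5 : ckC LDs_667.m LDs_667.cg LDs_667.cf LDy_667.y LDz_667.z LDs_667.nhr LDs_667.s 5 = true := by decide +kernel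

theorem a6 : ckC LDs_667.m LDs_667.cg LDs_667.cf LDy_667.y LDz_667.z LDs_667.nhr LDs_667.s 6 = true := by decide +kernel

theorem a7 : ckC LDs_667.m LDs_667.cg LDs_667.cf LDy_667.y LDz_667.z LDs_667.nhr LDs_667.s 7 = true := by decide +kernel

theorem a8 : ckC LDs_667.m LDs_667.cg LDs_667.cf LDy_667.y LDz_667.z LDs_667.nhr LDs_667.s 8 = true := by decide +kernel

theorem a9 : ckC LDs_667.m LDs_667.cg LDs_667.cf LDy_667.y LDz_667.z LDs_667.nhr LDs_667.s 9 = true := by decide +kernel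

theorem a10 : ckC LDs_667.m LDs_667.cg LDs_667.cf LDy_667.y LDz_667.z LDs_667.nhr LDs_667.s 10 = true := by decide +kernel

theorem a11 : ckC LDs_667.m LDs_667.cg LDs_667.cf LDy_667.y LDz_667.z LDs_667.nhr LDs_667.s 11 = true := by decide +kernel

theorem a12 : ckC LDs_667.m LDs_667.cg LDs_667.cf LDy_667.y LDz_667.z LDs_667.nhr LDs_667.s 12 = true := by decide +kernel

theorem a : ∀ c < 13, ckC LDs_667.m LDs_667.cg LDs_667.cf LDy_667.y LDz_667.z LDs_667.nhr LDs_667.s c = true := by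
  intro c hc
  interval_cases c
  · exact a0
  · exact a1
  · exact a2
  · exact a3
  · exact a4
  · exact a5
  · exact a6
  · exact a7
  · exact a8
  · exact a9
  · exact a10
  · exact a11
  · exact a12

theorem hm : LDs_667.B ^ 84 ≤ LDs_667.m := by decide +kernel

theorem k1a : eqm LDs_667.m (nth 0 LDs_667.bL 0) 1 = true := by decide +kernel

theorem k1b : allB 83 (fun x => eqm LDs_667.m (nth 0 LDs_667.bL (Nat.succ x))
    (Nat.mul LDs_667.B (nth 0 LDs_667.bL x))) = true := by decide +kernel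

theorem k2 : grid 6 (fun a k => eqm LDs_667.m (nth 0 LDs_667.b1 (k + 14 * a))
    (xge (nth [] LPl a) LDs_667.bL k)) = true := by decide +kernel

theorem k3 : grid 6 (fun a k => eqm LDs_667.m (nth 0 LDs_667.b1 (k + 14 * a))
    (xle (nth [] LPc a) LDs_667.b2 k)) = true := by decide +kernel

theorem k4 : eqm LDs_667.m (Nat.add LDs_667.c0 (Nat.mul 64 (ls LDs_667.bL))) 0 = true := by
  decide +kernel

theorem k4' : eqm LDs_667.m (Nat.add LDs_667.c0q (Nat.mul 64 (ls LDs_667.b2))) 0 = true := by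
  decide +kernel

theorem k8 : grid 13 (fun c l => eqm LDs_667.m (Nat.add (nth 0 (nth [] LDs_667.cg c) l)
    (xge (nth [] GGn c) LDs_667.bL l)) 0) = true := by decide +kernel

theorem k9 : grid 13 (fun c l => eqm LDs_667.m (Nat.add (nth 0 (nth [] LDs_667.cf c) l)
    (xge (nth [] GFn c) LDs_667.bL l)) (xge (nth [] GFp c) LDs_667.bL l)) = true := by decide +kernel

theorem k10 : eqm LDs_667.m LDs_667.gq (sumV (Qf LDs_667.cg LDy_667.y LDz_667.z)) = true := by
  decide +kernel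

theorem k100 : eqm LDs_667.m (nx 8 LDs_667.nr (Qf LDs_667.cg LDy_667.y LDz_667.z) 0)
    (Nat.add (nth 0 LDs_667.t 0) (Nat.mul 4 LDs_667.gq)) = true := by decide +kernel

theorem k101 : eqm LDs_667.m (nx 8 LDs_667.nr (Qf LDs_667.cg LDy_667.y LDz_667.z) 1)
    (Nat.add (nth 0 LDs_667.t 1) (Nat.mul 4 LDs_667.gq)) = true := by decide +kernel

theorem k102 : eqm LDs_667.m (nx 8 LDs_667.nr (Qf LDs_667.cg LDy_667.y LDz_667.z) 2)
    (Nat.add (nth 0 LDs_667.t 2) (Nat.mul 4 LDs_667.gq)) = true := by decide +kernel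

theorem k11a : eqm LDs_667.m (Nat.add (nth 0 LDs_667.s 0) (Nat.mul 2 (nth 0 LDs_667.t 0)))
    (Nat.add (Nat.mul 3 (nth 0 LDs_667.t 1)) (Nat.mul 4 (nth 0 LDs_667.t 2))) = true := by
  decide +kernel

theorem k11b : eqm LDs_667.m (Nat.add (nth 0 LDs_667.s 1) (Nat.add (nth 0 LDs_667.t 0) (Nat.add
    (Nat.mul 3 (nth 0 LDs_667.t 1)) (Nat.mul 3 (nth 0 LDs_667.t 2))))) 0 = true := by
  decide +kernel

theorem k11c : eqm LDs_667.m (nth 0 LDs_667.s 2) (Nat.add (nth 0 LDs_667.t 0) (Nat.add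
    (Nat.mul 2 (nth 0 LDs_667.t 1)) (Nat.mul 2 (nth 0 LDs_667.t 2)))) = true := by
  decide +kernel

theorem k13 : allB 84 (fun x => eqm LDs_667.m (Nat.add (nth 0 LDs_667.r1 x)
    (Nat.mul 1024 (ls LDs_667.bL))) (ddb 2048 LDs_667.bL (nth 0 LDs_667.rl x))) = true := by
  decide +kernel

theorem k14 : eqm LDs_667.m LDs_667.g1 (sumV (Gf LDs_667.cg LDy_667.y)) = true := by
  decide +kernel

theorem k15 : grid 6 (fun a k => eqm LDs_667.m
    (Nat.add (Nat.add (xge (nth [] DGp a) LDs_667.bL k) (xge (nth [] LPl a) LDs_667.r1 k))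
      (Nat.add (Nat.mul 1024 (ls LDs_667.b1)) (nth 0 LDs_667.hL (k + 14 * a))))
    (Nat.add (Nat.add (xge (nth [] DGn a) LDs_667.bL k) (rx LDs_667.rl LDs_667.b1 (k + 14 * a)))
      (Nat.add (Nat.mul 64 LDs_667.g1) (xge (nth [] DFp a) LDs_667.bL k)))) = true := by
  decide +kernel

end Crest.Agent.R267.LCc_667
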