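import Crest.Agent.R267.LDs_667

set_option autoImplicit false
set_option maxRecDepth 100000

namespace Crest.Agent.R267.LCn_667

open LightG_667 LightK_667 LightE_667 LightF_667

theorem a0 : ckN 8 LDs_667.m3 LDs_667.b3 LDs_667.c3 LDs_667.nr LDs_667.n3 0 = true := by decide +kernel

theorem a1 : ckN 8 LDs_667.m3 LDs_667.b3 LDs_667.c3 LDs_667.nr LDs_667.n3 1 = true := by decide +kernel

theorem a2 : ckN 8 LDs_667.m3 LDs_667.b3 LDs_667.c3 LDs_667.nr LDs_667.n3 2 = true := by decide +kernel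

theorem a3 : ckN 8 LDs_667.m3 LDs_667.b3 LDs_667.c3 LDs_667.nr LDs_667.n3 3 = true := by decide +kernel

theorem a4 : ckN 8 LDs_667.m3 LDs_667.b3 LDs_667.c3 LDs_667.nr LDs_667.n3 4 = true := by decide +kernel

theorem a5 : ckN 8 LDs_667.m3 LDs_667.b3 LDs_667.c3 LDs_667.nr LDs_667.n3 5 = true := by decide +kernel

theorem a6 : ckN 8 LDs_667.m3 LDs_667.b3 LDs_667.c3 LDs_667.nr LDs_667.n3 6 = true := by decide +kernel

theorem a7 : ckN 8 LDs_667.m3 LDs_667.b3 LDs_667.c3 LDs_667.nr LDs_667.n3 7 = true := by decide +kernel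

theorem a8 : ckN 8 LDs_667.m3 LDs_667.b3 LDs_667.c3 LDs_667.nr LDs_667.n3 8 = true := by decide +kernel

theorem a9 : ckN 8 LDs_667.m3 LDs_667.b3 LDs_667.c3 LDs_667.nr LDs_667.n3 9 = true := by decide +kernel

theorem a10 : ckN 8 LDs_667.m3 LDs_667.b3 LDs_667.c3 LDs_667.nr LDs_667.n3 10 = true := by decide +kernel

theorem a11 : ckN 8 LDs_667.m3 LDs_667.b3 LDs_667.c3 LDs_667.nr LDs_667.n3 11 = true := by decide +kernel

theorem a12 : ckN 8 LDs_667.m3 LDs_667.b3 LDs_667.c3 LDs_667.nr LDs_667.n3 12 = true := by decide +kernel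

theorem a : ∀ c < 13, ckN 8 LDs_667.m3 LDs_667.b3 LDs_667.c3 LDs_667.nr LDs_667.n3 c = true := by
  intro c hc
  interval_cases c
  · exact a0
  · exact a1
  · exact a2
  · exact a3
  · exact a4
  · exact a5
  · exact a6
  · exact a7
  · exact a8
  · exact a9
  · exact a10
  · exact a11
  · exact a12

theorem b0 : ckN 16 LDs_667.m3 LDs_667.b3 LDs_667.c3h LDs_667.nhr LDs_667.w3 0 = true := by decide +kernel

theorem b1 : ckN 16 LDs_667.m3 LDs_667.b3 LDs_667.c3h LDs_667.nhr LDs_667.w3 1 = true := by decide +kernel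

theorem b2 : ckN 16 LDs_667.m3 LDs_667.b3 LDs_667.c3h LDs_667.nhr LDs_667.w3 2 = true := by decide +kernel

theorem b3 : ckN 16 LDs_667.m3 LDs_667.b3 LDs_667.c3h LDs_667.nhr LDs_667.w3 3 = true := by decide +kernel

theorem b4 : ckN 16 LDs_667.m3 LDs_667.b3 LDs_667.c3h LDs_667.nhr LDs_667.w3 4 = true := by decide +kernel

theorem b5 : ckN 16 LDs_667.m3 LDs_667.b3 LDs_667.c3h LDs_667.nhr LDs_667.w3 5 = true := by decide +kernel

theorem b6 : ckN 16 LDs_667.m3 LDs_667.b3 LDs_667.c3h LDs_667.nhr LDs_667.w3 6 = true := by decide +kernel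

theorem b7 : ckN 16 LDs_667.m3 LDs_667.b3 LDs_667.c3h LDs_667.nhr LDs_667.w3 7 = true := by decide +kernel

theorem b8 : ckN 16 LDs_667.m3 LDs_667.b3 LDs_667.c3h LDs_667.nhr LDs_667.w3 8 = true := by decide +kernel

theorem b9 : ckN 16 LDs_667.m3 LDs_667.b3 LDs_667.c3h LDs_667.nhr LDs_667.w3 9 = true := by decide +kernel

theorem b10 : ckN 16 LDs_667.m3 LDs_667.b3 LDs_667.c3h LDs_667.nhr LDs_667.w3 10 = true := by decide +kernel

theorem b11 : ckN 16 LDs_667.m3 LDs_667.b3 LDs_667.c3h LDs_667.nhr LDs_667.w3 11 = true := by decide +kernel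

theorem b12 : ckN 16 LDs_667.m3 LDs_667.b3 LDs_667.c3h LDs_667.nhr LDs_667.w3 12 = true := by decide +kernel

theorem b : ∀ c < 13, ckN 16 LDs_667.m3 LDs_667.b3 LDs_667.c3h LDs_667.nhr LDs_667.w3 c = true := by
  intro c hc
  interval_cases c
  · exact b0
  · exact b1
  · exact b2
  · exact b3
  · exact b4
  · exact b5
  · exact b6
  · exact b7
  · exact b8
  · exact b9
  · exact b10
  · exact b11
  · exact b12

theorem c0 : cells 0 (rel LDs_667.m3 LDs_667.n3 LDs_667.w3 0) = true := by decide +kernel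

theorem c1 : cells 1 (rel LDs_667.m3 LDs_667.n3 LDs_667.w3 1) = true := by decide +kernel

theorem c2 : cells 2 (rel LDs_667.m3 LDs_667.n3 LDs_667.w3 2) = true := by decide +kernel

theorem c3 : cells 3 (rel LDs_667.m3 LDs_667.n3 LDs_667.w3 3) = true := by decide +kernel

theorem c4 : cells 4 (rel LDs_667.m3 LDs_667.n3 LDs_667.w3 4) = true := by decide +kernel

theorem c5 : cells 5 (rel LDs_667.m3 LDs_667.n3 LDs_667.w3 5) = true := by decide +kernel

theorem c6 : cells 6 (rel LDs_667.m3 LDs_667.n3 LDs_667.w3 6) = true := by decide +kernel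

theorem c7 : cells 7 (rel LDs_667.m3 LDs_667.n3 LDs_667.w3 7) = true := by decide +kernel

theorem c8 : cells 8 (rel LDs_667.m3 LDs_667.n3 LDs_667.w3 8) = true := by decide +kernel

theorem c9 : cells 9 (rel LDs_667.m3 LDs_667.n3 LDs_667.w3 9) = true := by decide +kernel

theorem c10 : cells 10 (rel LDs_667.m3 LDs_667.n3 LDs_667.w3 10) = true := by decide +kernel

theorem c11 : cells 11 (rel LDs_667.m3 LDs_667.n3 LDs_667.w3 11) = true := by decide +kernel

theorem c12 : cells 12 (rel LDs_667.m3 LDs_667.n3 LDs_667.w3 12) = true := by decide +kernel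

theorem c : ∀ c < 13, cells c (rel LDs_667.m3 LDs_667.n3 LDs_667.w3 c) = true := by
  intro c hc
  interval_cases c
  · exact c0
  · exact c1
  · exact c2
  · exact c3
  · exact c4
  · exact c5
  · exact c6
  · exact c7
  · exact c8
  · exact c9
  · exact c10
  · exact c11
  · exact c12

theorem d0 : cells 0 (relT LDs_667.m3 LDs_667.n3 LDs_667.w3 0) = true := by decide +kernel

theorem d1 : cells 1 (relT LDs_667.m3 LDs_667.n3 LDs_667.w3 1) = true := by decide +kernel

theorem d2 : cells 2 (relT LDs_667.m3 LDs_667.n3 LDs_667.w3 2) = true := by decide +kernel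

theorem d3 : cells 3 (relT LDs_667.m3 LDs_667.n3 LDs_667.w3 3) = true := by decide +kernel

theorem d4 : cells 4 (relT LDs_667.m3 LDs_667.n3 LDs_667.w3 4) = true := by decide +kernel

theorem d5 : cells 5 (relT LDs_667.m3 LDs_667.n3 LDs_667.w3 5) = true := by decide +kernel

theorem d6 : cells 6 (relT LDs_667.m3 LDs_667.n3 LDs_667.w3 6) = true := by decide +kernel

theorem d7 : cells 7 (relT LDs_667.m3 LDs_667.n3 LDs_667.w3 7) = true := by decide +kernel

theorem d8 : cells 8 (relT LDs_667.m3 LDs_667.n3 LDs_667.w3 8) = true := by decide +kernel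

theorem d9 : cells 9 (relT LDs_667.m3 LDs_667.n3 LDs_667.w3 9) = true := by decide +kernel

theorem d10 : cells 10 (relT LDs_667.m3 LDs_667.n3 LDs_667.w3 10) = true := by decide +kernel

theorem d11 : cells 11 (relT LDs_667.m3 LDs_667.n3 LDs_667.w3 11) = true := by decide +kernel

theorem d12 : cells 12 (relT LDs_667.m3 LDs_667.n3 LDs_667.w3 12) = true := by decide +kernel

theorem d : ∀ c < 13, cells c (relT LDs_667.m3 LDs_667.n3 LDs_667.w3 c) = true := by
  intro c hc
  interval_cases c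
  · exact d0
  · exact d1
  · exact d2
  · exact d3
  · exact d4
  · exact d5
  · exact d6
  · exact d7
  · exact d8
  · exact d9
  · exact d10
  · exact d11
  · exact d12

theorem sh : shp LDs_667.w3 = true := by decide +kernel

theorem k20 : eqm LDs_667.m3 LDs_667.g3 (sumV (val LDs_667.w3)) = true := by decide +kernel

theorem k20a : eqm LDs_667.m3 (Nat.add (nx 8 LDs_667.nr (val LDs_667.w3) 0)
    (Nat.add (nth 0 LDs_667.b3 1) (Nat.mul 4 (nth 0 LDs_667.b3 2)))) (Nat.mul 4 LDs_667.g3) = true := by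
  decide +kernel

theorem k20b : eqm LDs_667.m3 (Nat.add (nx 8 LDs_667.nr (val LDs_667.w3) 1) (nth 0 LDs_667.b3 0))
    (Nat.add (Nat.mul 4 LDs_667.g3)
      (Nat.add (Nat.mul 16 (nth 0 LDs_667.b3 1)) (Nat.mul 3 (nth 0 LDs_667.b3 2)))) = true := by
  decide +kernel

theorem k20c : eqm LDs_667.m3 (Nat.add (nx 8 LDs_667.nr (val LDs_667.w3) 2)
    (Nat.add (Nat.mul 4 (nth 0 LDs_667.b3 0)) (Nat.mul 18 (nth 0 LDs_667.b3 2))))
    (Nat.add (Nat.mul 4 LDs_667.g3) (Nat.mul 3 (nth 0 LDs_667.b3 1))) = true := by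
  decide +kernel

end Crest.Agent.R267.LCn_667
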