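import Crest.Agent.R267.LDs_667
import Crest.Agent.R267.LDp_667

set_option autoImplicit false
set_option maxRecDepth 100000

namespace Crest.Agent.R267.LCp_667

open LightG_667 LightK_667 LightE_667 LightF_667

theorem a0 : ckH LDs_667.m LDs_667.bL LDs_667.c0 LDs_667.rows LDp_667.p 0 = true := by decide +kernel

theorem a1 : ckH LDs_667.m LDs_667.bL LDs_667.c0 LDs_667.rows LDp_667.p 1 = true := by decide +kernel

theorem a2 : ckH LDs_667.m LDs_667.bL LDs_667.c0 LDs_667.rows LDp_667.p 2 = true := by decide +kernel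

theorem a3 : ckH LDs_667.m LDs_667.bL LDs_667.c0 LDs_667.rows LDp_667.p 3 = true := by decide +kernel

theorem a4 : ckH LDs_667.m LDs_667.bL LDs_667.c0 LDs_667.rows LDp_667.p 4 = true := by decide +kernel

theorem a5 : ckH LDs_667.m LDs_667.bL LDs_667.c0 LDs_667.rows LDp_667.p 5 = true := by decide +kernel

theorem a6 : ckH LDs_667.m LDs_667.bL LDs_667.c0 LDs_667.rows LDp_667.p 6 = true := by decide +kernel

theorem a7 : ckH LDs_667.m LDs_667.bL LDs_667.c0 LDs_667.rows LDp_667.p 7 = true := by decide +kernel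

theorem a8 : ckH LDs_667.m LDs_667.bL LDs_667.c0 LDs_667.rows LDp_667.p 8 = true := by decide +kernel

theorem a9 : ckH LDs_667.m LDs_667.bL LDs_667.c0 LDs_667.rows LDp_667.p 9 = true := by decide +kernel

theorem a10 : ckH LDs_667.m LDs_667.bL LDs_667.c0 LDs_667.rows LDp_667.p 10 = true := by decide +kernel

theorem a11 : ckH LDs_667.m LDs_667.bL LDs_667.c0 LDs_667.rows LDp_667.p 11 = true := by decide +kernel

theorem a12 : ckH LDs_667.m LDs_667.bL LDs_667.c0 LDs_667.rows LDp_667.p 12 = true := by decide +kernel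

theorem a : ∀ c < 13, ckH LDs_667.m LDs_667.bL LDs_667.c0 LDs_667.rows LDp_667.p c = true := by
  intro c hc
  interval_cases c
  · exact a0
  · exact a1
  · exact a2
  · exact a3
  · exact a4
  · exact a5
  · exact a6
  · exact a7
  · exact a8
  · exact a9
  · exact a10
  · exact a11
  · exact a12


end Crest.Agent.R267.LCp_667
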