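import Crest.Agent.R267.LightG_667

set_option autoImplicit false
set_option maxRecDepth 100000

namespace Crest.Agent.R267.LightH_667

open LightG_667 LightK_667 LightE_667 LightF_667

/-- all elements of a list. -/
noncomputable def allL (l : List ℕ) (f : ℕ → Bool) : Bool :=
  List.rec (motive := fun _ => Bool) true (fun a _ ih => Bool.rec false ih (f a)) l

theorem allL_iff (l : List ℕ) (f : ℕ → Bool) (h : allL l f = true) : ∀ a ∈ l, f a = true := by
  induction l with
  | nil => intro a ha; exact absurd ha List.not_mem_nil
  | cons b l ih =>
    have h1 : allL (b :: l) f = Bool.rec false (allL l f) (f b) := rfl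
    rw [h1] at h
    cases hf : f b with
    | false => rw [hf] at h; exact absurd h (by simp)
    | true =>
      rw [hf] at h
      intro a ha
      rcases List.mem_cons.1 ha with rfl | ha
      · exact hf
      · exact ih h a ha

end Crest.Agent.R267.LightH_667
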