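import Crest.Agent.R267.LDs_667
import Crest.Agent.R267.LDy_667
import Crest.Agent.R267.LightH_667

set_option autoImplicit false
set_option maxRecDepth 100000

namespace Crest.Agent.R267.LCx0_667

open LightG_667 LightK_667 LightE_667 LightF_667

theorem a0 : LightH_667.allL [0, 1, 2, 3, 4, 5, 6] (fun x => eqm LDs_667.m (nth 0 LDs_667.hL x) (hx LDs_667.rows LDs_667.cg LDy_667.y x)) = true := by
  decide +kernel

theorem a1 : LightH_667.allL [7, 8, 9, 10, 11, 12, 13] (fun x => eqm LDs_667.m (nth 0 LDs_667.hL x) (hx LDs_667.rows LDs_667.cg LDy_667.y x)) = true := by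
  decide +kernel

theorem a2 : LightH_667.allL [14, 15, 16, 17, 18, 19, 20] (fun x => eqm LDs_667.m (nth 0 LDs_667.hL x) (hx LDs_667.rows LDs_667.cg LDy_667.y x)) = true := by
  decide +kernel


end Crest.Agent.R267.LCx0_667
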