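import Crest.Agent.R267.LDs_667
import Crest.Agent.R267.LDy_667
import Crest.Agent.R267.LightH_667

set_option autoImplicit false
set_option maxRecDepth 100000

namespace Crest.Agent.R267.LCx1_667

open LightG_667 LightK_667 LightE_667 LightF_667

theorem a0 : LightH_667.allL [21, 22, 23, 24, 25, 26, 27] (fun x => eqm LDs_667.m (nth 0 LDs_667.hL x) (hx LDs_667.rows LDs_667.cg LDy_667.y x)) = true := by
  decide +kernel

theorem a1 : LightH_667.allL [28, 29, 30, 31, 32, 33, 34] (fun x => eqm LDs_667.m (nth 0 LDs_667.hL x) (hx LDs_667.rows LDs_667.cg LDy_667.y x)) = true := by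
  decide +kernel

theorem a2 : LightH_667.allL [35, 36, 37, 38, 39, 40, 41] (fun x => eqm LDs_667.m (nth 0 LDs_667.hL x) (hx LDs_667.rows LDs_667.cg LDy_667.y x)) = true := by
  decide +kernel


end Crest.Agent.R267.LCx1_667
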