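import Crest.Agent.R267.LDs_667
import Crest.Agent.R267.LDy_667
import Crest.Agent.R267.LightH_667

set_option autoImplicit false
set_option maxRecDepth 100000

namespace Crest.Agent.R267.LCx2_667

open LightG_667 LightK_667 LightE_667 LightF_667

theorem a0 : LightH_667.allL [42, 43, 44, 45, 46, 47, 48] (fun x => eqm LDs_667.m (nth 0 LDs_667.hL x) (hx LDs_667.rows LDs_667.cg LDy_667.y x)) = true := by
  decide +kernel

theorem a1 : LightH_667.allL [49, 50, 51, 52, 53, 54, 55] (fun x => eqm LDs_667.m (nth 0 LDs_667.hL x) (hx LDs_667.rows LDs_667.cg LDy_667.y x)) = true := by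
  decide +kernel

theorem a2 : LightH_667.allL [56, 57, 58, 59, 60, 61, 62] (fun x => eqm LDs_667.m (nth 0 LDs_667.hL x) (hx LDs_667.rows LDs_667.cg LDy_667.y x)) = true := by
  decide +kernel


end Crest.Agent.R267.LCx2_667
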