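import Crest.Agent.R267.NF_808

/-!
# LEMMA M: intermediate links and Props (row 267, DRAFT B part 4)

Strand `i` gets round discs (helper118, helper966): the ball
`√(1 - ε²) cosh (log ‖v‖ - ℓ) ‖v‖ < ⟪v, w⟫` (i.e. `‖v - c w‖ < ε c`, `c = exp ℓ / √(1 - ε²)`) and the
hyperplane `⟪M, v⟫ = √(1 - ε²) exp ℓ ⟪M, w⟫`, for an arbitrary log-radius profile `ℓ = ell s`
(function of `s = u 1`); it may be absorbed by the strand `j` (values of `ell` far below `log r`) or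
by the plate (values far above `log R`). `KE` = the link. `ShapeP`, `PeelJ`, `Peel0`, `TiltP`,
`SysP` are the leaves; `IsMir` = mirror image of the data with reflected normals of the path.
-/

set_option autoImplicit false

namespace Crest.Agent.R267.LM_808

open Set Metric
open scoped RealInnerProductSpace
open Crest.Agent.R267.GS_808 Crest.Agent.R267.DraftB_808 Crest.Agent.R267.NF_808
open Crest.Agent.R267

variable {n m : ℕ} {i j : Fin m}

/-- direction of the strand `i`. -/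
noncomputable def w1 (D : NFD n m i j) (u : Bc (n + 2)) : Vc (n + 2) :=
  fr D u (D.P.om (us u (16 * u 1 - 1)))

/-- normal of the strand `i`. -/
noncomputable def M1 (D : NFD n m i j) (u : Bc (n + 2)) : Vc (n + 2) :=
  fr D u (D.P.M (us u (16 * u 1 - 1)))

/-- the affine log radius: `log rho` at `s = 1/4`, `log R1` at `s = -1/4`. -/
noncomputable def lam (rho R1 s : ℝ) : ℝ :=
  (1 / 2 + 2 * s) * Real.log rho + (1 / 2 - 2 * s) * Real.log R1

/-- clamped on the left at `-a`, on the right at `b`. -/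
noncomputable def lamc (rho R1 a b s : ℝ) : ℝ := lam rho R1 (max (-a) (min b s))

/-- radii. -/
structure Rad where
  rho : ℝ
  R1 : ℝ
  r : ℝ
  R : ℝ
  eps : ℝ

/-- `√(1 - ε²)`. -/
noncomputable def sa (q : Rad) : ℝ := Real.sqrt (1 - q.eps ^ 2)

/-- open ball of the strand `i`: `‖v - c w‖ < ε c` with `c = exp ell / √(1 - ε²)`. -/
def inD (D : NFD n m i j) (q : Rad) (ell : ℝ → ℝ) (p : Bc (n + 2) × Vc (n + 2)) : Prop :=
  sa q * Real.cosh (Real.log ‖p.2‖ - ell (p.1 1)) * ‖p.2‖ < ⟪p.2, w1 D p.1⟫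

/-- boundary sphere of the disc of the strand `i`. -/
def onD (D : NFD n m i j) (q : Rad) (ell : ℝ → ℝ) (p : Bc (n + 2) × Vc (n + 2)) : Prop :=
  sa q * Real.cosh (Real.log ‖p.2‖ - ell (p.1 1)) * ‖p.2‖ = ⟪p.2, w1 D p.1⟫ ∧
    ⟪M1 D p.1, p.2⟫ = sa q * Real.exp (ell (p.1 1)) * ⟪M1 D p.1, w1 D p.1⟫

/-- the link with the strand `i` of profile `ell`, possibly absorbed. -/
def KE (D : NFD n m i j) (q : Rad) (ell : ℝ → ℝ) : Set (Bc (n + 2) × Vc (n + 2)) :=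
  {p | (⟪ec (n + 2), p.2⟫ = 0 ∧ ‖p.1‖ = 1 ∧ q.r ≤ ‖p.2‖ ∧ ‖p.2‖ ≤ q.R ∧
      (∀ k, k ≠ i → k ≠ j → q.r ≤ ‖p.2 - D.y k p.1‖) ∧ ¬ inD D q ell p) ∨
    (⟪ec (n + 2), p.2⟫ = 0 ∧ ‖p.1‖ ≤ 1 ∧ ‖p.2‖ = q.R ∧ ¬ inD D q ell p) ∨
    (‖p.1‖ ≤ 1 ∧ ‖p.2‖ = q.r ∧ ⟪D.F.Rf p.1 (ec (n + 2)), p.2⟫ = 0 ∧ ¬ inD D q ell p) ∨
    (∃ k, k ≠ i ∧ k ≠ j ∧ ‖p.1‖ ≤ 1 ∧ ‖p.2 - D.y k p.1‖ = q.r ∧
      ⟪D.N k p.1, p.2 - D.y k p.1⟫ = 0) ∨
    (‖p.1‖ ≤ 1 ∧ q.r ≤ ‖p.2‖ ∧ ‖p.2‖ ≤ q.R ∧ onD D q ell p)}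

/-- slope of the affine log radius (per unit of `s`, negative direction). -/
noncomputable def kap (q : Rad) : ℝ := 2 * (Real.log q.R1 - Real.log q.rho)

/-- good radii for the data `D`. -/
structure Par (D : NFD n m i j) (q : Rad) : Prop where
  rho_pos : 0 < q.rho
  rho_lt : q.rho < 1 / 1000
  R1_gt : 1000 < q.R1
  prod_lt : q.rho * q.R1 < 1 / 1000000
  y_lt : ∀ k u, k ≠ i → ‖u‖ ≤ 1 → 2 * ‖D.y k u‖ < q.R1
  eps_pos : 0 < q.eps
  eps_lt : q.eps < 1 / 1000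
  r_pos : 0 < q.r
  R_pos : 0 < q.R
  log_r : Real.log q.r = Real.log q.rho - kap q / 16
  log_R : Real.log q.R = Real.log q.R1 + kap q / 16
  kap_gt : 1000000 < kap q
  r_lt : q.r < 1 / 1000000
  r_eps : 4 * q.r < q.rho * q.eps
  sep : ∀ k l u, k ≠ i → l ≠ i → k ≠ l → ‖u‖ ≤ 1 → 4 * q.r < ‖D.y k u - D.y l u‖

/-- reversal of `s`. -/
def mu {n : ℕ} (u : Bc (n + 2)) : Bc (n + 2) := us u (-(u 1))

/-- mirror image of a subset. -/
def mir {n : ℕ} (K : Set (Bc (n + 2) × Vc (n + 2))) : Set (Bc (n + 2) × Vc (n + 2)) :=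
  {p | (mu p.1, p.2) ∈ K}

/-- `D'` is the mirror image of `D` (path normals reflected). -/
structure IsMir (D D' : NFD n m i j) : Prop where
  y : ∀ k u, D'.y k u = D.y k (mu u)
  N : ∀ k u, D'.N k u = D.N k (mu u)
  F : ∀ u, D'.F.Rf u = D.F.Rf (mu u)
  om : ∀ u, D'.P.om u = D.P.om u
  M : ∀ u, D'.P.M u = refl (D.P.om u) (D.P.M u)

/-- **SHAPE**: the link of `G₊` is `KE` with the clamped profile (core move + radius functions). -/
def ShapeP (n : ℕ) : Prop :=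
  ∀ (m : ℕ) (i j : Fin m) (D : NFD n m i j) (q : Rad), Par D q →
    ∀ G : S n m, Has G (xp D q.rho q.R1) (nup D) → G.r ≤ q.r → G.R = q.R →
      Eqv G.K (KE D q (lamc q.rho q.R1 (1 / 4) (1 / 4)))

/-- **PEEL at the strand `j`**. -/
def PeelJ (n : ℕ) : Prop :=
  ∀ (m : ℕ) (i j : Fin m) (D : NFD n m i j) (q : Rad), Par D q →
    Eqv (KE D q (lamc q.rho q.R1 (1 / 4) (1 / 4))) (KE D q (lamc q.rho q.R1 (1 / 4) (3 / 8)))

/-- **PEEL at the plate**. -/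
def Peel0 (n : ℕ) : Prop :=
  ∀ (m : ℕ) (i j : Fin m) (D : NFD n m i j) (q : Rad), Par D q →
    Eqv (KE D q (lamc q.rho q.R1 (1 / 4) (3 / 8))) (KE D q (lamc q.rho q.R1 (3 / 8) (3 / 8)))

/-- **TILT**. -/
def TiltP (n : ℕ) : Prop :=
  ∀ (m : ℕ) (i j : Fin m) (D D' : NFD n m i j) (q : Rad), IsMir D D' → Par D q → Par D' q →
    Eqv (KE D q (lamc q.rho q.R1 (3 / 8) (3 / 8))) (mir (KE D' q (lamc q.rho q.R1 (3 / 8) (3 / 8))))

/-- **SYS**: existence of mirror data, of good radii and of the systems. -/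
def SysP (n : ℕ) : Prop :=
  ∀ (m : ℕ) (i j : Fin m) (D : NFD n m i j), ∃ (D' : NFD n m i j) (q : Rad) (G G' G'' : S n m),
    IsMir D D' ∧ Par D q ∧ Par D' q ∧
    Has G (xp D q.rho q.R1) (nup D) ∧ G.r ≤ q.r ∧ G.R = q.R ∧
    Has G' (xp D' q.rho q.R1) (nup D') ∧ G'.r ≤ q.r ∧ G'.R = q.R ∧
    Has G'' (xm D q.rho q.R1) (num D) ∧ G''.K = mir G'.K

/-! ### assembly -/

lemma mu_mu {n : ℕ} (u : Bc (n + 2)) : mu (mu u) = u := by
  funext k
  unfold mu us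
  by_cases hk : k = 1
  · subst hk; simp
  · simp [Function.update_of_ne hk]

lemma continuous_mu {n : ℕ} : Continuous (mu : Bc (n + 2) → Bc (n + 2)) := by
  unfold mu us
  exact continuous_id.update 1 (continuous_apply (1 : Fin (n + 2))).neg

/-- the mirror homeomorphism. -/
def muH (n : ℕ) : Bc (n + 2) × Vc (n + 2) ≃ₜ Bc (n + 2) × Vc (n + 2) where
  toFun p := (mu p.1, p.2)
  invFun p := (mu p.1, p.2)
  left_inv p := by simp [mu_mu]
  right_inv p := by simp [mu_mu]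
  continuous_toFun := (continuous_mu.comp continuous_fst).prodMk continuous_snd
  continuous_invFun := (continuous_mu.comp continuous_fst).prodMk continuous_snd

lemma eqv_mir {n : ℕ} {K K' : Set (Bc (n + 2) × Vc (n + 2))} (h : Eqv K K') :
    Eqv (mir K) (mir K') := by
  obtain ⟨f, ⟨C, hC, hf⟩, hK⟩ := h
  refine ⟨((muH n).trans f).trans (muH n), ⟨muH n ⁻¹' C, ?_, ?_⟩, ?_⟩
  · exact (muH n).isCompact_preimage.2 hC
  · intro p hp
    show muH n (f (muH n p)) = p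
    rw [hf _ hp]
    exact (muH n).left_inv p
  · intro p
    show muH n p ∈ K ↔ muH n (muH n (f (muH n p))) ∈ K'
    rw [show muH n (muH n (f (muH n p))) = f (muH n p) from (muH n).left_inv _]
    exact hK _

theorem lemM_of (n : ℕ) (h1 : ShapeP n) (h2 : PeelJ n) (h3 : Peel0 n) (h4 : TiltP n)
    (h5 : SysP n) : LemM n := by
  intro m i j D
  obtain ⟨D', q, G, G', G'', a1, a2, a3, a4, a5, a6, a7, a8, a9, a10, a11⟩ := h5 m i j D
  have b1 := a2.rho_pos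
  have b2 := a2.rho_lt
  have b3 := a2.R1_gt
  have b4 := a2.prod_lt
  refine ⟨q.rho, q.R1, G, G'', b1, by linarith, by linarith, by linarith, ?_, a4, a10, ?_⟩
  · intro k u hk hu
    have := a2.y_lt k u hk hu
    have h0 : 0 ≤ ‖D.y k u‖ := norm_nonneg _
    linarith
  · rw [a11]
    have e1 : Eqv G.K (KE D q (lamc q.rho q.R1 (3 / 8) (3 / 8))) :=
      ((h1 m i j D q a2 G a4 a5 a6).trans (h2 m i j D q a2)).trans (h3 m i j D q a2)
    have e2 : Eqv G'.K (KE D' q (lamc q.rho q.R1 (3 / 8) (3 / 8))) :=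
      ((h1 m i j D' q a3 G' a7 a8 a9).trans (h2 m i j D' q a3)).trans (h3 m i j D' q a3)
    exact (e1.trans (h4 m i j D D' q a1 a2 a3)).trans (eqv_mir e2).symm

end Crest.Agent.R267.LM_808
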