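import Crest.Agent.R267.GS_808

/-!
# Row 267, TB-B7c-D (helper527), part A: nonvanishing sections of `ν⊥` over the ball

`P a x` projection of `x` to `a⊥`; `chain`: a homotopy is a chain of close maps; `U_of`: any two
nonvanishing sections of `ν⊥` over the closed ball are homotopic through such sections.
-/

set_option autoImplicit false
set_option linter.unusedSectionVars false

namespace Crest.Agent.R267.LemDA_527

open Set Metric
open scoped RealInnerProductSpace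
open Crest.Agent.R267.GS_808

variable {B V : Type*} [NormedAddCommGroup B] [NormedSpace ℝ B]
  [NormedAddCommGroup V] [InnerProductSpace ℝ V]

/-! ### projections -/

/-- projection of `x` to the orthogonal complement of `a`. -/
noncomputable def P (a x : V) : V := x - (⟪a, x⟫ / ⟪a, a⟫) • a

lemma inner_self_ne {a : V} (ha : a ≠ 0) : (⟪a, a⟫ : ℝ) ≠ 0 := inner_self_ne_zero.2 ha

lemma P_orth {a : V} (ha : a ≠ 0) (x : V) : ⟪a, P a x⟫ = 0 := by
  rw [P, inner_sub_right, inner_smul_right, div_mul_cancel₀ _ (inner_self_ne ha), sub_self]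

lemma P_self {a x : V} (h : ⟪a, x⟫ = 0) : P a x = x := by
  rw [P, h, zero_div, zero_smul, sub_zero]

lemma P_ne {a b x : V} (hx : x ≠ 0) (hb : ⟪b, x⟫ = 0) (hab : 0 < ⟪a, b⟫) : P a x ≠ 0 := by
  intro h
  rw [P, sub_eq_zero] at h
  have h1 : ⟪b, x⟫ = (⟪a, x⟫ / ⟪a, a⟫) * ⟪b, a⟫ := by
    conv_lhs => rw [h]
    rw [inner_smul_right]
  have hba : (⟪b, a⟫ : ℝ) ≠ 0 := by
    rw [real_inner_comm]
    exact hab.ne'
  rw [hb] at h1
  have h2 : (⟪a, x⟫ / ⟪a, a⟫ : ℝ) = 0 := by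
    rcases mul_eq_zero.1 h1.symm with h3 | h3
    · exact h3
    · exact absurd h3 hba
  rw [h2, zero_smul] at h
  exact hx h

lemma continuousOn_P {X : Type*} [TopologicalSpace X] {s : Set X} {a x : X → V}
    (ha : ContinuousOn a s) (hx : ContinuousOn x s) (h0 : ∀ p ∈ s, a p ≠ 0) :
    ContinuousOn (fun p => P (a p) (x p)) s := by
  unfold P
  exact hx.sub (((ha.inner hx).div (ha.inner ha) fun p hp => inner_self_ne (h0 p hp)).smul ha)

lemma inner_pos_of_close {a b : V} {m : ℝ} (hm : m ≤ ‖a‖) (h : ‖a - b‖ < m) : 0 < ⟪a, b⟫ := by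
  have h1 := norm_sub_sq_real a b
  have h2 : ‖a - b‖ ^ 2 < ‖a‖ ^ 2 := by
    have := norm_nonneg (a - b)
    nlinarith
  nlinarith [sq_nonneg ‖b‖]

/-! ### chains of close maps -/

/-- the cylinder. -/
def cyl (B : Type*) [NormedAddCommGroup B] : Set (ℝ × B) := Icc 0 1 ×ˢ closedBall 0 1

theorem chain [ProperSpace B] {F : ℝ × B → V} (hc : ContinuousOn F (Icc 0 1 ×ˢ closedBall 0 1))
    (hne : ∀ t ∈ Icc (0 : ℝ) 1, ∀ u, ‖u‖ ≤ 1 → F (t, u) ≠ 0) (Pr : (B → V) → Prop)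
    (hstep : ∀ t ∈ Icc (0 : ℝ) 1, ∀ t' ∈ Icc (0 : ℝ) 1,
      (∀ u, ‖u‖ ≤ 1 → 0 < ⟪F (t, u), F (t', u)⟫) → Pr (fun u => F (t, u)) →
        Pr (fun u => F (t', u))) (h0 : Pr fun u => F (0, u)) : Pr fun u => F (1, u) := by
  have hK : IsCompact (Icc (0 : ℝ) 1 ×ˢ closedBall (0 : B) 1) :=
    isCompact_Icc.prod (isCompact_closedBall _ _)
  have hKne : (Icc (0 : ℝ) 1 ×ˢ closedBall (0 : B) 1).Nonempty :=
    ⟨(0, 0), ⟨⟨le_rfl, zero_le_one⟩, mem_closedBall_self zero_le_one⟩⟩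
  obtain ⟨p0, hp0, hmin⟩ := hK.exists_isMinOn hKne hc.norm
  have hm : 0 < ‖F p0‖ := by
    rw [norm_pos_iff]
    obtain ⟨t, u⟩ := p0
    exact hne t hp0.1 u (by simpa using hp0.2)
  have hu := hK.uniformContinuousOn_of_continuous hc
  rw [Metric.uniformContinuousOn_iff] at hu
  obtain ⟨η, hη, hu⟩ := hu ‖F p0‖ hm
  obtain ⟨N, hN⟩ := exists_nat_gt (1 / η)
  have hNp : (0 : ℝ) < N := lt_trans (by positivity) hN
  have key : ∀ j : ℕ, j ≤ N → Pr fun u => F ((j : ℝ) / N, u) := by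
    intro j
    induction j with
    | zero =>
      intro _
      simpa using h0
    | succ j ih =>
      intro hj
      have hj' : (j : ℝ) + 1 ≤ N := by exact_mod_cast hj
      have hj0 : (0 : ℝ) ≤ j := Nat.cast_nonneg j
      have m1 : (j : ℝ) / N ∈ Icc (0 : ℝ) 1 :=
        ⟨by positivity, (div_le_one hNp).2 (by linarith)⟩
      have m2 : ((j + 1 : ℕ) : ℝ) / N ∈ Icc (0 : ℝ) 1 :=
        ⟨by positivity, (div_le_one hNp).2 (by push_cast; linarith)⟩
      refine hstep _ m1 _ m2 (fun u huu => ?_) (ih (by omega))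
      have k1 : ((j : ℝ) / N, u) ∈ Icc (0 : ℝ) 1 ×ˢ closedBall (0 : B) 1 :=
        ⟨m1, by simpa using huu⟩
      have k2 : (((j + 1 : ℕ) : ℝ) / N, u) ∈ Icc (0 : ℝ) 1 ×ˢ closedBall (0 : B) 1 :=
        ⟨m2, by simpa using huu⟩
      have hd : dist ((j : ℝ) / N, u) (((j + 1 : ℕ) : ℝ) / N, u) < η := by
        rw [Prod.dist_eq, dist_self, Real.dist_eq]
        have : (j : ℝ) / N - ((j + 1 : ℕ) : ℝ) / N = -(1 / N) := by
          push_cast
          ring
        rw [this, abs_neg, abs_of_pos (by positivity)]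
        have h5 : 1 / (N : ℝ) < η := by
          rw [div_lt_iff₀ hNp]
          rw [div_lt_iff₀ hη] at hN
          linarith
        exact max_lt h5 hη
      have h6 := hu _ k1 _ k2 hd
      rw [dist_eq_norm] at h6
      exact inner_pos_of_close (hmin k1) h6
  have := key N le_rfl
  rwa [div_self hNp.ne'] at this

/-! ### sections -/

/-- `δ` is a nonvanishing section of `ν⊥` over the closed ball. -/
structure Sec (ν δ : B → V) : Prop where
  cont : ContinuousOn δ (closedBall 0 1)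
  ne : ∀ u, ‖u‖ ≤ 1 → δ u ≠ 0
  orth : ∀ u, ‖u‖ ≤ 1 → ⟪ν u, δ u⟫ = 0

/-- homotopy of sections. -/
def SH (ν : B → V) (δ δ' : B → V) : Prop :=
  ∃ F : ℝ × B → V, ContinuousOn F (Icc 0 1 ×ˢ closedBall 0 1) ∧
    (∀ t ∈ Icc (0 : ℝ) 1, ∀ u, ‖u‖ ≤ 1 → F (t, u) ≠ 0) ∧
    (∀ t ∈ Icc (0 : ℝ) 1, ∀ u, ‖u‖ ≤ 1 → ⟪ν u, F (t, u)⟫ = 0) ∧
    (∀ u, ‖u‖ ≤ 1 → F (0, u) = δ u) ∧ (∀ u, ‖u‖ ≤ 1 → F (1, u) = δ' u)

lemma SH.symm {ν δ δ' : B → V} (h : SH ν δ δ') : SH ν δ' δ := by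
  obtain ⟨F, h1, h2, h3, h4, h5⟩ := h
  have hm : ∀ t ∈ Icc (0 : ℝ) 1, 1 - t ∈ Icc (0 : ℝ) 1 := fun t ht =>
    ⟨by linarith [ht.2], by linarith [ht.1]⟩
  refine ⟨fun p => F (1 - p.1, p.2), ?_, fun t ht u hu => h2 _ (hm t ht) u hu,
    fun t ht u hu => h3 _ (hm t ht) u hu, fun u hu => ?_, fun u hu => ?_⟩
  · exact h1.comp ((continuous_const.sub continuous_fst).prodMk continuous_snd).continuousOn
      fun p hp => ⟨hm _ hp.1, hp.2⟩
  · simpa using h5 u hu
  · simpa using h4 u hu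

/-- nonvanishing, continuous over the closed ball. -/
structure Nz (ν : B → V) : Prop where
  cont : ContinuousOn ν (closedBall 0 1)
  ne : ∀ u, ‖u‖ ≤ 1 → ν u ≠ 0

/-- any two sections are homotopic (through a chain of homotopies). -/
def U (ν : B → V) : Prop :=
  ∀ δ δ', Sec ν δ → Sec ν δ' → Relation.ReflTransGen (SH ν) δ δ'

/-- the segment between close vectors. -/
lemma seg_pos {a b : V} (h : 0 < ⟪a, b⟫) {s : ℝ} (hs : s ∈ Icc (0 : ℝ) 1) :
    0 < ⟪(1 - s) • a + s • b, b⟫ := by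
  have hb : b ≠ 0 := by
    rintro rfl
    simp at h
  rw [inner_add_left, inner_smul_left, inner_smul_left]
  simp only [conj_trivial]
  have h1 : 0 < ⟪b, b⟫ := real_inner_self_pos.2 hb
  rcases eq_or_lt_of_le hs.2 with h2 | h2
  · rw [h2]; linarith
  · have := mul_pos (sub_pos.2 h2) h
    have := mul_nonneg hs.1 h1.le
    linarith

lemma ne_of_inner_pos {a b : V} (h : 0 < ⟪a, b⟫) : a ≠ 0 := by
  rintro rfl
  simp at h

lemma Sec.proj {ν ν' δ' : B → V} (hν : Nz ν) (h : ∀ u, ‖u‖ ≤ 1 → 0 < ⟪ν u, ν' u⟫)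
    (hδ : Sec ν' δ') : Sec ν (fun u => P (ν u) (δ' u)) := by
  refine ⟨continuousOn_P hν.cont hδ.cont fun u hu => hν.ne u (by simpa using hu),
    fun u hu => P_ne (hδ.ne u hu) (hδ.orth u hu) (h u hu), fun u hu => P_orth (hν.ne u hu) _⟩

/-- the segment homotopy of projections: `P_{a_s} δ'`, `a_s = (1 - s) ν + s ν'`. -/
lemma seg_homotopy {ν ν' δ' : B → V} (hν : Nz ν) (hν' : Nz ν')
    (h : ∀ u, ‖u‖ ≤ 1 → 0 < ⟪ν u, ν' u⟫) (hδ : Sec ν' δ') :
    ContinuousOn (fun p : ℝ × B => P ((1 - p.1) • ν p.2 + p.1 • ν' p.2) (δ' p.2))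
      (Icc 0 1 ×ˢ closedBall 0 1) ∧
    ∀ s ∈ Icc (0 : ℝ) 1, ∀ u, ‖u‖ ≤ 1 → P ((1 - s) • ν u + s • ν' u) (δ' u) ≠ 0 := by
  have hs2 : MapsTo (fun p : ℝ × B => p.2) (Icc (0 : ℝ) 1 ×ˢ closedBall (0 : B) 1)
      (closedBall 0 1) := fun p hp => hp.2
  refine ⟨continuousOn_P ?_ (hδ.cont.comp continuousOn_snd hs2) ?_, fun s hs u hu => ?_⟩
  · exact ((continuousOn_const.sub continuousOn_fst).smul (hν.cont.comp continuousOn_snd hs2)).add
      (continuousOn_fst.smul (hν'.cont.comp continuousOn_snd hs2))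
  · rintro ⟨s, u⟩ ⟨hs, hu⟩
    exact ne_of_inner_pos (seg_pos (h u (by simpa using hu)) hs)
  · exact P_ne (hδ.ne u hu) (hδ.orth u hu) (seg_pos (h u hu) hs)

lemma SH.proj {ν ν' δ δ' : B → V} (hν' : Nz ν') (h : ∀ u, ‖u‖ ≤ 1 → 0 < ⟪ν u, ν' u⟫)
    (hs : SH ν δ δ') : SH ν' (fun u => P (ν' u) (δ u)) (fun u => P (ν' u) (δ' u)) := by
  obtain ⟨F, h1, h2, h3, h4, h5⟩ := hs
  have hs2 : MapsTo (fun p : ℝ × B => p.2) (Icc (0 : ℝ) 1 ×ˢ closedBall (0 : B) 1)
      (closedBall 0 1) := fun p hp => hp.2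
  refine ⟨fun p => P (ν' p.2) (F p), continuousOn_P (hν'.cont.comp continuousOn_snd hs2) h1 ?_,
    fun t ht u hu => ?_, fun t ht u hu => P_orth (hν'.ne u hu) _, fun u hu => ?_, fun u hu => ?_⟩
  · rintro ⟨s, u⟩ ⟨_, hu⟩
    exact hν'.ne u (by simpa using hu)
  · exact P_ne (h2 t ht u hu) (h3 t ht u hu) (by rw [real_inner_comm]; exact h u hu)
  · simp only [h4 u hu]
  · simp only [h5 u hu]

lemma U_step {ν ν' : B → V} (hν : Nz ν) (hν' : Nz ν') (h : ∀ u, ‖u‖ ≤ 1 → 0 < ⟪ν u, ν' u⟫)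
    (hU : U ν) : U ν' := by
  -- a section of `ν'⊥` is homotopic to its double projection
  have key : ∀ δ, Sec ν' δ → SH ν' (fun u => P (ν' u) (P (ν u) (δ u))) δ := by
    intro δ hδ
    obtain ⟨c1, c2⟩ := seg_homotopy hν hν' h hδ
    have hs2 : MapsTo (fun p : ℝ × B => p.2) (Icc (0 : ℝ) 1 ×ˢ closedBall (0 : B) 1)
        (closedBall 0 1) := fun p hp => hp.2
    refine ⟨fun p => P (ν' p.2) (P ((1 - p.1) • ν p.2 + p.1 • ν' p.2) (δ p.2)),
      continuousOn_P (hν'.cont.comp continuousOn_snd hs2) c1 ?_, fun s hs u hu => ?_,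
      fun s hs u hu => P_orth (hν'.ne u hu) _, fun u hu => ?_, fun u hu => ?_⟩
    · rintro ⟨s, u⟩ ⟨_, hu⟩
      exact hν'.ne u (by simpa using hu)
    · have hpos := seg_pos (h u hu) hs
      exact P_ne (c2 s hs u hu) (P_orth (ne_of_inner_pos hpos) _)
        (by rw [real_inner_comm]; exact hpos)
    · simp
    · simp only [sub_self, zero_smul, one_smul, zero_add]
      rw [P_self (hδ.orth u hu), P_self (hδ.orth u hu)]
  intro δ δ' hδ hδ'
  have h1 := hU _ _ (Sec.proj hν h hδ) (Sec.proj hν h hδ')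
  have h2 : Relation.ReflTransGen (SH ν') (fun u => P (ν' u) (P (ν u) (δ u)))
      (fun u => P (ν' u) (P (ν u) (δ' u))) :=
    Relation.ReflTransGen.lift (fun (f : B → V) u => P (ν' u) (f u))
      (fun a b hab => SH.proj hν' h hab) _ _ h1
  exact (Relation.ReflTransGen.single (key δ hδ).symm).trans (h2.tail (key δ' hδ'))

lemma U_const [FiniteDimensional ℝ V] (hV : 3 ≤ Module.finrank ℝ V) {v : V} (hv : v ≠ 0) :
    U (fun _ : B => v) := by
  intro δ δ' hδ hδ'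
  have hconst : ∀ δ : B → V, Sec (fun _ => v) δ → SH (fun _ => v) δ (fun _ => δ 0) := by
    intro δ hδ
    have hm : ∀ p ∈ Icc (0 : ℝ) 1 ×ˢ closedBall (0 : B) 1,
        (1 - p.1) • p.2 ∈ closedBall (0 : B) 1 := by
      rintro ⟨t, u⟩ ⟨ht, hu⟩
      simp only [mem_closedBall, dist_zero_right] at hu ⊢
      rw [norm_smul, Real.norm_eq_abs, abs_of_nonneg (by linarith [ht.2])]
      have := norm_nonneg u
      nlinarith [ht.1, ht.2]
    refine ⟨fun p => δ ((1 - p.1) • p.2), ?_, fun t ht u hu => ?_, fun t ht u hu => ?_,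
      fun u hu => by simp, fun u hu => by simp⟩
    · exact hδ.cont.comp
        ((continuous_const.sub continuous_fst).smul continuous_snd).continuousOn hm
    · exact hδ.ne _ (by simpa using hm (t, u) ⟨ht, by simpa using hu⟩)
    · exact hδ.orth _ (by simpa using hm (t, u) ⟨ht, by simpa using hu⟩)
  have h0 : ‖(0 : B)‖ ≤ 1 := by simp
  -- a path between the two constant sections
  have hmid : SH (fun _ : B => v) (fun _ => δ 0) (fun _ => δ' 0) := by
    let W : Submodule ℝ V := (ℝ ∙ v)ᗮ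
    have hW : Module.finrank ℝ W + 1 = Module.finrank ℝ V := by
      have h1 := Submodule.finrank_add_finrank_orthogonal (ℝ ∙ v)
      rw [finrank_span_singleton hv] at h1
      rw [← h1, add_comm]
    have hrank : 1 < Module.rank ℝ W := by
      have h2 : 1 < Module.finrank ℝ W := by omega
      rw [← Module.finrank_eq_rank]
      exact_mod_cast h2
    have hpc := isPathConnected_compl_singleton_of_one_lt_rank hrank (0 : W)
    have m1 : δ 0 ∈ W := Submodule.mem_orthogonal_singleton_iff_inner_right.2 (hδ.orth 0 h0)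
    have m2 : δ' 0 ∈ W := Submodule.mem_orthogonal_singleton_iff_inner_right.2 (hδ'.orth 0 h0)
    obtain ⟨γ, hγ⟩ := hpc.joinedIn ⟨δ 0, m1⟩ (fun h => hδ.ne 0 h0 (congrArg Subtype.val h))
      ⟨δ' 0, m2⟩ (fun h => hδ'.ne 0 h0 (congrArg Subtype.val h))
    refine ⟨fun p => (γ.extend p.1 : V), ?_, fun t ht u _ => ?_, fun t ht u _ => ?_,
      fun u _ => by simp, fun u _ => by simp⟩
    · exact (continuous_subtype_val.comp (γ.continuous_extend.comp continuous_fst)).continuousOn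
    · have := hγ ⟨t, ht⟩
      intro h
      apply this
      have h3 : γ.extend t = γ ⟨t, ht⟩ := γ.extend_apply ht
      simp only [h3] at h
      exact Subtype.ext h
    · exact Submodule.mem_orthogonal_singleton_iff_inner_right.1 (γ.extend t).2
  exact ((Relation.ReflTransGen.single (hconst δ hδ)).tail hmid).tail (hconst δ' hδ').symm

/-- **uniqueness of sections up to homotopy.** -/
theorem U_of [ProperSpace B] [FiniteDimensional ℝ V] (hV : 3 ≤ Module.finrank ℝ V) {ν : B → V}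
    (hν : Nz ν) : U ν := by
  have hm : ∀ p ∈ Icc (0 : ℝ) 1 ×ˢ closedBall (0 : B) 1, p.1 • p.2 ∈ closedBall (0 : B) 1 := by
    rintro ⟨t, u⟩ ⟨ht, hu⟩
    simp only [mem_closedBall, dist_zero_right] at hu ⊢
    rw [norm_smul, Real.norm_eq_abs, abs_of_nonneg ht.1]
    have := norm_nonneg u
    nlinarith [ht.1, ht.2]
  have hc : ContinuousOn (fun p : ℝ × B => ν (p.1 • p.2)) (Icc 0 1 ×ˢ closedBall 0 1) :=
    hν.cont.comp (continuous_fst.smul continuous_snd).continuousOn hm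
  have hne : ∀ t ∈ Icc (0 : ℝ) 1, ∀ u : B, ‖u‖ ≤ 1 → ν (t • u) ≠ 0 := fun t ht u hu =>
    hν.ne _ (by simpa using hm (t, u) ⟨ht, by simpa using hu⟩)
  have hNz : ∀ t ∈ Icc (0 : ℝ) 1, Nz (fun u : B => ν (t • u)) := fun t ht =>
    ⟨hν.cont.comp (continuous_const.smul continuous_id).continuousOn
      fun u hu => hm (t, u) ⟨ht, hu⟩, hne t ht⟩
  have h1 := chain (F := fun p : ℝ × B => ν (p.1 • p.2)) hc hne U
    (fun t ht t' ht' hpos hU => U_step (hNz t ht) (hNz t' ht') hpos hU)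
    (by
      have : (fun u : B => ν ((0 : ℝ) • u)) = fun _ => ν 0 := by
        funext u
        rw [zero_smul]
      simp only [this]
      exact U_const hV (hν.ne 0 (by simp)))
  simpa using h1

/-! ### transport of a class along a homotopy of normals -/

/-- `Nz` and equal to `e` on the sphere. -/
structure NzE (e : V) (ν : B → V) : Prop extends Nz ν where
  sph : ∀ u, ‖u‖ = 1 → ν u = e

/-- `T e Q ν`: every section of `ν⊥` has the property `Q`. -/
def T (e : V) (Q : (B → V) → Prop) (ν : B → V) : Prop := NzE e ν ∧ ∀ δ, Sec ν δ → Q δ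

/-- if `Q` is stable under `FH`, then `T` is stable under `FN`. -/
theorem T_congr [ProperSpace B] {e : V} {Q : (B → V) → Prop}
    (hQ : ∀ f g, Q f → FH e f g → Q g) {ν ν' : B → V} (hT : T e Q ν) (h : FN e ν ν') :
    T e Q ν' := by
  obtain ⟨F, h1, h2, h3, h4, h5⟩ := h
  have hNz : ∀ t ∈ Icc (0 : ℝ) 1, NzE e (fun u : B => F (t, u)) := fun t ht =>
    { cont := h1.comp (Continuous.prodMk_right t).continuousOn fun u hu => ⟨ht, hu⟩
      ne := h2 t ht
      sph := h3 t ht }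
  have hsec : ∀ {μ μ' δ : B → V}, (∀ u, ‖u‖ ≤ 1 → μ u = μ' u) → Sec μ δ → Sec μ' δ :=
    fun hμ hδ => ⟨hδ.cont, hδ.ne, fun u hu => by rw [← hμ u hu]; exact hδ.orth u hu⟩
  have key := chain h1 h2 (T e Q) (fun t ht t' ht' hpos hTt => by
    refine ⟨hNz t' ht', fun δ hδ => ?_⟩
    have hs := Sec.proj (hNz t ht).toNz hpos hδ
    refine hQ _ _ (hTt.2 _ hs) ?_
    obtain ⟨c1, c2⟩ := seg_homotopy (hNz t ht).toNz (hNz t' ht').toNz hpos hδ
    refine ⟨_, c1, c2, fun s hs u hu => ?_, fun u hu => ?_, fun u hu => ?_⟩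
    · simp only [(hNz t ht).sph u hu, (hNz t' ht').sph u hu]
      have h6 : (1 - s) • e + s • e = e := by
        rw [← add_smul]
        simp
      have h7 : ⟪e, δ u⟫ = 0 := by
        have := hδ.orth u hu.le
        rwa [(hNz t' ht').sph u hu] at this
      rw [h6, P_self h7, h7]
    · simp
    · simp only [sub_self, zero_smul, one_smul, zero_add]
      exact P_self (hδ.orth u hu)) (by
    refine ⟨hNz 0 ⟨le_rfl, zero_le_one⟩, fun δ hδ => hT.2 δ (hsec (fun u hu => h4 u hu) hδ)⟩)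
  refine ⟨⟨⟨?_, ?_⟩, ?_⟩, fun δ hδ => key.2 δ (hsec (fun u hu => (h5 u hu).symm) hδ)⟩
  · exact key.1.cont.congr fun u hu => (h5 u (by simpa using hu)).symm
  · intro u hu
    rw [← h5 u hu]
    exact key.1.ne u hu
  · intro u hu
    rw [← h5 u hu.le]
    exact key.1.sph u hu

lemma SH.fh {e : V} {ν δ δ' : B → V} (hν : ∀ u, ‖u‖ = 1 → ν u = e) (h : SH ν δ δ') :
    FH e δ δ' := by
  obtain ⟨F, h1, h2, h3, h4, h5⟩ := h
  refine ⟨F, h1, h2, fun t ht u hu => ?_, h4, h5⟩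
  rw [← hν u hu]
  exact h3 t ht u hu.le

/-- `T` from one section. -/
theorem T_of_one [ProperSpace B] [FiniteDimensional ℝ V] (hV : 3 ≤ Module.finrank ℝ V) {e : V}
    {Q : (B → V) → Prop} (hQ : ∀ f g, Q f → FH e f g → Q g) {ν δ : B → V} (hν : NzE e ν)
    (hδ : Sec ν δ) (h : Q δ) : T e Q ν := by
  refine ⟨hν, fun δ' hδ' => ?_⟩
  have key : ∀ a, Relation.ReflTransGen (SH ν) δ a → Q a := by
    intro a ha
    induction ha with
    | refl => exact h
    | tail _ hbc ih => exact hQ _ _ ih (hbc.fh hν.sph)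
  exact key δ' (U_of hV hν.toNz δ δ' hδ hδ')

end Crest.Agent.R267.LemDA_527
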