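import Crest.Agent.R267.NLb_330

/-!
# Light certificate, part A: block algebra (row 267, P3.4)

In the order `(O, S, V)` the nested-level matrices are
`blk D C = [[D, LX, 0], [-LX, 0, 0], [C, 0, LV]]`, and the isometry is
`U = [[1, 0, 0], [ρ, 1, σ], [h, 0, θ]]` with `σ = -LX⁻¹ hᵀ LV θ`, `θ = 1 + N M (LV N)ᵀ`.
-/

set_option autoImplicit false

namespace Crest.Agent.R267.LightA_667

open Matrix

section Alg

variable {x v r : Type} [Fintype x] [DecidableEq x] [Fintype v] [DecidableEq v]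
  [Fintype r] [DecidableEq r]

/-- block form. -/
def blk (LX : Matrix x x ℤ) (LV : Matrix v v ℤ) (D : Matrix x x ℤ) (C : Matrix v x ℤ) :
    Matrix ((x ⊕ x) ⊕ v) ((x ⊕ x) ⊕ v) ℤ :=
  fromBlocks (fromBlocks D LX (-LX) 0) 0 (fromCols C 0) LV

/-- the isometry. -/
def Um (ρ : Matrix x x ℤ) (σ : Matrix x v ℤ) (h : Matrix v x ℤ) (θ : Matrix v v ℤ) :
    Matrix ((x ⊕ x) ⊕ v) ((x ⊕ x) ⊕ v) ℤ :=
  fromBlocks (fromBlocks 1 0 ρ 1) (fromRows 0 σ) (fromCols h 0) θ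

omit [DecidableEq v] in
theorem block (LX : Matrix x x ℤ) (LV : Matrix v v ℤ) (Df Dg : Matrix x x ℤ)
    (Cf Cg : Matrix v x ℤ) (ρ : Matrix x x ℤ) (σ : Matrix x v ℤ) (h : Matrix v x ℤ)
    (θ : Matrix v v ℤ)
    (ha : θᵀ * LV * θ = LV)
    (hb : LX * σ + hᵀ * LV * θ = 0)
    (hc : θᵀ * (Cg + LV * h) - σᵀ * LX = Cf)
    (hd : Dg + LX * ρ - ρᵀ * LX + hᵀ * (Cg + LV * h) = Df) :
    (Um ρ σ h θ)ᵀ * blk LX LV Dg Cg * Um ρ σ h θ = blk LX LV Df Cf := by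
  have h1 : blk LX LV Dg Cg * Um ρ σ h θ =
      fromBlocks (fromBlocks (Dg + LX * ρ) LX (-LX) 0) (fromRows (LX * σ) 0)
        (fromCols (Cg + LV * h) 0) (LV * θ) := by
    unfold blk Um
    rw [fromBlocks_multiply, fromBlocks_multiply, fromBlocks_mul_fromRows,
      fromCols_mul_fromBlocks, fromCols_mul_fromRows]
    simp only [Matrix.mul_one, Matrix.zero_mul, Matrix.mul_zero, add_zero, zero_add,
      Matrix.mul_fromCols]
    congr 1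
    ext i (j | j) <;> simp
  rw [Matrix.mul_assoc, h1]
  unfold Um blk
  rw [fromBlocks_transpose, fromBlocks_multiply, fromBlocks_transpose, transpose_fromCols,
    transpose_fromRows, fromBlocks_multiply, fromBlocks_mul_fromRows, fromCols_mul_fromBlocks,
    fromCols_mul_fromRows, fromRows_mul_fromCols, fromRows_mul, ← hd, ← hc]
  have e1 : -(ρᵀ * LX) = ρᵀ * (-LX) := by rw [Matrix.mul_neg]
  congr 1
  · ext (i | i) (j | j)
    · simp [Matrix.add_apply, Matrix.sub_apply]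
      ring
    · simp
    · simp
    · simp
  · ext (i | i) j
    · have := congrFun (congrFun hb i) j
      simpa [Matrix.mul_assoc] using this
    · simp
  · ext i (j | j)
    · simp [Matrix.sub_apply, Matrix.add_apply]
      ring
    · simp
  · simpa [Matrix.mul_assoc] using ha

omit [DecidableEq r] in
/-- three (or `r`) invariant vectors: `θ = 1 + N M (LV N)ᵀ` is an isometry. -/
theorem isom (LV : Matrix v v ℤ) (N : Matrix v r ℤ) (M : Matrix r r ℤ)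
    (hN : LVᵀ * N = LV * N) (hM : M + Mᵀ + Mᵀ * (Nᵀ * (LV * N)) * M = 0) :
    (1 + N * M * (LV * N)ᵀ)ᵀ * LV * (1 + N * M * (LV * N)ᵀ) = LV := by
  obtain ⟨Nh, hNh⟩ : ∃ Nh, Nh = LV * N := ⟨_, rfl⟩
  rw [← hNh] at hN hM ⊢
  have hl : Nᵀ * LV = Nhᵀ := by
    rw [← hN, Matrix.transpose_mul, Matrix.transpose_transpose]
  have h1 : (1 + N * M * Nhᵀ)ᵀ = 1 + Nh * (Mᵀ * Nᵀ) := by
    rw [Matrix.transpose_add, Matrix.transpose_one, Matrix.transpose_mul, Matrix.transpose_mul,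
      Matrix.transpose_transpose]
  have h2 : LV * (1 + N * M * Nhᵀ) = LV + Nh * (M * Nhᵀ) := by
    rw [Matrix.mul_add, Matrix.mul_one, Matrix.mul_assoc N, ← Matrix.mul_assoc LV, ← hNh]
  have h3 : Nh * (Mᵀ * Nᵀ) * LV = Nh * (Mᵀ * Nhᵀ) := by
    rw [Matrix.mul_assoc Nh, Matrix.mul_assoc Mᵀ, hl]
  have h4 : Nh * (Mᵀ * Nᵀ) * (Nh * (M * Nhᵀ)) = Nh * ((Mᵀ * (Nᵀ * Nh) * M) * Nhᵀ) := by
    simp only [Matrix.mul_assoc]
  rw [h1, Matrix.mul_assoc, h2, Matrix.add_mul, Matrix.one_mul, Matrix.mul_add, h3, h4]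
  have h5 : Nh * (M * Nhᵀ) + (Nh * (Mᵀ * Nhᵀ) + Nh * ((Mᵀ * (Nᵀ * Nh) * M) * Nhᵀ)) =
      Nh * ((M + Mᵀ + Mᵀ * (Nᵀ * Nh) * M) * Nhᵀ) := by
    rw [← Matrix.mul_add, ← Matrix.mul_add, ← Matrix.add_mul, ← Matrix.add_mul, add_assoc]
  rw [add_assoc, h5, hM, Matrix.zero_mul, Matrix.mul_zero, add_zero]

omit [DecidableEq r] in
/-- the certificate with `σ` eliminated. -/
theorem light (LX LXi : Matrix x x ℤ) (LV : Matrix v v ℤ) (Df Dg : Matrix x x ℤ)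
    (Cf Cg : Matrix v x ℤ) (ρ : Matrix x x ℤ) (h : Matrix v x ℤ)
    (N : Matrix v r ℤ) (M : Matrix r r ℤ) (hX : LX * LXi = 1)
    (hN : LVᵀ * N = LV * N) (hM : M + Mᵀ + Mᵀ * (Nᵀ * (LV * N)) * M = 0)
    (hc : (1 + N * M * (LV * N)ᵀ)ᵀ * (Cg + LV * h + LVᵀ * (h * (LXiᵀ * LX))) = Cf)
    (hd : Dg + LX * ρ - ρᵀ * LX + hᵀ * (Cg + LV * h) = Df) :
    ∃ U : Matrix ((x ⊕ x) ⊕ v) ((x ⊕ x) ⊕ v) ℤ,
      Uᵀ * blk LX LV Dg Cg * U = blk LX LV Df Cf := by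
  set θ := 1 + N * M * (LV * N)ᵀ with hθ
  have ha : θᵀ * LV * θ = LV := isom LV N M hN hM
  refine ⟨Um ρ (-(LXi * (hᵀ * LV * θ))) h θ, block LX LV Df Dg Cf Cg ρ _ h θ ha ?_ ?_ hd⟩
  · rw [Matrix.mul_neg, ← Matrix.mul_assoc, hX, Matrix.one_mul, neg_add_cancel]
  · rw [← hc, Matrix.transpose_neg, Matrix.neg_mul, sub_neg_eq_add]
    simp only [Matrix.transpose_mul, Matrix.transpose_transpose, Matrix.mul_add, Matrix.mul_assoc]

end Alg

end Crest.Agent.R267.LightA_667
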