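import Crest.Agent.R267.LightA_667

/-!
# Light certificate, part B: the concrete blocks and the reindexing (row 267, P3.4)

`X = Fin 6 × Fin 14` (letter of the hub, level - 2), `V = Fin 13 × Fin 14 × Fin 14`
(component, level - 2, letter - 1; for `g` and the components `0..6` the last two are
exchanged), padded: only the cells with `Msk` belong to the index set.
-/

set_option autoImplicit false

namespace Crest.Agent.R267.LightB_667

open Matrix NL_330 LightA_667

abbrev X := Fin 6 × Fin 14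

abbrev V := Fin 13 × Fin 14 × Fin 14

def ra : List ℕ := [14, 14, 14, 6, 6, 6, 2, 2, 2, 2, 1, 0, 0, 0]

def rb : List ℕ := [11, 9, 9, 9, 9, 9, 9, 9, 9, 7, 4, 4, 4, 4]

/-- widths of the rows. -/
def wid (c k : ℕ) : ℕ := if c = 0 then ra.getD k 0 else if c < 7 then rb.getD k 0 else 14

/-- the cell belongs to the index set. -/
def Msk (u : V) : Prop := u.2.2.val < wid u.1.val u.2.1.val

instance : DecidablePred Msk := fun u => by unfold Msk; infer_instance

/-- letter of the hub of a component. -/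
def cl (c : Fin 13) : Fin 6 := ⟨(c.val + 5) % 6, Nat.mod_lt _ (by norm_num)⟩

def Lam (c d : Fin 13) : ℤ :=
  if c.val = 0 ∨ d.val = 0 then (if c = d then 1 else 0)
  else if (c.val < 7 ↔ d.val < 7) then LP (cl c) (cl d) else 0

def LXm : Matrix X X ℤ := fun p q => if p.2 ≤ q.2 then LP p.1 q.1 else 0

/-- inverse of `LXm`. -/
def LXi : Matrix X X ℤ := fun p q =>
  if p.2 = q.2 then LPi p.1 q.1 else if p.2.val + 1 = q.2.val then - LPi p.1 q.1 else 0

def LVm : Matrix V V ℤ := fun u w =>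
  if Msk u ∧ Msk w ∧ u.2.1 ≤ w.2.1 ∧ u.2.2 ≤ w.2.2 then Lam u.1 w.1 else 0

def Dm (C : Core) : Matrix X X ℤ := fun p q => if p.2 ≤ q.2 then C.D p.1 q.1 else 0

def Gam (C : Core) (c : Fin 13) (b : Fin 6) : ℤ :=
  if c.val = 0 then ∑ e, LP b e * C.g e else LP (cl c) b

def Cfm : Matrix V X ℤ := fun u p => if Msk u ∧ u.2.1 ≤ p.2 then - Gam coreF u.1 p.1 else 0

def Cgm : Matrix V X ℤ := fun u p =>
  if Msk u ∧ (if u.1.val < 7 then u.2.2 else u.2.1) ≤ p.2 then - Gam coreG u.1 p.1 else 0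

/-- padded matrices. -/
def Bf : Matrix ((X ⊕ X) ⊕ V) ((X ⊕ X) ⊕ V) ℤ := blk LXm LVm (Dm coreF) Cfm

def Bg : Matrix ((X ⊕ X) ⊕ V) ((X ⊕ X) ⊕ V) ℤ := blk LXm LVm (Dm coreG) Cgm

/-! ### restriction -/

theorem restrict {I J Z W : Type} [Fintype I] [Fintype J] [Fintype Z] [Fintype W]
    (A : Matrix Z Z ℤ) (B : Matrix W W ℤ) (U : Matrix Z W ℤ) (jg : I → Z) (jf : J → W)
    (hj : Function.Injective jg)
    (hs : ∀ z, z ∉ Set.range jg → ∀ z', A z z' = 0 ∧ A z' z = 0)
    (h : Uᵀ * A * U = B) :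
    (U.submatrix jg jf)ᵀ * A.submatrix jg jg * U.submatrix jg jf = B.submatrix jf jf := by
  ext s t
  rw [← h]
  simp only [Matrix.submatrix_apply, Matrix.mul_apply, Matrix.transpose_apply]
  refine Fintype.sum_of_injective jg hj _ _ ?_ ?_
  · intro z hz
    have : ∑ z', U z' (jf s) * A z' z = 0 := by
      refine Finset.sum_eq_zero fun z' _ => ?_
      rw [(hs z hz z').2, mul_zero]
    rw [this, zero_mul]
  · intro i
    congr 1
    refine Fintype.sum_of_injective jg hj _ _ ?_ ?_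
    · intro z hz
      rw [(hs z hz _).1, mul_zero]
    · intro i'
      rfl

/-! ### the embeddings -/

def lv (k : ℕ) : Fin 14 := Fin.ofNat 14 (k - 2)

def li (i : ℕ) : Fin 14 := Fin.ofNat 14 (i - 1)

/-- embedding of the letters of `f`. -/
def jf : ℕ × Lt → (X ⊕ X) ⊕ V
  | (k, .S a) => .inl (.inr (a, lv k))
  | (k, .O a) => .inl (.inl (a, lv k))
  | (k, .X i) => .inr (0, lv k, li i)
  | (k, .Y a i) => .inr (⟨a.val + 1, by omega⟩, lv k, li i)
  | (k, .Z a i) => .inr (⟨a.val + 7, by omega⟩, lv k, li i)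

/-- embedding of the letters of `g`. -/
def jg : ℕ × Lt → (X ⊕ X) ⊕ V
  | (k, .S a) => .inl (.inr (a, lv k))
  | (k, .O a) => .inl (.inl (a, lv k))
  | (k, .X i) => .inr (0, li i, lv k)
  | (k, .Y a i) => .inr (⟨a.val + 1, by omega⟩, li i, lv k)
  | (k, .Z a i) => .inr (⟨a.val + 7, by omega⟩, lv k, li i)

theorem lv_val {k : ℕ} (h1 : 2 ≤ k) (h2 : k ≤ 15) : (lv k).val = k - 2 := by
  simp only [lv, Fin.ofNat]
  exact Nat.mod_eq_of_lt (by omega)

theorem li_val {i : ℕ} (h1 : 1 ≤ i) (h2 : i ≤ 14) : (li i).val = i - 1 := by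
  simp only [li, Fin.ofNat]
  exact Nat.mod_eq_of_lt (by omega)

/-! ### staircases -/

theorem stF0 : ∀ k : Fin 14, wid 0 k.val + 1 = max 1 (at1 NLb_330.rowsF.p (k.val + 2)) := by
  decide

theorem stF1 : ∀ k : Fin 14, wid 1 k.val + 1 = at1 NLb_330.rowsF.q (k.val + 2) := by decide

theorem stF2 : ∀ k : Fin 14, 15 = at1 NLb_330.rowsF.r (k.val + 2) := by decide

theorem stG0 : ∀ k i : Fin 14, i.val < wid 0 k.val ↔ k.val + 1 < at1 NLb_330.rowsG.p (i.val + 2) := by
  decide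

theorem stG1 : ∀ k i : Fin 14, i.val < wid 1 k.val ↔ k.val + 1 < at1 NLb_330.rowsG.q (i.val + 2) := by
  decide

theorem stG2 : ∀ k : Fin 14, 15 = at1 NLb_330.rowsG.r (k.val + 2) := by decide

end Crest.Agent.R267.LightB_667
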