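import Crest.Agent.R267.LightB_667

/-!
# Light certificate, part C: one vector of powers decides an identity of bounded matrices
-/

set_option autoImplicit false

namespace Crest.Agent.R267.LightC_667

open Matrix LightA_667 LightB_667

/-! ### powers -/

theorem abs_sum_lt (B : ℤ) (hB : 0 < B) (n : ℕ) (e : ℕ → ℤ) (h : ∀ x < n, |e x| < B) :
    |∑ x ∈ Finset.range n, e x * B ^ x| < B ^ n := by
  induction n with
  | zero => simp
  | succ n ih =>
    rw [Finset.sum_range_succ]
    have h1 := ih fun x hx => h x (Nat.lt_succ_of_lt hx)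
    have h2 := h n (Nat.lt_succ_self n)
    have h3 : |e n * B ^ n| ≤ (B - 1) * B ^ n := by
      rw [abs_mul, abs_of_pos (pow_pos hB n)]
      exact mul_le_mul_of_nonneg_right (by omega) (pow_pos hB n).le
    calc |∑ x ∈ Finset.range n, e x * B ^ x + e n * B ^ n|
        ≤ |∑ x ∈ Finset.range n, e x * B ^ x| + |e n * B ^ n| := abs_add_le _ _
      _ < B ^ n + (B - 1) * B ^ n := add_lt_add_of_lt_of_le h1 h3
      _ = B ^ (n + 1) := by ring

theorem zero_of_sum (B : ℤ) (hB : 0 < B) (n : ℕ) (e : ℕ → ℤ) (h : ∀ x < n, |e x| < B)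
    (hs : ∑ x ∈ Finset.range n, e x * B ^ x = 0) : ∀ x < n, e x = 0 := by
  induction n generalizing e with
  | zero => intro x hx; omega
  | succ n ih =>
    rw [Finset.sum_range_succ'] at hs
    have h1 : ∑ x ∈ Finset.range n, e (x + 1) * B ^ (x + 1) =
        (∑ x ∈ Finset.range n, e (x + 1) * B ^ x) * B := by
      rw [Finset.sum_mul]
      exact Finset.sum_congr rfl fun x _ => by ring
    rw [h1, pow_zero, mul_one] at hs
    have h0 : e 0 = 0 := by
      refine Int.eq_zero_of_abs_lt_dvd (m := B) ⟨-∑ x ∈ Finset.range n, e (x + 1) * B ^ x, ?_⟩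
        (h 0 (Nat.succ_pos n))
      linear_combination hs
    rw [h0, add_zero] at hs
    have h2 := (mul_eq_zero.1 hs).resolve_right hB.ne'
    intro x hx
    cases x with
    | zero => exact h0
    | succ x => exact ih (fun x => e (x + 1)) (fun x hx => h (x + 1) (by omega)) h2 x (by omega)

/-- bounded entries. -/
def Bd {a b : Type} (A : Matrix a b ℤ) (c : ℤ) : Prop := ∀ i j, |A i j| ≤ c

section Bd

variable {a b c : Type}

theorem Bd.mono {A : Matrix a b ℤ} {s t : ℤ} (h : Bd A s) (hst : s ≤ t) : Bd A t :=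
  fun i j => (h i j).trans hst

theorem Bd.add {A A' : Matrix a b ℤ} {s t : ℤ} (h : Bd A s) (h' : Bd A' t) : Bd (A + A') (s + t) :=
  fun i j => (abs_add_le _ _).trans (add_le_add (h i j) (h' i j))

theorem Bd.neg {A : Matrix a b ℤ} {s : ℤ} (h : Bd A s) : Bd (-A) s :=
  fun i j => by rw [Matrix.neg_apply, abs_neg]; exact h i j

theorem Bd.sub {A A' : Matrix a b ℤ} {s t : ℤ} (h : Bd A s) (h' : Bd A' t) : Bd (A - A') (s + t) := by
  rw [sub_eq_add_neg]; exact h.add h'.neg

theorem Bd.transpose {A : Matrix a b ℤ} {s : ℤ} (h : Bd A s) : Bd Aᵀ s := fun i j => h j i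

theorem Bd.mul [Fintype b] {A : Matrix a b ℤ} {A' : Matrix b c ℤ} {s t : ℤ} (h : Bd A s)
    (h' : Bd A' t) (hs : 0 ≤ s) : Bd (A * A') (Fintype.card b * (s * t)) := by
  intro i j
  rw [Matrix.mul_apply]
  refine (Finset.abs_sum_le_sum_abs _ _).trans ?_
  refine (Finset.sum_le_sum (g := fun _ => s * t) fun k _ => ?_).trans ?_
  · rw [abs_mul]
    exact mul_le_mul (h i k) (h' k j) (abs_nonneg _) hs
  · simp

theorem Bd.one [DecidableEq a] : Bd (1 : Matrix a a ℤ) 1 := by
  intro i j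
  rw [Matrix.one_apply]
  split_ifs <;> simp

end Bd

/-- **the vector of powers decides.** -/
theorem mat_zero {v x : Type} [Fintype x] {n : ℕ} (π : x ≃ Fin n) (m B : ℕ) (hB : 0 < B)
    (hm : B ^ n ≤ m) (E : Matrix v x ℤ) {s : ℤ} (hE : Bd E s) (hs : s < B)
    (h : (E.map (Int.castRingHom (ZMod m))) *ᵥ (fun p => (B : ZMod m) ^ (π p).val) = 0) :
    E = 0 := by
  ext i p
  have h1 := congrFun h i
  simp only [Matrix.mulVec, dotProduct, Matrix.map_apply, Pi.zero_apply] at h1
  have h2 : ((∑ q : x, E i q * (B : ℤ) ^ (π q).val : ℤ) : ZMod m) = 0 := by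
    rw [← h1]
    push_cast
    rfl
  let e : ℕ → ℤ := fun y => if hy : y < n then E i (π.symm ⟨y, hy⟩) else 0
  have he : ∀ q, e (π q).val = E i q := fun q => by
    simp [e, (π q).isLt]
  have h3 : ∑ q : x, E i q * (B : ℤ) ^ (π q).val = ∑ y ∈ Finset.range n, e y * (B : ℤ) ^ y := by
    rw [Finset.sum_range]
    rw [← Equiv.sum_comp π]
    exact Finset.sum_congr rfl fun q _ => by rw [he]
  have hb : ∀ y < n, |e y| < (B : ℤ) := by
    intro y hy
    simp only [e, dif_pos hy]
    exact lt_of_le_of_lt (hE _ _) hs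
  have hB' : (0 : ℤ) < B := by exact_mod_cast hB
  have h4 := abs_sum_lt B hB' n e hb
  rw [← h3] at h4
  have h5 : (m : ℤ) ∣ ∑ q : x, E i q * (B : ℤ) ^ (π q).val :=
    (ZMod.intCast_zmod_eq_zero_iff_dvd _ _).1 h2
  have h6 : ∑ q : x, E i q * (B : ℤ) ^ (π q).val = 0 := by
    refine Int.eq_zero_of_abs_lt_dvd h5 (h4.trans_le ?_)
    exact_mod_cast hm
  rw [h3] at h6
  have h7 := zero_of_sum B hB' n e hb h6 (π p).val (π p).isLt
  rw [he] at h7
  exact h7

end Crest.Agent.R267.LightC_667
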