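import Crest.Agent.R267.LightC_667

/-!
# Light certificate, part D: the congruence from equations of vectors modulo `m`
-/

set_option autoImplicit false

namespace Crest.Agent.R267.LightD_667

open Matrix NL_330 LightA_667 LightB_667 LightC_667

def M3 : Matrix (Fin 3) (Fin 3) ℤ := !![-2, -1, 1; 3, -3, 2; 4, -3, 2]

def G3 : Matrix (Fin 3) (Fin 3) ℤ := !![0, -1, -4; -1, 16, 3; -4, 3, -18]

theorem iso3 : M3 + M3ᵀ + M3ᵀ * G3 * M3 = 0 := by decide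

/-! ### the hub -/

def Z14 : Matrix (Fin 14) (Fin 14) ℤ := fun k l => if k ≤ l then 1 else 0

def Z14i : Matrix (Fin 14) (Fin 14) ℤ := fun k l =>
  if k = l then 1 else if k.val + 1 = l.val then -1 else 0

theorem z14 : Z14 * Z14i = 1 := by decide +kernel

open Kronecker in
theorem lxm_kron : LXm = LP ⊗ₖ Z14 := by
  ext ⟨a, k⟩ ⟨b, l⟩
  simp only [LXm, kroneckerMap_apply, Z14]
  split_ifs <;> simp

open Kronecker in
theorem lxi_kron : LXi = LPi ⊗ₖ Z14i := by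
  ext ⟨a, k⟩ ⟨b, l⟩
  simp only [LXi, kroneckerMap_apply, Z14i]
  split_ifs <;> simp

theorem lx_mul : LXm * LXi = 1 := by
  rw [lxm_kron, lxi_kron, ← Matrix.mul_kronecker_mul, LP_mul_LPi, z14, Matrix.one_kronecker_one]

/-! ### bounds -/

theorem bd_LP : ∀ a b : Fin 6, |LP a b| ≤ 1 := by decide

theorem bd_LPi : ∀ a b : Fin 6, |LPi a b| ≤ 1 := by decide

theorem bd_Lam : ∀ a b : Fin 13, |Lam a b| ≤ 1 := by decide +kernel

theorem bd_GamF : ∀ (a : Fin 13) (b : Fin 6), |Gam coreF a b| ≤ 1 := by decide +kernel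

theorem bd_GamG : ∀ (a : Fin 13) (b : Fin 6), |Gam coreG a b| ≤ 1 := by decide +kernel

theorem bd_DF : ∀ a b : Fin 6, |coreF.D a b| ≤ 3 := by decide +kernel

theorem bd_DG : ∀ a b : Fin 6, |coreG.D a b| ≤ 3 := by decide +kernel

theorem bd_LXm : Bd LXm 1 := by
  intro p q
  simp only [LXm]
  split_ifs
  · exact bd_LP _ _
  · simp

theorem bd_LXi : Bd LXi 1 := by
  intro p q
  simp only [LXi]
  split_ifs
  · exact bd_LPi _ _
  · rw [abs_neg]; exact bd_LPi _ _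
  · simp

theorem bd_LVm : Bd LVm 1 := by
  intro p q
  simp only [LVm]
  split_ifs
  · exact bd_Lam _ _
  · simp

theorem bd_Cfm : Bd Cfm 1 := by
  intro p q
  simp only [Cfm]
  split_ifs
  · rw [abs_neg]; exact bd_GamF _ _
  · simp

theorem bd_Cgm : Bd Cgm 1 := by
  intro p q
  simp only [Cgm]
  split_ifs <;> first | (rw [abs_neg]; exact bd_GamG _ _) | simp

theorem bd_DmF : Bd (Dm coreF) 3 := by
  intro p q
  simp only [Dm]
  split_ifs
  · exact bd_DF _ _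
  · simp

theorem bd_DmG : Bd (Dm coreG) 3 := by
  intro p q
  simp only [Dm]
  split_ifs
  · exact bd_DG _ _
  · simp

/-! ### the theorem -/

/-- powers on the hub. -/
def bet (m B : ℕ) : X → ZMod m := fun p => (B : ZMod m) ^ (p.2.val + 14 * p.1.val)

def bet3 (m B : ℕ) : Fin 3 → ZMod m := fun j => (B : ZMod m) ^ j.val

theorem zeroX {v : Type} (m B : ℕ) (hB : 0 < B) (hm : B ^ 84 ≤ m) (E : Matrix v X ℤ) {s : ℤ}
    (hE : Bd E s) (hs : s < B) (h : (E.map (Int.castRingHom (ZMod m))) *ᵥ bet m B = 0) :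
    E = 0 :=
  mat_zero (finProdFinEquiv : X ≃ Fin (6 * 14)) m B hB hm E hE hs h

theorem zero3 {v : Type} (m B : ℕ) (hB : 0 < B) (hm : B ^ 3 ≤ m) (E : Matrix v (Fin 3) ℤ) {s : ℤ}
    (hE : Bd E s) (hs : s < B) (h : (E.map (Int.castRingHom (ZMod m))) *ᵥ bet3 m B = 0) :
    E = 0 :=
  mat_zero (Equiv.refl (Fin 3)) m B hB hm E hE hs h

/-- reduction modulo `m`. -/
abbrev rd (m : ℕ) {a b : Type} (A : Matrix a b ℤ) : Matrix a b (ZMod m) :=
  A.map (Int.castRingHom (ZMod m))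

section rd

variable {a b c : Type} (m : ℕ)

theorem rd_mul [Fintype b] (A : Matrix a b ℤ) (A' : Matrix b c ℤ) :
    rd m (A * A') = rd m A * rd m A' := Matrix.map_mul

theorem rd_add (A A' : Matrix a b ℤ) : rd m (A + A') = rd m A + rd m A' :=
  Matrix.map_add _ (map_add _) _ _

theorem rd_sub (A A' : Matrix a b ℤ) : rd m (A - A') = rd m A - rd m A' :=
  Matrix.map_sub _ (map_sub _) _ _

theorem rd_one [DecidableEq a] : rd m (1 : Matrix a a ℤ) = 1 :=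
  Matrix.map_one _ (map_zero _) (map_one _)

end rd

theorem main (m B m3 B3 : ℕ) (hB : 2 ^ 61 < B) (hm : B ^ 84 ≤ m) (hB3 : 2 ^ 28 < B3)
    (hm3 : B3 ^ 3 ≤ m3)
    (h : Matrix V X ℤ) (rho : Matrix X X ℤ) (N Nh : Matrix V (Fin 3) ℤ)
    (bh : Bd h 64) (br : Bd rho 1024) (bN : Bd N 4) (bNh : Bd Nh 8)
    (z3 : V → ZMod m3)
    (hN0 : rd m3 Nh *ᵥ bet3 m3 B3 = z3)
    (hN1 : rd m3 LVm *ᵥ (rd m3 N *ᵥ bet3 m3 B3) = z3)
    (hN2 : rd m3 LVmᵀ *ᵥ (rd m3 N *ᵥ bet3 m3 B3) = z3)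
    (hG : rd m3 Nᵀ *ᵥ z3 = rd m3 G3 *ᵥ bet3 m3 B3)
    (b1 b2 r1 : X → ZMod m) (p p' z z' cg cf : V → ZMod m) (t s : Fin 3 → ZMod m)
    (hb1 : rd m LXm *ᵥ bet m B = b1) (hb2 : rd m LXiᵀ *ᵥ b1 = b2)
    (hp : rd m h *ᵥ bet m B = p) (hp' : rd m h *ᵥ b2 = p')
    (hz : rd m LVm *ᵥ p = z) (hz' : rd m LVmᵀ *ᵥ p' = z')
    (hcg : rd m Cgm *ᵥ bet m B = cg) (hcf : rd m Cfm *ᵥ bet m B = cf)
    (ht : rd m Nᵀ *ᵥ (cg + z + z') = t) (hs : rd m M3ᵀ *ᵥ t = s)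
    (hc : cg + z + z' + rd m Nh *ᵥ s = cf)
    (hr : rd m rho *ᵥ bet m B = r1)
    (hd : rd m (Dm coreG) *ᵥ bet m B + rd m LXm *ᵥ r1 - rd m rhoᵀ *ᵥ b1 +
      rd m hᵀ *ᵥ (cg + z) = rd m (Dm coreF) *ᵥ bet m B) :
    ∃ U : Matrix ((X ⊕ X) ⊕ V) ((X ⊕ X) ⊕ V) ℤ, Uᵀ * Bg * U = Bf := by
  have cV : (Fintype.card V : ℤ) = 2548 := by simp [V]
  have cX : (Fintype.card X : ℤ) = 84 := by simp [X]
  have hB3' : (2 : ℤ) ^ 28 < (B3 : ℤ) := by exact_mod_cast hB3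
  have hB' : (2 : ℤ) ^ 61 < (B : ℤ) := by exact_mod_cast hB
  -- the three vectors
  have e1 : LVm * N - Nh = 0 := by
    refine zero3 m3 B3 (by omega) hm3 _ (((bd_LVm.mul bN (by norm_num)).sub bNh).mono
      (t := 2 ^ 28) ?_) hB3' ?_
    · rw [cV]; norm_num
    · rw [← rd, rd_sub, rd_mul, Matrix.sub_mulVec, ← Matrix.mulVec_mulVec, hN1, hN0, sub_self]
  have e2 : LVmᵀ * N - Nh = 0 := by
    refine zero3 m3 B3 (by omega) hm3 _ (((bd_LVm.transpose.mul bN (by norm_num)).sub bNh).mono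
      (t := 2 ^ 28) ?_) hB3' ?_
    · rw [cV]; norm_num
    · rw [← rd, rd_sub, rd_mul, Matrix.sub_mulVec, ← Matrix.mulVec_mulVec, hN2, hN0, sub_self]
  have e1' : LVm * N = Nh := sub_eq_zero.1 e1
  have e2' : LVmᵀ * N = Nh := sub_eq_zero.1 e2
  have bG : Bd G3 18 := by unfold Bd; decide
  have e3 : Nᵀ * Nh - G3 = 0 := by
    refine zero3 m3 B3 (by omega) hm3 _ (((bN.transpose.mul bNh (by norm_num)).sub bG).mono
      (t := 2 ^ 28) ?_) hB3' ?_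
    · rw [cV]; norm_num
    · rw [← rd, rd_sub, rd_mul, Matrix.sub_mulVec, ← Matrix.mulVec_mulVec, hN0, hG, sub_self]
  have e3' : Nᵀ * Nh = G3 := sub_eq_zero.1 e3
  have bM : Bd M3 4 := by unfold Bd; decide
  -- transposed theta
  have hθ : (1 + N * M3 * (LVm * N)ᵀ)ᵀ = 1 + Nh * (M3ᵀ * Nᵀ) := by
    rw [e1', Matrix.transpose_add, Matrix.transpose_one, Matrix.transpose_mul,
      Matrix.transpose_mul, Matrix.transpose_transpose]
  -- (c)
  have ec : (1 + Nh * (M3ᵀ * Nᵀ)) * (Cgm + LVm * h + LVmᵀ * (h * (LXiᵀ * LXm))) - Cfm = 0 := by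
    have b1 : Bd (1 + Nh * (M3ᵀ * Nᵀ)) 1153 := by
      refine ((Bd.one (a := V)).add (bNh.mul (bM.transpose.mul bN.transpose (by norm_num))
        (by norm_num))).mono ?_
      simp
    have b2 : Bd (Cgm + LVm * h + LVmᵀ * (h * (LXiᵀ * LXm))) (2 ^ 31) := by
      refine ((bd_Cgm.add (bd_LVm.mul bh (by norm_num))).add (bd_LVm.transpose.mul (bh.mul
        (bd_LXi.transpose.mul bd_LXm (by norm_num)) (by norm_num)) (by norm_num))).mono ?_
      rw [cV, cX]; norm_num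
    refine zeroX m B (by omega) hm _ (((b1.mul b2 (by norm_num)).sub bd_Cfm).mono
      (t := 2 ^ 61) ?_) hB' ?_
    · rw [cV]; norm_num
    · rw [← rd]
      simp only [rd_sub, rd_mul, rd_add, rd_one, Matrix.sub_mulVec, Matrix.add_mulVec,
        Matrix.one_mulVec, ← Matrix.mulVec_mulVec, hb1, hb2, hp, hp', hz, hz', hcg, hcf, ht, hs, hc,
        sub_self]
  -- (d)
  have ed : Dm coreG + LXm * rho - rhoᵀ * LXm + hᵀ * (Cgm + LVm * h) - Dm coreF = 0 := by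
    refine zeroX m B (by omega) hm _ (((((bd_DmG.add (bd_LXm.mul br (by norm_num))).sub
      (br.transpose.mul bd_LXm (by norm_num))).add (bh.transpose.mul (bd_Cgm.add (bd_LVm.mul bh
        (by norm_num))) (by norm_num))).sub bd_DmF).mono (t := 2 ^ 61) ?_) hB' ?_
    · rw [cV, cX]; norm_num
    · rw [← rd]
      simp only [rd_sub, rd_mul, rd_add, Matrix.sub_mulVec, Matrix.add_mulVec,
        ← Matrix.mulVec_mulVec, hb1, hp, hz, hcg, hr, hd, sub_self]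
  refine light (r := Fin 3) LXm LXi LVm (Dm coreF) (Dm coreG) Cfm Cgm rho h N M3 lx_mul ?_ ?_ ?_ ?_
  · rw [e1', e2']
  · rw [e1', e3']; exact iso3
  · rw [hθ]; exact sub_eq_zero.1 ec
  · exact sub_eq_zero.1 ed

end Crest.Agent.R267.LightD_667
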