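import Crest.Agent.R267.LightD_667
import Crest.Agent.R267.LightK_667

/-!
# Light certificate, part E: meaning of the kernel checks
-/

set_option autoImplicit false

namespace Crest.Agent.R267.LightE_667

open Matrix NL_330 LightA_667 LightB_667 LightC_667 LightD_667 LightK_667

/-! ### digits -/

/-- digit `x` of `r` in base `b`. -/
def dig (b r x : ℕ) : ℕ := r / b ^ x % b

/-- digits of base `b` against a list. -/
noncomputable def ddb (b : ℕ) (l : List ℕ) (r : ℕ) : ℕ :=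
  List.rec (motive := fun _ => ℕ → ℕ) (fun _ => 0)
    (fun a _ ih r => Nat.add (Nat.mul (Nat.mod r b) a) (ih (Nat.div r b))) l r

theorem ddb_eq (b : ℕ) (l : List ℕ) (r : ℕ) :
    ddb b l r = ∑ x ∈ Finset.range (len l), dig b r x * nth 0 l x := by
  induction l generalizing r with
  | nil => rfl
  | cons a l ih =>
    have h : ddb b (a :: l) r = r % b * a + ddb b l (r / b) := rfl
    have h1 : len (a :: l) = len l + 1 := rfl
    rw [h, h1, Finset.sum_range_succ', ih, add_comm]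
    congr 1
    · refine Finset.sum_congr rfl fun x _ => ?_
      rw [nth_cons_succ, dig, dig, Nat.div_div_eq_div_mul, pow_succ, mul_comm (b ^ x)]
    · simp [nth_cons_zero, dig]

theorem dig_lt (b r x : ℕ) (hb : 0 < b) : dig b r x < b := Nat.mod_lt _ hb

/-! ### sums -/

theorem sumX {M : Type} [AddCommMonoid M] (F : ℕ → M) :
    ∑ x ∈ Finset.range 84, F x = ∑ q : X, F (q.2.val + 14 * q.1.val) := by
  rw [Finset.sum_range, ← Equiv.sum_comp (finProdFinEquiv : X ≃ Fin (6 * 14))]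
  rfl

theorem sumX2 {M : Type} [AddCommMonoid M] (F : ℕ → ℕ → M) :
    ∑ b ∈ Finset.range 6, ∑ l ∈ Finset.range 14, F b l = ∑ q : X, F q.1.val q.2.val := by
  rw [Fintype.sum_prod_type, Finset.sum_range]
  exact Finset.sum_congr rfl fun b _ => by rw [Finset.sum_range]

theorem sumVm {M : Type} [AddCommMonoid M] (F : ℕ → ℕ → ℕ → M) :
    ∑ c ∈ Finset.range 13, ∑ k ∈ Finset.range 14, ∑ i ∈ Finset.range (wd c k), F c k i =
      ∑ u : V, if Msk u then F u.1 u.2.1 u.2.2 else 0 := by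
  rw [Fintype.sum_prod_type, Finset.sum_range]
  refine Finset.sum_congr rfl fun c _ => ?_
  rw [Fintype.sum_prod_type, Finset.sum_range]
  refine Finset.sum_congr rfl fun k _ => ?_
  have h1 : ∑ i : Fin 14, (if Msk (c, k, i) then F c k i else 0) =
      ∑ i ∈ Finset.range 14, if i < wd c.val k.val then F c k i else 0 := by
    rw [Finset.sum_range]
    exact Finset.sum_congr rfl fun i _ => by simp only [msk_iff]
  rw [h1, ← Finset.sum_filter]
  refine Finset.sum_congr ?_ fun _ _ => rfl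
  ext i
  have := wd_le c.val c.isLt k.val k.isLt
  simp only [Finset.mem_filter, Finset.mem_range]
  omega

/-- sum over the cells. -/
noncomputable def sumV (F : ℕ → ℕ → ℕ → ℕ) : ℕ :=
  sumN 13 fun c => sumN 14 fun k => sumN (wd c k) fun i => F c k i

theorem sumV_cast (m : ℕ) (F : ℕ → ℕ → ℕ → ℕ) :
    ((sumV F : ℕ) : ZMod m) = ∑ u : V, if Msk u then (F u.1 u.2.1 u.2.2 : ZMod m) else 0 := by
  rw [← sumVm (fun c k i => (F c k i : ZMod m))]
  simp only [sumV, sumN_eq, Nat.cast_sum]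

/-! ### vectors from lists -/

section

variable (m : ℕ)

/-- nested list as a function. -/
noncomputable def cv (y : List (List (List ℕ))) : ℕ → ℕ → ℕ → ZMod m := fun c k i => ((val y c k i : ℕ) : ZMod m)

/-- list as a vector on the hub. -/
noncomputable def xv (l : List ℕ) : X → ZMod m := fun q => ((nth 0 l (q.2.val + 14 * q.1.val) : ℕ) : ZMod m)

noncomputable def fv (l : List ℕ) : Fin 3 → ZMod m := fun j => ((nth 0 l j.val : ℕ) : ZMod m)

end

/-- digit matrix `V × X`. -/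
noncomputable def hM (rows : List (List (List ℕ))) : Matrix V X ℤ := fun u q =>
  if Msk u then (dig 128 (val rows u.1 u.2.1 u.2.2 / 65536) (q.2.val + 14 * q.1.val) : ℤ) - 64
  else 0

/-- digit matrix `V × Fin 3`. -/
noncomputable def nM (b o : ℕ) (rows : List (List (List ℕ))) : Matrix V (Fin 3) ℤ := fun u j =>
  if Msk u then (dig b (val rows u.1 u.2.1 u.2.2) j.val : ℤ) - o else 0

/-- digit matrix `X × X`. -/
noncomputable def rM (rows : List ℕ) : Matrix X X ℤ := fun p q =>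
  (dig 2048 (nth 0 rows (p.2.val + 14 * p.1.val)) (q.2.val + 14 * q.1.val) : ℤ) - 1024

theorem bd_hM (rows : List (List (List ℕ))) : Bd (hM rows) 64 := by
  intro u q
  simp only [hM]
  split_ifs
  · have := dig_lt 128 (val rows u.1 u.2.1 u.2.2 / 65536) (q.2.val + 14 * q.1.val) (by norm_num)
    rw [abs_le]; constructor <;> omega
  · simp

theorem bd_nM (b o : ℕ) (hb : b = 2 * o) (ho : 0 < o) (rows : List (List (List ℕ))) :
    Bd (nM b o rows) o := by
  intro u q
  simp only [nM]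
  split_ifs
  · have := dig_lt b (val rows u.1 u.2.1 u.2.2) q.val (by omega)
    rw [abs_le]; constructor <;> omega
  · simp

theorem bd_rM (rows : List ℕ) : Bd (rM rows) 1024 := by
  intro p q
  simp only [rM]
  have := dig_lt 2048 (nth 0 rows (p.2.val + 14 * p.1.val)) (q.2.val + 14 * q.1.val) (by norm_num)
  rw [abs_le]; constructor <;> omega

variable {m : ℕ}

theorem ddb_X (b : ℕ) (l : List ℕ) (hl : len l = 84) (r : ℕ) :
    ((ddb b l r : ℕ) : ZMod m) =
      ∑ q : X, (dig b r (q.2.val + 14 * q.1.val) : ZMod m) * xv m l q := by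
  rw [ddb_eq, hl, Nat.cast_sum, sumX (fun x => ((dig b r x * nth 0 l x : ℕ) : ZMod m))]
  exact Finset.sum_congr rfl fun q _ => by rw [Nat.cast_mul]; rfl

theorem ddb_3 (b : ℕ) (l : List ℕ) (hl : len l = 3) (r : ℕ) :
    ((ddb b l r : ℕ) : ZMod m) = ∑ j : Fin 3, (dig b r j.val : ZMod m) * fv m l j := by
  rw [ddb_eq, hl, Nat.cast_sum, Finset.sum_range]
  exact Finset.sum_congr rfl fun q _ => by rw [Nat.cast_mul]; rfl

/-- `h *ᵥ`. -/
theorem hM_mulVec (rows y : List (List (List ℕ))) (l : List ℕ) (hl : len l = 84) (c0 : ℕ)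
    (hc0 : (c0 : ZMod m) = - (64 * ∑ q, xv m l q))
    (h : ∀ c < 13, ∀ k < 14, ∀ i < wd c k,
      eqm m (Nat.add (ddb 128 l (Nat.div (val rows c k i) 65536)) c0) (val y c k i) = true) :
    rd m (hM rows) *ᵥ xv m l = sv (cv m y) := by
  ext ⟨c, k, i⟩
  simp only [Matrix.mulVec, dotProduct, Matrix.map_apply, hM, sv]
  by_cases hm : Msk (c, k, i)
  · simp only [if_pos hm]
    have h1 := eqm_cast (h c c.isLt k k.isLt i ((msk_iff c k i).1 hm))
    rw [cv, ← h1]
    have h2 : ((Nat.add (ddb 128 l (Nat.div (val rows c k i) 65536)) c0 : ℕ) : ZMod m) =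
      ((ddb 128 l (val rows c k i / 65536) : ℕ) : ZMod m) + (c0 : ZMod m) := Nat.cast_add _ _
    rw [h2, ddb_X 128 l hl, hc0, Finset.mul_sum, ← sub_eq_add_neg, ← Finset.sum_sub_distrib]
    refine Finset.sum_congr rfl fun q _ => ?_
    simp only [map_sub, map_natCast, map_ofNat]
    ring
  · simp only [if_neg hm, map_zero, zero_mul, Finset.sum_const_zero]

/-- `N *ᵥ`. -/
theorem nM_mulVec (b o : ℕ) (rows y : List (List (List ℕ))) (l : List ℕ) (hl : len l = 3) (c0 : ℕ)
    (hc0 : (c0 : ZMod m) = - (o * ∑ q, fv m l q))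
    (h : ∀ c < 13, ∀ k < 14, ∀ i < wd c k,
      eqm m (Nat.add (ddb b l (val rows c k i)) c0) (val y c k i) = true) :
    rd m (nM b o rows) *ᵥ fv m l = sv (cv m y) := by
  ext ⟨c, k, i⟩
  simp only [Matrix.mulVec, dotProduct, Matrix.map_apply, nM, sv]
  by_cases hm : Msk (c, k, i)
  · simp only [if_pos hm]
    have h1 := eqm_cast (h c c.isLt k k.isLt i ((msk_iff c k i).1 hm))
    rw [cv, ← h1]
    have h2 : ((Nat.add (ddb b l (val rows c k i)) c0 : ℕ) : ZMod m) =
      ((ddb b l (val rows c k i) : ℕ) : ZMod m) + (c0 : ZMod m) := Nat.cast_add _ _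
    rw [h2, ddb_3 b l hl, hc0, Finset.mul_sum, ← sub_eq_add_neg, ← Finset.sum_sub_distrib]
    refine Finset.sum_congr rfl fun q _ => ?_
    simp only [map_sub, map_natCast]
    ring
  · simp only [if_neg hm, map_zero, zero_mul, Finset.sum_const_zero]

/-- `hᵀ *ᵥ`. -/
theorem hMT_mulVec (rows : List (List (List ℕ))) (g : ℕ → ℕ → ℕ → ℕ) (q : X) :
    (rd m (hM rows)ᵀ *ᵥ sv (fun c k i => (g c k i : ZMod m))) q =
      ((sumV fun c k i => Nat.mul (dig 128 (val rows c k i / 65536) (q.2.val + 14 * q.1.val))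
        (g c k i) : ℕ) : ZMod m) - 64 * ((sumV g : ℕ) : ZMod m) := by
  rw [sumV_cast, sumV_cast, Finset.mul_sum, ← Finset.sum_sub_distrib]
  simp only [Matrix.mulVec, dotProduct, Matrix.map_apply, Matrix.transpose_apply, hM, sv]
  refine Finset.sum_congr rfl fun u _ => ?_
  by_cases hm : Msk u
  · simp only [if_pos hm]
    have h2 : ((Nat.mul (dig 128 (val rows u.1 u.2.1 u.2.2 / 65536) (q.2.val + 14 * q.1.val))
        (g u.1 u.2.1 u.2.2) : ℕ) : ZMod m) =
        (dig 128 (val rows u.1 u.2.1 u.2.2 / 65536) (q.2.val + 14 * q.1.val) : ZMod m) *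
          (g u.1 u.2.1 u.2.2 : ZMod m) := Nat.cast_mul _ _
    rw [h2]
    simp only [map_sub, map_natCast, map_ofNat]
    ring
  · simp only [if_neg hm, map_zero, mul_zero, sub_self]

/-- `Nᵀ *ᵥ`. -/
theorem nMT_mulVec (b o : ℕ) (rows : List (List (List ℕ))) (g : ℕ → ℕ → ℕ → ℕ) (j : Fin 3) :
    (rd m (nM b o rows)ᵀ *ᵥ sv (fun c k i => (g c k i : ZMod m))) j =
      ((sumV fun c k i => Nat.mul (dig b (val rows c k i) j.val) (g c k i) : ℕ) : ZMod m) -
        o * ((sumV g : ℕ) : ZMod m) := by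
  rw [sumV_cast, sumV_cast, Finset.mul_sum, ← Finset.sum_sub_distrib]
  simp only [Matrix.mulVec, dotProduct, Matrix.map_apply, Matrix.transpose_apply, nM, sv]
  refine Finset.sum_congr rfl fun u _ => ?_
  by_cases hm : Msk u
  · simp only [if_pos hm]
    have h2 : ((Nat.mul (dig b (val rows u.1 u.2.1 u.2.2) j.val)
        (g u.1 u.2.1 u.2.2) : ℕ) : ZMod m) =
        (dig b (val rows u.1 u.2.1 u.2.2) j.val : ZMod m) *
          (g u.1 u.2.1 u.2.2 : ZMod m) := Nat.cast_mul _ _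
    rw [h2]
    simp only [map_sub, map_natCast]
    ring
  · simp only [if_neg hm, map_zero, mul_zero, sub_self]

/-- `rho *ᵥ`. -/
theorem rM_mulVec (rows l : List ℕ) (hl : len l = 84) (q : X) :
    (rd m (rM rows) *ᵥ xv m l) q =
      ((ddb 2048 l (nth 0 rows (q.2.val + 14 * q.1.val)) : ℕ) : ZMod m) - 1024 * ∑ p, xv m l p := by
  rw [ddb_X 2048 l hl, Finset.mul_sum, ← Finset.sum_sub_distrib]
  simp only [Matrix.mulVec, dotProduct, Matrix.map_apply, rM]
  refine Finset.sum_congr rfl fun p _ => ?_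
  simp only [map_sub, map_natCast, map_ofNat]
  ring

/-- `rhoᵀ *ᵥ`. -/
theorem rMT_mulVec (rows l : List ℕ) (q : X) :
    (rd m (rM rows)ᵀ *ᵥ xv m l) q =
      ((sumN 84 fun x => Nat.mul (dig 2048 (nth 0 rows x) (q.2.val + 14 * q.1.val)) (nth 0 l x) :
        ℕ) : ZMod m) - 1024 * ∑ p, xv m l p := by
  rw [sumN_eq, Nat.cast_sum, Finset.mul_sum]
  have h1 := sumX (fun x => ((Nat.mul (dig 2048 (nth 0 rows x) (q.2.val + 14 * q.1.val))
    (nth 0 l x) : ℕ) : ZMod m))
  rw [h1, ← Finset.sum_sub_distrib]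
  simp only [Matrix.mulVec, dotProduct, Matrix.map_apply, Matrix.transpose_apply, rM]
  refine Finset.sum_congr rfl fun p _ => ?_
  have h2 : ((Nat.mul (dig 2048 (nth 0 rows (p.2.val + 14 * p.1.val)) (q.2.val + 14 * q.1.val))
      (nth 0 l (p.2.val + 14 * p.1.val)) : ℕ) : ZMod m) =
      (dig 2048 (nth 0 rows (p.2.val + 14 * p.1.val)) (q.2.val + 14 * q.1.val) : ZMod m) *
        xv m l p := Nat.cast_mul _ _
  rw [h2]
  simp only [map_sub, map_natCast, map_ofNat]
  ring

/-! ### sums over the hub with a table of coefficients -/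

/-- `∑_{b, l ≥ k} t_b v_(b,l)`. -/
noncomputable def xge (t v : List ℕ) (k : ℕ) : ℕ :=
  sumN 6 fun b => sumN 14 fun l =>
    Bool.rec (motive := fun _ => ℕ) 0 (Nat.mul (nth 0 t b) (nth 0 v (l + 14 * b))) (Nat.ble k l)

/-- `∑_{b, l ≤ k} t_b v_(b,l)`. -/
noncomputable def xle (t v : List ℕ) (k : ℕ) : ℕ :=
  sumN 6 fun b => sumN 14 fun l =>
    Bool.rec (motive := fun _ => ℕ) 0 (Nat.mul (nth 0 t b) (nth 0 v (l + 14 * b))) (Nat.ble l k)

theorem boolrec_cast (a : ℕ) (k l : ℕ) :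
    ((Bool.rec (motive := fun _ => ℕ) 0 a (Nat.ble k l) : ℕ) : ZMod m) =
      if k ≤ l then (a : ZMod m) else 0 := by
  by_cases h : k ≤ l
  · rw [if_pos h, Nat.ble_eq_true_of_le h]
  · rw [if_neg h]
    have h1 : Nat.ble k l = false := by
      cases h2 : Nat.ble k l with
      | false => rfl
      | true => exact absurd (Nat.le_of_ble_eq_true h2) h
    rw [h1]
    exact Nat.cast_zero

theorem xge_cast (t v : List ℕ) (k : ℕ) :
    ((xge t v k : ℕ) : ZMod m) =
      ∑ q : X, if k ≤ q.2.val then ((nth 0 t q.1.val : ℕ) : ZMod m) * xv m v q else 0 := by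
  simp only [xv]
  rw [← sumX2 (fun b l => if k ≤ l then ((nth 0 t b : ℕ) : ZMod m) * ((nth 0 v (l + 14 * b) : ℕ) : ZMod m)
    else 0)]
  simp only [xge, sumN_eq, Nat.cast_sum, boolrec_cast]
  refine Finset.sum_congr rfl fun b _ => Finset.sum_congr rfl fun l _ => ?_
  split_ifs
  · exact Nat.cast_mul _ _
  · rfl

theorem xle_cast (t v : List ℕ) (k : ℕ) :
    ((xle t v k : ℕ) : ZMod m) =
      ∑ q : X, if q.2.val ≤ k then ((nth 0 t q.1.val : ℕ) : ZMod m) * xv m v q else 0 := by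
  simp only [xv]
  rw [← sumX2 (fun b l => if l ≤ k then ((nth 0 t b : ℕ) : ZMod m) * ((nth 0 v (l + 14 * b) : ℕ) : ZMod m)
    else 0)]
  simp only [xle, sumN_eq, Nat.cast_sum, boolrec_cast]
  refine Finset.sum_congr rfl fun b _ => Finset.sum_congr rfl fun l _ => ?_
  split_ifs
  · exact Nat.cast_mul _ _
  · rfl

/-- a matrix with rows `[k ≤ l] (P b - Q b)`. -/
theorem row_mulVec (P Q v : List ℕ) (k : ℕ) (D : Fin 6 → ℤ)
    (hD : ∀ b : Fin 6, D b = ((nth 0 P b.val : ℕ) : ℤ) - ((nth 0 Q b.val : ℕ) : ℤ)) :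
    ∑ q : X, ((if k ≤ q.2.val then D q.1 else 0 : ℤ) : ZMod m) * xv m v q =
      ((xge P v k : ℕ) : ZMod m) - ((xge Q v k : ℕ) : ZMod m) := by
  rw [xge_cast, xge_cast, ← Finset.sum_sub_distrib]
  refine Finset.sum_congr rfl fun q _ => ?_
  split_ifs
  · rw [hD]; push_cast; ring
  · simp

/-! ### mixing of the components -/

/-- lists of the components with `Lam c d = 1`. -/
def mixL : List (List ℕ) :=
  [[0], [1, 2, 3, 4, 5, 6], [2, 3, 4, 6], [3, 4], [4], [5, 6], [6],
    [7, 8, 9, 10, 11, 12], [8, 9, 10, 12], [9, 10], [10], [11, 12], [12]]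

/-- lists of the components with `Lam d c = 1`. -/
def mixT : List (List ℕ) :=
  [[0], [1], [1, 2], [1, 2, 3], [1, 2, 3, 4], [1, 5], [1, 2, 5, 6],
    [7], [7, 8], [7, 8, 9], [7, 8, 9, 10], [7, 11], [7, 8, 11, 12]]

theorem lam_mixL : ∀ c d : Fin 13, Lam c d = if d.val ∈ nth [] mixL c.val then 1 else 0 := by
  decide +kernel

theorem lam_mixT : ∀ c d : Fin 13, Lam d c = if d.val ∈ nth [] mixT c.val then 1 else 0 := by
  decide +kernel

/-- sum over a list. -/
noncomputable def sumL (l : List ℕ) (f : ℕ → ℕ) : ℕ :=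
  List.rec (motive := fun _ => ℕ) 0 (fun d _ ih => Nat.add (f d) ih) l

theorem sumL_cast (l : List ℕ) (f : ℕ → ℕ) (hn : l.Nodup) (hl : ∀ d ∈ l, d < 13) :
    ((sumL l f : ℕ) : ZMod m) = ∑ d : Fin 13, (if d.val ∈ l then (f d.val : ZMod m) else 0) := by
  have h1 : ∀ l : List ℕ, sumL l f = (l.map f).sum := by
    intro l
    induction l with
    | nil => rfl
    | cons a l ih => rw [List.map_cons, List.sum_cons, ← ih]; rfl
  have h2 : ∑ d : Fin 13, (if d.val ∈ l then (f d.val : ZMod m) else 0) =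
      ∑ d ∈ Finset.range 13, if d ∈ l then (f d : ZMod m) else 0 := by
    rw [Finset.sum_range]
  rw [h2, h1, ← Finset.sum_filter]
  have h3 : Finset.filter (fun d => d ∈ l) (Finset.range 13) = l.toFinset := by
    ext d
    simp only [Finset.mem_filter, Finset.mem_range, List.mem_toFinset]
    exact ⟨fun h => h.2, fun h => ⟨hl d h, h⟩⟩
  rw [h3, List.sum_toFinset _ hn]
  simp [Nat.cast_list_sum, List.map_map, Function.comp_def]

theorem mixL_ok : ∀ c : Fin 13, (nth [] mixL c.val).Nodup ∧ ∀ d ∈ nth [] mixL c.val, d < 13 := by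
  decide +kernel

theorem mixT_ok : ∀ c : Fin 13, (nth [] mixT c.val).Nodup ∧ ∀ d ∈ nth [] mixT c.val, d < 13 := by
  decide +kernel

theorem mixL_cast (c : Fin 13) (f : ℕ → ℕ) :
    ((sumL (nth [] mixL c.val) f : ℕ) : ZMod m) = ∑ d : Fin 13, ((Lam c d : ℤ) : ZMod m) * f d := by
  rw [sumL_cast _ _ (mixL_ok c).1 (mixL_ok c).2]
  refine Finset.sum_congr rfl fun d _ => ?_
  rw [lam_mixL]
  split_ifs <;> simp

theorem mixT_cast (c : Fin 13) (f : ℕ → ℕ) :
    ((sumL (nth [] mixT c.val) f : ℕ) : ZMod m) = ∑ d : Fin 13, ((Lam d c : ℤ) : ZMod m) * f d := by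
  rw [sumL_cast _ _ (mixT_ok c).1 (mixT_ok c).2]
  refine Finset.sum_congr rfl fun d _ => ?_
  rw [lam_mixT]
  split_ifs <;> simp

/-! ### `LV` by differences -/

/-- shift by one, kernel version. -/
noncomputable def sh (z : ℕ → ℕ → ℕ) (k i : ℕ) : ℕ :=
  Nat.rec (motive := fun _ => ℕ) 0 (fun k' _ =>
    Nat.rec (motive := fun _ => ℕ) 0 (fun i' _ => z k' i') i) k

theorem sh_cast (z : ℕ → ℕ → ℕ) (k i : ℕ) :
    ((sh z k i : ℕ) : ZMod m) = shf (fun k i => (z k i : ZMod m)) k i := by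
  cases k with
  | zero => exact Nat.cast_zero
  | succ k =>
    cases i with
    | zero => exact Nat.cast_zero
    | succ i => rfl

/-- `z = LV y`, one cell. -/
noncomputable def rel (m : ℕ) (y z : List (List (List ℕ))) (c k i : ℕ) : Bool :=
  eqm m (Nat.add (val z c k i) (val z c (Nat.succ k) (Nat.succ i)))
    (Nat.add (Nat.add (sumL (nth [] mixL c) fun d => val y d k i) (val z c (Nat.succ k) i))
      (val z c k (Nat.succ i)))

/-- `z = LVᵀ y`, one cell. -/
noncomputable def relT (m : ℕ) (y z : List (List (List ℕ))) (c k i : ℕ) : Bool :=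
  eqm m (Nat.add (val z c k i) (sh (val z c) k i))
    (Nat.add (Nat.add (sumL (nth [] mixT c) fun d => val y d k i) (sh (val z c) k (Nat.succ i)))
      (sh (val z c) (Nat.succ k) i))

theorem rel_mulVec (y z : List (List (List ℕ))) (hz : shp z = true)
    (h : ∀ c < 13, ∀ k < 14, ∀ i < wd c k, rel m y z c k i = true) :
    rd m LVm *ᵥ sv (cv m y) = sv (cv m z) := by
  refine lv_mulVec _ _ ?_ ?_
  · intro c hc k hk i hi
    simp only [cv]
    rw [val_eq_zero hz hc hk hi, Nat.cast_zero]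
  · intro c k hk i hi
    have h1 := eqm_cast (h c c.isLt k hk i hi)
    simp only [Nat.add_eq, Nat.cast_add, mixL_cast] at h1
    exact h1

theorem relT_mulVec (y z : List (List (List ℕ)))
    (h : ∀ c < 13, ∀ k < 14, ∀ i < wd c k, relT m y z c k i = true) :
    rd m LVmᵀ *ᵥ sv (cv m y) = sv (cv m z) := by
  refine lvT_mulVec _ _ ?_
  intro c k hk i hi
  have h1 := eqm_cast (h c c.isLt k hk i hi)
  simp only [Nat.add_eq, Nat.cast_add, mixT_cast, sh_cast] at h1
  exact h1

end Crest.Agent.R267.LightE_667
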