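import Crest.Agent.R267.LightE_667

/-!
# Light certificate, part F: all checks together
-/

set_option autoImplicit false

namespace Crest.Agent.R267.LightF_667

open Matrix NL_330 LightA_667 LightB_667 LightC_667 LightD_667 LightK_667 LightE_667

/-- sum of a list of length 84. -/
noncomputable def ls (l : List ℕ) : ℕ := sumN 84 fun x => nth 0 l x

noncomputable def ls3 (l : List ℕ) : ℕ := sumN 3 fun x => nth 0 l x

theorem ls_cast (m : ℕ) (l : List ℕ) : ((ls l : ℕ) : ZMod m) = ∑ q : X, xv m l q := by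
  rw [ls, sumN_eq, Nat.cast_sum, sumX (fun x => ((nth 0 l x : ℕ) : ZMod m))]
  rfl

theorem ls3_cast (m : ℕ) (l : List ℕ) : ((ls3 l : ℕ) : ZMod m) = ∑ q : Fin 3, fv m l q := by
  rw [ls3, sumN_eq, Nat.cast_sum, Finset.sum_range]
  rfl

/-! ### tables -/

/-- rows of `LP`. -/
def LPl : List (List ℕ) :=
  [[1,1,1,1,1,1], [0,1,1,1,0,1], [0,0,1,1,0,0], [0,0,0,1,0,0], [0,0,0,0,1,1], [0,0,0,0,0,1]]

/-- columns of `LP`. -/
def LPc : List (List ℕ) :=
  [[1], [1,1], [1,1,1], [1,1,1,1], [1,0,0,0,1], [1,1,0,0,1,1]]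

def DGp : List (List ℕ) :=
  [[1,1,1,3,1,1], [0,1,1,1,0,1], [0,0,1,1,0,0], [0,0,0,1,0,0], [0,0,0,0,1,1], [0,0,0,0,0,1]]

def DGn : List (List ℕ) := [[], [], [], [0,0,0,0,1], [], []]

def DFp : List (List ℕ) :=
  [[1,1,1,1,1,1], [0,1,1,1,0,0], [0,0,1,1,0,0], [0,0,0,1,0,0], [0,0,0,0,1,1], [0,0,0,0,0,1]]

/-- `- Gam coreG = - GGn`. -/
def GGn : List (List ℕ) :=
  [[1,1,0,1,0,1],
   [1,1,1,1,1,1], [0,1,1,1,0,1], [0,0,1,1,0,0], [0,0,0,1,0,0], [0,0,0,0,1,1], [0,0,0,0,0,1],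
   [1,1,1,1,1,1], [0,1,1,1,0,1], [0,0,1,1,0,0], [0,0,0,1,0,0], [0,0,0,0,1,1], [0,0,0,0,0,1]]

/-- `- Gam coreF = GFp - GFn`. -/
def GFp : List (List ℕ) := [[1,0,0,0,1,1], [], [], [], [], [], [], [], [], [], [], [], []]

def GFn : List (List ℕ) :=
  [[],
   [1,1,1,1,1,1], [0,1,1,1,0,1], [0,0,1,1,0,0], [0,0,0,1,0,0], [0,0,0,0,1,1], [0,0,0,0,0,1],
   [1,1,1,1,1,1], [0,1,1,1,0,1], [0,0,1,1,0,0], [0,0,0,1,0,0], [0,0,0,0,1,1], [0,0,0,0,0,1]]

def LPf (a b : Fin 6) : ℤ := LP a b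

def DGf (a b : Fin 6) : ℤ := coreG.D a b

def DFf (a b : Fin 6) : ℤ := coreF.D a b

theorem LPf_ok : ∀ a b : Fin 6, LPf a b =
    ((nth 0 (nth [] LPl a.val) b.val : ℕ) : ℤ) - ((nth 0 ([] : List ℕ) b.val : ℕ) : ℤ) := by
  decide +kernel

theorem LPl_ok (a b : Fin 6) : (LP a b : ℤ) =
    ((nth 0 (nth [] LPl a.val) b.val : ℕ) : ℤ) - ((nth 0 ([] : List ℕ) b.val : ℕ) : ℤ) :=
  LPf_ok a b

theorem LPc_ok : ∀ a b : Fin 6, LP b a = ((nth 0 (nth [] LPc a.val) b.val : ℕ) : ℤ) := by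
  decide +kernel

theorem DGf_ok : ∀ a b : Fin 6, DGf a b =
    ((nth 0 (nth [] DGp a.val) b.val : ℕ) : ℤ) - ((nth 0 (nth [] DGn a.val) b.val : ℕ) : ℤ) := by
  decide +kernel

theorem DFf_ok : ∀ a b : Fin 6, DFf a b =
    ((nth 0 (nth [] DFp a.val) b.val : ℕ) : ℤ) - ((nth 0 ([] : List ℕ) b.val : ℕ) : ℤ) := by
  decide +kernel

theorem DG_ok (a b : Fin 6) : (coreG.D a b : ℤ) =
    ((nth 0 (nth [] DGp a.val) b.val : ℕ) : ℤ) - ((nth 0 (nth [] DGn a.val) b.val : ℕ) : ℤ) :=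
  DGf_ok a b

theorem DF_ok (a b : Fin 6) : (coreF.D a b : ℤ) =
    ((nth 0 (nth [] DFp a.val) b.val : ℕ) : ℤ) - ((nth 0 ([] : List ℕ) b.val : ℕ) : ℤ) :=
  DFf_ok a b

theorem GG_ok : ∀ (a : Fin 13) (b : Fin 6), - Gam coreG a b =
    ((nth 0 ([] : List ℕ) b.val : ℕ) : ℤ) - ((nth 0 (nth [] GGn a.val) b.val : ℕ) : ℤ) := by
  decide +kernel

theorem GF_ok : ∀ (a : Fin 13) (b : Fin 6), - Gam coreF a b =
    ((nth 0 (nth [] GFp a.val) b.val : ℕ) : ℤ) - ((nth 0 (nth [] GFn a.val) b.val : ℕ) : ℤ) := by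
  decide +kernel

/-- level of a cell of `g`. -/
noncomputable def levg (c k i : ℕ) : ℕ :=
  Bool.rec (motive := fun _ => ℕ) k i (Nat.ble c 6)

theorem levg_eq (u : V) : levg u.1 u.2.1 u.2.2 = if u.1.val < 7 then u.2.2.val else u.2.1.val := by
  unfold levg
  by_cases h : u.1.val < 7
  · rw [if_pos h, Nat.ble_eq_true_of_le (by omega)]
  · rw [if_neg h]
    have h1 : Nat.ble u.1.val 6 = false := by
      cases h2 : Nat.ble u.1.val 6 with
      | false => rfl
      | true => exact absurd (Nat.le_of_ble_eq_true h2) (by omega)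
    rw [h1]

/-- table lookup for `Cg *ᵥ β`. -/
noncomputable def cgv (T : List (List ℕ)) (c k i : ℕ) : ℕ := nth 0 (nth [] T c) (levg c k i)

noncomputable def cfv (T : List (List ℕ)) (c k : ℕ) : ℕ := nth 0 (nth [] T c) k

section

variable {m : ℕ}

theorem sv_add (f g : ℕ → ℕ → ℕ → ZMod m) :
    sv f + sv g = sv (fun c k i => f c k i + g c k i) := by
  ext u
  simp only [Pi.add_apply, sv]
  split_ifs <;> simp

theorem cg_mulVec (T : List (List ℕ)) (v : List ℕ)
    (h : ∀ c < 13, ∀ l < 14,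
      eqm m (Nat.add (nth 0 (nth [] T c) l) (xge (nth [] GGn c) v l)) 0 = true) :
    rd m Cgm *ᵥ xv m v = sv (fun c k i => ((cgv T c k i : ℕ) : ZMod m)) := by
  ext u
  obtain ⟨c, k, i⟩ := u
  by_cases hm : Msk (c, k, i)
  · rw [sv, if_pos hm]
    have hl : levg c k i < 14 := by
      rw [levg_eq (c, k, i)]; split_ifs; exacts [i.isLt, k.isLt]
    have h1 := eqm_cast (h c.val c.isLt (levg c k i) hl)
    simp only [Nat.add_eq, Nat.cast_add, Nat.cast_zero] at h1
    have h2 := row_mulVec (m := m) [] (nth [] GGn c.val) v (levg c k i)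
      (fun b => - Gam coreG c b) (fun b => GG_ok c b)
    have h3 : ((xge [] v (levg c k i) : ℕ) : ZMod m) = 0 := by
      rw [xge_cast]
      refine Finset.sum_eq_zero fun q _ => ?_
      rw [nth_nil]; simp
    rw [h3, zero_sub] at h2
    have h4 : (rd m Cgm *ᵥ xv m v) (c, k, i) = ∑ q : X,
        ((if levg c k i ≤ q.2.val then - Gam coreG c q.1 else 0 : ℤ) : ZMod m) * xv m v q := by
      simp only [Matrix.mulVec, dotProduct, Matrix.map_apply]
      refine Finset.sum_congr rfl fun q _ => ?_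
      congr 1
      have h5 : Cgm (c, k, i) q = if levg c k i ≤ q.2.val then - Gam coreG c q.1 else 0 := by
        have h6 := levg_eq (c, k, i)
        simp only at h6
        rw [h6]
        simp only [Cgm]
        by_cases h7 : c.val < 7
        · simp only [if_pos h7, hm, true_and, Fin.le_def]
        · simp only [if_neg h7, hm, true_and, Fin.le_def]
      rw [h5]; rfl
    rw [h4, h2]
    simp only [cgv]
    linear_combination -h1
  · rw [sv, if_neg hm]
    simp only [Matrix.mulVec, dotProduct, Matrix.map_apply]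
    refine Finset.sum_eq_zero fun q _ => ?_
    have h5 : Cgm (c, k, i) q = 0 := by
      simp only [Cgm]; exact if_neg fun h => hm h.1
    rw [h5]; simp

theorem cf_mulVec (T : List (List ℕ)) (v : List ℕ)
    (h : ∀ c < 13, ∀ l < 14,
      eqm m (Nat.add (nth 0 (nth [] T c) l) (xge (nth [] GFn c) v l))
        (xge (nth [] GFp c) v l) = true) :
    rd m Cfm *ᵥ xv m v = sv (fun c k _ => ((cfv T c k : ℕ) : ZMod m)) := by
  ext u
  obtain ⟨c, k, i⟩ := u
  by_cases hm : Msk (c, k, i)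
  · rw [sv, if_pos hm]
    have h1 := eqm_cast (h c.val c.isLt k.val k.isLt)
    simp only [Nat.add_eq, Nat.cast_add] at h1
    have h2 := row_mulVec (m := m) (nth [] GFp c.val) (nth [] GFn c.val) v k.val
      (fun b => - Gam coreF c b) (fun b => GF_ok c b)
    have h4 : (rd m Cfm *ᵥ xv m v) (c, k, i) = ∑ q : X,
        ((if k.val ≤ q.2.val then - Gam coreF c q.1 else 0 : ℤ) : ZMod m) * xv m v q := by
      simp only [Matrix.mulVec, dotProduct, Matrix.map_apply]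
      refine Finset.sum_congr rfl fun q _ => ?_
      congr 1
      have h5 : Cfm (c, k, i) q = if k.val ≤ q.2.val then - Gam coreF c q.1 else 0 := by
        simp only [Cfm, hm, true_and, Fin.le_def]
      rw [h5]; rfl
    rw [h4, h2]
    simp only [cfv]
    linear_combination -h1
  · rw [sv, if_neg hm]
    simp only [Matrix.mulVec, dotProduct, Matrix.map_apply]
    refine Finset.sum_eq_zero fun q _ => ?_
    have h5 : Cfm (c, k, i) q = 0 := by
      simp only [Cfm]; exact if_neg fun h => hm h.1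
    rw [h5]; simp

/-- a hub matrix `[k ≤ l] (P - Q)`. -/
theorem hub_mulVec (A : Matrix X X ℤ) (D : Fin 6 → Fin 6 → ℤ)
    (hA : ∀ p q, A p q = if p.2 ≤ q.2 then D p.1 q.1 else 0) (P Q v : List ℕ) (p : X)
    (hD : ∀ b : Fin 6, D p.1 b = ((nth 0 P b.val : ℕ) : ℤ) - ((nth 0 Q b.val : ℕ) : ℤ)) :
    (rd m A *ᵥ xv m v) p =
      ((xge P v p.2.val : ℕ) : ZMod m) - ((xge Q v p.2.val : ℕ) : ZMod m) := by
  rw [← row_mulVec (m := m) P Q v p.2.val (fun b => D p.1 b) hD]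
  simp only [Matrix.mulVec, dotProduct, Matrix.map_apply]
  refine Finset.sum_congr rfl fun q _ => ?_
  rw [hA]
  rfl

theorem xge_nil (v : List ℕ) (k : ℕ) : ((xge [] v k : ℕ) : ZMod m) = 0 := by
  rw [xge_cast]
  refine Finset.sum_eq_zero fun q _ => ?_
  rw [nth_nil]; simp

/-- `LXᵀ *ᵥ`. -/
theorem hubT_mulVec (v : List ℕ) (p : X) :
    (rd m LXmᵀ *ᵥ xv m v) p = ((xle (nth [] LPc p.1.val) v p.2.val : ℕ) : ZMod m) := by
  rw [xle_cast]
  simp only [Matrix.mulVec, dotProduct, Matrix.map_apply, Matrix.transpose_apply, LXm]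
  refine Finset.sum_congr rfl fun q _ => ?_
  simp only [Fin.le_def]
  split_ifs
  · rw [LPc_ok]; simp
  · simp

theorem nM_apply (b o : ℕ) (rows : List (List (List ℕ))) (l : List ℕ) (hl : len l = 3) :
    rd m (nM b o rows) *ᵥ fv m l =
      sv (fun c k i => ((ddb b l (val rows c k i) : ℕ) : ZMod m) - o * ((ls3 l : ℕ) : ZMod m)) := by
  ext u
  simp only [Matrix.mulVec, dotProduct, Matrix.map_apply, nM, sv]
  by_cases hm : Msk u
  · simp only [if_pos hm]
    rw [ddb_3 b l hl, ls3_cast, Finset.mul_sum, ← Finset.sum_sub_distrib]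
    refine Finset.sum_congr rfl fun q _ => ?_
    simp only [map_sub, map_natCast]
    ring
  · simp only [if_neg hm, map_zero, zero_mul, Finset.sum_const_zero]

theorem powers (B : ℕ) (v : List ℕ) (h0 : eqm m (nth 0 v 0) 1 = true)
    (h : ∀ x < 83, eqm m (nth 0 v (Nat.succ x)) (Nat.mul B (nth 0 v x)) = true) :
    xv m v = bet m B := by
  have h1 : ∀ x < 84, ((nth 0 v x : ℕ) : ZMod m) = (B : ZMod m) ^ x := by
    intro x
    induction x with
    | zero => intro _; rw [eqm_cast h0, pow_zero, Nat.cast_one]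
    | succ x ih =>
      intro hx
      have h2 := eqm_cast (h x (by omega))
      have h3 : ((Nat.mul B (nth 0 v x) : ℕ) : ZMod m) = (B : ZMod m) * ((nth 0 v x : ℕ) : ZMod m) :=
        Nat.cast_mul _ _
      rw [h3, ih (by omega)] at h2
      rw [pow_succ', ← h2]
  ext q
  have hq : q.2.val + 14 * q.1.val < 84 := by
    have := q.1.isLt; have := q.2.isLt; omega
  exact h1 _ hq

end

end Crest.Agent.R267.LightF_667
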