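import Crest.Agent.R267.LightB_667

/-!
# Light certificate: reindexing to the official matrices (row 267, P3.4)
-/

set_option autoImplicit false

namespace Crest.Agent.R267.LightR_667

open Matrix NL_330 LightA_667 LightB_667

/-! ### letters and components -/

def cY (a : Fin 6) : Fin 13 := ⟨a.val + 1, by omega⟩

def cZ (a : Fin 6) : Fin 13 := ⟨a.val + 7, by omega⟩

def LPf (a b : Fin 6) : ℤ := LP a b

theorem lam00 : Lam 0 0 = 1 := by decide

theorem lam0Y : ∀ a : Fin 6, Lam 0 (cY a) = 0 := by decide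

theorem lam0Z : ∀ a : Fin 6, Lam 0 (cZ a) = 0 := by decide

theorem lamY0 : ∀ a : Fin 6, Lam (cY a) 0 = 0 := by decide

theorem lamZ0 : ∀ a : Fin 6, Lam (cZ a) 0 = 0 := by decide

theorem lamYZ : ∀ a b : Fin 6, Lam (cY a) (cZ b) = 0 := by decide

theorem lamZY : ∀ a b : Fin 6, Lam (cZ a) (cY b) = 0 := by decide

theorem lamYY' : ∀ a b : Fin 6, Lam (cY a) (cY b) = LPf a b := by decide

theorem lamZZ' : ∀ a b : Fin 6, Lam (cZ a) (cZ b) = LPf a b := by decide

theorem lamYY (a b : Fin 6) : Lam (cY a) (cY b) = LP a b := lamYY' a b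

theorem lamZZ (a b : Fin 6) : Lam (cZ a) (cZ b) = LP a b := lamZZ' a b

theorem gam0 (C : Core) (b : Fin 6) : Gam C 0 b = ∑ e, LP b e * C.g e := by
  simp [Gam]

theorem clY : ∀ a : Fin 6, cl (cY a) = a := by decide

theorem clZ : ∀ a : Fin 6, cl (cZ a) = a := by decide

theorem gamY (C : Core) (a b : Fin 6) : Gam C (cY a) b = LP a b := by
  unfold Gam
  rw [if_neg (by simp [cY]), clY]

theorem gamZ (C : Core) (a b : Fin 6) : Gam C (cZ a) b = LP a b := by
  unfold Gam
  rw [if_neg (by simp [cZ]), clZ]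

theorem wid_Y (a : Fin 6) (k : ℕ) : wid (cY a).val k = wid 1 k := by
  have : a.val + 1 < 7 := by omega
  simp [wid, cY, this]

theorem wid_Z (a : Fin 6) (k : ℕ) : wid (cZ a).val k = 14 := by
  have : ¬ a.val + 7 < 7 := by omega
  simp [wid, cZ, this]

/-! ### bounds of the staircases -/

theorem leFp : ∀ k : Fin 14, at1 NLb_330.rowsF.p (k.val + 2) ≤ 15 := by decide

theorem leFq : ∀ k : Fin 14, at1 NLb_330.rowsF.q (k.val + 2) ≤ 15 := by decide

theorem leGp : ∀ k : Fin 14, at1 NLb_330.rowsG.p (k.val + 2) ≤ 15 := by decide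

theorem leGq : ∀ k : Fin 14, at1 NLb_330.rowsG.q (k.val + 2) ≤ 15 := by decide

theorem lv_add {k : ℕ} (h1 : 2 ≤ k) (h2 : k ≤ 15) : (lv k).val + 2 = k := by
  rw [lv_val h1 h2]; omega

theorem lv_le {k l : ℕ} (h1 : 2 ≤ k) (h2 : k ≤ 15) (h3 : 2 ≤ l) (h4 : l ≤ 15) :
    lv k ≤ lv l ↔ k ≤ l := by
  rw [Fin.le_def, lv_val h1 h2, lv_val h3 h4]; omega

theorem li_le {k l : ℕ} (h1 : 1 ≤ k) (h2 : k ≤ 14) (h3 : 1 ≤ l) (h4 : l ≤ 14) :
    li k ≤ li l ↔ k ≤ l := by
  rw [Fin.le_def, li_val h1 h2, li_val h3 h4]; omega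

/-! ### the index sets -/

theorem memF_X {k i : ℕ} (h : Mem NLb_330.rowsF 15 (k, .X i)) :
    1 ≤ i ∧ i ≤ 14 ∧ Msk (0, lv k, li i) := by
  obtain ⟨h1, h2, h3, h4⟩ := h
  simp only at h1 h2 h3 h4
  have e := lv_add h1 h2
  have s := stF0 (lv k)
  have b := leFp (lv k)
  rw [e] at s b
  refine ⟨h3, by omega, ?_⟩
  show (li i).val < wid 0 (lv k).val
  rw [li_val h3 (by omega)]
  omega

theorem memF_Y {k i : ℕ} {a : Fin 6} (h : Mem NLb_330.rowsF 15 (k, .Y a i)) :
    1 ≤ i ∧ i ≤ 14 ∧ Msk (cY a, lv k, li i) := by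
  obtain ⟨h1, h2, h3, h4⟩ := h
  simp only at h1 h2 h3 h4
  have e := lv_add h1 h2
  have s := stF1 (lv k)
  have b := leFq (lv k)
  rw [e] at s b
  refine ⟨h3, by omega, ?_⟩
  show (li i).val < wid (cY a).val (lv k).val
  rw [li_val h3 (by omega), wid_Y]
  omega

theorem memF_Z {k i : ℕ} {a : Fin 6} (h : Mem NLb_330.rowsF 15 (k, .Z a i)) :
    1 ≤ i ∧ i ≤ 14 ∧ Msk (cZ a, lv k, li i) := by
  obtain ⟨h1, h2, h3, h4⟩ := h
  simp only at h1 h2 h3 h4
  have e := lv_add h1 h2
  have s := stF2 (lv k)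
  rw [e] at s
  refine ⟨h3, by omega, ?_⟩
  show (li i).val < wid (cZ a).val (lv k).val
  rw [li_val h3 (by omega), wid_Z]
  omega

theorem memG_X {k i : ℕ} (h : Mem NLb_330.rowsG 15 (k, .X i)) :
    1 ≤ i ∧ i ≤ 14 ∧ Msk (0, li i, lv k) := by
  obtain ⟨h1, h2, h3, h4⟩ := h
  simp only at h1 h2 h3 h4
  have e := lv_add h1 h2
  have b := leGp (lv k)
  rw [e] at b
  have s := stG0 (li i) (lv k)
  rw [e, li_val h3 (by omega)] at s
  refine ⟨h3, by omega, ?_⟩
  show (lv k).val < wid 0 (li i).val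
  rw [li_val h3 (by omega)]
  exact s.2 (by omega)

theorem memG_Y {k i : ℕ} {a : Fin 6} (h : Mem NLb_330.rowsG 15 (k, .Y a i)) :
    1 ≤ i ∧ i ≤ 14 ∧ Msk (cY a, li i, lv k) := by
  obtain ⟨h1, h2, h3, h4⟩ := h
  simp only at h1 h2 h3 h4
  have e := lv_add h1 h2
  have b := leGq (lv k)
  rw [e] at b
  have s := stG1 (li i) (lv k)
  rw [e, li_val h3 (by omega)] at s
  refine ⟨h3, by omega, ?_⟩
  show (lv k).val < wid (cY a).val (li i).val
  rw [li_val h3 (by omega), wid_Y]
  exact s.2 (by omega)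

theorem memG_Z {k i : ℕ} {a : Fin 6} (h : Mem NLb_330.rowsG 15 (k, .Z a i)) :
    1 ≤ i ∧ i ≤ 14 ∧ Msk (cZ a, lv k, li i) := by
  obtain ⟨h1, h2, h3, h4⟩ := h
  simp only at h1 h2 h3 h4
  have e := lv_add h1 h2
  have s := stG2 (lv k)
  rw [e] at s
  refine ⟨h3, by omega, ?_⟩
  show (li i).val < wid (cZ a).val (lv k).val
  rw [li_val h3 (by omega), wid_Z]
  omega

/-! ### entries of `f` -/

theorem ent_f (x y : ℕ × Lt) (hx : Mem NLb_330.rowsF 15 x) (hy : Mem NLb_330.rowsF 15 y) :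
    ent coreF x y = Bf (jf x) (jf y) := by
  obtain ⟨k, u⟩ := x
  obtain ⟨l, v⟩ := y
  have hk : 2 ≤ k ∧ k ≤ 15 := ⟨hx.1, hx.2.1⟩
  have hl : 2 ≤ l ∧ l ≤ 15 := ⟨hy.1, hy.2.1⟩
  have hkl := lv_le hk.1 hk.2 hl.1 hl.2
  cases u with
  | S a =>
    cases v with
    | S b => simp [ent, L0, Bf, blk, jf]
    | O b =>
      show (if k ≤ l then - LP a b else 0) = - (LXm (a, lv k) (b, lv l))
      simp only [LXm, hkl]; split_ifs <;> simp
    | X j => simp [ent, L0, Bf, blk, jf]
    | Y b j => simp [ent, L0, Bf, blk, jf]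
    | Z b j => simp [ent, L0, Bf, blk, jf]
  | O a =>
    cases v with
    | S b =>
      show (if k ≤ l then LP a b else 0) = LXm (a, lv k) (b, lv l)
      simp only [LXm, hkl]
    | O b =>
      show (if k ≤ l then coreF.D a b else 0) = Dm coreF (a, lv k) (b, lv l)
      simp only [Dm, hkl]
    | X j => simp [ent, L0, Bf, blk, jf]
    | Y b j => simp [ent, L0, Bf, blk, jf]
    | Z b j => simp [ent, L0, Bf, blk, jf]
  | X i =>
    obtain ⟨hi1, hi2, hmi⟩ := memF_X hx
    cases v with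
    | S b => simp [ent, L0, Bf, blk, jf]
    | O b =>
      show (if k ≤ l then - ∑ c, LP b c * coreF.g c else 0) = Cfm (0, lv k, li i) (b, lv l)
      simp only [Cfm, hmi, true_and, hkl, gam0]
    | X j =>
      obtain ⟨hj1, hj2, hmj⟩ := memF_X hy
      show (if k ≤ l then (if i ≤ j then 1 else 0) else 0) = LVm (0, lv k, li i) (0, lv l, li j)
      simp only [LVm, hmi, hmj, true_and, hkl, li_le hi1 hi2 hj1 hj2, lam00]
      split_ifs <;> simp_all
    | Y b j =>
      show (if k ≤ l then 0 else 0) = LVm (0, lv k, li i) (cY b, lv l, li j)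
      simp only [LVm, lam0Y, ite_self]
    | Z b j =>
      show (if k ≤ l then 0 else 0) = LVm (0, lv k, li i) (cZ b, lv l, li j)
      simp only [LVm, lam0Z, ite_self]
  | Y a i =>
    obtain ⟨hi1, hi2, hmi⟩ := memF_Y hx
    cases v with
    | S b => simp [ent, L0, Bf, blk, jf]
    | O b =>
      show (if k ≤ l then - LP a b else 0) = Cfm (cY a, lv k, li i) (b, lv l)
      simp only [Cfm, hmi, true_and, hkl, gamY]
    | X j =>
      show (if k ≤ l then 0 else 0) = LVm (cY a, lv k, li i) (0, lv l, li j)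
      simp only [LVm, lamY0, ite_self]
    | Y b j =>
      obtain ⟨hj1, hj2, hmj⟩ := memF_Y hy
      show (if k ≤ l then (if i ≤ j then LP a b else 0) else 0) =
        LVm (cY a, lv k, li i) (cY b, lv l, li j)
      simp only [LVm, hmi, hmj, true_and, hkl, li_le hi1 hi2 hj1 hj2, lamYY]
      split_ifs <;> simp_all
    | Z b j =>
      show (if k ≤ l then 0 else 0) = LVm (cY a, lv k, li i) (cZ b, lv l, li j)
      simp only [LVm, lamYZ, ite_self]
  | Z a i =>
    obtain ⟨hi1, hi2, hmi⟩ := memF_Z hx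
    cases v with
    | S b => simp [ent, L0, Bf, blk, jf]
    | O b =>
      show (if k ≤ l then - LP a b else 0) = Cfm (cZ a, lv k, li i) (b, lv l)
      simp only [Cfm, hmi, true_and, hkl, gamZ]
    | X j =>
      show (if k ≤ l then 0 else 0) = LVm (cZ a, lv k, li i) (0, lv l, li j)
      simp only [LVm, lamZ0, ite_self]
    | Y b j =>
      show (if k ≤ l then 0 else 0) = LVm (cZ a, lv k, li i) (cY b, lv l, li j)
      simp only [LVm, lamZY, ite_self]
    | Z b j =>
      obtain ⟨hj1, hj2, hmj⟩ := memF_Z hy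
      show (if k ≤ l then (if i ≤ j then LP a b else 0) else 0) =
        LVm (cZ a, lv k, li i) (cZ b, lv l, li j)
      simp only [LVm, hmi, hmj, true_and, hkl, li_le hi1 hi2 hj1 hj2, lamZZ]
      split_ifs <;> simp_all

/-! ### entries of `g` -/

theorem ent_g (x y : ℕ × Lt) (hx : Mem NLb_330.rowsG 15 x) (hy : Mem NLb_330.rowsG 15 y) :
    ent coreG x y = Bg (jg x) (jg y) := by
  obtain ⟨k, u⟩ := x
  obtain ⟨l, v⟩ := y
  have hk : 2 ≤ k ∧ k ≤ 15 := ⟨hx.1, hx.2.1⟩
  have hl : 2 ≤ l ∧ l ≤ 15 := ⟨hy.1, hy.2.1⟩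
  have hkl := lv_le hk.1 hk.2 hl.1 hl.2
  have hY : ∀ a : Fin 6, (cY a).val < 7 := fun a => by
    have := a.isLt; simp only [cY]; omega
  have hZ : ∀ a : Fin 6, ¬ (cZ a).val < 7 := fun a => by simp only [cZ]; omega
  have h00 : (0 : Fin 13).val < 7 := by decide
  cases u with
  | S a =>
    cases v with
    | S b => simp [ent, L0, Bg, blk, jg]
    | O b =>
      show (if k ≤ l then - LP a b else 0) = - (LXm (a, lv k) (b, lv l))
      simp only [LXm, hkl]; split_ifs <;> simp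
    | X j => simp [ent, L0, Bg, blk, jg]
    | Y b j => simp [ent, L0, Bg, blk, jg]
    | Z b j => simp [ent, L0, Bg, blk, jg]
  | O a =>
    cases v with
    | S b =>
      show (if k ≤ l then LP a b else 0) = LXm (a, lv k) (b, lv l)
      simp only [LXm, hkl]
    | O b =>
      show (if k ≤ l then coreG.D a b else 0) = Dm coreG (a, lv k) (b, lv l)
      simp only [Dm, hkl]
    | X j => simp [ent, L0, Bg, blk, jg]
    | Y b j => simp [ent, L0, Bg, blk, jg]
    | Z b j => simp [ent, L0, Bg, blk, jg]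
  | X i =>
    obtain ⟨hi1, hi2, hmi⟩ := memG_X hx
    cases v with
    | S b => simp [ent, L0, Bg, blk, jg]
    | O b =>
      show (if k ≤ l then - ∑ c, LP b c * coreG.g c else 0) = Cgm (0, li i, lv k) (b, lv l)
      simp only [Cgm, hmi, true_and, if_pos h00, hkl, gam0]
    | X j =>
      obtain ⟨hj1, hj2, hmj⟩ := memG_X hy
      show (if k ≤ l then (if i ≤ j then 1 else 0) else 0) = LVm (0, li i, lv k) (0, li j, lv l)
      simp only [LVm, hmi, hmj, true_and, hkl, li_le hi1 hi2 hj1 hj2, lam00]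
      split_ifs <;> simp_all
    | Y b j =>
      show (if k ≤ l then 0 else 0) = LVm (0, li i, lv k) (cY b, li j, lv l)
      simp only [LVm, lam0Y, ite_self]
    | Z b j =>
      show (if k ≤ l then 0 else 0) = LVm (0, li i, lv k) (cZ b, lv l, li j)
      simp only [LVm, lam0Z, ite_self]
  | Y a i =>
    obtain ⟨hi1, hi2, hmi⟩ := memG_Y hx
    cases v with
    | S b => simp [ent, L0, Bg, blk, jg]
    | O b =>
      show (if k ≤ l then - LP a b else 0) = Cgm (cY a, li i, lv k) (b, lv l)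
      simp only [Cgm, hmi, true_and, if_pos (hY a), hkl, gamY]
    | X j =>
      show (if k ≤ l then 0 else 0) = LVm (cY a, li i, lv k) (0, li j, lv l)
      simp only [LVm, lamY0, ite_self]
    | Y b j =>
      obtain ⟨hj1, hj2, hmj⟩ := memG_Y hy
      show (if k ≤ l then (if i ≤ j then LP a b else 0) else 0) =
        LVm (cY a, li i, lv k) (cY b, li j, lv l)
      simp only [LVm, hmi, hmj, true_and, hkl, li_le hi1 hi2 hj1 hj2, lamYY]
      split_ifs <;> simp_all
    | Z b j =>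
      show (if k ≤ l then 0 else 0) = LVm (cY a, li i, lv k) (cZ b, lv l, li j)
      simp only [LVm, lamYZ, ite_self]
  | Z a i =>
    obtain ⟨hi1, hi2, hmi⟩ := memG_Z hx
    cases v with
    | S b => simp [ent, L0, Bg, blk, jg]
    | O b =>
      show (if k ≤ l then - LP a b else 0) = Cgm (cZ a, lv k, li i) (b, lv l)
      simp only [Cgm, hmi, true_and, if_neg (hZ a), hkl, gamZ]
    | X j =>
      show (if k ≤ l then 0 else 0) = LVm (cZ a, lv k, li i) (0, li j, lv l)
      simp only [LVm, lamZ0, ite_self]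
    | Y b j =>
      show (if k ≤ l then 0 else 0) = LVm (cZ a, lv k, li i) (cY b, li j, lv l)
      simp only [LVm, lamZY, ite_self]
    | Z b j =>
      obtain ⟨hj1, hj2, hmj⟩ := memG_Z hy
      show (if k ≤ l then (if i ≤ j then LP a b else 0) else 0) =
        LVm (cZ a, lv k, li i) (cZ b, lv l, li j)
      simp only [LVm, hmi, hmj, true_and, hkl, li_le hi1 hi2 hj1 hj2, lamZZ]
      split_ifs <;> simp_all

/-! ### injectivity and range for `g` -/

theorem lv_inj {k l : ℕ} (h1 : 2 ≤ k) (h2 : k ≤ 15) (h3 : 2 ≤ l) (h4 : l ≤ 15)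
    (h : lv k = lv l) : k = l := by
  have := congrArg Fin.val h
  rw [lv_val h1 h2, lv_val h3 h4] at this
  omega

theorem li_inj {k l : ℕ} (h1 : 1 ≤ k) (h2 : k ≤ 14) (h3 : 1 ≤ l) (h4 : l ≤ 14)
    (h : li k = li l) : k = l := by
  have := congrArg Fin.val h
  rw [li_val h1 h2, li_val h3 h4] at this
  omega

/-- the letter of a cell of `g`. -/
def back : (X ⊕ X) ⊕ V → ℕ × Lt
  | .inl (.inl (a, k)) => (k.val + 2, .O a)
  | .inl (.inr (a, k)) => (k.val + 2, .S a)
  | .inr (c, k, i) =>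
    if c.val = 0 then (i.val + 2, .X (k.val + 1))
    else if c.val < 7 then (i.val + 2, .Y (cl c) (k.val + 1))
    else (k.val + 2, .Z (cl c) (i.val + 1))

theorem back_jg (x : ℕ × Lt) (hx : Mem NLb_330.rowsG 15 x) : back (jg x) = x := by
  obtain ⟨k, u⟩ := x
  have hk : 2 ≤ k ∧ k ≤ 15 := ⟨hx.1, hx.2.1⟩
  have hv := lv_add hk.1 hk.2
  cases u with
  | S a => show ((lv k).val + 2, Lt.S a) = _; rw [hv]
  | O a => show ((lv k).val + 2, Lt.O a) = _; rw [hv]
  | X i =>
    obtain ⟨hi1, hi2, -⟩ := memG_X hx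
    show ((lv k).val + 2, Lt.X ((li i).val + 1)) = _
    rw [hv, li_val hi1 hi2, Nat.sub_add_cancel hi1]
  | Y a i =>
    obtain ⟨hi1, hi2, -⟩ := memG_Y hx
    have h0 : ¬ (cY a).val = 0 := by simp [cY]
    have h1 : (cY a).val < 7 := by have := a.isLt; simp only [cY]; omega
    have e : jg (k, .Y a i) = .inr (cY a, li i, lv k) := rfl
    rw [e]
    simp only [back]
    rw [if_neg h0, if_pos h1, hv, clY, li_val hi1 hi2, Nat.sub_add_cancel hi1]
  | Z a i =>
    obtain ⟨hi1, hi2, -⟩ := memG_Z hx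
    have h0 : ¬ (cZ a).val = 0 := by simp [cZ]
    have h1 : ¬ (cZ a).val < 7 := by simp only [cZ]; omega
    have e : jg (k, .Z a i) = .inr (cZ a, lv k, li i) := rfl
    rw [e]
    simp only [back]
    rw [if_neg h0, if_neg h1, hv, clZ, li_val hi1 hi2, Nat.sub_add_cancel hi1]

theorem lv_of (k : Fin 14) : lv (k.val + 2) = k := by
  ext
  rw [lv_val (by omega) (by omega)]
  omega

theorem li_of (k : Fin 14) : li (k.val + 1) = k := by
  ext
  rw [li_val (by omega) (by omega)]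
  omega

theorem cl_Y (c : Fin 13) (h0 : ¬ c.val = 0) (h1 : c.val < 7) : cY (cl c) = c := by
  ext; simp only [cY, cl]; omega

theorem cl_Z (c : Fin 13) (h1 : ¬ c.val < 7) : cZ (cl c) = c := by
  ext; simp only [cZ, cl]; omega

/-- hub letters and cells with `Msk` are in the range. -/
theorem jg_back_hub (q : X ⊕ X) :
    Mem NLb_330.rowsG 15 (back (.inl q)) ∧ jg (back (.inl q)) = .inl q := by
  rcases q with ⟨a, k⟩ | ⟨a, k⟩
  · refine ⟨⟨by simp [back], by simp only [back]; omega, trivial⟩, ?_⟩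
    show Sum.inl (Sum.inl (a, lv (k.val + 2))) = _
    rw [lv_of]
  · refine ⟨⟨by simp [back], by simp only [back]; omega, trivial⟩, ?_⟩
    show Sum.inl (Sum.inr (a, lv (k.val + 2))) = _
    rw [lv_of]

theorem jg_back_cell (u : V) (h : Msk u) :
    Mem NLb_330.rowsG 15 (back (.inr u)) ∧ jg (back (.inr u)) = .inr u := by
  obtain ⟨c, k, i⟩ := u
  have hm : i.val < wid c.val k.val := h
  by_cases h0 : c.val = 0
  · have e : back (.inr (c, k, i)) = (i.val + 2, .X (k.val + 1)) := by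
      simp only [back]; rw [if_pos h0]
    rw [e]
    rw [h0] at hm
    refine ⟨⟨by simp, by simp only; omega, by simp, (stG0 k i).1 hm⟩, ?_⟩
    show Sum.inr (0, li (k.val + 1), lv (i.val + 2)) = _
    rw [li_of, lv_of]
    have : (0 : Fin 13) = c := by ext; exact h0.symm
    rw [this]
  · by_cases h1 : c.val < 7
    · have e : back (.inr (c, k, i)) = (i.val + 2, .Y (cl c) (k.val + 1)) := by
        simp only [back]; rw [if_neg h0, if_pos h1]
      rw [e]
      have hw : wid c.val k.val = wid 1 k.val := by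
        rw [← cl_Y c h0 h1, wid_Y]
      rw [hw] at hm
      refine ⟨⟨by simp, by simp only; omega, by simp, (stG1 k i).1 hm⟩, ?_⟩
      show Sum.inr (cY (cl c), li (k.val + 1), lv (i.val + 2)) = _
      rw [li_of, lv_of, cl_Y c h0 h1]
    · have e : back (.inr (c, k, i)) = (k.val + 2, .Z (cl c) (i.val + 1)) := by
        simp only [back]; rw [if_neg h0, if_neg h1]
      rw [e]
      refine ⟨⟨by simp, by simp only; omega, by simp, ?_⟩, ?_⟩
      · show i.val + 1 < at1 NLb_330.rowsG.r (k.val + 2)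
        rw [← stG2 k]; omega
      · show Sum.inr (cZ (cl c), lv (k.val + 2), li (i.val + 1)) = _
        rw [li_of, lv_of, cl_Z c h1]

theorem supp_g (z : (X ⊕ X) ⊕ V) (hz : ∀ x, Mem NLb_330.rowsG 15 x → jg x ≠ z)
    (z' : (X ⊕ X) ⊕ V) : Bg z z' = 0 ∧ Bg z' z = 0 := by
  rcases z with q | u
  · exact absurd (jg_back_hub q).2 (hz _ (jg_back_hub q).1)
  · have hm : ¬ Msk u := fun h => hz _ (jg_back_cell u h).1 (jg_back_cell u h).2
    have h1 : ∀ w, LVm u w = 0 := fun w => if_neg fun h => hm h.1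
    have h2 : ∀ w, LVm w u = 0 := fun w => if_neg fun h => hm h.2.1
    have h3 : ∀ p, Cgm u p = 0 := fun p => if_neg fun h => hm h.1
    rcases z' with (p | p) | w
    · exact ⟨h3 p, rfl⟩
    · exact ⟨rfl, rfl⟩
    · exact ⟨h1 w, h2 w⟩

/-! ### the theorem -/

theorem mem_get (R : Rows) (d n : ℕ) (h : (idx R d).length = n) (i : Fin n) :
    Mem R d ((idx R d).get (i.cast h.symm)) :=
  (mem_idx R d _).1 (List.get_mem _ _)

theorem get_inj (R : Rows) (d n : ℕ) (h : (idx R d).length = n) {i j : Fin n}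
    (hij : (idx R d).get (i.cast h.symm) = (idx R d).get (j.cast h.symm)) : i = j := by
  subst h
  exact (nodup_idx R d).injective_get hij

theorem get_surj (R : Rows) (d n : ℕ) (h : (idx R d).length = n) (x : ℕ × Lt) (hx : Mem R d x) :
    ∃ i : Fin n, (idx R d).get (i.cast h.symm) = x := by
  subst h
  exact List.get_of_mem ((mem_idx _ _ _).2 hx)

theorem cert_of (h : ∃ U : Matrix ((X ⊕ X) ⊕ V) ((X ⊕ X) ⊕ V) ℤ, Uᵀ * Bg * U = Bf) :
    ∃ P : Matrix (Fin 2049) (Fin 2049) ℤ, Pᵀ * NLb_330.pAg * P = NLb_330.pAf := by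
  obtain ⟨U, hU⟩ := h
  let eg : Fin 2049 → ℕ × Lt := fun i =>
    (idx NLb_330.rowsG 15).get (i.cast NLb_330.length_idxG.symm)
  let ef : Fin 2049 → ℕ × Lt := fun i =>
    (idx NLb_330.rowsF 15).get (i.cast NLb_330.length_idxF.symm)
  have hg : ∀ i, Mem NLb_330.rowsG 15 (eg i) := fun i => mem_get _ _ _ NLb_330.length_idxG i
  have hf : ∀ i, Mem NLb_330.rowsF 15 (ef i) := fun i => mem_get _ _ _ NLb_330.length_idxF i
  have hsurj : ∀ x, Mem NLb_330.rowsG 15 x → ∃ i, eg i = x :=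
    get_surj _ _ _ NLb_330.length_idxG
  have hinj : Function.Injective (fun i => jg (eg i)) := by
    intro i j hij
    have h1 : eg i = eg j := by
      rw [← back_jg _ (hg i), ← back_jg _ (hg j)]
      exact congrArg back hij
    exact get_inj _ _ _ NLb_330.length_idxG h1
  have hs : ∀ z, z ∉ Set.range (fun i => jg (eg i)) → ∀ z', Bg z z' = 0 ∧ Bg z' z = 0 := by
    intro z hz z'
    refine supp_g z (fun x hx hxz => hz ?_) z'
    obtain ⟨i, hi⟩ := hsurj x hx
    exact ⟨i, by show jg (eg i) = z; rw [hi, hxz]⟩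
  have h4 := restrict Bg Bf U (fun i => jg (eg i)) (fun i => jf (ef i)) hinj hs hU
  have eg' : Bg.submatrix (fun i => jg (eg i)) (fun i => jg (eg i)) = NLb_330.pAg := by
    ext i j
    exact (ent_g _ _ (hg i) (hg j)).symm
  have ef' : Bf.submatrix (fun i => jf (ef i)) (fun i => jf (ef i)) = NLb_330.pAf := by
    ext i j
    exact (ent_f _ _ (hf i) (hf j)).symm
  rw [eg', ef'] at h4
  exact ⟨_, h4⟩

end Crest.Agent.R267.LightR_667
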