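import Crest.Agent.R267.LightZ_667
import Crest.Agent.R267.LightR_667

/-!
# The two nested-level matrices (`μ = 2049`) are congruent over `ℤ` (row 267, P3.4)
-/

set_option autoImplicit false

namespace Crest.Agent.R267.LightFin_667

open Matrix

/-- **P3.4.** -/
theorem cert : ∃ P : Matrix (Fin 2049) (Fin 2049) ℤ, Pᵀ * NLb_330.pAg * P = NLb_330.pAf :=
  LightR_667.cert_of LightZ_667.cert

open Crest.Agent.R267.P4Defs_780 in
theorem cong : Cong ℤ NLb_330.Ag NLb_330.Af := by
  obtain ⟨P, h⟩ := cert
  exact NLb_330.cong_of_pos' P h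

end Crest.Agent.R267.LightFin_667
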