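import Crest.Agent.R267.LightF_667

/-!
# Light certificate, part G: the theorem with lists
-/

set_option autoImplicit false

namespace Crest.Agent.R267.LightG_667

open Matrix NL_330 LightA_667 LightB_667 LightC_667 LightD_667 LightK_667 LightE_667 LightF_667

abbrev NL := List (List (List ℕ))

/-! ### the checks -/

noncomputable def cells (c : ℕ) (f : ℕ → ℕ → Bool) : Bool :=
  allB 14 fun k => allB (wd c k) fun i => f k i

theorem cells_iff {c : ℕ} {f : ℕ → ℕ → Bool} (h : cells c f = true) :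
    ∀ k < 14, ∀ i < wd c k, f k i = true :=
  fun k hk => (allB_iff _ _).1 ((allB_iff _ _).1 h k hk)

noncomputable def grid (n : ℕ) (f : ℕ → ℕ → Bool) : Bool := allB n fun a => allB 14 fun k => f a k

theorem grid_iff {n : ℕ} {f : ℕ → ℕ → Bool} (h : grid n f = true) :
    ∀ a < n, ∀ k < 14, f a k = true :=
  fun k hk => (allB_iff _ _).1 ((allB_iff _ _).1 h k hk)

noncomputable def ckH (m : ℕ) (l : List ℕ) (c0 : ℕ) (rows y : NL) (c : ℕ) : Bool :=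
  cells c fun k i =>
    eqm m (Nat.add (ddb 128 l (Nat.div (val rows c k i) 65536)) c0) (val y c k i)

noncomputable def ckN (b m : ℕ) (l : List ℕ) (c0 : ℕ) (rows y : NL) (c : ℕ) : Bool :=
  cells c fun k i => eqm m (Nat.add (ddb b l (val rows c k i)) c0) (val y c k i)

noncomputable def Gf (cg : List (List ℕ)) (z : NL) (c k i : ℕ) : ℕ :=
  Nat.add (cgv cg c k i) (val z c k i)

noncomputable def Qf (cg : List (List ℕ)) (z z' : NL) (c k i : ℕ) : ℕ :=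
  Nat.add (Nat.add (cgv cg c k i) (val z c k i)) (val z' c k i)

/-- one entry of `hᵀ g`. -/
noncomputable def hx (rows : NL) (cg : List (List ℕ)) (z : NL) (x : ℕ) : ℕ :=
  sumV fun c k i =>
    Nat.mul (Nat.mod (Nat.div (Nat.div (val rows c k i) 65536) (Nat.pow 128 x)) 128) (Gf cg z c k i)

/-- one entry of `Nᵀ q`. -/
noncomputable def nx (b : ℕ) (rows : NL) (g : ℕ → ℕ → ℕ → ℕ) (j : ℕ) : ℕ :=
  sumV fun c k i => Nat.mul (Nat.mod (Nat.div (val rows c k i) (Nat.pow b j)) b) (g c k i)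

/-- one entry of `ρᵀ b₁`. -/
noncomputable def rx (rl b1 : List ℕ) (x : ℕ) : ℕ :=
  sumN 84 fun y => Nat.mul (Nat.mod (Nat.div (nth 0 rl y) (Nat.pow 2048 x)) 2048) (nth 0 b1 y)

noncomputable def ckC (m : ℕ) (cg cf : List (List ℕ)) (z z' nhr : NL) (s : List ℕ) (c : ℕ) : Bool :=
  cells c fun k i =>
    eqm m (Nat.add (Qf cg z z' c k i) (ddb 16 s (val nhr c k i)))
      (Nat.add (cfv cf c k) (Nat.mul 8 (ls3 s)))

/-- the light data. -/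
structure Dat where
  m : ℕ
  B : ℕ
  m3 : ℕ
  B3 : ℕ
  rows : NL
  p : NL
  p' : NL
  z : NL
  z' : NL
  nr : NL
  nhr : NL
  n3 : NL
  z3 : NL
  bL : List ℕ
  b1 : List ℕ
  b2 : List ℕ
  r1 : List ℕ
  rl : List ℕ
  hL : List ℕ
  t : List ℕ
  s : List ℕ
  b3 : List ℕ
  cg : List (List ℕ)
  cf : List (List ℕ)
  c0 : ℕ
  c0' : ℕ
  c3 : ℕ
  c3h : ℕ
  g1 : ℕ
  gq : ℕ
  g3 : ℕ

/-- all checks. -/
structure Dat.Ok (D : Dat) : Prop where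
  hB : 2 ^ 61 < D.B
  hm : D.B ^ 84 ≤ D.m
  hB3 : 2 ^ 28 < D.B3
  hm3 : D.B3 ^ 3 ≤ D.m3
  l1 : len D.bL = 84
  l2 : len D.b2 = 84
  l3 : len D.b3 = 3
  l4 : len D.s = 3
  k1a : eqm D.m (nth 0 D.bL 0) 1 = true
  k1b : allB 83 (fun x => eqm D.m (nth 0 D.bL (Nat.succ x)) (Nat.mul D.B (nth 0 D.bL x))) = true
  k2 : grid 6 (fun a k => eqm D.m (nth 0 D.b1 (k + 14 * a)) (xge (nth [] LPl a) D.bL k)) = true
  k3 : grid 6 (fun a k => eqm D.m (nth 0 D.b1 (k + 14 * a)) (xle (nth [] LPc a) D.b2 k)) = true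
  k4 : eqm D.m (Nat.add D.c0 (Nat.mul 64 (ls D.bL))) 0 = true
  k4' : eqm D.m (Nat.add D.c0' (Nat.mul 64 (ls D.b2))) 0 = true
  k5 : ∀ c < 13, ckH D.m D.bL D.c0 D.rows D.p c = true
  k5' : ∀ c < 13, ckH D.m D.b2 D.c0' D.rows D.p' c = true
  k6s : shp D.z = true
  k6 : ∀ c < 13, cells c (rel D.m D.p D.z c) = true
  k7 : ∀ c < 13, cells c (relT D.m D.p' D.z' c) = true
  k8 : grid 13 (fun c l => eqm D.m (Nat.add (nth 0 (nth [] D.cg c) l)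
    (xge (nth [] GGn c) D.bL l)) 0) = true
  k9 : grid 13 (fun c l => eqm D.m (Nat.add (nth 0 (nth [] D.cf c) l)
    (xge (nth [] GFn c) D.bL l)) (xge (nth [] GFp c) D.bL l)) = true
  k10 : eqm D.m D.gq (sumV (Qf D.cg D.z D.z')) = true
  k10' : ∀ j < 3, eqm D.m (nx 8 D.nr (Qf D.cg D.z D.z') j)
    (Nat.add (nth 0 D.t j) (Nat.mul 4 D.gq)) = true
  k11a : eqm D.m (Nat.add (nth 0 D.s 0) (Nat.mul 2 (nth 0 D.t 0)))
    (Nat.add (Nat.mul 3 (nth 0 D.t 1)) (Nat.mul 4 (nth 0 D.t 2))) = true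
  k11b : eqm D.m (Nat.add (nth 0 D.s 1) (Nat.add (nth 0 D.t 0) (Nat.add
    (Nat.mul 3 (nth 0 D.t 1)) (Nat.mul 3 (nth 0 D.t 2))))) 0 = true
  k11c : eqm D.m (nth 0 D.s 2) (Nat.add (nth 0 D.t 0) (Nat.add
    (Nat.mul 2 (nth 0 D.t 1)) (Nat.mul 2 (nth 0 D.t 2)))) = true
  k12 : ∀ c < 13, ckC D.m D.cg D.cf D.z D.z' D.nhr D.s c = true
  k13 : allB 84 (fun x => eqm D.m (Nat.add (nth 0 D.r1 x) (Nat.mul 1024 (ls D.bL)))
    (ddb 2048 D.bL (nth 0 D.rl x))) = true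
  k14 : eqm D.m D.g1 (sumV (Gf D.cg D.z)) = true
  k14' : ∀ x < 84, eqm D.m (nth 0 D.hL x) (hx D.rows D.cg D.z x) = true
  k15 : grid 6 (fun a k => eqm D.m
    (Nat.add (Nat.add (xge (nth [] DGp a) D.bL k) (xge (nth [] LPl a) D.r1 k))
      (Nat.add (Nat.mul 1024 (ls D.b1)) (nth 0 D.hL (k + 14 * a))))
    (Nat.add (Nat.add (xge (nth [] DGn a) D.bL k) (rx D.rl D.b1 (k + 14 * a)))
      (Nat.add (Nat.mul 64 D.g1) (xge (nth [] DFp a) D.bL k)))) = true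
  k16a : eqm D.m3 (nth 0 D.b3 0) 1 = true
  k16b : eqm D.m3 (nth 0 D.b3 1) D.B3 = true
  k16c : eqm D.m3 (nth 0 D.b3 2) (Nat.mul D.B3 D.B3) = true
  k17 : eqm D.m3 (Nat.add D.c3 (Nat.mul 4 (ls3 D.b3))) 0 = true
  k17h : eqm D.m3 (Nat.add D.c3h (Nat.mul 8 (ls3 D.b3))) 0 = true
  k18 : ∀ c < 13, ckN 8 D.m3 D.b3 D.c3 D.nr D.n3 c = true
  k18h : ∀ c < 13, ckN 16 D.m3 D.b3 D.c3h D.nhr D.z3 c = true
  k19s : shp D.z3 = true
  k19 : ∀ c < 13, cells c (rel D.m3 D.n3 D.z3 c) = true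
  k19' : ∀ c < 13, cells c (relT D.m3 D.n3 D.z3 c) = true
  k20 : eqm D.m3 D.g3 (sumV (val D.z3)) = true
  k20a : eqm D.m3 (Nat.add (nx 8 D.nr (val D.z3) 0)
    (Nat.add (nth 0 D.b3 1) (Nat.mul 4 (nth 0 D.b3 2)))) (Nat.mul 4 D.g3) = true
  k20b : eqm D.m3 (Nat.add (nx 8 D.nr (val D.z3) 1) (nth 0 D.b3 0))
    (Nat.add (Nat.mul 4 D.g3) (Nat.add (Nat.mul 16 (nth 0 D.b3 1)) (Nat.mul 3 (nth 0 D.b3 2)))) = true
  k20c : eqm D.m3 (Nat.add (nx 8 D.nr (val D.z3) 2)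
    (Nat.add (Nat.mul 4 (nth 0 D.b3 0)) (Nat.mul 18 (nth 0 D.b3 2))))
    (Nat.add (Nat.mul 4 D.g3) (Nat.mul 3 (nth 0 D.b3 1))) = true

theorem nadd_cast (m a b : ℕ) : ((Nat.add a b : ℕ) : ZMod m) = (a : ZMod m) + (b : ZMod m) :=
  Nat.cast_add a b

theorem nmul_cast (m a b : ℕ) : ((Nat.mul a b : ℕ) : ZMod m) = (a : ZMod m) * (b : ZMod m) :=
  Nat.cast_mul a b

theorem c0_of {m c0 : ℕ} {l : List ℕ} (h : eqm m (Nat.add c0 (Nat.mul 64 (ls l))) 0 = true) :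
    (c0 : ZMod m) = - (64 * ∑ q, xv m l q) := by
  have h1 := eqm_cast h
  rw [nadd_cast, nmul_cast, ls_cast, Nat.cast_zero] at h1
  push_cast at h1
  linear_combination h1

theorem c3_of {m c0 o : ℕ} {l : List ℕ} (h : eqm m (Nat.add c0 (Nat.mul o (ls3 l))) 0 = true) :
    (c0 : ZMod m) = - (o * ∑ q, fv m l q) := by
  have h1 := eqm_cast h
  rw [nadd_cast, nmul_cast, ls3_cast, Nat.cast_zero] at h1
  linear_combination h1

theorem ext3 {R : Type} {f g : Fin 3 → R} (h0 : f 0 = g 0) (h1 : f 1 = g 1) (h2 : f 2 = g 2) :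
    f = g := by
  ext j
  fin_cases j
  · exact h0
  · exact h1
  · exact h2

theorem g3_mulVec (m : ℕ) (v : Fin 3 → ZMod m) :
    (rd m G3 *ᵥ v) 0 = -v 1 - 4 * v 2 ∧ (rd m G3 *ᵥ v) 1 = -v 0 + 16 * v 1 + 3 * v 2 ∧
      (rd m G3 *ᵥ v) 2 = -4 * v 0 + 3 * v 1 - 18 * v 2 := by
  refine ⟨?_, ?_, ?_⟩ <;>
  · simp only [Matrix.mulVec, dotProduct, Fin.sum_univ_three, Matrix.map_apply, G3]
    simp
    try ring

theorem m3_mulVec (m : ℕ) (v : Fin 3 → ZMod m) :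
    (rd m M3ᵀ *ᵥ v) 0 = -2 * v 0 + 3 * v 1 + 4 * v 2 ∧
      (rd m M3ᵀ *ᵥ v) 1 = -v 0 - 3 * v 1 - 3 * v 2 ∧
      (rd m M3ᵀ *ᵥ v) 2 = v 0 + 2 * v 1 + 2 * v 2 := by
  refine ⟨?_, ?_, ?_⟩ <;>
  · simp only [Matrix.mulVec, dotProduct, Fin.sum_univ_three, Matrix.map_apply,
      Matrix.transpose_apply, M3]
    simp
    try ring

theorem eqG {D : Dat} (H : D.Ok) : rd D.m3 (nM 8 4 D.nr)ᵀ *ᵥ sv (cv D.m3 D.z3) =
    rd D.m3 G3 *ᵥ fv D.m3 D.b3 := by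
  have hg := eqm_cast H.k20
  have ha := eqm_cast H.k20a
  have hb := eqm_cast H.k20b
  have hc := eqm_cast H.k20c
  have hf : ∀ j : Fin 3, (rd D.m3 (nM 8 4 D.nr)ᵀ *ᵥ sv (cv D.m3 D.z3)) j =
      ((nx 8 D.nr (val D.z3) j.val : ℕ) : ZMod D.m3) - 4 * ((D.g3 : ℕ) : ZMod D.m3) := by
    intro j
    have h1 := nMT_mulVec (m := D.m3) 8 4 D.nr (val D.z3) j
    rw [← hg] at h1
    exact h1
  simp only [nadd_cast, nmul_cast] at ha hb hc
  push_cast at ha hb hc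
  obtain ⟨e0, e1, e2⟩ := g3_mulVec D.m3 (fv D.m3 D.b3)
  refine ext3 ?_ ?_ ?_
  · rw [hf, e0]
    show _ = -((nth 0 D.b3 1 : ℕ) : ZMod D.m3) - 4 * ((nth 0 D.b3 2 : ℕ) : ZMod D.m3)
    have h5 : (0 : Fin 3).val = 0 := rfl
    rw [h5]
    linear_combination ha
  · rw [hf, e1]
    show _ = -((nth 0 D.b3 0 : ℕ) : ZMod D.m3) + 16 * ((nth 0 D.b3 1 : ℕ) : ZMod D.m3) +
      3 * ((nth 0 D.b3 2 : ℕ) : ZMod D.m3)
    have h5 : (1 : Fin 3).val = 1 := rfl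
    rw [h5]
    linear_combination hb
  · rw [hf, e2]
    show _ = -4 * ((nth 0 D.b3 0 : ℕ) : ZMod D.m3) + 3 * ((nth 0 D.b3 1 : ℕ) : ZMod D.m3) -
      18 * ((nth 0 D.b3 2 : ℕ) : ZMod D.m3)
    have h5 : (2 : Fin 3).val = 2 := rfl
    rw [h5]
    linear_combination hc

theorem eqS {D : Dat} (H : D.Ok) : rd D.m M3ᵀ *ᵥ fv D.m D.t = fv D.m D.s := by
  have ha := eqm_cast H.k11a
  have hb := eqm_cast H.k11b
  have hc := eqm_cast H.k11c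
  simp only [nadd_cast, nmul_cast] at ha hb hc
  push_cast at ha hb hc
  obtain ⟨e0, e1, e2⟩ := m3_mulVec D.m (fv D.m D.t)
  refine ext3 ?_ ?_ ?_
  · rw [e0]
    show -2 * ((nth 0 D.t 0 : ℕ) : ZMod D.m) + 3 * ((nth 0 D.t 1 : ℕ) : ZMod D.m) +
      4 * ((nth 0 D.t 2 : ℕ) : ZMod D.m) = ((nth 0 D.s 0 : ℕ) : ZMod D.m)
    linear_combination -ha
  · rw [e1]
    show -((nth 0 D.t 0 : ℕ) : ZMod D.m) - 3 * ((nth 0 D.t 1 : ℕ) : ZMod D.m) -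
      3 * ((nth 0 D.t 2 : ℕ) : ZMod D.m) = ((nth 0 D.s 1 : ℕ) : ZMod D.m)
    linear_combination -hb
  · rw [e2]
    show ((nth 0 D.t 0 : ℕ) : ZMod D.m) + 2 * ((nth 0 D.t 1 : ℕ) : ZMod D.m) +
      2 * ((nth 0 D.t 2 : ℕ) : ZMod D.m) = ((nth 0 D.s 2 : ℕ) : ZMod D.m)
    linear_combination -hc

theorem eqT {D : Dat} (H : D.Ok) :
    rd D.m (nM 8 4 D.nr)ᵀ *ᵥ sv (fun c k i => ((Qf D.cg D.z D.z' c k i : ℕ) : ZMod D.m)) =
      fv D.m D.t := by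
  ext j
  have h1 := nMT_mulVec (m := D.m) 8 4 D.nr (Qf D.cg D.z D.z') j
  rw [← eqm_cast H.k10] at h1
  have h2 := eqm_cast (H.k10' j.val j.isLt)
  rw [nadd_cast, nmul_cast] at h2
  rw [h1]
  have h3 : ((nx 8 D.nr (Qf D.cg D.z D.z') j.val : ℕ) : ZMod D.m) =
      ((sumV fun c k i => Nat.mul (dig 8 (val D.nr c k i) j.val) (Qf D.cg D.z D.z' c k i) : ℕ) :
        ZMod D.m) := rfl
  rw [h3] at h2
  rw [h2]
  simp only [fv]
  push_cast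
  ring

theorem eqC {D : Dat} (H : D.Ok) :
    sv (fun c k i => ((Qf D.cg D.z D.z' c k i : ℕ) : ZMod D.m)) +
      rd D.m (nM 16 8 D.nhr) *ᵥ fv D.m D.s =
      sv (fun c k _ => ((cfv D.cf c k : ℕ) : ZMod D.m)) := by
  rw [nM_apply 16 8 D.nhr D.s H.l4, sv_add]
  ext ⟨c, k, i⟩
  simp only [sv]
  by_cases hm : Msk (c, k, i)
  · rw [if_pos hm, if_pos hm]
    have h1 := eqm_cast (cells_iff (H.k12 c.val c.isLt) k.val k.isLt i.val
      ((msk_iff c k i).1 hm))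
    rw [nadd_cast, nadd_cast, nmul_cast] at h1
    push_cast at h1 ⊢
    linear_combination h1
  · rw [if_neg hm, if_neg hm]

theorem eqR {D : Dat} (H : D.Ok) : rd D.m (rM D.rl) *ᵥ xv D.m D.bL = xv D.m D.r1 := by
  ext q
  rw [rM_mulVec D.rl D.bL H.l1, ← ls_cast]
  have hq : q.2.val + 14 * q.1.val < 84 := by
    have := q.1.isLt; have := q.2.isLt; omega
  have h1 := eqm_cast ((allB_iff _ _).1 H.k13 _ hq)
  rw [nadd_cast, nmul_cast] at h1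
  simp only [xv]
  push_cast at h1
  linear_combination -h1

theorem eqD {D : Dat} (H : D.Ok) :
    rd D.m (Dm coreG) *ᵥ xv D.m D.bL + rd D.m LXm *ᵥ xv D.m D.r1 -
      rd D.m (rM D.rl)ᵀ *ᵥ xv D.m D.b1 +
      rd D.m (hM D.rows)ᵀ *ᵥ sv (fun c k i => ((Gf D.cg D.z c k i : ℕ) : ZMod D.m)) =
      rd D.m (Dm coreF) *ᵥ xv D.m D.bL := by
  ext q
  have hq : q.2.val + 14 * q.1.val < 84 := by
    have := q.1.isLt; have := q.2.isLt; omega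
  have h1 := eqm_cast (grid_iff H.k15 q.1.val q.1.isLt q.2.val q.2.isLt)
  have h2 := eqm_cast (H.k14' _ hq)
  have h3 := eqm_cast H.k14
  have e1 := hub_mulVec (m := D.m) (Dm coreG) (fun a b => coreG.D a b) (fun _ _ => rfl)
    (nth [] DGp q.1.val) (nth [] DGn q.1.val) D.bL q (fun b => DG_ok _ _)
  have e2 := hub_mulVec (m := D.m) LXm (fun a b => LP a b) (fun _ _ => rfl)
    (nth [] LPl q.1.val) [] D.r1 q (fun b => LPl_ok _ _)
  have e3 := hub_mulVec (m := D.m) (Dm coreF) (fun a b => coreF.D a b) (fun _ _ => rfl)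
    (nth [] DFp q.1.val) [] D.bL q (fun b => DF_ok _ _)
  have e4 := rMT_mulVec (m := D.m) D.rl D.b1 q
  have e5 := hMT_mulVec (m := D.m) D.rows (Gf D.cg D.z) q
  have e6 : ((sumV fun c k i => Nat.mul (dig 128 (val D.rows c k i / 65536)
      (q.2.val + 14 * q.1.val)) (Gf D.cg D.z c k i) : ℕ) : ZMod D.m) =
      ((hx D.rows D.cg D.z (q.2.val + 14 * q.1.val) : ℕ) : ZMod D.m) := rfl
  have e7 : ((sumN 84 fun x => Nat.mul (dig 2048 (nth 0 D.rl x) (q.2.val + 14 * q.1.val))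
      (nth 0 D.b1 x) : ℕ) : ZMod D.m) =
      ((rx D.rl D.b1 (q.2.val + 14 * q.1.val) : ℕ) : ZMod D.m) := rfl
  rw [e6, ← h2, ← h3] at e5
  rw [e7, ← ls_cast] at e4
  rw [xge_nil, sub_zero] at e2 e3
  simp only [Pi.add_apply, Pi.sub_apply]
  rw [e1, e2, e3, e4, e5]
  simp only [nadd_cast, nmul_cast] at h1
  push_cast at h1
  linear_combination h1

theorem Dat.Ok.cert {D : Dat} (H : D.Ok) :
    ∃ U : Matrix ((X ⊕ X) ⊕ V) ((X ⊕ X) ⊕ V) ℤ, Uᵀ * Bg * U = Bf := by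
  have hbet : bet D.m D.B = xv D.m D.bL := (powers D.B D.bL H.k1a ((allB_iff _ _).1 H.k1b)).symm
  have hbet3 : bet3 D.m3 D.B3 = fv D.m3 D.b3 := by
    ext j
    fin_cases j
    · show ((D.B3 : ℕ) : ZMod D.m3) ^ 0 = ((nth 0 D.b3 0 : ℕ) : ZMod D.m3)
      rw [eqm_cast H.k16a, pow_zero, Nat.cast_one]
    · show ((D.B3 : ℕ) : ZMod D.m3) ^ 1 = ((nth 0 D.b3 1 : ℕ) : ZMod D.m3)
      rw [eqm_cast H.k16b, pow_one]
    · show ((D.B3 : ℕ) : ZMod D.m3) ^ 2 = ((nth 0 D.b3 2 : ℕ) : ZMod D.m3)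
      rw [eqm_cast H.k16c, nmul_cast, pow_two]
  have hQ : sv (fun c k i => ((cgv D.cg c k i : ℕ) : ZMod D.m)) + sv (cv D.m D.z) +
      sv (cv D.m D.z') = sv (fun c k i => ((Qf D.cg D.z D.z' c k i : ℕ) : ZMod D.m)) := by
    rw [sv_add, sv_add]
    congr 1
    ext c k i
    rw [Qf, nadd_cast, nadd_cast]
    rfl
  have hG' : sv (fun c k i => ((cgv D.cg c k i : ℕ) : ZMod D.m)) + sv (cv D.m D.z) =
      sv (fun c k i => ((Gf D.cg D.z c k i : ℕ) : ZMod D.m)) := by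
    rw [sv_add]
    congr 1
    ext c k i
    rw [Gf, nadd_cast]
    rfl
  refine main D.m D.B D.m3 D.B3 H.hB H.hm H.hB3 H.hm3 (hM D.rows) (rM D.rl) (nM 8 4 D.nr)
    (nM 16 8 D.nhr) (bd_hM _) (bd_rM _) (bd_nM 8 4 rfl (by norm_num) _)
    (bd_nM 16 8 rfl (by norm_num) _) (sv (cv D.m3 D.z3)) ?_ ?_ ?_ ?_
    (xv D.m D.b1) (xv D.m D.b2) (xv D.m D.r1) (sv (cv D.m D.p)) (sv (cv D.m D.p'))
    (sv (cv D.m D.z)) (sv (cv D.m D.z')) (sv (fun c k i => ((cgv D.cg c k i : ℕ) : ZMod D.m)))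
    (sv (fun c k _ => ((cfv D.cf c k : ℕ) : ZMod D.m))) (fv D.m D.t) (fv D.m D.s)
    ?_ ?_ ?_ ?_ ?_ ?_ ?_ ?_ ?_ ?_ ?_ ?_ ?_
  · -- Nh
    rw [hbet3]
    exact nM_mulVec 16 8 D.nhr D.z3 D.b3 H.l3 D.c3h (c3_of H.k17h)
      fun c hc => cells_iff (H.k18h c hc)
  · -- LV N
    have h1 := nM_mulVec (m := D.m3) 8 4 D.nr D.n3 D.b3 H.l3 D.c3 (c3_of H.k17)
      fun c hc => cells_iff (H.k18 c hc)
    rw [hbet3, h1]
    exact rel_mulVec _ _ H.k19s fun c hc => cells_iff (H.k19 c hc)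
  · have h1 := nM_mulVec (m := D.m3) 8 4 D.nr D.n3 D.b3 H.l3 D.c3 (c3_of H.k17)
      fun c hc => cells_iff (H.k18 c hc)
    rw [hbet3, h1]
    exact relT_mulVec _ _ fun c hc => cells_iff (H.k19' c hc)
  · -- G3
    rw [hbet3]
    exact eqG H
  · -- b1
    rw [hbet]
    ext q
    rw [hub_mulVec LXm (fun a b => LP a b) (fun _ _ => rfl) (nth [] LPl q.1.val) [] D.bL q
      (fun b => LPl_ok _ _), xge_nil, sub_zero]
    exact (eqm_cast (grid_iff H.k2 q.1.val q.1.isLt q.2.val q.2.isLt)).symm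
  · -- b2
    have h1 : rd D.m LXmᵀ *ᵥ xv D.m D.b2 = xv D.m D.b1 := by
      ext q
      rw [hubT_mulVec]
      exact (eqm_cast (grid_iff H.k3 q.1.val q.1.isLt q.2.val q.2.isLt)).symm
    rw [← h1, Matrix.mulVec_mulVec, ← rd_mul, ← Matrix.transpose_mul, lx_mul,
      Matrix.transpose_one, rd_one, Matrix.one_mulVec]
  · -- p
    rw [hbet]
    exact hM_mulVec D.rows D.p D.bL H.l1 D.c0 (c0_of H.k4) fun c hc => cells_iff (H.k5 c hc)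
  · exact hM_mulVec D.rows D.p' D.b2 H.l2 D.c0' (c0_of H.k4') fun c hc => cells_iff (H.k5' c hc)
  · exact rel_mulVec _ _ H.k6s fun c hc => cells_iff (H.k6 c hc)
  · exact relT_mulVec _ _ fun c hc => cells_iff (H.k7 c hc)
  · rw [hbet]
    exact cg_mulVec D.cg D.bL (grid_iff H.k8)
  · rw [hbet]
    exact cf_mulVec D.cf D.bL (grid_iff H.k9)
  · -- t
    rw [hQ]
    exact eqT H
  · -- s
    exact eqS H
  · -- (c)
    rw [hQ]
    exact eqC H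
  · -- r1
    rw [hbet]
    exact eqR H
  · -- (d)
    rw [hbet, hG']
    exact eqD H

end Crest.Agent.R267.LightG_667
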