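import Mathlib

/-!
# The minimal rotation taking a unit vector `a` to a unit vector `b ≠ -a`

`rot a b` is a linear isometry, jointly continuous in `(a, b, v)` off `⟪a, b⟫ = -1`, it takes `a` to
`b`, `rot a a = id`, its inverse is `rot b a`, and it is Lipschitz close to the identity when `a` is
close to `b`.
-/

set_option autoImplicit false
open scoped InnerProductSpace

namespace Crest.Agent.R267.MinRot_118

variable {V : Type*} [NormedAddCommGroup V] [InnerProductSpace ℝ V]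

/-- the minimal rotation -/
noncomputable def rot (a b : V) : V →ₗ[ℝ] V where
  toFun v := v - ((1 + ⟪a, b⟫_ℝ)⁻¹ * ⟪a + b, v⟫_ℝ) • (a + b) + (2 * ⟪a, v⟫_ℝ) • b
  map_add' v w := by simp only [inner_add_right]; module
  map_smul' c v := by simp only [inner_smul_right, RingHom.id_apply]; module

theorem rot_apply (a b v : V) : rot a b v =
    v - ((1 + ⟪a, b⟫_ℝ)⁻¹ * ⟪a + b, v⟫_ℝ) • (a + b) + (2 * ⟪a, v⟫_ℝ) • b := rfl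

theorem inner_self_one {a : V} (ha : ‖a‖ = 1) : ⟪a, a⟫_ℝ = 1 := by
  rw [real_inner_self_eq_norm_sq, ha]; norm_num

theorem rot_self {a : V} (ha : ‖a‖ = 1) (v : V) : rot a a v = v := by
  rw [rot_apply, inner_self_one ha, inner_add_left]
  have : (1 + 1 : ℝ)⁻¹ = 1 / 2 := by norm_num
  rw [this]
  module

theorem rot_left {a b : V} (ha : ‖a‖ = 1) (h : 1 + ⟪a, b⟫_ℝ ≠ 0) : rot a b a = b := by
  rw [rot_apply, inner_add_left, inner_self_one ha, real_inner_comm a b, inv_mul_cancel₀ h]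
  module

/-- the rotation preserves the scalar product -/
theorem inner_rot {a b : V} (ha : ‖a‖ = 1) (hb : ‖b‖ = 1) (h : 1 + ⟪a, b⟫_ℝ ≠ 0) (v w : V) :
    ⟪rot a b v, rot a b w⟫_ℝ = ⟪v, w⟫_ℝ := by
  have hba : ⟪b, a⟫_ℝ = ⟪a, b⟫_ℝ := real_inner_comm a b
  have h1 := inner_self_one ha
  have h2 := inner_self_one hb
  simp only [rot_apply, inner_add_left, inner_add_right, inner_sub_left, inner_sub_right,
    inner_smul_left, inner_smul_right, h1, h2, hba, real_inner_comm a v, real_inner_comm b v, conj_trivial]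
  generalize ⟪a, b⟫_ℝ = c at *
  generalize ⟪v, a⟫_ℝ = x at *
  generalize ⟪v, b⟫_ℝ = y at *
  generalize ⟪w, a⟫_ℝ = z at *
  generalize ⟪w, b⟫_ℝ = t at *
  field_simp
  ring

theorem norm_rot {a b : V} (ha : ‖a‖ = 1) (hb : ‖b‖ = 1) (h : 1 + ⟪a, b⟫_ℝ ≠ 0) (v : V) :
    ‖rot a b v‖ = ‖v‖ := by
  have := inner_rot ha hb h v v
  rw [real_inner_self_eq_norm_sq, real_inner_self_eq_norm_sq] at this
  exact (sq_eq_sq₀ (norm_nonneg _) (norm_nonneg _)).1 this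

theorem inner_right_rot {a b : V} (hb : ‖b‖ = 1) (h : 1 + ⟪a, b⟫_ℝ ≠ 0) (v : V) :
    ⟪b, rot a b v⟫_ℝ = ⟪a, v⟫_ℝ := by
  have hba : ⟪b, a⟫_ℝ = ⟪a, b⟫_ℝ := real_inner_comm a b
  simp only [rot_apply, inner_add_left, inner_add_right, inner_sub_right,
    inner_smul_right, inner_self_one hb, hba]
  field_simp
  ring

theorem inner_left_rot {a b : V} (ha : ‖a‖ = 1) (h : 1 + ⟪a, b⟫_ℝ ≠ 0) (v : V) :
    ⟪a, rot a b v⟫_ℝ = 2 * ⟪a, v⟫_ℝ * ⟪a, b⟫_ℝ - ⟪b, v⟫_ℝ := by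
  simp only [rot_apply, inner_add_left, inner_add_right, inner_sub_right,
    inner_smul_right, inner_self_one ha]
  field_simp
  ring

theorem rot_rot {a b : V} (ha : ‖a‖ = 1) (hb : ‖b‖ = 1) (h : 1 + ⟪a, b⟫_ℝ ≠ 0) (v : V) :
    rot b a (rot a b v) = v := by
  have hba : ⟪b, a⟫_ℝ = ⟪a, b⟫_ℝ := real_inner_comm a b
  rw [rot_apply b a, inner_add_left, inner_right_rot hb h, inner_left_rot ha h, hba, rot_apply,
    inner_add_left]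
  have e : (1 + ⟪a, b⟫_ℝ)⁻¹ * (⟪a, v⟫_ℝ + (2 * ⟪a, v⟫_ℝ * ⟪a, b⟫_ℝ - ⟪b, v⟫_ℝ)) =
      2 * ⟪a, v⟫_ℝ - (1 + ⟪a, b⟫_ℝ)⁻¹ * (⟪a, v⟫_ℝ + ⟪b, v⟫_ℝ) := by
    field_simp
    ring
  rw [e]
  module

theorem rot_rot' {a b : V} (ha : ‖a‖ = 1) (hb : ‖b‖ = 1) (h : 1 + ⟪a, b⟫_ℝ ≠ 0) (v : V) :
    rot a b (rot b a v) = v :=
  rot_rot hb ha (by rwa [real_inner_comm]) v

/-- closeness to the identity -/
theorem norm_rot_sub_le {a b : V} (ha : ‖a‖ = 1) (hb : ‖b‖ = 1) (h : 0 ≤ ⟪a, b⟫_ℝ) (v : V) :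
    ‖rot a b v - v‖ ≤ 6 * ‖b - a‖ * ‖v‖ := by
  set d := b - a with hd
  have hc : 0 < 1 + ⟪a, b⟫_ℝ := by linarith
  have hbd : b = a + d := by rw [hd]; abel
  have hab : ⟪a, b⟫_ℝ = 1 - ‖d‖ ^ 2 / 2 := by
    have := norm_sub_sq_real b a
    rw [ha, hb, real_inner_comm] at this
    rw [← hd] at this
    linarith
  -- `rot a b v - v = -p⟪d,v⟫ (2a+d) - (2p ⟪a,v⟫ - 2⟪a,v⟫ + ..)`
  have key : rot a b v - v = (-((1 + ⟪a, b⟫_ℝ)⁻¹ * ⟪d, v⟫_ℝ)) • (a + b)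
      + (2 * ⟪a, v⟫_ℝ * (1 + ⟪a, b⟫_ℝ)⁻¹ * ⟪a, b⟫_ℝ) • d
      - (2 * ⟪a, v⟫_ℝ * (1 + ⟪a, b⟫_ℝ)⁻¹ * (1 - ⟪a, b⟫_ℝ)) • a := by
    have h1 : ⟪a + b, v⟫_ℝ = 2 * ⟪a, v⟫_ℝ + ⟪d, v⟫_ℝ := by
      rw [hbd, inner_add_left, inner_add_left]; ring
    rw [rot_apply, h1]
    have h2 : (1 + ⟪a, b⟫_ℝ)⁻¹ * (1 + ⟪a, b⟫_ℝ) = 1 := inv_mul_cancel₀ hc.ne'
    generalize (1 + ⟪a, b⟫_ℝ)⁻¹ = p at *
    generalize ⟪a, b⟫_ℝ = c at *
    generalize ⟪a, v⟫_ℝ = x at *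
    generalize ⟪d, v⟫_ℝ = y at *
    have h3 : p = 1 - p * c := by linarith
    have e1 : 2 * x * p * (1 - c) = 4 * x * p - 2 * x := by linear_combination (-2 * x) * h2
    have e2 : 2 * x * p * c = 2 * x - 2 * x * p := by linear_combination (2 * x) * h2
    rw [e1, e2, hbd]
    module
  have hp1 : (1 + ⟪a, b⟫_ℝ)⁻¹ ≤ 1 := inv_le_one_of_one_le₀ (by linarith)
  have hp0 : 0 ≤ (1 + ⟪a, b⟫_ℝ)⁻¹ := by positivity
  have hc1 : ⟪a, b⟫_ℝ ≤ 1 := by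
    have := real_inner_le_norm a b
    rwa [ha, hb, one_mul] at this
  have hav : |⟪a, v⟫_ℝ| ≤ ‖v‖ := by
    have := abs_real_inner_le_norm a v
    rwa [ha, one_mul] at this
  have hdv : |⟪d, v⟫_ℝ| ≤ ‖d‖ * ‖v‖ := abs_real_inner_le_norm d v
  have hd2 : ‖d‖ ≤ 2 := by
    have := norm_sub_le b a
    rw [ha, hb] at this
    rw [hd]; linarith
  have hd0 := norm_nonneg d
  have hv0 := norm_nonneg v
  rw [key]
  have n1 : ‖(-((1 + ⟪a, b⟫_ℝ)⁻¹ * ⟪d, v⟫_ℝ)) • (a + b)‖ ≤ 2 * ‖d‖ * ‖v‖ := by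
    rw [norm_smul, Real.norm_eq_abs, abs_neg, abs_mul, abs_of_nonneg hp0]
    have : ‖a + b‖ ≤ 2 := by
      have := norm_add_le a b
      rw [ha, hb] at this; linarith
    calc _ ≤ (1 * (‖d‖ * ‖v‖)) * 2 := by gcongr
      _ = _ := by ring
  have n2 : ‖(2 * ⟪a, v⟫_ℝ * (1 + ⟪a, b⟫_ℝ)⁻¹ * ⟪a, b⟫_ℝ) • d‖ ≤ 2 * ‖d‖ * ‖v‖ := by
    rw [norm_smul, Real.norm_eq_abs, abs_mul, abs_mul, abs_mul, abs_of_nonneg hp0, abs_of_nonneg h,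
      abs_two]
    calc _ ≤ (2 * ‖v‖ * 1 * 1) * ‖d‖ := by gcongr
      _ = _ := by ring
  have n3 : ‖(2 * ⟪a, v⟫_ℝ * (1 + ⟪a, b⟫_ℝ)⁻¹ * (1 - ⟪a, b⟫_ℝ)) • a‖ ≤ 2 * ‖d‖ * ‖v‖ := by
    have e : (1 : ℝ) - ⟪a, b⟫_ℝ = ‖d‖ * (‖d‖ / 2) := by rw [hab]; ring
    have e0 : 0 ≤ (1 : ℝ) - ⟪a, b⟫_ℝ := by linarith
    have e1 : (1 : ℝ) - ⟪a, b⟫_ℝ ≤ ‖d‖ := by
      rw [e]
      calc ‖d‖ * (‖d‖ / 2) ≤ ‖d‖ * 1 := by gcongr; linarith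
        _ = ‖d‖ := mul_one _
    rw [norm_smul, Real.norm_eq_abs, ha, mul_one, abs_mul, abs_of_nonneg e0, abs_mul,
      abs_of_nonneg hp0, abs_mul, abs_two]
    calc 2 * |⟪a, v⟫_ℝ| * (1 + ⟪a, b⟫_ℝ)⁻¹ * (1 - ⟪a, b⟫_ℝ)
        ≤ 2 * ‖v‖ * 1 * ‖d‖ := by gcongr
      _ = _ := by ring
  calc _ ≤ ‖(-((1 + ⟪a, b⟫_ℝ)⁻¹ * ⟪d, v⟫_ℝ)) • (a + b)‖
        + ‖(2 * ⟪a, v⟫_ℝ * (1 + ⟪a, b⟫_ℝ)⁻¹ * ⟪a, b⟫_ℝ) • d‖
        + ‖(2 * ⟪a, v⟫_ℝ * (1 + ⟪a, b⟫_ℝ)⁻¹ * (1 - ⟪a, b⟫_ℝ)) • a‖ :=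
        (norm_sub_le _ _).trans (add_le_add_left (norm_add_le _ _) _)
    _ ≤ _ := by linarith

/-- joint continuity -/
theorem continuousOn_rot {X : Type*} [TopologicalSpace X] {s : Set X} {a b v : X → V}
    (ha : ContinuousOn a s) (hb : ContinuousOn b s) (hv : ContinuousOn v s)
    (h : ∀ p ∈ s, 1 + ⟪a p, b p⟫_ℝ ≠ 0) : ContinuousOn (fun p => rot (a p) (b p) (v p)) s := by
  simp only [rot_apply]
  have h1 : ContinuousOn (fun p => (1 + ⟪a p, b p⟫_ℝ)⁻¹) s :=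
    (continuousOn_const.add (ha.inner hb)).inv₀ h
  exact (hv.sub ((h1.mul ((ha.add hb).inner hv)).smul (ha.add hb))).add
    ((continuousOn_const.mul (ha.inner hv)).smul hb)

theorem continuous_rot {X : Type*} [TopologicalSpace X] {a b v : X → V}
    (ha : Continuous a) (hb : Continuous b) (hv : Continuous v)
    (h : ∀ p, 1 + ⟪a p, b p⟫_ℝ ≠ 0) : Continuous (fun p => rot (a p) (b p) (v p)) := by
  rw [← continuousOn_univ] at *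
  exact continuousOn_rot ha hb hv fun p _ => h p

end Crest.Agent.R267.MinRot_118
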