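import Crest.Agent.R267.HarmBox_920

/-!
# S0406, T3N hub step (C3): harmonic and geometric boxes as functions of the radii (helper896)

`Ht S r = Hm S |r|`, `Gt S r = ∏ |r j|^{1/|S|}` and their radial derivatives `Hn S i r`, `Gn S i r`
(Euler derivative in the variable `i`): continuous on the whole space, homogeneous, `∑ i = value`,
and the box is larger than `c |S| min r` ... at its smallest radius (`Hn_min`, `Gn_min`).
-/

set_option autoImplicit false
set_option linter.unusedSectionVars false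

noncomputable section

open Set Filter Topology Finset
open Crest.Agent.R267.T3aNDefs_88 (Hm)
open Crest.Agent.R267.HarmBox_920

namespace Crest.Agent.R267.MixBox_896

variable {ι : Type} [Fintype ι] [DecidableEq ι]

/-- harmonic box. -/
def Ht (S : Finset ι) (r : ι → ℝ) : ℝ := Hm S fun j => |r j|

/-- geometric box. -/
def Gt (S : Finset ι) (r : ι → ℝ) : ℝ := ∏ j ∈ S, |r j| ^ (1 / (S.card : ℝ))

/-- Euler derivative of the harmonic box. -/
def Hn (S : Finset ι) (i : ι) (r : ι → ℝ) : ℝ := if i ∈ S then Ht S r ^ 2 / |r i| else 0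

/-- Euler derivative of the geometric box. -/
def Gn (S : Finset ι) (i : ι) (r : ι → ℝ) : ℝ := if i ∈ S then Gt S r / (S.card : ℝ) else 0

variable {S : Finset ι} {r : ι → ℝ}

theorem Ht_of_pos (h : ∀ j ∈ S, 0 < |r j|) : Ht S r = 1 / ∑ j ∈ S, 1 / |r j| := by
  classical
  exact if_pos h

theorem Ht_zero {j : ι} (hj : j ∈ S) (h : r j = 0) : Ht S r = 0 :=
  Hm_zero hj (by rw [h]; simp)

theorem Ht_nonneg : 0 ≤ Ht S r := Hm_nonneg _ _

theorem Ht_pos (hS : S.Nonempty) (h : ∀ j ∈ S, 0 < |r j|) : 0 < Ht S r := Hm_pos hS h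

theorem Ht_le {j : ι} (hj : j ∈ S) : Ht S r ≤ |r j| := Hm_le hj (abs_nonneg _)

theorem Gt_nonneg : 0 ≤ Gt S r := prod_nonneg fun _ _ => Real.rpow_nonneg (abs_nonneg _) _

theorem Gt_zero {j : ι} (hj : j ∈ S) (h : r j = 0) : Gt S r = 0 := by
  refine prod_eq_zero hj ?_
  rw [h, abs_zero, Real.zero_rpow]
  have : 0 < S.card := card_pos.2 ⟨j, hj⟩
  have : (0 : ℝ) < S.card := by exact_mod_cast this
  positivity

theorem Hn_nonneg (i : ι) : 0 ≤ Hn S i r := by
  unfold Hn
  split_ifs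
  · positivity
  · exact le_rfl

theorem Gn_nonneg (i : ι) : 0 ≤ Gn S i r := by
  unfold Gn
  split_ifs
  · exact div_nonneg Gt_nonneg (Nat.cast_nonneg _)
  · exact le_rfl

theorem Hn_le (i : ι) : Hn S i r ≤ Ht S r := by
  unfold Hn
  split_ifs with hi
  · rcases (abs_nonneg (r i)).eq_or_lt with h | h
    · rw [← h, div_zero]; exact Ht_nonneg
    · rw [div_le_iff₀ h, sq]
      exact mul_le_mul_of_nonneg_left (Ht_le hi) Ht_nonneg
  · exact Ht_nonneg

/-- a box and its derivatives vanish where a radius vanishes. -/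
theorem Hn_zero {j : ι} (hj : j ∈ S) (h : r j = 0) (i : ι) : Hn S i r = 0 := by
  refine le_antisymm ?_ (Hn_nonneg i)
  rw [← Ht_zero hj h]
  exact Hn_le i

theorem Gn_zero {j : ι} (hj : j ∈ S) (h : r j = 0) (i : ι) : Gn S i r = 0 := by
  unfold Gn
  split_ifs
  · rw [Gt_zero hj h, zero_div]
  · rfl

theorem sum_Hn (hS : S.Nonempty) : ∑ i, Hn S i r = Ht S r := by
  unfold Hn
  rw [← sum_filter, filter_mem_eq_inter, Finset.univ_inter]
  by_cases h : ∀ j ∈ S, 0 < |r j|
  · have h1 : 0 < ∑ j ∈ S, 1 / |r j| := sum_pos (fun j hj => one_div_pos.2 (h j hj)) hS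
    have h2 : ∑ i ∈ S, Ht S r ^ 2 / |r i| = Ht S r ^ 2 * ∑ j ∈ S, 1 / |r j| := by
      rw [mul_sum]
      exact sum_congr rfl fun j _ => by ring
    rw [h2, Ht_of_pos h]
    field_simp
  · push Not at h
    obtain ⟨j, hj, h⟩ := h
    have hj0 : r j = 0 := abs_eq_zero.1 (le_antisymm h (abs_nonneg _))
    rw [Ht_zero hj hj0]
    simp

theorem sum_Gn (hS : S.Nonempty) : ∑ i, Gn S i r = Gt S r := by
  unfold Gn
  rw [← sum_filter, filter_mem_eq_inter, Finset.univ_inter, sum_const, nsmul_eq_mul]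
  have : (0 : ℝ) < S.card := by exact_mod_cast card_pos.2 hS
  field_simp

/-- at the smallest radius. -/
theorem Hn_min (hS : S.Nonempty) (h : ∀ j ∈ S, 0 < |r j|) {i : ι} (hi : i ∈ S)
    (hm : ∀ j ∈ S, |r i| ≤ |r j|) : |r i| ≤ (S.card : ℝ) ^ 2 * Hn S i r := by
  have hc : (0 : ℝ) < S.card := by exact_mod_cast card_pos.2 hS
  have h0 := h i hi
  have h1 : 0 < ∑ j ∈ S, 1 / |r j| := sum_pos (fun j hj => one_div_pos.2 (h j hj)) hS
  have h2 : ∑ j ∈ S, 1 / |r j| ≤ S.card / |r i| := by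
    calc ∑ j ∈ S, 1 / |r j| ≤ ∑ _j ∈ S, 1 / |r i| :=
          sum_le_sum fun j hj => one_div_le_one_div_of_le h0 (hm j hj)
      _ = S.card / |r i| := by rw [sum_const, nsmul_eq_mul]; ring
  have h3 : |r i| ≤ S.card * Ht S r := by
    rw [Ht_of_pos h, mul_one_div, le_div_iff₀ h1]
    calc |r i| * ∑ j ∈ S, 1 / |r j| ≤ |r i| * (S.card / |r i|) :=
          mul_le_mul_of_nonneg_left h2 h0.le
      _ = S.card := by field_simp
  unfold Hn
  rw [if_pos hi, mul_div_assoc', le_div_iff₀ h0]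
  calc |r i| * |r i| ≤ (S.card * Ht S r) * (S.card * Ht S r) :=
        mul_le_mul h3 h3 h0.le (mul_nonneg hc.le Ht_nonneg)
    _ = _ := by ring

theorem Gn_min (hS : S.Nonempty) {i : ι} (hi : i ∈ S) (hm : ∀ j ∈ S, |r i| ≤ |r j|) :
    |r i| ≤ (S.card : ℝ) * Gn S i r := by
  have hc : (0 : ℝ) < S.card := by exact_mod_cast card_pos.2 hS
  have h1 : ∏ j ∈ S, |r i| ^ (1 / (S.card : ℝ)) ≤ Gt S r :=
    prod_le_prod (fun j _ => Real.rpow_nonneg (abs_nonneg _) _)
      fun j hj => Real.rpow_le_rpow (abs_nonneg _) (hm j hj) (by positivity)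
  rw [prod_const, ← Real.rpow_mul_natCast (abs_nonneg _), one_div_mul_cancel hc.ne',
    Real.rpow_one] at h1
  unfold Gn
  rw [if_pos hi]
  calc |r i| ≤ Gt S r := h1
    _ = _ := by field_simp

/-! ### homogeneity -/

theorem Ht_smul {c : ℝ} (hc : 0 < c) : Ht S (c • r) = c * Ht S r := by
  unfold Ht
  have : (fun j => |(c • r) j|) = fun j => c * |r j| := by
    funext j
    rw [Pi.smul_apply, smul_eq_mul, abs_mul, abs_of_pos hc]
  rw [this, Hm_smul hc]

theorem Gt_smul (hS : S.Nonempty) {c : ℝ} (hc : 0 < c) : Gt S (c • r) = c * Gt S r := by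
  have hcard : (0 : ℝ) < S.card := by exact_mod_cast card_pos.2 hS
  unfold Gt
  have : ∀ j ∈ S, |(c • r) j| ^ (1 / (S.card : ℝ)) =
      c ^ (1 / (S.card : ℝ)) * |r j| ^ (1 / (S.card : ℝ)) := by
    intro j _
    rw [Pi.smul_apply, smul_eq_mul, abs_mul, abs_of_pos hc, Real.mul_rpow hc.le (abs_nonneg _)]
  rw [prod_congr rfl this, prod_mul_distrib, prod_const, ← Real.rpow_mul_natCast hc.le,
    one_div_mul_cancel hcard.ne', Real.rpow_one]

theorem Hn_smul {c : ℝ} (hc : 0 < c) (i : ι) : Hn S i (c • r) = c * Hn S i r := by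
  unfold Hn
  split_ifs
  · rw [Ht_smul hc, Pi.smul_apply, smul_eq_mul, abs_mul, abs_of_pos hc]
    rcases eq_or_ne |r i| 0 with h | h
    · rw [h]; simp
    · field_simp
  · ring

theorem Gn_smul (hS : S.Nonempty) {c : ℝ} (hc : 0 < c) (i : ι) : Gn S i (c • r) = c * Gn S i r := by
  unfold Gn
  split_ifs
  · rw [Gt_smul hS hc]; ring
  · ring

/-! ### continuity -/

theorem tendsto_zero_of {f : (ι → ℝ) → ℝ} {r : ι → ℝ} {j : ι} (h0 : ∀ x, 0 ≤ f x)
    (h1 : ∀ x, f x ≤ |x j|) (hr : r j = 0) : Tendsto f (𝓝 r) (𝓝 0) := by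
  refine tendsto_of_tendsto_of_tendsto_of_le_of_le tendsto_const_nhds ?_ h0 h1
  have : Tendsto (fun x : ι → ℝ => |x j|) (𝓝 r) (𝓝 |r j|) :=
    (continuous_abs.comp (continuous_apply j)).continuousAt
  rwa [hr, abs_zero] at this

theorem continuousAt_Ht_pos (hS : S.Nonempty) (h : ∀ j ∈ S, 0 < |r j|) :
    ContinuousAt (Ht S) r := by
  have h1 : ∀ᶠ x : ι → ℝ in 𝓝 r, ∀ j ∈ S, 0 < |x j| := by
    refine (eventually_all_finset S).2 fun j hj => ?_
    exact (continuous_abs.comp (continuous_apply j)).continuousAt.eventually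
      (lt_mem_nhds (h j hj))
  have h2 : ContinuousAt (fun x : ι → ℝ => 1 / ∑ j ∈ S, 1 / |x j|) r := by
    refine continuousAt_const.div ?_ (sum_pos (fun j hj => one_div_pos.2 (h j hj)) hS).ne'
    refine tendsto_finsetSum _ fun j hj => ?_
    exact continuousAt_const.div (continuous_abs.comp (continuous_apply j)).continuousAt
      (h j hj).ne'
  refine h2.congr ?_
  filter_upwards [h1] with x hx
  exact (Ht_of_pos hx).symm

theorem continuous_Ht (hS : S.Nonempty) : Continuous (Ht S) := by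
  rw [continuous_iff_continuousAt]
  intro r
  by_cases h : ∀ j ∈ S, 0 < |r j|
  · exact continuousAt_Ht_pos hS h
  · push Not at h
    obtain ⟨j, hj, h⟩ := h
    have hj0 : r j = 0 := abs_eq_zero.1 (le_antisymm h (abs_nonneg _))
    rw [ContinuousAt, Ht_zero hj hj0]
    exact tendsto_zero_of (fun x => Ht_nonneg) (fun x => Ht_le hj) hj0

theorem continuous_Hn (hS : S.Nonempty) (i : ι) : Continuous (Hn S i) := by
  rw [continuous_iff_continuousAt]
  intro r
  by_cases hi : i ∈ S
  · by_cases h : ∀ j ∈ S, 0 < |r j|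
    · have : ContinuousAt (fun x : ι → ℝ => Ht S x ^ 2 / |x i|) r :=
        ((continuous_Ht hS).continuousAt.pow 2).div
          (continuous_abs.comp (continuous_apply i)).continuousAt (h i hi).ne'
      refine this.congr ?_
      filter_upwards with x
      rw [Hn, if_pos hi]
    · push Not at h
      obtain ⟨j, hj, h⟩ := h
      have hj0 : r j = 0 := abs_eq_zero.1 (le_antisymm h (abs_nonneg _))
      rw [ContinuousAt, Hn_zero hj hj0]
      exact tendsto_zero_of (fun x => Hn_nonneg i) (fun x => (Hn_le i).trans (Ht_le hj)) hj0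
  · have : Hn S i = fun _ => 0 := by
      funext x
      rw [Hn, if_neg hi]
    rw [this]
    exact continuousAt_const

theorem continuous_Gt (hS : S.Nonempty) : Continuous (Gt S) := by
  have hcard : (0 : ℝ) < S.card := by exact_mod_cast card_pos.2 hS
  exact continuous_finsetProd _ fun j _ =>
    (continuous_abs.comp (continuous_apply j)).rpow_const fun _ => Or.inr (by positivity)

theorem continuous_Gn (hS : S.Nonempty) (i : ι) : Continuous (Gn S i) := by
  unfold Gn
  by_cases hi : i ∈ S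
  · simp only [hi, if_true]
    exact (continuous_Gt hS).div_const _
  · simp only [hi, if_false]
    exact continuous_const

end Crest.Agent.R267.MixBox_896
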