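import Crest.Agent.R267.Mneg_951

/-!
# Row 267 (helper951): the class `M⁻`, part 2: ends of a path, level sets, sums, `C²` off `0`
-/

set_option autoImplicit false
set_option linter.unusedSectionVars false

noncomputable section

open Set Filter Topology Metric
open scoped NNReal ContDiff
open Crest.Agent.R267.Reg_808 Crest.Agent.R267.FlowG_951

namespace Crest.Agent.R267.Mneg_951

variable {E : Type*} [NormedAddCommGroup E] [NormedSpace ℝ E]
variable {E' : Type*} [NormedAddCommGroup E'] [NormedSpace ℝ E']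

/-! ### ends of a path -/

/-- the page -/
def Page (z : ℂ) : Prop := z.im = 0 ∧ 0 < z.re

theorem Page.notMem {z : ℂ} (h : Page z) : z ∉ Neg := notMem_Neg_of_nonneg h.2.le

theorem Page_smul {z : ℂ} {r : ℝ} (hr : 0 < r) : Page (r • z) ↔ Page z := by
  simp only [Page, Complex.smul_re, Complex.smul_im, smul_eq_mul, mul_eq_zero, hr.ne', false_or,
    mul_pos_iff_of_pos_left hr]

theorem MP.exists_homeo [FiniteDimensional ℝ E] {H : ℝ × E → ℂ} (hH : MP H) :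
    ∃ h : E ≃ₜ E, (∀ r : ℝ, 0 < r → ∀ x, h (r • x) = r • h x) ∧ h 0 = 0 ∧
      (∀ x, (H (0, x) ∉ Neg ∨ H (1, h x) ∉ Neg) → H (1, h x) = H (0, x)) ∧
      (∀ x, (∀ t ∈ Icc (0 : ℝ) 1, fderiv ℝ H (t, x) (1, 0) = 0) → h x = x) := by
  obtain ⟨Φ, h0, -, -, hh, hz, hN, hfix⟩ := hH.isotopy
  have m0 : (0 : ℝ) ∈ Icc (0 : ℝ) 1 := by simp
  have m1 : (1 : ℝ) ∈ Icc (0 : ℝ) 1 := by simp
  refine ⟨Φ 1, hh 1, hz 1, fun x hx => ?_, fun x hx => hfix x hx 1⟩
  rcases hx with hx | hx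
  · have := hN x 0 m0 1 m1 (by rwa [h0])
    rwa [h0] at this
  · have := hN x 1 m1 0 m0 hx
    rw [h0] at this
    exact this.symm

/-- zero set and page -/
theorem zero_iff_of {H : ℝ × E → ℂ} {h : E → E}
    (hN : ∀ x, (H (0, x) ∉ Neg ∨ H (1, h x) ∉ Neg) → H (1, h x) = H (0, x)) (x : E) :
    H (1, h x) = 0 ↔ H (0, x) = 0 := by
  constructor
  · intro h1
    rw [← hN x (Or.inr (by rw [h1]; exact zero_notMem_Neg)), h1]
  · intro h1
    rw [hN x (Or.inl (by rw [h1]; exact zero_notMem_Neg)), h1]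

theorem page_iff_of {H : ℝ × E → ℂ} {h : E → E}
    (hN : ∀ x, (H (0, x) ∉ Neg ∨ H (1, h x) ∉ Neg) → H (1, h x) = H (0, x)) (x : E) :
    Page (H (1, h x)) ↔ Page (H (0, x)) := by
  constructor
  · intro h1
    rwa [← hN x (Or.inr h1.notMem)]
  · intro h1
    rwa [hN x (Or.inl h1.notMem)]

/-! ### level sets of homogeneous radii -/

/-- a homogeneous radius -/
structure Radius (ρ : E → ℝ) : Prop where
  cont : Continuous ρ
  hom : ∀ r : ℝ, 0 < r → ∀ x, ρ (r • x) = r * ρ x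
  pos : ∀ x, x ≠ 0 → 0 < ρ x

theorem Radius.norm : Radius (fun x : E => ‖x‖) :=
  ⟨continuous_norm, fun r hr x => by rw [norm_smul, Real.norm_of_nonneg hr.le],
    fun x hx => norm_pos_iff.2 hx⟩

theorem Radius.zero {ρ : E → ℝ} (h : Radius ρ) : ρ 0 = 0 := by
  have h1 := h.hom 2 two_pos 0
  rw [smul_zero] at h1
  linarith

theorem Radius.ne_zero {ρ : E → ℝ} (h : Radius ρ) {x : E} (hx : ρ x = 1) : x ≠ 0 := by
  rintro rfl
  rw [h.zero] at hx
  exact zero_ne_one hx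

/-- the homeomorphism of level sets induced by a homogeneous homeomorphism -/
def levelHomeo {ρ : E → ℝ} {ρ' : E' → ℝ} (hρ : Radius ρ) (hρ' : Radius ρ') (h : E ≃ₜ E')
    (hh : ∀ r : ℝ, 0 < r → ∀ x, h (r • x) = r • h x) (h0 : h 0 = 0) :
    {x : E // ρ x = 1} ≃ₜ {x : E' // ρ' x = 1} := by
  have hne : ∀ x : E, x ≠ 0 → h x ≠ 0 := fun x hx h1 => hx (h.injective (by rw [h1, h0]))
  have h0' : h.symm 0 = 0 := by rw [← h0, h.symm_apply_apply]
  have hne' : ∀ x : E', x ≠ 0 → h.symm x ≠ 0 :=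
    fun x hx h1 => hx (h.symm.injective (by rw [h1, h0']))
  have hh' : ∀ r : ℝ, 0 < r → ∀ x, h.symm (r • x) = r • h.symm x := by
    intro r hr x
    apply h.injective
    rw [h.apply_symm_apply, hh r hr, h.apply_symm_apply]
  exact
  { toFun := fun x => ⟨(ρ' (h x))⁻¹ • h x, by
      have := hρ'.pos _ (hne x (hρ.ne_zero x.2))
      rw [hρ'.hom _ (inv_pos.2 this), inv_mul_cancel₀ this.ne']⟩
    invFun := fun x => ⟨(ρ (h.symm x))⁻¹ • h.symm x, by
      have := hρ.pos _ (hne' x (hρ'.ne_zero x.2))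
      rw [hρ.hom _ (inv_pos.2 this), inv_mul_cancel₀ this.ne']⟩
    left_inv := fun x => by
      apply Subtype.ext
      have h1 := hρ'.pos _ (hne x (hρ.ne_zero x.2))
      show (ρ (h.symm ((ρ' (h x))⁻¹ • h x)))⁻¹ • h.symm ((ρ' (h x))⁻¹ • h x) = x
      rw [hh' _ (inv_pos.2 h1), h.symm_apply_apply, hρ.hom _ (inv_pos.2 h1), x.2, mul_one,
        inv_inv, smul_smul, mul_inv_cancel₀ h1.ne', one_smul]
    right_inv := fun x => by
      apply Subtype.ext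
      have h1 := hρ.pos _ (hne' x (hρ'.ne_zero x.2))
      show (ρ' (h ((ρ (h.symm x))⁻¹ • h.symm x)))⁻¹ • h ((ρ (h.symm x))⁻¹ • h.symm x) = x
      rw [hh _ (inv_pos.2 h1), h.apply_symm_apply, hρ'.hom _ (inv_pos.2 h1), x.2, mul_one,
        inv_inv, smul_smul, mul_inv_cancel₀ h1.ne', one_smul]
    continuous_toFun := by
      have h1 : Continuous fun x : {x : E // ρ x = 1} => h x := h.continuous.comp continuous_subtype_val
      refine Continuous.subtype_mk (Continuous.smul (Continuous.inv₀ (hρ'.cont.comp h1) ?_) h1) _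
      intro x
      exact (hρ'.pos _ (hne x (hρ.ne_zero x.2))).ne'
    continuous_invFun := by
      have h1 : Continuous fun x : {x : E' // ρ' x = 1} => h.symm x :=
        h.symm.continuous.comp continuous_subtype_val
      refine Continuous.subtype_mk (Continuous.smul (Continuous.inv₀ (hρ.cont.comp h1) ?_) h1) _
      intro x
      exact (hρ.pos _ (hne' x (hρ'.ne_zero x.2))).ne' }

theorem levelHomeo_coe {ρ : E → ℝ} {ρ' : E' → ℝ} (hρ : Radius ρ) (hρ' : Radius ρ') (h : E ≃ₜ E')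
    (hh : ∀ r : ℝ, 0 < r → ∀ x, h (r • x) = r • h x) (h0 : h 0 = 0) (x : {x : E // ρ x = 1}) :
    (levelHomeo hρ hρ' h hh h0 x : E') = (ρ' (h x))⁻¹ • h x := rfl

/-- **paths in `M⁻`: homeomorphism of level sets carrying zero set to zero set, page to page** -/
theorem MP.exists_level_homeo [FiniteDimensional ℝ E] {H : ℝ × E → ℂ} (hH : MP H) {ρ ρ' : E → ℝ}
    (hρ : Radius ρ) (hρ' : Radius ρ') :
    ∃ g : {x : E // ρ x = 1} ≃ₜ {x : E // ρ' x = 1},
      (∀ x, H (1, (g x : E)) = 0 ↔ H (0, (x : E)) = 0) ∧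
      (∀ x, Page (H (1, (g x : E))) ↔ Page (H (0, (x : E)))) ∧
      (∀ x : {x : E // ρ x = 1}, ρ' x = 1 →
        (∀ t ∈ Icc (0 : ℝ) 1, fderiv ℝ H (t, (x : E)) (1, 0) = 0) → (g x : E) = x) := by
  obtain ⟨h, hh, h0, hN, hfix⟩ := hH.exists_homeo
  have m1 : (1 : ℝ) ∈ Icc (0 : ℝ) 1 := by simp
  have hpos : ∀ x : {x : E // ρ x = 1}, 0 < (ρ' (h x))⁻¹ := by
    intro x
    refine inv_pos.2 (hρ'.pos _ fun h1 => hρ.ne_zero x.2 (h.injective (by rw [h1, h0])))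
  refine ⟨levelHomeo hρ hρ' h hh h0, fun x => ?_, fun x => ?_, fun x hx hx' => ?_⟩
  · rw [levelHomeo_coe, hH.hom 1 m1 _ (hpos x), smul_eq_zero, or_iff_right (pow_ne_zero 2 (hpos x).ne')]
    exact zero_iff_of hN x
  · rw [levelHomeo_coe, hH.hom 1 m1 _ (hpos x), Page_smul (pow_pos (hpos x) 2)]
    exact page_iff_of hN x
  · rw [levelHomeo_coe, hfix x hx', hx, inv_one, one_smul]

/-! ### sums -/

section Sum

variable {H : ℝ × E → ℂ} {H' : ℝ × E' → ℂ}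

/-- sum with separated variables -/
def osum (H : ℝ × E → ℂ) (H' : ℝ × E' → ℂ) (p : ℝ × E × E') : ℂ :=
  H (p.1, p.2.1) + H' (p.1, p.2.2)

/-- first projection -/
def pr₁ : ℝ × E × E' →L[ℝ] ℝ × E :=
  (ContinuousLinearMap.fst ℝ ℝ (E × E')).prod
    ((ContinuousLinearMap.fst ℝ E E').comp (ContinuousLinearMap.snd ℝ ℝ (E × E')))

/-- second projection -/
def pr₂ : ℝ × E × E' →L[ℝ] ℝ × E' :=
  (ContinuousLinearMap.fst ℝ ℝ (E × E')).prod
    ((ContinuousLinearMap.snd ℝ E E').comp (ContinuousLinearMap.snd ℝ ℝ (E × E')))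

theorem pr₁_apply (p : ℝ × E × E') : pr₁ p = (p.1, p.2.1) := rfl

theorem pr₂_apply (p : ℝ × E × E') : pr₂ p = (p.1, p.2.2) := rfl

theorem hasFDerivAt_osum (hH : MP H) (hH' : MP H') {t : ℝ} (ht : t ∈ Icc (0 : ℝ) 1) (x : E)
    (y : E') : HasFDerivAt (osum H H')
      ((fderiv ℝ H (t, x)).comp pr₁ + (fderiv ℝ H' (t, y)).comp pr₂) (t, x, y) := by
  have h1 : HasFDerivAt H (fderiv ℝ H (t, x)) (pr₁ (t, x, y)) := (hH.diff t ht x).hasFDerivAt
  have h2 : HasFDerivAt H' (fderiv ℝ H' (t, y)) (pr₂ (t, x, y)) := (hH'.diff t ht y).hasFDerivAt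
  exact (h1.comp (t, x, y) (pr₁ (E := E) (E' := E')).hasFDerivAt).add
    (h2.comp (t, x, y) (pr₂ (E := E) (E' := E')).hasFDerivAt)

/-- **sums of paths in `M⁻`** -/
theorem MP.sum (hH : MP H) (hH' : MP H') : MP (osum H H') where
  diff := fun t ht p => (hasFDerivAt_osum hH hH' ht p.1 p.2).differentiableAt
  lip := by
    rintro ⟨t, x, y⟩ ⟨ht, -⟩
    obtain ⟨K₁, T₁, hT₁, hL₁⟩ := hH.lip (x := (t, x)) ⟨ht, mem_univ _⟩
    obtain ⟨K₂, T₂, hT₂, hL₂⟩ := hH'.lip (x := (t, y)) ⟨ht, mem_univ _⟩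
    let C₁ : (ℝ × E →L[ℝ] ℂ) →L[ℝ] (ℝ × E × E' →L[ℝ] ℂ) :=
      (ContinuousLinearMap.compL ℝ (ℝ × E × E') (ℝ × E) ℂ).flip pr₁
    let C₂ : (ℝ × E' →L[ℝ] ℂ) →L[ℝ] (ℝ × E × E' →L[ℝ] ℂ) :=
      (ContinuousLinearMap.compL ℝ (ℝ × E × E') (ℝ × E') ℂ).flip pr₂
    have hc₁ : ContinuousWithinAt (pr₁ (E := E) (E' := E')) (Icc (0 : ℝ) 1 ×ˢ univ) (t, x, y) :=
      (pr₁ (E := E) (E' := E')).continuous.continuousWithinAt
    have hc₂ : ContinuousWithinAt (pr₂ (E := E) (E' := E')) (Icc (0 : ℝ) 1 ×ˢ univ) (t, x, y) :=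
      (pr₂ (E := E) (E' := E')).continuous.continuousWithinAt
    have hm₁ : MapsTo (pr₁ (E := E) (E' := E')) (Icc (0 : ℝ) 1 ×ˢ univ) (Icc (0 : ℝ) 1 ×ˢ univ) :=
      fun p hp => ⟨hp.1, mem_univ _⟩
    have hm₂ : MapsTo (pr₂ (E := E) (E' := E')) (Icc (0 : ℝ) 1 ×ˢ univ) (Icc (0 : ℝ) 1 ×ˢ univ) :=
      fun p hp => ⟨hp.1, mem_univ _⟩
    have hp₁ := (hc₁.tendsto_nhdsWithin hm₁) hT₁
    have hp₂ := (hc₂.tendsto_nhdsWithin hm₂) hT₂
    have hl₁ := C₁.lipschitz.comp_lipschitzOnWith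
      (hL₁.comp (pr₁ (E := E) (E' := E')).lipschitz.lipschitzOnWith (mapsTo_preimage _ _))
    have hl₂ := C₂.lipschitz.comp_lipschitzOnWith
      (hL₂.comp (pr₂ (E := E) (E' := E')).lipschitz.lipschitzOnWith (mapsTo_preimage _ _))
    refine ⟨‖C₁‖₊ * (K₁ * ‖(pr₁ (E := E) (E' := E'))‖₊) +
        ‖C₂‖₊ * (K₂ * ‖(pr₂ (E := E) (E' := E'))‖₊),
      (Icc (0 : ℝ) 1 ×ˢ univ) ∩ ((pr₁ ⁻¹' T₁) ∩ (pr₂ ⁻¹' T₂)),
      inter_mem self_mem_nhdsWithin (inter_mem hp₁ hp₂), ?_⟩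
    have h := ((hl₁.mono (inter_subset_left (s := pr₁ ⁻¹' T₁) (t := pr₂ ⁻¹' T₂))).add
      (hl₂.mono (inter_subset_right (s := pr₁ ⁻¹' T₁) (t := pr₂ ⁻¹' T₂)))).mono
        (inter_subset_right (s := Icc (0 : ℝ) 1 ×ˢ univ))
    intro p hp q hq
    have e : ∀ p ∈ (Icc (0 : ℝ) 1 ×ˢ (univ : Set (E × E'))), fderiv ℝ (osum H H') p =
        C₁ (fderiv ℝ H (pr₁ p)) + C₂ (fderiv ℝ H' (pr₂ p)) := fun p hp =>
      (hasFDerivAt_osum hH hH' hp.1 p.2.1 p.2.2).fderiv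
    rw [e p hp.1, e q hq.1]
    exact h hp hq
  hom := fun t ht r hr p => by
    unfold osum
    rw [smul_add]
    exact congrArg₂ (· + ·) (hH.hom t ht r hr p.1) (hH'.hom t ht r hr p.2)
  reg := by
    rintro t ht ⟨x, y⟩ hxy
    have hd := (hasFDerivAt_osum hH hH' ht x y).fderiv
    have on₁ : (∀ b : ℂ, ∃ v : E, fderiv ℝ H (t, x) (0, v) = b) →
        ∀ b : ℂ, ∃ v : E × E', fderiv ℝ (osum H H') (t, x, y) (0, v) = b := by
      intro h b
      obtain ⟨v, hv⟩ := h b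
      refine ⟨(v, 0), ?_⟩
      rw [hd]
      have h0 : fderiv ℝ H' (t, y) (0, 0) = 0 := map_zero (fderiv ℝ H' (t, y))
      show fderiv ℝ H (t, x) (0, v) + fderiv ℝ H' (t, y) (0, 0) = b
      rw [hv, h0, add_zero]
    have on₂ : (∀ b : ℂ, ∃ v : E', fderiv ℝ H' (t, y) (0, v) = b) →
        ∀ b : ℂ, ∃ v : E × E', fderiv ℝ (osum H H') (t, x, y) (0, v) = b := by
      intro h b
      obtain ⟨v, hv⟩ := h b
      refine ⟨(0, v), ?_⟩
      rw [hd]
      have h0 : fderiv ℝ H (t, x) (0, 0) = 0 := map_zero (fderiv ℝ H (t, x))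
      show fderiv ℝ H (t, x) (0, 0) + fderiv ℝ H' (t, y) (0, v) = b
      rw [hv, h0, zero_add]
    by_cases hx : x = 0
    · have hy : y ≠ 0 := fun h => hxy (by rw [hx, h]; rfl)
      rcases hH'.reg t ht y hy with h | h
      · exact Or.inl (on₂ h)
      · right
        show H (t, x) + H' (t, y) ∈ Neg
        rw [hx, hH.zero ht, zero_add]
        exact h
    · rcases hH.reg t ht x hx with h | h
      · exact Or.inl (on₁ h)
      · by_cases hy : y = 0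
        · right
          show H (t, x) + H' (t, y) ∈ Neg
          rw [hy, hH'.zero ht, add_zero]
          exact h
        · rcases hH'.reg t ht y hy with h' | h'
          · exact Or.inl (on₂ h')
          · exact Or.inr (Neg_add h h')

end Sum

end Crest.Agent.R267.Mneg_951
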