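import Crest.Agent.R267.MnegB_951

/-!
# Row 267 (helper951): the class `M⁻`, part 3: `C²` off `0` and homogeneous of degree `2`
-/

set_option autoImplicit false
set_option linter.unusedSectionVars false

noncomputable section

open Set Filter Topology Metric
open scoped NNReal ContDiff
open Crest.Agent.R267.Reg_808 Crest.Agent.R267.FlowG_951

namespace Crest.Agent.R267.Mneg_951

variable {E : Type*} [NormedAddCommGroup E] [NormedSpace ℝ E]

/-- the regularity part of the class: `C^{1,1}` and homogeneous of degree `2` -/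
structure C11 (H : ℝ × E → ℂ) : Prop where
  diff : ∀ t ∈ Icc (0 : ℝ) 1, ∀ x, DifferentiableAt ℝ H (t, x)
  lip : LocallyLipschitzOn (Icc (0 : ℝ) 1 ×ˢ univ) (fderiv ℝ H)
  hom : ∀ t ∈ Icc (0 : ℝ) 1, ∀ r : ℝ, 0 < r → ∀ x, H (t, r • x) = (r ^ 2) • H (t, x)

theorem MP.c11 {H : ℝ × E → ℂ} (h : MP H) : C11 H := ⟨h.diff, h.lip, h.hom⟩

theorem C11.mp {H : ℝ × E → ℂ} (h : C11 H) (hreg : ∀ t ∈ Icc (0 : ℝ) 1, ∀ x, x ≠ 0 →
    (∀ b : ℂ, ∃ y : E, fderiv ℝ H (t, x) (0, y) = b) ∨ H (t, x) ∈ Neg) : MP H :=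
  ⟨h.diff, h.lip, h.hom, hreg⟩

/-- the dilation `(t, x) ↦ (t, r x)` -/
def dil (r : ℝ) : ℝ × E →L[ℝ] ℝ × E :=
  (ContinuousLinearMap.fst ℝ ℝ E).prod (r • ContinuousLinearMap.snd ℝ ℝ E)

theorem dil_apply (r : ℝ) (p : ℝ × E) : dil r p = (p.1, r • p.2) := rfl

theorem dil_inv {r : ℝ} (hr : r ≠ 0) (p : ℝ × E) : dil r (dil r⁻¹ p) = p := by
  rw [dil_apply, dil_apply, smul_smul, mul_inv_cancel₀ hr, one_smul]

theorem norm_dil_inv_le {r : ℝ} (hr : 0 < r) (hr1 : r ≤ 1) :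
    ‖dil (E := E) r⁻¹‖ ≤ r⁻¹ := by
  refine ContinuousLinearMap.opNorm_le_bound _ (inv_nonneg.2 hr.le) fun p => ?_
  rw [dil_apply, Prod.norm_def]
  have h1 : 1 ≤ r⁻¹ := (one_le_inv₀ hr).2 hr1
  refine max_le ?_ ?_
  · calc ‖p.1‖ ≤ ‖p‖ := norm_fst_le p
      _ ≤ r⁻¹ * ‖p‖ := le_mul_of_one_le_left (norm_nonneg _) h1
  · rw [norm_smul, Real.norm_of_nonneg (inv_nonneg.2 hr.le)]
    exact mul_le_mul_of_nonneg_left (norm_snd_le p) (inv_nonneg.2 hr.le)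

section

variable {T : Set ℝ} {H : ℝ × E → ℂ}

/-- open half space -/
theorem isOpen_dom (hT : IsOpen T) : IsOpen (T ×ˢ ({0}ᶜ : Set E)) :=
  hT.prod isOpen_compl_singleton

theorem fderiv_dil (hT : IsOpen T) (hC : ContDiffOn ℝ 2 H (T ×ˢ {0}ᶜ))
    (hom : ∀ t ∈ T, ∀ r : ℝ, 0 < r → ∀ x, H (t, r • x) = (r ^ 2) • H (t, x)) {p : ℝ × E}
    (hp : p ∈ T ×ˢ ({0}ᶜ : Set E)) {r : ℝ} (hr : 0 < r) :
    fderiv ℝ H (dil r p) = (r ^ 2) • (fderiv ℝ H p).comp (dil r⁻¹) := by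
  have hop := isOpen_dom (E := E) hT
  have hp' : dil r p ∈ T ×ˢ ({0}ᶜ : Set E) := ⟨hp.1, smul_ne_zero hr.ne' hp.2⟩
  have h1 : HasFDerivAt (fun q => H (dil r q)) ((fderiv ℝ H (dil r p)).comp (dil r)) p := by
    have h2 : HasFDerivAt H (fderiv ℝ H (dil r p)) (dil r p) :=
      (((hC _ hp').contDiffAt (hop.mem_nhds hp')).differentiableAt (by norm_num)).hasFDerivAt
    exact h2.comp p (dil (E := E) r).hasFDerivAt
  have h2 : HasFDerivAt (fun q => H (dil r q)) ((r ^ 2) • fderiv ℝ H p) p := by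
    have h3 : HasFDerivAt (fun q => (r ^ 2) • H q) ((r ^ 2) • fderiv ℝ H p) p :=
      (((hC _ hp).contDiffAt (hop.mem_nhds hp)).differentiableAt
        (by norm_num)).hasFDerivAt.fun_const_smul (r ^ 2)
    refine h3.congr_of_eventuallyEq ?_
    filter_upwards [hop.mem_nhds hp] with q hq
    exact hom q.1 hq.1 r hr q.2
  have h3 := h1.unique h2
  refine ContinuousLinearMap.ext fun v => ?_
  have h4 := congrArg (fun A : ℝ × E →L[ℝ] ℂ => A (dil r⁻¹ v)) h3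
  simp only [ContinuousLinearMap.comp_apply, dil_inv hr.ne'] at h4
  rw [h4]
  rfl

/-- the second derivative is bounded near the origin -/
theorem fderiv2_dil (hT : IsOpen T) (hC : ContDiffOn ℝ 2 H (T ×ˢ {0}ᶜ))
    (hom : ∀ t ∈ T, ∀ r : ℝ, 0 < r → ∀ x, H (t, r • x) = (r ^ 2) • H (t, x)) {p : ℝ × E}
    (hp : p ∈ T ×ˢ ({0}ᶜ : Set E)) {r : ℝ} (hr : 0 < r) (hr1 : r ≤ 1) :
    ‖fderiv ℝ (fderiv ℝ H) (dil r p)‖ ≤ ‖fderiv ℝ (fderiv ℝ H) p‖ := by
  have hop := isOpen_dom (E := E) hT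
  have hp' : dil r p ∈ T ×ˢ ({0}ᶜ : Set E) := ⟨hp.1, smul_ne_zero hr.ne' hp.2⟩
  have hd : ∀ q ∈ T ×ˢ ({0}ᶜ : Set E), DifferentiableAt ℝ (fderiv ℝ H) q := fun q hq =>
    (((hC _ hq).contDiffAt (hop.mem_nhds hq)).fderiv_right (m := 1) (by norm_num)).differentiableAt
      (by norm_num)
  let R : (ℝ × E →L[ℝ] ℂ) →L[ℝ] (ℝ × E →L[ℝ] ℂ) :=
    (ContinuousLinearMap.compL ℝ (ℝ × E) (ℝ × E) ℂ).flip (dil r⁻¹)
  have hR : ∀ A, R A = A.comp (dil r⁻¹) := fun A => rfl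
  have h1 : HasFDerivAt (fun q => fderiv ℝ H (dil r q))
      ((fderiv ℝ (fderiv ℝ H) (dil r p)).comp (dil r)) p :=
    HasFDerivAt.comp (g := fderiv ℝ H) (f := fun q : ℝ × E => dil r q) p (hd _ hp').hasFDerivAt
      (dil (E := E) r).hasFDerivAt
  have h2 : HasFDerivAt (fun q => fderiv ℝ H (dil r q))
      ((r ^ 2) • (R.comp (fderiv ℝ (fderiv ℝ H) p))) p := by
    have h3 : HasFDerivAt (fun q => (r ^ 2) • R (fderiv ℝ H q))
        ((r ^ 2) • (R.comp (fderiv ℝ (fderiv ℝ H) p))) p :=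
      (R.hasFDerivAt.comp p (hd _ hp).hasFDerivAt).fun_const_smul (r ^ 2)
    refine h3.congr_of_eventuallyEq ?_
    filter_upwards [hop.mem_nhds hp] with q hq
    exact fderiv_dil hT hC hom hq hr
  have h3 := h1.unique h2
  have hn := norm_dil_inv_le (E := E) hr hr1
  refine ContinuousLinearMap.opNorm_le_bound _ (norm_nonneg (fderiv ℝ (fderiv ℝ H) p)) fun v => ?_
  have h4 : fderiv ℝ (fderiv ℝ H) (dil r p) v =
      (r ^ 2) • R (fderiv ℝ (fderiv ℝ H) p (dil r⁻¹ v)) := by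
    have h5 := congrArg (fun A : ℝ × E →L[ℝ] (ℝ × E →L[ℝ] ℂ) => A (dil r⁻¹ v)) h3
    simp only [ContinuousLinearMap.comp_apply, dil_inv hr.ne'] at h5
    rw [h5]
    rfl
  rw [h4, norm_smul, Real.norm_of_nonneg (by positivity), hR]
  have h5 : ‖(fderiv ℝ (fderiv ℝ H) p (dil r⁻¹ v)).comp (dil r⁻¹)‖ ≤
      ‖fderiv ℝ (fderiv ℝ H) p‖ * (r⁻¹ * ‖v‖) * r⁻¹ := by
    refine (ContinuousLinearMap.opNorm_comp_le _ _).trans ?_
    have h6 : ‖fderiv ℝ (fderiv ℝ H) p (dil r⁻¹ v)‖ ≤ ‖fderiv ℝ (fderiv ℝ H) p‖ * (r⁻¹ * ‖v‖) := by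
      refine (ContinuousLinearMap.le_opNorm _ _).trans ?_
      refine mul_le_mul_of_nonneg_left ?_ (norm_nonneg _)
      exact (ContinuousLinearMap.le_opNorm _ _).trans (mul_le_mul_of_nonneg_right hn (norm_nonneg _))
    have h7 : 0 ≤ r⁻¹ := inv_nonneg.2 hr.le
    exact mul_le_mul h6 hn (norm_nonneg _) (by positivity)
  calc r ^ 2 * ‖(fderiv ℝ (fderiv ℝ H) p (dil r⁻¹ v)).comp (dil r⁻¹)‖
      ≤ r ^ 2 * (‖fderiv ℝ (fderiv ℝ H) p‖ * (r⁻¹ * ‖v‖) * r⁻¹) := by gcongr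
    _ = ‖fderiv ℝ (fderiv ℝ H) p‖ * ‖v‖ := by field_simp

theorem fderiv_dil_le (hT : IsOpen T) (hC : ContDiffOn ℝ 2 H (T ×ˢ {0}ᶜ))
    (hom : ∀ t ∈ T, ∀ r : ℝ, 0 < r → ∀ x, H (t, r • x) = (r ^ 2) • H (t, x)) {p : ℝ × E}
    (hp : p ∈ T ×ˢ ({0}ᶜ : Set E)) {r : ℝ} (hr : 0 < r) (hr1 : r ≤ 1) :
    ‖fderiv ℝ H (dil r p)‖ ≤ r * ‖fderiv ℝ H p‖ := by
  rw [fderiv_dil hT hC hom hp hr, norm_smul, Real.norm_of_nonneg (by positivity)]
  have h1 := ContinuousLinearMap.opNorm_comp_le (fderiv ℝ H p) (dil r⁻¹)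
  have h2 := norm_dil_inv_le (E := E) hr hr1
  calc r ^ 2 * ‖(fderiv ℝ H p).comp (dil r⁻¹)‖ ≤ r ^ 2 * (‖fderiv ℝ H p‖ * r⁻¹) := by
        refine mul_le_mul_of_nonneg_left (h1.trans ?_) (by positivity)
        exact mul_le_mul_of_nonneg_left h2 (norm_nonneg _)
    _ = r * ‖fderiv ℝ H p‖ := by field_simp

/-- **`C²` off the origin and homogeneous of degree `2` implies `C^{1,1}`** -/
theorem C11.of_contDiffOn [FiniteDimensional ℝ E] (hT : IsOpen T) (hsub : Icc (0 : ℝ) 1 ⊆ T)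
    (hC : ContDiffOn ℝ 2 H (T ×ˢ {0}ᶜ))
    (hom : ∀ t ∈ T, ∀ r : ℝ, 0 < r → ∀ x, H (t, r • x) = (r ^ 2) • H (t, x)) : C11 H := by
  have : ProperSpace E := FiniteDimensional.proper_real E
  have hop := isOpen_dom (E := E) hT
  have hzero : ∀ t ∈ T, H (t, 0) = 0 := by
    intro t ht
    have h1 := hom t ht 2 two_pos 0
    rw [smul_zero] at h1
    have h2 : (3 : ℝ) • H (t, 0) = 0 := by
      have h3 : (3 : ℝ) • H (t, 0) = ((2 : ℝ) ^ 2) • H (t, 0) - H (t, 0) := by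
        have : (3 : ℝ) = 2 ^ 2 - 1 := by norm_num
        rw [this, sub_smul, one_smul]
      rw [h3, ← h1, sub_self]
    exact (smul_eq_zero.1 h2).resolve_left (by norm_num)
  have hCd : ∀ q ∈ T ×ˢ ({0}ᶜ : Set E), ContDiffAt ℝ 2 H q := fun q hq =>
    (hC _ hq).contDiffAt (hop.mem_nhds hq)
  have hCf : ∀ q ∈ T ×ˢ ({0}ᶜ : Set E), ContDiffAt ℝ 1 (fderiv ℝ H) q := fun q hq =>
    (hCd q hq).fderiv_right (m := 1) (by norm_num)
  -- bounds near `(t, 0)`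
  have hloc : ∀ t ∈ Icc (0 : ℝ) 1, ∃ ε > 0, ε ≤ 1 ∧ ∃ M : ℝ, 0 ≤ M ∧ closedBall t ε ⊆ T ∧
      ∀ s ∈ closedBall t ε, ∀ x : E, x ≠ 0 → ‖x‖ ≤ 1 → ‖H (s, x)‖ ≤ M * ‖x‖ ^ 2 ∧
        ‖fderiv ℝ H (s, x)‖ ≤ M * ‖x‖ ∧ ‖fderiv ℝ (fderiv ℝ H) (s, x)‖ ≤ M := by
    intro t ht
    obtain ⟨ε', hε', hball⟩ := Metric.isOpen_iff.1 hT t (hsub ht)
    set ε := min (ε' / 2) 1 with hε
    have hεpos : 0 < ε := lt_min (half_pos hε') one_pos
    have hcb : closedBall t ε ⊆ T := by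
      refine Subset.trans (closedBall_subset_ball ?_) hball
      exact lt_of_le_of_lt (min_le_left _ _) (half_lt_self hε')
    set Q : Set (ℝ × E) := closedBall t ε ×ˢ sphere (0 : E) 1 with hQ
    have hQc : IsCompact Q := (isCompact_closedBall _ _).prod (isCompact_sphere _ _)
    have hQs : Q ⊆ T ×ˢ ({0}ᶜ : Set E) := by
      intro p hp
      refine ⟨hcb hp.1, fun h0 => ?_⟩
      have h1 : ‖p.2‖ = 1 := by simpa using hp.2
      have h0' : p.2 = 0 := h0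
      rw [h0', norm_zero] at h1
      exact zero_ne_one h1
    obtain ⟨M₀, hM₀⟩ := hQc.exists_bound_of_continuousOn (f := H)
      fun p hp => (hCd p (hQs hp)).continuousAt.continuousWithinAt
    obtain ⟨M₁, hM₁⟩ := hQc.exists_bound_of_continuousOn (f := fderiv ℝ H)
      fun p hp => (hCf p (hQs hp)).continuousAt.continuousWithinAt
    obtain ⟨M₂, hM₂⟩ := hQc.exists_bound_of_continuousOn (f := fderiv ℝ (fderiv ℝ H))
      fun p hp => ((hCf p (hQs hp)).fderiv_right (m := 0) (by norm_num)).continuousAt.continuousWithinAt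
    refine ⟨ε, hεpos, min_le_right _ _, max 0 (max M₀ (max M₁ M₂)), le_max_left _ _, hcb, ?_⟩
    intro s hs x hx hx1
    have hn : 0 < ‖x‖ := norm_pos_iff.2 hx
    have hp : (s, ‖x‖⁻¹ • x) ∈ Q := ⟨hs, by
      rw [mem_sphere_zero_iff_norm]; exact norm_unit hx⟩
    have hback : dil ‖x‖ (s, ‖x‖⁻¹ • x) = (s, x) := by
      rw [dil_apply, smul_smul, mul_inv_cancel₀ hn.ne', one_smul]
    have e0 := hom s (hcb hs) ‖x‖ hn (‖x‖⁻¹ • x)
    rw [smul_smul, mul_inv_cancel₀ hn.ne', one_smul] at e0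
    have e1 := fderiv_dil_le hT hC hom (hQs hp) hn hx1
    rw [hback] at e1
    have e2 := fderiv2_dil hT hC hom (hQs hp) hn hx1
    rw [hback] at e2
    refine ⟨?_, ?_, ?_⟩
    · rw [e0, norm_smul, Real.norm_of_nonneg (by positivity), mul_comm]
      refine mul_le_mul_of_nonneg_right ((hM₀ _ hp).trans ?_) (by positivity)
      exact (le_max_left _ _).trans (le_max_right _ _)
    · refine e1.trans ?_
      rw [mul_comm]
      refine mul_le_mul_of_nonneg_right ((hM₁ _ hp).trans ?_) hn.le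
      exact (le_max_left _ _).trans ((le_max_right _ _).trans (le_max_right _ _))
    · refine (e2.trans (hM₂ _ hp)).trans ?_
      exact (le_max_right _ _).trans ((le_max_right _ _).trans (le_max_right _ _))
  -- the derivative at `(t, 0)`
  have hder0 : ∀ t ∈ Icc (0 : ℝ) 1, ∃ ε > 0, ∀ s ∈ ball t ε, HasFDerivAt H (0 : ℝ × E →L[ℝ] ℂ) (s, (0 : E)) := by
    intro t ht
    obtain ⟨ε, hε, hε1, M, hM, hcb, hb⟩ := hloc t ht
    refine ⟨ε, hε, fun s hs => ?_⟩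
    rw [hasFDerivAt_iff_isLittleO_nhds_zero]
    have h1 : ∀ᶠ p : ℝ × E in 𝓝 0, ‖H ((s, (0 : E)) + p) - H (s, 0) - (0 : ℝ × E →L[ℝ] ℂ) p‖ ≤
        M * ‖‖p‖ ^ 2‖ := by
      have h2 : ∀ᶠ p : ℝ × E in 𝓝 0, (s, (0 : E)) + p ∈ ball t ε ×ˢ ball (0 : E) 1 := by
        have h3 : ContinuousAt (fun p : ℝ × E => (s, (0 : E)) + p) 0 := by fun_prop
        refine h3.eventually (IsOpen.mem_nhds (isOpen_ball.prod isOpen_ball) ?_)
        show (s, (0 : E)) + 0 ∈ ball t ε ×ˢ ball (0 : E) 1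
        rw [add_zero]
        exact ⟨hs, mem_ball_self one_pos⟩
      filter_upwards [h2] with p hp
      have hs' : s + p.1 ∈ closedBall t ε := ball_subset_closedBall hp.1
      have hp2 : ‖p.2‖ ≤ 1 := by
        have := hp.2
        rw [mem_ball_zero_iff] at this
        simpa using this.le
      rw [hzero s (hcb (ball_subset_closedBall hs)), sub_zero]
      rw [show (0 : ℝ × E →L[ℝ] ℂ) p = 0 from rfl, sub_zero, norm_pow, norm_norm]
      have e : (s, (0 : E)) + p = (s + p.1, p.2) := by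
        refine Prod.ext rfl ?_
        show 0 + p.2 = p.2
        rw [zero_add]
      rw [e]
      by_cases hx : p.2 = 0
      · rw [hx, hzero _ (hcb hs'), norm_zero]
        positivity
      · refine ((hb _ hs' _ hx hp2).1).trans ?_
        exact mul_le_mul_of_nonneg_left (pow_le_pow_left₀ (norm_nonneg _) (norm_snd_le p) 2) hM
    have h2 := Asymptotics.IsBigO.of_bound M h1
    refine h2.trans_isLittleO ?_
    have h3 : (fun p : ℝ × E => ‖p‖ ^ 2) =o[𝓝 0] fun p => p :=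
      Asymptotics.isLittleO_norm_pow_id one_lt_two
    exact h3
  refine ⟨fun t ht x => ?_, ?_, fun t ht => hom t (hsub ht)⟩
  · by_cases hx : x = 0
    · obtain ⟨ε, hε, h⟩ := hder0 t ht
      rw [hx]
      exact (h t (mem_ball_self hε)).differentiableAt
    · exact (hCd (t, x) ⟨hsub ht, hx⟩).differentiableAt (by norm_num)
  · rintro ⟨t, x⟩ ⟨ht, -⟩
    by_cases hx : x = 0
    · subst hx
      obtain ⟨ε₁, hε₁, hε11, M, hM, hcb, hb⟩ := hloc t ht
      obtain ⟨ε₂, hε₂, h0⟩ := hder0 t ht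
      set B : Set (ℝ × E) := ball t (min ε₁ ε₂) ×ˢ ball (0 : E) 1 with hB
      have hBn : B ∈ 𝓝 (t, (0 : E)) :=
        prod_mem_nhds (ball_mem_nhds _ (lt_min hε₁ hε₂)) (ball_mem_nhds _ one_pos)
      have hBconv : Convex ℝ B := (convex_ball _ _).prod (convex_ball _ _)
      have hB1 : ∀ p ∈ B, p.1 ∈ closedBall t ε₁ := fun p hp =>
        ball_subset_closedBall (ball_subset_ball (min_le_left _ _) hp.1)
      have hB2 : ∀ p ∈ B, p.1 ∈ ball t ε₂ := fun p hp => ball_subset_ball (min_le_right _ _) hp.1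
      have hB3 : ∀ p ∈ B, ‖p.2‖ ≤ 1 := fun p hp => by
        have := hp.2
        rw [mem_ball_zero_iff] at this
        exact this.le
      have hfz : ∀ p ∈ B, p.2 = 0 → fderiv ℝ H p = 0 := by
        intro p hp hp0
        have : p = (p.1, (0 : E)) := Prod.ext rfl hp0
        rw [this]
        exact (h0 p.1 (hB2 p hp)).fderiv
      have hfb : ∀ p ∈ B, ‖fderiv ℝ H p‖ ≤ M * ‖p.2‖ := by
        intro p hp
        by_cases hp0 : p.2 = 0
        · rw [hfz p hp hp0, hp0]; simp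
        · exact (hb p.1 (hB1 p hp) p.2 hp0 (hB3 p hp)).2.1
      refine ⟨Real.toNNReal M, B, mem_nhdsWithin_of_mem_nhds hBn, ?_⟩
      refine LipschitzOnWith.of_dist_le_mul fun p hp q hq => ?_
      rw [dist_eq_norm, dist_eq_norm, Real.coe_toNNReal _ hM]
      by_cases hseg : ∃ c ∈ segment ℝ p q, c.2 = 0
      · obtain ⟨c, hc, hc0⟩ := hseg
        have h1 : ‖p.2‖ ≤ ‖p - c‖ := by
          have : p.2 = (p - c).2 := by rw [Prod.snd_sub, hc0, sub_zero]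
          rw [this]; exact norm_snd_le _
        have h2 : ‖q.2‖ ≤ ‖c - q‖ := by
          have : ‖q.2‖ = ‖(c - q).2‖ := by rw [Prod.snd_sub, hc0, zero_sub, norm_neg]
          rw [this]; exact norm_snd_le _
        have h3 := dist_add_dist_of_mem_segment hc
        rw [dist_eq_norm, dist_eq_norm, dist_eq_norm] at h3
        calc ‖fderiv ℝ H p - fderiv ℝ H q‖ ≤ ‖fderiv ℝ H p‖ + ‖fderiv ℝ H q‖ := norm_sub_le _ _
          _ ≤ M * ‖p.2‖ + M * ‖q.2‖ := add_le_add (hfb p hp) (hfb q hq)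
          _ ≤ M * ‖p - c‖ + M * ‖c - q‖ := by gcongr
          _ = M * ‖p - q‖ := by rw [← mul_add, h3]
      · push Not at hseg
        have hsB : segment ℝ p q ⊆ B := hBconv.segment_subset hp hq
        have h1 := (convex_segment p q).norm_image_sub_le_of_norm_hasFDerivWithin_le
          (𝕜 := ℝ) (f := fderiv ℝ H) (f' := fun c => fderiv ℝ (fderiv ℝ H) c) (C := M)
          (fun c hc => ((hCf c ⟨hcb (hB1 c (hsB hc)), hseg c hc⟩).differentiableAt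
            (by norm_num)).hasFDerivAt.hasFDerivWithinAt)
          (fun c hc => (hb c.1 (hB1 c (hsB hc)) c.2 (hseg c hc) (hB3 c (hsB hc))).2.2)
          (right_mem_segment ℝ p q) (left_mem_segment ℝ p q)
        exact h1
    · obtain ⟨K, S, hS, hL⟩ := (hCf (t, x) ⟨hsub ht, hx⟩).exists_lipschitzOnWith
      exact ⟨K, S, mem_nhdsWithin_of_mem_nhds hS, hL⟩

end

end Crest.Agent.R267.Mneg_951
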