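import Crest.Agent.R267.FlowG_951
import Crest.Agent.R267.Reg_808

/-!
# Row 267 (helper951): the class `M⁻` (post 1700 (1)), task 275

`Neg = {Re z < 0}` (the class `Hm` of #1973).  A path in `M⁻` is `H : ℝ × E → ℂ` (`t ∈ [0,1]`), differentiable with
locally Lipschitz derivative (this is what is stable under sums: a positively homogeneous function
which is `C²` off `0` is only `C^{1,1}` at `0`), positively homogeneous of degree `2` in `x`, such
that for `x ≠ 0` either `d_x H (t, x)` is onto or `H (t, x) ∈ Neg`.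

* `MP.isotopy`: homogeneous isotopy `Φ_t` of `E` with `H (t, Φ_t x) = H (s, Φ_s x)` as soon as
  `H (s, Φ_s x) ∉ Neg`;
* `MP.exists_homeo`, `MP.exists_level_homeo`: zero sets and pages correspond;
* `MP.sum`: sums (both summands moving);
* `MP.of_contDiffOn`: `C²` off `0`.
-/

set_option autoImplicit false
set_option linter.unusedSectionVars false

noncomputable section

open Set Filter Topology Metric
open scoped NNReal ContDiff
open Crest.Agent.R267.Reg_808 Crest.Agent.R267.FlowG_951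

namespace Crest.Agent.R267.Mneg_951

/-- the left half plane -/
def Neg : Set ℂ := {z | z.re < 0}

theorem isOpen_Neg : IsOpen Neg :=
  isOpen_lt Complex.continuous_re continuous_const

theorem Neg_add {z w : ℂ} (hz : z ∈ Neg) (hw : w ∈ Neg) : z + w ∈ Neg := by
  simp only [Neg, mem_ofPred_eq, Complex.add_re] at *
  linarith

theorem Neg_smul {z : ℂ} {r : ℝ} (hr : 0 < r) : r • z ∈ Neg ↔ z ∈ Neg := by
  simp only [Neg, mem_ofPred_eq, Complex.smul_re, smul_eq_mul]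
  constructor
  · intro h
    by_contra h1
    push Not at h1
    have := mul_nonneg hr.le h1
    linarith
  · intro h
    exact mul_neg_of_pos_of_neg hr h

theorem zero_notMem_Neg : (0 : ℂ) ∉ Neg := by simp [Neg]

theorem notMem_Neg_of_nonneg {z : ℂ} (h : 0 ≤ z.re) : z ∉ Neg := by
  simp only [Neg, mem_ofPred_eq, not_lt]
  exact h

variable {E : Type*} [NormedAddCommGroup E] [NormedSpace ℝ E]
variable {E' : Type*} [NormedAddCommGroup E'] [NormedSpace ℝ E']

/-- paths in the class `M⁻` -/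
structure MP (H : ℝ × E → ℂ) : Prop where
  diff : ∀ t ∈ Icc (0 : ℝ) 1, ∀ x, DifferentiableAt ℝ H (t, x)
  lip : LocallyLipschitzOn (Icc (0 : ℝ) 1 ×ˢ univ) (fderiv ℝ H)
  hom : ∀ t ∈ Icc (0 : ℝ) 1, ∀ r : ℝ, 0 < r → ∀ x, H (t, r • x) = (r ^ 2) • H (t, x)
  reg : ∀ t ∈ Icc (0 : ℝ) 1, ∀ x, x ≠ 0 →
    (∀ b : ℂ, ∃ y : E, fderiv ℝ H (t, x) (0, y) = b) ∨ H (t, x) ∈ Neg

namespace MP

variable {H : ℝ × E → ℂ}

theorem zero (hH : MP H) {t : ℝ} (ht : t ∈ Icc (0 : ℝ) 1) : H (t, 0) = 0 := by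
  have h1 := hH.hom t ht 2 two_pos 0
  rw [smul_zero] at h1
  have h2 : (3 : ℝ) • H (t, 0) = 0 := by
    have h3 : (3 : ℝ) • H (t, 0) = ((2 : ℝ) ^ 2) • H (t, 0) - H (t, 0) := by
      have : (3 : ℝ) = 2 ^ 2 - 1 := by norm_num
      rw [this, sub_smul, one_smul]
    rw [h3, ← h1, sub_self]
  exact (smul_eq_zero.1 h2).resolve_left (by norm_num)

/-- homogeneity of the derivative -/
theorem fderiv_hom (hH : MP H) {t : ℝ} (ht : t ∈ Icc (0 : ℝ) 1) {r : ℝ} (hr : 0 < r) (x : E)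
    (s : ℝ) (v : E) : fderiv ℝ H (t, r • x) (s, r • v) = (r ^ 2) • fderiv ℝ H (t, x) (s, v) := by
  let L : ℝ × E →L[ℝ] ℝ × E := (ContinuousLinearMap.fst ℝ ℝ E).prod
    (r • ContinuousLinearMap.snd ℝ ℝ E)
  have hL : ∀ p : ℝ × E, L p = (p.1, r • p.2) := fun p => rfl
  have h1 : HasFDerivWithinAt (fun p : ℝ × E => H (L p)) ((fderiv ℝ H (t, r • x)).comp L)
      (Icc (0 : ℝ) 1 ×ˢ univ) (t, x) := by
    have h2 : HasFDerivAt H (fderiv ℝ H (t, r • x)) (L (t, x)) := (hH.diff t ht (r • x)).hasFDerivAt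
    exact (h2.comp (t, x) L.hasFDerivAt).hasFDerivWithinAt
  have h2 : HasFDerivWithinAt (fun p : ℝ × E => H (L p)) ((r ^ 2) • fderiv ℝ H (t, x))
      (Icc (0 : ℝ) 1 ×ˢ univ) (t, x) := by
    have h3 : HasFDerivWithinAt (fun p : ℝ × E => (r ^ 2) • H p) ((r ^ 2) • fderiv ℝ H (t, x))
        (Icc (0 : ℝ) 1 ×ˢ univ) (t, x) :=
      ((hH.diff t ht x).hasFDerivAt.fun_const_smul (r ^ 2)).hasFDerivWithinAt
    refine h3.congr (fun p hp => ?_) ?_
    · rw [hL]
      exact hH.hom p.1 hp.1 r hr p.2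
    · rw [hL]
      exact hH.hom t ht r hr x
  have hud : UniqueDiffWithinAt ℝ (Icc (0 : ℝ) 1 ×ˢ (univ : Set E)) (t, x) :=
    (uniqueDiffOn_Icc zero_lt_one).prod uniqueDiffOn_univ (t, x) ⟨ht, mem_univ _⟩
  have h3 := hud.eq h1 h2
  exact congrArg (fun A : ℝ × E →L[ℝ] ℂ => A (s, v)) h3

end MP

theorem const_of {F : Type*} [NormedAddCommGroup F] [NormedSpace ℝ F] {u : ℝ → F} {t₀ : ℝ}
    (ht₀ : t₀ ∈ Icc (0 : ℝ) 1)
    (hu : ∀ t ∈ Icc (0 : ℝ) 1, ContinuousAt u t)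
    (hu' : ∀ t ∈ Icc (0 : ℝ) 1, u t = u t₀ →
      ∀ᶠ r in 𝓝 t, r ∈ Icc (0 : ℝ) 1 → HasDerivAt u 0 r) :
    ∀ t ∈ Icc (0 : ℝ) 1, u t = u t₀ := by
  have hclopen : IsClopen {t : Icc (0 : ℝ) 1 | u t = u t₀} := by
    have hcont : Continuous fun t : Icc (0 : ℝ) 1 => u t := by
      rw [continuous_iff_continuousAt]
      intro t
      exact ContinuousAt.comp (g := u) (hu t t.2) continuous_subtype_val.continuousAt
    refine ⟨isClosed_eq hcont continuous_const, ?_⟩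
    rw [isOpen_iff_mem_nhds]
    intro t ht
    have ht' : u t = u t₀ := ht
    obtain ⟨ε, hε, hball⟩ := Metric.eventually_nhds_iff_ball.1 (hu' t t.2 ht')
    have h2 : ∀ᶠ r : Icc (0 : ℝ) 1 in 𝓝 t, (r : ℝ) ∈ Metric.ball (t : ℝ) ε :=
      continuous_subtype_val.continuousAt.eventually (Metric.ball_mem_nhds _ hε)
    filter_upwards [h2] with r hr
    show u r = u t₀
    rw [← ht']
    refine Iso_808.eq_of_hasDerivAt_zero fun q hq => ?_
    have hq1 : q ∈ Icc (0 : ℝ) 1 := (convex_Icc (0 : ℝ) 1).ordConnected.uIcc_subset t.2 r.2 hq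
    refine hball q ?_ hq1
    rw [Metric.mem_ball, Real.dist_eq] at hr ⊢
    exact lt_of_le_of_lt (abs_sub_left_of_mem_uIcc hq) hr
  have huniv := hclopen.eq_univ ⟨⟨t₀, ht₀⟩, rfl⟩
  intro t ht
  have : (⟨t, ht⟩ : Icc (0 : ℝ) 1) ∈ {t : Icc (0 : ℝ) 1 | u t = u t₀} := by
    rw [huniv]; trivial
  exact this

section Isotopy

variable [FiniteDimensional ℝ E] {H : ℝ × E → ℂ}

/-- the space derivative and the time derivative, as a linear function of the derivative -/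
def split : (ℝ × E →L[ℝ] ℂ) →L[ℝ] (E →L[ℝ] ℂ) × ℂ :=
  ((ContinuousLinearMap.compL ℝ E (ℝ × E) ℂ).flip (ContinuousLinearMap.inr ℝ ℝ E)).prod
    (ContinuousLinearMap.apply ℝ ℂ ((1 : ℝ), (0 : E)))

theorem split_fst (A : ℝ × E →L[ℝ] ℂ) (y : E) : (split A).1 y = A (0, y) := by
  simp [split]

theorem split_snd (A : ℝ × E →L[ℝ] ℂ) : (split A).2 = A (1, 0) := by
  simp [split]

/-- invertibility of the Gram operator -/
def Good (A : E →L[ℝ] ℂ) : Prop :=
  ∃ e : (ℂ →L[ℝ] ℝ) ≃L[ℝ] ℂ, (e : (ℂ →L[ℝ] ℝ) →L[ℝ] ℂ) = gram A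

/-- the field -/
def vf (θ : ℝ) (A : E →L[ℝ] ℂ) (b : ℂ) : E := -(θ • rinv A b)

theorem contDiffAt_vf {q : ((E →L[ℝ] ℂ) × ℂ) × ℝ} (h : Good q.1.1) :
    ContDiffAt ℝ 1 (fun q : ((E →L[ℝ] ℂ) × ℂ) × ℝ => vf q.2 q.1.1 q.1.2) q := by
  unfold vf
  have h1 : ContDiffAt ℝ 1 (fun q : ((E →L[ℝ] ℂ) × ℂ) × ℝ => q.1.1) q :=
    contDiffAt_fst.fst
  have h2 : ContDiffAt ℝ 1 (fun q : ((E →L[ℝ] ℂ) × ℂ) × ℝ => rinv q.1.1) q :=
    ContDiffAt.comp (g := rinv) (f := fun q : ((E →L[ℝ] ℂ) × ℂ) × ℝ => q.1.1) q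
      (contDiffAt_rinv h) h1
  exact (contDiffAt_snd.smul (h2.clm_apply contDiffAt_fst.snd)).neg

theorem vf_spec {A : E →L[ℝ] ℂ} (h : Good A) (b : ℂ) : A (vf 1 A b) = -b := by
  unfold vf
  rw [one_smul, map_neg, rinv_spec h]

theorem vf_zero (θ : ℝ) (A : E →L[ℝ] ℂ) : vf θ A 0 = 0 := by
  unfold vf
  rw [map_zero, smul_zero, neg_zero]

/-- **isotopy of a path in `M⁻`** -/
theorem MP.isotopy (hH : MP H) :
    ∃ Φ : ℝ → (E ≃ₜ E), (∀ x, Φ 0 x = x) ∧
      (Continuous fun p : ℝ × E => Φ p.1 p.2) ∧ (Continuous fun p : ℝ × E => (Φ p.1).symm p.2) ∧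
      (∀ t (r : ℝ), 0 < r → ∀ x, Φ t (r • x) = r • Φ t x) ∧ (∀ t, Φ t 0 = 0) ∧
      (∀ x, ∀ s ∈ Icc (0 : ℝ) 1, ∀ t ∈ Icc (0 : ℝ) 1, H (s, Φ s x) ∉ Neg →
        H (t, Φ t x) = H (s, Φ s x)) ∧
      (∀ x, (∀ t ∈ Icc (0 : ℝ) 1, fderiv ℝ H (t, x) (1, 0) = 0) → ∀ t, Φ t x = x) := by
  classical
  have : ProperSpace E := FiniteDimensional.proper_real E
  set Q : Set (ℝ × E) := Icc (0 : ℝ) 1 ×ˢ sphere (0 : E) 1 with hQ
  have hQc : IsCompact Q := isCompact_Icc.prod (isCompact_sphere _ _)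
  have hQsub : Q ⊆ Icc (0 : ℝ) 1 ×ˢ (univ : Set E) := fun p hp => ⟨hp.1, mem_univ _⟩
  have hQ0 : ∀ p ∈ Q, p.2 ≠ 0 := by
    intro p hp h0
    have h1 : ‖p.2‖ = 1 := by simpa using hp.2
    rw [h0, norm_zero] at h1
    exact zero_ne_one h1
  have hHc : ContinuousOn H Q := fun p hp =>
    (hH.diff p.1 hp.1 p.2).continuousAt.continuousWithinAt
  have hlip : LocallyLipschitzOn Q (fderiv ℝ H) := hH.lip.mono hQsub
  -- the set of singular points and the set of values outside `Neg`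
  let good : Set (E →L[ℝ] ℂ) := {A | Good A}
  have hgo : IsOpen good := isOpen_good
  have hAc : ContinuousOn (fun p => (split (fderiv ℝ H p)).1) Q := by
    have h1 : Continuous fun A : ℝ × E →L[ℝ] ℂ => (split A).1 :=
      continuous_fst.comp (split (E := E)).continuous
    exact h1.comp_continuousOn hlip.continuousOn
  obtain ⟨U₁, hU₁, hU₁'⟩ := continuousOn_iff'.1 hAc good hgo
  obtain ⟨U₂, hU₂, hU₂'⟩ := continuousOn_iff'.1 hHc Neg isOpen_Neg
  set S : Set (ℝ × E) := Q \ U₁ with hS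
  set F : Set (ℝ × E) := Q \ U₂ with hF
  have hSc : IsCompact S := hQc.diff hU₁
  have hFc : IsCompact F := hQc.diff hU₂
  have hSgood : ∀ p ∈ Q, p ∉ S → Good (split (fderiv ℝ H p)).1 := by
    intro p hp hpS
    have h1 : p ∈ U₁ := by
      by_contra h
      exact hpS ⟨hp, h⟩
    have h2 : p ∈ (fun p => (split (fderiv ℝ H p)).1) ⁻¹' good ∩ Q := by
      rw [hU₁']; exact ⟨h1, hp⟩
    exact h2.1
  have hFN : ∀ p ∈ Q, H p ∉ Neg → p ∈ F := by
    intro p hp h
    refine ⟨hp, fun h1 => h ?_⟩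
    have h2 : p ∈ H ⁻¹' Neg ∩ Q := by rw [hU₂']; exact ⟨h1, hp⟩
    exact h2.1
  have hdisj : Disjoint F S := by
    rw [Set.disjoint_left]
    intro p hpF hpS
    have h1 : H p ∉ Neg := by
      intro h
      have h2 : p ∈ H ⁻¹' Neg ∩ Q := ⟨h, hpF.1⟩
      rw [hU₂'] at h2
      exact hpF.2 h2.1
    have h3 := (hH.reg p.1 hpF.1.1 p.2 (hQ0 p hpF.1)).resolve_right h1
    have h4 : Good (split (fderiv ℝ H p)).1 := by
      refine gram_invertible fun b => ?_
      obtain ⟨y, hy⟩ := h3 b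
      exact ⟨y, by rw [split_fst]; exact hy⟩
    have h5 : p ∈ (fun p => (split (fderiv ℝ H p)).1) ⁻¹' good ∩ Q := ⟨h4, hpF.1⟩
    rw [hU₁'] at h5
    exact hpS.2 h5.1
  obtain ⟨δ, hδ, hδd⟩ := hdisj.exists_cthickenings hFc hSc.isClosed
  have hη : 0 < δ / 2 := half_pos hδ
  let θ : ℝ × E → ℝ := fun p => (thickenedIndicator hη (thickening (δ / 2) F) p : ℝ)
  have hθ1 : ∀ p ∈ thickening (δ / 2) F, θ p = 1 := by
    intro p hp
    have := thickenedIndicator_one hη (thickening (δ / 2) F) hp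
    show ((thickenedIndicator hη (thickening (δ / 2) F) p : ℝ≥0) : ℝ) = 1
    rw [this]; rfl
  have hθ0 : ∀ p ∈ thickening δ S, θ p = 0 := by
    intro p hp
    have h1 : p ∉ thickening (δ / 2) (thickening (δ / 2) F) := by
      intro h
      have h2 := thickening_thickening_subset (δ / 2) (δ / 2) F h
      rw [add_halves] at h2
      exact Set.disjoint_left.1 hδd (thickening_subset_cthickening _ _ h2)
        (thickening_subset_cthickening _ _ hp)
    have := thickenedIndicator_zero hη (thickening (δ / 2) F) h1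
    show ((thickenedIndicator hη (thickening (δ / 2) F) p : ℝ≥0) : ℝ) = 0
    rw [this]; rfl
  have hθlip : LipschitzWith (δ / 2).toNNReal⁻¹ θ := by
    have h1 := lipschitzWith_thickenedIndicator hη (thickening (δ / 2) F)
    intro p q
    exact h1 p q
  -- the field on `Q`
  let W : ℝ × E → E := fun p => vf (θ p) (split (fderiv ℝ H p)).1 (split (fderiv ℝ H p)).2
  have hWlip : LocallyLipschitzOn Q W := by
    intro p hp
    by_cases hpS : p ∈ thickening δ S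
    · refine ⟨0, Q ∩ thickening δ S, inter_mem self_mem_nhdsWithin
        (mem_nhdsWithin_of_mem_nhds (isOpen_thickening.mem_nhds hpS)), ?_⟩
      have h0 : ∀ q ∈ Q ∩ thickening δ S, W q = 0 := by
        intro q hq
        show vf (θ q) _ _ = 0
        rw [hθ0 q hq.2]
        simp [vf]
      intro q hq q' hq'
      rw [h0 q hq, h0 q' hq']
      simp
    · have hpS' : p ∉ S := fun h => hpS (self_subset_thickening hδ S h)
      have hg := hSgood p hp hpS'
      obtain ⟨K₁, T₁, hT₁, hL₁⟩ := (contDiffAt_vf (E := E)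
        (q := (split (fderiv ℝ H p), θ p)) hg).exists_lipschitzOnWith
      obtain ⟨K₂, T₂, hT₂, hL₂⟩ := hlip hp
      have hL₃ : LipschitzOnWith (max (‖(split (E := E))‖₊ * K₂) (δ / 2).toNNReal⁻¹)
          (fun q => (split (fderiv ℝ H q), θ q)) T₂ := by
        have h1 := (split (E := E)).lipschitz.comp_lipschitzOnWith hL₂
        exact h1.prodMk hθlip.lipschitzOnWith
      have hcont : ContinuousWithinAt (fun q => (split (fderiv ℝ H q), θ q)) Q p :=
        ((split (E := E)).continuous.continuousAt.comp_continuousWithinAt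
          (hlip.continuousOn p hp)).prodMk hθlip.continuous.continuousWithinAt
      have hpre := hcont.preimage_mem_nhdsWithin hT₁
      refine ⟨K₁ * max (‖(split (E := E))‖₊ * K₂) (δ / 2).toNNReal⁻¹,
        T₂ ∩ ((fun q => (split (fderiv ℝ H q), θ q)) ⁻¹' T₁), inter_mem hT₂ hpre, ?_⟩
      exact hL₁.comp (hL₃.mono inter_subset_left) fun q hq => hq.2
  obtain ⟨C, hC⟩ := hWlip.exists_lipschitzOnWith_of_compact hQc
  obtain ⟨Φ, hΦ0, hΦs, hΦc, hΦc', hΦh, hΦz, hΦu⟩ := exists_hflow (W := W) hC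
  have hunit : ∀ {t : ℝ} {x : E}, t ∈ Icc (0 : ℝ) 1 → x ≠ 0 → (t, ‖x‖⁻¹ • x) ∈ Q :=
    fun ht hx => ⟨ht, by rw [mem_sphere_zero_iff_norm]; exact norm_unit hx⟩
  have hback : ∀ x : E, x ≠ 0 → ‖x‖ • (‖x‖⁻¹ • x) = x := by
    intro x hx
    rw [smul_smul, mul_inv_cancel₀ (norm_ne_zero_iff.2 hx), one_smul]
  -- the derivative along the field vanishes near `F`
  have hzero : ∀ {t : ℝ} {x : E}, t ∈ Icc (0 : ℝ) 1 → x ≠ 0 →
      (t, ‖x‖⁻¹ • x) ∈ thickening (δ / 2) F → fderiv ℝ H (t, x) (1, hext W t x) = 0 := by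
    intro t x ht hx hth
    have hp := hunit ht hx
    have hnS : (t, ‖x‖⁻¹ • x) ∉ S := by
      intro h
      refine Set.disjoint_left.1 hδd ?_ (self_subset_cthickening S h)
      exact thickening_subset_cthickening_of_le (by linarith) _ hth
    have hg := hSgood _ hp hnS
    have h1 := hH.fderiv_hom ht (norm_pos_iff.2 hx) (‖x‖⁻¹ • x) 1 (W (t, ‖x‖⁻¹ • x))
    rw [hback x hx] at h1
    rw [hext_of_mem W ht, h1]
    have h2 : fderiv ℝ H (t, ‖x‖⁻¹ • x) (1, W (t, ‖x‖⁻¹ • x)) = 0 := by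
      have h3 : ((1 : ℝ), W (t, ‖x‖⁻¹ • x)) = (1, 0) + (0, W (t, ‖x‖⁻¹ • x)) := by simp
      rw [h3, map_add, ← split_snd, ← split_fst]
      have h4 : W (t, ‖x‖⁻¹ • x) = vf 1 (split (fderiv ℝ H (t, ‖x‖⁻¹ • x))).1
          (split (fderiv ℝ H (t, ‖x‖⁻¹ • x))).2 := by
        show vf (θ _) _ _ = _
        rw [hθ1 _ hth]
      rw [h4, vf_spec hg, add_neg_cancel]
    rw [h2, smul_zero]
  refine ⟨Φ, hΦ0, hΦc, hΦc', hΦh, hΦz, fun x s hs t ht hN => ?_, fun x hx t => ?_⟩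
  · by_cases hx : x = 0
    · subst hx
      rw [hΦz, hΦz, hH.zero hs, hH.zero ht]
    have hne : ∀ r, Φ r x ≠ 0 := by
      intro r h
      exact hx ((Φ r).injective (by rw [h, hΦz]))
    have hder : ∀ r ∈ Icc (0 : ℝ) 1, HasDerivAt (fun r => H (r, Φ r x))
        (fderiv ℝ H (r, Φ r x) (1, hext W r (Φ r x))) r := by
      intro r hr
      have h1 := (hH.diff r hr (Φ r x)).hasFDerivAt
      exact h1.comp_hasDerivAt r ((hasDerivAt_id r).prodMk (hΦs x r))
    refine const_of (u := fun r => H (r, Φ r x)) hs (fun r hr => (hder r hr).continuousAt) ?_ t ht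
    intro r hr hrs
    have h1 : H (r, Φ r x) ∉ Neg := by
      have h2 : H (r, Φ r x) = H (s, Φ s x) := hrs
      rw [h2]; exact hN
    have h2 : (r, ‖Φ r x‖⁻¹ • Φ r x) ∈ F := by
      refine hFN _ (hunit hr (hne r)) fun h => h1 ?_
      have h3 := hH.hom r hr ‖Φ r x‖ (norm_pos_iff.2 (hne r)) (‖Φ r x‖⁻¹ • Φ r x)
      rw [hback _ (hne r)] at h3
      rw [h3, Neg_smul (by have := norm_pos_iff.2 (hne r); positivity)]
      exact h
    have hc1 : Continuous fun r => Φ r x :=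
      hΦc.comp (by fun_prop : Continuous fun r : ℝ => (r, x))
    have hc2 : Continuous fun r => (r, ‖Φ r x‖⁻¹ • Φ r x) := by
      refine continuous_id.prodMk (Continuous.smul (Continuous.inv₀ hc1.norm ?_) hc1)
      intro r
      exact norm_ne_zero_iff.2 (hne r)
    have h3 := hc2.continuousAt.eventually
      (isOpen_thickening.mem_nhds (self_subset_thickening hη F h2))
    filter_upwards [h3] with q hq hqI
    have h4 := hder q hqI
    rwa [hzero hqI (hne q) hq] at h4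
  · have h1 : Sol (hext W) fun _ : ℝ => x := by
      intro t
      have h2 : hext W t x = 0 := by
        by_cases hx0 : x = 0
        · rw [hx0, hext_zero]
        have hτ := (projIcc (0 : ℝ) 1 zero_le_one t).2
        have h3 : (split (fderiv ℝ H ((projIcc (0 : ℝ) 1 zero_le_one t : ℝ), ‖x‖⁻¹ • x))).2 = 0 := by
          rw [split_snd]
          have h4 := hH.fderiv_hom hτ (norm_pos_iff.2 hx0) (‖x‖⁻¹ • x) 1 0
          rw [hback x hx0, smul_zero, hx _ hτ] at h4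
          exact (smul_eq_zero.1 h4.symm).resolve_left
            (pow_ne_zero 2 (norm_ne_zero_iff.2 hx0))
        unfold hext
        show ‖x‖ • vf _ _ _ = 0
        rw [h3, vf_zero, smul_zero]
      rw [h2]
      exact hasDerivAt_const t x
    exact (hΦu _ h1 t).symm

end Isotopy

end Crest.Agent.R267.Mneg_951
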