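import Crest.Agent.R267.NSDefs_966

/-!
# Row 267, N2: the nested systems of the six arms (helper780), in the letters of `NSDefs_966.NS`

`Dat m` : finite data (number `n` of cells of the `v`-circle, signs, degrees `i, j`, tables of
`n × 15` naturals, windows `c`); `Dat.S : NS m` its quasi-periodic extension; `Dat.chk : Bool` all
conditions on one period; `Dat.ok : D.chk = true → D.S.Ok`;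
`Dat.kill_iff : D.chk = true → (D.S.kill k l ↔ D.c.getD (k % n).toNat 0 ≤ (l % 15).toNat)`.

Data: `pfx, pfy, pgx, pgy, pz` plain (`n = 15`, all signs `+`), `sfx, sfy, sgx, sgy` signed
(`n = 19, 25, 19, 25`: hub lobes and dummies of 51's words included, #3136).
Everything is checked by `decide +kernel`.
-/

set_option autoImplicit false

namespace Crest.Agent.R267.NSArm_780

open Crest.Agent.R267.NSDefs_966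

/-- entry of a table -/
def ent (T : List (List ℕ)) (a b : ℕ) : ℕ := (T.getD a []).getD b 0

/-- finite data of a nested system -/
structure Dat (m : ℕ) where
  /-- number of cells of the `v`-circle -/
  n : ℕ
  /-- signs of the cells (`true` = `+`) -/
  sg : List Bool
  /-- degrees in `v` -/
  i : Fin (m + 2) → ℕ
  /-- degrees in `w` -/
  j : Fin (m + 2) → ℕ
  /-- tables -/
  T : Fin (m + 2) → List (List ℕ)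
  /-- windows: the cell `(k, l)` is killed iff `c k ≤ l` -/
  c : List ℕ

namespace Dat

variable {m : ℕ} (D : Dat m)

/-- the integer functions -/
def N (s : Fin (m + 2)) (k l : ℤ) : ℤ :=
  D.i s * (k / D.n) + D.j s * (l / 15) + (ent (D.T s) (k % D.n).toNat (l % 15).toNat : ℤ)

/-- the nested system -/
def S : NS m where
  n := D.n
  sg k := if D.sg.getD (k % D.n).toNat true = true then 1 else -1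
  i := D.i
  j := D.j
  N := D.N

/-- value at the corner `(a, b)` of the period, `a ≤ n`, `b ≤ 15` -/
def val (s : Fin (m + 2)) (a b : ℕ) : ℕ :=
  (if a = D.n then D.i s else 0) + (if b = 15 then D.j s else 0) +
    ent (D.T s) (if a = D.n then 0 else a) (if b = 15 then 0 else b)

/-- conditions on one term and one cell -/
def cellC (s : Fin (m + 2)) (a b : ℕ) : Bool :=
  (if D.sg.getD a true = true then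
      decide (D.val s (a + 1) b = D.val s a b ∨ D.val s (a + 1) b = D.val s a b + 1) &&
      decide (D.val s (a + 1) (b + 1) ≤ D.val s a b + 1)
    else
      decide (D.val s (a + 1) b = D.val s a b ∨ D.val s (a + 1) b + 1 = D.val s a b) &&
      decide (D.val s a (b + 1) ≤ D.val s (a + 1) b + 1)) &&
  decide (D.val s a (b + 1) = D.val s a b ∨ D.val s a (b + 1) = D.val s a b + 1)

/-- nestedness of two consecutive terms in one cell -/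
def pairC (s : Fin (m + 1)) (a b : ℕ) : Bool :=
  (if D.sg.getD a true = true then
      decide (D.val s.castSucc (a + 1) b + D.val s.succ a b ≤
        D.val s.castSucc a b + D.val s.succ (a + 1) b)
    else
      decide (D.val s.castSucc a b + D.val s.succ (a + 1) b ≤
        D.val s.castSucc (a + 1) b + D.val s.succ a b)) &&
  decide (D.val s.castSucc a b + D.val s.succ a (b + 1) ≤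
    D.val s.castSucc a (b + 1) + D.val s.succ a b)

/-- own terms in one cell -/
def ownC (a b : ℕ) : Bool :=
  decide (ent (D.T 0) a b = b) &&
  decide (ent (D.T (Fin.last (m + 1))) a b = ent (D.T (Fin.last (m + 1))) a 0) &&
  (if D.sg.getD a true = true then
      decide (D.val (Fin.last (m + 1)) (a + 1) b = D.val (Fin.last (m + 1)) a b + 1)
    else decide (D.val (Fin.last (m + 1)) (a + 1) b + 1 = D.val (Fin.last (m + 1)) a b))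

/-- the term `s` is flat on the cell -/
def flatC (s : Fin (m + 2)) (a b : ℕ) : Bool :=
  decide (D.val s (a + 1) b = D.val s a b) && decide (D.val s a (b + 1) = D.val s a b) &&
    decide (D.val s (a + 1) (b + 1) = D.val s a b)

/-- all conditions -/
def chk : Bool :=
  decide (0 < D.n) && decide (D.i 0 = 0) && decide (D.j 0 = 15) &&
  decide (D.i (Fin.last (m + 1)) = 15) && decide (D.j (Fin.last (m + 1)) = 0) &&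
  decide (∀ s : Fin (m + 1), D.j s.succ < D.j s.castSucc) &&
  decide (∀ a : Fin D.n, ∀ b : Fin 15, (∀ s, D.cellC s a b = true) ∧
    (∀ s, D.pairC s a b = true) ∧ D.ownC a b = true ∧
      ((∃ s, D.flatC s a b = true) ↔ D.c.getD a 0 ≤ b))

end Dat

/-! ### reduction to one period -/

theorem step_div {n : ℕ} (hn : 0 < n) (k : ℤ) :
    ((k % n).toNat + 1 = n ∧ (k + 1) / n = k / n + 1 ∧ (k + 1) % n = 0) ∨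
      ((k % n).toNat + 1 ≠ n ∧ (k + 1) / n = k / n ∧ (k + 1) % n = k % n + 1) := by
  have hn' : (0 : ℤ) < n := by exact_mod_cast hn
  have h1 := Int.emod_nonneg k hn'.ne'
  have h2 := Int.emod_lt_of_pos k hn'
  have h3 : k % n + n * (k / n) = k := Int.emod_add_mul_ediv k n
  by_cases h : (k % n).toNat + 1 = n
  · refine Or.inl ⟨h, ?_⟩
    have h4 : k % n + 1 = n := by omega
    refine (Int.ediv_emod_unique hn').2 ⟨?_, le_rfl, hn'⟩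
    linear_combination h3 - h4
  · refine Or.inr ⟨h, ?_⟩
    have h4 : k % n + 1 < n := by omega
    refine (Int.ediv_emod_unique hn').2 ⟨?_, by omega, h4⟩
    linear_combination h3

namespace Dat

variable {m : ℕ} {D : Dat m}

/-- the base value of a cell -/
def bs (D : Dat m) (s : Fin (m + 2)) (k l : ℤ) : ℤ := D.i s * (k / D.n) + D.j s * (l / 15)

theorem lt_n (hn : 0 < D.n) (k : ℤ) : (k % D.n).toNat < D.n := by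
  have hn' : (0 : ℤ) < D.n := by exact_mod_cast hn
  have h1 := Int.emod_nonneg k hn'.ne'
  have h2 := Int.emod_lt_of_pos k hn'
  omega

theorem lt_15 (l : ℤ) : (l % 15).toNat < 15 := by omega

theorem N00 (hn : 0 < D.n) (s : Fin (m + 2)) (k l : ℤ) :
    D.N s k l = D.bs s k l + D.val s (k % D.n).toNat (l % 15).toNat := by
  have h1 : (k % D.n).toNat ≠ D.n := (lt_n hn k).ne
  have h2 : (l % 15).toNat ≠ 15 := (lt_15 l).ne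
  simp only [N, bs, val, h1, h2, if_false, zero_add]

theorem N10 (hn : 0 < D.n) (s : Fin (m + 2)) (k l : ℤ) :
    D.N s (k + 1) l = D.bs s k l + D.val s ((k % D.n).toNat + 1) (l % 15).toNat := by
  have hn' : (0 : ℤ) < D.n := by exact_mod_cast hn
  have h0 := Int.emod_nonneg k hn'.ne'
  have h2 : (l % 15).toNat ≠ 15 := (lt_15 l).ne
  rcases step_div hn k with ⟨h, e1, e2⟩ | ⟨h, e1, e2⟩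
  · simp only [N, bs, val, h, h2, e1, e2, if_true, if_false]
    push_cast
    ring
  · have e3 : (k % D.n + 1).toNat = (k % D.n).toNat + 1 := by omega
    simp only [N, bs, val, h, h2, e1, e2, e3, if_false, zero_add]

theorem N01 (hn : 0 < D.n) (s : Fin (m + 2)) (k l : ℤ) :
    D.N s k (l + 1) = D.bs s k l + D.val s (k % D.n).toNat ((l % 15).toNat + 1) := by
  have h1 : (k % D.n).toNat ≠ D.n := (lt_n hn k).ne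
  rcases step_div (n := 15) (by norm_num) l with ⟨h, e1, e2⟩ | ⟨h, e1, e2⟩
  · push_cast at h e1 e2
    simp only [N, bs, val, h, h1, e1, e2, if_true, if_false]
    push_cast
    ring
  · push_cast at h e1 e2
    have e3 : (l % 15 + 1).toNat = (l % 15).toNat + 1 := by omega
    simp only [N, bs, val, h, h1, e1, e2, e3, if_false, zero_add]

theorem N11 (hn : 0 < D.n) (s : Fin (m + 2)) (k l : ℤ) :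
    D.N s (k + 1) (l + 1) = D.bs s k l + D.val s ((k % D.n).toNat + 1) ((l % 15).toNat + 1) := by
  have hn' : (0 : ℤ) < D.n := by exact_mod_cast hn
  have h0 := Int.emod_nonneg k hn'.ne'
  rcases step_div (n := 15) (by norm_num) l with ⟨g, f1, f2⟩ | ⟨g, f1, f2⟩ <;>
  rcases step_div hn k with ⟨h, e1, e2⟩ | ⟨h, e1, e2⟩ <;>
  push_cast at g f1 f2
  · simp only [N, bs, val, h, g, e1, e2, f1, f2, if_true]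
    push_cast
    ring
  · have e3 : (k % D.n + 1).toNat = (k % D.n).toNat + 1 := by omega
    simp only [N, bs, val, h, g, e1, e2, e3, f1, f2, if_true, if_false]
    push_cast
    ring
  · have f3 : (l % 15 + 1).toNat = (l % 15).toNat + 1 := by omega
    simp only [N, bs, val, h, g, e1, e2, f1, f2, f3, if_true, if_false]
    push_cast
    ring
  · have e3 : (k % D.n + 1).toNat = (k % D.n).toNat + 1 := by omega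
    have f3 : (l % 15 + 1).toNat = (l % 15).toNat + 1 := by omega
    simp only [N, bs, val, h, g, e1, e2, e3, f1, f2, f3, if_false, zero_add]

/-- the conditions of `chk`, as propositions -/
structure Chk (D : Dat m) : Prop where
  hn : 0 < D.n
  i0 : D.i 0 = 0
  j0 : D.j 0 = 15
  i1 : D.i (Fin.last (m + 1)) = 15
  j1 : D.j (Fin.last (m + 1)) = 0
  hj : ∀ s : Fin (m + 1), D.j s.succ < D.j s.castSucc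
  cell : ∀ (a : Fin D.n) (b : Fin 15), (∀ s, D.cellC s a b = true) ∧
    (∀ s, D.pairC s a b = true) ∧ D.ownC a b = true ∧
      ((∃ s, D.flatC s a b = true) ↔ D.c.getD a 0 ≤ b)

theorem chk_iff (h : D.chk = true) : Chk D := by
  simp only [chk, Bool.and_eq_true, decide_eq_true_eq] at h
  obtain ⟨⟨⟨⟨⟨⟨h1, h2⟩, h3⟩, h4⟩, h5⟩, h6⟩, h7⟩ := h
  exact ⟨h1, h2, h3, h4, h5, h6, h7⟩

theorem Chk.cell' (h : Chk D) (k l : ℤ) : (∀ s, D.cellC s (k % D.n).toNat (l % 15).toNat = true) ∧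
    (∀ s, D.pairC s (k % D.n).toNat (l % 15).toNat = true) ∧
    D.ownC (k % D.n).toNat (l % 15).toNat = true ∧
      ((∃ s, D.flatC s (k % D.n).toNat (l % 15).toNat = true) ↔
        D.c.getD (k % D.n).toNat 0 ≤ (l % 15).toNat) :=
  h.cell ⟨(k % D.n).toNat, lt_n h.hn k⟩ ⟨(l % 15).toNat, lt_15 l⟩

theorem S_sg (D : Dat m) (k : ℤ) :
    (D.sg.getD (k % D.n).toNat true = true ∧ D.S.sg k = 1) ∨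
      (¬ D.sg.getD (k % D.n).toNat true = true ∧ D.S.sg k = -1) := by
  by_cases h : D.sg.getD (k % D.n).toNat true = true
  · exact Or.inl ⟨h, if_pos h⟩
  · exact Or.inr ⟨h, if_neg h⟩

theorem ok (h : D.chk = true) : D.S.Ok := by
  have H := chk_iff h
  have hn := H.hn
  have hn' : (0 : ℤ) < D.n := by exact_mod_cast hn
  exact
  { hn := hn
    sg1 := fun k => by
      rcases S_sg D k with ⟨-, h⟩ | ⟨-, h⟩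
      · exact Or.inl h
      · exact Or.inr h
    i0 := H.i0
    j0 := H.j0
    N0 := fun k l => by
      have h1 := (H.cell' k l).2.2.1
      simp only [ownC, Bool.and_eq_true, decide_eq_true_eq] at h1
      have h2 : D.N 0 k l = l := by
        rw [N, h1.1.1, H.i0, H.j0]
        push_cast
        omega
      exact h2
    i1 := H.i1
    j1 := H.j1
    N1 := fun k l l' => by
      have h1 := (H.cell' k l).2.2.1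
      have h1' := (H.cell' k l').2.2.1
      simp only [ownC, Bool.and_eq_true, decide_eq_true_eq] at h1 h1'
      show D.N (Fin.last (m + 1)) k l = D.N (Fin.last (m + 1)) k l'
      rw [N, N, h1.1.2, h1'.1.2, H.j1]
      push_cast
      ring
    N1s := fun k l => by
      have h1 := (H.cell' k l).2.2.1
      simp only [ownC, Bool.and_eq_true] at h1
      show D.N (Fin.last (m + 1)) (k + 1) l = D.N (Fin.last (m + 1)) k l + D.S.sg k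
      rw [N10 hn, N00 hn]
      rcases S_sg D k with ⟨g, e⟩ | ⟨g, e⟩ <;> rw [e]
      · have h2 := h1.2
        rw [if_pos g, decide_eq_true_eq] at h2
        omega
      · have h2 := h1.2
        rw [if_neg g, decide_eq_true_eq] at h2
        omega
    hj := Fin.strictAnti_iff_succ_lt.2 H.hj
    perk := fun s k l => by
      show D.N s (k + D.n) l = D.N s k l + D.i s
      have e1 : (k + D.n) / (D.n : ℤ) = k / D.n + 1 := by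
        rw [Int.add_ediv_of_dvd_right (dvd_refl _), Int.ediv_self hn'.ne']
      have e2 : (k + D.n) % (D.n : ℤ) = k % D.n := Int.add_emod_right k D.n
      simp only [N, e1, e2]
      ring
    perl := fun s k l => by
      show D.N s k (l + 15) = D.N s k l + D.j s
      have e1 : (l + 15) / 15 = l / 15 + 1 := by omega
      have e2 : (l + 15) % 15 = l % 15 := by omega
      simp only [N, e1, e2]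
      ring
    stepk := fun s k l => by
      have h1 := (H.cell' k l).1 s
      simp only [cellC, Bool.and_eq_true] at h1
      show D.S.sg k * (D.N s (k + 1) l - D.N s k l) = 0 ∨ D.S.sg k * (D.N s (k + 1) l - D.N s k l) = 1
      rw [N10 hn, N00 hn]
      rcases S_sg D k with ⟨g, e⟩ | ⟨g, e⟩ <;> rw [e]
      · have h2 := h1.1
        rw [if_pos g, Bool.and_eq_true, decide_eq_true_eq, decide_eq_true_eq] at h2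
        omega
      · have h2 := h1.1
        rw [if_neg g, Bool.and_eq_true, decide_eq_true_eq, decide_eq_true_eq] at h2
        omega
    stepl := fun s k l => by
      have h1 := (H.cell' k l).1 s
      simp only [cellC, Bool.and_eq_true, decide_eq_true_eq] at h1
      show D.N s k (l + 1) - D.N s k l = 0 ∨ D.N s k (l + 1) - D.N s k l = 1
      rw [N01 hn, N00 hn]
      have h2 := h1.2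
      omega
    diagp := fun s k l hk => by
      have h1 := (H.cell' k l).1 s
      simp only [cellC, Bool.and_eq_true] at h1
      show D.N s (k + 1) (l + 1) ≤ D.N s k l + 1
      rw [N11 hn, N00 hn]
      rcases S_sg D k with ⟨g, e⟩ | ⟨g, e⟩
      · have h2 := h1.1
        rw [if_pos g, Bool.and_eq_true, decide_eq_true_eq, decide_eq_true_eq] at h2
        omega
      · rw [e] at hk; omega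
    diagn := fun s k l hk => by
      have h1 := (H.cell' k l).1 s
      simp only [cellC, Bool.and_eq_true] at h1
      show D.N s k (l + 1) ≤ D.N s (k + 1) l + 1
      rw [N01 hn, N10 hn]
      rcases S_sg D k with ⟨g, e⟩ | ⟨g, e⟩
      · rw [e] at hk; omega
      · have h2 := h1.1
        rw [if_neg g, Bool.and_eq_true, decide_eq_true_eq, decide_eq_true_eq] at h2
        omega
    nestk := fun s k l => by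
      have h1 := (H.cell' k l).2.1 s
      simp only [pairC, Bool.and_eq_true] at h1
      show D.S.sg k * (D.N s.castSucc (k + 1) l - D.N s.succ (k + 1) l) ≤
        D.S.sg k * (D.N s.castSucc k l - D.N s.succ k l)
      rw [N10 hn s.castSucc, N10 hn s.succ, N00 hn s.castSucc, N00 hn s.succ]
      rcases S_sg D k with ⟨g, e⟩ | ⟨g, e⟩ <;> rw [e]
      · have h2 := h1.1
        rw [if_pos g, decide_eq_true_eq] at h2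
        omega
      · have h2 := h1.1
        rw [if_neg g, decide_eq_true_eq] at h2
        omega
    nestl := fun s k l => by
      have h1 := (H.cell' k l).2.1 s
      simp only [pairC, Bool.and_eq_true, decide_eq_true_eq] at h1
      show D.N s.castSucc k l - D.N s.succ k l ≤ D.N s.castSucc k (l + 1) - D.N s.succ k (l + 1)
      rw [N01 hn s.castSucc, N01 hn s.succ, N00 hn s.castSucc, N00 hn s.succ]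
      have h2 := h1.2
      omega }

theorem flat_iff (hn : 0 < D.n) (s : Fin (m + 2)) (k l : ℤ) :
    D.S.flat s k l ↔ D.flatC s (k % D.n).toNat (l % 15).toNat = true := by
  show (D.N s (k + 1) l = D.N s k l ∧ D.N s k (l + 1) = D.N s k l ∧
    D.N s (k + 1) (l + 1) = D.N s k l) ↔ _
  rw [N10 hn, N00 hn, N01 hn, N11 hn]
  simp only [flatC, Bool.and_eq_true, decide_eq_true_eq]
  omega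

/-- **killed cells = complement of the prefixes** -/
theorem kill_iff (h : D.chk = true) (k l : ℤ) :
    D.S.kill k l ↔ D.c.getD (k % D.n).toNat 0 ≤ (l % 15).toNat := by
  have H := chk_iff h
  rw [← (H.cell' k l).2.2.2]
  exact exists_congr fun s => flat_iff H.hn s k l

end Dat

/-! ### data -/

/-- arm fx, plain: table of the term `v^0 w^15` -/
def pfx_0 : List (List ℕ) := [
  [0, 1, 2, 3, 4, 5, 6, 7, 8, 9, 10, 11, 12, 13, 14],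
  [0, 1, 2, 3, 4, 5, 6, 7, 8, 9, 10, 11, 12, 13, 14],
  [0, 1, 2, 3, 4, 5, 6, 7, 8, 9, 10, 11, 12, 13, 14],
  [0, 1, 2, 3, 4, 5, 6, 7, 8, 9, 10, 11, 12, 13, 14],
  [0, 1, 2, 3, 4, 5, 6, 7, 8, 9, 10, 11, 12, 13, 14],
  [0, 1, 2, 3, 4, 5, 6, 7, 8, 9, 10, 11, 12, 13, 14],
  [0, 1, 2, 3, 4, 5, 6, 7, 8, 9, 10, 11, 12, 13, 14],
  [0, 1, 2, 3, 4, 5, 6, 7, 8, 9, 10, 11, 12, 13, 14],
  [0, 1, 2, 3, 4, 5, 6, 7, 8, 9, 10, 11, 12, 13, 14],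
  [0, 1, 2, 3, 4, 5, 6, 7, 8, 9, 10, 11, 12, 13, 14],
  [0, 1, 2, 3, 4, 5, 6, 7, 8, 9, 10, 11, 12, 13, 14],
  [0, 1, 2, 3, 4, 5, 6, 7, 8, 9, 10, 11, 12, 13, 14],
  [0, 1, 2, 3, 4, 5, 6, 7, 8, 9, 10, 11, 12, 13, 14],
  [0, 1, 2, 3, 4, 5, 6, 7, 8, 9, 10, 11, 12, 13, 14],
  [0, 1, 2, 3, 4, 5, 6, 7, 8, 9, 10, 11, 12, 13, 14]]

/-- arm fx, plain: table of the term `v^1 w^9` -/
def pfx_1 : List (List ℕ) := [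
  [0, 1, 2, 3, 4, 5, 6, 6, 7, 8, 8, 9, 9, 9, 9],
  [1, 1, 2, 3, 4, 5, 6, 7, 7, 8, 9, 9, 10, 10, 10],
  [1, 2, 2, 3, 4, 5, 6, 7, 8, 8, 9, 10, 10, 10, 10],
  [1, 2, 3, 3, 4, 5, 6, 7, 8, 9, 9, 10, 10, 10, 10],
  [1, 2, 3, 4, 4, 5, 6, 7, 8, 9, 9, 10, 10, 10, 10],
  [1, 2, 3, 4, 5, 5, 6, 7, 8, 9, 9, 10, 10, 10, 10],
  [1, 2, 3, 4, 5, 6, 6, 7, 8, 9, 9, 10, 10, 10, 10],
  [1, 2, 3, 4, 5, 6, 7, 7, 8, 9, 9, 10, 10, 10, 10],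
  [1, 2, 3, 4, 5, 6, 7, 7, 8, 9, 9, 10, 10, 10, 10],
  [1, 2, 3, 4, 5, 6, 7, 7, 8, 9, 9, 10, 10, 10, 10],
  [1, 2, 3, 4, 5, 6, 7, 7, 8, 9, 9, 10, 10, 10, 10],
  [1, 2, 3, 4, 5, 6, 7, 7, 8, 9, 9, 10, 10, 10, 10],
  [1, 2, 3, 4, 5, 6, 7, 7, 8, 9, 9, 10, 10, 10, 10],
  [1, 2, 3, 4, 5, 6, 7, 7, 8, 9, 9, 10, 10, 10, 10],
  [1, 2, 3, 4, 5, 6, 7, 7, 8, 9, 9, 10, 10, 10, 10]]

/-- arm fx, plain: table of the term `v^3 w^4` -/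
def pfx_2 : List (List ℕ) := [
  [0, 1, 2, 3, 4, 4, 4, 4, 4, 4, 4, 4, 4, 4, 4],
  [1, 1, 2, 3, 4, 5, 5, 5, 5, 5, 5, 5, 5, 5, 5],
  [2, 2, 2, 3, 4, 5, 6, 6, 6, 6, 6, 6, 6, 6, 6],
  [3, 3, 3, 3, 4, 5, 6, 7, 7, 7, 7, 7, 7, 7, 7],
  [3, 4, 4, 4, 4, 5, 6, 7, 7, 7, 7, 7, 7, 7, 7],
  [3, 4, 5, 5, 5, 5, 6, 7, 7, 7, 7, 7, 7, 7, 7],
  [3, 4, 5, 6, 6, 6, 6, 7, 7, 7, 7, 7, 7, 7, 7],
  [3, 4, 5, 6, 7, 7, 7, 7, 7, 7, 7, 7, 7, 7, 7],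
  [3, 4, 5, 6, 7, 7, 7, 7, 7, 7, 7, 7, 7, 7, 7],
  [3, 4, 5, 6, 7, 7, 7, 7, 7, 7, 7, 7, 7, 7, 7],
  [3, 4, 5, 6, 7, 7, 7, 7, 7, 7, 7, 7, 7, 7, 7],
  [3, 4, 5, 6, 7, 7, 7, 7, 7, 7, 7, 7, 7, 7, 7],
  [3, 4, 5, 6, 7, 7, 7, 7, 7, 7, 7, 7, 7, 7, 7],
  [3, 4, 5, 6, 7, 7, 7, 7, 7, 7, 7, 7, 7, 7, 7],
  [3, 4, 5, 6, 7, 7, 7, 7, 7, 7, 7, 7, 7, 7, 7]]

/-- arm fx, plain: table of the term `v^15 w^0` -/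
def pfx_3 : List (List ℕ) := [
  [0, 0, 0, 0, 0, 0, 0, 0, 0, 0, 0, 0, 0, 0, 0],
  [1, 1, 1, 1, 1, 1, 1, 1, 1, 1, 1, 1, 1, 1, 1],
  [2, 2, 2, 2, 2, 2, 2, 2, 2, 2, 2, 2, 2, 2, 2],
  [3, 3, 3, 3, 3, 3, 3, 3, 3, 3, 3, 3, 3, 3, 3],
  [4, 4, 4, 4, 4, 4, 4, 4, 4, 4, 4, 4, 4, 4, 4],
  [5, 5, 5, 5, 5, 5, 5, 5, 5, 5, 5, 5, 5, 5, 5],
  [6, 6, 6, 6, 6, 6, 6, 6, 6, 6, 6, 6, 6, 6, 6],
  [7, 7, 7, 7, 7, 7, 7, 7, 7, 7, 7, 7, 7, 7, 7],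
  [8, 8, 8, 8, 8, 8, 8, 8, 8, 8, 8, 8, 8, 8, 8],
  [9, 9, 9, 9, 9, 9, 9, 9, 9, 9, 9, 9, 9, 9, 9],
  [10, 10, 10, 10, 10, 10, 10, 10, 10, 10, 10, 10, 10, 10, 10],
  [11, 11, 11, 11, 11, 11, 11, 11, 11, 11, 11, 11, 11, 11, 11],
  [12, 12, 12, 12, 12, 12, 12, 12, 12, 12, 12, 12, 12, 12, 12],
  [13, 13, 13, 13, 13, 13, 13, 13, 13, 13, 13, 13, 13, 13, 13],
  [14, 14, 14, 14, 14, 14, 14, 14, 14, 14, 14, 14, 14, 14, 14]]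

/-- arm fx, plain -/
def pfx : Dat 2 where
  n := 15
  sg := [true, true, true, true, true, true, true, true, true, true, true, true, true, true,
  true]
  i := ![0, 1, 3, 15]
  j := ![15, 9, 4, 0]
  T := ![pfx_0, pfx_1, pfx_2, pfx_3]
  c := [15, 12, 11, 7, 7, 7, 7, 4, 4, 4, 4, 4, 4, 4, 4]

theorem pfx_chk : pfx.chk = true := by decide +kernel

theorem pfx_ok : pfx.S.Ok := Dat.ok pfx_chk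

/-- arm fy, plain: table of the term `v^0 w^15` -/
def pfy_0 : List (List ℕ) := [
  [0, 1, 2, 3, 4, 5, 6, 7, 8, 9, 10, 11, 12, 13, 14],
  [0, 1, 2, 3, 4, 5, 6, 7, 8, 9, 10, 11, 12, 13, 14],
  [0, 1, 2, 3, 4, 5, 6, 7, 8, 9, 10, 11, 12, 13, 14],
  [0, 1, 2, 3, 4, 5, 6, 7, 8, 9, 10, 11, 12, 13, 14],
  [0, 1, 2, 3, 4, 5, 6, 7, 8, 9, 10, 11, 12, 13, 14],
  [0, 1, 2, 3, 4, 5, 6, 7, 8, 9, 10, 11, 12, 13, 14],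
  [0, 1, 2, 3, 4, 5, 6, 7, 8, 9, 10, 11, 12, 13, 14],
  [0, 1, 2, 3, 4, 5, 6, 7, 8, 9, 10, 11, 12, 13, 14],
  [0, 1, 2, 3, 4, 5, 6, 7, 8, 9, 10, 11, 12, 13, 14],
  [0, 1, 2, 3, 4, 5, 6, 7, 8, 9, 10, 11, 12, 13, 14],
  [0, 1, 2, 3, 4, 5, 6, 7, 8, 9, 10, 11, 12, 13, 14],
  [0, 1, 2, 3, 4, 5, 6, 7, 8, 9, 10, 11, 12, 13, 14],
  [0, 1, 2, 3, 4, 5, 6, 7, 8, 9, 10, 11, 12, 13, 14],
  [0, 1, 2, 3, 4, 5, 6, 7, 8, 9, 10, 11, 12, 13, 14],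
  [0, 1, 2, 3, 4, 5, 6, 7, 8, 9, 10, 11, 12, 13, 14]]

/-- arm fy, plain: table of the term `v^4 w^7` -/
def pfy_1 : List (List ℕ) := [
  [0, 1, 2, 3, 4, 5, 6, 6, 6, 6, 6, 7, 7, 7, 7],
  [1, 1, 2, 3, 4, 5, 6, 7, 7, 7, 7, 7, 8, 8, 8],
  [2, 2, 2, 3, 4, 5, 6, 7, 8, 8, 8, 8, 8, 9, 9],
  [3, 3, 3, 3, 4, 5, 6, 7, 8, 9, 9, 9, 9, 9, 10],
  [4, 4, 4, 4, 4, 5, 6, 7, 8, 9, 10, 10, 10, 10, 10],
  [4, 5, 5, 5, 5, 5, 6, 7, 8, 9, 10, 11, 11, 11, 11],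
  [4, 5, 6, 6, 6, 6, 6, 7, 8, 9, 10, 11, 11, 11, 11],
  [4, 5, 6, 7, 7, 7, 7, 7, 8, 9, 10, 11, 11, 11, 11],
  [4, 5, 6, 7, 8, 8, 8, 8, 8, 9, 10, 11, 11, 11, 11],
  [4, 5, 6, 7, 8, 9, 9, 9, 9, 9, 10, 11, 11, 11, 11],
  [4, 5, 6, 7, 8, 9, 10, 10, 10, 10, 10, 11, 11, 11, 11],
  [4, 5, 6, 7, 8, 9, 10, 10, 10, 10, 10, 11, 11, 11, 11],
  [4, 5, 6, 7, 8, 9, 10, 10, 10, 10, 10, 11, 11, 11, 11],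
  [4, 5, 6, 7, 8, 9, 10, 10, 10, 10, 10, 11, 11, 11, 11],
  [4, 5, 6, 7, 8, 9, 10, 10, 10, 10, 10, 11, 11, 11, 11]]

/-- arm fy, plain: table of the term `v^8 w^2` -/
def pfy_2 : List (List ℕ) := [
  [0, 1, 2, 2, 2, 2, 2, 2, 2, 2, 2, 2, 2, 2, 2],
  [1, 1, 2, 3, 3, 3, 3, 3, 3, 3, 3, 3, 3, 3, 3],
  [2, 2, 2, 3, 4, 4, 4, 4, 4, 4, 4, 4, 4, 4, 4],
  [3, 3, 3, 3, 4, 5, 5, 5, 5, 5, 5, 5, 5, 5, 5],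
  [4, 4, 4, 4, 4, 5, 6, 6, 6, 6, 6, 6, 6, 6, 6],
  [5, 5, 5, 5, 5, 5, 6, 7, 7, 7, 7, 7, 7, 7, 7],
  [6, 6, 6, 6, 6, 6, 6, 7, 8, 8, 8, 8, 8, 8, 8],
  [7, 7, 7, 7, 7, 7, 7, 7, 8, 9, 9, 9, 9, 9, 9],
  [8, 8, 8, 8, 8, 8, 8, 8, 8, 9, 10, 10, 10, 10, 10],
  [8, 9, 9, 9, 9, 9, 9, 9, 9, 9, 10, 10, 10, 10, 10],
  [8, 9, 10, 10, 10, 10, 10, 10, 10, 10, 10, 10, 10, 10, 10],
  [8, 9, 10, 10, 10, 10, 10, 10, 10, 10, 10, 10, 10, 10, 10],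
  [8, 9, 10, 10, 10, 10, 10, 10, 10, 10, 10, 10, 10, 10, 10],
  [8, 9, 10, 10, 10, 10, 10, 10, 10, 10, 10, 10, 10, 10, 10],
  [8, 9, 10, 10, 10, 10, 10, 10, 10, 10, 10, 10, 10, 10, 10]]

/-- arm fy, plain: table of the term `v^10 w^1` -/
def pfy_3 : List (List ℕ) := [
  [0, 1, 1, 1, 1, 1, 1, 1, 1, 1, 1, 1, 1, 1, 1],
  [1, 1, 2, 2, 2, 2, 2, 2, 2, 2, 2, 2, 2, 2, 2],
  [2, 2, 2, 3, 3, 3, 3, 3, 3, 3, 3, 3, 3, 3, 3],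
  [3, 3, 3, 3, 4, 4, 4, 4, 4, 4, 4, 4, 4, 4, 4],
  [4, 4, 4, 4, 4, 5, 5, 5, 5, 5, 5, 5, 5, 5, 5],
  [5, 5, 5, 5, 5, 5, 6, 6, 6, 6, 6, 6, 6, 6, 6],
  [6, 6, 6, 6, 6, 6, 6, 7, 7, 7, 7, 7, 7, 7, 7],
  [7, 7, 7, 7, 7, 7, 7, 7, 8, 8, 8, 8, 8, 8, 8],
  [8, 8, 8, 8, 8, 8, 8, 8, 8, 9, 9, 9, 9, 9, 9],
  [9, 9, 9, 9, 9, 9, 9, 9, 9, 9, 10, 10, 10, 10, 10],
  [9, 10, 10, 10, 10, 10, 10, 10, 10, 10, 10, 10, 10, 10, 10],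
  [10, 10, 11, 11, 11, 11, 11, 11, 11, 11, 11, 11, 11, 11, 11],
  [10, 11, 11, 11, 11, 11, 11, 11, 11, 11, 11, 11, 11, 11, 11],
  [10, 11, 11, 11, 11, 11, 11, 11, 11, 11, 11, 11, 11, 11, 11],
  [10, 11, 11, 11, 11, 11, 11, 11, 11, 11, 11, 11, 11, 11, 11]]

/-- arm fy, plain: table of the term `v^15 w^0` -/
def pfy_4 : List (List ℕ) := [
  [0, 0, 0, 0, 0, 0, 0, 0, 0, 0, 0, 0, 0, 0, 0],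
  [1, 1, 1, 1, 1, 1, 1, 1, 1, 1, 1, 1, 1, 1, 1],
  [2, 2, 2, 2, 2, 2, 2, 2, 2, 2, 2, 2, 2, 2, 2],
  [3, 3, 3, 3, 3, 3, 3, 3, 3, 3, 3, 3, 3, 3, 3],
  [4, 4, 4, 4, 4, 4, 4, 4, 4, 4, 4, 4, 4, 4, 4],
  [5, 5, 5, 5, 5, 5, 5, 5, 5, 5, 5, 5, 5, 5, 5],
  [6, 6, 6, 6, 6, 6, 6, 6, 6, 6, 6, 6, 6, 6, 6],
  [7, 7, 7, 7, 7, 7, 7, 7, 7, 7, 7, 7, 7, 7, 7],
  [8, 8, 8, 8, 8, 8, 8, 8, 8, 8, 8, 8, 8, 8, 8],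
  [9, 9, 9, 9, 9, 9, 9, 9, 9, 9, 9, 9, 9, 9, 9],
  [10, 10, 10, 10, 10, 10, 10, 10, 10, 10, 10, 10, 10, 10, 10],
  [11, 11, 11, 11, 11, 11, 11, 11, 11, 11, 11, 11, 11, 11, 11],
  [12, 12, 12, 12, 12, 12, 12, 12, 12, 12, 12, 12, 12, 12, 12],
  [13, 13, 13, 13, 13, 13, 13, 13, 13, 13, 13, 13, 13, 13, 13],
  [14, 14, 14, 14, 14, 14, 14, 14, 14, 14, 14, 14, 14, 14, 14]]

/-- arm fy, plain -/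
def pfy : Dat 3 where
  n := 15
  sg := [true, true, true, true, true, true, true, true, true, true, true, true, true, true,
  true]
  i := ![0, 4, 8, 10, 15]
  j := ![15, 7, 2, 1, 0]
  T := ![pfy_0, pfy_1, pfy_2, pfy_3, pfy_4]
  c := [15, 15, 15, 15, 15, 11, 11, 11, 10, 10, 2, 2, 1, 1, 1]

theorem pfy_chk : pfy.chk = true := by decide +kernel

theorem pfy_ok : pfy.S.Ok := Dat.ok pfy_chk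

/-- arm gx, plain: table of the term `v^0 w^15` -/
def pgx_0 : List (List ℕ) := [
  [0, 1, 2, 3, 4, 5, 6, 7, 8, 9, 10, 11, 12, 13, 14],
  [0, 1, 2, 3, 4, 5, 6, 7, 8, 9, 10, 11, 12, 13, 14],
  [0, 1, 2, 3, 4, 5, 6, 7, 8, 9, 10, 11, 12, 13, 14],
  [0, 1, 2, 3, 4, 5, 6, 7, 8, 9, 10, 11, 12, 13, 14],
  [0, 1, 2, 3, 4, 5, 6, 7, 8, 9, 10, 11, 12, 13, 14],
  [0, 1, 2, 3, 4, 5, 6, 7, 8, 9, 10, 11, 12, 13, 14],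
  [0, 1, 2, 3, 4, 5, 6, 7, 8, 9, 10, 11, 12, 13, 14],
  [0, 1, 2, 3, 4, 5, 6, 7, 8, 9, 10, 11, 12, 13, 14],
  [0, 1, 2, 3, 4, 5, 6, 7, 8, 9, 10, 11, 12, 13, 14],
  [0, 1, 2, 3, 4, 5, 6, 7, 8, 9, 10, 11, 12, 13, 14],
  [0, 1, 2, 3, 4, 5, 6, 7, 8, 9, 10, 11, 12, 13, 14],
  [0, 1, 2, 3, 4, 5, 6, 7, 8, 9, 10, 11, 12, 13, 14],
  [0, 1, 2, 3, 4, 5, 6, 7, 8, 9, 10, 11, 12, 13, 14],
  [0, 1, 2, 3, 4, 5, 6, 7, 8, 9, 10, 11, 12, 13, 14],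
  [0, 1, 2, 3, 4, 5, 6, 7, 8, 9, 10, 11, 12, 13, 14]]

/-- arm gx, plain: table of the term `v^4 w^3` -/
def pgx_1 : List (List ℕ) := [
  [0, 1, 2, 3, 3, 3, 3, 3, 3, 3, 3, 3, 3, 3, 3],
  [1, 1, 2, 3, 4, 4, 4, 4, 4, 4, 4, 4, 4, 4, 4],
  [2, 2, 2, 3, 4, 5, 5, 5, 5, 5, 5, 5, 5, 5, 5],
  [3, 3, 3, 3, 4, 5, 6, 6, 6, 6, 6, 6, 6, 6, 6],
  [4, 4, 4, 4, 4, 5, 6, 7, 7, 7, 7, 7, 7, 7, 7],
  [4, 5, 5, 5, 5, 5, 6, 7, 7, 7, 7, 7, 7, 7, 7],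
  [4, 5, 6, 6, 6, 6, 6, 7, 7, 7, 7, 7, 7, 7, 7],
  [4, 5, 6, 7, 7, 7, 7, 7, 7, 7, 7, 7, 7, 7, 7],
  [4, 5, 6, 7, 7, 7, 7, 7, 7, 7, 7, 7, 7, 7, 7],
  [4, 5, 6, 7, 7, 7, 7, 7, 7, 7, 7, 7, 7, 7, 7],
  [4, 5, 6, 7, 7, 7, 7, 7, 7, 7, 7, 7, 7, 7, 7],
  [4, 5, 6, 7, 7, 7, 7, 7, 7, 7, 7, 7, 7, 7, 7],
  [4, 5, 6, 7, 7, 7, 7, 7, 7, 7, 7, 7, 7, 7, 7],
  [4, 5, 6, 7, 7, 7, 7, 7, 7, 7, 7, 7, 7, 7, 7],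
  [4, 5, 6, 7, 7, 7, 7, 7, 7, 7, 7, 7, 7, 7, 7]]

/-- arm gx, plain: table of the term `v^9 w^1` -/
def pgx_2 : List (List ℕ) := [
  [0, 1, 1, 1, 1, 1, 1, 1, 1, 1, 1, 1, 1, 1, 1],
  [1, 1, 2, 2, 2, 2, 2, 2, 2, 2, 2, 2, 2, 2, 2],
  [2, 2, 2, 3, 3, 3, 3, 3, 3, 3, 3, 3, 3, 3, 3],
  [3, 3, 3, 3, 4, 4, 4, 4, 4, 4, 4, 4, 4, 4, 4],
  [4, 4, 4, 4, 4, 5, 5, 5, 5, 5, 5, 5, 5, 5, 5],
  [5, 5, 5, 5, 5, 5, 6, 6, 6, 6, 6, 6, 6, 6, 6],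
  [6, 6, 6, 6, 6, 6, 6, 7, 7, 7, 7, 7, 7, 7, 7],
  [6, 7, 7, 7, 7, 7, 7, 7, 7, 7, 7, 7, 7, 7, 7],
  [7, 7, 8, 8, 8, 8, 8, 8, 8, 8, 8, 8, 8, 8, 8],
  [8, 8, 8, 9, 9, 9, 9, 9, 9, 9, 9, 9, 9, 9, 9],
  [8, 9, 9, 9, 9, 9, 9, 9, 9, 9, 9, 9, 9, 9, 9],
  [9, 9, 10, 10, 10, 10, 10, 10, 10, 10, 10, 10, 10, 10, 10],
  [9, 10, 10, 10, 10, 10, 10, 10, 10, 10, 10, 10, 10, 10, 10],
  [9, 10, 10, 10, 10, 10, 10, 10, 10, 10, 10, 10, 10, 10, 10],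
  [9, 10, 10, 10, 10, 10, 10, 10, 10, 10, 10, 10, 10, 10, 10]]

/-- arm gx, plain: table of the term `v^15 w^0` -/
def pgx_3 : List (List ℕ) := [
  [0, 0, 0, 0, 0, 0, 0, 0, 0, 0, 0, 0, 0, 0, 0],
  [1, 1, 1, 1, 1, 1, 1, 1, 1, 1, 1, 1, 1, 1, 1],
  [2, 2, 2, 2, 2, 2, 2, 2, 2, 2, 2, 2, 2, 2, 2],
  [3, 3, 3, 3, 3, 3, 3, 3, 3, 3, 3, 3, 3, 3, 3],
  [4, 4, 4, 4, 4, 4, 4, 4, 4, 4, 4, 4, 4, 4, 4],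
  [5, 5, 5, 5, 5, 5, 5, 5, 5, 5, 5, 5, 5, 5, 5],
  [6, 6, 6, 6, 6, 6, 6, 6, 6, 6, 6, 6, 6, 6, 6],
  [7, 7, 7, 7, 7, 7, 7, 7, 7, 7, 7, 7, 7, 7, 7],
  [8, 8, 8, 8, 8, 8, 8, 8, 8, 8, 8, 8, 8, 8, 8],
  [9, 9, 9, 9, 9, 9, 9, 9, 9, 9, 9, 9, 9, 9, 9],
  [10, 10, 10, 10, 10, 10, 10, 10, 10, 10, 10, 10, 10, 10, 10],
  [11, 11, 11, 11, 11, 11, 11, 11, 11, 11, 11, 11, 11, 11, 11],
  [12, 12, 12, 12, 12, 12, 12, 12, 12, 12, 12, 12, 12, 12, 12],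
  [13, 13, 13, 13, 13, 13, 13, 13, 13, 13, 13, 13, 13, 13, 13],
  [14, 14, 14, 14, 14, 14, 14, 14, 14, 14, 14, 14, 14, 14, 14]]

/-- arm gx, plain -/
def pgx : Dat 2 where
  n := 15
  sg := [true, true, true, true, true, true, true, true, true, true, true, true, true, true,
  true]
  i := ![0, 4, 9, 15]
  j := ![15, 3, 1, 0]
  T := ![pgx_0, pgx_1, pgx_2, pgx_3]
  c := [15, 15, 15, 15, 7, 7, 7, 3, 3, 3, 3, 2, 1, 1, 1]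

theorem pgx_chk : pgx.chk = true := by decide +kernel

theorem pgx_ok : pgx.S.Ok := Dat.ok pgx_chk

/-- arm gy, plain: table of the term `v^0 w^15` -/
def pgy_0 : List (List ℕ) := [
  [0, 1, 2, 3, 4, 5, 6, 7, 8, 9, 10, 11, 12, 13, 14],
  [0, 1, 2, 3, 4, 5, 6, 7, 8, 9, 10, 11, 12, 13, 14],
  [0, 1, 2, 3, 4, 5, 6, 7, 8, 9, 10, 11, 12, 13, 14],
  [0, 1, 2, 3, 4, 5, 6, 7, 8, 9, 10, 11, 12, 13, 14],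
  [0, 1, 2, 3, 4, 5, 6, 7, 8, 9, 10, 11, 12, 13, 14],
  [0, 1, 2, 3, 4, 5, 6, 7, 8, 9, 10, 11, 12, 13, 14],
  [0, 1, 2, 3, 4, 5, 6, 7, 8, 9, 10, 11, 12, 13, 14],
  [0, 1, 2, 3, 4, 5, 6, 7, 8, 9, 10, 11, 12, 13, 14],
  [0, 1, 2, 3, 4, 5, 6, 7, 8, 9, 10, 11, 12, 13, 14],
  [0, 1, 2, 3, 4, 5, 6, 7, 8, 9, 10, 11, 12, 13, 14],
  [0, 1, 2, 3, 4, 5, 6, 7, 8, 9, 10, 11, 12, 13, 14],
  [0, 1, 2, 3, 4, 5, 6, 7, 8, 9, 10, 11, 12, 13, 14],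
  [0, 1, 2, 3, 4, 5, 6, 7, 8, 9, 10, 11, 12, 13, 14],
  [0, 1, 2, 3, 4, 5, 6, 7, 8, 9, 10, 11, 12, 13, 14],
  [0, 1, 2, 3, 4, 5, 6, 7, 8, 9, 10, 11, 12, 13, 14]]

/-- arm gy, plain: table of the term `v^1 w^10` -/
def pgy_1 : List (List ℕ) := [
  [0, 1, 2, 3, 4, 5, 6, 7, 8, 9, 9, 10, 10, 10, 10],
  [1, 1, 2, 3, 4, 5, 6, 7, 8, 9, 10, 10, 11, 11, 11],
  [1, 2, 2, 3, 4, 5, 6, 7, 8, 9, 10, 11, 11, 11, 11],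
  [1, 2, 3, 3, 4, 5, 6, 7, 8, 9, 10, 11, 11, 11, 11],
  [1, 2, 3, 4, 4, 5, 6, 7, 8, 9, 10, 11, 11, 11, 11],
  [1, 2, 3, 4, 5, 5, 6, 7, 8, 9, 10, 11, 11, 11, 11],
  [1, 2, 3, 4, 5, 6, 6, 7, 8, 9, 10, 11, 11, 11, 11],
  [1, 2, 3, 4, 5, 6, 7, 7, 8, 9, 10, 11, 11, 11, 11],
  [1, 2, 3, 4, 5, 6, 7, 8, 8, 9, 10, 11, 11, 11, 11],
  [1, 2, 3, 4, 5, 6, 7, 8, 9, 9, 10, 11, 11, 11, 11],
  [1, 2, 3, 4, 5, 6, 7, 8, 9, 10, 10, 11, 11, 11, 11],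
  [1, 2, 3, 4, 5, 6, 7, 8, 9, 10, 10, 11, 11, 11, 11],
  [1, 2, 3, 4, 5, 6, 7, 8, 9, 10, 10, 11, 11, 11, 11],
  [1, 2, 3, 4, 5, 6, 7, 8, 9, 10, 10, 11, 11, 11, 11],
  [1, 2, 3, 4, 5, 6, 7, 8, 9, 10, 10, 11, 11, 11, 11]]

/-- arm gy, plain: table of the term `v^2 w^8` -/
def pgy_2 : List (List ℕ) := [
  [0, 1, 2, 3, 4, 5, 6, 7, 8, 8, 8, 8, 8, 8, 8],
  [1, 1, 2, 3, 4, 5, 6, 7, 8, 9, 9, 9, 9, 9, 9],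
  [2, 2, 2, 3, 4, 5, 6, 7, 8, 9, 10, 10, 10, 10, 10],
  [2, 3, 3, 3, 4, 5, 6, 7, 8, 9, 10, 10, 10, 10, 10],
  [2, 3, 4, 4, 4, 5, 6, 7, 8, 9, 10, 10, 10, 10, 10],
  [2, 3, 4, 5, 5, 5, 6, 7, 8, 9, 10, 10, 10, 10, 10],
  [2, 3, 4, 5, 6, 6, 6, 7, 8, 9, 10, 10, 10, 10, 10],
  [2, 3, 4, 5, 6, 7, 7, 7, 8, 9, 10, 10, 10, 10, 10],
  [2, 3, 4, 5, 6, 7, 8, 8, 8, 9, 10, 10, 10, 10, 10],
  [2, 3, 4, 5, 6, 7, 8, 9, 9, 9, 10, 10, 10, 10, 10],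
  [2, 3, 4, 5, 6, 7, 8, 9, 10, 10, 10, 10, 10, 10, 10],
  [2, 3, 4, 5, 6, 7, 8, 9, 10, 10, 10, 10, 10, 10, 10],
  [2, 3, 4, 5, 6, 7, 8, 9, 10, 10, 10, 10, 10, 10, 10],
  [2, 3, 4, 5, 6, 7, 8, 9, 10, 10, 10, 10, 10, 10, 10],
  [2, 3, 4, 5, 6, 7, 8, 9, 10, 10, 10, 10, 10, 10, 10]]

/-- arm gy, plain: table of the term `v^7 w^4` -/
def pgy_3 : List (List ℕ) := [
  [0, 1, 2, 3, 4, 4, 4, 4, 4, 4, 4, 4, 4, 4, 4],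
  [1, 1, 2, 3, 4, 5, 5, 5, 5, 5, 5, 5, 5, 5, 5],
  [2, 2, 2, 3, 4, 5, 6, 6, 6, 6, 6, 6, 6, 6, 6],
  [3, 3, 3, 3, 4, 5, 6, 7, 7, 7, 7, 7, 7, 7, 7],
  [4, 4, 4, 4, 4, 5, 6, 7, 8, 8, 8, 8, 8, 8, 8],
  [5, 5, 5, 5, 5, 5, 6, 7, 8, 9, 9, 9, 9, 9, 9],
  [6, 6, 6, 6, 6, 6, 6, 7, 8, 9, 10, 10, 10, 10, 10],
  [6, 7, 7, 7, 7, 7, 7, 7, 8, 9, 10, 10, 10, 10, 10],
  [6, 7, 8, 8, 8, 8, 8, 8, 8, 9, 10, 10, 10, 10, 10],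
  [6, 7, 8, 9, 9, 9, 9, 9, 9, 9, 10, 10, 10, 10, 10],
  [6, 7, 8, 9, 10, 10, 10, 10, 10, 10, 10, 10, 10, 10, 10],
  [7, 7, 8, 9, 10, 11, 11, 11, 11, 11, 11, 11, 11, 11, 11],
  [7, 8, 8, 9, 10, 11, 11, 11, 11, 11, 11, 11, 11, 11, 11],
  [7, 8, 9, 9, 10, 11, 11, 11, 11, 11, 11, 11, 11, 11, 11],
  [7, 8, 9, 10, 10, 11, 11, 11, 11, 11, 11, 11, 11, 11, 11]]

/-- arm gy, plain: table of the term `v^15 w^0` -/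
def pgy_4 : List (List ℕ) := [
  [0, 0, 0, 0, 0, 0, 0, 0, 0, 0, 0, 0, 0, 0, 0],
  [1, 1, 1, 1, 1, 1, 1, 1, 1, 1, 1, 1, 1, 1, 1],
  [2, 2, 2, 2, 2, 2, 2, 2, 2, 2, 2, 2, 2, 2, 2],
  [3, 3, 3, 3, 3, 3, 3, 3, 3, 3, 3, 3, 3, 3, 3],
  [4, 4, 4, 4, 4, 4, 4, 4, 4, 4, 4, 4, 4, 4, 4],
  [5, 5, 5, 5, 5, 5, 5, 5, 5, 5, 5, 5, 5, 5, 5],
  [6, 6, 6, 6, 6, 6, 6, 6, 6, 6, 6, 6, 6, 6, 6],
  [7, 7, 7, 7, 7, 7, 7, 7, 7, 7, 7, 7, 7, 7, 7],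
  [8, 8, 8, 8, 8, 8, 8, 8, 8, 8, 8, 8, 8, 8, 8],
  [9, 9, 9, 9, 9, 9, 9, 9, 9, 9, 9, 9, 9, 9, 9],
  [10, 10, 10, 10, 10, 10, 10, 10, 10, 10, 10, 10, 10, 10, 10],
  [11, 11, 11, 11, 11, 11, 11, 11, 11, 11, 11, 11, 11, 11, 11],
  [12, 12, 12, 12, 12, 12, 12, 12, 12, 12, 12, 12, 12, 12, 12],
  [13, 13, 13, 13, 13, 13, 13, 13, 13, 13, 13, 13, 13, 13, 13],
  [14, 14, 14, 14, 14, 14, 14, 14, 14, 14, 14, 14, 14, 14, 14]]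

/-- arm gy, plain -/
def pgy : Dat 3 where
  n := 15
  sg := [true, true, true, true, true, true, true, true, true, true, true, true, true, true,
  true]
  i := ![0, 1, 2, 7, 15]
  j := ![15, 10, 8, 4, 0]
  T := ![pgy_0, pgy_1, pgy_2, pgy_3, pgy_4]
  c := [15, 12, 10, 10, 10, 10, 10, 10, 10, 10, 8, 5, 5, 5, 5]

theorem pgy_chk : pgy.chk = true := by decide +kernel

theorem pgy_ok : pgy.S.Ok := Dat.ok pgy_chk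

/-- z-arms: table of the term `v^0 w^15` -/
def pz_0 : List (List ℕ) := [
  [0, 1, 2, 3, 4, 5, 6, 7, 8, 9, 10, 11, 12, 13, 14],
  [0, 1, 2, 3, 4, 5, 6, 7, 8, 9, 10, 11, 12, 13, 14],
  [0, 1, 2, 3, 4, 5, 6, 7, 8, 9, 10, 11, 12, 13, 14],
  [0, 1, 2, 3, 4, 5, 6, 7, 8, 9, 10, 11, 12, 13, 14],
  [0, 1, 2, 3, 4, 5, 6, 7, 8, 9, 10, 11, 12, 13, 14],
  [0, 1, 2, 3, 4, 5, 6, 7, 8, 9, 10, 11, 12, 13, 14],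
  [0, 1, 2, 3, 4, 5, 6, 7, 8, 9, 10, 11, 12, 13, 14],
  [0, 1, 2, 3, 4, 5, 6, 7, 8, 9, 10, 11, 12, 13, 14],
  [0, 1, 2, 3, 4, 5, 6, 7, 8, 9, 10, 11, 12, 13, 14],
  [0, 1, 2, 3, 4, 5, 6, 7, 8, 9, 10, 11, 12, 13, 14],
  [0, 1, 2, 3, 4, 5, 6, 7, 8, 9, 10, 11, 12, 13, 14],
  [0, 1, 2, 3, 4, 5, 6, 7, 8, 9, 10, 11, 12, 13, 14],
  [0, 1, 2, 3, 4, 5, 6, 7, 8, 9, 10, 11, 12, 13, 14],
  [0, 1, 2, 3, 4, 5, 6, 7, 8, 9, 10, 11, 12, 13, 14],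
  [0, 1, 2, 3, 4, 5, 6, 7, 8, 9, 10, 11, 12, 13, 14]]

/-- z-arms: table of the term `v^15 w^0` -/
def pz_1 : List (List ℕ) := [
  [0, 0, 0, 0, 0, 0, 0, 0, 0, 0, 0, 0, 0, 0, 0],
  [1, 1, 1, 1, 1, 1, 1, 1, 1, 1, 1, 1, 1, 1, 1],
  [2, 2, 2, 2, 2, 2, 2, 2, 2, 2, 2, 2, 2, 2, 2],
  [3, 3, 3, 3, 3, 3, 3, 3, 3, 3, 3, 3, 3, 3, 3],
  [4, 4, 4, 4, 4, 4, 4, 4, 4, 4, 4, 4, 4, 4, 4],
  [5, 5, 5, 5, 5, 5, 5, 5, 5, 5, 5, 5, 5, 5, 5],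
  [6, 6, 6, 6, 6, 6, 6, 6, 6, 6, 6, 6, 6, 6, 6],
  [7, 7, 7, 7, 7, 7, 7, 7, 7, 7, 7, 7, 7, 7, 7],
  [8, 8, 8, 8, 8, 8, 8, 8, 8, 8, 8, 8, 8, 8, 8],
  [9, 9, 9, 9, 9, 9, 9, 9, 9, 9, 9, 9, 9, 9, 9],
  [10, 10, 10, 10, 10, 10, 10, 10, 10, 10, 10, 10, 10, 10, 10],
  [11, 11, 11, 11, 11, 11, 11, 11, 11, 11, 11, 11, 11, 11, 11],
  [12, 12, 12, 12, 12, 12, 12, 12, 12, 12, 12, 12, 12, 12, 12],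
  [13, 13, 13, 13, 13, 13, 13, 13, 13, 13, 13, 13, 13, 13, 13],
  [14, 14, 14, 14, 14, 14, 14, 14, 14, 14, 14, 14, 14, 14, 14]]

/-- z-arms -/
def pz : Dat 0 where
  n := 15
  sg := [true, true, true, true, true, true, true, true, true, true, true, true, true, true,
  true]
  i := ![0, 15]
  j := ![15, 0]
  T := ![pz_0, pz_1]
  c := [15, 15, 15, 15, 15, 15, 15, 15, 15, 15, 15, 15, 15, 15, 15]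

theorem pz_chk : pz.chk = true := by decide +kernel

theorem pz_ok : pz.S.Ok := Dat.ok pz_chk

/-- arm fx, signed (51 #3136): table of the term `v^0 w^15` -/
def sfx_0 : List (List ℕ) := [
  [0, 1, 2, 3, 4, 5, 6, 7, 8, 9, 10, 11, 12, 13, 14],
  [0, 1, 2, 3, 4, 5, 6, 7, 8, 9, 10, 11, 12, 13, 14],
  [0, 1, 2, 3, 4, 5, 6, 7, 8, 9, 10, 11, 12, 13, 14],
  [0, 1, 2, 3, 4, 5, 6, 7, 8, 9, 10, 11, 12, 13, 14],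
  [0, 1, 2, 3, 4, 5, 6, 7, 8, 9, 10, 11, 12, 13, 14],
  [0, 1, 2, 3, 4, 5, 6, 7, 8, 9, 10, 11, 12, 13, 14],
  [0, 1, 2, 3, 4, 5, 6, 7, 8, 9, 10, 11, 12, 13, 14],
  [0, 1, 2, 3, 4, 5, 6, 7, 8, 9, 10, 11, 12, 13, 14],
  [0, 1, 2, 3, 4, 5, 6, 7, 8, 9, 10, 11, 12, 13, 14],
  [0, 1, 2, 3, 4, 5, 6, 7, 8, 9, 10, 11, 12, 13, 14],
  [0, 1, 2, 3, 4, 5, 6, 7, 8, 9, 10, 11, 12, 13, 14],
  [0, 1, 2, 3, 4, 5, 6, 7, 8, 9, 10, 11, 12, 13, 14],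
  [0, 1, 2, 3, 4, 5, 6, 7, 8, 9, 10, 11, 12, 13, 14],
  [0, 1, 2, 3, 4, 5, 6, 7, 8, 9, 10, 11, 12, 13, 14],
  [0, 1, 2, 3, 4, 5, 6, 7, 8, 9, 10, 11, 12, 13, 14],
  [0, 1, 2, 3, 4, 5, 6, 7, 8, 9, 10, 11, 12, 13, 14],
  [0, 1, 2, 3, 4, 5, 6, 7, 8, 9, 10, 11, 12, 13, 14],
  [0, 1, 2, 3, 4, 5, 6, 7, 8, 9, 10, 11, 12, 13, 14],
  [0, 1, 2, 3, 4, 5, 6, 7, 8, 9, 10, 11, 12, 13, 14]]

/-- arm fx, signed (51 #3136): table of the term `v^1 w^9` -/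
def sfx_1 : List (List ℕ) := [
  [0, 1, 2, 3, 4, 5, 6, 6, 7, 8, 8, 9, 9, 9, 9],
  [1, 1, 2, 3, 4, 5, 6, 7, 7, 8, 9, 9, 10, 10, 10],
  [2, 2, 2, 3, 4, 5, 6, 7, 8, 8, 9, 10, 10, 11, 11],
  [3, 3, 3, 3, 4, 5, 6, 7, 8, 9, 9, 10, 11, 11, 12],
  [2, 2, 2, 3, 4, 5, 6, 7, 8, 8, 9, 10, 10, 11, 11],
  [1, 1, 2, 3, 4, 5, 6, 7, 7, 8, 9, 9, 10, 10, 10],
  [1, 2, 2, 3, 4, 5, 6, 7, 8, 8, 9, 10, 10, 10, 10],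
  [1, 2, 3, 3, 4, 5, 6, 7, 8, 9, 9, 10, 10, 10, 10],
  [1, 2, 3, 4, 4, 5, 6, 7, 8, 9, 9, 10, 10, 10, 10],
  [1, 2, 3, 4, 5, 5, 6, 7, 8, 9, 9, 10, 10, 10, 10],
  [1, 2, 3, 4, 5, 6, 6, 7, 8, 9, 9, 10, 10, 10, 10],
  [1, 2, 3, 4, 5, 6, 7, 7, 8, 9, 9, 10, 10, 10, 10],
  [1, 2, 3, 4, 5, 6, 7, 7, 8, 9, 9, 10, 10, 10, 10],
  [1, 2, 3, 4, 5, 6, 7, 7, 8, 9, 9, 10, 10, 10, 10],
  [1, 2, 3, 4, 5, 6, 7, 7, 8, 9, 9, 10, 10, 10, 10],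
  [1, 2, 3, 4, 5, 6, 7, 7, 8, 9, 9, 10, 10, 10, 10],
  [1, 2, 3, 4, 5, 6, 7, 7, 8, 9, 9, 10, 10, 10, 10],
  [1, 2, 3, 4, 5, 6, 7, 7, 8, 9, 9, 10, 10, 10, 10],
  [1, 2, 3, 4, 5, 6, 7, 7, 8, 9, 9, 10, 10, 10, 10]]

/-- arm fx, signed (51 #3136): table of the term `v^3 w^4` -/
def sfx_2 : List (List ℕ) := [
  [0, 1, 2, 3, 4, 4, 4, 4, 4, 4, 4, 4, 4, 4, 4],
  [1, 1, 2, 3, 4, 5, 5, 5, 5, 5, 5, 5, 5, 5, 5],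
  [2, 2, 2, 3, 4, 5, 6, 6, 6, 6, 6, 6, 6, 6, 6],
  [3, 3, 3, 3, 4, 5, 6, 7, 7, 7, 7, 7, 7, 7, 7],
  [2, 2, 2, 3, 4, 5, 6, 6, 6, 6, 6, 6, 6, 6, 6],
  [1, 1, 2, 3, 4, 5, 5, 5, 5, 5, 5, 5, 5, 5, 5],
  [2, 2, 2, 3, 4, 5, 6, 6, 6, 6, 6, 6, 6, 6, 6],
  [3, 3, 3, 3, 4, 5, 6, 7, 7, 7, 7, 7, 7, 7, 7],
  [3, 4, 4, 4, 4, 5, 6, 7, 7, 7, 7, 7, 7, 7, 7],
  [3, 4, 5, 5, 5, 5, 6, 7, 7, 7, 7, 7, 7, 7, 7],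
  [3, 4, 5, 6, 6, 6, 6, 7, 7, 7, 7, 7, 7, 7, 7],
  [3, 4, 5, 6, 7, 7, 7, 7, 7, 7, 7, 7, 7, 7, 7],
  [3, 4, 5, 6, 7, 7, 7, 7, 7, 7, 7, 7, 7, 7, 7],
  [3, 4, 5, 6, 7, 7, 7, 7, 7, 7, 7, 7, 7, 7, 7],
  [3, 4, 5, 6, 7, 7, 7, 7, 7, 7, 7, 7, 7, 7, 7],
  [3, 4, 5, 6, 7, 7, 7, 7, 7, 7, 7, 7, 7, 7, 7],
  [3, 4, 5, 6, 7, 7, 7, 7, 7, 7, 7, 7, 7, 7, 7],
  [3, 4, 5, 6, 7, 7, 7, 7, 7, 7, 7, 7, 7, 7, 7],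
  [3, 4, 5, 6, 7, 7, 7, 7, 7, 7, 7, 7, 7, 7, 7]]

/-- arm fx, signed (51 #3136): table of the term `v^15 w^0` -/
def sfx_3 : List (List ℕ) := [
  [0, 0, 0, 0, 0, 0, 0, 0, 0, 0, 0, 0, 0, 0, 0],
  [1, 1, 1, 1, 1, 1, 1, 1, 1, 1, 1, 1, 1, 1, 1],
  [2, 2, 2, 2, 2, 2, 2, 2, 2, 2, 2, 2, 2, 2, 2],
  [3, 3, 3, 3, 3, 3, 3, 3, 3, 3, 3, 3, 3, 3, 3],
  [2, 2, 2, 2, 2, 2, 2, 2, 2, 2, 2, 2, 2, 2, 2],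
  [1, 1, 1, 1, 1, 1, 1, 1, 1, 1, 1, 1, 1, 1, 1],
  [2, 2, 2, 2, 2, 2, 2, 2, 2, 2, 2, 2, 2, 2, 2],
  [3, 3, 3, 3, 3, 3, 3, 3, 3, 3, 3, 3, 3, 3, 3],
  [4, 4, 4, 4, 4, 4, 4, 4, 4, 4, 4, 4, 4, 4, 4],
  [5, 5, 5, 5, 5, 5, 5, 5, 5, 5, 5, 5, 5, 5, 5],
  [6, 6, 6, 6, 6, 6, 6, 6, 6, 6, 6, 6, 6, 6, 6],
  [7, 7, 7, 7, 7, 7, 7, 7, 7, 7, 7, 7, 7, 7, 7],
  [8, 8, 8, 8, 8, 8, 8, 8, 8, 8, 8, 8, 8, 8, 8],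
  [9, 9, 9, 9, 9, 9, 9, 9, 9, 9, 9, 9, 9, 9, 9],
  [10, 10, 10, 10, 10, 10, 10, 10, 10, 10, 10, 10, 10, 10, 10],
  [11, 11, 11, 11, 11, 11, 11, 11, 11, 11, 11, 11, 11, 11, 11],
  [12, 12, 12, 12, 12, 12, 12, 12, 12, 12, 12, 12, 12, 12, 12],
  [13, 13, 13, 13, 13, 13, 13, 13, 13, 13, 13, 13, 13, 13, 13],
  [14, 14, 14, 14, 14, 14, 14, 14, 14, 14, 14, 14, 14, 14, 14]]

/-- arm fx, signed (51 #3136) -/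
def sfx : Dat 2 where
  n := 19
  sg := [true, true, true, false, false, true, true, true, true, true, true, true, true, true,
  true, true, true, true, true]
  i := ![0, 1, 3, 15]
  j := ![15, 9, 4, 0]
  T := ![sfx_0, sfx_1, sfx_2, sfx_3]
  c := [15, 15, 15, 15, 15, 12, 11, 7, 7, 7, 7, 4, 4, 4, 4, 4, 4, 4, 4]

theorem sfx_chk : sfx.chk = true := by decide +kernel

theorem sfx_ok : sfx.S.Ok := Dat.ok sfx_chk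

/-- arm fy, signed (51 #3136): table of the term `v^0 w^15` -/
def sfy_0 : List (List ℕ) := [
  [0, 1, 2, 3, 4, 5, 6, 7, 8, 9, 10, 11, 12, 13, 14],
  [0, 1, 2, 3, 4, 5, 6, 7, 8, 9, 10, 11, 12, 13, 14],
  [0, 1, 2, 3, 4, 5, 6, 7, 8, 9, 10, 11, 12, 13, 14],
  [0, 1, 2, 3, 4, 5, 6, 7, 8, 9, 10, 11, 12, 13, 14],
  [0, 1, 2, 3, 4, 5, 6, 7, 8, 9, 10, 11, 12, 13, 14],
  [0, 1, 2, 3, 4, 5, 6, 7, 8, 9, 10, 11, 12, 13, 14],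
  [0, 1, 2, 3, 4, 5, 6, 7, 8, 9, 10, 11, 12, 13, 14],
  [0, 1, 2, 3, 4, 5, 6, 7, 8, 9, 10, 11, 12, 13, 14],
  [0, 1, 2, 3, 4, 5, 6, 7, 8, 9, 10, 11, 12, 13, 14],
  [0, 1, 2, 3, 4, 5, 6, 7, 8, 9, 10, 11, 12, 13, 14],
  [0, 1, 2, 3, 4, 5, 6, 7, 8, 9, 10, 11, 12, 13, 14],
  [0, 1, 2, 3, 4, 5, 6, 7, 8, 9, 10, 11, 12, 13, 14],
  [0, 1, 2, 3, 4, 5, 6, 7, 8, 9, 10, 11, 12, 13, 14],
  [0, 1, 2, 3, 4, 5, 6, 7, 8, 9, 10, 11, 12, 13, 14],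
  [0, 1, 2, 3, 4, 5, 6, 7, 8, 9, 10, 11, 12, 13, 14],
  [0, 1, 2, 3, 4, 5, 6, 7, 8, 9, 10, 11, 12, 13, 14],
  [0, 1, 2, 3, 4, 5, 6, 7, 8, 9, 10, 11, 12, 13, 14],
  [0, 1, 2, 3, 4, 5, 6, 7, 8, 9, 10, 11, 12, 13, 14],
  [0, 1, 2, 3, 4, 5, 6, 7, 8, 9, 10, 11, 12, 13, 14],
  [0, 1, 2, 3, 4, 5, 6, 7, 8, 9, 10, 11, 12, 13, 14],
  [0, 1, 2, 3, 4, 5, 6, 7, 8, 9, 10, 11, 12, 13, 14],
  [0, 1, 2, 3, 4, 5, 6, 7, 8, 9, 10, 11, 12, 13, 14],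
  [0, 1, 2, 3, 4, 5, 6, 7, 8, 9, 10, 11, 12, 13, 14],
  [0, 1, 2, 3, 4, 5, 6, 7, 8, 9, 10, 11, 12, 13, 14],
  [0, 1, 2, 3, 4, 5, 6, 7, 8, 9, 10, 11, 12, 13, 14]]

/-- arm fy, signed (51 #3136): table of the term `v^4 w^7` -/
def sfy_1 : List (List ℕ) := [
  [0, 1, 2, 3, 4, 5, 6, 6, 6, 6, 6, 7, 7, 7, 7],
  [1, 1, 2, 3, 4, 5, 6, 7, 7, 7, 7, 7, 8, 8, 8],
  [2, 2, 2, 3, 4, 5, 6, 7, 8, 8, 8, 8, 8, 9, 9],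
  [3, 3, 3, 3, 4, 5, 6, 7, 8, 9, 9, 9, 9, 9, 10],
  [4, 4, 4, 4, 4, 5, 6, 7, 8, 9, 10, 10, 10, 10, 10],
  [4, 5, 5, 5, 5, 5, 6, 7, 8, 9, 10, 11, 11, 11, 11],
  [5, 5, 6, 6, 6, 6, 6, 7, 8, 9, 10, 11, 12, 12, 12],
  [6, 6, 6, 7, 7, 7, 7, 7, 8, 9, 10, 11, 12, 13, 13],
  [7, 7, 7, 7, 8, 8, 8, 8, 8, 9, 10, 11, 12, 13, 14],
  [8, 8, 8, 8, 8, 9, 9, 9, 9, 9, 10, 11, 12, 13, 14],
  [8, 9, 9, 9, 9, 9, 10, 10, 10, 10, 10, 11, 12, 13, 14],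
  [8, 8, 8, 8, 8, 9, 9, 9, 9, 9, 10, 11, 12, 13, 14],
  [7, 7, 7, 7, 8, 8, 8, 8, 8, 9, 10, 11, 12, 13, 14],
  [6, 6, 6, 7, 7, 7, 7, 7, 8, 9, 10, 11, 12, 13, 13],
  [5, 5, 6, 6, 6, 6, 6, 7, 8, 9, 10, 11, 12, 12, 12],
  [4, 5, 5, 5, 5, 5, 6, 7, 8, 9, 10, 11, 11, 11, 11],
  [4, 5, 6, 6, 6, 6, 6, 7, 8, 9, 10, 11, 11, 11, 11],
  [4, 5, 6, 7, 7, 7, 7, 7, 8, 9, 10, 11, 11, 11, 11],
  [4, 5, 6, 7, 8, 8, 8, 8, 8, 9, 10, 11, 11, 11, 11],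
  [4, 5, 6, 7, 8, 9, 9, 9, 9, 9, 10, 11, 11, 11, 11],
  [4, 5, 6, 7, 8, 9, 10, 10, 10, 10, 10, 11, 11, 11, 11],
  [4, 5, 6, 7, 8, 9, 10, 10, 10, 10, 10, 11, 11, 11, 11],
  [4, 5, 6, 7, 8, 9, 10, 10, 10, 10, 10, 11, 11, 11, 11],
  [4, 5, 6, 7, 8, 9, 10, 10, 10, 10, 10, 11, 11, 11, 11],
  [4, 5, 6, 7, 8, 9, 10, 10, 10, 10, 10, 11, 11, 11, 11]]

/-- arm fy, signed (51 #3136): table of the term `v^8 w^2` -/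
def sfy_2 : List (List ℕ) := [
  [0, 1, 2, 2, 2, 2, 2, 2, 2, 2, 2, 2, 2, 2, 2],
  [1, 1, 2, 3, 3, 3, 3, 3, 3, 3, 3, 3, 3, 3, 3],
  [2, 2, 2, 3, 4, 4, 4, 4, 4, 4, 4, 4, 4, 4, 4],
  [3, 3, 3, 3, 4, 5, 5, 5, 5, 5, 5, 5, 5, 5, 5],
  [4, 4, 4, 4, 4, 5, 6, 6, 6, 6, 6, 6, 6, 6, 6],
  [5, 5, 5, 5, 5, 5, 6, 7, 7, 7, 7, 7, 7, 7, 7],
  [6, 6, 6, 6, 6, 6, 6, 7, 8, 8, 8, 8, 8, 8, 8],
  [7, 7, 7, 7, 7, 7, 7, 7, 8, 9, 9, 9, 9, 9, 9],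
  [8, 8, 8, 8, 8, 8, 8, 8, 8, 9, 10, 10, 10, 10, 10],
  [9, 9, 9, 9, 9, 9, 9, 9, 9, 9, 10, 11, 11, 11, 11],
  [10, 10, 10, 10, 10, 10, 10, 10, 10, 10, 10, 11, 12, 12, 12],
  [9, 9, 9, 9, 9, 9, 9, 9, 9, 9, 10, 11, 11, 11, 11],
  [8, 8, 8, 8, 8, 8, 8, 8, 8, 9, 10, 10, 10, 10, 10],
  [7, 7, 7, 7, 7, 7, 7, 7, 8, 9, 9, 9, 9, 9, 9],
  [6, 6, 6, 6, 6, 6, 6, 7, 8, 8, 8, 8, 8, 8, 8],
  [5, 5, 5, 5, 5, 5, 6, 7, 7, 7, 7, 7, 7, 7, 7],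
  [6, 6, 6, 6, 6, 6, 6, 7, 8, 8, 8, 8, 8, 8, 8],
  [7, 7, 7, 7, 7, 7, 7, 7, 8, 9, 9, 9, 9, 9, 9],
  [8, 8, 8, 8, 8, 8, 8, 8, 8, 9, 10, 10, 10, 10, 10],
  [8, 9, 9, 9, 9, 9, 9, 9, 9, 9, 10, 10, 10, 10, 10],
  [8, 9, 10, 10, 10, 10, 10, 10, 10, 10, 10, 10, 10, 10, 10],
  [8, 9, 10, 10, 10, 10, 10, 10, 10, 10, 10, 10, 10, 10, 10],
  [8, 9, 10, 10, 10, 10, 10, 10, 10, 10, 10, 10, 10, 10, 10],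
  [8, 9, 10, 10, 10, 10, 10, 10, 10, 10, 10, 10, 10, 10, 10],
  [8, 9, 10, 10, 10, 10, 10, 10, 10, 10, 10, 10, 10, 10, 10]]

/-- arm fy, signed (51 #3136): table of the term `v^10 w^1` -/
def sfy_3 : List (List ℕ) := [
  [0, 1, 1, 1, 1, 1, 1, 1, 1, 1, 1, 1, 1, 1, 1],
  [1, 1, 2, 2, 2, 2, 2, 2, 2, 2, 2, 2, 2, 2, 2],
  [2, 2, 2, 3, 3, 3, 3, 3, 3, 3, 3, 3, 3, 3, 3],
  [3, 3, 3, 3, 4, 4, 4, 4, 4, 4, 4, 4, 4, 4, 4],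
  [4, 4, 4, 4, 4, 5, 5, 5, 5, 5, 5, 5, 5, 5, 5],
  [5, 5, 5, 5, 5, 5, 6, 6, 6, 6, 6, 6, 6, 6, 6],
  [6, 6, 6, 6, 6, 6, 6, 7, 7, 7, 7, 7, 7, 7, 7],
  [7, 7, 7, 7, 7, 7, 7, 7, 8, 8, 8, 8, 8, 8, 8],
  [8, 8, 8, 8, 8, 8, 8, 8, 8, 9, 9, 9, 9, 9, 9],
  [9, 9, 9, 9, 9, 9, 9, 9, 9, 9, 10, 10, 10, 10, 10],
  [10, 10, 10, 10, 10, 10, 10, 10, 10, 10, 10, 11, 11, 11, 11],
  [9, 9, 9, 9, 9, 9, 9, 9, 9, 9, 10, 10, 10, 10, 10],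
  [8, 8, 8, 8, 8, 8, 8, 8, 8, 9, 9, 9, 9, 9, 9],
  [7, 7, 7, 7, 7, 7, 7, 7, 8, 8, 8, 8, 8, 8, 8],
  [6, 6, 6, 6, 6, 6, 6, 7, 7, 7, 7, 7, 7, 7, 7],
  [5, 5, 5, 5, 5, 5, 6, 6, 6, 6, 6, 6, 6, 6, 6],
  [6, 6, 6, 6, 6, 6, 6, 7, 7, 7, 7, 7, 7, 7, 7],
  [7, 7, 7, 7, 7, 7, 7, 7, 8, 8, 8, 8, 8, 8, 8],
  [8, 8, 8, 8, 8, 8, 8, 8, 8, 9, 9, 9, 9, 9, 9],
  [9, 9, 9, 9, 9, 9, 9, 9, 9, 9, 10, 10, 10, 10, 10],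
  [9, 10, 10, 10, 10, 10, 10, 10, 10, 10, 10, 10, 10, 10, 10],
  [10, 10, 11, 11, 11, 11, 11, 11, 11, 11, 11, 11, 11, 11, 11],
  [10, 11, 11, 11, 11, 11, 11, 11, 11, 11, 11, 11, 11, 11, 11],
  [10, 11, 11, 11, 11, 11, 11, 11, 11, 11, 11, 11, 11, 11, 11],
  [10, 11, 11, 11, 11, 11, 11, 11, 11, 11, 11, 11, 11, 11, 11]]

/-- arm fy, signed (51 #3136): table of the term `v^15 w^0` -/
def sfy_4 : List (List ℕ) := [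
  [0, 0, 0, 0, 0, 0, 0, 0, 0, 0, 0, 0, 0, 0, 0],
  [1, 1, 1, 1, 1, 1, 1, 1, 1, 1, 1, 1, 1, 1, 1],
  [2, 2, 2, 2, 2, 2, 2, 2, 2, 2, 2, 2, 2, 2, 2],
  [3, 3, 3, 3, 3, 3, 3, 3, 3, 3, 3, 3, 3, 3, 3],
  [4, 4, 4, 4, 4, 4, 4, 4, 4, 4, 4, 4, 4, 4, 4],
  [5, 5, 5, 5, 5, 5, 5, 5, 5, 5, 5, 5, 5, 5, 5],
  [6, 6, 6, 6, 6, 6, 6, 6, 6, 6, 6, 6, 6, 6, 6],
  [7, 7, 7, 7, 7, 7, 7, 7, 7, 7, 7, 7, 7, 7, 7],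
  [8, 8, 8, 8, 8, 8, 8, 8, 8, 8, 8, 8, 8, 8, 8],
  [9, 9, 9, 9, 9, 9, 9, 9, 9, 9, 9, 9, 9, 9, 9],
  [10, 10, 10, 10, 10, 10, 10, 10, 10, 10, 10, 10, 10, 10, 10],
  [9, 9, 9, 9, 9, 9, 9, 9, 9, 9, 9, 9, 9, 9, 9],
  [8, 8, 8, 8, 8, 8, 8, 8, 8, 8, 8, 8, 8, 8, 8],
  [7, 7, 7, 7, 7, 7, 7, 7, 7, 7, 7, 7, 7, 7, 7],
  [6, 6, 6, 6, 6, 6, 6, 6, 6, 6, 6, 6, 6, 6, 6],
  [5, 5, 5, 5, 5, 5, 5, 5, 5, 5, 5, 5, 5, 5, 5],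
  [6, 6, 6, 6, 6, 6, 6, 6, 6, 6, 6, 6, 6, 6, 6],
  [7, 7, 7, 7, 7, 7, 7, 7, 7, 7, 7, 7, 7, 7, 7],
  [8, 8, 8, 8, 8, 8, 8, 8, 8, 8, 8, 8, 8, 8, 8],
  [9, 9, 9, 9, 9, 9, 9, 9, 9, 9, 9, 9, 9, 9, 9],
  [10, 10, 10, 10, 10, 10, 10, 10, 10, 10, 10, 10, 10, 10, 10],
  [11, 11, 11, 11, 11, 11, 11, 11, 11, 11, 11, 11, 11, 11, 11],
  [12, 12, 12, 12, 12, 12, 12, 12, 12, 12, 12, 12, 12, 12, 12],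
  [13, 13, 13, 13, 13, 13, 13, 13, 13, 13, 13, 13, 13, 13, 13],
  [14, 14, 14, 14, 14, 14, 14, 14, 14, 14, 14, 14, 14, 14, 14]]

/-- arm fy, signed (51 #3136) -/
def sfy : Dat 3 where
  n := 25
  sg := [true, true, true, true, true, true, true, true, true, true, false, false, false, false,
  false, true, true, true, true, true, true, true, true, true, true]
  i := ![0, 4, 8, 10, 15]
  j := ![15, 7, 2, 1, 0]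
  T := ![sfy_0, sfy_1, sfy_2, sfy_3, sfy_4]
  c := [15, 15, 15, 15, 15, 15, 15, 15, 15, 15, 15, 15, 15, 15, 15, 11, 11, 11, 10, 10, 2, 2, 1,
  1, 1]

theorem sfy_chk : sfy.chk = true := by decide +kernel

theorem sfy_ok : sfy.S.Ok := Dat.ok sfy_chk

/-- arm gx, signed (51 #3136): table of the term `v^0 w^15` -/
def sgx_0 : List (List ℕ) := [
  [0, 1, 2, 3, 4, 5, 6, 7, 8, 9, 10, 11, 12, 13, 14],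
  [0, 1, 2, 3, 4, 5, 6, 7, 8, 9, 10, 11, 12, 13, 14],
  [0, 1, 2, 3, 4, 5, 6, 7, 8, 9, 10, 11, 12, 13, 14],
  [0, 1, 2, 3, 4, 5, 6, 7, 8, 9, 10, 11, 12, 13, 14],
  [0, 1, 2, 3, 4, 5, 6, 7, 8, 9, 10, 11, 12, 13, 14],
  [0, 1, 2, 3, 4, 5, 6, 7, 8, 9, 10, 11, 12, 13, 14],
  [0, 1, 2, 3, 4, 5, 6, 7, 8, 9, 10, 11, 12, 13, 14],
  [0, 1, 2, 3, 4, 5, 6, 7, 8, 9, 10, 11, 12, 13, 14],
  [0, 1, 2, 3, 4, 5, 6, 7, 8, 9, 10, 11, 12, 13, 14],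
  [0, 1, 2, 3, 4, 5, 6, 7, 8, 9, 10, 11, 12, 13, 14],
  [0, 1, 2, 3, 4, 5, 6, 7, 8, 9, 10, 11, 12, 13, 14],
  [0, 1, 2, 3, 4, 5, 6, 7, 8, 9, 10, 11, 12, 13, 14],
  [0, 1, 2, 3, 4, 5, 6, 7, 8, 9, 10, 11, 12, 13, 14],
  [0, 1, 2, 3, 4, 5, 6, 7, 8, 9, 10, 11, 12, 13, 14],
  [0, 1, 2, 3, 4, 5, 6, 7, 8, 9, 10, 11, 12, 13, 14],
  [0, 1, 2, 3, 4, 5, 6, 7, 8, 9, 10, 11, 12, 13, 14],
  [0, 1, 2, 3, 4, 5, 6, 7, 8, 9, 10, 11, 12, 13, 14],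
  [0, 1, 2, 3, 4, 5, 6, 7, 8, 9, 10, 11, 12, 13, 14],
  [0, 1, 2, 3, 4, 5, 6, 7, 8, 9, 10, 11, 12, 13, 14]]

/-- arm gx, signed (51 #3136): table of the term `v^4 w^3` -/
def sgx_1 : List (List ℕ) := [
  [0, 1, 2, 3, 3, 3, 3, 3, 3, 3, 3, 3, 3, 3, 3],
  [1, 1, 2, 3, 4, 4, 4, 4, 4, 4, 4, 4, 4, 4, 4],
  [2, 2, 2, 3, 4, 5, 5, 5, 5, 5, 5, 5, 5, 5, 5],
  [3, 3, 3, 3, 4, 5, 6, 6, 6, 6, 6, 6, 6, 6, 6],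
  [4, 4, 4, 4, 4, 5, 6, 7, 7, 7, 7, 7, 7, 7, 7],
  [5, 5, 5, 5, 5, 5, 6, 7, 8, 8, 8, 8, 8, 8, 8],
  [6, 6, 6, 6, 6, 6, 6, 7, 8, 9, 9, 9, 9, 9, 9],
  [5, 5, 5, 5, 5, 5, 6, 7, 8, 8, 8, 8, 8, 8, 8],
  [4, 4, 4, 4, 4, 5, 6, 7, 7, 7, 7, 7, 7, 7, 7],
  [4, 5, 5, 5, 5, 5, 6, 7, 7, 7, 7, 7, 7, 7, 7],
  [4, 5, 6, 6, 6, 6, 6, 7, 7, 7, 7, 7, 7, 7, 7],
  [4, 5, 6, 7, 7, 7, 7, 7, 7, 7, 7, 7, 7, 7, 7],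
  [4, 5, 6, 7, 7, 7, 7, 7, 7, 7, 7, 7, 7, 7, 7],
  [4, 5, 6, 7, 7, 7, 7, 7, 7, 7, 7, 7, 7, 7, 7],
  [4, 5, 6, 7, 7, 7, 7, 7, 7, 7, 7, 7, 7, 7, 7],
  [4, 5, 6, 7, 7, 7, 7, 7, 7, 7, 7, 7, 7, 7, 7],
  [4, 5, 6, 7, 7, 7, 7, 7, 7, 7, 7, 7, 7, 7, 7],
  [4, 5, 6, 7, 7, 7, 7, 7, 7, 7, 7, 7, 7, 7, 7],
  [4, 5, 6, 7, 7, 7, 7, 7, 7, 7, 7, 7, 7, 7, 7]]

/-- arm gx, signed (51 #3136): table of the term `v^9 w^1` -/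
def sgx_2 : List (List ℕ) := [
  [0, 1, 1, 1, 1, 1, 1, 1, 1, 1, 1, 1, 1, 1, 1],
  [1, 1, 2, 2, 2, 2, 2, 2, 2, 2, 2, 2, 2, 2, 2],
  [2, 2, 2, 3, 3, 3, 3, 3, 3, 3, 3, 3, 3, 3, 3],
  [3, 3, 3, 3, 4, 4, 4, 4, 4, 4, 4, 4, 4, 4, 4],
  [4, 4, 4, 4, 4, 5, 5, 5, 5, 5, 5, 5, 5, 5, 5],
  [5, 5, 5, 5, 5, 5, 6, 6, 6, 6, 6, 6, 6, 6, 6],
  [6, 6, 6, 6, 6, 6, 6, 7, 7, 7, 7, 7, 7, 7, 7],
  [5, 5, 5, 5, 5, 5, 6, 6, 6, 6, 6, 6, 6, 6, 6],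
  [4, 4, 4, 4, 4, 5, 5, 5, 5, 5, 5, 5, 5, 5, 5],
  [5, 5, 5, 5, 5, 5, 6, 6, 6, 6, 6, 6, 6, 6, 6],
  [6, 6, 6, 6, 6, 6, 6, 7, 7, 7, 7, 7, 7, 7, 7],
  [6, 7, 7, 7, 7, 7, 7, 7, 7, 7, 7, 7, 7, 7, 7],
  [7, 7, 8, 8, 8, 8, 8, 8, 8, 8, 8, 8, 8, 8, 8],
  [8, 8, 8, 9, 9, 9, 9, 9, 9, 9, 9, 9, 9, 9, 9],
  [8, 9, 9, 9, 9, 9, 9, 9, 9, 9, 9, 9, 9, 9, 9],
  [9, 9, 10, 10, 10, 10, 10, 10, 10, 10, 10, 10, 10, 10, 10],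
  [9, 10, 10, 10, 10, 10, 10, 10, 10, 10, 10, 10, 10, 10, 10],
  [9, 10, 10, 10, 10, 10, 10, 10, 10, 10, 10, 10, 10, 10, 10],
  [9, 10, 10, 10, 10, 10, 10, 10, 10, 10, 10, 10, 10, 10, 10]]

/-- arm gx, signed (51 #3136): table of the term `v^15 w^0` -/
def sgx_3 : List (List ℕ) := [
  [0, 0, 0, 0, 0, 0, 0, 0, 0, 0, 0, 0, 0, 0, 0],
  [1, 1, 1, 1, 1, 1, 1, 1, 1, 1, 1, 1, 1, 1, 1],
  [2, 2, 2, 2, 2, 2, 2, 2, 2, 2, 2, 2, 2, 2, 2],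
  [3, 3, 3, 3, 3, 3, 3, 3, 3, 3, 3, 3, 3, 3, 3],
  [4, 4, 4, 4, 4, 4, 4, 4, 4, 4, 4, 4, 4, 4, 4],
  [5, 5, 5, 5, 5, 5, 5, 5, 5, 5, 5, 5, 5, 5, 5],
  [6, 6, 6, 6, 6, 6, 6, 6, 6, 6, 6, 6, 6, 6, 6],
  [5, 5, 5, 5, 5, 5, 5, 5, 5, 5, 5, 5, 5, 5, 5],
  [4, 4, 4, 4, 4, 4, 4, 4, 4, 4, 4, 4, 4, 4, 4],
  [5, 5, 5, 5, 5, 5, 5, 5, 5, 5, 5, 5, 5, 5, 5],
  [6, 6, 6, 6, 6, 6, 6, 6, 6, 6, 6, 6, 6, 6, 6],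
  [7, 7, 7, 7, 7, 7, 7, 7, 7, 7, 7, 7, 7, 7, 7],
  [8, 8, 8, 8, 8, 8, 8, 8, 8, 8, 8, 8, 8, 8, 8],
  [9, 9, 9, 9, 9, 9, 9, 9, 9, 9, 9, 9, 9, 9, 9],
  [10, 10, 10, 10, 10, 10, 10, 10, 10, 10, 10, 10, 10, 10, 10],
  [11, 11, 11, 11, 11, 11, 11, 11, 11, 11, 11, 11, 11, 11, 11],
  [12, 12, 12, 12, 12, 12, 12, 12, 12, 12, 12, 12, 12, 12, 12],
  [13, 13, 13, 13, 13, 13, 13, 13, 13, 13, 13, 13, 13, 13, 13],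
  [14, 14, 14, 14, 14, 14, 14, 14, 14, 14, 14, 14, 14, 14, 14]]

/-- arm gx, signed (51 #3136) -/
def sgx : Dat 2 where
  n := 19
  sg := [true, true, true, true, true, true, false, false, true, true, true, true, true, true,
  true, true, true, true, true]
  i := ![0, 4, 9, 15]
  j := ![15, 3, 1, 0]
  T := ![sgx_0, sgx_1, sgx_2, sgx_3]
  c := [15, 15, 15, 15, 15, 15, 15, 15, 7, 7, 7, 3, 3, 3, 3, 2, 1, 1, 1]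

theorem sgx_chk : sgx.chk = true := by decide +kernel

theorem sgx_ok : sgx.S.Ok := Dat.ok sgx_chk

/-- arm gy, signed (51 #3136): table of the term `v^0 w^15` -/
def sgy_0 : List (List ℕ) := [
  [0, 1, 2, 3, 4, 5, 6, 7, 8, 9, 10, 11, 12, 13, 14],
  [0, 1, 2, 3, 4, 5, 6, 7, 8, 9, 10, 11, 12, 13, 14],
  [0, 1, 2, 3, 4, 5, 6, 7, 8, 9, 10, 11, 12, 13, 14],
  [0, 1, 2, 3, 4, 5, 6, 7, 8, 9, 10, 11, 12, 13, 14],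
  [0, 1, 2, 3, 4, 5, 6, 7, 8, 9, 10, 11, 12, 13, 14],
  [0, 1, 2, 3, 4, 5, 6, 7, 8, 9, 10, 11, 12, 13, 14],
  [0, 1, 2, 3, 4, 5, 6, 7, 8, 9, 10, 11, 12, 13, 14],
  [0, 1, 2, 3, 4, 5, 6, 7, 8, 9, 10, 11, 12, 13, 14],
  [0, 1, 2, 3, 4, 5, 6, 7, 8, 9, 10, 11, 12, 13, 14],
  [0, 1, 2, 3, 4, 5, 6, 7, 8, 9, 10, 11, 12, 13, 14],
  [0, 1, 2, 3, 4, 5, 6, 7, 8, 9, 10, 11, 12, 13, 14],
  [0, 1, 2, 3, 4, 5, 6, 7, 8, 9, 10, 11, 12, 13, 14],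
  [0, 1, 2, 3, 4, 5, 6, 7, 8, 9, 10, 11, 12, 13, 14],
  [0, 1, 2, 3, 4, 5, 6, 7, 8, 9, 10, 11, 12, 13, 14],
  [0, 1, 2, 3, 4, 5, 6, 7, 8, 9, 10, 11, 12, 13, 14],
  [0, 1, 2, 3, 4, 5, 6, 7, 8, 9, 10, 11, 12, 13, 14],
  [0, 1, 2, 3, 4, 5, 6, 7, 8, 9, 10, 11, 12, 13, 14],
  [0, 1, 2, 3, 4, 5, 6, 7, 8, 9, 10, 11, 12, 13, 14],
  [0, 1, 2, 3, 4, 5, 6, 7, 8, 9, 10, 11, 12, 13, 14],
  [0, 1, 2, 3, 4, 5, 6, 7, 8, 9, 10, 11, 12, 13, 14],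
  [0, 1, 2, 3, 4, 5, 6, 7, 8, 9, 10, 11, 12, 13, 14],
  [0, 1, 2, 3, 4, 5, 6, 7, 8, 9, 10, 11, 12, 13, 14],
  [0, 1, 2, 3, 4, 5, 6, 7, 8, 9, 10, 11, 12, 13, 14],
  [0, 1, 2, 3, 4, 5, 6, 7, 8, 9, 10, 11, 12, 13, 14],
  [0, 1, 2, 3, 4, 5, 6, 7, 8, 9, 10, 11, 12, 13, 14]]

/-- arm gy, signed (51 #3136): table of the term `v^1 w^10` -/
def sgy_1 : List (List ℕ) := [
  [0, 1, 2, 3, 4, 5, 6, 7, 8, 9, 9, 10, 10, 10, 10],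
  [1, 1, 2, 3, 4, 5, 6, 7, 8, 9, 10, 10, 11, 11, 11],
  [2, 2, 2, 3, 4, 5, 6, 7, 8, 9, 10, 11, 11, 12, 12],
  [3, 3, 3, 3, 4, 5, 6, 7, 8, 9, 10, 11, 12, 12, 13],
  [4, 4, 4, 4, 4, 5, 6, 7, 8, 9, 10, 11, 12, 13, 13],
  [4, 5, 5, 5, 5, 5, 6, 7, 8, 9, 10, 11, 12, 13, 14],
  [5, 5, 6, 6, 6, 6, 6, 7, 8, 9, 10, 11, 12, 13, 14],
  [4, 5, 5, 5, 5, 5, 6, 7, 8, 9, 10, 11, 12, 13, 14],
  [4, 4, 4, 4, 4, 5, 6, 7, 8, 9, 10, 11, 12, 13, 13],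
  [3, 3, 3, 3, 4, 5, 6, 7, 8, 9, 10, 11, 12, 12, 13],
  [2, 2, 2, 3, 4, 5, 6, 7, 8, 9, 10, 11, 11, 12, 12],
  [1, 1, 2, 3, 4, 5, 6, 7, 8, 9, 10, 10, 11, 11, 11],
  [1, 2, 2, 3, 4, 5, 6, 7, 8, 9, 10, 11, 11, 11, 11],
  [1, 2, 3, 3, 4, 5, 6, 7, 8, 9, 10, 11, 11, 11, 11],
  [1, 2, 3, 4, 4, 5, 6, 7, 8, 9, 10, 11, 11, 11, 11],
  [1, 2, 3, 4, 5, 5, 6, 7, 8, 9, 10, 11, 11, 11, 11],
  [1, 2, 3, 4, 5, 6, 6, 7, 8, 9, 10, 11, 11, 11, 11],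
  [1, 2, 3, 4, 5, 6, 7, 7, 8, 9, 10, 11, 11, 11, 11],
  [1, 2, 3, 4, 5, 6, 7, 8, 8, 9, 10, 11, 11, 11, 11],
  [1, 2, 3, 4, 5, 6, 7, 8, 9, 9, 10, 11, 11, 11, 11],
  [1, 2, 3, 4, 5, 6, 7, 8, 9, 10, 10, 11, 11, 11, 11],
  [1, 2, 3, 4, 5, 6, 7, 8, 9, 10, 10, 11, 11, 11, 11],
  [1, 2, 3, 4, 5, 6, 7, 8, 9, 10, 10, 11, 11, 11, 11],
  [1, 2, 3, 4, 5, 6, 7, 8, 9, 10, 10, 11, 11, 11, 11],
  [1, 2, 3, 4, 5, 6, 7, 8, 9, 10, 10, 11, 11, 11, 11]]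

/-- arm gy, signed (51 #3136): table of the term `v^2 w^8` -/
def sgy_2 : List (List ℕ) := [
  [0, 1, 2, 3, 4, 5, 6, 7, 8, 8, 8, 8, 8, 8, 8],
  [1, 1, 2, 3, 4, 5, 6, 7, 8, 9, 9, 9, 9, 9, 9],
  [2, 2, 2, 3, 4, 5, 6, 7, 8, 9, 10, 10, 10, 10, 10],
  [3, 3, 3, 3, 4, 5, 6, 7, 8, 9, 10, 11, 11, 11, 11],
  [4, 4, 4, 4, 4, 5, 6, 7, 8, 9, 10, 11, 12, 12, 12],
  [5, 5, 5, 5, 5, 5, 6, 7, 8, 9, 10, 11, 12, 13, 13],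
  [6, 6, 6, 6, 6, 6, 6, 7, 8, 9, 10, 11, 12, 13, 14],
  [5, 5, 5, 5, 5, 5, 6, 7, 8, 9, 10, 11, 12, 13, 13],
  [4, 4, 4, 4, 4, 5, 6, 7, 8, 9, 10, 11, 12, 12, 12],
  [3, 3, 3, 3, 4, 5, 6, 7, 8, 9, 10, 11, 11, 11, 11],
  [2, 2, 2, 3, 4, 5, 6, 7, 8, 9, 10, 10, 10, 10, 10],
  [1, 1, 2, 3, 4, 5, 6, 7, 8, 9, 9, 9, 9, 9, 9],
  [2, 2, 2, 3, 4, 5, 6, 7, 8, 9, 10, 10, 10, 10, 10],
  [2, 3, 3, 3, 4, 5, 6, 7, 8, 9, 10, 10, 10, 10, 10],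
  [2, 3, 4, 4, 4, 5, 6, 7, 8, 9, 10, 10, 10, 10, 10],
  [2, 3, 4, 5, 5, 5, 6, 7, 8, 9, 10, 10, 10, 10, 10],
  [2, 3, 4, 5, 6, 6, 6, 7, 8, 9, 10, 10, 10, 10, 10],
  [2, 3, 4, 5, 6, 7, 7, 7, 8, 9, 10, 10, 10, 10, 10],
  [2, 3, 4, 5, 6, 7, 8, 8, 8, 9, 10, 10, 10, 10, 10],
  [2, 3, 4, 5, 6, 7, 8, 9, 9, 9, 10, 10, 10, 10, 10],
  [2, 3, 4, 5, 6, 7, 8, 9, 10, 10, 10, 10, 10, 10, 10],
  [2, 3, 4, 5, 6, 7, 8, 9, 10, 10, 10, 10, 10, 10, 10],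
  [2, 3, 4, 5, 6, 7, 8, 9, 10, 10, 10, 10, 10, 10, 10],
  [2, 3, 4, 5, 6, 7, 8, 9, 10, 10, 10, 10, 10, 10, 10],
  [2, 3, 4, 5, 6, 7, 8, 9, 10, 10, 10, 10, 10, 10, 10]]

/-- arm gy, signed (51 #3136): table of the term `v^7 w^4` -/
def sgy_3 : List (List ℕ) := [
  [0, 1, 2, 3, 4, 4, 4, 4, 4, 4, 4, 4, 4, 4, 4],
  [1, 1, 2, 3, 4, 5, 5, 5, 5, 5, 5, 5, 5, 5, 5],
  [2, 2, 2, 3, 4, 5, 6, 6, 6, 6, 6, 6, 6, 6, 6],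
  [3, 3, 3, 3, 4, 5, 6, 7, 7, 7, 7, 7, 7, 7, 7],
  [4, 4, 4, 4, 4, 5, 6, 7, 8, 8, 8, 8, 8, 8, 8],
  [5, 5, 5, 5, 5, 5, 6, 7, 8, 9, 9, 9, 9, 9, 9],
  [6, 6, 6, 6, 6, 6, 6, 7, 8, 9, 10, 10, 10, 10, 10],
  [5, 5, 5, 5, 5, 5, 6, 7, 8, 9, 9, 9, 9, 9, 9],
  [4, 4, 4, 4, 4, 5, 6, 7, 8, 8, 8, 8, 8, 8, 8],
  [3, 3, 3, 3, 4, 5, 6, 7, 7, 7, 7, 7, 7, 7, 7],
  [2, 2, 2, 3, 4, 5, 6, 6, 6, 6, 6, 6, 6, 6, 6],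
  [1, 1, 2, 3, 4, 5, 5, 5, 5, 5, 5, 5, 5, 5, 5],
  [2, 2, 2, 3, 4, 5, 6, 6, 6, 6, 6, 6, 6, 6, 6],
  [3, 3, 3, 3, 4, 5, 6, 7, 7, 7, 7, 7, 7, 7, 7],
  [4, 4, 4, 4, 4, 5, 6, 7, 8, 8, 8, 8, 8, 8, 8],
  [5, 5, 5, 5, 5, 5, 6, 7, 8, 9, 9, 9, 9, 9, 9],
  [6, 6, 6, 6, 6, 6, 6, 7, 8, 9, 10, 10, 10, 10, 10],
  [6, 7, 7, 7, 7, 7, 7, 7, 8, 9, 10, 10, 10, 10, 10],
  [6, 7, 8, 8, 8, 8, 8, 8, 8, 9, 10, 10, 10, 10, 10],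
  [6, 7, 8, 9, 9, 9, 9, 9, 9, 9, 10, 10, 10, 10, 10],
  [6, 7, 8, 9, 10, 10, 10, 10, 10, 10, 10, 10, 10, 10, 10],
  [7, 7, 8, 9, 10, 11, 11, 11, 11, 11, 11, 11, 11, 11, 11],
  [7, 8, 8, 9, 10, 11, 11, 11, 11, 11, 11, 11, 11, 11, 11],
  [7, 8, 9, 9, 10, 11, 11, 11, 11, 11, 11, 11, 11, 11, 11],
  [7, 8, 9, 10, 10, 11, 11, 11, 11, 11, 11, 11, 11, 11, 11]]

/-- arm gy, signed (51 #3136): table of the term `v^15 w^0` -/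
def sgy_4 : List (List ℕ) := [
  [0, 0, 0, 0, 0, 0, 0, 0, 0, 0, 0, 0, 0, 0, 0],
  [1, 1, 1, 1, 1, 1, 1, 1, 1, 1, 1, 1, 1, 1, 1],
  [2, 2, 2, 2, 2, 2, 2, 2, 2, 2, 2, 2, 2, 2, 2],
  [3, 3, 3, 3, 3, 3, 3, 3, 3, 3, 3, 3, 3, 3, 3],
  [4, 4, 4, 4, 4, 4, 4, 4, 4, 4, 4, 4, 4, 4, 4],
  [5, 5, 5, 5, 5, 5, 5, 5, 5, 5, 5, 5, 5, 5, 5],
  [6, 6, 6, 6, 6, 6, 6, 6, 6, 6, 6, 6, 6, 6, 6],
  [5, 5, 5, 5, 5, 5, 5, 5, 5, 5, 5, 5, 5, 5, 5],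
  [4, 4, 4, 4, 4, 4, 4, 4, 4, 4, 4, 4, 4, 4, 4],
  [3, 3, 3, 3, 3, 3, 3, 3, 3, 3, 3, 3, 3, 3, 3],
  [2, 2, 2, 2, 2, 2, 2, 2, 2, 2, 2, 2, 2, 2, 2],
  [1, 1, 1, 1, 1, 1, 1, 1, 1, 1, 1, 1, 1, 1, 1],
  [2, 2, 2, 2, 2, 2, 2, 2, 2, 2, 2, 2, 2, 2, 2],
  [3, 3, 3, 3, 3, 3, 3, 3, 3, 3, 3, 3, 3, 3, 3],
  [4, 4, 4, 4, 4, 4, 4, 4, 4, 4, 4, 4, 4, 4, 4],
  [5, 5, 5, 5, 5, 5, 5, 5, 5, 5, 5, 5, 5, 5, 5],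
  [6, 6, 6, 6, 6, 6, 6, 6, 6, 6, 6, 6, 6, 6, 6],
  [7, 7, 7, 7, 7, 7, 7, 7, 7, 7, 7, 7, 7, 7, 7],
  [8, 8, 8, 8, 8, 8, 8, 8, 8, 8, 8, 8, 8, 8, 8],
  [9, 9, 9, 9, 9, 9, 9, 9, 9, 9, 9, 9, 9, 9, 9],
  [10, 10, 10, 10, 10, 10, 10, 10, 10, 10, 10, 10, 10, 10, 10],
  [11, 11, 11, 11, 11, 11, 11, 11, 11, 11, 11, 11, 11, 11, 11],
  [12, 12, 12, 12, 12, 12, 12, 12, 12, 12, 12, 12, 12, 12, 12],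
  [13, 13, 13, 13, 13, 13, 13, 13, 13, 13, 13, 13, 13, 13, 13],
  [14, 14, 14, 14, 14, 14, 14, 14, 14, 14, 14, 14, 14, 14, 14]]

/-- arm gy, signed (51 #3136) -/
def sgy : Dat 3 where
  n := 25
  sg := [true, true, true, true, true, true, false, false, false, false, false, true, true, true,
  true, true, true, true, true, true, true, true, true, true, true]
  i := ![0, 1, 2, 7, 15]
  j := ![15, 10, 8, 4, 0]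
  T := ![sgy_0, sgy_1, sgy_2, sgy_3, sgy_4]
  c := [15, 15, 15, 15, 15, 15, 15, 15, 15, 15, 15, 12, 10, 10, 10, 10, 10, 10, 10, 10, 8, 5, 5,
  5, 5]

theorem sgy_chk : sgy.chk = true := by decide +kernel

theorem sgy_ok : sgy.S.Ok := Dat.ok sgy_chk

/-! ### uniform notation -/

/-- number of couplings of the arm `v` (both functions) -/
def mm : Fin 3 → ℕ
  | 0 => 2
  | 1 => 3
  | 2 => 0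

/-- plain systems (`n = 15`); `b = true` : `f`, `b = false` : `g` -/
def pl (b : Bool) : (v : Fin 3) → Dat (mm v)
  | 0 => match b with
    | true => pfx
    | false => pgx
  | 1 => match b with
    | true => pfy
    | false => pgy
  | 2 => pz

/-- signed systems (`n = 19, 25, 15`) -/
def sn (b : Bool) : (v : Fin 3) → Dat (mm v)
  | 0 => match b with
    | true => sfx
    | false => sgx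
  | 1 => match b with
    | true => sfy
    | false => sgy
  | 2 => pz

theorem pl_chk (b : Bool) (v : Fin 3) : (pl b v).chk = true := by
  fin_cases v <;> cases b
  exacts [pgx_chk, pfx_chk, pgy_chk, pfy_chk, pz_chk, pz_chk]

theorem sn_chk (b : Bool) (v : Fin 3) : (sn b v).chk = true := by
  fin_cases v <;> cases b
  exacts [sgx_chk, sfx_chk, sgy_chk, sfy_chk, pz_chk, pz_chk]

theorem pl_ok (b : Bool) (v : Fin 3) : (pl b v).S.Ok := Dat.ok (pl_chk b v)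

theorem sn_ok (b : Bool) (v : Fin 3) : (sn b v).S.Ok := Dat.ok (sn_chk b v)

theorem pl_kill (b : Bool) (v : Fin 3) (k l : ℤ) : (pl b v).S.kill k l ↔
    (pl b v).c.getD (k % (pl b v).n).toNat 0 ≤ (l % 15).toNat := Dat.kill_iff (pl_chk b v) k l

theorem sn_kill (b : Bool) (v : Fin 3) (k l : ℤ) : (sn b v).S.kill k l ↔
    (sn b v).c.getD (k % (sn b v).n).toNat 0 ≤ (l % 15).toNat := Dat.kill_iff (sn_chk b v) k l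

/-- degrees are the same in both versions -/
theorem sn_ij (b : Bool) (v : Fin 3) : (sn b v).i = (pl b v).i ∧ (sn b v).j = (pl b v).j := by
  fin_cases v <;> cases b <;> exact ⟨rfl, rfl⟩

end Crest.Agent.R267.NSArm_780
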