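import Crest.Agent.R267.NSHat_966

/-!
# Row 267, C1: leaf OK (helper966)

`ok_prop : OkProp`.
-/

set_option autoImplicit false
set_option linter.unusedSectionVars false

noncomputable section

open Set Filter Topology Finset
open scoped ContDiff
open Crest.Agent.R267.T3aDefs_957 (st)
open Crest.Agent.R267.Calc_957
open Crest.Agent.R267.NSDefs_966
open Crest.Agent.R267.NSHat_966

namespace Crest.Agent.R267.NSOk_966

variable {m : ℕ} {S : NS m}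

theorem hat_add_n (hS : S.Ok) (s : Fin (m + 2)) (x y : ℝ) :
    S.hat s (x + S.n) y = S.hat s x y + S.i s := by
  unfold NS.hat
  rw [Sp_add_nat]
  have := bilS_add (fun k l => (S.N s k l : ℝ)) (S.n : ℤ) (S.i s : ℝ)
    (fun k l => by rw [hS.perk]; push_cast; ring) (Sp x) (Sp y)
  push_cast at this
  exact this

theorem hat_add_15 (hS : S.Ok) (s : Fin (m + 2)) (x y : ℝ) :
    S.hat s x (y + 15) = S.hat s x y + S.j s := by
  unfold NS.hat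
  rw [Sp_add_15]
  have := bilS_add' (fun k l => (S.N s k l : ℝ)) 15 (S.j s : ℝ)
    (fun k l => by rw [hS.perl]; push_cast; ring) (Sp x) (Sp y)
  push_cast at this
  exact this

theorem flat_add_n (hS : S.Ok) (s : Fin (m + 2)) (k l : ℤ) :
    S.flat s (k + S.n) l ↔ S.flat s k l := by
  unfold NS.flat
  rw [show k + (S.n : ℤ) + 1 = (k + 1) + S.n by ring, hS.perk, hS.perk, hS.perk, hS.perk]
  constructor <;> rintro ⟨h1, h2, h3⟩ <;> refine ⟨?_, ?_, ?_⟩ <;> linarith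

theorem flat_add_15 (hS : S.Ok) (s : Fin (m + 2)) (k l : ℤ) :
    S.flat s k (l + 15) ↔ S.flat s k l := by
  unfold NS.flat
  rw [show l + (15 : ℤ) + 1 = (l + 1) + 15 by ring, hS.perl, hS.perl, hS.perl, hS.perl]
  constructor <;> rintro ⟨h1, h2, h3⟩ <;> refine ⟨?_, ?_, ?_⟩ <;> linarith

theorem kill_add_n (hS : S.Ok) (k l : ℤ) : S.kill (k + S.n) l ↔ S.kill k l := by
  unfold NS.kill
  simp only [flat_add_n hS]

theorem kill_add_15 (hS : S.Ok) (k l : ℤ) : S.kill k (l + 15) ↔ S.kill k l := by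
  unfold NS.kill
  simp only [flat_add_15 hS]

theorem bilG_add_n (N : ℤ → ℤ → ℝ) (n : ℕ) (h : ∀ k l, N (k + n) l = N k l) (x y : ℝ) :
    bil N (Gp (x + n)) (Gp y) = bil N (Gp x) (Gp y) := by
  rw [Gp_add_nat]
  have := bilS_add N (n : ℤ) 0 (fun k l => by rw [h, add_zero]) (Gp x) (Gp y)
  push_cast at this
  rw [this, add_zero]

theorem bilG_add_15 (N : ℤ → ℤ → ℝ) (h : ∀ k l, N k (l + 15) = N k l) (x y : ℝ) :
    bil N (Gp x) (Gp (y + 15)) = bil N (Gp x) (Gp y) := by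
  rw [Gp_add_15]
  have := bilS_add' N 15 0 (fun k l => by rw [h, add_zero]) (Gp x) (Gp y)
  push_cast at this
  rw [this, add_zero]

theorem fl_add_n (hS : S.Ok) (s : Fin (m + 2)) (x y : ℝ) : S.fl s (x + S.n) y = S.fl s x y :=
  bilG_add_n _ _ (fun k l => by simp only [flat_add_n hS]) x y

theorem fl_add_15 (hS : S.Ok) (s : Fin (m + 2)) (x y : ℝ) : S.fl s x (y + 15) = S.fl s x y :=
  bilG_add_15 _ (fun k l => by simp only [flat_add_15 hS]) x y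

theorem kl_add_n (hS : S.Ok) (x y : ℝ) : S.kl (x + S.n) y = S.kl x y :=
  bilG_add_n _ _ (fun k l => by simp only [kill_add_n hS]) x y

theorem kl_add_15 (hS : S.Ok) (x y : ℝ) : S.kl x (y + 15) = S.kl x y :=
  bilG_add_15 _ (fun k l => by simp only [kill_add_15 hS]) x y

theorem contDiff_hat (s : Fin (m + 2)) : ContDiff ℝ 2 fun z : ℝ × ℝ => S.hat s z.1 z.2 :=
  contDiff_bilS _

theorem contDiff_fl (s : Fin (m + 2)) : ContDiff ℝ 2 fun z : ℝ × ℝ => S.fl s z.1 z.2 :=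
  contDiff_bilG _

theorem contDiff_kl : ContDiff ℝ 2 fun z : ℝ × ℝ => S.kl z.1 z.2 :=
  contDiff_bilG _

/-- the last staircase depends on `x` only. -/
theorem hat_last (hS : S.Ok) (x y : ℝ) :
    S.hat (Fin.last (m + 1)) x y = S.hat (Fin.last (m + 1)) x 0 := by
  unfold NS.hat bil
  simp only [hS.N1 _ (⌊Sp y⌋) 0, hS.N1 _ (⌊Sp y⌋ + 1) 0, hS.N1 _ (⌊Sp 0⌋) 0,
    hS.N1 _ (⌊Sp 0⌋ + 1) 0]
  ring

/-- the first staircase is `Sp y`. -/
theorem hat_zero (hS : S.Ok) (x y : ℝ) : S.hat 0 x y = Sp y := by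
  unfold NS.hat bil
  simp only [hS.N0]
  have := Int.floor_add_fract (Sp y)
  push_cast
  linear_combination this

theorem j_lt (hS : S.Ok) (s : Fin m) : 1 ≤ S.j (NS.ix s) ∧ S.j (NS.ix s) ≤ 14 := by
  have h0 : (0 : Fin (m + 2)) < NS.ix s := Fin.succ_pos _
  have h1 : NS.ix s < Fin.last (m + 1) := by
    rw [Fin.lt_def]
    unfold NS.ix
    simp only [Fin.val_succ, Fin.val_castSucc, Fin.val_last]
    omega
  have h2 := hS.hj h0
  have h3 := hS.hj h1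
  rw [hS.j0] at h2
  rw [hS.j1] at h3
  omega

theorem ok_A (hS : S.Ok) (M : Fin m → ℝ) (Mv : ℝ) (hM : 0 < Mv) : (S.pathA M Mv).Ok := by
  have hn : (S.n : ℝ) ≠ 0 := by
    have := hS.hn
    positivity
  refine ⟨hS.hn, ?_, contDiff_const, ?_, fun σ => contDiff_const, fun σ => ?_, fun t y => ?_,
    fun t x => ?_, fun t _ => hM, fun σ => ?_, fun σ t x y => rfl, fun σ t x y => rfl,
    fun σ => ⟨S.i (NS.ix σ), fun t x y => ?_⟩, fun σ => ⟨S.j (NS.ix σ), fun t x y => ?_⟩⟩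
  · have h : ContDiff ℝ 2 fun z : ℝ × ℝ => Sp z.2 := contDiff_Sp.comp contDiff_snd
    show ContDiff ℝ 2 fun z : ℝ × ℝ => (1 - z.1) * z.2 + z.1 * (Sp z.2 + 1 / 2)
    fun_prop
  · have h : ContDiff ℝ 2 fun z : ℝ × ℝ => S.hat (Fin.last (m + 1)) z.2 0 :=
      (contDiff_hat (S := S) (Fin.last (m + 1))).comp (f := fun z : ℝ × ℝ => (z.2, (0 : ℝ)))
        (by fun_prop)
    show ContDiff ℝ 2 fun z : ℝ × ℝ => (1 - z.1) * (15 * z.2 / S.n) +
      z.1 * (S.hat (Fin.last (m + 1)) z.2 0 + 1 / 2)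
    fun_prop
  · have h : ContDiff ℝ 2 fun z : ℝ × ℝ × ℝ => S.hat (NS.ix σ) z.2.1 z.2.2 :=
      (contDiff_hat (S := S) (NS.ix σ)).comp contDiff_snd
    show ContDiff ℝ 2 fun z : ℝ × ℝ × ℝ =>
      (1 - z.1) * (S.i (NS.ix σ) * z.2.1 / S.n + S.j (NS.ix σ) * z.2.2 / 15) +
      z.1 * (S.hat (NS.ix σ) z.2.1 z.2.2 + 1 / 2)
    fun_prop
  · show (1 - t) * (y + 15) + t * (Sp (y + 15) + 1 / 2) = (1 - t) * y + t * (Sp y + 1 / 2) + 15
    rw [Sp_add_15]; ring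
  · show (1 - t) * (15 * (x + S.n) / S.n) + t * (S.hat (Fin.last (m + 1)) (x + S.n) 0 + 1 / 2) =
      (1 - t) * (15 * x / S.n) + t * (S.hat (Fin.last (m + 1)) x 0 + 1 / 2) + 15
    rw [hat_add_n hS, hS.i1]
    push_cast
    field_simp
    ring
  · have h := j_lt hS σ
    show (1 : ℝ) ≤ (S.j (NS.ix σ) : ℝ) ∧ (S.j (NS.ix σ) : ℝ) ≤ 14
    exact ⟨by exact_mod_cast h.1, by exact_mod_cast h.2⟩
  · show (1 - t) * (S.i (NS.ix σ) * (x + S.n) / S.n + S.j (NS.ix σ) * y / 15) +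
      t * (S.hat (NS.ix σ) (x + S.n) y + 1 / 2) =
      (1 - t) * (S.i (NS.ix σ) * x / S.n + S.j (NS.ix σ) * y / 15) +
      t * (S.hat (NS.ix σ) x y + 1 / 2) + ((S.i (NS.ix σ) : ℤ) : ℝ)
    rw [hat_add_n hS]
    push_cast
    field_simp
    ring
  · show (1 - t) * (S.i (NS.ix σ) * x / S.n + S.j (NS.ix σ) * (y + 15) / 15) +
      t * (S.hat (NS.ix σ) x (y + 15) + 1 / 2) =
      (1 - t) * (S.i (NS.ix σ) * x / S.n + S.j (NS.ix σ) * y / 15) +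
      t * (S.hat (NS.ix σ) x y + 1 / 2) + ((S.j (NS.ix σ) : ℤ) : ℝ)
    rw [hat_add_15 hS]
    push_cast
    field_simp
    ring

theorem ok_B (hS : S.Ok) (M : Fin m → ℝ) (Mv : ℝ) (hM : 0 < Mv) : (S.pathB M Mv).Ok := by
  refine ⟨hS.hn, ?_, contDiff_const, ?_, fun σ => ?_, fun σ => ?_, fun t y => ?_,
    fun t x => ?_, fun t _ => hM, fun σ => ?_, fun σ t x y => ?_, fun σ t x y => ?_,
    fun σ => ⟨S.i (NS.ix σ), fun t x y => ?_⟩, fun σ => ⟨S.j (NS.ix σ), fun t x y => ?_⟩⟩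
  · have h : ContDiff ℝ 2 fun z : ℝ × ℝ => Sp z.2 := contDiff_Sp.comp contDiff_snd
    show ContDiff ℝ 2 fun z : ℝ × ℝ => Sp z.2 + 1 / 2
    fun_prop
  · have h : ContDiff ℝ 2 fun z : ℝ × ℝ => S.hat (Fin.last (m + 1)) z.2 0 :=
      (contDiff_hat (S := S) (Fin.last (m + 1))).comp (f := fun z : ℝ × ℝ => (z.2, (0 : ℝ)))
        (by fun_prop)
    show ContDiff ℝ 2 fun z : ℝ × ℝ => S.hat (Fin.last (m + 1)) z.2 0 + 1 / 2
    fun_prop
  · have h : ContDiff ℝ 2 fun z : ℝ × ℝ × ℝ => S.fl (NS.ix σ) z.2.1 z.2.2 :=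
      (contDiff_fl (S := S) (NS.ix σ)).comp contDiff_snd
    show ContDiff ℝ 2 fun z : ℝ × ℝ × ℝ =>
      M σ * (1 - z.1 + z.1 * S.fl (NS.ix σ) z.2.1 z.2.2)
    fun_prop
  · have h : ContDiff ℝ 2 fun z : ℝ × ℝ × ℝ => S.hat (NS.ix σ) z.2.1 z.2.2 :=
      (contDiff_hat (S := S) (NS.ix σ)).comp contDiff_snd
    show ContDiff ℝ 2 fun z : ℝ × ℝ × ℝ => S.hat (NS.ix σ) z.2.1 z.2.2 + 1 / 2
    fun_prop
  · show Sp (y + 15) + 1 / 2 = Sp y + 1 / 2 + 15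
    rw [Sp_add_15]; ring
  · show S.hat (Fin.last (m + 1)) (x + S.n) 0 + 1 / 2 = S.hat (Fin.last (m + 1)) x 0 + 1 / 2 + 15
    rw [hat_add_n hS, hS.i1]
    push_cast
    ring
  · have h := j_lt hS σ
    show (1 : ℝ) ≤ (S.j (NS.ix σ) : ℝ) ∧ (S.j (NS.ix σ) : ℝ) ≤ 14
    exact ⟨by exact_mod_cast h.1, by exact_mod_cast h.2⟩
  · show M σ * (1 - t + t * S.fl (NS.ix σ) (x + S.n) y) = M σ * (1 - t + t * S.fl (NS.ix σ) x y)
    rw [fl_add_n hS]
  · show M σ * (1 - t + t * S.fl (NS.ix σ) x (y + 15)) = M σ * (1 - t + t * S.fl (NS.ix σ) x y)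
    rw [fl_add_15 hS]
  · show S.hat (NS.ix σ) (x + S.n) y + 1 / 2 = S.hat (NS.ix σ) x y + 1 / 2 +
      ((S.i (NS.ix σ) : ℤ) : ℝ)
    rw [hat_add_n hS]
    push_cast
    ring
  · show S.hat (NS.ix σ) x (y + 15) + 1 / 2 = S.hat (NS.ix σ) x y + 1 / 2 +
      ((S.j (NS.ix σ) : ℤ) : ℝ)
    rw [hat_add_15 hS]
    push_cast
    ring

theorem ok_C (hS : S.Ok) (M : Fin m → ℝ) (cv h1 h2 : ℝ → ℝ) (hcv : ContDiff ℝ 2 cv)
    (hh1 : ContDiff ℝ 2 h1) (hh2 : ContDiff ℝ 2 h2) (hM : ∀ t, 0 < cv t) :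
    (S.pathC M cv h1 h2).Ok := by
  refine ⟨hS.hn, ?_, hcv, ?_, fun σ => ?_, fun σ => contDiff_const, fun t y => ?_,
    fun t x => ?_, fun t _ => hM t, fun σ => ?_, fun σ t x y => ?_, fun σ t x y => ?_,
    fun σ => ⟨0, fun t x y => by simp [NS.pathC]⟩, fun σ => ⟨0, fun t x y => by simp [NS.pathC]⟩⟩
  · have h : ContDiff ℝ 2 fun z : ℝ × ℝ => Sp z.2 := contDiff_Sp.comp contDiff_snd
    show ContDiff ℝ 2 fun z : ℝ × ℝ => Sp z.2 + 1 / 2
    fun_prop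
  · have h : ContDiff ℝ 2 fun z : ℝ × ℝ => S.hat (Fin.last (m + 1)) z.2 0 :=
      (contDiff_hat (S := S) (Fin.last (m + 1))).comp (f := fun z : ℝ × ℝ => (z.2, (0 : ℝ)))
        (by fun_prop)
    show ContDiff ℝ 2 fun z : ℝ × ℝ => S.hat (Fin.last (m + 1)) z.2 0 + 1 / 2
    fun_prop
  · cases σ with
    | none =>
      have h : ContDiff ℝ 2 fun z : ℝ × ℝ × ℝ => S.kl z.2.1 z.2.2 :=
        (contDiff_kl (S := S)).comp contDiff_snd
      have h' : ContDiff ℝ 2 fun z : ℝ × ℝ × ℝ => h1 z.1 := hh1.comp contDiff_fst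
      show ContDiff ℝ 2 fun z : ℝ × ℝ × ℝ => h1 z.1 * S.kl z.2.1 z.2.2
      fun_prop
    | some σ =>
      have h : ContDiff ℝ 2 fun z : ℝ × ℝ × ℝ => S.fl (NS.ix σ) z.2.1 z.2.2 :=
        (contDiff_fl (S := S) (NS.ix σ)).comp contDiff_snd
      have h' : ContDiff ℝ 2 fun z : ℝ × ℝ × ℝ => h2 z.1 := hh2.comp contDiff_fst
      show ContDiff ℝ 2 fun z : ℝ × ℝ × ℝ => M σ * h2 z.1 * S.fl (NS.ix σ) z.2.1 z.2.2
      fun_prop
  · show Sp (y + 15) + 1 / 2 = Sp y + 1 / 2 + 15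
    rw [Sp_add_15]; ring
  · show S.hat (Fin.last (m + 1)) (x + S.n) 0 + 1 / 2 = S.hat (Fin.last (m + 1)) x 0 + 1 / 2 + 15
    rw [hat_add_n hS, hS.i1]
    push_cast
    ring
  · cases σ with
    | none =>
      show (1 : ℝ) ≤ 15 / 2 ∧ (15 / 2 : ℝ) ≤ 14
      norm_num
    | some σ =>
      have h := j_lt hS σ
      show (1 : ℝ) ≤ (S.j (NS.ix σ) : ℝ) ∧ (S.j (NS.ix σ) : ℝ) ≤ 14
      exact ⟨by exact_mod_cast h.1, by exact_mod_cast h.2⟩
  · cases σ with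
    | none =>
      show h1 t * S.kl (x + S.n) y = h1 t * S.kl x y
      rw [kl_add_n hS]
    | some σ =>
      show M σ * h2 t * S.fl (NS.ix σ) (x + S.n) y = M σ * h2 t * S.fl (NS.ix σ) x y
      rw [fl_add_n hS]
  · cases σ with
    | none =>
      show h1 t * S.kl x (y + 15) = h1 t * S.kl x y
      rw [kl_add_15 hS]
    | some σ =>
      show M σ * h2 t * S.fl (NS.ix σ) x (y + 15) = M σ * h2 t * S.fl (NS.ix σ) x y
      rw [fl_add_15 hS]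

/-- **LEAF OK.** -/
theorem ok_prop : OkProp := fun _ _ hS =>
  ⟨fun M Mv h => ⟨ok_A hS M Mv h, ok_B hS M Mv h⟩,
    fun M cv h1 h2 a b c d => ok_C hS M cv h1 h2 a b c d⟩

end Crest.Agent.R267.NSOk_966
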