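import Crest.Agent.R267.NSL_855
import Crest.Agent.R267.NSOk_966

/-!
# Row 267 (helper855): C1, LEAF REGC

`regC : NSDefs_966.RegCProp`: path C (two lobed words minus real deletions) is regular.
-/

set_option autoImplicit false
set_option linter.unusedSectionVars false

noncomputable section

open Set Filter Topology
open scoped Real
open Crest.Agent.R267.T3aDefs_957 (st)
open Crest.Agent.R267.Calc_957
open Crest.Agent.R267.NSDefs_966 Crest.Agent.R267.NSHat_966 Crest.Agent.R267.NSOk_966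
open Crest.Agent.R267.NSL_855

namespace Crest.Agent.R267.NSRegC_855

theorem e_eq (x : ℝ) : NSDefs_966.e x = ee x := by
  unfold NSDefs_966.e ee Ang_739.cis
  congr 1; push_cast; ring

/-! ### profiles -/

/-- the derivative of `Sp` is not zero exactly inside the rising parts. -/
theorem rise_iff {x : ℝ} {k : ℤ} (_h1 : (k : ℝ) - 1 / 2 < x) (_h2 : x < k + 1)
    (h : std (2 * (x - k)) ≠ 0) : (k : ℝ) < x ∧ x < k + 1 / 2 := by
  constructor
  · by_contra h3
    push Not at h3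
    exact h (std_of_le (by linarith))
  · by_contra h3
    push Not at h3
    exact h (std_of_ge (by linarith))

theorem rise_Sp {x : ℝ} (h : deriv Sp x ≠ 0) : ∃ k : ℤ, (k : ℝ) < x ∧ x < k + 1 / 2 := by
  obtain ⟨k, h1, h2⟩ := exists_cell x
  refine ⟨k, rise_iff h1 h2 fun h3 => h ?_⟩
  rw [(hasDerivAt_Sp k h1 h2).deriv, h3, mul_zero]

theorem st_flat {u : ℝ} (h : std u = 0) : st u = 0 ∨ st u = 1 := by
  rcases le_or_gt u 0 with h1 | h1
  · exact Or.inl (st_of_le h1)
  · rcases le_or_gt 1 u with h2 | h2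
    · exact Or.inr (st_of_ge h2)
    · exact absurd h (std_pos h1 h2).ne'

theorem stc_Sp : Stc Sp := by
  refine ⟨contDiff_Sp, fun x h => ?_, fun x h m hm => ?_⟩
  · obtain ⟨k, h1, h2⟩ := exists_cell x
    rw [(hasDerivAt_Sp k h1 h2).deriv] at h
    rw [Sp_eq k h1.le h2.le]
    rcases st_flat (by linarith : std (2 * (x - k)) = 0) with h3 | h3
    · exact ⟨k, by rw [h3, add_zero]⟩
    · exact ⟨k + 1, by rw [h3]; push_cast; ring⟩
  · obtain ⟨k, h1, h2⟩ := rise_Sp h
    rw [Sp_eq k (by linarith) (by linarith)] at hm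
    have h3 := st_pos (x := 2 * (x - k)) (by linarith)
    have h4 := st_lt_one (x := 2 * (x - k)) (by linarith)
    have h5 : k < m := by
      have : (k : ℝ) < m := by linarith
      exact_mod_cast this
    have h6 : m < k + 1 := by
      have : (m : ℝ) < k + 1 := by linarith
      exact_mod_cast this
    omega

section own

variable {m : ℕ} {S : NS m}

/-- the own word of `v`. -/
def hl (S : NS m) (x : ℝ) : ℝ := S.hat (Fin.last (m + 1)) x 0

theorem hl_eq (hS : S.Ok) (k : ℤ) {x : ℝ} (h1 : (k : ℝ) - 1 / 2 ≤ x) (h2 : x ≤ k + 1) :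
    hl S x = S.N (Fin.last (m + 1)) k 0 + S.sg k * st (2 * (x - k)) := by
  unfold hl NS.hat
  have e := bilS_eq (fun k l => (S.N (Fin.last (m + 1)) k l : ℝ)) k 0 (y := 0) h1 h2
    (by norm_num) (by norm_num)
  rw [e]
  have e2 : st (2 * (0 - ((0 : ℤ) : ℝ))) = 0 := st_of_le (by norm_num)
  rw [e2]
  have e3 : (S.N (Fin.last (m + 1)) (k + 1) 0 : ℝ) = S.N (Fin.last (m + 1)) k 0 + S.sg k := by
    rw [hS.N1s]; push_cast; ring
  unfold bf
  rw [e3]; ring

theorem hl_deriv (hS : S.Ok) (k : ℤ) {x : ℝ} (h1 : (k : ℝ) - 1 / 2 < x) (h2 : x < k + 1) :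
    HasDerivAt (hl S) (S.sg k * (2 * std (2 * (x - k)))) x := by
  have h : HasDerivAt (fun x : ℝ => (S.N (Fin.last (m + 1)) k 0 : ℝ) +
      S.sg k * st (2 * (x - k))) (S.sg k * (2 * std (2 * (x - k)))) x := by
    have h0 : HasDerivAt (fun x : ℝ => 2 * (x - k)) 2 x := by
      have := ((hasDerivAt_id x).sub_const (k : ℝ)).const_mul 2
      simpa using this
    have h3 := (((hasDerivAt_st (2 * (x - k))).comp x h0).const_mul (S.sg k : ℝ)).const_add
      (S.N (Fin.last (m + 1)) k 0 : ℝ)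
    have e : (S.sg k : ℝ) * (2 * std (2 * (x - k))) = S.sg k * (std (2 * (x - k)) * 2) := by ring
    rw [e]
    exact h3
  refine h.congr_of_eventuallyEq ?_
  filter_upwards [(isOpen_cell k).mem_nhds ⟨h1, h2⟩] with y hy
  exact hl_eq hS k hy.1.le hy.2.le

theorem rise_hl (hS : S.Ok) {x : ℝ} (h : deriv (hl S) x ≠ 0) :
    ∃ k : ℤ, (k : ℝ) < x ∧ x < k + 1 / 2 := by
  obtain ⟨k, h1, h2⟩ := exists_cell x
  refine ⟨k, rise_iff h1 h2 fun h3 => h ?_⟩
  rw [(hl_deriv hS k h1 h2).deriv, h3]; ring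

theorem contDiff_hl : ContDiff ℝ 2 (hl S) := by
  have h := (contDiff_hat (S := S) (Fin.last (m + 1))).comp
    (f := fun x : ℝ => ((x, 0) : ℝ × ℝ)) (by fun_prop)
  exact h

theorem stc_hl (hS : S.Ok) : Stc (hl S) := by
  have hsg : ∀ k, (S.sg k : ℝ) = 1 ∨ (S.sg k : ℝ) = -1 := fun k => by
    rcases hS.sg1 k with h | h
    · left; rw [h]; norm_num
    · right; rw [h]; norm_num
  refine ⟨contDiff_hl, fun x h => ?_, fun x h m' hm => ?_⟩
  · obtain ⟨k, h1, h2⟩ := exists_cell x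
    rw [(hl_deriv hS k h1 h2).deriv] at h
    rw [hl_eq hS k h1.le h2.le]
    have h3 : std (2 * (x - k)) = 0 := by
      rcases hsg k with h4 | h4 <;> rw [h4] at h <;> linarith
    rcases st_flat h3 with h4 | h4
    · exact ⟨S.N (Fin.last (m + 1)) k 0, by rw [h4]; ring⟩
    · exact ⟨S.N (Fin.last (m + 1)) k 0 + S.sg k, by rw [h4]; push_cast; ring⟩
  · obtain ⟨k, h1, h2⟩ := rise_hl hS h
    rw [hl_eq hS k (by linarith) (by linarith)] at hm
    have h3 := st_pos (x := 2 * (x - k)) (by linarith)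
    have h4 := st_lt_one (x := 2 * (x - k)) (by linarith)
    set N := S.N (Fin.last (m + 1)) k 0 with hN
    rcases hsg k with h5 | h5
    · rw [h5] at hm
      have h6 : N < m' := by
        have : (N : ℝ) < m' := by linarith
        exact_mod_cast this
      have h7 : m' < N + 1 := by
        have : (m' : ℝ) < N + 1 := by linarith
        exact_mod_cast this
      omega
    · rw [h5] at hm
      have h6 : m' < N := by
        have : (m' : ℝ) < N := by linarith
        exact_mod_cast this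
      have h7 : N - 1 < m' := by
        have : (N : ℝ) - 1 < m' := by linarith
        exact_mod_cast this
      omega

/-- windows of `NS` are windows. -/
theorem win_bil (hS : S.Ok) (N : ℤ → ℤ → ℝ) (h0 : ∀ k l, 0 ≤ N k l) :
    Win (hl S) Sp fun p => bil N (Gp p.1) (Gp p.2) := by
  have hd : Differentiable ℝ fun p : ℝ × ℝ => bil N (Gp p.1) (Gp p.2) :=
    (contDiff_bilG N).differentiable (by norm_num)
  have hG : ∀ {k : ℤ} {x x' : ℝ}, (k : ℝ) < x → x < k + 1 / 2 → (k : ℝ) < x' → x' < k + 1 / 2 →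
      Gp x' = Gp x := by
    intro k x x' h1 h2 h3 h4
    rw [Gp_eq k h3.le (by linarith), Gp_eq k h1.le (by linarith), st_of_le (by linarith),
      st_of_le (by linarith)]
  refine ⟨contDiff_bilG N, fun p => ?_, fun x y h => ?_, fun x y h => ?_⟩
  · have h1 := Int.fract_nonneg (Gp p.1)
    have h2 := (Int.fract_lt_one (Gp p.1)).le
    have h3 := Int.fract_nonneg (Gp p.2)
    have h4 := (Int.fract_lt_one (Gp p.2)).le
    unfold bil
    have h5 : 0 ≤ 1 - Int.fract (Gp p.1) := by linarith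
    have h6 : 0 ≤ 1 - Int.fract (Gp p.2) := by linarith
    have h7 := h0 ⌊Gp p.1⌋ ⌊Gp p.2⌋
    have h8 := h0 (⌊Gp p.1⌋ + 1) ⌊Gp p.2⌋
    have h9 := h0 ⌊Gp p.1⌋ (⌊Gp p.2⌋ + 1)
    have h10 := h0 (⌊Gp p.1⌋ + 1) (⌊Gp p.2⌋ + 1)
    positivity
  · obtain ⟨k, h1, h2⟩ := rise_hl hS h
    have h3 : HasDerivAt (fun s : ℝ => bil N (Gp s) (Gp y)) 0 x := by
      refine (hasDerivAt_const x (bil N (Gp x) (Gp y))).congr_of_eventuallyEq ?_
      filter_upwards [Ioo_mem_nhds h1 h2] with s hs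
      rw [hG h1 h2 hs.1 hs.2]
    have h4 := (hd (x, y)).hasFDerivAt.comp_hasDerivAt x
      ((hasDerivAt_id x).prodMk (hasDerivAt_const x y))
    exact h4.unique h3
  · obtain ⟨k, h1, h2⟩ := rise_Sp h
    have h3 : HasDerivAt (fun s : ℝ => bil N (Gp x) (Gp s)) 0 y := by
      refine (hasDerivAt_const y (bil N (Gp x) (Gp y))).congr_of_eventuallyEq ?_
      filter_upwards [Ioo_mem_nhds h1 h2] with s hs
      rw [hG h1 h2 hs.1 hs.2]
    have h4 := (hd (x, y)).hasFDerivAt.comp_hasDerivAt y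
      ((hasDerivAt_const y x).prodMk (hasDerivAt_id y))
    exact h4.unique h3

/-! ### change of coordinates -/

/-- `(x, lam, y) ↦ (θ, u, ω)`. -/
def Phi (n : ℕ) (z : ℝ × ℝ × ℝ) : ℝ × ℝ × ℝ := (z.1 / kk n, Real.exp z.2.1, z.2.2 / kk 15)

theorem surj_of_comp {n : ℕ} (hn : 0 < n) {f : ℝ × ℝ × ℝ → ℂ} {z : ℝ × ℝ × ℝ}
    (hf : DifferentiableAt ℝ f (Phi n z)) (h : ∀ c : ℂ, ∃ v, fderiv ℝ f (Phi n z) v = c) :
    Function.Surjective (fderiv ℝ (fun z => f (Phi n z)) z) := by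
  have hk := kk_pos hn
  have hk' := kk_pos (n := 15) (by norm_num)
  have hPd : Differentiable ℝ (Phi n) := by
    unfold Phi
    fun_prop
  intro c
  obtain ⟨v, hv⟩ := h c
  refine ⟨(kk n * v.1, Real.exp (-z.2.1) * v.2.1, kk 15 * v.2.2), ?_⟩
  have h1 : HasFDerivAt (fun z => f (Phi n z))
      ((fderiv ℝ f (Phi n z)).comp (fderiv ℝ (Phi n) z)) z :=
    hf.hasFDerivAt.comp z (hPd z).hasFDerivAt
  rw [h1.fderiv, ContinuousLinearMap.comp_apply]
  have h2 : fderiv ℝ (Phi n) z (kk n * v.1, Real.exp (-z.2.1) * v.2.1, kk 15 * v.2.2) = v := by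
    have a1 : HasFDerivAt (fun z : ℝ × ℝ × ℝ => z.1 / kk n)
        ((kk n)⁻¹ • ContinuousLinearMap.fst ℝ ℝ (ℝ × ℝ)) z := by
      have := (hasFDerivAt_fst (𝕜 := ℝ) (p := z)).const_mul (kk n)⁻¹
      refine this.congr_of_eventuallyEq (Eventually.of_forall fun y => ?_)
      simp only [div_eq_inv_mul]
    have a2 : HasFDerivAt (fun z : ℝ × ℝ × ℝ => Real.exp z.2.1)
        (Real.exp z.2.1 • (ContinuousLinearMap.fst ℝ ℝ ℝ).comp
          (ContinuousLinearMap.snd ℝ ℝ (ℝ × ℝ))) z := by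
      have b1 : HasFDerivAt (fun z : ℝ × ℝ × ℝ => z.2.1)
          ((ContinuousLinearMap.fst ℝ ℝ ℝ).comp (ContinuousLinearMap.snd ℝ ℝ (ℝ × ℝ))) z :=
        hasFDerivAt_fst.comp z hasFDerivAt_snd
      exact b1.exp
    have a3 : HasFDerivAt (fun z : ℝ × ℝ × ℝ => z.2.2 / kk 15)
        ((kk 15)⁻¹ • (ContinuousLinearMap.snd ℝ ℝ ℝ).comp
          (ContinuousLinearMap.snd ℝ ℝ (ℝ × ℝ))) z := by
      have b1 : HasFDerivAt (fun z : ℝ × ℝ × ℝ => z.2.2)
          ((ContinuousLinearMap.snd ℝ ℝ ℝ).comp (ContinuousLinearMap.snd ℝ ℝ (ℝ × ℝ))) z :=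
        hasFDerivAt_snd.comp z hasFDerivAt_snd
      have := b1.const_mul (kk 15)⁻¹
      refine this.congr_of_eventuallyEq (Eventually.of_forall fun y => ?_)
      simp only [div_eq_inv_mul]
    have a4 := a1.prodMk (a2.prodMk a3)
    have a5 : HasFDerivAt (Phi n) _ z := a4
    rw [a5.fderiv]
    refine Prod.ext ?_ (Prod.ext ?_ ?_)
    · show (kk n)⁻¹ * (kk n * v.1) = v.1
      field_simp
    · show Real.exp z.2.1 * (Real.exp (-z.2.1) * v.2.1) = v.2.1
      rw [← mul_assoc, ← Real.exp_add, add_neg_cancel, Real.exp_zero, one_mul]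
    · show (kk 15)⁻¹ * (kk 15 * v.2.2) = v.2.2
      field_simp
  rw [h2, hv]

/-! ### path C -/

/-- coefficients of the deletions. -/
def cc (M : Fin m → ℝ) (h1 h2 : ℝ) (σ : Option (Fin m)) : ℝ :=
  Option.elim σ h1 fun s => M s * h2

/-- exponents of the deletions. -/
def jj (S : NS m) (σ : Option (Fin m)) : ℝ := Option.elim σ (15 / 2) fun s => (S.j (NS.ix s) : ℝ)

/-- windows of the deletions. -/
def ww (S : NS m) (σ : Option (Fin m)) (p : ℝ × ℝ) : ℝ :=
  Option.elim σ (S.kl p.1 p.2) fun s => S.fl (NS.ix s) p.1 p.2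

theorem K_eq (S : NS m) (hn : 0 < S.n) (M : Fin m → ℝ) (cv h1 h2 : ℝ → ℝ) (t : ℝ)
    (z : ℝ × ℝ × ℝ) : (S.pathC M cv h1 h2).K t z =
      kL S.n (hl S) Sp (cv t) (cc M (h1 t) (h2 t)) (jj S) (ww S) (Phi S.n z) := by
  have hk := kk_pos hn
  have hk' := kk_pos (n := 15) (by norm_num)
  have e1 : kk S.n * (z.1 / kk S.n) = z.1 := by field_simp
  have e2 : kk 15 * (z.2.2 / kk 15) = z.2.2 := by field_simp
  have e3 : Real.exp z.2.1 ^ 15 = Real.exp (15 * z.2.1) := by
    rw [← Real.exp_nat_mul]; norm_num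
  have e4 : ∀ a : ℝ, Real.exp z.2.1 ^ a = Real.exp (a * z.2.1) := fun a => by
    rw [← Real.exp_mul, mul_comm]
  unfold PD.K PD.mid kL dL Phi
  simp only [e1, e2, e3, e4, NS.pathC, e_eq]
  have e5 : ∀ x : ℂ, x * ee (1 / 2) = -x := fun x => by rw [ee_half]; ring
  simp only [e5, Finset.sum_neg_distrib]
  rw [← sub_eq_add_neg]
  congr 1
  push_cast
  refine Finset.sum_congr rfl fun σ _ => ?_
  cases σ with
  | none => simp only [cc, jj, ww, Option.elim]; push_cast; ring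
  | some s => simp only [cc, jj, ww, Option.elim]; push_cast; ring

/-- **LEAF REGC.** -/
theorem regC : RegCProp := by
  intro m S hS M cv h1 h2 hM hcv hh hneg t ht z hz
  have hn := hS.hn
  have hsg : ∀ k, S.sg k ≠ 0 := fun k => by rcases hS.sg1 k with h | h <;> rw [h] <;> norm_num
  have hw : ∀ σ, Win (hl S) Sp (ww S σ) := by
    intro σ
    cases σ with
    | none =>
      exact win_bil hS (fun k l => if S.kill k l then (1 : ℝ) else 0)
        (fun k l => by split_ifs <;> norm_num)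
    | some s =>
      exact win_bil hS (fun k l => if S.flat (NS.ix s) k l then (1 : ℝ) else 0)
        (fun k l => by split_ifs <;> norm_num)
  have hc0 : ∀ σ, 0 ≤ cc M (h1 t) (h2 t) σ := by
    intro σ
    cases σ with
    | none => exact (hh t ht).1
    | some s => exact mul_nonneg (hM s).le (hh t ht).2
  have hj : ∀ σ, 0 ≤ jj S σ ∧ jj S σ ≤ 15 := by
    intro σ
    cases σ with
    | none => show (0 : ℝ) ≤ 15 / 2 ∧ (15 / 2 : ℝ) ≤ 15; norm_num
    | some s =>
      have h3 := j_lt hS s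
      show (0 : ℝ) ≤ (S.j (NS.ix s) : ℝ) ∧ (S.j (NS.ix s) : ℝ) ≤ 15
      refine ⟨Nat.cast_nonneg _, ?_⟩
      have : (S.j (NS.ix s) : ℝ) ≤ 14 := by exact_mod_cast h3.2
      linarith
  have hP : 0 < (Phi S.n z).2.1 := Real.exp_pos _
  have hfun : (S.pathC M cv h1 h2).K t = fun z =>
      kL S.n (hl S) Sp (cv t) (cc M (h1 t) (h2 t)) (jj S) (ww S) (Phi S.n z) :=
    funext fun z => K_eq S hn M cv h1 h2 t z
  rw [hfun]
  refine surj_of_comp hn ((contDiffAt_kL (stc_hl hS) stc_Sp hw hP).differentiableAt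
    (by norm_num)) fun c => ?_
  have h0 : kL S.n (hl S) Sp (cv t) (cc M (h1 t) (h2 t)) (jj S) (ww S) (Phi S.n z) = 0 := by
    rw [← K_eq S hn]; exact hz
  refine kL_reg hn (stc_hl hS) stc_Sp hw (hcv t) hc0 hj ?_ (θ := (Phi S.n z).1)
    (u := (Phi S.n z).2.1) (ω := (Phi S.n z).2.2) hP h0 c
  -- killed cells
  intro x y hx hy
  obtain ⟨k, k1, k2⟩ := rise_hl hS hx
  obtain ⟨l, l1, l2⟩ := rise_Sp hy
  have hkl : S.kl x y = if S.kill k l then 1 else 0 :=
    bilG_lobe _ k l k1.le k2.le l1.le l2.le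
  have hfl : ∀ s, S.fl s x y = if S.flat s k l then 1 else 0 := fun s =>
    bilG_lobe _ k l k1.le k2.le l1.le l2.le
  by_cases hkill : S.kill k l
  swap
  · left
    intro σ
    cases σ with
    | none =>
      show h1 t * S.kl x y = 0
      rw [hkl, if_neg hkill, mul_zero]
    | some s =>
      show M s * h2 t * S.fl (NS.ix s) x y = 0
      rw [hfl, if_neg (fun h => hkill ⟨_, h⟩), mul_zero]
  right
  -- some coupling is flat
  obtain ⟨s0, hs0⟩ := id hkill
  have hs0' : ∃ s : Fin m, NS.ix s = s0 := by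
    have a1 : s0 ≠ 0 := by
      rintro rfl
      have := hs0.2.1
      rw [hS.N0, hS.N0] at this
      omega
    have a2 : s0 ≠ Fin.last (m + 1) := by
      rintro rfl
      have := hs0.1
      rw [hS.N1s] at this
      have h3 := hsg k
      omega
    have a3 : (s0 : ℕ) ≠ 0 := fun h => a1 (Fin.ext h)
    have a4 : (s0 : ℕ) ≠ m + 1 := fun h => a2 (Fin.ext h)
    have a5 := s0.isLt
    refine ⟨⟨s0 - 1, by omega⟩, Fin.ext ?_⟩
    simp only [NS.ix, Fin.val_succ, Fin.val_castSucc]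
    omega
  obtain ⟨s, rfl⟩ := hs0'
  have hpos : ∀ (u : ℝ), 0 < u → ∀ σ, 0 ≤ cc M (h1 t) (h2 t) σ * u ^ jj S σ * ww S σ (x, y) :=
    fun u hu σ => mul_nonneg (mul_nonneg (hc0 σ) (Real.rpow_nonneg hu.le _)) ((hw σ).nn _)
  rcases hneg t ht with h3 | ⟨h3, h4⟩
  · -- `h1` large: `u^{15/2} = √cv`
    set q : ℝ := √(cv t) with hq
    have hq0 : 0 < q := Real.sqrt_pos.2 (hcv t)
    have hqq : q * q = cv t := Real.mul_self_sqrt (hcv t).le
    refine ⟨q ^ ((2 : ℝ) / 15), Real.rpow_pos_of_pos hq0 _, ?_⟩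
    have b1 : (q ^ ((2 : ℝ) / 15)) ^ 15 = q * q := by
      rw [← Real.rpow_natCast, ← Real.rpow_mul hq0.le, ← pow_two, ← Real.rpow_natCast q 2]
      congr 1; norm_num
    have b2 : (q ^ ((2 : ℝ) / 15)) ^ ((15 : ℝ) / 2) = q := by
      rw [← Real.rpow_mul hq0.le]
      norm_num
    have b3 := Finset.single_le_sum (f := fun σ => cc M (h1 t) (h2 t) σ *
      (q ^ ((2 : ℝ) / 15)) ^ jj S σ * ww S σ (x, y))
      (fun σ _ => hpos _ (Real.rpow_pos_of_pos hq0 _) σ) (Finset.mem_univ none)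
    have b4 : cc M (h1 t) (h2 t) none * (q ^ ((2 : ℝ) / 15)) ^ jj S none * ww S none (x, y) =
        h1 t * q := by
      show h1 t * (q ^ ((2 : ℝ) / 15)) ^ ((15 : ℝ) / 2) * S.kl x y = _
      rw [b2, hkl, if_pos hkill, mul_one]
    beta_reduce at b3
    rw [b4] at b3
    rw [b1, ← hqq]
    have : 2 * q * q < h1 t * q := mul_lt_mul_of_pos_right h3 hq0
    linarith
  · obtain ⟨lam, h5⟩ := h4 s
    refine ⟨Real.exp lam, Real.exp_pos _, ?_⟩
    have b1 : Real.exp lam ^ 15 = Real.exp (15 * lam) := by rw [← Real.exp_nat_mul]; norm_num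
    have b3 := Finset.single_le_sum (f := fun σ => cc M (h1 t) (h2 t) σ *
      Real.exp lam ^ jj S σ * ww S σ (x, y))
      (fun σ _ => hpos _ (Real.exp_pos _) σ) (Finset.mem_univ (some s))
    have b4 : cc M (h1 t) (h2 t) (some s) * Real.exp lam ^ jj S (some s) * ww S (some s) (x, y) =
        M s * Real.exp (S.j (NS.ix s) * lam) := by
      show M s * h2 t * Real.exp lam ^ (S.j (NS.ix s) : ℝ) * S.fl (NS.ix s) x y = _
      rw [hfl, if_pos hs0, h3, ← Real.exp_mul, mul_comm lam]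
      ring
    beta_reduce at b3
    rw [b4] at b3
    have b5 : 0 ≤ ∑ s' ∈ Finset.univ.erase s, M s' * Real.exp (S.j (NS.ix s') * lam) :=
      Finset.sum_nonneg fun s' _ => mul_nonneg (hM s').le (Real.exp_pos _).le
    rw [b1]
    linarith

end own

end Crest.Agent.R267.NSRegC_855
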