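import Crest.Agent.R267.NSLift_966

/-!
# Row 267, C1: splices and the chain of one arm (helper966)

`tri_AB`, `tri_BC`, `tri_CC`, `tri_Cfin` : equality of the ends of consecutive families;
`chain_of` : from the official arm (path A at `t = 0`) to the end form `S.fin`.
-/

set_option autoImplicit false
set_option linter.unusedSectionVars false

noncomputable section

open Set Filter Topology Finset
open Crest.Agent.R267.T3aDefs_957 (st)
open Crest.Agent.R267.Calc_957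
open Crest.Agent.R267.NSDefs_966
open Crest.Agent.R267.NSHat_966
open Crest.Agent.R267.NSOk_966
open Crest.Agent.R267.NSLift_966
open Crest.Agent.R267.NStep_88

namespace Crest.Agent.R267.NSSplice_966

variable {m : ℕ} {S : NS m}

/-- equality of triples from equality of the data at the two times. -/
theorem tri_ext {ι κ : Type} [Fintype ι] [Fintype κ] {D : PD ι} {D' : PD κ} {t t' : ℝ}
    (hn : D.n = D'.n) (hq : ∀ y, D.q (t, y) = D'.q (t', y)) (hcv : D.cv t = D'.cv t')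
    (hp : ∀ x, D.p (t, x) = D'.p (t', x)) (hm : ∀ z, D.mid t z = D'.mid t' z) :
    D.tri t = D'.tri t' := by
  have hK : ∀ z, D.K t z = D'.K t' z := fun z => by
    unfold PD.K
    rw [hq, hcv, hp, hm]
  unfold PD.tri
  congr 1
  · funext z
    unfold PD.F
    rw [hK, hn]
  · funext θ
    unfold PD.P
    rw [hcv, hp, hn]
  · funext θ ω
    unfold PD.Qr
    rw [hq]

/-- where the window of a term is active, its phase is an integer. -/
theorem fl_hat (S : NS m) (s : Fin (m + 2)) (x y : ℝ) (h : S.fl s x y ≠ 0) :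
    ∃ k : ℤ, S.hat s x y = k := by
  obtain ⟨k, hk1, hk2⟩ := exists_cell2 x
  obtain ⟨l, hl1, hl2⟩ := exists_cell2 y
  have hfl : S.fl s x y = _ := bilG_eq (fun k l => if S.flat s k l then (1 : ℝ) else 0) k l hk1
    (by linarith) hl1 (by linarith)
  have hhat : S.hat s x y = _ := bilS_eq (fun k l => (S.N s k l : ℝ)) k l (by linarith) hk2.le
    (by linarith) hl2.le
  rw [hfl] at h
  rcases le_or_gt (x - k) (1 / 2) with hx | hx
  · have e1 : st (2 * (x - k) - 1) = 0 := st_of_le (by linarith)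
    rcases le_or_gt (y - l) (1 / 2) with hy | hy
    · have e2 : st (2 * (y - l) - 1) = 0 := st_of_le (by linarith)
      rw [e1, e2] at h
      unfold bf at h
      have hf : S.flat s k l := by
        by_contra hc
        simp [hc] at h
      refine ⟨S.N s k l, ?_⟩
      rw [hhat]
      unfold bf
      rw [hf.1, hf.2.1, hf.2.2]
      ring
    · have e2 : st (2 * (y - l)) = 1 := st_of_ge (by linarith)
      rw [e1] at h
      unfold bf at h
      have hf : S.N s (k + 1) (l + 1) = S.N s k (l + 1) := by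
        by_cases h1 : S.flat s k l
        · rw [h1.2.2, h1.2.1]
        · by_cases h2 : S.flat s k (l + 1)
          · exact h2.1
          · simp [h1, h2] at h
      refine ⟨S.N s k (l + 1), ?_⟩
      rw [hhat, e2]
      unfold bf
      rw [hf]
      ring
  · have e1 : st (2 * (x - k)) = 1 := st_of_ge (by linarith)
    rcases le_or_gt (y - l) (1 / 2) with hy | hy
    · have e2 : st (2 * (y - l) - 1) = 0 := st_of_le (by linarith)
      rw [e2] at h
      unfold bf at h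
      have hf : S.N s (k + 1) (l + 1) = S.N s (k + 1) l := by
        by_cases h1 : S.flat s k l
        · rw [h1.2.2, h1.1]
        · by_cases h2 : S.flat s (k + 1) l
          · exact h2.2.1
          · simp [h1, h2] at h
      refine ⟨S.N s (k + 1) l, ?_⟩
      rw [hhat, e1]
      unfold bf
      rw [hf]
      ring
    · have e2 : st (2 * (y - l)) = 1 := st_of_ge (by linarith)
      refine ⟨S.N s (k + 1) (l + 1), ?_⟩
      rw [hhat, e1, e2]
      unfold bf
      ring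

theorem fl_e (S : NS m) (s : Fin (m + 2)) (x y : ℝ) :
    ((S.fl s x y : ℝ) : ℂ) * e (S.hat s x y + 1 / 2) = ((S.fl s x y : ℝ) : ℂ) * e (1 / 2) := by
  by_cases h : S.fl s x y = 0
  · rw [h]; simp
  · obtain ⟨k, hk⟩ := fl_hat S s x y h
    rw [hk, add_comm, e_add_int]

theorem tri_AB (M : Fin m → ℝ) (Mv : ℝ) : (S.pathA M Mv).tri 1 = (S.pathB M Mv).tri 0 := by
  refine tri_ext rfl (fun y => ?_) rfl (fun x => ?_) fun z => ?_
  · show (1 - 1) * y + 1 * (Sp y + 1 / 2) = Sp y + 1 / 2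
    ring
  · show (1 - 1) * (15 * x / S.n) + 1 * (S.hat (Fin.last (m + 1)) x 0 + 1 / 2) =
      S.hat (Fin.last (m + 1)) x 0 + 1 / 2
    ring
  · unfold PD.mid
    refine Finset.sum_congr rfl fun σ _ => ?_
    show ((M σ * Real.exp (S.j (NS.ix σ) * z.2.1) : ℝ) : ℂ) *
      e ((1 - 1) * (S.i (NS.ix σ) * z.1 / S.n + S.j (NS.ix σ) * z.2.2 / 15) +
        1 * (S.hat (NS.ix σ) z.1 z.2.2 + 1 / 2)) =
      ((M σ * (1 - 0 + 0 * S.fl (NS.ix σ) z.1 z.2.2) * Real.exp (S.j (NS.ix σ) * z.2.1) : ℝ) : ℂ) *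
      e (S.hat (NS.ix σ) z.1 z.2.2 + 1 / 2)
    congr 2
    · ring_nf
    · ring

theorem tri_BC (M : Fin m → ℝ) (Mv : ℝ) (h1 h2 : ℝ → ℝ) (hh1 : h1 0 = 0) (hh2 : h2 0 = 1) :
    (S.pathB M Mv).tri 1 = (S.pathC M (fun _ => Mv) h1 h2).tri 0 := by
  refine tri_ext rfl (fun y => rfl) rfl (fun x => rfl) fun z => ?_
  unfold PD.mid
  rw [Fintype.sum_option]
  have e0 : (((S.pathC M (fun _ => Mv) h1 h2).c none (0, z.1, z.2.2) *
      Real.exp ((S.pathC M (fun _ => Mv) h1 h2).E none * z.2.1) : ℝ) : ℂ) *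
      e ((S.pathC M (fun _ => Mv) h1 h2).ψ none (0, z.1, z.2.2)) = 0 := by
    show ((h1 0 * S.kl z.1 z.2.2 * Real.exp (15 / 2 * z.2.1) : ℝ) : ℂ) * e (1 / 2) = 0
    rw [hh1]; simp
  rw [e0, zero_add]
  refine Finset.sum_congr rfl fun σ _ => ?_
  show ((M σ * (1 - 1 + 1 * S.fl (NS.ix σ) z.1 z.2.2) * Real.exp (S.j (NS.ix σ) * z.2.1) : ℝ) : ℂ) *
      e (S.hat (NS.ix σ) z.1 z.2.2 + 1 / 2) =
    ((M σ * h2 0 * S.fl (NS.ix σ) z.1 z.2.2 * Real.exp (S.j (NS.ix σ) * z.2.1) : ℝ) : ℂ) *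
      e (1 / 2)
  have h := fl_e S (NS.ix σ) z.1 z.2.2
  rw [hh2]
  push_cast
  linear_combination (M σ : ℂ) * Complex.exp (S.j (NS.ix σ) * z.2.1) * h

theorem tri_CC (M : Fin m → ℝ) {cv h1 h2 cv' h1' h2' : ℝ → ℝ} {t t' : ℝ} (e0 : cv t = cv' t')
    (e1 : h1 t = h1' t') (e2 : h2 t = h2' t') :
    (S.pathC M cv h1 h2).tri t = (S.pathC M cv' h1' h2').tri t' := by
  refine tri_ext rfl (fun y => rfl) e0 (fun x => rfl) fun z => ?_
  unfold PD.mid
  rw [Fintype.sum_option, Fintype.sum_option]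
  congr 1
  · show ((h1 t * S.kl z.1 z.2.2 * Real.exp (15 / 2 * z.2.1) : ℝ) : ℂ) * e (1 / 2) =
      ((h1' t' * S.kl z.1 z.2.2 * Real.exp (15 / 2 * z.2.1) : ℝ) : ℂ) * e (1 / 2)
    rw [e1]
  · refine Finset.sum_congr rfl fun σ _ => ?_
    show ((M σ * h2 t * S.fl (NS.ix σ) z.1 z.2.2 * Real.exp (S.j (NS.ix σ) * z.2.1) : ℝ) : ℂ) *
        e (1 / 2) =
      ((M σ * h2' t' * S.fl (NS.ix σ) z.1 z.2.2 * Real.exp (S.j (NS.ix σ) * z.2.1) : ℝ) : ℂ) *
        e (1 / 2)
    rw [e2]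

theorem tri_Cfin (M : Fin m → ℝ) {cv h1 h2 : ℝ → ℝ} {t : ℝ} (e0 : cv t = 1) (e1 : h1 t = 5)
    (e2 : h2 t = 0) : (S.pathC M cv h1 h2).tri t = S.fin.tri 0 := by
  refine tri_ext rfl (fun y => rfl) e0 (fun x => rfl) fun z => ?_
  unfold PD.mid
  rw [Fintype.sum_option]
  have e3 : ∑ σ : Fin m, (((S.pathC M cv h1 h2).c (some σ) (t, z.1, z.2.2) *
      Real.exp ((S.pathC M cv h1 h2).E (some σ) * z.2.1) : ℝ) : ℂ) *
      e ((S.pathC M cv h1 h2).ψ (some σ) (t, z.1, z.2.2)) = 0 := by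
    refine Finset.sum_eq_zero fun σ _ => ?_
    show ((M σ * h2 t * S.fl (NS.ix σ) z.1 z.2.2 * Real.exp (S.j (NS.ix σ) * z.2.1) : ℝ) : ℂ) *
      e (1 / 2) = 0
    rw [e2]; simp
  rw [e3, add_zero, Fintype.sum_unique]
  show ((h1 t * S.kl z.1 z.2.2 * Real.exp (15 / 2 * z.2.1) : ℝ) : ℂ) * e (1 / 2) =
    ((5 * S.kl z.1 z.2.2 * Real.exp (15 / 2 * z.2.1) : ℝ) : ℂ) * e (1 / 2)
  rw [e1]

/-- **the chain of one arm.** -/
theorem chain_of (hZ : ZoneProp) (hSep : SepProp) (hB : RegBProp) (hC : RegCProp) (hS : S.Ok)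
    {a : ℕ} (hc : S.Cvx a) (bo : Bool) (v : Fin 3) : ∃ r0 > 0, ∀ r : ℝ, 0 < r → r ≤ r0 →
      CEq bo v ((S.pathA (S.Mr a r) (NS.Mvr a r)).tri 0) (S.fin.tri 0) := by
  obtain ⟨δ, hδ, hz⟩ := hZ m S hS
  obtain ⟨r0, hr0, hs⟩ := hSep m S a hS hc δ hδ
  refine ⟨r0, hr0, fun r hr hrr => ?_⟩
  obtain ⟨hsep, hneg⟩ := hs r hr hrr
  set M := S.Mr a r with hM
  set Mv := NS.Mvr a r with hMv
  have hM0 : ∀ s, 0 < M s := fun s => pow_pos hr _
  have hMv0 : 0 < Mv := pow_pos hr _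
  have hsq : 0 < √Mv := Real.sqrt_pos.2 hMv0
  -- path A
  have cA : CEq bo v ((S.pathA M Mv).tri 0) ((S.pathA M Mv).tri 1) :=
    ceq (ok_A hS M Mv hMv0) (hz M Mv hM0 hMv0 hsep)
  -- path B
  have cB : CEq bo v ((S.pathB M Mv).tri 0) ((S.pathB M Mv).tri 1) :=
    ceq (ok_B hS M Mv hMv0) (hB m S hS M Mv hM0 hMv0 hneg)
  -- path C, first segment
  have c1 : CEq bo v ((S.pathC M (fun _ => Mv) (fun t => 5 * t * √Mv) fun _ => 1).tri 0)
      ((S.pathC M (fun _ => Mv) (fun t => 5 * t * √Mv) fun _ => 1).tri 1) :=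
    ceq (ok_C hS M _ _ _ contDiff_const (by fun_prop) contDiff_const fun _ => hMv0)
      (hC m S hS M _ _ _ hM0 (fun _ => hMv0)
        (fun t ht => ⟨mul_nonneg (mul_nonneg (by norm_num) ht.1) hsq.le, zero_le_one⟩)
        fun t _ => Or.inr ⟨rfl, hneg⟩)
  -- second segment
  have c2 : CEq bo v ((S.pathC M (fun _ => Mv) (fun _ => 5 * √Mv) fun t => 1 - t).tri 0)
      ((S.pathC M (fun _ => Mv) (fun _ => 5 * √Mv) fun t => 1 - t).tri 1) :=
    ceq (ok_C hS M _ _ _ contDiff_const contDiff_const (by fun_prop) fun _ => hMv0)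
      (hC m S hS M _ _ _ hM0 (fun _ => hMv0)
        (fun t ht => ⟨by positivity, by linarith [ht.2]⟩)
        fun t _ => Or.inl (by
          show 2 * √Mv < 5 * √Mv
          linarith))
  -- third segment
  let cv : ℝ → ℝ := fun t => Real.exp ((1 - t) * Real.log Mv)
  let h1 : ℝ → ℝ := fun t => 5 * Real.exp ((1 - t) * Real.log Mv / 2)
  have hsqrt : ∀ t, √(cv t) = Real.exp ((1 - t) * Real.log Mv / 2) := fun t => by
    show √(Real.exp ((1 - t) * Real.log Mv)) = _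
    rw [Real.exp_half]
  have c3 : CEq bo v ((S.pathC M cv h1 fun _ => 0).tri 0) ((S.pathC M cv h1 fun _ => 0).tri 1) :=
    ceq (ok_C hS M _ _ _ (by fun_prop) (by fun_prop) contDiff_const fun _ => Real.exp_pos _)
      (hC m S hS M _ _ _ hM0 (fun _ => Real.exp_pos _)
        (fun t ht => ⟨by positivity, le_rfl⟩)
        fun t _ => Or.inl (by
          rw [hsqrt]
          show 2 * Real.exp ((1 - t) * Real.log Mv / 2) < 5 * Real.exp ((1 - t) * Real.log Mv / 2)
          have := Real.exp_pos ((1 - t) * Real.log Mv / 2)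
          linarith))
  have hcv0 : cv 0 = Mv := by
    show Real.exp ((1 - 0) * Real.log Mv) = Mv
    rw [sub_zero, one_mul, Real.exp_log hMv0]
  have hh10 : h1 0 = 5 * √Mv := by
    show 5 * Real.exp ((1 - 0) * Real.log Mv / 2) = 5 * √Mv
    rw [← hsqrt 0, hcv0]
  rw [tri_AB] at cA
  rw [tri_BC M Mv (fun t => 5 * t * √Mv) (fun _ => 1) (by simp) rfl] at cB
  rw [tri_CC (cv := fun _ => Mv) (h1 := fun t => 5 * t * √Mv) (h2 := fun _ => 1)
    (cv' := fun _ => Mv) (h1' := fun _ => 5 * √Mv) (h2' := fun t => 1 - t) (t := 1) (t' := 0) M rfl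
    (by ring) (by ring)] at c1
  rw [tri_CC (cv := fun _ => Mv) (h1 := fun _ => 5 * √Mv) (h2 := fun t => 1 - t)
    (cv' := cv) (h1' := h1) (h2' := fun _ => 0) (t := 1) (t' := 0) M hcv0.symm
    hh10.symm (by ring)] at c2
  rw [tri_Cfin (t := 1) (cv := cv) (h1 := h1) (h2 := fun _ => 0) M
    (by show Real.exp ((1 - 1) * Real.log Mv) = 1; simp)
    (by show 5 * Real.exp ((1 - 1) * Real.log Mv / 2) = 5; simp) rfl] at c3
  exact (((cA.trans cB).trans c1).trans c2).trans c3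

end Crest.Agent.R267.NSSplice_966
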