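import Crest.Agent.R267.NSDefs_966

/-!
# Row 267, N2 (helper399): LEAF PAIR, `pairProp : PairProp`

Calculus of the bilinear staircases of `NSDefs_966` (self-contained):

* `Sp_eq`, `Gp_eq`, `contDiff_Sp`, `contDiff_Gp`, `Sp_add_int`, `Gp_add_int`;
* `bil_eq` : polynomial form of the bilinear interpolation on a closed unit square;
* `contDiff_bilSp`, `contDiff_bilGp`; `hasDerivAt_bx`, `hasDerivAt_by` : partial derivatives;
* `crit_int` : the critical values of a monotone bilinear staircase are integers;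
* `hat`, `fl`, `kl` : smoothness, periodicity, bounds.
-/

set_option autoImplicit false
set_option linter.unusedSectionVars false

noncomputable section

open Set Filter Topology
open scoped ContDiff
open Crest.Agent.R267.NSDefs_966
open Crest.Agent.R267.T3aDefs_957 (st)
open Crest.Agent.R267.Calc_957

namespace Crest.Agent.R267.NSPair_399

/-! ### the profiles -/

/-- the profile near the cell `k`. -/
theorem Sp_eq {k : ℤ} {x : ℝ} (h : (k : ℝ) - 1 / 2 ≤ x) (h' : x ≤ k + 1) :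
    Sp x = k + st (2 * (x - k)) := by
  unfold Sp
  rcases lt_or_ge x k with h1 | h1
  · have hf : ⌊x⌋ = k - 1 := by
      rw [Int.floor_eq_iff]
      push_cast
      constructor <;> linarith
    have hfr : Int.fract x = x - k + 1 := by
      rw [Int.fract, hf]; push_cast; ring
    rw [hf, hfr, st_of_ge (by linarith), st_of_le (by linarith)]
    push_cast; ring
  · rcases lt_or_eq_of_le h' with h2 | h2
    · have hf : ⌊x⌋ = k := by
        rw [Int.floor_eq_iff]
        exact ⟨h1, h2⟩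
      rw [Int.fract, hf]
    · have hf : ⌊x⌋ = k + 1 := by
        rw [Int.floor_eq_iff]
        push_cast
        constructor <;> linarith
      have hfr : Int.fract x = 0 := by
        rw [Int.fract, hf, h2]; push_cast; ring
      rw [hf, hfr, h2, st_of_le (by norm_num), st_of_ge (by linarith)]
      push_cast; ring

theorem Sp_add_int (x : ℝ) (n : ℤ) : Sp (x + n) = Sp x + n := by
  unfold Sp
  rw [Int.floor_add_intCast, Int.fract_add_intCast]
  push_cast; ring

theorem Gp_add_int (x : ℝ) (n : ℤ) : Gp (x + n) = Gp x + n := by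
  unfold Gp
  rw [show x + n - 1 / 2 = (x - 1 / 2) + n by ring, Sp_add_int]

theorem Gp_eq {k : ℤ} {x : ℝ} (h : (k : ℝ) ≤ x) (h' : x ≤ k + 1 + 1 / 2) :
    Gp x = k + st (2 * (x - k) - 1) := by
  unfold Gp
  rw [Sp_eq (k := k) (by linarith) (by linarith)]
  congr 2
  ring

theorem exists_cell (x : ℝ) : ∃ k : ℤ, (k : ℝ) - 1 / 2 < x ∧ x < k + 1 :=
  ⟨⌊x⌋, by linarith [Int.floor_le x], Int.lt_floor_add_one x⟩

theorem contDiff_Sp : ContDiff ℝ 2 Sp := by
  rw [contDiff_iff_contDiffAt]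
  intro x
  obtain ⟨k, h1, h2⟩ := exists_cell x
  have h : ContDiffAt ℝ 2 (fun x : ℝ => (k : ℝ) + st (2 * (x - k))) x :=
    (contDiff_const.add (contDiff_st.comp
      (contDiff_const.mul (contDiff_id.sub contDiff_const)))).contDiffAt
  refine h.congr_of_eventuallyEq ?_
  filter_upwards [Ioo_mem_nhds h1 h2] with y hy
  exact Sp_eq hy.1.le hy.2.le

theorem contDiff_Gp : ContDiff ℝ 2 Gp := contDiff_Sp.comp (contDiff_id.sub contDiff_const)

/-! ### bilinear interpolation -/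

/-- polynomial form. -/
def pol (N : ℤ → ℤ → ℝ) (k l : ℤ) (U V : ℝ) : ℝ :=
  (1 - U) * (1 - V) * N k l + U * (1 - V) * N (k + 1) l + (1 - U) * V * N k (l + 1) +
    U * V * N (k + 1) (l + 1)

theorem bil_eq (N : ℤ → ℤ → ℝ) (k l : ℤ) {U V : ℝ} (hU : 0 ≤ U) (hU1 : U ≤ 1) (hV : 0 ≤ V)
    (hV1 : V ≤ 1) : bil N (k + U) (l + V) = pol N k l U V := by
  have key : ∀ (k : ℤ) {U : ℝ}, 0 ≤ U → U ≤ 1 →
      (⌊(k : ℝ) + U⌋ = k ∧ Int.fract ((k : ℝ) + U) = U) ∨
      (U = 1 ∧ ⌊(k : ℝ) + U⌋ = k + 1 ∧ Int.fract ((k : ℝ) + U) = 0) := by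
    intro k U h0 h1
    rcases lt_or_eq_of_le h1 with h | h
    · left
      have hf : ⌊(k : ℝ) + U⌋ = k := by
        rw [Int.floor_eq_iff]
        constructor <;> linarith
      exact ⟨hf, by rw [Int.fract, hf]; ring⟩
    · right
      have hf : ⌊(k : ℝ) + U⌋ = k + 1 := by
        rw [Int.floor_eq_iff, h]
        push_cast
        constructor <;> linarith
      exact ⟨h, hf, by rw [Int.fract, hf, h]; push_cast; ring⟩
  unfold bil pol
  rcases key k hU hU1 with ⟨a1, a2⟩ | ⟨a0, a1, a2⟩ <;>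
    rcases key l hV hV1 with ⟨b1, b2⟩ | ⟨b0, b1, b2⟩ <;> rw [a1, a2, b1, b2]
  · rw [b0]; ring
  · rw [a0]; ring
  · rw [a0, b0]; ring

theorem bil_int (N : ℤ → ℤ → ℝ) (k l : ℤ) : bil N k l = N k l := by
  have := bil_eq N k l (U := 0) (V := 0) le_rfl zero_le_one le_rfl zero_le_one
  simpa [pol] using this

theorem bil_shift (N N' : ℤ → ℤ → ℝ) (a b : ℤ) (c : ℝ) (h : ∀ k l, N (k + a) (l + b) = N' k l + c)
    (X Y : ℝ) : bil N (X + a) (Y + b) = bil N' X Y + c := by
  unfold bil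
  rw [Int.floor_add_intCast, Int.fract_add_intCast, Int.floor_add_intCast, Int.fract_add_intCast]
  have e1 : ⌊X⌋ + a + 1 = ⌊X⌋ + 1 + a := by ring
  have e2 : ⌊Y⌋ + b + 1 = ⌊Y⌋ + 1 + b := by ring
  rw [e1, e2, h, h, h, h]
  ring

theorem bil_sub (N N' : ℤ → ℤ → ℝ) (X Y : ℝ) :
    bil (fun k l => N k l - N' k l) X Y = bil N X Y - bil N' X Y := by
  unfold bil
  ring

/-- bilinear staircase. -/
def bs (N : ℤ → ℤ → ℝ) (x y : ℝ) : ℝ := bil N (Sp x) (Sp y)

theorem bs_eq (N : ℤ → ℤ → ℝ) {k l : ℤ} {x y : ℝ} (h1 : (k : ℝ) - 1 / 2 ≤ x) (h2 : x ≤ k + 1)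
    (h3 : (l : ℝ) - 1 / 2 ≤ y) (h4 : y ≤ l + 1) :
    bs N x y = pol N k l (st (2 * (x - k))) (st (2 * (y - l))) := by
  unfold bs
  rw [Sp_eq h1 h2, Sp_eq h3 h4]
  exact bil_eq N k l (st_nonneg _) (st_le_one _) (st_nonneg _) (st_le_one _)

theorem contDiff_pol (N : ℤ → ℤ → ℝ) (k l : ℤ) :
    ContDiff ℝ 2 (fun z : ℝ × ℝ => pol N k l (st (2 * (z.1 - k))) (st (2 * (z.2 - l)))) := by
  have hU : ContDiff ℝ 2 (fun z : ℝ × ℝ => st (2 * (z.1 - k))) :=
    contDiff_st.comp (contDiff_const.mul (contDiff_fst.sub contDiff_const))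
  have hV : ContDiff ℝ 2 (fun z : ℝ × ℝ => st (2 * (z.2 - l))) :=
    contDiff_st.comp (contDiff_const.mul (contDiff_snd.sub contDiff_const))
  have hU' : ContDiff ℝ 2 (fun z : ℝ × ℝ => 1 - st (2 * (z.1 - k))) := contDiff_const.sub hU
  have hV' : ContDiff ℝ 2 (fun z : ℝ × ℝ => 1 - st (2 * (z.2 - l))) := contDiff_const.sub hV
  unfold pol
  exact ((((hU'.mul hV').mul contDiff_const).add ((hU.mul hV').mul contDiff_const)).add
    ((hU'.mul hV).mul contDiff_const)).add ((hU.mul hV).mul contDiff_const)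

theorem contDiff_bs (N : ℤ → ℤ → ℝ) : ContDiff ℝ 2 (fun z : ℝ × ℝ => bs N z.1 z.2) := by
  rw [contDiff_iff_contDiffAt]
  rintro ⟨x, y⟩
  obtain ⟨k, h1, h2⟩ := exists_cell x
  obtain ⟨l, h3, h4⟩ := exists_cell y
  refine (contDiff_pol N k l).contDiffAt.congr_of_eventuallyEq ?_
  filter_upwards [prod_mem_nhds (Ioo_mem_nhds h1 h2) (Ioo_mem_nhds h3 h4)] with z hz
  exact bs_eq N hz.1.1.le hz.1.2.le hz.2.1.le hz.2.2.le

theorem contDiff_bilSp (N : ℤ → ℤ → ℝ) :
    ContDiff ℝ 2 (fun z : ℝ × ℝ => bil N (Sp z.1) (Sp z.2)) := contDiff_bs N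

theorem contDiff_bilGp (N : ℤ → ℤ → ℝ) :
    ContDiff ℝ 2 (fun z : ℝ × ℝ => bil N (Gp z.1) (Gp z.2)) := by
  have h : ContDiff ℝ 2 (fun z : ℝ × ℝ => ((z.1 - 1 / 2, z.2 - 1 / 2) : ℝ × ℝ)) :=
    (contDiff_fst.sub contDiff_const).prodMk (contDiff_snd.sub contDiff_const)
  have h2 : ContDiff ℝ 2 ((fun z : ℝ × ℝ => bs N z.1 z.2) ∘
      fun z : ℝ × ℝ => ((z.1 - 1 / 2, z.2 - 1 / 2) : ℝ × ℝ)) := (contDiff_bs N).comp h
  have e : (fun z : ℝ × ℝ => bil N (Gp z.1) (Gp z.2)) = ((fun z : ℝ × ℝ => bs N z.1 z.2) ∘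
      fun z : ℝ × ℝ => ((z.1 - 1 / 2, z.2 - 1 / 2) : ℝ × ℝ)) := by
    funext z
    simp only [Function.comp_apply, bs, Gp]
  rw [e]
  exact h2

theorem bs_add (N N' : ℤ → ℤ → ℝ) (a b : ℤ) (c : ℝ) (h : ∀ k l, N (k + a) (l + b) = N' k l + c)
    (x y : ℝ) : bs N (x + a) (y + b) = bs N' x y + c := by
  unfold bs
  rw [Sp_add_int, Sp_add_int, bil_shift N N' a b c h]

/-! ### derivatives -/

/-- derivative in `x`, up to the factor `Sp'`. -/
def dX (N : ℤ → ℤ → ℝ) (k l : ℤ) (V : ℝ) : ℝ :=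
  (1 - V) * (N (k + 1) l - N k l) + V * (N (k + 1) (l + 1) - N k (l + 1))

/-- derivative in `y`, up to the factor `Sp'`. -/
def dY (N : ℤ → ℤ → ℝ) (k l : ℤ) (U : ℝ) : ℝ :=
  (1 - U) * (N k (l + 1) - N k l) + U * (N (k + 1) (l + 1) - N (k + 1) l)

theorem hasDerivAt_bx (N : ℤ → ℤ → ℝ) {k l : ℤ} {x y : ℝ} (h1 : (k : ℝ) - 1 / 2 < x)
    (h2 : x < k + 1) (h3 : (l : ℝ) - 1 / 2 < y) (h4 : y < l + 1) :
    HasDerivAt (fun x => bs N x y) (2 * std (2 * (x - k)) * dX N k l (st (2 * (y - l)))) x := by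
  have hU : HasDerivAt (fun x : ℝ => st (2 * (x - k))) (std (2 * (x - k)) * 2) x := by
    have h0 : HasDerivAt (fun x : ℝ => 2 * (x - (k : ℝ))) (2 * 1) x :=
      ((hasDerivAt_id x).sub_const (k : ℝ)).const_mul 2
    have h : HasDerivAt (fun x : ℝ => st (2 * (x - k))) (std (2 * (x - k)) * (2 * 1)) x :=
      HasDerivAt.comp (h₂ := st) x (hasDerivAt_st (2 * (x - k))) h0
    rwa [mul_one] at h
  have hp : HasDerivAt (fun x => pol N k l (st (2 * (x - k))) (st (2 * (y - l))))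
      (2 * std (2 * (x - k)) * dX N k l (st (2 * (y - l)))) x := by
    have e : (fun x => pol N k l (st (2 * (x - k))) (st (2 * (y - l)))) =
        fun x => ((1 - st (2 * (y - l))) * N k l + st (2 * (y - l)) * N k (l + 1)) +
          dX N k l (st (2 * (y - l))) * st (2 * (x - k)) := by
      funext x
      unfold pol dX
      ring
    rw [e]
    have h := (hU.const_mul (dX N k l (st (2 * (y - l))))).const_add
      ((1 - st (2 * (y - l))) * N k l + st (2 * (y - l)) * N k (l + 1))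
    refine h.congr_deriv ?_
    ring
  refine hp.congr_of_eventuallyEq ?_
  filter_upwards [Ioo_mem_nhds h1 h2] with z hz
  exact bs_eq N hz.1.le hz.2.le h3.le h4.le

theorem hasDerivAt_by (N : ℤ → ℤ → ℝ) {k l : ℤ} {x y : ℝ} (h1 : (k : ℝ) - 1 / 2 < x)
    (h2 : x < k + 1) (h3 : (l : ℝ) - 1 / 2 < y) (h4 : y < l + 1) :
    HasDerivAt (fun y => bs N x y) (2 * std (2 * (y - l)) * dY N k l (st (2 * (x - k)))) y := by
  have hV : HasDerivAt (fun y : ℝ => st (2 * (y - l))) (std (2 * (y - l)) * 2) y := by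
    have h0 : HasDerivAt (fun y : ℝ => 2 * (y - (l : ℝ))) (2 * 1) y :=
      ((hasDerivAt_id y).sub_const (l : ℝ)).const_mul 2
    have h : HasDerivAt (fun y : ℝ => st (2 * (y - l))) (std (2 * (y - l)) * (2 * 1)) y :=
      HasDerivAt.comp (h₂ := st) y (hasDerivAt_st (2 * (y - l))) h0
    rwa [mul_one] at h
  have hp : HasDerivAt (fun y => pol N k l (st (2 * (x - k))) (st (2 * (y - l))))
      (2 * std (2 * (y - l)) * dY N k l (st (2 * (x - k)))) y := by
    have e : (fun y => pol N k l (st (2 * (x - k))) (st (2 * (y - l)))) =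
        fun y => ((1 - st (2 * (x - k))) * N k l + st (2 * (x - k)) * N (k + 1) l) +
          dY N k l (st (2 * (x - k))) * st (2 * (y - l)) := by
      funext y
      unfold pol dY
      ring
    rw [e]
    have h := (hV.const_mul (dY N k l (st (2 * (x - k))))).const_add
      ((1 - st (2 * (x - k))) * N k l + st (2 * (x - k)) * N (k + 1) l)
    refine h.congr_deriv ?_
    ring
  refine hp.congr_of_eventuallyEq ?_
  filter_upwards [Ioo_mem_nhds h3 h4] with z hz
  exact bs_eq N h1.le h2.le hz.1.le hz.2.le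

/-- a sum of two numbers of the same sign with positive weights. -/
theorem two_zero {a b U σ : ℝ} (hσ : σ ≠ 0) (ha : σ * a ≤ 0) (hb : σ * b ≤ 0) (hU : 0 < U)
    (hU1 : U < 1) (h : (1 - U) * a + U * b = 0) : a = 0 ∧ b = 0 := by
  have h1 : (1 - U) * (σ * a) + U * (σ * b) = 0 := by
    have : (1 - U) * (σ * a) + U * (σ * b) = σ * ((1 - U) * a + U * b) := by ring
    rw [this, h, mul_zero]
  have h2 : (1 - U) * (σ * a) ≤ 0 := mul_nonpos_of_nonneg_of_nonpos (by linarith) ha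
  have h3 : U * (σ * b) ≤ 0 := mul_nonpos_of_nonneg_of_nonpos hU.le hb
  have h4 : (1 - U) * (σ * a) = 0 := by linarith
  have h5 : U * (σ * b) = 0 := by linarith
  constructor
  · rcases mul_eq_zero.1 h4 with h | h
    · linarith
    · exact (mul_eq_zero.1 h).resolve_left hσ
  · rcases mul_eq_zero.1 h5 with h | h
    · linarith
    · exact (mul_eq_zero.1 h).resolve_left hσ

theorem st_cases (x : ℝ) : st x = 0 ∨ st x = 1 ∨ (0 < st x ∧ st x < 1 ∧ 0 < std x) := by
  rcases le_or_gt x 0 with h | h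
  · exact Or.inl (st_of_le h)
  · rcases le_or_gt 1 x with h1 | h1
    · exact Or.inr (Or.inl (st_of_ge h1))
    · exact Or.inr (Or.inr ⟨st_pos h, st_lt_one h1, std_pos h h1⟩)

/-- **critical values are integers.** -/
theorem crit_int {D : ℤ → ℤ → ℤ} {k l : ℤ} {σ : ℝ} (hσ : σ ≠ 0) {x y : ℝ}
    (h1 : (k : ℝ) - 1 / 2 < x) (h2 : x < k + 1) (h3 : (l : ℝ) - 1 / 2 < y) (h4 : y < l + 1)
    (hk0 : σ * ((D (k + 1) l : ℝ) - D k l) ≤ 0)
    (hk1 : σ * ((D (k + 1) (l + 1) : ℝ) - D k (l + 1)) ≤ 0)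
    (hl0 : (D k l : ℝ) ≤ D k (l + 1)) (hl1 : (D (k + 1) l : ℝ) ≤ D (k + 1) (l + 1))
    (hx : deriv (fun x => bs (fun k l => (D k l : ℝ)) x y) x = 0)
    (hy : deriv (fun y => bs (fun k l => (D k l : ℝ)) x y) y = 0) :
    ∃ m : ℤ, bs (fun k l => (D k l : ℝ)) x y = m := by
  rw [(hasDerivAt_bx _ h1 h2 h3 h4).deriv] at hx
  rw [(hasDerivAt_by _ h1 h2 h3 h4).deriv] at hy
  rw [bs_eq _ h1.le h2.le h3.le h4.le]
  unfold dX at hx
  unfold dY at hy
  unfold pol
  simp only at hx hy ⊢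
  have s1 : (-1 : ℝ) ≠ 0 := by norm_num
  have hl0' : (-1 : ℝ) * ((D k (l + 1) : ℝ) - D k l) ≤ 0 := by linarith
  have hl1' : (-1 : ℝ) * ((D (k + 1) (l + 1) : ℝ) - D (k + 1) l) ≤ 0 := by linarith
  rcases st_cases (2 * (x - k)) with hu | hu | ⟨hu0, hu1, hud⟩
  · rw [hu] at hy ⊢
    rcases st_cases (2 * (y - l)) with hv | hv | ⟨hv0, hv1, hvd⟩
    · rw [hv]; exact ⟨D k l, by ring⟩
    · rw [hv]; exact ⟨D k (l + 1), by ring⟩
    · rcases mul_eq_zero.1 hy with h | h
      · exact absurd h (by positivity)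
      · refine ⟨D k l, ?_⟩
        linear_combination (st (2 * (y - l))) * h
  · rw [hu] at hy ⊢
    rcases st_cases (2 * (y - l)) with hv | hv | ⟨hv0, hv1, hvd⟩
    · rw [hv]; exact ⟨D (k + 1) l, by ring⟩
    · rw [hv]; exact ⟨D (k + 1) (l + 1), by ring⟩
    · rcases mul_eq_zero.1 hy with h | h
      · exact absurd h (by positivity)
      · refine ⟨D (k + 1) l, ?_⟩
        linear_combination (st (2 * (y - l))) * h
  · rcases mul_eq_zero.1 hx with h | hx'
    · exact absurd h (by positivity)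
    rcases st_cases (2 * (y - l)) with hv | hv | ⟨hv0, hv1, hvd⟩
    · rw [hv] at hx' ⊢
      refine ⟨D k l, ?_⟩
      linear_combination (st (2 * (x - k))) * hx'
    · rw [hv] at hx' ⊢
      refine ⟨D k (l + 1), ?_⟩
      linear_combination (st (2 * (x - k))) * hx'
    · rcases mul_eq_zero.1 hy with h | hy'
      · exact absurd h (by positivity)
      obtain ⟨a1, a2⟩ := two_zero hσ hk0 hk1 hv0 hv1 hx'
      obtain ⟨b1, b2⟩ := two_zero s1 hl0' hl1' hu0 hu1 hy'
      refine ⟨D k l, ?_⟩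
      linear_combination (st (2 * (x - k))) * a1 + (st (2 * (y - l))) * b1 +
        (st (2 * (x - k))) * (st (2 * (y - l))) * (a2 - a1)

/-- monotone in `y`. -/
theorem deriv_by_nonneg (N : ℤ → ℤ → ℝ) (h : ∀ k l, N k l ≤ N k (l + 1)) (x y : ℝ) :
    0 ≤ deriv (fun y => bs N x y) y := by
  obtain ⟨k, h1, h2⟩ := exists_cell x
  obtain ⟨l, h3, h4⟩ := exists_cell y
  rw [(hasDerivAt_by _ h1 h2 h3 h4).deriv]
  unfold dY
  have a := st_nonneg (2 * (x - k))
  have b := st_le_one (2 * (x - k))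
  have c := h k l
  have d := h (k + 1) l
  exact mul_nonneg (mul_nonneg zero_le_two (std_nonneg _))
    (add_nonneg (mul_nonneg (by linarith) (by linarith)) (mul_nonneg a (by linarith)))

theorem bs_bounds (N : ℤ → ℤ → ℝ) {A B : ℝ} (h : ∀ k l, A ≤ N k l ∧ N k l ≤ B) (X Y : ℝ) :
    A ≤ bil N X Y ∧ bil N X Y ≤ B := by
  unfold bil
  have a0 := Int.fract_nonneg X
  have a1 := (Int.fract_lt_one X).le
  have b0 := Int.fract_nonneg Y
  have b1 := (Int.fract_lt_one Y).le
  have w1 : 0 ≤ (1 - Int.fract X) * (1 - Int.fract Y) := mul_nonneg (by linarith) (by linarith)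
  have w2 : 0 ≤ Int.fract X * (1 - Int.fract Y) := mul_nonneg a0 (by linarith)
  have w3 : 0 ≤ (1 - Int.fract X) * Int.fract Y := mul_nonneg (by linarith) b0
  have w4 : 0 ≤ Int.fract X * Int.fract Y := mul_nonneg a0 b0
  have h1 := h ⌊X⌋ ⌊Y⌋
  have h2 := h (⌊X⌋ + 1) ⌊Y⌋
  have h3 := h ⌊X⌋ (⌊Y⌋ + 1)
  have h4 := h (⌊X⌋ + 1) (⌊Y⌋ + 1)
  constructor
  · have := mul_le_mul_of_nonneg_left h1.1 w1
    have := mul_le_mul_of_nonneg_left h2.1 w2
    have := mul_le_mul_of_nonneg_left h3.1 w3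
    have := mul_le_mul_of_nonneg_left h4.1 w4
    nlinarith
  · have := mul_le_mul_of_nonneg_left h1.2 w1
    have := mul_le_mul_of_nonneg_left h2.2 w2
    have := mul_le_mul_of_nonneg_left h3.2 w3
    have := mul_le_mul_of_nonneg_left h4.2 w4
    nlinarith

/-! ### nested systems -/

section NS

variable {m : ℕ} (S : NS m)

theorem hat_bs (s : Fin (m + 2)) (x y : ℝ) :
    S.hat s x y = bs (fun k l => (S.N s k l : ℝ)) x y := rfl

theorem contDiff_hat (s : Fin (m + 2)) : ContDiff ℝ 2 (fun z : ℝ × ℝ => S.hat s z.1 z.2) :=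
  contDiff_bs _

variable {S}

theorem hat_add_n (h : S.Ok) (s : Fin (m + 2)) (x y : ℝ) :
    S.hat s (x + S.n) y = S.hat s x y + S.i s := by
  rw [hat_bs, hat_bs]
  have := bs_add (fun k l => (S.N s k l : ℝ)) (fun k l => (S.N s k l : ℝ)) (S.n : ℤ) 0 (S.i s)
    (fun k l => by
      have := h.perk s k l
      rw [add_zero, this]; push_cast; ring) x y
  simpa using this

theorem hat_add_15 (h : S.Ok) (s : Fin (m + 2)) (x y : ℝ) :
    S.hat s x (y + 15) = S.hat s x y + S.j s := by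
  rw [hat_bs, hat_bs]
  have := bs_add (fun k l => (S.N s k l : ℝ)) (fun k l => (S.N s k l : ℝ)) 0 15 (S.j s)
    (fun k l => by
      have := h.perl s k l
      rw [add_zero, this]; push_cast; ring) x y
  simpa using this

/-- difference of two consecutive terms. -/
def DD (S : NS m) (s : Fin (m + 1)) (k l : ℤ) : ℤ := S.N s.castSucc k l - S.N s.succ k l

theorem hat_sub (s : Fin (m + 1)) (x y : ℝ) :
    S.hat s.castSucc x y - S.hat s.succ x y = bs (fun k l => (DD S s k l : ℝ)) x y := by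
  rw [hat_bs, hat_bs]
  unfold bs DD
  rw [← bil_sub]
  congr 1
  funext k l
  push_cast
  rfl

theorem DD_l (h : S.Ok) (s : Fin (m + 1)) (k l : ℤ) : (DD S s k l : ℝ) ≤ DD S s k (l + 1) := by
  have := h.nestl s k l
  exact_mod_cast this

theorem DD_k (h : S.Ok) (s : Fin (m + 1)) (k l : ℤ) :
    (S.sg k : ℝ) * ((DD S s (k + 1) l : ℝ) - DD S s k l) ≤ 0 := by
  have h1 := h.nestk s k l
  have h2 : S.sg k * (DD S s (k + 1) l - DD S s k l) ≤ 0 := by
    unfold DD
    rw [mul_sub]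
    linarith
  exact_mod_cast h2

/-- the difference of consecutive phases increases in `y`. -/
theorem deriv_hat_sub_nonneg (h : S.Ok) (s : Fin (m + 1)) (x y : ℝ) :
    0 ≤ deriv (fun y => S.hat s.castSucc x y - S.hat s.succ x y) y := by
  have e : (fun y => S.hat s.castSucc x y - S.hat s.succ x y) =
      fun y => bs (fun k l => (DD S s k l : ℝ)) x y := funext fun y => hat_sub s x y
  rw [e]
  exact deriv_by_nonneg _ (DD_l h s) x y

/-- **critical values of the difference of consecutive phases are integers.** -/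
theorem hat_crit (h : S.Ok) (s : Fin (m + 1)) (x y : ℝ)
    (hx : deriv (fun x => S.hat s.castSucc x y - S.hat s.succ x y) x = 0)
    (hy : deriv (fun y => S.hat s.castSucc x y - S.hat s.succ x y) y = 0) :
    ∃ n : ℤ, S.hat s.castSucc x y - S.hat s.succ x y = n := by
  have e1 : (fun y => S.hat s.castSucc x y - S.hat s.succ x y) =
      fun y => bs (fun k l => (DD S s k l : ℝ)) x y := funext fun y => hat_sub s x y
  have e2 : (fun x => S.hat s.castSucc x y - S.hat s.succ x y) =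
      fun x => bs (fun k l => (DD S s k l : ℝ)) x y := funext fun x => hat_sub s x y
  rw [e1] at hy
  rw [e2] at hx
  rw [hat_sub]
  obtain ⟨k, h1, h2⟩ := exists_cell x
  obtain ⟨l, h3, h4⟩ := exists_cell y
  have hσ : (S.sg k : ℝ) ≠ 0 := by
    rcases h.sg1 k with h | h <;> rw [h] <;> norm_num
  exact crit_int hσ h1 h2 h3 h4 (DD_k h s k l) (DD_k h s k (l + 1)) (DD_l h s k l)
    (DD_l h s (k + 1) l) hx hy


/-! ### LEAF PAIR -/

theorem deriv_pha_x (h : S.Ok) (s : Fin (m + 1)) (t x y : ℝ) :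
    HasDerivAt (fun x' => S.pha s.castSucc (t, x', y) - S.pha s.succ (t, x', y))
      ((1 - t) * (((S.i s.castSucc : ℝ) - S.i s.succ) / S.n) +
        t * deriv (fun x => S.hat s.castSucc x y - S.hat s.succ x y) x) x := by
  have hd : DifferentiableAt ℝ (fun x => S.hat s.castSucc x y - S.hat s.succ x y) x := by
    have e : (fun x => S.hat s.castSucc x y - S.hat s.succ x y) =
        fun x => bs (fun k l => (DD S s k l : ℝ)) x y := funext fun x => hat_sub s x y
    rw [e]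
    obtain ⟨k, h1, h2⟩ := exists_cell x
    obtain ⟨l, h3, h4⟩ := exists_cell y
    exact (hasDerivAt_bx _ h1 h2 h3 h4).differentiableAt
  have e : (fun x' => S.pha s.castSucc (t, x', y) - S.pha s.succ (t, x', y)) =
      fun x' => ((1 - t) * (((S.i s.castSucc : ℝ) - S.i s.succ) / S.n) * x' +
        t * (S.hat s.castSucc x' y - S.hat s.succ x' y)) +
        (1 - t) * (((S.j s.castSucc : ℝ) - S.j s.succ) * y / 15) := by
    funext x'
    unfold NS.pha
    ring
  rw [e]
  have a := (((hasDerivAt_id' x).const_mul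
    ((1 - t) * (((S.i s.castSucc : ℝ) - S.i s.succ) / S.n))).add
      (hd.hasDerivAt.const_mul t)).add_const
        ((1 - t) * (((S.j s.castSucc : ℝ) - S.j s.succ) * y / 15))
  refine a.congr_deriv ?_
  ring

theorem deriv_pha_y (h : S.Ok) (s : Fin (m + 1)) (t x y : ℝ) :
    HasDerivAt (fun y' => S.pha s.castSucc (t, x, y') - S.pha s.succ (t, x, y'))
      ((1 - t) * (((S.j s.castSucc : ℝ) - S.j s.succ) / 15) +
        t * deriv (fun y => S.hat s.castSucc x y - S.hat s.succ x y) y) y := by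
  have hd : DifferentiableAt ℝ (fun y => S.hat s.castSucc x y - S.hat s.succ x y) y := by
    have e : (fun y => S.hat s.castSucc x y - S.hat s.succ x y) =
        fun y => bs (fun k l => (DD S s k l : ℝ)) x y := funext fun y => hat_sub s x y
    rw [e]
    obtain ⟨k, h1, h2⟩ := exists_cell x
    obtain ⟨l, h3, h4⟩ := exists_cell y
    exact (hasDerivAt_by _ h1 h2 h3 h4).differentiableAt
  have e : (fun y' => S.pha s.castSucc (t, x, y') - S.pha s.succ (t, x, y')) =
      fun y' => ((1 - t) * (((S.j s.castSucc : ℝ) - S.j s.succ) / 15) * y' +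
        t * (S.hat s.castSucc x y' - S.hat s.succ x y')) +
        (1 - t) * (((S.i s.castSucc : ℝ) - S.i s.succ) * x / S.n) := by
    funext y'
    unfold NS.pha
    ring
  rw [e]
  have a := (((hasDerivAt_id' y).const_mul
    ((1 - t) * (((S.j s.castSucc : ℝ) - S.j s.succ) / 15))).add
      (hd.hasDerivAt.const_mul t)).add_const
        ((1 - t) * (((S.i s.castSucc : ℝ) - S.i s.succ) * x / S.n))
  refine a.congr_deriv ?_
  ring

end NS

/-- **LEAF PAIR.** -/
theorem pairProp : PairProp := by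
  intro m S h t ht s x y hk
  by_contra hn
  push Not at hn
  obtain ⟨hx, hy⟩ := hn
  rw [(deriv_pha_x h s t x y).deriv] at hx
  rw [(deriv_pha_y h s t x y).deriv] at hy
  have hj : (S.j s.succ : ℝ) < S.j s.castSucc := by
    exact_mod_cast h.hj (Fin.castSucc_lt_succ (i := s))
  have hnn := deriv_hat_sub_nonneg h s x y
  have h1 : 0 ≤ (1 - t) * (((S.j s.castSucc : ℝ) - S.j s.succ) / 15) :=
    mul_nonneg (by linarith [ht.2]) (by linarith)
  have h2 : 0 ≤ t * deriv (fun y => S.hat s.castSucc x y - S.hat s.succ x y) y :=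
    mul_nonneg ht.1 hnn
  have h3 : (1 - t) * (((S.j s.castSucc : ℝ) - S.j s.succ) / 15) = 0 := by linarith
  have ht1 : t = 1 := by
    rcases mul_eq_zero.1 h3 with h' | h'
    · linarith
    · exfalso; linarith
  subst ht1
  rw [sub_self, zero_mul, zero_add, one_mul] at hx hy
  obtain ⟨n, hn⟩ := hat_crit h s x y hx hy
  obtain ⟨k, hk⟩ := hk
  unfold NS.pha at hk
  simp only [sub_self, zero_mul, zero_add, one_mul] at hk
  have e : (n : ℝ) = (k : ℝ) + 1 / 2 := by linarith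
  have e2 : ((2 * n - 2 * k : ℤ) : ℝ) = ((1 : ℤ) : ℝ) := by push_cast; linarith
  have e3 : 2 * n - 2 * k = 1 := by exact_mod_cast e2
  omega

end Crest.Agent.R267.NSPair_399
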