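import Mathlib

/-!
# N2, ZONE THEOREM (helper951; 966 #3428 (1))

`kappa = sum_s r^{X s} u^{J s} e_s`, exponents `J` strictly decreasing, `X` strictly convex along
`J`: for `r` small at most two adjacent terms compete, so a bad zero (all derivatives collinear)
forces `e_s = - e_{s'}` and equal gradients for an adjacent pair.
-/

set_option autoImplicit false
set_option linter.unusedSectionVars false

noncomputable section

open Set Finset Complex

namespace Crest.Agent.R267.Zone_951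

variable {ι : Type*} [Fintype ι] [LinearOrder ι]

/-- the collinearity equations of the family `a_s e_s`. -/
structure Col {δ : Type*} (J : ι → ℝ) (e : ι → ℂ) (g : δ → ι → ℝ) (a : ι → ℝ) (ζ : ℂ) : Prop where
  zero : ∑ s, (a s : ℂ) * e s = 0
  rad : ((starRingEnd ℂ) ζ * ∑ s, ((J s * a s : ℝ) : ℂ) * e s).re = 0
  ang : ∀ d, ((starRingEnd ℂ) ζ * ∑ s, ((g d s * a s : ℝ) : ℂ) * (I * e s)).re = 0

/-- only an adjacent pair present: contradiction. -/
theorem no_col {δ : Type*} {J : ι → ℝ} (hJ : StrictAnti J) {e : ι → ℂ} (he : ∀ s, ‖e s‖ = 1)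
    {g : δ → ι → ℝ} (adj : ∀ s s', s ⋖ s' → e s = - e s' → ∃ d, g d s ≠ g d s')
    {a : ι → ℝ} (ha : ∀ s, 0 ≤ a s) (hs : ∑ s, a s = 1) {ζ : ℂ} (hζ : ζ ≠ 0)
    (hc : Col J e g a ζ) (h0 : ∀ s s', s < s' → ¬ s ⋖ s' → a s * a s' = 0) : False := by
  classical
  set S : Finset ι := Finset.univ.filter fun s => a s ≠ 0 with hS
  have hSne : S.Nonempty := by
    by_contra h
    rw [Finset.not_nonempty_iff_eq_empty] at h
    have : ∀ s, a s = 0 := fun s => by
      by_contra h1
      have : s ∈ S := by rw [hS]; simp [h1]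
      rw [h] at this
      simp at this
    rw [Finset.sum_eq_zero fun s _ => this s] at hs
    exact zero_ne_one hs
  set s := S.min' hSne with hsdef
  have hsS : s ∈ S := S.min'_mem hSne
  have has : a s ≠ 0 := by
    have := hsS
    rw [hS, Finset.mem_filter] at this
    exact this.2
  have hin : ∀ s' ∈ S, s' ≠ s → s ⋖ s' := by
    intro s' hs' hne
    have h1 : s < s' := lt_of_le_of_ne (S.min'_le s' hs') (Ne.symm hne)
    by_contra h2
    have h3 := h0 s s' h1 h2
    rw [hS, Finset.mem_filter] at hs'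
    exact (mul_ne_zero has hs'.2) h3
  by_cases hone : ∃ s' ∈ S, s' ≠ s
  · obtain ⟨s', hs', hne⟩ := hone
    have hcov := hin s' hs' hne
    have hsup : ∀ x, x ≠ s → x ≠ s' → a x = 0 := by
      intro x h1 h2
      by_contra h3
      have h4 : x ∈ S := by rw [hS]; simp [h3]
      exact h2 ((hin x h4 h1).unique_right hcov)
    have two : ∀ {E : Type} [AddCommMonoid E] (f : ι → E), (∀ x, x ≠ s → x ≠ s' → f x = 0) →
        ∑ x, f x = f s + f s' := by
      intro E _ f hf
      rw [← Finset.sum_pair (Ne.symm hne)]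
      refine (Finset.sum_subset (Finset.subset_univ _) fun x _ hx => ?_).symm
      simp only [Finset.mem_insert, Finset.mem_singleton, not_or] at hx
      exact hf x hx.1 hx.2
    have e1 : (a s : ℂ) * e s + (a s' : ℂ) * e s' = 0 := by
      rw [← two (fun x => (a x : ℂ) * e x) fun x h1 h2 => by rw [hsup x h1 h2]; simp]
      exact hc.zero
    have e2 : a s = a s' := by
      have h1 : (a s : ℂ) * e s = -((a s' : ℂ) * e s') := eq_neg_of_add_eq_zero_left e1
      have h2 := congrArg norm h1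
      rw [norm_neg, norm_mul, norm_mul, he, he, mul_one, mul_one, Complex.norm_real,
        Complex.norm_real, Real.norm_of_nonneg (ha s), Real.norm_of_nonneg (ha s')] at h2
      exact h2
    have has' : (a s : ℂ) ≠ 0 := by exact_mod_cast has
    have e3 : e s = - e s' := by
      rw [← e2] at e1
      have h1 : (a s : ℂ) * (e s + e s') = 0 := by linear_combination e1
      exact eq_neg_of_add_eq_zero_left ((mul_eq_zero.1 h1).resolve_left has')
    have e3' : e s' = - e s := by rw [e3, neg_neg]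
    have hJJ : J s - J s' ≠ 0 := sub_ne_zero.2 (hJ hcov.1).ne'
    have r1 : ((starRingEnd ℂ) ζ * e s).re = 0 := by
      have h1 := hc.rad
      rw [two (fun x => ((J x * a x : ℝ) : ℂ) * e x) fun x h1 h2 => by rw [hsup x h1 h2]; simp,
        ← e2, e3'] at h1
      have h2 : (starRingEnd ℂ) ζ * (((J s * a s : ℝ) : ℂ) * e s + ((J s' * a s : ℝ) : ℂ) * -e s) =
          (((J s - J s') * a s : ℝ) : ℂ) * ((starRingEnd ℂ) ζ * e s) := by
        push_cast; ring
      rw [h2, Complex.re_ofReal_mul] at h1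
      exact (mul_eq_zero.1 h1).resolve_left (mul_ne_zero hJJ has)
    have r2 : ((starRingEnd ℂ) ζ * e s).im ≠ 0 := by
      intro h1
      have h2 : (starRingEnd ℂ) ζ * e s = 0 := Complex.ext r1 h1
      rcases mul_eq_zero.1 h2 with h3 | h3
      · exact hζ ((map_eq_zero _).1 h3)
      · have := he s
        rw [h3, norm_zero] at this
        exact zero_ne_one this
    obtain ⟨d, hd⟩ := adj s s' hcov e3
    have h1 := hc.ang d
    rw [two (fun x => ((g d x * a x : ℝ) : ℂ) * (I * e x)) fun x h1 h2 => by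
      rw [hsup x h1 h2]; simp, ← e2, e3'] at h1
    have h2 : (starRingEnd ℂ) ζ *
        (((g d s * a s : ℝ) : ℂ) * (I * e s) + ((g d s' * a s : ℝ) : ℂ) * (I * -e s)) =
          (((g d s - g d s') * a s : ℝ) : ℂ) * (I * ((starRingEnd ℂ) ζ * e s)) := by
      push_cast; ring
    rw [h2, Complex.re_ofReal_mul, Complex.I_mul_re] at h1
    exact (mul_ne_zero (mul_ne_zero (sub_ne_zero.2 hd) has) (neg_ne_zero.2 r2)) h1
  · push Not at hone
    have hsup : ∀ x, x ≠ s → a x = 0 := by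
      intro x h1
      by_contra h3
      exact h1 (hone x (by rw [hS]; simp [h3]))
    have h1 := hc.zero
    rw [Finset.sum_eq_single s (fun x _ h => by rw [hsup x h]; simp) (by simp)] at h1
    rcases mul_eq_zero.1 h1 with h2 | h2
    · exact has (by exact_mod_cast h2)
    · have := he s
      rw [h2, norm_zero] at this
      exact zero_ne_one this

/-- **compactness**: a uniform constant. -/
theorem exists_c {δ : Type*} {Q : Type*} [TopologicalSpace Q] {K : Set Q} (hK : IsCompact K)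
    {J : ι → ℝ} (hJ : StrictAnti J) {e : ι → Q → ℂ} (hec : ∀ s, ContinuousOn (e s) K)
    (he : ∀ s, ∀ q ∈ K, ‖e s q‖ = 1) {g : δ → ι → Q → ℝ} (hg : ∀ d s, ContinuousOn (g d s) K)
    (adj : ∀ q ∈ K, ∀ s s', s ⋖ s' → e s q = - e s' q → ∃ d, g d s q ≠ g d s' q) :
    ∃ c : ℝ, 0 < c ∧ ∀ q ∈ K, ∀ a : ι → ℝ, (∀ s, 0 ≤ a s) → ∑ s, a s = 1 → ∀ ζ : ℂ, ζ ≠ 0 →
      Col J (fun s => e s q) (fun d s => g d s q) a ζ → ∃ s s', s < s' ∧ ¬ s ⋖ s' ∧
        c ≤ a s * a s' := by
  classical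
  have : CompactSpace K := isCompact_iff_compactSpace.1 hK
  set B : Set (K × (ι → ℝ) × ℂ) := {p | p.2.1 ∈ stdSimplex ℝ ι ∧ ‖p.2.2‖ = 1 ∧
    Col J (fun s => e s p.1) (fun d s => g d s p.1) p.2.1 p.2.2} with hB
  have hec' : ∀ s, Continuous fun q : K => e s q := fun s => continuousOn_iff_continuous_domRestrict.1
    (hec s)
  have hg' : ∀ d s, Continuous fun q : K => g d s q := fun d s =>
    continuousOn_iff_continuous_domRestrict.1 (hg d s)
  have he1 : ∀ s, Continuous fun p : K × (ι → ℝ) × ℂ => e s p.1 := fun s =>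
    (hec' s).comp continuous_fst
  have hg1 : ∀ d s, Continuous fun p : K × (ι → ℝ) × ℂ => g d s p.1 := fun d s =>
    (hg' d s).comp continuous_fst
  have ha1 : ∀ s, Continuous fun p : K × (ι → ℝ) × ℂ => p.2.1 s := fun s =>
    (continuous_apply s).comp (continuous_fst.comp continuous_snd)
  have hz1 : Continuous fun p : K × (ι → ℝ) × ℂ => p.2.2 := continuous_snd.comp continuous_snd
  have hcl : IsClosed B := by
    have : B = (fun p : K × (ι → ℝ) × ℂ => p.2.1) ⁻¹' (stdSimplex ℝ ι) ∩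
        ({p | ‖p.2.2‖ = 1} ∩ ({p | ∑ s, (p.2.1 s : ℂ) * e s p.1 = 0} ∩
        ({p | ((starRingEnd ℂ) p.2.2 * ∑ s, ((J s * p.2.1 s : ℝ) : ℂ) * e s p.1).re = 0} ∩
        ⋂ d, {p | ((starRingEnd ℂ) p.2.2 *
          ∑ s, ((g d s p.1 * p.2.1 s : ℝ) : ℂ) * (I * e s p.1)).re = 0}))) := by
      ext p
      simp only [hB, Set.mem_ofPred_eq, Set.mem_inter_iff, Set.mem_preimage, Set.mem_iInter]
      constructor
      · rintro ⟨h1, h2, h3⟩
        exact ⟨h1, h2, h3.zero, h3.rad, h3.ang⟩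
      · rintro ⟨h1, h2, h3, h4, h5⟩
        exact ⟨h1, h2, h3, h4, h5⟩
    rw [this]
    refine ((isClosed_stdSimplex ℝ ι).preimage (continuous_fst.comp continuous_snd)).inter
      ((isClosed_eq hz1.norm continuous_const).inter ((isClosed_eq ?_ continuous_const).inter
      ((isClosed_eq ?_ continuous_const).inter (isClosed_iInter fun d => isClosed_eq ?_
        continuous_const))))
    · exact continuous_finsetSum _ fun s _ =>
        (Complex.continuous_ofReal.comp (ha1 s)).mul (he1 s)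
    · exact Complex.continuous_re.comp ((Complex.continuous_conj.comp hz1).mul
        (continuous_finsetSum _ fun s _ =>
          (Complex.continuous_ofReal.comp (continuous_const.mul (ha1 s))).mul (he1 s)))
    · exact Complex.continuous_re.comp ((Complex.continuous_conj.comp hz1).mul
        (continuous_finsetSum _ fun s _ =>
          (Complex.continuous_ofReal.comp ((hg1 d s).mul (ha1 s))).mul
            (continuous_const.mul (he1 s))))
  have hcpt : IsCompact B := by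
    refine (isCompact_univ.prod ((isCompact_stdSimplex ℝ ι).prod
      (isCompact_closedBall (0 : ℂ) 1))).of_isClosed_subset hcl ?_
    rintro ⟨q, a, z⟩ ⟨h1, h2, -⟩
    exact ⟨trivial, h1, by simpa using h2.le⟩
  set Pr : Finset (ι × ι) := Finset.univ.filter fun p => p.1 < p.2 ∧ ¬ p.1 ⋖ p.2 with hPr
  set Φ : K × (ι → ℝ) × ℂ → ℝ := fun p => ∑ x ∈ Pr, p.2.1 x.1 * p.2.1 x.2 with hΦ
  have hΦc : Continuous Φ := continuous_finsetSum _ fun x _ => (ha1 x.1).mul (ha1 x.2)
  have hζ' : ∀ ζ : ℂ, ζ ≠ 0 → ∀ q : K, ∀ a : ι → ℝ,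
      Col J (fun s => e s q) (fun d s => g d s q) a ζ →
      Col J (fun s => e s q) (fun d s => g d s q) a (((‖ζ‖⁻¹ : ℝ) : ℂ) * ζ) := by
    intro ζ _ q a h
    refine ⟨h.zero, ?_, fun d => ?_⟩
    · rw [map_mul, Complex.conj_ofReal, mul_assoc, Complex.re_ofReal_mul, h.rad, mul_zero]
    · rw [map_mul, Complex.conj_ofReal, mul_assoc, Complex.re_ofReal_mul, h.ang d, mul_zero]
  rcases B.eq_empty_or_nonempty with hBe | hBn
  · refine ⟨1, one_pos, fun q hq a ha hs ζ hζ hc => ?_⟩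
    exfalso
    have : ((⟨q, hq⟩ : K), a, ((‖ζ‖⁻¹ : ℝ) : ℂ) * ζ) ∈ B := by
      refine ⟨⟨ha, hs⟩, ?_, hζ' ζ hζ ⟨q, hq⟩ a hc⟩
      rw [norm_mul, Complex.norm_real, norm_inv, norm_norm,
        inv_mul_cancel₀ (norm_ne_zero_iff.2 hζ)]
    rw [hBe] at this
    exact this
  · obtain ⟨p0, hp0, hmin⟩ := hcpt.exists_isMinOn hBn hΦc.continuousOn
    have hpos : 0 < Φ p0 := by
      by_contra hneg
      have hnn : ∀ x ∈ Pr, 0 ≤ p0.2.1 x.1 * p0.2.1 x.2 := fun x _ =>
        mul_nonneg (hp0.1.1 _) (hp0.1.1 _)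
      have h1 : Φ p0 = 0 := le_antisymm (not_lt.1 hneg) (Finset.sum_nonneg hnn)
      have h2 := (Finset.sum_eq_zero_iff_of_nonneg hnn).1 h1
      refine no_col (J := J) hJ (fun s => he s p0.1 p0.1.2) (fun s s' h h' =>
        adj p0.1 p0.1.2 s s' h h') hp0.1.1 hp0.1.2 (ζ := p0.2.2) ?_ hp0.2.2 fun s s' hs hs' => ?_
      · intro h
        have := hp0.2.1
        rw [h, norm_zero] at this
        exact zero_ne_one this
      · exact h2 (s, s') (by rw [hPr]; simp [hs, hs'])
    refine ⟨Φ p0 / (Pr.card + 1), by positivity, fun q hq a ha hs ζ hζ hc => ?_⟩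
    have hm : ((⟨q, hq⟩ : K), a, ((‖ζ‖⁻¹ : ℝ) : ℂ) * ζ) ∈ B := by
      refine ⟨⟨ha, hs⟩, ?_, hζ' ζ hζ ⟨q, hq⟩ a hc⟩
      rw [norm_mul, Complex.norm_real, norm_inv, norm_norm,
        inv_mul_cancel₀ (norm_ne_zero_iff.2 hζ)]
    have h1 : Φ p0 ≤ Φ ((⟨q, hq⟩ : K), a, ((‖ζ‖⁻¹ : ℝ) : ℂ) * ζ) := hmin hm
    by_contra hno
    push Not at hno
    have h2 : Φ ((⟨q, hq⟩ : K), a, ((‖ζ‖⁻¹ : ℝ) : ℂ) * ζ) ≤
        Pr.card • (Φ p0 / (Pr.card + 1)) := by
      refine Finset.sum_le_card_nsmul _ _ _ fun x hx => ?_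
      rw [hPr, Finset.mem_filter] at hx
      exact (hno x.1 x.2 hx.2.1 hx.2.2).le
    have h3 : (Pr.card : ℝ) * (Φ p0 / (Pr.card + 1)) < Φ p0 := by
      rw [mul_div_assoc', div_lt_iff₀ (by positivity)]
      nlinarith
    rw [nsmul_eq_mul] at h2
    linarith

/-- **concavity**: nonadjacent terms do not compete. -/
theorem prod_le {J X : ι → ℕ} (hJ : StrictAnti J)
    (hX : ∀ p m q, p < m → m < q → (J p - J q) * X m < (J m - J q) * X p + (J p - J m) * X q)
    {r u : ℝ} (hr : 0 < r) (hr1 : r ≤ 1) (hu : 0 < u) {p m q : ι} (hpm : p < m) (hmq : m < q)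
    {S : ℝ} (hS : ∀ s, r ^ X s * u ^ J s ≤ S) :
    ((r ^ X p * u ^ J p / S) * (r ^ X q * u ^ J q / S)) ^ (J p - J q) ≤ r := by
  have hpos : ∀ s, 0 < r ^ X s * u ^ J s := fun s => by positivity
  have hS0 : 0 < S := (hpos p).trans_le (hS p)
  set A : ι → ℝ := fun s => r ^ X s * u ^ J s / S with hA
  have hA0 : ∀ s, 0 < A s := fun s => div_pos (hpos s) hS0
  have hA1 : ∀ s, A s ≤ 1 := fun s => (div_le_one hS0).2 (hS s)
  have h1 : J m < J p := hJ hpm
  have h2 : J q < J m := hJ hmq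
  obtain ⟨k, hk⟩ := Nat.exists_eq_add_of_lt (hX p m q hpm hmq)
  set P := J m - J q with hP
  set R := J p - J m with hR
  have hPR : J p - J q = P + R := by omega
  rw [hPR] at hk ⊢
  have key : A p ^ P * A q ^ R = r ^ (k + 1) * A m ^ (P + R) := by
    simp only [hA, div_pow]
    rw [div_mul_div_comm, ← pow_add, mul_div_assoc']
    congr 1
    rw [mul_pow, mul_pow, mul_pow, ← pow_mul, ← pow_mul, ← pow_mul, ← pow_mul, ← pow_mul, ← pow_mul]
    have e1 : X p * P + X q * R = (k + 1) + X m * (P + R) := by nlinarith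
    have e2 : J p * P + J q * R = J m * (P + R) := by
      have a1 : J m = J q + P := by omega
      have a2 : J p = J q + P + R := by omega
      rw [a1, a2]; ring
    calc r ^ (X p * P) * u ^ (J p * P) * (r ^ (X q * R) * u ^ (J q * R)) =
        r ^ (X p * P + X q * R) * u ^ (J p * P + J q * R) := by rw [pow_add, pow_add]; ring
      _ = _ := by rw [e1, e2, pow_add]; ring
  calc (A p * A q) ^ (P + R) = (A p ^ P * A q ^ R) * (A p ^ R * A q ^ P) := by
        rw [mul_pow, pow_add, pow_add]; ring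
    _ ≤ (A p ^ P * A q ^ R) * 1 := by
        refine mul_le_mul_of_nonneg_left ?_ (by have := hA0 p; have := hA0 q; positivity)
        exact mul_le_one₀ (pow_le_one₀ (hA0 p).le (hA1 p)) (pow_nonneg (hA0 q).le _)
          (pow_le_one₀ (hA0 q).le (hA1 q))
    _ = r ^ (k + 1) * A m ^ (P + R) := by rw [mul_one, key]
    _ ≤ r ^ (k + 1) * 1 := mul_le_mul_of_nonneg_left (pow_le_one₀ (hA0 m).le (hA1 m))
        (by positivity)
    _ ≤ r := by
        rw [mul_one]
        calc r ^ (k + 1) ≤ r ^ 1 := pow_le_pow_of_le_one hr.le hr1 (by omega)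
          _ = r := pow_one r

/-- **ZONE THEOREM, pointwise form.** -/
theorem zone [Nonempty ι] {δ : Type*} {Q : Type*} [TopologicalSpace Q] {K : Set Q}
    (hK : IsCompact K) {J X : ι → ℕ} (hJ : StrictAnti J)
    (hX : ∀ p m q, p < m → m < q → (J p - J q) * X m < (J m - J q) * X p + (J p - J m) * X q)
    {e : ι → Q → ℂ} (hec : ∀ s, ContinuousOn (e s) K)
    (he : ∀ s, ∀ q ∈ K, ‖e s q‖ = 1) {g : δ → ι → Q → ℝ} (hg : ∀ d s, ContinuousOn (g d s) K)
    (adj : ∀ q ∈ K, ∀ s s', s ⋖ s' → e s q = - e s' q → ∃ d, g d s q ≠ g d s' q) :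
    ∃ r0 : ℝ, 0 < r0 ∧ r0 ≤ 1 ∧ ∀ r, 0 < r → r ≤ r0 → ∀ q ∈ K, ∀ u : ℝ, 0 < u → ∀ ζ : ℂ, ζ ≠ 0 →
      ¬ Col (fun s => (J s : ℝ)) (fun s => e s q) (fun d s => g d s q)
        (fun s => r ^ X s * u ^ J s) ζ := by
  classical
  have hJ' : StrictAnti fun s => (J s : ℝ) := fun a b h => by
    show (J b : ℝ) < J a
    exact_mod_cast hJ h
  obtain ⟨c, hc, H⟩ := exists_c hK hJ' hec he hg adj
  set B : ℕ := ∑ s, J s with hB
  set c' : ℝ := min c 1 with hc'
  have hc'0 : 0 < c' := lt_min hc one_pos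
  refine ⟨c' ^ (B + 1) / 2, by positivity, ?_, fun r hr hrr q hq u hu ζ hζ hcol => ?_⟩
  · have : c' ^ (B + 1) ≤ 1 := pow_le_one₀ hc'0.le (min_le_right _ _)
    linarith
  have hcp : c' ^ (B + 1) ≤ 1 := pow_le_one₀ hc'0.le (min_le_right _ _)
  have hr1 : r ≤ 1 := by linarith
  have hpos : ∀ s, 0 < r ^ X s * u ^ J s := fun s => by positivity
  set S : ℝ := ∑ s, r ^ X s * u ^ J s with hS
  have hle : ∀ s, r ^ X s * u ^ J s ≤ S := fun s =>
    Finset.single_le_sum (f := fun s => r ^ X s * u ^ J s) (fun s _ => (hpos s).le)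
      (Finset.mem_univ s)
  obtain ⟨s0⟩ := ‹Nonempty ι›
  have hS0 : 0 < S := (hpos s0).trans_le (hle s0)
  obtain ⟨s, s', h1, h2, h3⟩ := H q hq (fun s => r ^ X s * u ^ J s / S)
    (fun s => (div_pos (hpos s) hS0).le) (by rw [← Finset.sum_div, div_self hS0.ne']) ζ hζ (by
      have hSc : (S : ℂ) ≠ 0 := by exact_mod_cast hS0.ne'
      refine ⟨?_, ?_, fun d => ?_⟩
      · have h := hcol.zero
        have e1 : ∑ s, ((r ^ X s * u ^ J s / S : ℝ) : ℂ) * e s q =
            ((S : ℂ))⁻¹ * ∑ s, ((r ^ X s * u ^ J s : ℝ) : ℂ) * e s q := by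
          rw [Finset.mul_sum]
          refine Finset.sum_congr rfl fun s _ => ?_
          push_cast
          field_simp
        rw [e1, h, mul_zero]
      · have h := hcol.rad
        have e1 : ∑ s, (((J s : ℝ) * (r ^ X s * u ^ J s / S) : ℝ) : ℂ) * e s q =
            ((S⁻¹ : ℝ) : ℂ) * ∑ s, (((J s : ℝ) * (r ^ X s * u ^ J s) : ℝ) : ℂ) * e s q := by
          rw [Finset.mul_sum]
          refine Finset.sum_congr rfl fun s _ => ?_
          push_cast
          field_simp
        rw [e1, mul_left_comm, Complex.re_ofReal_mul, h, mul_zero]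
      · have h := hcol.ang d
        have e1 : ∑ s, ((g d s q * (r ^ X s * u ^ J s / S) : ℝ) : ℂ) * (I * e s q) =
            ((S⁻¹ : ℝ) : ℂ) * ∑ s, ((g d s q * (r ^ X s * u ^ J s) : ℝ) : ℂ) * (I * e s q) := by
          rw [Finset.mul_sum]
          refine Finset.sum_congr rfl fun s _ => ?_
          push_cast
          field_simp
        rw [e1, mul_left_comm, Complex.re_ofReal_mul, h, mul_zero])
  obtain ⟨m, hm1, hm2⟩ : ∃ m, s < m ∧ m < s' := by
    rw [covBy_iff_lt_and_eq_or_eq] at h2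
    by_contra hno
    push Not at hno
    exact (not_covBy_iff h1).1 (by
      intro hcov
      exact h2 ((covBy_iff_lt_and_eq_or_eq).1 hcov)) |>.elim fun m hm => (hno m hm.1) |>.not_gt hm.2
  have h4 := prod_le hJ hX hr hr1 hu hm1 hm2 hle
  have h5 : c' ≤ r ^ X s * u ^ J s / S * (r ^ X s' * u ^ J s' / S) := (min_le_left _ _).trans h3
  have h6 : c' ^ (J s - J s') ≤ r := (pow_le_pow_left₀ hc'0.le h5 _).trans h4
  have h7 : J s - J s' ≤ B + 1 := by
    have : J s ≤ B := Finset.single_le_sum (f := J) (fun _ _ => Nat.zero_le _) (Finset.mem_univ s)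
    omega
  have h8 : c' ^ (B + 1) ≤ c' ^ (J s - J s') :=
    pow_le_pow_of_le_one hc'0.le (min_le_right _ _) h7
  have h9 : 0 < c' ^ (B + 1) := by positivity
  linarith

end Crest.Agent.R267.Zone_951
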