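import Mathlib
import Crest.Agent.R267.Zone_951
import Crest.Agent.R267.NSDefs_966
import Crest.Agent.R267.PolF_943

/-!
# N2, LEAF ZONE of `NSDefs_966` (helper951)

`zoneProp_of : OkProp → PairProp → ZoneProp`.
-/

set_option autoImplicit false
set_option linter.unusedSectionVars false

noncomputable section

open Set Finset
open scoped Real
open Crest.Agent.R267.NSDefs_966 Crest.Agent.R267.Zone_951

namespace Crest.Agent.R267.ZoneN_951

theorem norm_e (x : ℝ) : ‖e x‖ = 1 := by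
  unfold e
  rw [show (2 * Real.pi * x * Complex.I : ℂ) = ((2 * π * x : ℝ) : ℂ) * Complex.I by push_cast; ring]
  exact Complex.norm_exp_ofReal_mul_I _

theorem continuous_e : Continuous e := by
  unfold e
  fun_prop

theorem e_add_int (x : ℝ) (k : ℤ) : e (x + k) = e x := by
  unfold e
  have h : (2 * Real.pi * ((x + k : ℝ) : ℂ) * Complex.I) =
      2 * Real.pi * (x : ℂ) * Complex.I + (k : ℂ) * (2 * (π : ℂ) * Complex.I) := by
    push_cast; ring
  rw [h, Complex.exp_add, Complex.exp_int_mul_two_pi_mul_I, mul_one]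

theorem hasDerivAt_e {f : ℝ → ℝ} {f' x : ℝ} (h : HasDerivAt f f' x) :
    HasDerivAt (fun τ => e (f τ)) (((2 * π * f' : ℝ) : ℂ) * (Complex.I * e (f x))) x := by
  unfold e
  have h1 := ((h.ofReal_comp).const_mul (2 * Real.pi : ℂ)).mul_const Complex.I |>.cexp
  refine h1.congr_deriv ?_
  push_cast
  ring

/-- opposite phases. -/
theorem of_e_eq_neg {a b : ℝ} (h : e a = - e b) : ∃ k : ℤ, a - b = k + 1 / 2 := by
  have h1 : e (b + 1 / 2) = - e b := by
    unfold e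
    have h2 : (2 * Real.pi * ((b + 1 / 2 : ℝ) : ℂ) * Complex.I) =
        2 * Real.pi * (b : ℂ) * Complex.I + (π : ℂ) * Complex.I := by
      push_cast; ring
    rw [h2, Complex.exp_add, Complex.exp_pi_mul_I]
    ring
  rw [← h1] at h
  unfold e at h
  obtain ⟨k, hk⟩ := Complex.exp_eq_exp_iff_exists_int.1 h
  refine ⟨k, ?_⟩
  have hpi : (2 * (π : ℂ) * Complex.I) ≠ 0 := Complex.two_pi_I_ne_zero
  have h3 : ((a : ℝ) : ℂ) = ((b + 1 / 2 : ℝ) : ℂ) + k := by
    have h4 : (2 * (π : ℂ) * Complex.I) * (a : ℂ) =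
        (2 * (π : ℂ) * Complex.I) * (((b + 1 / 2 : ℝ) : ℂ) + k) := by
      linear_combination hk
    exact mul_left_cancel₀ hpi h4
  have h5 : a = b + 1 / 2 + k := by exact_mod_cast h3
  linarith

theorem fd_line {E : Type*} [NormedAddCommGroup E] [NormedSpace ℝ E] {f : E → ℂ} {q v : E}
    {c : ℝ → E} {z : ℂ} (hd : DifferentiableAt ℝ f q) (hc : HasDerivAt c v 0) (h0 : c 0 = q)
    (h : HasDerivAt (fun τ => f (c τ)) z 0) : fderiv ℝ f q v = z := by
  have h1 : HasFDerivAt f (fderiv ℝ f q) (c 0) := by rw [h0]; exact hd.hasFDerivAt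
  exact (h1.comp_hasDerivAt (0 : ℝ) hc).unique h

variable {m : ℕ} {S : NS m}

theorem bil_l (X Y : ℝ) : bil (fun (_ l : ℤ) => (l : ℝ)) X Y = Y := by
  unfold bil
  push_cast
  have := Int.floor_add_fract Y
  linear_combination this

/-- own term of `w`. -/
theorem hat_first (hS : S.Ok) (x y : ℝ) : S.hat 0 x y = Sp y := by
  unfold NS.hat
  have : (fun k l : ℤ => ((S.N 0 k l : ℤ) : ℝ)) = fun (_ l : ℤ) => (l : ℝ) := by
    funext k l
    rw [hS.N0]
  rw [this, bil_l]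

/-- own term of `v`. -/
theorem hat_last (hS : S.Ok) (x y : ℝ) :
    S.hat (Fin.last (m + 1)) x y = S.hat (Fin.last (m + 1)) x 0 := by
  unfold NS.hat bil
  simp only
  rw [hS.N1 ⌊Sp x⌋ ⌊Sp y⌋ 0, hS.N1 (⌊Sp x⌋ + 1) ⌊Sp y⌋ 0, hS.N1 ⌊Sp x⌋ (⌊Sp y⌋ + 1) 0,
    hS.N1 (⌊Sp x⌋ + 1) (⌊Sp y⌋ + 1) 0, hS.N1 ⌊Sp x⌋ ⌊Sp 0⌋ 0, hS.N1 (⌊Sp x⌋ + 1) ⌊Sp 0⌋ 0,
    hS.N1 ⌊Sp x⌋ (⌊Sp 0⌋ + 1) 0, hS.N1 (⌊Sp x⌋ + 1) (⌊Sp 0⌋ + 1) 0]
  ring

theorem pha_first (hS : S.Ok) (M : Fin m → ℝ) (Mv t x y : ℝ) :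
    S.pha 0 (t, x, y) = (S.pathA M Mv).q (t, y) := by
  show (1 - t) * ((S.i 0 : ℝ) * x / S.n + (S.j 0 : ℝ) * y / 15) + t * (S.hat 0 x y + 1 / 2) =
    (1 - t) * y + t * (Sp y + 1 / 2)
  rw [hat_first hS, hS.i0, hS.j0]
  push_cast
  ring

theorem pha_last (hS : S.Ok) (M : Fin m → ℝ) (Mv t x y : ℝ) :
    S.pha (Fin.last (m + 1)) (t, x, y) = (S.pathA M Mv).p (t, x) := by
  show (1 - t) * ((S.i (Fin.last (m + 1)) : ℝ) * x / S.n + (S.j (Fin.last (m + 1)) : ℝ) * y / 15) +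
    t * (S.hat (Fin.last (m + 1)) x y + 1 / 2) =
    (1 - t) * (15 * x / S.n) + t * (S.hat (Fin.last (m + 1)) x 0 + 1 / 2)
  rw [hat_last hS, hS.i1, hS.j1]
  push_cast
  ring

theorem smooth_pha (hOk : OkProp) (hS : S.Ok) (s : Fin (m + 2)) : ContDiff ℝ 2 (S.pha s) := by
  have h := ((hOk m S hS).1 (fun _ => 1) 1 one_pos).1
  rcases Fin.eq_zero_or_eq_succ s with rfl | ⟨s', rfl⟩
  · have e0 : S.pha 0 = fun z : ℝ × ℝ × ℝ => (S.pathA (fun _ => 1) 1).q (z.1, z.2.2) :=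
      funext fun z => pha_first hS _ _ z.1 z.2.1 z.2.2
    rw [e0]
    exact h.cq.comp (f := fun z : ℝ × ℝ × ℝ => (z.1, z.2.2)) (by fun_prop)
  · induction s' using Fin.lastCases with
    | last =>
      have e0 : S.pha (Fin.last m).succ =
          fun z : ℝ × ℝ × ℝ => (S.pathA (fun _ => 1) 1).p (z.1, z.2.1) :=
        funext fun z => pha_last hS _ _ z.1 z.2.1 z.2.2
      rw [e0]
      exact h.cp.comp (f := fun z : ℝ × ℝ × ℝ => (z.1, z.2.1)) (by fun_prop)
    | cast i => exact h.cψ i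

/-- quasi-periodicity. -/
theorem per_pha (hOk : OkProp) (hS : S.Ok) (s : Fin (m + 2)) :
    (∃ i : ℤ, ∀ t x y, S.pha s (t, x + S.n, y) = S.pha s (t, x, y) + i) ∧
      ∃ j : ℤ, ∀ t x y, S.pha s (t, x, y + 15) = S.pha s (t, x, y) + j := by
  have h := ((hOk m S hS).1 (fun _ => 1) 1 one_pos).1
  rcases Fin.eq_zero_or_eq_succ s with rfl | ⟨s', rfl⟩
  · refine ⟨⟨0, fun t x y => ?_⟩, ⟨15, fun t x y => ?_⟩⟩
    · rw [pha_first hS (fun _ => 1) 1, pha_first hS (fun _ => 1) 1]; simp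
    · rw [pha_first hS (fun _ => 1) 1, pha_first hS (fun _ => 1) 1, h.pq]; norm_num
  · induction s' using Fin.lastCases with
    | last =>
      refine ⟨⟨15, fun t x y => ?_⟩, ⟨0, fun t x y => ?_⟩⟩
      · have e1 := pha_last hS (fun _ => 1) 1 t (x + S.n) y
        have e2 := pha_last hS (fun _ => 1) 1 t x y
        rw [Fin.succ_last, e1, e2]
        have := h.pp t x
        have hn : (S.pathA (fun _ => 1) 1).n = S.n := rfl
        rw [hn] at this
        rw [this]; norm_num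
      · rw [Fin.succ_last, pha_last hS (fun _ => 1) 1, pha_last hS (fun _ => 1) 1]; simp
    | cast i => exact ⟨h.pψx i, h.pψy i⟩

/-- the sum of all the terms. -/
def Kf (S : NS m) (c : Fin (m + 2) → ℝ) (t : ℝ) (z : ℝ × ℝ × ℝ) : ℂ :=
  ∑ s, ((c s * Real.exp (S.j s * z.2.1) : ℝ) : ℂ) * e (S.pha s (t, z.1, z.2.2))

theorem K_eq (hS : S.Ok) (M : Fin m → ℝ) (Mv t : ℝ) :
    (S.pathA M Mv).K t = Kf S (cf M Mv) t := by
  funext z
  unfold Kf
  rw [Fin.sum_univ_succ, Fin.sum_univ_castSucc]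
  have c0 : cf M Mv 0 = 1 := by simp [cf]
  have c1 : cf M Mv (Fin.last m).succ = Mv := by simp [cf]
  have c2 : ∀ s : Fin m, cf M Mv s.castSucc.succ = M s := fun s => by
    simp only [cf, Fin.cons_succ, Fin.snoc_castSucc]
  have j0 : S.j 0 = 15 := hS.j0
  have j1 : S.j (Fin.last m).succ = 0 := hS.j1
  rw [c0, c1, j0, j1]
  have e1 : S.pha (Fin.last m).succ (t, z.1, z.2.2) = (S.pathA M Mv).p (t, z.1) :=
    pha_last hS M Mv t z.1 z.2.2
  rw [e1, pha_first hS M Mv]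
  simp only [c2]
  unfold PD.K PD.mid
  have e2 : (S.pathA M Mv).cv t = Mv := rfl
  rw [e2]
  have e3 : ∀ s : Fin m, ((((S.pathA M Mv).c s (t, z.1, z.2.2) *
      Real.exp ((S.pathA M Mv).E s * z.2.1) : ℝ) : ℂ) * e ((S.pathA M Mv).ψ s (t, z.1, z.2.2))) =
      ((M s * Real.exp (S.j s.castSucc.succ * z.2.1) : ℝ) : ℂ) *
        e (S.pha s.castSucc.succ (t, z.1, z.2.2)) := fun s => rfl
  simp only [e3]
  simp only [Nat.cast_ofNat, one_mul, Nat.cast_zero, zero_mul, Real.exp_zero, mul_one]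
  ring

section der

theorem smooth_Kf (hOk : OkProp) (hS : S.Ok) (c : Fin (m + 2) → ℝ) (t : ℝ) :
    ContDiff ℝ 2 (Kf S c t) := by
  unfold Kf
  refine ContDiff.sum fun s _ => ?_
  have h1 : ContDiff ℝ 2 fun z : ℝ × ℝ × ℝ => (c s * Real.exp (S.j s * z.2.1) : ℝ) := by
    fun_prop
  have h2 : ContDiff ℝ 2 fun z : ℝ × ℝ × ℝ => S.pha s (t, z.1, z.2.2) :=
    (smooth_pha hOk hS s).comp (f := fun z : ℝ × ℝ × ℝ => (t, z.1, z.2.2)) (by fun_prop)
  have h3 : ContDiff ℝ 2 e := by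
    unfold e
    exact (Complex.contDiff_exp (𝕜 := ℝ)).comp
      ((contDiff_const.mul Complex.ofRealCLM.contDiff).mul contDiff_const)
  exact (Complex.ofRealCLM.contDiff.comp h1).mul (h3.comp h2)

/-- partial derivatives of the phases. -/
theorem line_pha (hOk : OkProp) (hS : S.Ok) (s : Fin (m + 2)) (t x y : ℝ) (v : ℝ × ℝ) :
    HasDerivAt (fun τ : ℝ => S.pha s (t, x + τ * v.1, y + τ * v.2))
      (fderiv ℝ (S.pha s) (t, x, y) (0, v.1, v.2)) 0 := by
  have hx : HasDerivAt (fun τ : ℝ => x + τ * v.1) v.1 0 := by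
    have h1 : HasDerivAt (fun τ : ℝ => x + τ * v.1) (1 * v.1) 0 :=
      ((hasDerivAt_id (0 : ℝ)).mul_const v.1).const_add x
    simpa using h1
  have hy : HasDerivAt (fun τ : ℝ => y + τ * v.2) v.2 0 := by
    have h1 : HasDerivAt (fun τ : ℝ => y + τ * v.2) (1 * v.2) 0 :=
      ((hasDerivAt_id (0 : ℝ)).mul_const v.2).const_add y
    simpa using h1
  have h2 : HasFDerivAt (S.pha s) (fderiv ℝ (S.pha s) (t, x, y))
      ((fun τ : ℝ => (t, x + τ * v.1, y + τ * v.2)) 0) := by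
    have := ((smooth_pha hOk hS s).differentiable (by norm_num) (t, x, y)).hasFDerivAt
    simpa using this
  exact HasFDerivAt.comp_hasDerivAt (f := fun τ : ℝ => (t, x + τ * v.1, y + τ * v.2)) (0 : ℝ) h2
    ((hasDerivAt_const _ _).prodMk (hx.prodMk hy))

theorem fd_rad (hOk : OkProp) (hS : S.Ok) (c : Fin (m + 2) → ℝ) (t x lam y : ℝ) :
    fderiv ℝ (Kf S c t) (x, lam, y) (0, 1, 0) =
      ∑ s, (((S.j s : ℝ) * (c s * Real.exp (S.j s * lam)) : ℝ) : ℂ) * e (S.pha s (t, x, y)) := by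
  refine fd_line (c := fun τ => (x, lam + τ, y))
    ((smooth_Kf hOk hS c t).differentiable (by norm_num) _) ?_ (by simp) ?_
  · refine (hasDerivAt_const _ _).prodMk (HasDerivAt.prodMk ?_ (hasDerivAt_const _ _))
    exact (hasDerivAt_id (0 : ℝ)).const_add lam
  · unfold Kf
    refine HasDerivAt.fun_sum fun s _ => ?_
    have h0 : HasDerivAt (fun τ : ℝ => (S.j s : ℝ) * (lam + τ)) ((S.j s : ℝ) * 1) 0 :=
      ((hasDerivAt_id (0 : ℝ)).const_add lam).const_mul _
    have h1 := (h0.exp.const_mul (c s)).ofReal_comp.mul_const (e (S.pha s (t, x, y)))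
    refine h1.congr_deriv ?_
    simp only [add_zero, mul_one]
    push_cast
    ring

theorem fd_ang (hOk : OkProp) (hS : S.Ok) (c : Fin (m + 2) → ℝ) (t x lam y : ℝ) (v : ℝ × ℝ) :
    fderiv ℝ (Kf S c t) (x, lam, y) (v.1, 0, v.2) =
      ∑ s, (((2 * π * fderiv ℝ (S.pha s) (t, x, y) (0, v.1, v.2)) *
        (c s * Real.exp (S.j s * lam)) : ℝ) : ℂ) * (Complex.I * e (S.pha s (t, x, y))) := by
  have hx : HasDerivAt (fun τ : ℝ => x + τ * v.1) v.1 0 := by
    have h1 : HasDerivAt (fun τ : ℝ => x + τ * v.1) (1 * v.1) 0 :=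
      ((hasDerivAt_id (0 : ℝ)).mul_const v.1).const_add x
    simpa using h1
  have hy : HasDerivAt (fun τ : ℝ => y + τ * v.2) v.2 0 := by
    have h1 : HasDerivAt (fun τ : ℝ => y + τ * v.2) (1 * v.2) 0 :=
      ((hasDerivAt_id (0 : ℝ)).mul_const v.2).const_add y
    simpa using h1
  refine fd_line (c := fun τ => (x + τ * v.1, lam, y + τ * v.2))
    ((smooth_Kf hOk hS c t).differentiable (by norm_num) _) ?_ (by simp) ?_
  · exact hx.prodMk ((hasDerivAt_const _ _).prodMk hy)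
  · unfold Kf
    refine HasDerivAt.fun_sum fun s _ => ?_
    have h3 := (hasDerivAt_e (line_pha hOk hS s t x y v)).const_mul
      ((c s * Real.exp (S.j s * lam) : ℝ) : ℂ)
    refine h3.congr_deriv ?_
    simp only [zero_mul, add_zero]
    push_cast
    ring

end der

/-- a point of the fundamental interval. -/
theorem exists_rep {p : ℝ} (hp : 0 < p) (x : ℝ) : ∃ k : ℤ, x + k * p ∈ Icc (0 : ℝ) p := by
  refine ⟨-⌊x / p⌋, ?_, ?_⟩
  · have h1 := Int.floor_le (x / p)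
    have h2 : (⌊x / p⌋ : ℝ) * p ≤ x := by
      calc (⌊x / p⌋ : ℝ) * p ≤ x / p * p := mul_le_mul_of_nonneg_right h1 hp.le
        _ = x := div_mul_cancel₀ x hp.ne'
    push_cast
    linarith
  · have h1 := (Int.lt_floor_add_one (x / p)).le
    have h2 : x ≤ ((⌊x / p⌋ : ℝ) + 1) * p := by
      calc x = x / p * p := (div_mul_cancel₀ x hp.ne').symm
        _ ≤ _ := mul_le_mul_of_nonneg_right h1 hp.le
    push_cast
    linarith

theorem Kf_shift (hOk : OkProp) (hS : S.Ok) (c : Fin (m + 2) → ℝ) (t : ℝ) (k l : ℤ)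
    (z : ℝ × ℝ × ℝ) :
    Kf S c t (z + ((k : ℝ) * (S.n : ℝ), (0 : ℝ), (l : ℝ) * 15)) = Kf S c t z := by
  obtain ⟨x, lam, y⟩ := z
  have h1 : Function.Periodic (fun x => Kf S c t (x, lam, y + (l : ℝ) * 15)) (S.n : ℝ) := by
    intro x
    unfold Kf
    refine Finset.sum_congr rfl fun s _ => ?_
    obtain ⟨i, hi⟩ := (per_pha hOk hS s).1
    simp only
    rw [hi, e_add_int]
  have h2 : Function.Periodic (fun y => Kf S c t (x, lam, y)) (15 : ℝ) := by
    intro y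
    unfold Kf
    refine Finset.sum_congr rfl fun s _ => ?_
    obtain ⟨i, hi⟩ := (per_pha hOk hS s).2
    simp only
    rw [hi, e_add_int]
  have e1 : Kf S c t (x + (k : ℝ) * (S.n : ℝ), lam, y + (l : ℝ) * 15) =
      Kf S c t (x, lam, y + (l : ℝ) * 15) := h1.int_mul k x
  have e2 : Kf S c t (x, lam, y + (l : ℝ) * 15) = Kf S c t (x, lam, y) := h2.int_mul l y
  show Kf S c t (x + (k : ℝ) * (S.n : ℝ), lam + 0, y + (l : ℝ) * 15) = _
  rw [add_zero, e1, e2]

theorem fderiv_shift (hOk : OkProp) (hS : S.Ok) (c : Fin (m + 2) → ℝ) (t : ℝ) (k l : ℤ)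
    (z : ℝ × ℝ × ℝ) :
    fderiv ℝ (Kf S c t) (z + ((k : ℝ) * (S.n : ℝ), (0 : ℝ), (l : ℝ) * 15)) =
      fderiv ℝ (Kf S c t) z := by
  rw [← fderiv_comp_add_right]
  congr 1
  funext x
  exact Kf_shift hOk hS c t k l x

/-- the compactness constant. -/
theorem exists_delta (hOk : OkProp) (hPair : PairProp) (hS : S.Ok) :
    ∃ c : ℝ, 0 < c ∧ ∀ q ∈ Icc (0 : ℝ) 1 ×ˢ (Icc (0 : ℝ) S.n ×ˢ Icc (0 : ℝ) 15),
      ∀ a : Fin (m + 2) → ℝ, (∀ s, 0 ≤ a s) → ∑ s, a s = 1 → ∀ ζ : ℂ, ζ ≠ 0 →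
      Col (δ := Bool) (fun s => (S.j s : ℝ)) (fun s => e (S.pha s q))
        (fun d s => 2 * π * fderiv ℝ (S.pha s) q
          (0, if d then ((1 : ℝ), (0 : ℝ)) else (0, 1))) a ζ →
        ∃ s s', s < s' ∧ ¬ s ⋖ s' ∧ c ≤ a s * a s' := by
  have hKc : IsCompact (Icc (0 : ℝ) 1 ×ˢ (Icc (0 : ℝ) S.n ×ˢ Icc (0 : ℝ) 15)) :=
    isCompact_Icc.prod (isCompact_Icc.prod isCompact_Icc)
  have hJ : StrictAnti fun s => (S.j s : ℝ) := fun a b h => by
    show (S.j b : ℝ) < S.j a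
    exact_mod_cast hS.hj h
  refine exists_c (δ := Bool) hKc hJ (e := fun s q => e (S.pha s q))
    (g := fun d s q => 2 * π * fderiv ℝ (S.pha s) q
          (0, if d then ((1 : ℝ), (0 : ℝ)) else (0, 1)))
    (fun s => (continuous_e.comp (smooth_pha hOk hS s).continuous).continuousOn)
    (fun s q _ => norm_e _) (fun d s => ?_) ?_
  · refine Continuous.continuousOn ?_
    exact continuous_const.mul
      ((((smooth_pha hOk hS s).continuous_fderiv (by norm_num))).clm_apply continuous_const)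
  · rintro ⟨t, x, y⟩ ⟨ht, -, -⟩ s s' hs he
    obtain ⟨k, hk⟩ := of_e_eq_neg he
    have hss : (s : ℕ) + 1 = s' := by
      have h1 : (s : ℕ) < s' := hs.1
      by_contra hne
      have h3 : (s : ℕ) + 1 < s' := by omega
      have h4 : (s : ℕ) + 1 < m + 2 := by have := s'.2; omega
      exact hs.2 (c := ⟨(s : ℕ) + 1, h4⟩) (Fin.lt_def.2 (by simp)) (Fin.lt_def.2 h3)
    have hsm : (s : ℕ) < m + 1 := by have := s'.2; omega
    set s0 : Fin (m + 1) := ⟨s, hsm⟩ with hs0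
    have e1 : s = s0.castSucc := Fin.ext rfl
    have e2 : s' = s0.succ := Fin.ext (by rw [Fin.val_succ]; exact hss.symm)
    rw [e1, e2] at hk ⊢
    have hd : ∀ (s : Fin (m + 2)), deriv (fun x' => S.pha s (t, x', y)) x =
        fderiv ℝ (S.pha s) (t, x, y) (0, 1, 0) ∧ deriv (fun y' => S.pha s (t, x, y')) y =
        fderiv ℝ (S.pha s) (t, x, y) (0, 0, 1) ∧
        DifferentiableAt ℝ (fun x' => S.pha s (t, x', y)) x ∧
        DifferentiableAt ℝ (fun y' => S.pha s (t, x, y')) y := by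
      intro s
      have h2 : HasFDerivAt (S.pha s) (fderiv ℝ (S.pha s) (t, x, y)) (t, x, y) :=
        ((smooth_pha hOk hS s).differentiable (by norm_num) (t, x, y)).hasFDerivAt
      have h3 : HasDerivAt (fun x' => S.pha s (t, x', y))
          (fderiv ℝ (S.pha s) (t, x, y) (0, 1, 0)) x :=
        HasFDerivAt.comp_hasDerivAt (f := fun x' : ℝ => (t, x', y)) x h2
          ((hasDerivAt_const _ _).prodMk ((hasDerivAt_id x).prodMk (hasDerivAt_const _ _)))
      have h4 : HasDerivAt (fun y' => S.pha s (t, x, y'))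
          (fderiv ℝ (S.pha s) (t, x, y) (0, 0, 1)) y :=
        HasFDerivAt.comp_hasDerivAt (f := fun y' : ℝ => (t, x, y')) y h2
          ((hasDerivAt_const _ _).prodMk ((hasDerivAt_const _ _).prodMk (hasDerivAt_id y)))
      exact ⟨h3.deriv, h4.deriv, h3.differentiableAt, h4.differentiableAt⟩
    have hpi : (2 * π : ℝ) ≠ 0 := by positivity
    rcases hPair m S hS t ht s0 x y ⟨k, hk⟩ with h1 | h1
    · refine ⟨true, fun h2 => h1 ?_⟩
      rw [deriv_fun_sub (hd _).2.2.1 (hd _).2.2.1, (hd _).1, (hd _).1, sub_eq_zero]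
      simpa using mul_left_cancel₀ hpi h2
    · refine ⟨false, fun h2 => h1 ?_⟩
      rw [deriv_fun_sub (hd _).2.2.2 (hd _).2.2.2, (hd _).2.1, (hd _).2.1, sub_eq_zero]
      simpa using mul_left_cancel₀ hpi h2

/-- **LEAF ZONE.** -/
theorem zoneProp_of (hOk : OkProp) (hPair : PairProp) : ZoneProp := by
  intro m S hS
  obtain ⟨c, hc, H⟩ := exists_delta hOk hPair hS
  refine ⟨c / 2, by positivity, fun M Mv hM hMv hSep t ht z h0 => ?_⟩
  obtain ⟨x, lam, y⟩ := z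
  rw [K_eq hS] at h0 ⊢
  have hn : (0 : ℝ) < S.n := by exact_mod_cast hS.hn
  obtain ⟨k, hk⟩ := exists_rep hn x
  obtain ⟨l, hl⟩ := exists_rep (show (0 : ℝ) < 15 by norm_num) y
  have e0 : ((x, lam, y) : ℝ × ℝ × ℝ) + ((k : ℝ) * (S.n : ℝ), (0 : ℝ), (l : ℝ) * 15) =
      (x + k * S.n, lam, y + l * 15) := by
    simp
  rw [← Kf_shift hOk hS (cf M Mv) t k l, e0] at h0
  rw [← fderiv_shift hOk hS (cf M Mv) t k l, e0]
  set x' := x + k * S.n with hx'
  set y' := y + l * 15 with hy'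
  by_contra hno
  obtain ⟨ζ, hζ, hco⟩ := PolF_943.exists_conormal
    (fderiv ℝ (Kf S (cf M Mv) t) (x', lam, y') : ℝ × ℝ × ℝ →L[ℝ] ℂ).toLinearMap hno
  have hcf : ∀ s, 0 < cf M Mv s := by
    intro s
    rcases Fin.eq_zero_or_eq_succ s with rfl | ⟨s', rfl⟩
    · simp [cf]
    · induction s' using Fin.lastCases with
      | last => simpa [cf] using hMv
      | cast i => simpa only [cf, Fin.cons_succ, Fin.snoc_castSucc] using hM i
  set T : Fin (m + 2) → ℝ := fun s => cf M Mv s * Real.exp (S.j s * lam) with hT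
  have hTp : ∀ s, 0 < T s := fun s => mul_pos (hcf s) (Real.exp_pos _)
  set Sg : ℝ := ∑ s, T s with hSg
  have hle : ∀ s, T s ≤ Sg := fun s =>
    Finset.single_le_sum (f := T) (fun s _ => (hTp s).le) (Finset.mem_univ s)
  have hS0 : 0 < Sg := (hTp 0).trans_le (hle 0)
  have hSc : (Sg : ℂ) ≠ 0 := by exact_mod_cast hS0.ne'
  obtain ⟨s, s', h1, h2, h3⟩ := H (t, x', y') ⟨ht, hk, hl⟩ (fun s => T s / Sg)
    (fun s => (div_pos (hTp s) hS0).le) (by rw [← Finset.sum_div, div_self hS0.ne']) ζ hζ (by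
      refine ⟨?_, ?_, fun d => ?_⟩
      · have e1 : ∑ s, ((T s / Sg : ℝ) : ℂ) * e (S.pha s (t, x', y')) =
            ((Sg : ℂ))⁻¹ * ∑ s, ((T s : ℝ) : ℂ) * e (S.pha s (t, x', y')) := by
          rw [Finset.mul_sum]
          refine Finset.sum_congr rfl fun s _ => ?_
          push_cast
          field_simp
        have e2 : ∑ s, ((T s : ℝ) : ℂ) * e (S.pha s (t, x', y')) = 0 := h0
        rw [e1, e2, mul_zero]
      · have h := hco (0, 1, 0)
        simp only [ContinuousLinearMap.coe_coe] at h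
        rw [fd_rad hOk hS] at h
        have e1 : ∑ s, (((S.j s : ℝ) * (T s / Sg) : ℝ) : ℂ) * e (S.pha s (t, x', y')) =
            ((Sg⁻¹ : ℝ) : ℂ) * ∑ s, (((S.j s : ℝ) * T s : ℝ) : ℂ) * e (S.pha s (t, x', y')) := by
          rw [Finset.mul_sum]
          refine Finset.sum_congr rfl fun s _ => ?_
          push_cast
          field_simp
        rw [e1, mul_left_comm, Complex.re_ofReal_mul]
        exact mul_eq_zero_of_right _ h
      · have h := hco ((if d then ((1 : ℝ), (0 : ℝ)) else (0, 1)).1, 0,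
          (if d then ((1 : ℝ), (0 : ℝ)) else (0, 1)).2)
        simp only [ContinuousLinearMap.coe_coe] at h
        rw [fd_ang hOk hS] at h
        have e1 : ∑ s, (((2 * π * fderiv ℝ (S.pha s) (t, x', y')
            (0, if d then ((1 : ℝ), (0 : ℝ)) else (0, 1))) * (T s / Sg) : ℝ) : ℂ) *
            (Complex.I * e (S.pha s (t, x', y'))) =
            ((Sg⁻¹ : ℝ) : ℂ) * ∑ s, (((2 * π * fderiv ℝ (S.pha s) (t, x', y')
            (0, if d then ((1 : ℝ), (0 : ℝ)) else (0, 1))) * T s : ℝ) : ℂ) *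
            (Complex.I * e (S.pha s (t, x', y'))) := by
          rw [Finset.mul_sum]
          refine Finset.sum_congr rfl fun s _ => ?_
          push_cast
          field_simp
        rw [e1, mul_left_comm, Complex.re_ofReal_mul]
        exact mul_eq_zero_of_right _ h)
  obtain ⟨s0, hs0⟩ := hSep lam
  have hmax : max (T s0.castSucc) (T s0.succ) ≤ Sg := max_le (hle _) (hle _)
  have hsmall : ∀ s1 : Fin (m + 2), s1 ≠ s0.castSucc → s1 ≠ s0.succ → T s1 / Sg ≤ c / 2 := by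
    intro s1 g1 g2
    rw [div_le_iff₀ hS0]
    exact (hs0 s1 g1 g2).trans (mul_le_mul_of_nonneg_left hmax (by positivity))
  have hone : ∀ s1 : Fin (m + 2), T s1 / Sg ≤ 1 := fun s1 => (div_le_one hS0).2 (hle s1)
  have hnn : ∀ s1 : Fin (m + 2), 0 ≤ T s1 / Sg := fun s1 => (div_pos (hTp s1) hS0).le
  have hcase : T s / Sg ≤ c / 2 ∨ T s' / Sg ≤ c / 2 := by
    by_contra hcon
    push Not at hcon
    have g1 : s = s0.castSucc ∨ s = s0.succ := by
      by_contra hg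
      push Not at hg
      exact absurd (hsmall s hg.1 hg.2) (not_le.2 hcon.1)
    have g2 : s' = s0.castSucc ∨ s' = s0.succ := by
      by_contra hg
      push Not at hg
      exact absurd (hsmall s' hg.1 hg.2) (not_le.2 hcon.2)
    have hcov : s0.castSucc ⋖ s0.succ := by
      refine ⟨Fin.castSucc_lt_succ, fun w hw1 hw2 => ?_⟩
      rw [Fin.lt_def, Fin.val_castSucc] at hw1
      rw [Fin.lt_def, Fin.val_succ] at hw2
      omega
    rcases g1 with g1 | g1 <;> rcases g2 with g2 | g2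
    · rw [g1, g2] at h1; exact lt_irrefl _ h1
    · rw [g1, g2] at h2; exact h2 hcov
    · rw [g1, g2] at h1; exact lt_asymm h1 Fin.castSucc_lt_succ
    · rw [g1, g2] at h1; exact lt_irrefl _ h1
  have : T s / Sg * (T s' / Sg) ≤ c / 2 := by
    rcases hcase with g | g
    · calc T s / Sg * (T s' / Sg) ≤ c / 2 * 1 :=
          mul_le_mul g (hone s') (hnn s') (by positivity)
        _ = c / 2 := mul_one _
    · calc T s / Sg * (T s' / Sg) ≤ 1 * (c / 2) :=
          mul_le_mul (hone s) g (hnn s') zero_le_one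
        _ = c / 2 := one_mul _
  have h3' : c ≤ T s / Sg * (T s' / Sg) := h3
  linarith

end Crest.Agent.R267.ZoneN_951
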