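import Mathlib
import Crest.Agent.R267.ZoneN_951
import Crest.Agent.R267.NSOk_966
import Crest.Agent.R267.NSPair_399

/-!
# N2, LEAF ZONE, unconditional (helper951; with 966's `ok_prop`, 399's `pairProp`)
-/

set_option autoImplicit false

namespace Crest.Agent.R267.ZoneF_951

theorem zoneProp : NSDefs_966.ZoneProp :=
  ZoneN_951.zoneProp_of NSOk_966.ok_prop NSPair_399.pairProp

end Crest.Agent.R267.ZoneF_951
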