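import Crest.Agent.R267.NEnt_407
import Crest.Agent.R267.NSSplice_966
import Crest.Agent.R267.NSArm_780
import Crest.Agent.R267.ZoneF_951
import Crest.Agent.R267.NSRegC_855
import Crest.Agent.R267.HubAsm_284

/-!
# Row 267, C1 (helper407): assembly of the planar arms

`armsP_of` : `ArmsP b D` (helper284) from the two leaves `SepProp`, `RegBProp` (helper966) and the
exit `ExitP b D v` of the three arms.
-/

set_option autoImplicit false
set_option linter.unusedSectionVars false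

noncomputable section

open Set
open scoped Real
open Crest.Agent.R267.NdR_484 Crest.Agent.R267.NdS_484 Crest.Agent.R267.NdY_484
open Crest.Agent.R267.PolArm_484 Crest.Agent.R267.NSDefs_966
open Crest.Agent.R267.NStep_88 Crest.Agent.R267.NEnt_407 Crest.Agent.R267.NSArm_780

namespace Crest.Agent.R267.NAsm_407

/-- the exponents of the official arms. -/
abbrev TT (b : Bool) : Fin 3 → Finset (ℕ × ℕ) := bif b then EntD_370.Tf else EntD_370.Tg

theorem armDat (b : Bool) (v : Fin 3) : ArmDat (aw b v) (TT b v) (fun _ => 1) := by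
  cases b
  · exact EntD_370.datg v
  · exact EntD_370.datf v

theorem sn_cvx (b : Bool) (v : Fin 3) : (sn b v).S.Cvx (aw b v) := by
  cases b <;> fin_cases v
  all_goals
    refine ⟨?_, ?_, ?_⟩
    · decide +kernel
    · decide +kernel
    · decide +kernel

set_option maxRecDepth 100000 in
theorem sn_dat (b : Bool) (v : Fin 3) : PlStart_484.Dat (aw b v) (TT b v) (sn b v).S.i (sn b v).S.j
    (xN (sn b v).S (aw b v)) 0 (Fin.last (mm v + 1)) := by
  cases b <;> fin_cases v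
  all_goals
    refine ⟨?_, ?_, ?_, ?_, fun _ => rfl, ?_, ?_, ?_, ?_⟩
    all_goals decide +kernel

/-- **exit** of one arm. -/
def ExitP (b : Bool) (D : T3aNDefs_88.SD 4) (v : Fin 3) : Prop :=
  ∃ a0 : ℝ, 0 < a0 ∧ ∃ b0 : ℝ, ∀ a c : ℝ, 0 < a → a ≤ a0 → b0 ≤ c → a ≤ c →
    ∃ A : ℂ × ℂ → ℂ, AEq b v (((sn b v).S.fin.tri 0).arm b v a c) A ∧ HubDefs_284.Tgt b D v A

theorem Ab_eq (b : Bool) (W r : ℝ) (v : Fin 3) :
    Asm406_808.Ab b W r v = Ac (aw b v) (TT b v) (fun _ => 1) W r := by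
  cases b <;> rfl

/-- **C1** from the leaves. -/
theorem armsP_of (hSep : SepProp) (hB : RegBProp) (b : Bool) (D : T3aNDefs_88.SD 4)
    (hE : ∀ v, ExitP b D v) : HubAsm_284.ArmsP b D := by
  choose r0 hr0 H using fun v => NSSplice_966.chain_of ZoneF_951.zoneProp hSep hB
    NSRegC_855.regC (sn_ok b v) (sn_cvx b v) b v
  choose r1 hr1 W0 hW0 b0 hb0 K using fun v => entry_tri (sn_ok b v) (sn_dat b v) (armDat b v)
  obtain ⟨v0, hv0⟩ := Finite.exists_min r0
  obtain ⟨v1, hv1⟩ := Finite.exists_min r1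
  refine ⟨min (r0 v0) (r1 v1), lt_min (hr0 v0) (hr1 v1), fun r hr hrr => ?_⟩
  obtain ⟨v2, hv2⟩ := Finite.exists_max W0
  refine ⟨W0 v2, fun W hW => ?_⟩
  have key : ∀ v, ∃ A : ℂ × ℂ → ℂ, AEq b v (Asm406_808.Ab b W r v) A ∧
      HubDefs_284.Tgt b D v A := by
    intro v
    obtain ⟨a1, ha1, c1, H1⟩ := H v r hr ((hrr.trans (min_le_left _ _)).trans (hv0 v))
    obtain ⟨a2, ha2, H2⟩ := K v r hr ((hrr.trans (min_le_right _ _)).trans (hv1 v))
    obtain ⟨a3, ha3, c3, H3⟩ := hE v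
    have hm : 0 < min a1 (min a2 a3) := lt_min ha1 (lt_min ha2 ha3)
    obtain ⟨c, h1, h2, h3, h4⟩ : ∃ c : ℝ, c1 ≤ c ∧ b0 v ≤ c ∧ c3 ≤ c ∧ min a1 (min a2 a3) ≤ c :=
      ⟨max (max c1 (b0 v)) (max c3 (min a1 (min a2 a3))),
        (le_max_left _ _).trans (le_max_left _ _), (le_max_right _ _).trans (le_max_left _ _),
        (le_max_left _ _).trans (le_max_right _ _), (le_max_right _ _).trans (le_max_right _ _)⟩
    have e2 := H2 _ hm ((min_le_right _ _).trans (min_le_left _ _)) c h2 h4 W ((hv2 v).trans hW)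
    have e1 := H1 _ c hm (min_le_left _ _) h1 h4
    obtain ⟨A, e3, hA⟩ := H3 _ c hm ((min_le_right _ _).trans (min_le_right _ _)) h3 h4
    refine ⟨A, ?_, hA⟩
    rw [Ab_eq]
    exact (e2.aeq.trans e1).trans e3
  choose A hA using key
  exact ⟨A, fun v => (hA v).1, fun v => (hA v).2⟩

end Crest.Agent.R267.NAsm_407
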