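import Mathlib
import Crest.Agent.R267.PolArm_484
import Crest.Agent.R267.NCut_88

/-!
# S0406, planar arms: entry of path A (helper484)

* `reg_of_arm` : an arm `LA b v k` has a `0`-regular `k`;
* `arm_eq_LA` : every arm is `LA b v` of its restriction to `|v| = 1`;
* `LA_line` : straight line between two functions which differ only where the line has no zero;
* `hst` : the start function of path A; `entry` : the official arm is joined to `PA b v hst`.
-/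

set_option autoImplicit false
set_option linter.unusedSectionVars false

noncomputable section

open Set Filter Topology
open scoped Real
open Crest.Agent.R267.NdR_484 Crest.Agent.R267.NdQ_484 Crest.Agent.R267.NdS_484
open Crest.Agent.R267.NdP_484 Crest.Agent.R267.NdY_484 Crest.Agent.R267.PolArm_484

namespace Crest.Agent.R267.PlStart_484

variable {b : Bool} {v : Fin 3}

/-- the arm `LA b v k` is `0`-regular only if `k` is. -/
theorem reg_of_arm {k : ℝ × ℂ → ℂ} (hk : Differentiable ℝ k)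
    (hper : ∀ θ w, k (θ + 2 * π, w) = k (θ, w)) (hA : Arm b v (LA b v k)) :
    ∀ p, k p = 0 → ∀ c, ∃ y, fderiv ℝ k p y = c := by
  rintro ⟨θ, w⟩ h0 c
  have ha := aw_pos b v
  set a : ℝ := (aw b v : ℝ) with ha_def
  set e : ℂ := Complex.exp (θ * Complex.I) with he
  have he1 : ‖e‖ = 1 := Complex.norm_exp_ofReal_mul_I θ
  have he0 : e ≠ 0 := Complex.exp_ne_zero _
  have hang : (θ : Real.Angle) = Complex.arg e := by
    have := arg_polar one_pos θ
    rw [Complex.ofReal_one, one_mul] at this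
    exact this.symm
  let G : ℂ × ℂ → ℂ := fun z => z.2 ^ 15 + LA b v k z
  have hG0 : w ^ 15 + LA b v k (e, w) = 0 := by
    rw [LA_congr hper he0 hang, he1, Real.one_rpow, Real.one_rpow]
    simp [h0]
  obtain ⟨T, hT, hI, hC⟩ := hA.smooth
  have hm : (((0 : ℝ), (e, w)) : ℝ × (ℂ × ℂ)) ∈ T ×ˢ {q : ℂ × ℂ | q.1 ≠ 0} :=
    ⟨hI ⟨le_rfl, zero_le_one⟩, he0⟩
  have hd : DifferentiableAt ℝ (fun q : ℝ × (ℂ × ℂ) => LA b v k q.2) (0, (e, w)) :=
    (hC.contDiffAt ((hT.prod isOpen_S).mem_nhds hm)).differentiableAt (by norm_num)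
  have hLd : DifferentiableAt ℝ (LA b v k) (e, w) := by
    have h1 : DifferentiableAt ℝ (fun z : ℂ × ℂ => (((0 : ℝ), z) : ℝ × (ℂ × ℂ))) (e, w) := by
      fun_prop
    exact DifferentiableAt.comp (e, w) (g := fun q : ℝ × (ℂ × ℂ) => LA b v k q.2) hd h1
  obtain ⟨Y, hY⟩ := hA.reg 0 ⟨le_rfl, zero_le_one⟩ e w he0 hG0 c
  rw [slice hd] at hY
  have h2 : HasFDerivAt (fun z : ℂ × ℂ => z.2) (ContinuousLinearMap.snd ℝ ℂ ℂ) (e, w) :=
    hasFDerivAt_snd
  have hGd := (h2.pow 15).add hLd.hasFDerivAt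
  have hGY : fderiv ℝ G (e, w) Y = c := by
    show fderiv ℝ ((fun z : ℂ × ℂ => z.2 ^ 15) + LA b v k) (e, w) Y = _
    have h3 : fderiv ℝ ((fun z : ℂ × ℂ => z.2 ^ 15) + LA b v k) (e, w) = _ := hGd.fderiv
    rw [h3, ← hY]
    simp
  have hGd' : HasFDerivAt G (fderiv ℝ G (e, w)) (e, w) := by
    have : DifferentiableAt ℝ G (e, w) := hGd.differentiableAt
    exact this.hasFDerivAt
  -- decomposition of the direction
  set α : ℂ := Y.1 / e with hα
  set s : ℝ := α.re / a with hs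
  set τ : ℝ := α.im with hτ
  set η : ℂ := Y.2 - s * w with hη
  let γ : ℝ → ℂ × ℂ := fun ε =>
    (Complex.exp ((a * s * ε : ℝ) : ℂ) * Complex.exp (((θ + ε * τ : ℝ) : ℂ) * Complex.I),
      Complex.exp ((s * ε : ℝ) : ℂ) * (w + ε * η))
  have hγ0 : γ 0 = (e, w) := by simp [γ, he]
  have hγd : HasDerivAt γ Y 0 := by
    have h1 : HasDerivAt (fun ε : ℝ => Complex.exp ((a * s * ε : ℝ) : ℂ)) ((a * s : ℝ) : ℂ) 0 := by
      have h4 : HasDerivAt (fun ε : ℝ => ((a * s * ε : ℝ) : ℂ)) ((a * s : ℝ) : ℂ) 0 := by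
        have := ((hasDerivAt_id (0 : ℝ)).const_mul (a * s)).ofReal_comp
        simpa using this
      have := h4.cexp
      simpa using this
    have h3 : HasDerivAt (fun ε : ℝ => Complex.exp (((θ + ε * τ : ℝ) : ℂ) * Complex.I))
        (e * ((τ : ℂ) * Complex.I)) 0 := by
      have h4 : HasDerivAt (fun ε : ℝ => ((θ + ε * τ : ℝ) : ℂ)) (τ : ℂ) 0 := by
        have := (((hasDerivAt_id (0 : ℝ)).mul_const τ).const_add θ).ofReal_comp
        simpa using this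
      have := (h4.mul_const Complex.I).cexp
      simpa [he] using this
    have h5 : HasDerivAt (fun ε : ℝ => Complex.exp ((s * ε : ℝ) : ℂ)) (s : ℂ) 0 := by
      have h4 : HasDerivAt (fun ε : ℝ => ((s * ε : ℝ) : ℂ)) (s : ℂ) 0 := by
        have := ((hasDerivAt_id (0 : ℝ)).const_mul s).ofReal_comp
        simpa using this
      have := h4.cexp
      simpa using this
    have h6 : HasDerivAt (fun ε : ℝ => w + (ε : ℂ) * η) η 0 := by
      have h4 : HasDerivAt (fun ε : ℝ => (ε : ℂ)) 1 0 := by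
        simpa using (hasDerivAt_id (0 : ℝ)).ofReal_comp
      simpa using (h4.mul_const η).const_add w
    have h7 : HasDerivAt γ _ 0 := (h1.mul h3).prodMk (h5.mul h6)
    refine h7.congr_deriv (Prod.ext ?_ ?_)
    · simp only [mul_zero, Complex.ofReal_zero, Complex.exp_zero, one_mul, zero_mul, add_zero]
      rw [← he]
      have h8 : Y.1 = α * e := by rw [hα, div_mul_cancel₀ _ he0]
      rw [h8]
      have h9 : ((a * s : ℝ) : ℂ) = (α.re : ℂ) := by rw [hs, mul_div_cancel₀ _ ha.ne']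
      rw [h9]
      conv_rhs => rw [← Complex.re_add_im α]
      ring
    · simp only [mul_zero, Complex.ofReal_zero, Complex.exp_zero, one_mul, zero_mul, add_zero]
      rw [hη]
      ring
  have hcomp : HasDerivAt (fun ε => G (γ ε)) c 0 := by
    have h1 : HasFDerivAt G (fderiv ℝ G (e, w)) (γ 0) := by rw [hγ0]; exact hGd'
    have := h1.comp_hasDerivAt 0 hγd
    rw [hGY] at this
    exact this
  have hk1 : HasFDerivAt k (fderiv ℝ k (θ, w)) (θ, w) := (hk _).hasFDerivAt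
  have hδ : HasDerivAt (fun ε : ℝ => ((θ + ε * τ, w + ε * η) : ℝ × ℂ)) (τ, η) 0 := by
    have h1 : HasDerivAt (fun ε : ℝ => θ + ε * τ) τ 0 := by
      simpa using ((hasDerivAt_id (0 : ℝ)).mul_const τ).const_add θ
    have h6 : HasDerivAt (fun ε : ℝ => w + (ε : ℂ) * η) η 0 := by
      have h4 : HasDerivAt (fun ε : ℝ => (ε : ℂ)) 1 0 := by
        simpa using (hasDerivAt_id (0 : ℝ)).ofReal_comp
      simpa using (h4.mul_const η).const_add w
    exact h1.prodMk h6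
  have hcomp' : HasDerivAt (fun ε : ℝ => Complex.exp ((15 * s * ε : ℝ) : ℂ) *
      k (θ + ε * τ, w + ε * η)) (fderiv ℝ k (θ, w) (τ, η)) 0 := by
    have h1 : HasFDerivAt k (fderiv ℝ k (θ, w))
        ((fun ε : ℝ => ((θ + ε * τ, w + ε * η) : ℝ × ℂ)) 0) := by
      simpa using hk1
    have h3 := h1.comp_hasDerivAt 0 hδ
    have h4 : HasDerivAt (fun ε : ℝ => Complex.exp ((15 * s * ε : ℝ) : ℂ)) ((15 * s : ℝ) : ℂ) 0 := by
      have h5 : HasDerivAt (fun ε : ℝ => ((15 * s * ε : ℝ) : ℂ)) ((15 * s : ℝ) : ℂ) 0 := by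
        have := ((hasDerivAt_id (0 : ℝ)).const_mul (15 * s)).ofReal_comp
        simpa using this
      have := h5.cexp
      simpa using this
    have h5 := h4.mul h3
    refine h5.congr_deriv ?_
    have h6 : k (θ + (0 : ℝ) * τ, w + ((0 : ℝ) : ℂ) * η) = 0 := by simpa using h0
    rw [Function.comp_apply, h6]
    simp
  have heq : (fun ε => G (γ ε)) = fun ε : ℝ => Complex.exp ((15 * s * ε : ℝ) : ℂ) *
      k (θ + ε * τ, w + ε * η) := by
    funext ε
    set ρ : ℝ := Real.exp (a * s * ε) with hρ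
    have hρp : 0 < ρ := Real.exp_pos _
    have hu : (Complex.exp ((a * s * ε : ℝ) : ℂ) *
        Complex.exp (((θ + ε * τ : ℝ) : ℂ) * Complex.I)) =
        (ρ : ℂ) * Complex.exp (((θ + ε * τ : ℝ) : ℂ) * Complex.I) := by
      rw [hρ, Complex.ofReal_exp]
    have hne : (ρ : ℂ) * Complex.exp (((θ + ε * τ : ℝ) : ℂ) * Complex.I) ≠ 0 :=
      mul_ne_zero (by exact_mod_cast hρp.ne') (Complex.exp_ne_zero _)
    have hnn : ‖(ρ : ℂ) * Complex.exp (((θ + ε * τ : ℝ) : ℂ) * Complex.I)‖ = ρ := by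
      rw [norm_mul, Complex.norm_exp_ofReal_mul_I, mul_one, Complex.norm_real,
        Real.norm_of_nonneg hρp.le]
    have h1 := LA_congr (b := b) (v := v) (w := Complex.exp ((s * ε : ℝ) : ℂ) * (w + ε * η)) hper hne
      (arg_polar hρp (θ + ε * τ)).symm
    show (Complex.exp ((s * ε : ℝ) : ℂ) * (w + ε * η)) ^ 15 + LA b v k (γ ε) = _
    have h3 : γ ε = ((ρ : ℂ) * Complex.exp (((θ + ε * τ : ℝ) : ℂ) * Complex.I),
        Complex.exp ((s * ε : ℝ) : ℂ) * (w + ε * η)) := Prod.ext hu rfl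
    rw [h3, h1, hnn, ← ha_def]
    have h4 : ρ ^ (15 / a) = Real.exp (15 * s * ε) := by
      rw [hρ, ← Real.exp_mul]
      congr 1
      field_simp
    have h5 : ((ρ ^ (-(1 / a)) : ℝ) : ℂ) * (Complex.exp ((s * ε : ℝ) : ℂ) * (w + ε * η)) =
        w + ε * η := by
      rw [← mul_assoc, ← Complex.ofReal_exp, ← Complex.ofReal_mul]
      have : ρ ^ (-(1 / a)) * Real.exp (s * ε) = 1 := by
        rw [hρ, ← Real.exp_mul, ← Real.exp_add]
        have : a * s * ε * -(1 / a) + s * ε = 0 := by field_simp; ring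
        rw [this, Real.exp_zero]
      rw [this, Complex.ofReal_one, one_mul]
    rw [h4, h5, Complex.ofReal_exp]
  rw [heq] at hcomp
  exact ⟨(τ, η), hcomp'.unique hcomp⟩

/-- the restriction of `w^15 + A` to `|v| = 1`. -/
def kA (A : ℂ × ℂ → ℂ) (q : ℝ × ℂ) : ℂ := q.2 ^ 15 + A (Complex.exp (q.1 * Complex.I), q.2)

theorem arm_smooth {A : ℂ × ℂ → ℂ} (hA : Arm b v A) : ContDiffOn ℝ 2 A {q | q.1 ≠ 0} := by
  obtain ⟨T, hT, hI, hC⟩ := hA.smooth
  have h1 : ContDiffOn ℝ 2 (fun q : ℂ × ℂ => (((0 : ℝ), q) : ℝ × (ℂ × ℂ))) {q | q.1 ≠ 0} := by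
    fun_prop
  exact hC.comp h1 fun q hq => ⟨hI ⟨le_rfl, zero_le_one⟩, hq⟩

theorem kA_smooth {A : ℂ × ℂ → ℂ} (hA : Arm b v A) : ContDiff ℝ 2 (kA A) := by
  have h1 : ContDiff ℝ 2 fun q : ℝ × ℂ => ((Complex.exp (q.1 * Complex.I), q.2) : ℂ × ℂ) := by
    have h2 : ContDiff ℝ 2 fun q : ℝ × ℂ => ((q.1 : ℂ) * Complex.I) :=
      (Complex.ofRealCLM.contDiff.comp contDiff_fst).mul contDiff_const
    exact h2.cexp.prodMk contDiff_snd
  unfold kA
  refine (contDiff_snd.pow 15).add ?_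
  rw [← contDiffOn_univ]
  exact (arm_smooth hA).comp h1.contDiffOn fun q _ => Complex.exp_ne_zero _

theorem kA_per (A : ℂ × ℂ → ℂ) (θ : ℝ) (w : ℂ) : kA A (θ + 2 * π, w) = kA A (θ, w) := by
  unfold kA
  have : Complex.exp (((θ + 2 * π : ℝ) : ℂ) * Complex.I) = Complex.exp ((θ : ℂ) * Complex.I) := by
    push_cast
    rw [add_mul, Complex.exp_add, Complex.exp_two_pi_mul_I, mul_one]
  simp only [this]

theorem kA_out {A : ℂ × ℂ → ℂ} (hA : Arm b v A) :
    ∃ W : ℝ, ∀ θ w, W ≤ ‖w‖ → kA A (θ, w) = w ^ 15 := by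
  obtain ⟨W, hW, h⟩ := hA.supp
  refine ⟨max W 1, fun θ w hw => ?_⟩
  have h1 : 1 ≤ ‖w‖ := (le_max_right _ _).trans hw
  have h2 : W ≤ ‖w‖ := (le_max_left _ _).trans hw
  have ha : aw b v ≠ 0 := by
    have := aw_pos b v
    intro h0
    rw [h0] at this
    simp at this
  have h3 : A (Complex.exp (θ * Complex.I), w) = 0 := by
    refine h 0 _ _ ?_
    rw [Complex.norm_exp_ofReal_mul_I, mul_one]
    exact h2.trans (le_self_pow₀ h1 ha)
  unfold kA
  simp only [h3, add_zero]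

/-- every arm is `LA b v` of its restriction to `|v| = 1`. -/
theorem arm_eq_LA {A : ℂ × ℂ → ℂ} (hA : Arm b v A) : A = LA b v (kA A) := by
  funext z
  obtain ⟨u, w⟩ := z
  unfold LA kA
  by_cases hu : u = 0
  · simp only [hu, if_true]
    exact hA.zero 0 w
  · simp only [hu, if_false]
    have ha := aw_pos b v
    set a : ℝ := (aw b v : ℝ) with ha_def
    have hun : 0 < ‖u‖ := norm_pos_iff.2 hu
    set l : ℝ := ‖u‖ ^ (1 / a) with hl
    have hlp : 0 < l := Real.rpow_pos_of_pos hun _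
    have hli : ‖u‖ ^ (-(1 / a)) = l⁻¹ := by rw [hl, Real.rpow_neg hun.le]
    have hla : (l : ℂ) ^ aw b v = (‖u‖ : ℂ) := by
      have : l ^ aw b v = ‖u‖ := by
        rw [hl, ← Real.rpow_natCast, ← ha_def, ← Real.rpow_mul hun.le, one_div_mul_cancel ha.ne',
          Real.rpow_one]
      exact_mod_cast this
    have hl15 : ‖u‖ ^ (15 / a) = l ^ 15 := by
      rw [hl, ← Real.rpow_natCast, ← Real.rpow_mul hun.le]
      congr 1
      push_cast
      ring
    have hlc : (l : ℂ) ≠ 0 := by exact_mod_cast hlp.ne'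
    have h1 := hA.hom 0 ⟨le_rfl, zero_le_one⟩ l (Complex.exp (Complex.arg u * Complex.I))
      ((l : ℂ)⁻¹ * w) hlp
    simp only at h1
    rw [hla, Complex.norm_mul_exp_arg_mul_I, mul_inv_cancel_left₀ hlc] at h1
    rw [hl15, hli, h1]
    push_cast
    field_simp
    ring

/-- straight line between two functions which differ only where the line has no zero. -/
theorem LA_line {k0 k1 : ℝ × ℂ → ℂ} (h0 : ContDiff ℝ 2 k0) (h1 : ContDiff ℝ 2 k1)
    (per0 : ∀ θ w, k0 (θ + 2 * π, w) = k0 (θ, w)) (per1 : ∀ θ w, k1 (θ + 2 * π, w) = k1 (θ, w))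
    (out0 : ∃ W : ℝ, ∀ θ w, W ≤ ‖w‖ → k0 (θ, w) = w ^ 15)
    (out1 : ∃ W : ℝ, ∀ θ w, W ≤ ‖w‖ → k1 (θ, w) = w ^ 15)
    (reg0 : ∀ p, k0 p = 0 → ∀ c, ∃ y, fderiv ℝ k0 p y = c) {U : Set (ℝ × ℂ)} (hU : IsOpen U)
    (heq : ∀ p ∈ U, k1 p = k0 p)
    (hne : ∀ p ∉ U, ∀ t ∈ Icc (0 : ℝ) 1, ((1 - t : ℝ) : ℂ) * k0 p + ((t : ℝ) : ℂ) * k1 p ≠ 0) :
    AStep b v (LA b v k0) (LA b v k1) := by
  let k : ℝ → ℝ × ℂ → ℂ := fun t p => ((1 - t : ℝ) : ℂ) * k0 p + ((t : ℝ) : ℂ) * k1 p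
  have e0 : k 0 = k0 := by funext p; simp [k]
  have e1 : k 1 = k1 := by funext p; simp [k]
  have hs : ContDiff ℝ 2 fun q : ℝ × (ℝ × ℂ) => k q.1 q.2 := by
    have ht : ContDiff ℝ 2 fun q : ℝ × (ℝ × ℂ) => ((q.1 : ℝ) : ℂ) :=
      Complex.ofRealCLM.contDiff.comp contDiff_fst
    have ht' : ContDiff ℝ 2 fun q : ℝ × (ℝ × ℂ) => ((1 - q.1 : ℝ) : ℂ) :=
      Complex.ofRealCLM.contDiff.comp (contDiff_const.sub contDiff_fst)
    exact (ht'.mul (h0.comp contDiff_snd)).add (ht.mul (h1.comp contDiff_snd))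
  have key := astep_LA (b := b) (v := v) (k := k) hs.contDiffOn
    (fun t _ θ w => by simp only [k, per0, per1])
    (by
      obtain ⟨W0, hW0⟩ := out0
      obtain ⟨W1, hW1⟩ := out1
      refine ⟨max W0 W1, fun t _ θ w hw => ?_⟩
      simp only [k]
      rw [hW0 θ w ((le_max_left _ _).trans hw), hW1 θ w ((le_max_right _ _).trans hw)]
      push_cast
      ring)
    (fun t ht p hp c => by
      by_cases hpU : p ∈ U
      · have he : k t =ᶠ[𝓝 p] k0 := by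
          filter_upwards [hU.mem_nhds hpU] with q hq
          simp only [k]
          rw [heq q hq]
          push_cast
          ring
        rw [he.fderiv_eq]
        exact reg0 p (by rw [← he.self_of_nhds]; exact hp) c
      · exact absurd hp (hne p hpU t ht))
  rw [e0, e1] at key
  exact key

/-! ### the entry -/

section entry

open Crest.Agent.R267.NCut_88

variable {ι : Type} [Fintype ι] [DecidableEq ι]

/-- sum of all terms. -/
def Fz (r : ℝ) (X J : ι → ℕ) (ψ : ι → ℝ → ℝ → ℝ) (q : ℝ × ℝ × ℝ) : ℂ :=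
  ∑ s, ((r ^ X s * q.2.1 ^ J s : ℝ) : ℂ) * cis (ψ s q.1 q.2.2)

/-- own term of `v`. -/
def Pz (r : ℝ) (X : ι → ℕ) (ψ : ι → ℝ → ℝ → ℝ) (l : ι) (θ : ℝ) : ℂ :=
  ((r ^ X l : ℝ) : ℂ) * cis (ψ l θ 0)

/-- the combinatorial data of the entry: `o` the own term of `w`, `l` the own term of `v`. -/
structure Dat (a : ℕ) (T : Finset (ℕ × ℕ)) (I J X : ι → ℕ) (o l : ι) : Prop where
  hT : T = (Finset.univ.erase o).image fun s => (I s, J s)
  inj : ∀ s t, s ≠ o → t ≠ o → (I s, J s) = (I t, J t) → s = t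
  Io : I o = 0
  Jo : J o = 15
  hX : ∀ s, X s = a * I s + J s - 15
  lo : l ≠ o
  Jl : J l = 0
  J1 : ∀ s, s ≠ l → 1 ≤ J s
  J14 : ∀ s, s ≠ o → J s ≤ 14

variable {a : ℕ} {T : Finset (ℕ × ℕ)} {I J X : ι → ℕ} {o l : ι} {ψ : ι → ℝ → ℝ → ℝ}

theorem cis_nat (n : ℕ) (x : ℝ) : cis (n * x) = Complex.exp (x * Complex.I) ^ n := by
  unfold cis
  rw [← Complex.exp_nat_mul]
  congr 1
  push_cast
  ring

theorem term_eq (hψ : ∀ s θ ω, ψ s θ ω = I s * θ + J s * ω) (r : ℝ) (s : ι) (θ : ℝ) (w : ℂ) :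
    ((r ^ X s * ‖w‖ ^ J s : ℝ) : ℂ) * cis (ψ s θ (Complex.arg w)) =
      (r : ℂ) ^ X s * (Complex.exp (θ * Complex.I) ^ I s * w ^ J s) := by
  have h1 : cis (ψ s θ (Complex.arg w)) =
      Complex.exp (θ * Complex.I) ^ I s * Complex.exp (Complex.arg w * Complex.I) ^ J s := by
    rw [hψ, ← cis_nat, ← cis_nat]
    unfold cis
    rw [← Complex.exp_add]
    congr 1
    push_cast
    ring
  have h2 : w ^ J s = (‖w‖ : ℂ) ^ J s * Complex.exp (Complex.arg w * Complex.I) ^ J s := by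
    rw [← mul_pow, Complex.norm_mul_exp_arg_mul_I]
  rw [h1, h2]
  push_cast
  ring

theorem Fz_eq (hD : Dat a T I J X o l) (hψ : ∀ s θ ω, ψ s θ ω = I s * θ + J s * ω) (r θ : ℝ)
    (w : ℂ) : Fz r X J ψ (θ, ‖w‖, Complex.arg w) =
      w ^ 15 + E T (cz a (fun _ => 1) r) (Complex.exp (θ * Complex.I)) w := by
  classical
  unfold Fz
  simp only
  rw [Finset.sum_congr rfl fun s _ => term_eq (X := X) hψ r s θ w,
    ← Finset.add_sum_erase Finset.univ _ (Finset.mem_univ o)]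
  congr 1
  · have : X o = 0 := by rw [hD.hX, hD.Io, hD.Jo]; simp
    rw [this, hD.Io, hD.Jo]
    simp
  · unfold E
    rw [hD.hT, Finset.sum_image (fun s hs t ht h => hD.inj s t (Finset.ne_of_mem_erase hs)
      (Finset.ne_of_mem_erase ht) h)]
    refine Finset.sum_congr rfl fun s _ => ?_
    unfold cz ex
    rw [hD.hX s]
    simp

theorem norm_term {r u : ℝ} (hr : 0 < r) (hu : 0 ≤ u) (x : ℝ) (m n : ℕ) :
    ‖((r ^ m * u ^ n : ℝ) : ℂ) * cis x‖ = r ^ m * u ^ n := by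
  rw [norm_mul, norm_cis, mul_one, Complex.norm_real, Real.norm_of_nonneg (by positivity)]

/-- bound for large `u`. -/
theorem high_bd (hD : Dat a T I J X o l) {r θ u ω : ℝ} (hr : 0 < r) (hr1 : r ≤ 1)
    (hu : (Fintype.card ι : ℝ) + 1 ≤ u) :
    ‖Fz r X J ψ (θ, u, ω) - ((u ^ 15 : ℝ) : ℂ) * cis (ψ o θ ω)‖ < u ^ 15 := by
  classical
  have hu1 : 1 ≤ u := by
    have : (0 : ℝ) ≤ Fintype.card ι := Nat.cast_nonneg _
    linarith
  have hXo : X o = 0 := by rw [hD.hX, hD.Io, hD.Jo]; simp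
  have h1 : Fz r X J ψ (θ, u, ω) - ((u ^ 15 : ℝ) : ℂ) * cis (ψ o θ ω) =
      ∑ s ∈ Finset.univ.erase o, ((r ^ X s * u ^ J s : ℝ) : ℂ) * cis (ψ s θ ω) := by
    unfold Fz
    simp only
    rw [← Finset.add_sum_erase Finset.univ _ (Finset.mem_univ o), hXo, hD.Jo, pow_zero, one_mul]
    ring
  rw [h1]
  calc _ ≤ ∑ s ∈ Finset.univ.erase o, ‖((r ^ X s * u ^ J s : ℝ) : ℂ) * cis (ψ s θ ω)‖ :=
        norm_sum_le _ _
    _ ≤ ∑ _s ∈ Finset.univ.erase o, u ^ 14 := by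
        refine Finset.sum_le_sum fun s hs => ?_
        rw [norm_term hr (by linarith)]
        have h2 : r ^ X s ≤ 1 := pow_le_one₀ hr.le hr1
        have h3 : u ^ J s ≤ u ^ 14 := pow_le_pow_right₀ hu1 (hD.J14 s (Finset.ne_of_mem_erase hs))
        calc r ^ X s * u ^ J s ≤ 1 * u ^ 14 :=
              mul_le_mul h2 h3 (by positivity) zero_le_one
          _ = _ := one_mul _
    _ = ((Finset.univ.erase o).card : ℝ) * u ^ 14 := by rw [Finset.sum_const, nsmul_eq_mul]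
    _ ≤ (Fintype.card ι : ℝ) * u ^ 14 := by
        refine mul_le_mul_of_nonneg_right ?_ (by positivity)
        exact_mod_cast Finset.card_le_univ _
    _ < u * u ^ 14 := mul_lt_mul_of_pos_right (by linarith) (by positivity)
    _ = u ^ 15 := by ring

/-- bound for small `u`. -/
theorem low_bd (hD : Dat a T I J X o l) (hψ : ∀ θ ω, ψ l θ ω = ψ l θ 0) {r θ u ω : ℝ}
    (hr : 0 < r) (hr1 : r ≤ 1) (hu0 : 0 ≤ u) (hu1 : u ≤ 1)
    (hu : u ≤ r ^ X l / (Fintype.card ι + 1)) :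
    ‖Fz r X J ψ (θ, u, ω) - Pz r X ψ l θ‖ < ‖Pz r X ψ l θ‖ := by
  classical
  have hn : (0 : ℝ) ≤ Fintype.card ι := Nat.cast_nonneg _
  have hP : ‖Pz r X ψ l θ‖ = r ^ X l := by
    unfold Pz
    rw [norm_mul, norm_cis, mul_one, Complex.norm_real, Real.norm_of_nonneg (by positivity)]
  have h1 : Fz r X J ψ (θ, u, ω) - Pz r X ψ l θ =
      ∑ s ∈ Finset.univ.erase l, ((r ^ X s * u ^ J s : ℝ) : ℂ) * cis (ψ s θ ω) := by
    unfold Fz Pz
    simp only
    rw [← Finset.add_sum_erase Finset.univ _ (Finset.mem_univ l), hD.Jl, pow_zero, mul_one, hψ θ ω]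
    ring
  rw [h1, hP]
  have hXl : 0 < r ^ X l := by positivity
  calc _ ≤ ∑ s ∈ Finset.univ.erase l, ‖((r ^ X s * u ^ J s : ℝ) : ℂ) * cis (ψ s θ ω)‖ :=
        norm_sum_le _ _
    _ ≤ ∑ _s ∈ Finset.univ.erase l, u := by
        refine Finset.sum_le_sum fun s hs => ?_
        rw [norm_term hr hu0]
        have h2 : r ^ X s ≤ 1 := pow_le_one₀ hr.le hr1
        have h3 : u ^ J s ≤ u := by
          have := pow_le_pow_of_le_one hu0 hu1 (hD.J1 s (Finset.ne_of_mem_erase hs))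
          simpa using this
        calc r ^ X s * u ^ J s ≤ 1 * u := mul_le_mul h2 h3 (by positivity) zero_le_one
          _ = _ := one_mul _
    _ = ((Finset.univ.erase l).card : ℝ) * u := by rw [Finset.sum_const, nsmul_eq_mul]
    _ ≤ (Fintype.card ι : ℝ) * u := by
        refine mul_le_mul_of_nonneg_right ?_ hu0
        exact_mod_cast Finset.card_le_univ _
    _ ≤ (Fintype.card ι : ℝ) * (r ^ X l / (Fintype.card ι + 1)) :=
        mul_le_mul_of_nonneg_left hu hn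
    _ < r ^ X l := by
        rw [← mul_div_assoc, div_lt_iff₀ (by positivity)]
        nlinarith

theorem contDiff_Fz (hψ : ∀ s, ContDiff ℝ 2 fun q : ℝ × ℝ => ψ s q.1 q.2) (r : ℝ) :
    ContDiff ℝ 2 (Fz r X J ψ) := by
  unfold Fz
  refine ContDiff.sum fun s _ => ?_
  have h1 : ContDiff ℝ 2 fun q : ℝ × ℝ × ℝ => ((r ^ X s * q.2.1 ^ J s : ℝ) : ℂ) := by
    have h3 : ContDiff ℝ 2 fun q : ℝ × ℝ × ℝ => r ^ X s * q.2.1 ^ J s :=
      contDiff_const.mul ((contDiff_fst.comp contDiff_snd).pow _)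
    exact Complex.ofRealCLM.contDiff.comp h3
  have h2 : ContDiff ℝ 2 fun q : ℝ × ℝ × ℝ => ψ s q.1 q.2.2 :=
    (hψ s).comp (contDiff_fst.prodMk (contDiff_snd.comp contDiff_snd))
  exact h1.mul (contDiff_cis.comp h2)

/-- smoothness of one cut function. -/
theorem cut_smooth1 (a b : ℝ) {F : ℝ × ℝ × ℝ → ℂ} {P : ℝ → ℂ} {Q : ℝ → ℝ → ℝ}
    (hF : ContDiff ℝ 2 F) (hP : ContDiff ℝ 2 P) (hQ : ContDiff ℝ 2 fun q : ℝ × ℝ => Q q.1 q.2) :
    ContDiffOn ℝ 2 (cut a b F P Q) {p | 0 < p.2.1} := by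
  have h1 := cut_smooth a b (I := Icc (0 : ℝ) 1) (F := fun _ => F) (P := fun _ => P)
    (Q := fun _ => Q) ((hF.comp contDiff_snd).contDiffOn) ((hP.comp contDiff_snd).contDiffOn)
    ((hQ.comp contDiff_snd).contDiffOn)
  have h2 : ContDiffOn ℝ 2 (fun p : ℝ × ℝ × ℝ => ((0 : ℝ), p)) {p | 0 < p.2.1} := by fun_prop
  have h3 := ContDiffOn.comp (g := fun q : ℝ × ℝ × ℝ × ℝ => cut a b F P Q q.2)
    (f := fun p : ℝ × ℝ × ℝ => ((0 : ℝ), p)) h1 h2 fun p hp => ⟨⟨le_rfl, zero_le_one⟩, hp⟩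
  exact h3

variable {b : Bool} {v : Fin 3}

/-- a cut function: `P` inside, `u^15 e^{15iω}` outside, `F` between. -/
structure CutF (ε B : ℝ) (F : ℝ × ℝ × ℝ → ℂ) (P : ℝ → ℂ) (K : ℝ × ℝ × ℝ → ℂ) : Prop where
  smooth : ContDiffOn ℝ 2 K {p | 0 < p.2.1}
  per1 : ∀ θ u ω, 0 < u → K (θ + 2 * π, u, ω) = K (θ, u, ω)
  per2 : ∀ θ u ω, 0 < u → K (θ, u, ω + 2 * π) = K (θ, u, ω)
  inner : ∀ θ u ω, 0 ≤ u → u ≤ ε / 2 → K (θ, u, ω) = P θ
  low : ∀ θ u ω, 0 ≤ u → u ≤ ε → ∃ κ : ℝ, 0 ≤ κ ∧ κ ≤ 1 ∧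
    K (θ, u, ω) = P θ + (κ : ℂ) * (F (θ, u, ω) - P θ)
  mid : ∀ θ u ω, ε < u → u < B → K (θ, u, ω) = F (θ, u, ω)
  high : ∀ θ u ω, ε ≤ u → ∃ κ : ℝ, 0 ≤ κ ∧ κ ≤ 1 ∧
    K (θ, u, ω) = ((u ^ 15 : ℝ) : ℂ) * cis (15 * ω) +
      (κ : ℂ) * (F (θ, u, ω) - ((u ^ 15 : ℝ) : ℂ) * cis (15 * ω))
  outer : ∀ θ u ω, 2 * B ≤ u → K (θ, u, ω) = ((u ^ 15 : ℝ) : ℂ) * cis (15 * ω)

/-- **the entry, general form**: the official arm is joined to every cut function of the sum of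
all terms. -/
theorem entry_gen (hD : Dat (aw b v) T I J X o l) (hd : ArmDat (aw b v) T (fun _ => 1))
    (hψ : ∀ s θ ω, ψ s θ ω = I s * θ + J s * ω) :
    ∃ r1 : ℝ, 0 < r1 ∧ ∃ W0 : ℝ, 1 ≤ W0 ∧ ∃ b0 : ℝ, 0 < b0 ∧ ∀ r, 0 < r → r ≤ r1 →
      ∃ a0 : ℝ, 0 < a0 ∧ a0 < b0 ∧ ∀ ε, 0 < ε → ε ≤ a0 → ∀ B ≥ b0, ∀ W ≥ W0, ∀ K,
        CutF ε B (Fz r X J ψ) (Pz r X ψ l) K →
        AStep b v (Ac (aw b v) T (fun _ => 1) W r) (PA b v K) := by
  classical
  obtain ⟨r1, hr1, W1, hW1, hArm⟩ := EntB_172.arm_Ac b v hd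
  set n : ℝ := (Fintype.card ι : ℝ) with hn
  have hn0 : 0 ≤ n := Nat.cast_nonneg _
  have haw : aw b v ≠ 0 := by
    have := aw_pos b v
    intro h0
    rw [h0] at this
    simp at this
  refine ⟨min r1 1, lt_min hr1 one_pos, max W1 ((n + 1) ^ aw b v), le_max_of_le_left hW1.le,
    n + 2, by linarith, fun r hr hrr => ?_⟩
  have hr1' : r ≤ 1 := hrr.trans (min_le_right _ _)
  have hXl : 0 < r ^ X l := pow_pos hr _
  refine ⟨min 1 (r ^ X l / (n + 1)), lt_min one_pos (by positivity),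
    (min_le_left _ _).trans_lt (by linarith), fun ε hε hεa B hB W hW K hKc => ?_⟩
  have hε1 : ε ≤ 1 := hεa.trans (min_le_left _ _)
  have hε2 : ε ≤ r ^ X l / (n + 1) := hεa.trans (min_le_right _ _)
  have hB0 : 0 < B := by linarith
  have hεB : ε ≤ B := by linarith
  have hA : Arm b v (Ac (aw b v) T (fun _ => 1) W r) :=
    hArm r hr (hrr.trans (min_le_left _ _)) W ((le_max_left _ _).trans hW)
  set A : ℂ × ℂ → ℂ := Ac (aw b v) T (fun _ => 1) W r with hAdef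
  have hψo : ∀ θ ω : ℝ, ψ o θ ω = 15 * ω := by
    intro θ ω; simp only [hψ, hD.Io, hD.Jo]; push_cast; ring
  have hψl : ∀ θ ω, ψ l θ ω = ψ l θ 0 := by
    intro θ ω; simp only [hψ, hD.Jl]; simp
  have hk1 : ContDiff ℝ 2 fun q : ℝ × ℂ => K (q.1, ‖q.2‖, Complex.arg q.2) := by
    refine polar_smooth hKc.smooth hKc.per2 ⟨ε / 2, half_pos hε, ?_⟩
    intro θ u ω hu0 hu
    rw [hKc.inner θ u ω hu0 hu, hKc.inner θ (ε / 2) 0 (half_pos hε).le le_rfl]
  -- the restriction of the official arm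
  have hkA : ∀ θ w, kA A (θ, w) = w ^ 15 + (ct (aw b v) W 1 w : ℂ) *
      E T (cz (aw b v) (fun _ => 1) r) (Complex.exp (θ * Complex.I)) w := by
    intro θ w
    unfold kA
    rw [hAdef]
    unfold Ac ct
    simp only [Complex.norm_exp_ofReal_mul_I, norm_one, Real.one_rpow, mul_one]
  have hct : ∀ w : ℂ, ‖w‖ ≤ n + 1 → ct (aw b v) W 1 w = 1 := by
    intro w hw
    unfold ct
    refine Real.smoothTransition.one_of_one_le ?_
    have hWp : 0 < W := by
      have : 1 ≤ W := (le_max_of_le_left hW1.le).trans hW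
      linarith
    have h1 : ‖w‖ ^ (2 * aw b v) ≤ W ^ 2 := by
      rw [mul_comm, pow_mul]
      refine pow_le_pow_left₀ (by positivity) ?_ 2
      exact (pow_le_pow_left₀ (norm_nonneg _) hw _).trans ((le_max_right _ _).trans hW)
    have h2 : ‖w‖ ^ (2 * aw b v) / (W ^ 2 * ‖(1 : ℂ)‖ ^ 2) ≤ 1 := by
      rw [norm_one, one_pow, mul_one]
      exact div_le_one_of_le₀ h1 (by positivity)
    linarith
  have hct01 : ∀ w : ℂ, 0 ≤ ct (aw b v) W 1 w ∧ ct (aw b v) W 1 w ≤ 1 := fun w =>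
    ⟨Real.smoothTransition.nonneg _, Real.smoothTransition.le_one _⟩
  have hE : ∀ (θ : ℝ) (w : ℂ), E T (cz (aw b v) (fun _ => 1) r) (Complex.exp (θ * Complex.I)) w =
      Fz r X J ψ (θ, ‖w‖, Complex.arg w) - w ^ 15 := by
    intro θ w
    rw [Fz_eq hD hψ r θ w]
    ring
  have hw15 : ∀ w : ℂ, ((‖w‖ ^ 15 : ℝ) : ℂ) * cis (15 * Complex.arg w) = w ^ 15 := by
    intro w
    have : cis (15 * Complex.arg w) = Complex.exp (Complex.arg w * Complex.I) ^ 15 := by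
      have := cis_nat 15 (Complex.arg w)
      push_cast at this
      exact this
    rw [this]
    have h2 : w ^ 15 = (‖w‖ : ℂ) ^ 15 * Complex.exp (Complex.arg w * Complex.I) ^ 15 := by
      rw [← mul_pow, Complex.norm_mul_exp_arg_mul_I]
    rw [h2]
    push_cast
    ring
  have heA := arm_eq_LA hA
  suffices hgoal : AStep b v (LA b v (kA A))
      (LA b v fun q : ℝ × ℂ => K (q.1, ‖q.2‖, Complex.arg q.2)) by
    rw [← heA] at hgoal
    exact hgoal
  have hA' : Arm b v (LA b v (kA A)) := by rw [← heA]; exact hA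
  refine LA_line (kA_smooth hA) hk1 (kA_per A) ?_ (kA_out hA) ?_
    (reg_of_arm ((kA_smooth hA).differentiable (by norm_num)) (kA_per A) hA')
    (U := {p : ℝ × ℂ | ε < ‖p.2‖ ∧ ‖p.2‖ < n + 1}) ?_ ?_ ?_
  · intro θ w
    show K (θ + 2 * π, ‖w‖, Complex.arg w) = K (θ, ‖w‖, Complex.arg w)
    by_cases hw : w = 0
    · have hn' : ‖w‖ ≤ ε / 2 := by rw [hw, norm_zero]; exact (half_pos hε).le
      rw [hKc.inner _ _ _ (norm_nonneg _) hn', hKc.inner _ _ _ (norm_nonneg _) hn']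
      have h1 := hKc.inner θ (ε / 2) 0 (half_pos hε).le le_rfl
      have h2 := hKc.inner (θ + 2 * π) (ε / 2) 0 (half_pos hε).le le_rfl
      rw [← h1, ← h2]
      exact hKc.per1 _ _ _ (half_pos hε)
    · exact hKc.per1 _ _ _ (norm_pos_iff.2 hw)
  · refine ⟨2 * B, fun θ w hw => ?_⟩
    show K (θ, ‖w‖, Complex.arg w) = w ^ 15
    rw [hKc.outer _ _ _ hw, hw15]
  · exact (isOpen_lt continuous_const continuous_snd.norm).inter
      (isOpen_lt continuous_snd.norm continuous_const)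
  · rintro ⟨θ, w⟩ ⟨h1, h2⟩
    have h1' : ε < ‖w‖ := h1
    have h2' : ‖w‖ < n + 1 := h2
    show K (θ, ‖w‖, Complex.arg w) = kA A (θ, w)
    rw [hkA, hct w h2'.le, hE, hKc.mid θ ‖w‖ (Complex.arg w) h1' (by linarith)]
    push_cast
    ring
  · rintro ⟨θ, w⟩ hp t ht h0
    have h0' : ((1 - t : ℝ) : ℂ) * kA A (θ, w) + ((t : ℝ) : ℂ) * K (θ, ‖w‖, Complex.arg w) = 0 := h0
    rcases le_or_gt ‖w‖ ε with h | h
    · -- inner zone
      have hlow := low_bd (u := ‖w‖) (θ := θ) (ω := Complex.arg w) hD hψl hr hr1' (norm_nonneg w)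
        (h.trans hε1) (h.trans hε2)
      obtain ⟨κ', hκ'0, hκ'1, hk⟩ := hKc.low θ ‖w‖ (Complex.arg w) (norm_nonneg w) h
      rw [hk, hkA, hct w (by linarith), hE] at h0'
      set F := Fz r X J ψ (θ, ‖w‖, Complex.arg w) with hF
      set P := Pz r X ψ l θ with hP
      set κ : ℝ := (1 - t) + t * κ' with hκ
      have hκ0 : 0 ≤ κ := by
        have := mul_nonneg ht.1 hκ'0
        linarith [ht.2]
      have hκ1 : κ ≤ 1 := by
        have := mul_le_mul_of_nonneg_left hκ'1 ht.1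
        linarith
      have h1 : P = -((κ : ℂ) * (F - P)) := by
        rw [hκ]
        push_cast
        push_cast at h0'
        linear_combination h0'
      have h2 : ‖P‖ ≤ ‖F - P‖ := by
        calc ‖P‖ = ‖-((κ : ℂ) * (F - P))‖ := congrArg _ h1
          _ = κ * ‖F - P‖ := by
            rw [norm_neg, norm_mul, Complex.norm_real, Real.norm_of_nonneg hκ0]
          _ ≤ 1 * ‖F - P‖ := mul_le_mul_of_nonneg_right hκ1 (norm_nonneg _)
          _ = _ := one_mul _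
      linarith
    · -- outer zone
      have h' : n + 1 ≤ ‖w‖ := by
        by_contra hcon
        exact hp ⟨h, not_le.1 hcon⟩
      have hhigh := high_bd (u := ‖w‖) (θ := θ) (ω := Complex.arg w) (ψ := ψ) hD hr hr1' h'
      rw [hψo, hw15] at hhigh
      obtain ⟨κ', hκ'0, hκ'1, hk⟩ := hKc.high θ ‖w‖ (Complex.arg w) h.le
      rw [hw15] at hk
      rw [hk, hkA, hE] at h0'
      set F := Fz r X J ψ (θ, ‖w‖, Complex.arg w) with hF
      set κ : ℝ := (1 - t) * ct (aw b v) W 1 w + t * κ' with hκ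
      have hκ0 : 0 ≤ κ := by
        have h1 := mul_nonneg (sub_nonneg.2 ht.2) (hct01 w).1
        have h2 := mul_nonneg ht.1 hκ'0
        linarith
      have hκ1 : κ ≤ 1 := by
        have h1 := mul_le_mul_of_nonneg_left (hct01 w).2 (sub_nonneg.2 ht.2)
        have h2 := mul_le_mul_of_nonneg_left hκ'1 ht.1
        nlinarith
      have h1 : w ^ 15 = -((κ : ℂ) * (F - w ^ 15)) := by
        rw [hκ]
        push_cast
        push_cast at h0'
        linear_combination h0'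
      have h2 : ‖w‖ ^ 15 ≤ ‖F - w ^ 15‖ := by
        calc ‖w‖ ^ 15 = ‖w ^ 15‖ := (norm_pow _ _).symm
          _ = ‖-((κ : ℂ) * (F - w ^ 15))‖ := congrArg _ h1
          _ = κ * ‖F - w ^ 15‖ := by
            rw [norm_neg, norm_mul, Complex.norm_real, Real.norm_of_nonneg hκ0]
          _ ≤ 1 * ‖F - w ^ 15‖ := mul_le_mul_of_nonneg_right hκ1 (norm_nonneg _)
          _ = _ := one_mul _
      linarith

theorem cutF_cut (hD : Dat a T I J X o l) (hψ : ∀ s θ ω, ψ s θ ω = I s * θ + J s * ω)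
    {ε B r : ℝ} (hε : 0 < ε) (hεB : ε ≤ B) :
    CutF ε B (Fz r X J ψ) (Pz r X ψ l) (cut ε B (Fz r X J ψ) (Pz r X ψ l) (ψ o)) := by
  have hB0 : 0 < B := hε.trans_le hεB
  have hψs : ∀ s, ContDiff ℝ 2 fun q : ℝ × ℝ => ψ s q.1 q.2 := by
    intro s
    simp only [hψ]
    fun_prop
  have hPs : ContDiff ℝ 2 (Pz r X ψ l) := by
    unfold Pz
    have : ContDiff ℝ 2 fun θ : ℝ => ψ l θ 0 :=
      (hψs l).comp (contDiff_id.prodMk contDiff_const)
    exact contDiff_const.mul (contDiff_cis.comp this)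
  have hFθ : ∀ θ u ω : ℝ, Fz r X J ψ (θ + 2 * π, u, ω) = Fz r X J ψ (θ, u, ω) := by
    intro θ u ω
    unfold Fz
    refine Finset.sum_congr rfl fun s _ => ?_
    have := cis_add_two_pi_mul (ψ s θ ω) (I s)
    simp only
    rw [← this]
    congr 2
    simp only [hψ]
    push_cast
    ring
  have hFω : ∀ θ u ω : ℝ, Fz r X J ψ (θ, u, ω + 2 * π) = Fz r X J ψ (θ, u, ω) := by
    intro θ u ω
    unfold Fz
    refine Finset.sum_congr rfl fun s _ => ?_
    have := cis_add_two_pi_mul (ψ s θ ω) (J s)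
    simp only
    rw [← this]
    congr 2
    simp only [hψ]
    push_cast
    ring
  have hPθ : ∀ θ : ℝ, Pz r X ψ l (θ + 2 * π) = Pz r X ψ l θ := by
    intro θ
    unfold Pz
    have := cis_add_two_pi_mul (ψ l θ 0) (I l)
    rw [← this]
    congr 2
    simp only [hψ]
    push_cast
    ring
  have hQθ : ∀ θ ω : ℝ, ψ o (θ + 2 * π) ω = ψ o θ ω := by
    intro θ ω; simp only [hψ, hD.Io]; simp
  have hQω : ∀ θ ω : ℝ, ψ o θ (ω + 2 * π) = ψ o θ ω + 15 * (2 * π) := by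
    intro θ ω; simp only [hψ, hD.Jo]; push_cast; ring
  have hψo : ∀ θ ω : ℝ, ψ o θ ω = 15 * ω := by
    intro θ ω; simp only [hψ, hD.Io, hD.Jo]; push_cast; ring
  refine ⟨cut_smooth1 ε B (contDiff_Fz hψs r) hPs (hψs o),
    fun θ u ω _ => cut_per_theta hFθ hPθ hQθ θ u ω, fun θ u ω _ => cut_per_omega hFω hQω θ u ω,
    fun θ u ω _ hu => cut_inner hε hεB (q := (θ, u, ω)) hu, fun θ u ω _ hu => ?_,
    fun θ u ω h1 h2 => cut_mid hε hB0 (q := (θ, u, ω)) h1.le h2.le, fun θ u ω hu => ?_,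
    fun θ u ω hu => cut_outer hε hεB (q := (θ, u, ω)) hu⟩
  · refine ⟨lo ε u, lo_nonneg _ _, lo_le_one _ _, ?_⟩
    rw [cut_low hB0 (q := (θ, u, ω)) (hu.trans hεB)]
    push_cast
    ring
  · refine ⟨1 - hi B u, sub_nonneg.2 (hi_le_one _ _), by linarith [hi_nonneg B u], ?_⟩
    rw [cut_high hε (q := (θ, u, ω)) hu]
    have : Qu B (ψ o) (θ, u, ω) = 15 * ω := by
      unfold Qu
      simp only [hψo]
      ring
    rw [this, hψo]
    ring

/-- **the entry of path A** in the form of `NCut_88.cut`. -/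
theorem entry (hD : Dat (aw b v) T I J X o l) (hd : ArmDat (aw b v) T (fun _ => 1))
    (hψ : ∀ s θ ω, ψ s θ ω = I s * θ + J s * ω) :
    ∃ r1 : ℝ, 0 < r1 ∧ ∃ W0 : ℝ, 1 ≤ W0 ∧ ∃ b0 : ℝ, 0 < b0 ∧ ∀ r, 0 < r → r ≤ r1 →
      ∃ a0 : ℝ, 0 < a0 ∧ ∀ ε, 0 < ε → ε ≤ a0 → ∀ B ≥ b0, ∀ W ≥ W0,
        AStep b v (Ac (aw b v) T (fun _ => 1) W r)
          (PA b v (cut ε B (Fz r X J ψ) (Pz r X ψ l) (ψ o))) := by
  obtain ⟨r1, hr1, W0, hW0, b0, hb0, H⟩ := entry_gen hD hd hψ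
  refine ⟨r1, hr1, W0, hW0, b0, hb0, fun r hr hrr => ?_⟩
  obtain ⟨a0, ha0, hab, K⟩ := H r hr hrr
  exact ⟨a0, ha0, fun ε hε hεa B hB W hW => K ε hε hεa B hB W hW _
    (cutF_cut hD hψ hε (by linarith))⟩

end entry

end Crest.Agent.R267.PlStart_484
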