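import Crest.Agent.R267.NSLift_966
import Crest.Agent.R267.PlStart_484

/-!
# Row 267, C1 (helper407): the entry in the letters of `NSDefs_966`, `NStep_88`

* `arm_congr` : the arm of a triple only sees `F` for `u > 0`;
* `entry_tri` : 484's entry ends in `((S.pathA (S.Mr a r) (Mvr a r)).tri 0).arm`.
-/

set_option autoImplicit false
set_option linter.unusedSectionVars false

noncomputable section

open Set
open scoped Real
open Crest.Agent.R267.NdR_484 Crest.Agent.R267.NdS_484 Crest.Agent.R267.NdY_484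
open Crest.Agent.R267.PolArm_484 Crest.Agent.R267.NSDefs_966 Crest.Agent.R267.NCut_88
open Crest.Agent.R267.NStep_88 Crest.Agent.R267.PlStart_484

namespace Crest.Agent.R267.NEnt_407

variable {m : ℕ} {b : Bool} {v : Fin 3}

theorem PA_congr {h h' : ℝ × ℝ × ℝ → ℂ} (H : ∀ θ u ω, 0 ≤ u → h (θ, u, ω) = h' (θ, u, ω)) :
    PA b v h = PA b v h' := by
  funext z
  unfold PA LA
  simp only
  rw [H _ _ _ (norm_nonneg _)]

theorem arm_congr {F F' : ℝ × ℝ × ℝ → ℂ} {P P' : ℝ → ℂ} {Q Q' : ℝ → ℝ → ℝ} {a c : ℝ} (ha : 0 < a)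
    (hac : a ≤ c) (hF : ∀ θ u ω, 0 < u → F (θ, u, ω) = F' (θ, u, ω)) (hP : ∀ θ, P θ = P' θ)
    (hQ : ∀ θ ω, Q θ ω = Q' θ ω) :
    PA b v (cut a c F P Q) = PA b v (cut a c F' P' Q') := by
  have hP' : P = P' := funext hP
  have hQ' : Q = Q' := funext fun θ => funext fun ω => hQ θ ω
  subst hP' hQ'
  refine PA_congr fun θ u ω _ => ?_
  rcases le_or_gt u (a / 2) with h | h
  · rw [cut_inner ha hac (q := (θ, u, ω)) h, cut_inner ha hac (q := (θ, u, ω)) h]
  · unfold cut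
    rw [hF θ u ω (by simpa using lt_of_le_of_lt (by positivity : (0 : ℝ) ≤ a / 2) h)]

/-- exponents of `r`. -/
def xN (S : NS m) (a : ℕ) (s : Fin (m + 2)) : ℕ := a * S.i s + S.j s - 15

/-- linear phases. -/
def lin (S : NS m) (s : Fin (m + 2)) (θ ω : ℝ) : ℝ := S.i s * θ + S.j s * ω

theorem exp_mul_log {u : ℝ} (hu : 0 < u) (j : ℕ) : Real.exp ((j : ℝ) * Real.log u) = u ^ j := by
  rw [← Real.log_pow, Real.exp_log (pow_pos hu _)]

theorem tri0_F (S : NS m) (hS : S.Ok) (a : ℕ) (r : ℝ) {θ u ω : ℝ} (hu : 0 < u) :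
    (S.pathA (S.Mr a r) (NS.Mvr a r)).F 0 (θ, u, ω) = Fz r (xN S a) S.j (lin S) (θ, u, ω) := by
  have hn : (S.n : ℝ) ≠ 0 := by
    have := hS.hn
    positivity
  have hpi : (2 * π : ℝ) ≠ 0 := by positivity
  unfold Fz
  rw [Fin.sum_univ_succ, Fin.sum_univ_castSucc]
  rw [NSLift_966.F_eq 0 hu]
  have e0 : (S.pathA (S.Mr a r) (NS.Mvr a r)).Qr 0 θ ω = lin S 0 θ ω := by
    unfold PD.Qr NS.pathA lin
    simp only [hS.i0, hS.j0]
    push_cast
    field_simp
    ring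
  have e1 : (S.pathA (S.Mr a r) (NS.Mvr a r)).P 0 θ =
      ((r ^ xN S a (Fin.last (m + 1)) : ℝ) : ℂ) * cis (lin S (Fin.last (m + 1)) θ ω) := by
    unfold PD.P
    rw [NSLift_966.e_eq]
    have h1 : NS.Mvr a r = r ^ xN S a (Fin.last (m + 1)) := by
      unfold NS.Mvr xN
      rw [hS.i1, hS.j1]
      congr 1
      omega
    have h2 : 2 * π * (S.pathA (S.Mr a r) (NS.Mvr a r)).p (0, (S.pathA (S.Mr a r) (NS.Mvr a r)).n *
        θ / (2 * π)) = lin S (Fin.last (m + 1)) θ ω := by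
      unfold NS.pathA lin
      simp only [hS.i1, hS.j1]
      push_cast
      field_simp
      ring
    rw [h2]
    show ((NS.Mvr a r : ℝ) : ℂ) * _ = _
    rw [h1]
  have e2 : (S.pathA (S.Mr a r) (NS.Mvr a r)).mid 0 ((S.pathA (S.Mr a r) (NS.Mvr a r)).n * θ /
      (2 * π), Real.log u, 15 * ω / (2 * π)) =
      ∑ s : Fin m, ((r ^ xN S a s.castSucc.succ * u ^ S.j s.castSucc.succ : ℝ) : ℂ) *
        cis (lin S s.castSucc.succ θ ω) := by
    unfold PD.mid
    refine Finset.sum_congr rfl fun s _ => ?_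
    have h2 : 2 * π * (S.pathA (S.Mr a r) (NS.Mvr a r)).ψ s (0,
        (S.pathA (S.Mr a r) (NS.Mvr a r)).n * θ / (2 * π), 15 * ω / (2 * π)) =
        lin S s.castSucc.succ θ ω := by
      unfold NS.pathA lin NS.ix
      simp only
      field_simp
      ring
    rw [NSLift_966.e_eq, h2]
    congr 2
    show S.Mr a r s * Real.exp ((S.j (NS.ix s) : ℝ) * Real.log u) = _
    rw [exp_mul_log hu]
    rfl
  rw [e0, e1, e2]
  have e3 : ((r ^ xN S a 0 * u ^ S.j 0 : ℝ) : ℂ) = ((u ^ 15 : ℝ) : ℂ) := by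
    have : xN S a 0 = 0 := by
      unfold xN
      rw [hS.i0, hS.j0]
      simp
    rw [this, hS.j0, pow_zero, one_mul]
  have e4 : ((r ^ xN S a (Fin.last (m + 1)) * u ^ S.j (Fin.last (m + 1)) : ℝ) : ℂ) =
      ((r ^ xN S a (Fin.last (m + 1)) : ℝ) : ℂ) := by
    rw [hS.j1, pow_zero, mul_one]
  simp only [Fin.succ_last]
  rw [e3, e4]
  ring

/-- **the entry**: from the official arm to the start of path A. -/
theorem entry_tri {S : NS m} (hS : S.Ok) {T : Finset (ℕ × ℕ)}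
    (hD : PlStart_484.Dat (aw b v) T S.i S.j (xN S (aw b v)) 0 (Fin.last (m + 1)))
    (hd : ArmDat (aw b v) T (fun _ => 1)) :
    ∃ r1 : ℝ, 0 < r1 ∧ ∃ W0 : ℝ, 1 ≤ W0 ∧ ∃ b0 : ℝ, 0 < b0 ∧ ∀ r, 0 < r → r ≤ r1 →
      ∃ a0 : ℝ, 0 < a0 ∧ ∀ a, 0 < a → a ≤ a0 → ∀ c ≥ b0, a ≤ c → ∀ W ≥ W0,
        AStep b v (Ac (aw b v) T (fun _ => 1) W r)
          (((S.pathA (S.Mr (aw b v) r) (NS.Mvr (aw b v) r)).tri 0).arm b v a c) := by
  obtain ⟨r1, hr1, W0, hW0, b0, hb0, H⟩ := PlStart_484.entry hD hd (ψ := lin S) fun _ _ _ => rfl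
  refine ⟨r1, hr1, W0, hW0, b0, hb0, fun r hr hrr => ?_⟩
  obtain ⟨a0, ha0, K⟩ := H r hr hrr
  refine ⟨a0, ha0, fun a ha haa c hc hac W hW => ?_⟩
  have := K a ha haa c hc W hW
  have e : PA b v (cut a c (Fz r (xN S (aw b v)) S.j (lin S))
      (Pz r (xN S (aw b v)) (lin S) (Fin.last (m + 1))) (lin S 0)) =
      ((S.pathA (S.Mr (aw b v) r) (NS.Mvr (aw b v) r)).tri 0).arm b v a c := by
    refine arm_congr ha hac (fun θ u ω hu => (tri0_F S hS _ r hu).symm) (fun θ => ?_)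
      fun θ ω => ?_
    · unfold Pz
      show _ = (S.pathA (S.Mr (aw b v) r) (NS.Mvr (aw b v) r)).P 0 θ
      unfold PD.P
      rw [NSLift_966.e_eq]
      have h1 : NS.Mvr (aw b v) r = r ^ xN S (aw b v) (Fin.last (m + 1)) := by
        unfold NS.Mvr xN
        rw [hS.i1, hS.j1]
        congr 1
        omega
      have hn : (S.n : ℝ) ≠ 0 := by
        have := hS.hn
        positivity
      have h2 : 2 * π * (S.pathA (S.Mr (aw b v) r) (NS.Mvr (aw b v) r)).p (0,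
          (S.pathA (S.Mr (aw b v) r) (NS.Mvr (aw b v) r)).n * θ / (2 * π)) =
          lin S (Fin.last (m + 1)) θ 0 := by
        unfold NS.pathA lin
        simp only [hS.i1, hS.j1]
        push_cast
        field_simp
        ring
      rw [h2]
      show _ = ((NS.Mvr (aw b v) r : ℝ) : ℂ) * _
      rw [h1]
    · show lin S 0 θ ω = (S.pathA (S.Mr (aw b v) r) (NS.Mvr (aw b v) r)).Qr 0 θ ω
      unfold PD.Qr NS.pathA lin
      simp only [hS.i0, hS.j0]
      push_cast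
      field_simp
      ring
  rw [← e]
  exact this

end Crest.Agent.R267.NEnt_407
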