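import Crest.Agent.R267.NAsmF_407
import Crest.Agent.R267.NSBridge_966
import Crest.Agent.R267.ArmExC_649
import Crest.Agent.R267.ArmExitF_502
import Crest.Agent.R267.NSArmM_780

/-!
# Row 267, C1 (helper407): exit of the planar arms

`bridge_fin` : from the truncation of `S.fin` (helper88) to the polar function (helper966);
`exitP_of` : `ExitP b D v` from the matching of the tables (helper780) and the two halves of the
exit (helper649, helper502).
-/

set_option autoImplicit false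
set_option linter.unusedSectionVars false

noncomputable section

open Set
open scoped Real
open Crest.Agent.R267.NdR_484 Crest.Agent.R267.NdS_484 Crest.Agent.R267.NdY_484
open Crest.Agent.R267.PolArm_484 Crest.Agent.R267.NSDefs_966
open Crest.Agent.R267.NStep_88 Crest.Agent.R267.NEnt_407 Crest.Agent.R267.NSArm_780
open Crest.Agent.R267.T3aNDefs_88 (SD)

namespace Crest.Agent.R267.NFin_407

variable {m : ℕ} {S : NS m}

/-- the end family of path C (constant in `t`). -/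
def fC (S : NS m) : PD (Option (Fin m)) := S.pathC (fun _ => 1) (fun _ => 1) (fun _ => 5) fun _ => 0

theorem fC_ok (hS : S.Ok) : (fC S).Ok :=
  NSOk_966.ok_C hS _ _ _ _ contDiff_const contDiff_const contDiff_const fun _ => one_pos

theorem fC_reg (hS : S.Ok) : (fC S).Reg :=
  NSRegC_855.regC m S hS _ _ _ _ (fun _ => one_pos) (fun _ => one_pos)
    (fun _ _ => ⟨by norm_num, le_rfl⟩) fun _ _ => Or.inl (by
      show 2 * √(1 : ℝ) < 5
      rw [Real.sqrt_one]; norm_num)

theorem fC_tri : (fC S).tri 0 = S.fin.tri 0 := NSSplice_966.tri_Cfin _ rfl rfl rfl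

theorem fC_mid (z : ℝ × ℝ × ℝ) : (fC S).mid 0 z = S.fin.mid 0 z := by
  unfold PD.mid
  rw [Fintype.sum_option]
  have e3 : ∑ σ : Fin m, (((fC S).c (some σ) (0, z.1, z.2.2) *
      Real.exp ((fC S).E (some σ) * z.2.1) : ℝ) : ℂ) *
      e ((fC S).ψ (some σ) (0, z.1, z.2.2)) = 0 := by
    refine Finset.sum_eq_zero fun σ _ => ?_
    show ((1 * 0 * S.fl (NS.ix σ) z.1 z.2.2 * Real.exp (S.j (NS.ix σ) * z.2.1) : ℝ) : ℂ) *
      e (1 / 2) = 0
    simp
  rw [e3, add_zero, Fintype.sum_unique]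
  rfl

theorem fC_h (a c : ℝ) : (fC S).h a c 0 = S.fin.h a c 0 := by
  funext z
  unfold PD.h
  rw [fC_mid]
  rfl

/-- **bridge**. -/
theorem bridge_fin (hS : S.Ok) : ∃ a0 : ℝ, 0 < a0 ∧ ∃ b0 : ℝ, ∀ a c : ℝ, 0 < a → a ≤ a0 →
    b0 ≤ c → a ≤ c → ∀ (b : Bool) (v : Fin 3),
      AStep b v ((S.fin.tri 0).arm b v a c) (PA b v (S.fin.h a c 0)) := by
  obtain ⟨a0, ha0, b0, H⟩ := NSBridge_966.bridge (fC_ok hS) (t0 := 0) ⟨le_rfl, zero_le_one⟩
    (fC_reg hS 0 ⟨le_rfl, zero_le_one⟩)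
  refine ⟨a0, ha0, b0, fun a c ha haa hc hac b v => ?_⟩
  have := H a c ha haa hc hac b v
  rwa [fC_tri, fC_h] at this

/-- the second half of the exit (helper502): from the literal words to the target. -/
def Exit3 (b : Bool) (D : SD 4) (v : Fin 3) : Prop :=
  ∃ u1 : ℝ, 0 < u1 ∧ ∃ W1 : ℝ, ∀ u0 W : ℝ, 0 < u0 → u0 ≤ u1 → W1 ≤ W →
    ∃ A : ℂ × ℂ → ℂ, AEq b v (PA b v (ArmExC_649.HE D v u0 W)) A ∧ HubDefs_284.Tgt b D v A

/-- **exit** from its parts. -/
theorem exitP_of {b : Bool} {D : SD 4} {v : Fin 3} (hD : ArmExC_649.DOk D)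
    (hM : ArmExC_649.Match (sn b v).S D v) (h3 : Exit3 b D v) : NAsm_407.ExitP b D v := by
  obtain ⟨a0, ha0, b0, H0⟩ := bridge_fin (sn_ok b v)
  obtain ⟨u1, hu1, W1, -, H1⟩ := ArmExC_649.exitA NSBridge_966.liftPD (sn_ok b v) hD hM b
  obtain ⟨u2, hu2, W2, H2⟩ := h3
  refine ⟨min a0 (min u1 u2), lt_min ha0 (lt_min hu1 hu2), max b0 (max W1 W2),
    fun a c ha haa hc hac => ?_⟩
  have s0 := H0 a c ha (haa.trans (min_le_left _ _)) ((le_max_left _ _).trans hc) hac b v
  have s1 := H1 a c ha (haa.trans ((min_le_right _ _).trans (min_le_left _ _)))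
    (((le_max_left _ _).trans (le_max_right _ _)).trans hc)
  obtain ⟨A, s2, hA⟩ := H2 a c ha (haa.trans ((min_le_right _ _).trans (min_le_right _ _)))
    (((le_max_right _ _).trans (le_max_right _ _)).trans hc)
  exact ⟨A, (s0.aeq.trans s1).trans s2, hA⟩

/-! ### the inputs -/

theorem co_cut {a c : ℝ} (h0 : 0 < a) (hac : a ≤ c) : ArmExitB_502.CO a c (ca a) (cb c) := by
  have w := NSBridge_966.wt_ca_cb h0 (h0.trans_le hac)
  exact ⟨h0, hac, NSBridge_966.contDiff_ca a, NSBridge_966.contDiff_cb c, w.α0, w.α1, w.αn, w.αl,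
    w.β0, w.β1, w.βn, w.βl⟩

theorem he_eq (D : SD 4) (v : Fin 3) (a c : ℝ) :
    (ArmExitE_502.XV D v).hE (ca a) (cb c) = ArmExC_649.HE D v a c := by
  funext z
  have h : (ArmExitE_502.XV D v).WW z.1 z.2.2 = ArmExC_649.WW D v z.1 z.2.2 := by
    unfold ArmExitB_502.XD.WW ArmExC_649.WW
    exact (Finset.sum_subtype (Finset.univ.filter fun e => (D.bx e).S = {v.castSucc, 3})
      (fun e => by simp) (fun e => HubDefs_284.ww D e v.castSucc z.1 *
        HubDefs_284.ww D e 3 z.2.2)).symm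
  unfold ArmExitB_502.XD.hE ArmExC_649.HE
  rw [h]
  rfl

theorem exit3 {D : SD 4} (hD : ArmExC_649.DOk D) (b : Bool) (v : Fin 3) : Exit3 b D v := by
  obtain ⟨u1, hu1, W1, hW1, H⟩ := ArmExitF_502.exit3 hD.hlo hD.hM3 hD.hs3 v
  refine ⟨min u1 1, lt_min hu1 one_pos, W1, fun a c ha haa hc => ?_⟩
  have := H a c (ca a) (cb c) (haa.trans (min_le_left _ _)) hc
    (co_cut ha ((haa.trans (min_le_right _ _)).trans (hW1.trans hc))) b
  rwa [he_eq] at this

theorem match_DL (b : Bool) (v : Fin 3) : ArmExC_649.Match (sn b v).S (NSArmM_780.DL b) v where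
  n := NSArmM_780.n_eq b v
  sg := fun i hi => NSArmM_780.sg_eq b v i hi
  kill := fun i l hi hl => by
    rw [NSArmM_780.kill_box b v i l hi hl]
    unfold ArmExC_649.Kl
    simp only [and_assoc]

theorem dok (b : Bool) : ArmExC_649.DOk (NSArmM_780.DL b) where
  hlo := fun e => by
    have H : ∀ x ∈ NSArmM_780.LL b, ∀ j ∈ (SFLDb_330.mkB x).S,
        (SFLDb_330.mkB x).lo j ≤ (SFLDb_330.mkB x).hi j := by
      cases b <;> decide +kernel
    exact NSArmM_780.all_iff b (P := fun B => ∀ j ∈ B.S, B.lo j ≤ B.hi j) H e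
  hM3 := by cases b <;> rfl
  hs3 := by
    cases b
    · exact fun _ => rfl
    · exact fun _ => rfl

/-- **exits of the six arms.** -/
theorem exitP (b : Bool) (v : Fin 3) : NAsm_407.ExitP b (NSArmM_780.DL b) v :=
  exitP_of (dok b) (match_DL b v) (exit3 (dok b) b v)

theorem exitP_f (v : Fin 3) : NAsm_407.ExitP true SFLDc_330.DfL v := exitP true v

theorem exitP_g (v : Fin 3) : NAsm_407.ExitP false SFLDc_330.DgL v := exitP false v

/-- **C1 for `f`.** -/
theorem arms_f : HubAsm_284.ArmsP true SFLDc_330.DfL := NAsmF_407.armsP true _ exitP_f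

/-- **C1 for `g`.** -/
theorem arms_g : HubAsm_284.ArmsP false SFLDc_330.DgL := NAsmF_407.armsP false _ exitP_g

end Crest.Agent.R267.NFin_407
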