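import Crest.Agent.R267.NCut_88
import Crest.Agent.R267.PolArm_484

/-!
# Planar arms: families of cut functions, circle isotopies (row 267, N2, helper527)

* `cut_astep` : a family `cut a b (F t) (P t) (Q t)` of regular functions gives an `AStep`;
* `iso_astep` : reparametrisation of the two circles by diffeomorphisms isotopic to the identity.
-/

set_option autoImplicit false

noncomputable section

open Set Filter Topology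
open scoped Real
open Crest.Agent.R267.NdR_484 Crest.Agent.R267.NdY_484 Crest.Agent.R267.PolArm_484
open Crest.Agent.R267.NCut_88

namespace Crest.Agent.R267.NIso_527

/-- **a family of cut functions.** -/
theorem cut_astep (bb : Bool) (v : Fin 3) {a b : ℝ} (ha : 0 < a) (hab : a ≤ b)
    {F : ℝ → ℝ × ℝ × ℝ → ℂ} {P : ℝ → ℝ → ℂ} {Q : ℝ → ℝ → ℝ → ℝ}
    (hF : ContDiffOn ℝ 2 (fun q : ℝ × ℝ × ℝ × ℝ => F q.1 q.2) (Icc (0 : ℝ) 1 ×ˢ {p | 0 < p.2.1}))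
    (hP : ContDiffOn ℝ 2 (fun q : ℝ × ℝ => P q.1 q.2) (Icc (0 : ℝ) 1 ×ˢ univ))
    (hQ : ContDiffOn ℝ 2 (fun q : ℝ × ℝ × ℝ => Q q.1 q.2.1 q.2.2) (Icc (0 : ℝ) 1 ×ˢ univ))
    (F1 : ∀ t ∈ Icc (0 : ℝ) 1, ∀ θ u ω : ℝ, F t (θ + 2 * π, u, ω) = F t (θ, u, ω))
    (F2 : ∀ t ∈ Icc (0 : ℝ) 1, ∀ θ u ω : ℝ, F t (θ, u, ω + 2 * π) = F t (θ, u, ω))
    (P1 : ∀ t ∈ Icc (0 : ℝ) 1, ∀ θ, P t (θ + 2 * π) = P t θ)
    (Q1 : ∀ t ∈ Icc (0 : ℝ) 1, ∀ θ ω, Q t (θ + 2 * π) ω = Q t θ ω)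
    (Q2 : ∀ t ∈ Icc (0 : ℝ) 1, ∀ θ ω, Q t θ (ω + 2 * π) = Q t θ ω + 15 * (2 * π))
    (hlow : ∀ t ∈ Icc (0 : ℝ) 1, ∀ θ u ω : ℝ, 0 < u → u ≤ a →
      ‖F t (θ, u, ω) - P t θ‖ < ‖P t θ‖)
    (hhigh : ∀ t ∈ Icc (0 : ℝ) 1, ∀ θ u ω : ℝ, b ≤ u →
      ‖F t (θ, u, ω) - ((u ^ 15 : ℝ) : ℂ) * cis (Q t θ ω)‖ < u ^ 15)
    (hreg : ∀ t ∈ Icc (0 : ℝ) 1, ∀ θ u ω : ℝ, 0 < u → F t (θ, u, ω) = 0 →
      ∀ c : ℂ, ∃ y : ℝ × ℝ × ℝ, fderiv ℝ (F t) (θ, u, ω) y = c) :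
    AStep bb v (PA bb v (cut a b (F 0) (P 0) (Q 0))) (PA bb v (cut a b (F 1) (P 1) (Q 1))) := by
  refine astep_PA (h := fun t => cut a b (F t) (P t) (Q t)) ?_ ?_ ?_ ?_ ?_ ?_
  · exact cut_smooth a b hF hP hQ
  · intro t ht θ u ω _
    exact cut_per_theta (F1 t ht) (P1 t ht) (Q1 t ht) θ u ω
  · intro t ht θ u ω _
    exact cut_per_omega (F2 t ht) (Q2 t ht) θ u ω
  · refine ⟨a / 2, by linarith, fun t _ θ u ω _ hu => ?_⟩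
    rw [cut_inner ha hab (q := (θ, u, ω)) hu, cut_inner ha hab (q := (θ, a / 2, 0)) le_rfl]
  · refine ⟨2 * b, fun t _ θ u ω hu => ?_⟩
    rw [cut_outer ha hab (q := (θ, u, ω)) hu, mul_pow]
    show ((u ^ 15 : ℝ) : ℂ) * cis (15 * ω) = _
    rw [cis, ← Complex.exp_nat_mul, Complex.ofReal_pow]
    congr 2
    push_cast
    ring
  · intro t ht θ u ω hu h0 c
    exact cut_reg ha hab (hlow t ht) (hhigh t ht) (hreg t ht) θ u ω hu h0 c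

/-- lifts of circle diffeomorphisms. -/
structure Dif (f : ℝ → ℝ) : Prop where
  cd : ContDiff ℝ 2 f
  per : ∀ x, f (x + 2 * π) = f x + 2 * π
  pos : ∀ x, 0 < deriv f x

/-- the straight line to the identity. -/
def ln (f : ℝ → ℝ) (t x : ℝ) : ℝ := (1 - t) * x + t * f x

lemma ln_zero (f : ℝ → ℝ) (x : ℝ) : ln f 0 x = x := by simp [ln]
lemma ln_one (f : ℝ → ℝ) (x : ℝ) : ln f 1 x = f x := by simp [ln]

lemma ln_per {f : ℝ → ℝ} (hf : Dif f) (t x : ℝ) : ln f t (x + 2 * π) = ln f t x + 2 * π := by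
  rw [ln, ln, hf.per]; ring

lemma contDiff_ln {f : ℝ → ℝ} (hf : Dif f) : ContDiff ℝ 2 fun q : ℝ × ℝ => ln f q.1 q.2 := by
  unfold ln
  have := hf.cd
  fun_prop

lemma hasDerivAt_ln {f : ℝ → ℝ} (hf : Dif f) (t x : ℝ) :
    HasDerivAt (ln f t) (1 - t + t * deriv f x) x := by
  have h1 : HasDerivAt f (deriv f x) x :=
    ((hf.cd.differentiable (by norm_num)) x).hasDerivAt
  have h2 := ((hasDerivAt_id x).const_mul (1 - t)).add (h1.const_mul t)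
  rw [mul_one] at h2
  exact h2

lemma ln_pos {f : ℝ → ℝ} (hf : Dif f) {t : ℝ} (ht : t ∈ Icc (0 : ℝ) 1) (x : ℝ) :
    0 < 1 - t + t * deriv f x := by
  rcases eq_or_lt_of_le ht.1 with h | h
  · rw [← h]; norm_num
  · have := mul_pos h (hf.pos x)
    linarith [ht.2]

/-- composition of a regular function with a reparametrisation. -/
lemma reg_comp {F : ℝ × ℝ × ℝ → ℂ} (hF : ContDiffOn ℝ 2 F {p | 0 < p.2.1}) {f g : ℝ → ℝ}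
    {f' g' : ℝ} {θ u ω : ℝ} (hu : 0 < u) (hf : HasDerivAt f f' θ) (hg : HasDerivAt g g' ω)
    (hf' : f' ≠ 0) (hg' : g' ≠ 0)
    (h : ∀ c : ℂ, ∃ y : ℝ × ℝ × ℝ, fderiv ℝ F (f θ, u, g ω) y = c) (c : ℂ) :
    ∃ y : ℝ × ℝ × ℝ, fderiv ℝ (fun p : ℝ × ℝ × ℝ => F (f p.1, p.2.1, g p.2.2)) (θ, u, ω) y = c := by
  have hd : DifferentiableAt ℝ F (f θ, u, g ω) := by
    have ho : IsOpen {p : ℝ × ℝ × ℝ | 0 < p.2.1} :=
      isOpen_lt continuous_const (continuous_fst.comp continuous_snd)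
    exact ((hF.differentiableOn (by norm_num)) _ (show 0 < (f θ, u, g ω).2.1 from hu)).differentiableAt
      (ho.mem_nhds hu)
  have h1 : HasFDerivAt (fun p : ℝ × ℝ × ℝ => f p.1)
      (f' • ContinuousLinearMap.fst ℝ ℝ (ℝ × ℝ)) (θ, u, ω) := by
    have h0 : HasFDerivAt (fun p : ℝ × ℝ × ℝ => p.1)
      (ContinuousLinearMap.fst ℝ ℝ (ℝ × ℝ)) (θ, u, ω) :=
      (ContinuousLinearMap.fst ℝ ℝ (ℝ × ℝ)).hasFDerivAt
    exact hf.comp_hasFDerivAt (f := fun p : ℝ × ℝ × ℝ => p.1) (θ, u, ω) h0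
  have h3 : HasFDerivAt (fun p : ℝ × ℝ × ℝ => g p.2.2)
      (g' • ((ContinuousLinearMap.snd ℝ ℝ ℝ).comp (ContinuousLinearMap.snd ℝ ℝ (ℝ × ℝ))))
      (θ, u, ω) := by
    have h0 : HasFDerivAt (fun p : ℝ × ℝ × ℝ => p.2.2)
      ((ContinuousLinearMap.snd ℝ ℝ ℝ).comp (ContinuousLinearMap.snd ℝ ℝ (ℝ × ℝ))) (θ, u, ω) :=
      ((ContinuousLinearMap.snd ℝ ℝ ℝ).comp
        (ContinuousLinearMap.snd ℝ ℝ (ℝ × ℝ))).hasFDerivAt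
    exact hg.comp_hasFDerivAt (f := fun p : ℝ × ℝ × ℝ => p.2.2) (θ, u, ω) h0
  have h2 : HasFDerivAt (fun p : ℝ × ℝ × ℝ => p.2.1)
      ((ContinuousLinearMap.fst ℝ ℝ ℝ).comp (ContinuousLinearMap.snd ℝ ℝ (ℝ × ℝ))) (θ, u, ω) :=
    ((ContinuousLinearMap.fst ℝ ℝ ℝ).comp
      (ContinuousLinearMap.snd ℝ ℝ (ℝ × ℝ))).hasFDerivAt
  have h4 := h1.prodMk (h2.prodMk h3)
  have h5 := (hd.hasFDerivAt).comp (θ, u, ω) h4
  obtain ⟨y, hy⟩ := h c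
  refine ⟨(y.1 / f', y.2.1, y.2.2 / g'), ?_⟩
  have h6 : fderiv ℝ (fun p : ℝ × ℝ × ℝ => F (f p.1, p.2.1, g p.2.2)) (θ, u, ω) = _ := h5.fderiv
  rw [h6, ← hy]
  show fderiv ℝ F (f θ, u, g ω) (f' • (y.1 / f'), y.2.1, g' • (y.2.2 / g')) = _
  congr 1
  rw [smul_eq_mul, smul_eq_mul, mul_div_cancel₀ _ hf', mul_div_cancel₀ _ hg']

/-- **circle isotopies**: `F (θ, u, ω)` is replaced by `F (f θ, u, g ω)`. -/
theorem iso_astep (bb : Bool) (v : Fin 3) {a b : ℝ} (ha : 0 < a) (hab : a ≤ b)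
    {F : ℝ × ℝ × ℝ → ℂ} {P : ℝ → ℂ} {Q : ℝ → ℝ → ℝ}
    (hF : ContDiffOn ℝ 2 F {p | 0 < p.2.1}) (hP : ContDiff ℝ 2 P)
    (hQ : ContDiff ℝ 2 fun q : ℝ × ℝ => Q q.1 q.2)
    (F1 : ∀ θ u ω : ℝ, F (θ + 2 * π, u, ω) = F (θ, u, ω))
    (F2 : ∀ θ u ω : ℝ, F (θ, u, ω + 2 * π) = F (θ, u, ω))
    (P1 : ∀ θ, P (θ + 2 * π) = P θ)
    (Q1 : ∀ θ ω, Q (θ + 2 * π) ω = Q θ ω)
    (Q2 : ∀ θ ω, Q θ (ω + 2 * π) = Q θ ω + 15 * (2 * π))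
    (hlow : ∀ θ u ω : ℝ, 0 < u → u ≤ a → ‖F (θ, u, ω) - P θ‖ < ‖P θ‖)
    (hhigh : ∀ θ u ω : ℝ, b ≤ u → ‖F (θ, u, ω) - ((u ^ 15 : ℝ) : ℂ) * cis (Q θ ω)‖ < u ^ 15)
    (hreg : ∀ θ u ω : ℝ, 0 < u → F (θ, u, ω) = 0 →
      ∀ c : ℂ, ∃ y : ℝ × ℝ × ℝ, fderiv ℝ F (θ, u, ω) y = c)
    {f g : ℝ → ℝ} (hf : Dif f) (hg : Dif g) :
    AStep bb v (PA bb v (cut a b F P Q))
      (PA bb v (cut a b (fun p => F (f p.1, p.2.1, g p.2.2)) (fun θ => P (f θ))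
        fun θ ω => Q (f θ) (g ω))) := by
  have key := cut_astep bb v ha hab (F := fun t p => F (ln f t p.1, p.2.1, ln g t p.2.2))
    (P := fun t θ => P (ln f t θ)) (Q := fun t θ ω => Q (ln f t θ) (ln g t ω))
    ?_ ?_ ?_ ?_ ?_ ?_ ?_ ?_ ?_ ?_ ?_
  · simpa only [ln_zero, ln_one] using key
  · have h1 : ContDiff ℝ 2 fun q : ℝ × ℝ × ℝ × ℝ => ln f q.1 q.2.1 :=
      (contDiff_ln hf).comp (f := fun q : ℝ × ℝ × ℝ × ℝ => (q.1, q.2.1)) (by fun_prop)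
    have h2 : ContDiff ℝ 2 fun q : ℝ × ℝ × ℝ × ℝ => ln g q.1 q.2.2.2 :=
      (contDiff_ln hg).comp (f := fun q : ℝ × ℝ × ℝ × ℝ => (q.1, q.2.2.2)) (by fun_prop)
    have h3 : ContDiff ℝ 2 fun q : ℝ × ℝ × ℝ × ℝ => q.2.2.1 := by fun_prop
    exact hF.comp (f := fun q : ℝ × ℝ × ℝ × ℝ => (ln f q.1 q.2.1, q.2.2.1, ln g q.1 q.2.2.2))
      (h1.prodMk (h3.prodMk h2)).contDiffOn fun q hq => hq.2
  · exact (hP.comp (contDiff_ln hf)).contDiffOn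
  · have h1 : ContDiff ℝ 2 fun q : ℝ × ℝ × ℝ => ln f q.1 q.2.1 :=
      (contDiff_ln hf).comp (f := fun q : ℝ × ℝ × ℝ => (q.1, q.2.1)) (by fun_prop)
    have h2 : ContDiff ℝ 2 fun q : ℝ × ℝ × ℝ => ln g q.1 q.2.2 :=
      (contDiff_ln hg).comp (f := fun q : ℝ × ℝ × ℝ => (q.1, q.2.2)) (by fun_prop)
    exact (hQ.comp (f := fun q : ℝ × ℝ × ℝ => (ln f q.1 q.2.1, ln g q.1 q.2.2))
      (h1.prodMk h2)).contDiffOn
  · intro t _ θ u ω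
    show F (ln f t (θ + 2 * π), u, ln g t ω) = _
    rw [ln_per hf, F1]
  · intro t _ θ u ω
    show F (ln f t θ, u, ln g t (ω + 2 * π)) = _
    rw [ln_per hg, F2]
  · intro t _ θ
    show P (ln f t (θ + 2 * π)) = _
    rw [ln_per hf, P1]
  · intro t _ θ ω
    show Q (ln f t (θ + 2 * π)) (ln g t ω) = _
    rw [ln_per hf, Q1]
  · intro t _ θ ω
    show Q (ln f t θ) (ln g t (ω + 2 * π)) = _
    rw [ln_per hg, Q2]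
  · intro t _ θ u ω hu hua
    exact hlow _ _ _ hu hua
  · intro t _ θ u ω hu
    exact hhigh _ _ _ hu
  · intro t ht θ u ω hu h0
    exact reg_comp hF hu (hasDerivAt_ln hf t θ) (hasDerivAt_ln hg t ω) (ln_pos hf ht θ).ne'
      (ln_pos hg ht ω).ne' (hreg _ _ _ hu h0)

end Crest.Agent.R267.NIso_527
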