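import Crest.Agent.R267.NSArm_780
import Crest.Agent.R267.PlStart_484
import Crest.Agent.R267.NdZ_484

/-!
# Row 267, N2: exponents of the six arms (helper780)

For `sn b v`, `pl b v : Dat (mm v)` (NSArm_780): convexity `NS.Cvx (aw b v)` (NSDefs_966), the
combinatorial data `PlStart_484.Dat` of 484's entry (monomials `TT b v` of the official arms =
`EntD_370.Tf`, `Tg`), and `Af`, `Ag` as `Ac`.
-/

set_option autoImplicit false

noncomputable section

namespace Crest.Agent.R267.NSArmT_780

open Finset
open Crest.Agent.R267.NSDefs_966 Crest.Agent.R267.NSArm_780 Crest.Agent.R267.NdR_484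
open Crest.Agent.R267.NdS_484

/-- monomials of the official arms -/
def TT (b : Bool) (v : Fin 3) : Finset (ℕ × ℕ) := (bif b then EntD_370.Tf else EntD_370.Tg) v

theorem sn_cvx (b : Bool) (v : Fin 3) : (sn b v).S.Cvx (aw b v) := by
  fin_cases v <;> cases b <;>
    exact ⟨by decide +kernel, by decide +kernel, by decide +kernel⟩

theorem pl_cvx (b : Bool) (v : Fin 3) : (pl b v).S.Cvx (aw b v) := by
  fin_cases v <;> cases b <;>
    exact ⟨by decide +kernel, by decide +kernel, by decide +kernel⟩

/-- the data of 484's entry -/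
theorem sn_dat (b : Bool) (v : Fin 3) : PlStart_484.Dat (aw b v) (TT b v) (sn b v).i (sn b v).j
    (fun s => aw b v * (sn b v).i s + (sn b v).j s - 15) 0 (Fin.last (mm v + 1)) := by
  fin_cases v <;> cases b <;>
    exact ⟨by decide +kernel, by decide +kernel, by decide +kernel, by decide +kernel,
      fun _ => rfl, by decide +kernel, by decide +kernel, by decide +kernel, by decide +kernel⟩

theorem pl_dat (b : Bool) (v : Fin 3) : PlStart_484.Dat (aw b v) (TT b v) (pl b v).i (pl b v).j
    (fun s => aw b v * (pl b v).i s + (pl b v).j s - 15) 0 (Fin.last (mm v + 1)) := by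
  have h := sn_dat b v
  rwa [(sn_ij b v).1, (sn_ij b v).2] at h

theorem tt_dat (b : Bool) (v : Fin 3) : ArmDat (aw b v) (TT b v) (fun _ => 1) := by
  cases b
  · exact EntD_370.datg v
  · exact EntD_370.datf v

theorem Af_eq (W r : ℝ) (v : Fin 3) :
    NdZ_484.Af W r v = Ac (aw true v) (TT true v) (fun _ => 1) W r := rfl

theorem Ag_eq (W r : ℝ) (v : Fin 3) :
    NdZ_484.Ag W r v = Ac (aw false v) (TT false v) (fun _ => 1) W r := rfl

/-- the official arms (`= Asm406_808.Ab b W r`) -/
theorem Ab_eq (b : Bool) (W r : ℝ) (v : Fin 3) :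
    (bif b then NdZ_484.Af W r else NdZ_484.Ag W r) v =
      Ac (aw b v) (TT b v) (fun _ => 1) W r := by
  cases b <;> rfl

end Crest.Agent.R267.NSArmT_780
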