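import Crest.Agent.R267.NSArmM_780
import Crest.Agent.R267.ArmExC_649
import Crest.Agent.R267.BoxLit_896

/-!
# Row 267, EXIT: `Match` and `DOk` of 649 for the literal data (helper780)
-/

set_option autoImplicit false

noncomputable section

namespace Crest.Agent.R267.NSArmX_780

open Crest.Agent.R267.NSArm_780 Crest.Agent.R267.NSArmM_780 Crest.Agent.R267.ArmExC_649
open Crest.Agent.R267.SFLDc_330

theorem match_DL (b : Bool) (v : Fin 3) : Match (sn b v).S (DL b) v where
  n := n_eq b v
  sg := fun i hi => sg_eq b v i hi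
  kill := fun i l hi hl => by
    rw [kill_box b v i l hi hl]
    exact exists_congr fun e => by rw [and_assoc]

theorem match_f (v : Fin 3) : Match (sn true v).S DfL v := match_DL true v

theorem match_g (v : Fin 3) : Match (sn false v).S DgL v := match_DL false v

theorem dok_f : DOk DfL := ⟨BoxLit_896.lo_fL, rfl, fun _ => neg_fL.2.2.2 _⟩

theorem dok_g : DOk DgL := ⟨BoxLit_896.lo_gL, rfl, fun _ => neg_gL.2.2.2 _⟩

end Crest.Agent.R267.NSArmX_780
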