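import Crest.Agent.R267.NSL_855
import Crest.Agent.R267.NCut_88
import Crest.Agent.R267.PolArm_484

/-!
# Row 267 (helper855): N2, homotopies of cut functions; class L

* `astep_cut`: a family `F t` (all terms, no cut-offs) with own parts `P t`, `Q t`, dominant for
  `u ≤ a` resp. `u ≥ b`, and with regular zeros, gives a homotopy of the arms
  `PA (NCut_88.cut a b (F t) (P t) (Q t))`.
* `pathL`: the same for families in class L (`NSL_855`).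
-/

set_option autoImplicit false
set_option linter.unusedSectionVars false

noncomputable section

open Set
open scoped Real
open Crest.Agent.R267.NCut_88 Crest.Agent.R267.NdY_484 Crest.Agent.R267.PolArm_484
open Crest.Agent.R267.NSL_855

namespace Crest.Agent.R267.NSC_855

theorem norm_u15 (u ω : ℝ) : ((u ^ 15 : ℝ) : ℂ) * NCut_88.cis (15 * ω) =
    ((u : ℂ) * Complex.exp (ω * Complex.I)) ^ 15 := by
  unfold NCut_88.cis
  rw [mul_pow, ← Complex.exp_nat_mul]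
  push_cast
  congr 2
  ring

/-- **homotopies of cut functions.** -/
theorem astep_cut {bb : Bool} {v : Fin 3} {F : ℝ → ℝ × ℝ × ℝ → ℂ} {P : ℝ → ℝ → ℂ}
    {Q : ℝ → ℝ → ℝ → ℝ} {a b : ℝ} (ha : 0 < a) (hab : a ≤ b)
    (hF : ContDiffOn ℝ 2 (fun q : ℝ × ℝ × ℝ × ℝ => F q.1 q.2) (Icc 0 1 ×ˢ {p | 0 < p.2.1}))
    (hP : ContDiffOn ℝ 2 (fun q : ℝ × ℝ => P q.1 q.2) (Icc 0 1 ×ˢ univ))
    (hQ : ContDiffOn ℝ 2 (fun q : ℝ × ℝ × ℝ => Q q.1 q.2.1 q.2.2) (Icc 0 1 ×ˢ univ))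
    (pF1 : ∀ t ∈ Icc (0 : ℝ) 1, ∀ θ u ω, F t (θ + 2 * π, u, ω) = F t (θ, u, ω))
    (pF2 : ∀ t ∈ Icc (0 : ℝ) 1, ∀ θ u ω, F t (θ, u, ω + 2 * π) = F t (θ, u, ω))
    (pP : ∀ t ∈ Icc (0 : ℝ) 1, ∀ θ, P t (θ + 2 * π) = P t θ)
    (pQ1 : ∀ t ∈ Icc (0 : ℝ) 1, ∀ θ ω, Q t (θ + 2 * π) ω = Q t θ ω)
    (pQ2 : ∀ t ∈ Icc (0 : ℝ) 1, ∀ θ ω, Q t θ (ω + 2 * π) = Q t θ ω + 15 * (2 * π))
    (hlow : ∀ t ∈ Icc (0 : ℝ) 1, ∀ θ u ω : ℝ, 0 < u → u ≤ a →
      ‖F t (θ, u, ω) - P t θ‖ < ‖P t θ‖)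
    (hhigh : ∀ t ∈ Icc (0 : ℝ) 1, ∀ θ u ω : ℝ, b ≤ u →
      ‖F t (θ, u, ω) - ((u ^ 15 : ℝ) : ℂ) * NCut_88.cis (Q t θ ω)‖ < u ^ 15)
    (hreg : ∀ t ∈ Icc (0 : ℝ) 1, ∀ θ u ω : ℝ, 0 < u → F t (θ, u, ω) = 0 →
      ∀ c : ℂ, ∃ y : ℝ × ℝ × ℝ, fderiv ℝ (F t) (θ, u, ω) y = c) :
    AStep bb v (PA bb v (cut a b (F 0) (P 0) (Q 0))) (PA bb v (cut a b (F 1) (P 1) (Q 1))) := by
  refine astep_PA (h := fun t => cut a b (F t) (P t) (Q t)) ?_ ?_ ?_ ?_ ?_ ?_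
  · exact cut_smooth a b hF hP hQ
  · intro t ht θ u ω _
    exact cut_per_theta (pF1 t ht) (pP t ht) (pQ1 t ht) θ u ω
  · intro t ht θ u ω _
    exact cut_per_omega (pF2 t ht) (pQ2 t ht) θ u ω
  · refine ⟨a / 2, by positivity, fun t ht θ u ω _ hu => ?_⟩
    rw [cut_inner ha hab (q := (θ, u, ω)) hu, cut_inner ha hab (q := (θ, a / 2, 0)) le_rfl]
  · refine ⟨2 * b, fun t ht θ u ω hu => ?_⟩
    rw [cut_outer ha hab (q := (θ, u, ω)) hu]
    exact norm_u15 u ω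
  · intro t ht θ u ω hu h0
    exact cut_reg ha hab (hlow t ht) (hhigh t ht) (hreg t ht) θ u ω hu h0

/-! ### class L -/

variable {ι : Type*} [Fintype ι]

/-- own part of `v`. -/
def pL (n : ℕ) (S : ℝ → ℝ) (A θ : ℝ) : ℂ := (A : ℂ) * ee (S (kk n * θ) + 1 / 2)

/-- own phase of `w`. -/
def qL (R : ℝ → ℝ) (_θ ω : ℝ) : ℝ := 2 * π * (R (kk 15 * ω) + 1 / 2)

/-- the cut function of class L. -/
def cutL (a b : ℝ) (n : ℕ) (S R : ℝ → ℝ) (A : ℝ) (c j : ι → ℝ) (w : ι → ℝ × ℝ → ℝ) :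
    ℝ × ℝ × ℝ → ℂ := cut a b (kL n S R A c j w) (pL n S A) (qL R)

/-- the static data of a family in class L. -/
structure FamL (n : ℕ) (S R : ℝ → ℝ) (j : ι → ℝ) (w : ι → ℝ × ℝ → ℝ) : Prop where
  hn : 0 < n
  hS : Stc S
  hR : Stc R
  pS : ∃ d : ℤ, ∀ x, S (x + n) = S x + d
  pR : ∀ y, R (y + 15) = R y + 15
  hw : ∀ r, Win S R (w r)
  pw1 : ∀ r x y, w r (x + n, y) = w r (x, y)
  pw2 : ∀ r x y, w r (x, y + 15) = w r (x, y)
  wle : ∀ r p, w r p ≤ 1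
  hj : ∀ r, 1 ≤ j r ∧ j r ≤ 14

theorem kk_add (n : ℕ) (θ : ℝ) : kk n * (θ + 2 * π) = kk n * θ + n := by
  rw [mul_add, kk_mul]

section

variable {n : ℕ} {S R : ℝ → ℝ} {j : ι → ℝ} {w : ι → ℝ × ℝ → ℝ} {A : ℝ → ℝ} {c : ℝ → ι → ℝ}

theorem kL_per1 (h : FamL n S R j w) (A : ℝ) (c : ι → ℝ) (θ u ω : ℝ) :
    kL n S R A c j w (θ + 2 * π, u, ω) = kL n S R A c j w (θ, u, ω) := by
  obtain ⟨d, hd⟩ := h.pS
  unfold kL dL
  simp only [kk_add, hd, h.pw1]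
  congr 3
  rw [show S (kk n * θ) + (d : ℝ) + 1 / 2 = S (kk n * θ) + 1 / 2 + (d : ℝ) by ring, ee_add_int]

theorem kL_per2 (h : FamL n S R j w) (A : ℝ) (c : ι → ℝ) (θ u ω : ℝ) :
    kL n S R A c j w (θ, u, ω + 2 * π) = kL n S R A c j w (θ, u, ω) := by
  unfold kL dL
  have e : ((15 : ℕ) : ℝ) = 15 := by norm_num
  simp only [kk_add, e, h.pR, h.pw2]
  congr 3
  have := ee_add_int (R (kk 15 * ω) + 1 / 2) 15
  push_cast at this
  rw [← this]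
  congr 1
  ring

theorem ContDiffOn_kL (h : FamL n S R j w) (hA : ContDiff ℝ 2 A)
    (hc : ∀ r, ContDiff ℝ 2 fun t => c t r) :
    ContDiffOn ℝ 2 (fun q : ℝ × ℝ × ℝ × ℝ => kL n S R (A q.1) (c q.1) j w q.2)
      (Icc 0 1 ×ˢ {p | 0 < p.2.1}) := by
  have hS2 : ContDiff ℝ 2 S := h.hS.smooth
  have hR2 : ContDiff ℝ 2 R := h.hR.smooth
  have hr : ∀ {f : ℝ × ℝ × ℝ × ℝ → ℝ} {s : Set (ℝ × ℝ × ℝ × ℝ)}, ContDiffOn ℝ 2 f s →
      ContDiffOn ℝ 2 (fun q => ((f q : ℝ) : ℂ)) s := fun {f s} hf =>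
    Complex.ofRealCLM.contDiff.comp_contDiffOn hf
  have hu : ContDiff ℝ 2 fun q : ℝ × ℝ × ℝ × ℝ => q.2.2.1 :=
    contDiff_fst.comp (contDiff_snd.comp contDiff_snd)
  have hA' : ContDiff ℝ 2 fun q : ℝ × ℝ × ℝ × ℝ => A q.1 := hA.comp contDiff_fst
  have h1 : ContDiff ℝ 2 fun q : ℝ × ℝ × ℝ × ℝ => ee (R (kk 15 * q.2.2.2) + 1 / 2) :=
    contDiff_ee.comp ((hR2.comp (by fun_prop)).add contDiff_const)
  have h2 : ContDiff ℝ 2 fun q : ℝ × ℝ × ℝ × ℝ => ee (S (kk n * q.2.1) + 1 / 2) :=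
    contDiff_ee.comp ((hS2.comp (by fun_prop)).add contDiff_const)
  unfold kL dL
  refine (((hr (hu.pow 15).contDiffOn).mul h1.contDiffOn).add
    ((hr hA'.contDiffOn).mul h2.contDiffOn)).sub (hr ?_)
  refine ContDiffOn.sum fun r _ => ?_
  have h3 : ContDiff ℝ 2 fun q : ℝ × ℝ × ℝ × ℝ => c q.1 r := (hc r).comp contDiff_fst
  have h4 : ContDiffOn ℝ 2 (fun q : ℝ × ℝ × ℝ × ℝ => q.2.2.1 ^ j r)
      (Icc 0 1 ×ˢ {p | 0 < p.2.1}) :=
    hu.contDiffOn.rpow_const_of_ne fun q hq => (show (0 : ℝ) < q.2.2.1 from hq.2).ne'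
  have h5 : ContDiff ℝ 2 fun q : ℝ × ℝ × ℝ × ℝ => w r (kk n * q.2.1, kk 15 * q.2.2.2) :=
    (h.hw r).smooth.comp (by fun_prop)
  exact (h3.contDiffOn.mul h4).mul h5.contDiffOn

/-- **homotopies in class L.** -/
theorem pathL {bb : Bool} {v : Fin 3} (h : FamL n S R j w) (hA : ContDiff ℝ 2 A)
    (hc : ∀ r, ContDiff ℝ 2 fun t => c t r) (hA0 : ∀ t ∈ Icc (0 : ℝ) 1, 0 < A t)
    (hc0 : ∀ t ∈ Icc (0 : ℝ) 1, ∀ r, 0 ≤ c t r)
    (hN : ∀ t ∈ Icc (0 : ℝ) 1, ∀ x y, deriv S x ≠ 0 → deriv R y ≠ 0 →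
      (∀ r, c t r * w r (x, y) = 0) ∨
      ∃ u : ℝ, 0 < u ∧ u ^ 15 + A t < ∑ r, c t r * u ^ j r * w r (x, y)) :
    ∃ a0 : ℝ, 0 < a0 ∧ a0 ≤ 1 ∧ ∃ b0 : ℝ, 1 ≤ b0 ∧ ∀ a, 0 < a → a ≤ a0 → ∀ b, b0 ≤ b →
      AStep bb v (PA bb v (cutL a b n S R (A 0) (c 0) j w))
        (PA bb v (cutL a b n S R (A 1) (c 1) j w)) := by
  -- bounds
  obtain ⟨t0, ht0, hmin⟩ := (isCompact_Icc (a := (0 : ℝ)) (b := 1)).exists_isMinOn
    ⟨0, by simp⟩ hA.continuous.continuousOn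
  obtain ⟨t1, ht1, hmax⟩ := (isCompact_Icc (a := (0 : ℝ)) (b := 1)).exists_isMaxOn
    ⟨0, by simp⟩ hA.continuous.continuousOn
  have hCc : Continuous fun t => ∑ r, c t r := continuous_finsetSum _ fun r _ => (hc r).continuous
  obtain ⟨t2, ht2, hmaxc⟩ := (isCompact_Icc (a := (0 : ℝ)) (b := 1)).exists_isMaxOn
    ⟨0, by simp⟩ hCc.continuousOn
  set Am := A t0 with hAm
  set AM := A t1 with hAM
  set C := ∑ r, c t2 r with hC
  have hAm0 : 0 < Am := hA0 _ ht0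
  have hAM0 : 0 < AM := hA0 _ ht1
  have hC0 : 0 ≤ C := Finset.sum_nonneg fun r _ => hc0 _ ht2 r
  have hAmin : ∀ t ∈ Icc (0 : ℝ) 1, Am ≤ A t := fun t ht => hmin ht
  have hAmax : ∀ t ∈ Icc (0 : ℝ) 1, A t ≤ AM := fun t ht => hmax ht
  have hCmax : ∀ t ∈ Icc (0 : ℝ) 1, ∑ r, c t r ≤ C := fun t ht => hmaxc ht
  have hPn : ∀ t ∈ Icc (0 : ℝ) 1, ∀ θ, ‖pL n S (A t) θ‖ = A t := fun t ht θ => by
    unfold pL
    rw [norm_mul, norm_ee, mul_one, Complex.norm_real, Real.norm_of_nonneg (hA0 t ht).le]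
  refine ⟨min 1 (Am / (2 * (1 + C))), by positivity, min_le_left _ _, AM + C + 1, by linarith,
    fun a ha haa b hb => ?_⟩
  have ha1 : a ≤ 1 := haa.trans (min_le_left _ _)
  have ha2 : a * (2 * (1 + C)) ≤ Am :=
    (le_div_iff₀ (by positivity)).1 (haa.trans (min_le_right _ _))
  have hab : a ≤ b := by linarith
  refine astep_cut (F := fun t => kL n S R (A t) (c t) j w) (P := fun t => pL n S (A t))
    (Q := fun _ => qL R) ha hab (ContDiffOn_kL h hA hc) ?_ ?_ (fun t _ => kL_per1 h _ _)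
    (fun t _ => kL_per2 h _ _) ?_ (fun _ _ _ _ => rfl) ?_ ?_ ?_ ?_
  · unfold pL
    refine ContDiff.contDiffOn ?_
    exact (Complex.ofRealCLM.contDiff.comp (hA.comp contDiff_fst)).mul
      (contDiff_ee.comp ((h.hS.smooth.comp (by fun_prop)).add contDiff_const))
  · unfold qL
    refine ContDiff.contDiffOn ?_
    exact contDiff_const.mul ((h.hR.smooth.comp (by fun_prop)).add contDiff_const)
  · intro t _ θ
    obtain ⟨d, hd⟩ := h.pS
    simp only [pL]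
    rw [kk_add, hd, show S (kk n * θ) + (d : ℝ) + 1 / 2 = S (kk n * θ) + 1 / 2 + (d : ℝ) by ring,
      ee_add_int]
  · intro t _ θ ω
    simp only [qL]
    rw [kk_add]
    have e : ((15 : ℕ) : ℝ) = 15 := by norm_num
    rw [e, h.pR]; ring
  · intro t ht θ u ω hu hua
    rw [hPn t ht θ]
    have hu1 : u ≤ 1 := hua.trans ha1
    have e1 : kL n S R (A t) (c t) j w (θ, u, ω) - pL n S (A t) θ =
        ((u ^ 15 : ℝ) : ℂ) * ee (R (kk 15 * ω) + 1 / 2) - (dL n (c t) j w (θ, u, ω) : ℂ) := by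
      unfold kL pL; ring
    have e2 : dL n (c t) j w (θ, u, ω) ≤ C * u := by
      have h1 : dL n (c t) j w (θ, u, ω) ≤ ∑ r, c t r * u := by
        refine Finset.sum_le_sum fun r _ => ?_
        have h2 : u ^ j r ≤ u := by
          calc u ^ j r ≤ u ^ (1 : ℝ) := Real.rpow_le_rpow_of_exponent_ge hu hu1 (h.hj r).1
            _ = u := Real.rpow_one u
        calc c t r * u ^ j r * w r (kk n * θ, kk 15 * ω) ≤ c t r * u * 1 :=
              mul_le_mul (mul_le_mul_of_nonneg_left h2 (hc0 t ht r)) (h.wle r _)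
                ((h.hw r).nn _) (mul_nonneg (hc0 t ht r) hu.le)
          _ = _ := mul_one _
      rw [← Finset.sum_mul] at h1
      exact h1.trans (mul_le_mul_of_nonneg_right (hCmax t ht) hu.le)
    have e3 : 0 ≤ dL n (c t) j w (θ, u, ω) := Finset.sum_nonneg fun r _ =>
      mul_nonneg (mul_nonneg (hc0 t ht r) (Real.rpow_nonneg hu.le _)) ((h.hw r).nn _)
    have e4 : u ^ 15 ≤ u := pow_le_of_le_one hu.le hu1 (by norm_num)
    rw [e1]
    calc _ ≤ ‖((u ^ 15 : ℝ) : ℂ) * ee (R (kk 15 * ω) + 1 / 2)‖ +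
          ‖(dL n (c t) j w (θ, u, ω) : ℂ)‖ := norm_sub_le _ _
      _ = u ^ 15 + dL n (c t) j w (θ, u, ω) := by
          rw [norm_mul, norm_ee, mul_one, Complex.norm_real, Complex.norm_real,
            Real.norm_of_nonneg (by positivity), Real.norm_of_nonneg e3]
      _ ≤ u + C * u := add_le_add e4 e2
      _ = u * (1 + C) := by ring
      _ ≤ a * (1 + C) := mul_le_mul_of_nonneg_right hua (by positivity)
      _ < A t := by
          have : 0 < a * (1 + C) := by positivity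
          have h3 := hAmin t ht
          linarith
  · intro t ht θ u ω hub
    have hu1 : 1 ≤ u := by linarith
    have hu : 0 < u := by linarith
    have e1 : kL n S R (A t) (c t) j w (θ, u, ω) - ((u ^ 15 : ℝ) : ℂ) * NCut_88.cis (qL R θ ω) =
        pL n S (A t) θ - (dL n (c t) j w (θ, u, ω) : ℂ) := by
      have : NCut_88.cis (qL R θ ω) = ee (R (kk 15 * ω) + 1 / 2) := rfl
      rw [this]
      unfold kL pL; ring
    have e2 : dL n (c t) j w (θ, u, ω) ≤ C * u ^ 14 := by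
      have h1 : dL n (c t) j w (θ, u, ω) ≤ ∑ r, c t r * u ^ 14 := by
        refine Finset.sum_le_sum fun r _ => ?_
        have h2 : u ^ j r ≤ u ^ 14 := by
          calc u ^ j r ≤ u ^ (14 : ℝ) := Real.rpow_le_rpow_of_exponent_le hu1 (h.hj r).2
            _ = u ^ 14 := by norm_cast
        calc c t r * u ^ j r * w r (kk n * θ, kk 15 * ω) ≤ c t r * u ^ 14 * 1 :=
              mul_le_mul (mul_le_mul_of_nonneg_left h2 (hc0 t ht r)) (h.wle r _)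
                ((h.hw r).nn _) (mul_nonneg (hc0 t ht r) (by positivity))
          _ = _ := mul_one _
      rw [← Finset.sum_mul] at h1
      exact h1.trans (mul_le_mul_of_nonneg_right (hCmax t ht) (by positivity))
    have e3 : 0 ≤ dL n (c t) j w (θ, u, ω) := Finset.sum_nonneg fun r _ =>
      mul_nonneg (mul_nonneg (hc0 t ht r) (Real.rpow_nonneg hu.le _)) ((h.hw r).nn _)
    have h14 : (1 : ℝ) ≤ u ^ 14 := one_le_pow₀ hu1
    rw [e1]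
    calc _ ≤ ‖pL n S (A t) θ‖ + ‖(dL n (c t) j w (θ, u, ω) : ℂ)‖ := norm_sub_le _ _
      _ = A t + dL n (c t) j w (θ, u, ω) := by
          rw [hPn t ht θ, Complex.norm_real, Real.norm_of_nonneg e3]
      _ ≤ AM * u ^ 14 + C * u ^ 14 := by
          have h3 := hAmax t ht
          have h4 : AM ≤ AM * u ^ 14 := le_mul_of_one_le_right hAM0.le h14
          linarith
      _ = (AM + C) * u ^ 14 := by ring
      _ < u * u ^ 14 := mul_lt_mul_of_pos_right (by linarith) (by positivity)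
      _ = u ^ 15 := by ring
  · intro t ht θ u ω hu h0 z
    exact kL_reg h.hn h.hS h.hR h.hw (hA0 t ht) (hc0 t ht)
      (fun r => ⟨by linarith [(h.hj r).1], by linarith [(h.hj r).2]⟩) (hN t ht) hu h0 z

end

end Crest.Agent.R267.NSC_855
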