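import Crest.Agent.R267.NSKept_796
import Crest.Agent.R267.PlSign_543

/-!
# Row 267, N2 (helper796): one cell of a nested system, pointwise algebra (RegB, RegC)

`Cell a b c` : increments of the terms `s` over a cell (`a` along the `v`-side, `b` along the
`w`-side, `c` diagonal). `core_cell`: both variables active; `core_gap`: one variable active.
-/

set_option autoImplicit false

noncomputable section

open Finset Real

namespace Crest.Agent.R267.NSCell_796

open Crest.Agent.R267.NSKept_796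

/-- increments of the terms of a nested system over a cell. -/
structure Cell {m : ℕ} (a b c : Fin (m + 2) → ℤ) : Prop where
  ha : ∀ s, a s = 0 ∨ a s = 1
  hb : ∀ s, b s = 0 ∨ b s = 1
  hca : ∀ s, c s - a s = 0 ∨ c s - a s = 1
  hcb : ∀ s, c s - b s = 0 ∨ c s - b s = 1
  hc : ∀ s, c s ≤ 1
  ma : Monotone a
  mb : Antitone b
  mca : Antitone fun s => c s - a s
  mcb : Monotone fun s => c s - b s
  a0 : a 0 = 0
  b0 : b 0 = 1
  a1 : a (Fin.last _) = 1
  b1 : b (Fin.last _) = 0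

/-! ### weighted means -/

theorem exists_pos {ι : Type*} {A : Finset ι} {w : ι → ℝ} (hA : 0 < ∑ s ∈ A, w s) :
    ∃ s ∈ A, 0 < w s := by
  by_contra h
  push Not at h
  exact absurd hA (not_lt.2 (Finset.sum_nonpos h))

theorem mean_lt {ι : Type*} {A B : Finset ι} {w E : ι → ℝ} (hw : ∀ s, 0 ≤ w s)
    (hA : 0 < ∑ s ∈ A, w s) (hB : 0 < ∑ s ∈ B, w s)
    (h : ∀ s ∈ A, ∀ s' ∈ B, E s' < E s) :
    (∑ s ∈ B, E s * w s) / ∑ s ∈ B, w s < (∑ s ∈ A, E s * w s) / ∑ s ∈ A, w s := by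
  rw [div_lt_div_iff₀ hB hA, ← sub_pos]
  have e1 : (∑ s ∈ A, E s * w s) * ∑ s ∈ B, w s - (∑ s ∈ B, E s * w s) * ∑ s ∈ A, w s =
      ∑ s ∈ A, ∑ s' ∈ B, (E s - E s') * (w s * w s') := by
    rw [mul_comm (∑ s ∈ B, E s * w s), Finset.sum_mul_sum, Finset.sum_mul_sum,
      ← Finset.sum_sub_distrib]
    refine Finset.sum_congr rfl fun s _ => ?_
    rw [← Finset.sum_sub_distrib]
    exact Finset.sum_congr rfl fun s' _ => by ring
  rw [e1]
  obtain ⟨s, hs, h1⟩ := exists_pos hA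
  obtain ⟨s', hs', h2⟩ := exists_pos hB
  have nn : ∀ s ∈ A, ∀ s' ∈ B, 0 ≤ (E s - E s') * (w s * w s') := fun s hs s' hs' =>
    mul_nonneg (sub_nonneg.2 (h s hs s' hs').le) (mul_nonneg (hw s) (hw s'))
  refine Finset.sum_pos' (fun s hs => Finset.sum_nonneg (nn s hs)) ⟨s, hs, ?_⟩
  exact Finset.sum_pos' (nn s hs) ⟨s', hs', mul_pos (sub_pos.2 (h s hs s' hs')) (mul_pos h1 h2)⟩

/-! ### the groups of a cell -/

section groups

variable {m : ℕ} {a b c : Fin (m + 2) → ℤ}

/-- bilinear form of the phase in a cell. -/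
def Hb (a b c : ℤ) (μ ν : ℝ) : ℝ := a * μ + b * ν + (c - a - b) * (μ * ν)

/-- the three groups. -/
def Qg (a b : Fin (m + 2) → ℤ) : Finset (Fin (m + 2)) := univ.filter fun s => a s < b s
def Xg (a b : Fin (m + 2) → ℤ) : Finset (Fin (m + 2)) := univ.filter fun s => a s = b s
def Pg (a b : Fin (m + 2) → ℤ) : Finset (Fin (m + 2)) := univ.filter fun s => b s < a s

theorem sum3 (a b : Fin (m + 2) → ℤ) (f : Fin (m + 2) → ℝ) :
    ∑ s, f s = ∑ s ∈ Qg a b, f s + ∑ s ∈ Xg a b, f s + ∑ s ∈ Pg a b, f s := by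
  rw [Qg, Xg, Pg, Finset.sum_filter, Finset.sum_filter, Finset.sum_filter,
    ← Finset.sum_add_distrib, ← Finset.sum_add_distrib]
  refine Finset.sum_congr rfl fun s _ => ?_
  rcases lt_trichotomy (a s) (b s) with h | h | h
  · rw [if_pos h, if_neg h.ne, if_neg h.not_gt]; ring
  · rw [if_neg h.not_lt, if_pos h, if_neg h.not_gt]; ring
  · rw [if_neg h.not_gt, if_neg h.ne', if_pos h]; ring

variable (h : Cell a b c)
include h

theorem Cell.q {s : Fin (m + 2)} (hs : s ∈ Qg a b) : a s = 0 ∧ b s = 1 ∧ c s = 1 := by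
  have h1 := (Finset.mem_filter.1 hs).2
  have h2 := h.ha s
  have h3 := h.hb s
  have h4 := h.hcb s
  have h5 := h.hc s
  omega

theorem Cell.p {s : Fin (m + 2)} (hs : s ∈ Pg a b) : a s = 1 ∧ b s = 0 ∧ c s = 1 := by
  have h1 := (Finset.mem_filter.1 hs).2
  have h2 := h.ha s
  have h3 := h.hb s
  have h4 := h.hca s
  have h5 := h.hc s
  omega

theorem Cell.x {s : Fin (m + 2)} (hs : s ∈ Xg a b) :
    (a s = 0 ∧ b s = 0 ∧ c s = 0) ∨ (a s = 0 ∧ b s = 0 ∧ c s = 1) ∨
      (a s = 1 ∧ b s = 1 ∧ c s = 1) := by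
  have h1 := (Finset.mem_filter.1 hs).2
  have h2 := h.ha s
  have h3 := h.hb s
  have h4 := h.hca s
  have h5 := h.hc s
  omega

theorem Cell.x_eq {s s' : Fin (m + 2)} (hs : s ∈ Xg a b) (hs' : s' ∈ Xg a b) :
    a s = a s' ∧ b s = b s' ∧ c s = c s' := by
  have h1 : a s = b s := (Finset.mem_filter.1 hs).2
  have h2 : a s' = b s' := (Finset.mem_filter.1 hs').2
  rcases le_total s s' with h3 | h3
  · have e1 := h.ma h3
    have e2 := h.mb h3
    have e3 : c s' - a s' ≤ c s - a s := h.mca h3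
    have e4 : c s - b s ≤ c s' - b s' := h.mcb h3
    omega
  · have e1 := h.ma h3
    have e2 := h.mb h3
    have e3 : c s - a s ≤ c s' - a s' := h.mca h3
    have e4 : c s' - b s' ≤ c s - b s := h.mcb h3
    omega

theorem Cell.qx {s s' : Fin (m + 2)} (hs : s ∈ Qg a b) (hs' : s' ∈ Xg a b) : s < s' := by
  by_contra hcon
  have h3 := not_lt.1 hcon
  have e1 := h.ma h3
  have e3 : c s - a s ≤ c s' - a s' := h.mca h3
  have e4 : c s' - b s' ≤ c s - b s := h.mcb h3
  have h5 := h.q hs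
  have h6 := h.x hs'
  omega

theorem Cell.xp {s s' : Fin (m + 2)} (hs : s ∈ Xg a b) (hs' : s' ∈ Pg a b) : s < s' := by
  by_contra hcon
  have h3 := not_lt.1 hcon
  have e1 := h.ma h3
  have e2 := h.mb h3
  have h5 := h.p hs'
  have h6 := h.x hs
  omega

theorem Cell.qp {s s' : Fin (m + 2)} (hs : s ∈ Qg a b) (hs' : s' ∈ Pg a b) : s < s' := by
  by_contra hcon
  have h3 := not_lt.1 hcon
  have e1 := h.ma h3
  have h5 := h.p hs'
  have h6 := h.q hs
  omega

theorem Cell.q0 : (0 : Fin (m + 2)) ∈ Qg a b :=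
  Finset.mem_filter.2 ⟨Finset.mem_univ _, by rw [h.a0, h.b0]; norm_num⟩

theorem Cell.p1 : Fin.last (m + 1) ∈ Pg a b :=
  Finset.mem_filter.2 ⟨Finset.mem_univ _, by rw [h.a1, h.b1]; norm_num⟩

end groups

/-! ### the core lemma of a cell -/

section core

variable {m : ℕ} {a b c : Fin (m + 2) → ℤ} {w E : Fin (m + 2) → ℝ}

/-- splitting a weighted sum over the groups. -/
theorem Cell.split (h : Cell a b c) {ca cb cc : ℤ}
    (hX : ∀ s ∈ Xg a b, a s = ca ∧ b s = cb ∧ c s = cc) (v : Fin (m + 2) → ℝ)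
    (f : ℤ → ℤ → ℤ → ℝ) :
    ∑ s, v s * f (a s) (b s) (c s) = (∑ s ∈ Qg a b, v s) * f 0 1 1 +
      (∑ s ∈ Xg a b, v s) * f ca cb cc + (∑ s ∈ Pg a b, v s) * f 1 0 1 := by
  rw [sum3 a b, Finset.sum_mul, Finset.sum_mul, Finset.sum_mul]
  congr 1
  · congr 1
    · refine Finset.sum_congr rfl fun s hs => ?_
      obtain ⟨h1, h2, h3⟩ := h.q hs
      rw [h1, h2, h3]
    · refine Finset.sum_congr rfl fun s hs => ?_
      obtain ⟨h1, h2, h3⟩ := hX s hs
      rw [h1, h2, h3]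
  · refine Finset.sum_congr rfl fun s hs => ?_
    obtain ⟨h1, h2, h3⟩ := h.p hs
    rw [h1, h2, h3]

/-- **both variables active** -/
theorem core_cell (h : Cell a b c) (hE : StrictAnti E) (hw : ∀ s, 0 ≤ w s) (h0 : 0 < w 0)
    (h1 : 0 < w (Fin.last (m + 1))) {μ ν A B : ℝ} (hμ : 0 < μ) (hμ' : μ < 1) (hν : 0 < ν)
    (hν' : ν < 1)
    (K1 : ∑ s, w s * cos (2 * π * Hb (a s) (b s) (c s) μ ν) = 0)
    (K2 : ∑ s, w s * sin (2 * π * Hb (a s) (b s) (c s) μ ν) = 0)
    (hx : ∑ s, w s * ((a s + (c s - a s - b s) * ν) * Sc A B (Hb (a s) (b s) (c s) μ ν)) = 0)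
    (hy : ∑ s, w s * ((b s + (c s - a s - b s) * μ) * Sc A B (Hb (a s) (b s) (c s) μ ν)) = 0)
    (hl : ∑ s, E s * w s * Cc A B (Hb (a s) (b s) (c s) μ ν) = 0)
    (hk : (∃ s, c s = 0) → ¬ (∑ s ∈ Qg a b, w s + ∑ s ∈ Pg a b, w s = ∑ s ∈ Xg a b, w s ∧
      ∑ s ∈ Qg a b, E s * w s + ∑ s ∈ Pg a b, E s * w s = ∑ s ∈ Xg a b, E s * w s)) :
    A = 0 ∧ B = 0 := by
  set Tq := ∑ s ∈ Qg a b, w s with hTq
  set TX := ∑ s ∈ Xg a b, w s with hTX
  set Tp := ∑ s ∈ Pg a b, w s with hTp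
  set Uq := ∑ s ∈ Qg a b, E s * w s with hUq
  set UX := ∑ s ∈ Xg a b, E s * w s with hUX
  set Up := ∑ s ∈ Pg a b, E s * w s with hUp
  have q1 : 0 < Tq := Finset.sum_pos' (fun s _ => hw s) ⟨0, h.q0, h0⟩
  have p1 : 0 < Tp := Finset.sum_pos' (fun s _ => hw s) ⟨Fin.last _, h.p1, h1⟩
  have X0 : 0 ≤ TX := Finset.sum_nonneg fun s _ => hw s
  -- means
  have hqp : Up / Tp < Uq / Tq := mean_lt hw q1 p1 fun s hs s' hs' => hE (h.qp hs hs')
  obtain ⟨x, hxq, hpx, hxX⟩ : ∃ x : ℝ, x < Uq / Tq ∧ Up / Tp < x ∧ UX = x * TX := by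
    rcases X0.eq_or_lt with h2 | h2
    · refine ⟨(Uq / Tq + Up / Tp) / 2, by linarith, by linarith, ?_⟩
      rw [← h2, mul_zero]
      refine Finset.sum_eq_zero fun s hs => ?_
      have : w s = 0 := (Finset.sum_eq_zero_iff_of_nonneg fun s _ => hw s).1 h2.symm s hs
      rw [this, mul_zero]
    · exact ⟨UX / TX, mean_lt hw q1 h2 fun s hs s' hs' => hE (h.qx hs hs'),
        mean_lt hw h2 p1 fun s hs s' hs' => hE (h.xp hs hs'), by field_simp⟩
  have eq' : Uq = Uq / Tq * Tq := by field_simp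
  have ep' : Up = Up / Tp * Tp := by field_simp
  have e011 : Hb 0 1 1 μ ν = ν := by unfold Hb; push_cast; ring
  have e101 : Hb 1 0 1 μ ν = μ := by unfold Hb; push_cast; ring
  -- types of the group `X`
  have hcase : (∀ s ∈ Xg a b, a s = 0 ∧ b s = 0 ∧ c s = 1) ∨
      (∀ s ∈ Xg a b, a s = 1 ∧ b s = 1 ∧ c s = 1) ∨
      ((∃ s, c s = 0) ∧ ∀ s ∈ Xg a b, a s = 0 ∧ b s = 0 ∧ c s = 0) := by
    rcases (Xg a b).eq_empty_or_nonempty with h2 | ⟨s₀, h2⟩
    · left
      rw [h2]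
      simp
    · rcases h.x h2 with h3 | h3 | h3
      · right; right
        refine ⟨⟨s₀, h3.2.2⟩, fun s hs => ?_⟩
        obtain ⟨e1, e2, e3⟩ := h.x_eq hs h2
        rw [e1, e2, e3]
        exact h3
      · left
        intro s hs
        obtain ⟨e1, e2, e3⟩ := h.x_eq hs h2
        rw [e1, e2, e3]
        exact h3
      · right; left
        intro s hs
        obtain ⟨e1, e2, e3⟩ := h.x_eq hs h2
        rw [e1, e2, e3]
        exact h3
  rcases hcase with hX | hX | ⟨hex, hX⟩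
  · -- min
    have e001 : Hb 0 0 1 μ ν = μ * ν := by unfold Hb; push_cast; ring
    rw [h.split hX w (fun x y z => cos (2 * π * Hb x y z μ ν)), e011, e101, e001] at K1
    rw [h.split hX w (fun x y z => sin (2 * π * Hb x y z μ ν)), e011, e101, e001] at K2
    rw [h.split hX w (fun x y z => (x + (z - x - y) * ν) * Sc A B (Hb x y z μ ν)), e011, e101,
      e001] at hx
    rw [h.split hX w (fun x y z => (y + (z - x - y) * μ) * Sc A B (Hb x y z μ ν)), e011, e101,
      e001] at hy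
    rw [h.split hX (fun s => E s * w s) (fun x y z => Cc A B (Hb x y z μ ν)), e011, e101,
      e001] at hl
    push_cast at hx hy
    refine kept_min hμ hμ' hν hν' q1 p1 X0 hxq hpx K1 K2 ?_ ?_ ?_
    · linear_combination hy
    · linear_combination hx
    · rw [← eq', ← ep', ← hxX]
      linear_combination hl
  · -- max
    have e111 : Hb 1 1 1 μ ν = μ + ν - μ * ν := by unfold Hb; push_cast; ring
    rw [h.split hX w (fun x y z => cos (2 * π * Hb x y z μ ν)), e011, e101, e111] at K1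
    rw [h.split hX w (fun x y z => sin (2 * π * Hb x y z μ ν)), e011, e101, e111] at K2
    rw [h.split hX w (fun x y z => (x + (z - x - y) * ν) * Sc A B (Hb x y z μ ν)), e011, e101,
      e111] at hx
    rw [h.split hX w (fun x y z => (y + (z - x - y) * μ) * Sc A B (Hb x y z μ ν)), e011, e101,
      e111] at hy
    rw [h.split hX (fun s => E s * w s) (fun x y z => Cc A B (Hb x y z μ ν)), e011, e101,
      e111] at hl
    push_cast at hx hy
    refine kept_max hμ hμ' hν hν' q1 p1 X0 hxq hpx K1 K2 ?_ ?_ ?_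
    · linear_combination hy
    · linear_combination hx
    · rw [← eq', ← ep', ← hxX]
      linear_combination hl
  · -- killed
    have e000 : Hb 0 0 0 μ ν = 0 := by unfold Hb; push_cast; ring
    rw [h.split hX w (fun x y z => cos (2 * π * Hb x y z μ ν)), e011, e101, e000] at K1
    rw [h.split hX w (fun x y z => sin (2 * π * Hb x y z μ ν)), e011, e101, e000] at K2
    rw [h.split hX w (fun x y z => (x + (z - x - y) * ν) * Sc A B (Hb x y z μ ν)), e011, e101,
      e000] at hx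
    rw [h.split hX w (fun x y z => (y + (z - x - y) * μ) * Sc A B (Hb x y z μ ν)), e011, e101,
      e000] at hy
    rw [h.split hX (fun s => E s * w s) (fun x y z => Cc A B (Hb x y z μ ν)), e011, e101,
      e000] at hl
    push_cast at hx hy
    rw [mul_zero, cos_zero] at K1
    rw [mul_zero, sin_zero] at K2
    have key := killed (a := A) (b := B) hμ hμ' hν hν' q1 p1 X0 hxq hpx (by linear_combination K1)
      (by linear_combination K2) (by linear_combination hy) (by linear_combination hx)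
      (by rw [← eq', ← ep', ← hxX]; linear_combination hl)
    rcases key with key | ⟨-, -, k1, k2⟩
    · exact key
    · refine absurd ⟨k1, ?_⟩ (hk hex)
      rw [← eq', ← ep', ← hxX] at k2
      exact k2

/-- **one variable active** -/
theorem core_gap {α : Fin (m + 2) → ℤ} (hα : ∀ s, α s = 0 ∨ α s = 1)
    (hE : (∀ s s', α s = 0 → α s' = 1 → E s' < E s) ∨ (∀ s s', α s = 0 → α s' = 1 → E s < E s'))
    (hw : ∀ s, 0 ≤ w s) {s₀ s₁ : Fin (m + 2)} (h0 : 0 < w s₀) (hs₀ : α s₀ = 0) (h1 : 0 < w s₁)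
    (hs₁ : α s₁ = 1) {μ A B : ℝ}
    (K1 : ∑ s, w s * cos (2 * π * (α s * μ)) = 0)
    (K2 : ∑ s, w s * sin (2 * π * (α s * μ)) = 0)
    (hx : ∑ s, w s * (α s * Sc A B (α s * μ)) = 0)
    (hl : ∑ s, E s * w s * Cc A B (α s * μ) = 0) : A = 0 ∧ B = 0 := by
  have hsplit : ∀ (v : Fin (m + 2) → ℝ) (f : ℤ → ℝ), ∑ s, v s * f (α s) =
      (∑ s ∈ univ.filter (fun s => α s = 1), v s) * f 1 +
        (∑ s ∈ univ.filter (fun s => ¬ α s = 1), v s) * f 0 := by
    intro v f
    rw [← Finset.sum_filter_add_sum_filter_not univ (fun s => α s = 1), Finset.sum_mul,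
      Finset.sum_mul]
    congr 1
    · refine Finset.sum_congr rfl fun s hs => ?_
      rw [(Finset.mem_filter.1 hs).2]
    · refine Finset.sum_congr rfl fun s hs => ?_
      rw [(hα s).resolve_right (Finset.mem_filter.1 hs).2]
  set T := ∑ s ∈ univ.filter (fun s => α s = 1), w s with hT
  set T' := ∑ s ∈ univ.filter (fun s => ¬ α s = 1), w s with hT'
  have T1 : 0 < T := Finset.sum_pos' (fun s _ => hw s)
    ⟨s₁, Finset.mem_filter.2 ⟨Finset.mem_univ _, hs₁⟩, h1⟩
  have T0 : 0 < T' := Finset.sum_pos' (fun s _ => hw s)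
    ⟨s₀, Finset.mem_filter.2 ⟨Finset.mem_univ _, by rw [hs₀]; norm_num⟩, h0⟩
  set U := ∑ s ∈ univ.filter (fun s => α s = 1), E s * w s with hU
  set U' := ∑ s ∈ univ.filter (fun s => ¬ α s = 1), E s * w s with hU'
  have hne : U / T ≠ U' / T' := by
    rcases hE with hE | hE
    · refine (mean_lt hw T0 T1 fun s hs s' hs' => ?_).ne
      exact hE s s' ((hα s).resolve_right (Finset.mem_filter.1 hs).2) (Finset.mem_filter.1 hs').2
    · refine (mean_lt hw T1 T0 fun s hs s' hs' => ?_).ne'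
      exact hE s' s ((hα s').resolve_right (Finset.mem_filter.1 hs').2) (Finset.mem_filter.1 hs).2
  rw [hsplit w (fun x => cos (2 * π * (x * μ)))] at K1
  rw [hsplit w (fun x => sin (2 * π * (x * μ)))] at K2
  rw [hsplit w (fun x => x * Sc A B (x * μ))] at hx
  rw [hsplit (fun s => E s * w s) (fun x => Cc A B (x * μ))] at hl
  push_cast at K1 K2 hx hl
  simp only [one_mul, zero_mul, mul_zero, cos_zero, sin_zero, mul_one, add_zero] at K1 K2 hx hl
  refine gap (μ := μ) (T := T) (T' := T') (q := U / T) (p := U' / T') T1 hne K1 K2 hx ?_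
  rw [div_mul_cancel₀ U T1.ne', div_mul_cancel₀ U' T0.ne']
  exact hl

end core

end Crest.Agent.R267.NSCell_796
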