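import Mathlib
import Crest.Agent.R267.Ang_739

/-!
# Row 267 (helper855): N2, class L: two lobed words minus real deletions

On `|v| = 1`, `x = 15 θ / 2π`, `y = 15 ω / 2π`, `w = u e^{iω}`:
`κ = u^15 e(S y + 1/2) + A e(S x + 1/2) - ∑_r c_r u^{j_r} w_r(x, y)`, `e(t) = exp (2 π i t)`, `S` = a
`C²` staircase, `w_r` windows which vary in a variable only where `S` is flat in it.

`kL_reg`: every zero is regular as soon as over every cube (where `S' ≠ 0` in both variables) with a
deletion the function `u^15 + A - ∑ c_r u^{j_r} w_r` is negative somewhere.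
-/

set_option autoImplicit false

noncomputable section

open Set Finset
open scoped Real
open Crest.Agent.R267.Ang_739 (cis contDiff_cis hasDerivAt_cis norm_cis)

namespace Crest.Agent.R267.NSL_855

/-- `exp (2 π i x)` -/
def ee (x : ℝ) : ℂ := cis (2 * π * x)

theorem norm_ee (x : ℝ) : ‖ee x‖ = 1 := norm_cis _

theorem contDiff_ee {n : WithTop ℕ∞} : ContDiff ℝ n ee := by
  unfold ee
  exact contDiff_cis.comp (contDiff_const.mul contDiff_id)

theorem hasDerivAt_ee (x : ℝ) : HasDerivAt ee (((2 * π : ℝ) : ℂ) * Complex.I * ee x) x := by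
  have h := (hasDerivAt_cis (2 * π * x)).scomp x ((hasDerivAt_id x).const_mul (2 * π))
  have e : ((2 * π : ℝ) : ℂ) * Complex.I * ee x = (2 * π * 1 : ℝ) • (Complex.I * cis (2 * π * x)) := by
    rw [Complex.real_smul]; unfold ee; push_cast; ring
  rw [e]
  exact h

theorem ee_add (x y : ℝ) : ee (x + y) = ee x * ee y := by
  unfold ee cis
  rw [← Complex.exp_add]; congr 1; push_cast; ring

theorem ee_int (k : ℤ) : ee k = 1 := by
  unfold ee cis
  rw [Complex.exp_eq_one_iff]; exact ⟨k, by push_cast; ring⟩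

theorem ee_half : ee (1 / 2) = -1 := by
  unfold ee cis
  rw [← Complex.exp_pi_mul_I]; congr 1; push_cast; ring

theorem ee_add_int (x : ℝ) (k : ℤ) : ee (x + k) = ee x := by rw [ee_add, ee_int, mul_one]

theorem ee_add_half (x : ℝ) : ee (x + 1 / 2) = -ee x := by rw [ee_add, ee_half]; ring

/-- `e(x)` real: `2 x` is an integer. -/
theorem ee_real {x : ℝ} (h : (ee x).im = 0) : ∃ k : ℤ, 2 * x = k := by
  unfold ee cis at h
  rw [Complex.exp_ofReal_mul_I_im] at h
  obtain ⟨k, hk⟩ := Real.sin_eq_zero_iff.1 h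
  refine ⟨k, ?_⟩
  have hpi := Real.pi_pos
  have : π * (2 * x) = π * k := by linarith
  exact mul_left_cancel₀ hpi.ne' this

theorem ee_one {x : ℝ} (h : (ee x).im = 0) (h' : ∀ k : ℤ, x ≠ k) : ee x = -1 := by
  obtain ⟨k, hk⟩ := ee_real h
  rcases Int.even_or_odd' k with ⟨m, rfl | rfl⟩
  · exact absurd (by push_cast at hk; linarith : x = (m : ℤ)) (h' m)
  · have : x = 1 / 2 + (m : ℤ) := by push_cast at hk; linarith
    rw [this, ee_add_int, ee_half]

/-! ### staircases and windows -/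

/-- `C²` staircases: where `S' ≠ 0` the value is not an integer, where `S' = 0` it is. -/
structure Stc (S : ℝ → ℝ) : Prop where
  smooth : ContDiff ℝ 2 S
  flat : ∀ x, deriv S x = 0 → ∃ k : ℤ, S x = k
  rise : ∀ x, deriv S x ≠ 0 → ∀ k : ℤ, S x ≠ k

/-- windows: they vary in a variable only where the phase of this variable is flat. -/
structure Win (S R : ℝ → ℝ) (w : ℝ × ℝ → ℝ) : Prop where
  smooth : ContDiff ℝ 2 w
  nn : ∀ p, 0 ≤ w p
  fx : ∀ x y, deriv S x ≠ 0 → fderiv ℝ w (x, y) (1, 0) = 0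
  fy : ∀ x y, deriv R y ≠ 0 → fderiv ℝ w (x, y) (0, 1) = 0

/-! ### independence -/

/-- two vectors with independent images: onto. -/
theorem onto_of_two {E : Type*} [AddCommGroup E] [Module ℝ E] {L : E → ℂ}
    (hadd : ∀ x y, L (x + y) = L x + L y) (hsmul : ∀ (r : ℝ) x, L (r • x) = (r : ℂ) * L x)
    {y1 y2 : E} {A B : ℂ} (h1 : L y1 = A) (h2 : L y2 = B) (h : A.re * B.im - A.im * B.re ≠ 0)
    (b : ℂ) : ∃ y, L y = b := by
  set δ : ℝ := A.re * B.im - A.im * B.re with hδ
  refine ⟨((b.re * B.im - b.im * B.re) / δ) • y1 + ((A.re * b.im - A.im * b.re) / δ) • y2, ?_⟩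
  rw [hadd, hsmul, hsmul, h1, h2]
  apply Complex.ext
  · simp only [Complex.add_re, Complex.re_ofReal_mul]
    field_simp
    rw [hδ]; ring
  · simp only [Complex.add_im, Complex.im_ofReal_mul]
    field_simp
    rw [hδ]; ring

/-! ### Bernoulli -/

/-- a double zero of `u^15 + A - ∑ c_r u^{j_r}` is a minimum. -/
theorem no_double {ι : Type*} [Fintype ι] {A u : ℝ} {c j : ι → ℝ} (hc : ∀ r, 0 ≤ c r)
    (hj : ∀ r, 0 ≤ j r ∧ j r ≤ 15) (hu : 0 < u)
    (h0 : u ^ 15 + A = ∑ r, c r * u ^ j r) (h1 : 15 * u ^ 15 = ∑ r, c r * (j r * u ^ j r))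
    {t : ℝ} (ht : 0 < t) : ∑ r, c r * t ^ j r ≤ t ^ 15 + A := by
  set s : ℝ := (t / u) ^ 15 with hs
  have hs0 : 0 < s := by positivity
  have hB : ∀ r, t ^ j r ≤ u ^ j r * (1 + (j r / 15) * (s - 1)) := by
    intro r
    have h2 : t ^ j r = u ^ j r * (t / u) ^ j r := by
      rw [← Real.mul_rpow hu.le (div_pos ht hu).le, mul_div_cancel₀ t hu.ne']
    have h3 : (t / u) ^ j r = s ^ (j r / 15) := by
      rw [hs, ← Real.rpow_natCast (t / u) 15, ← Real.rpow_mul (div_pos ht hu).le]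
      congr 1; push_cast; ring
    have h4 : s ^ (j r / 15) ≤ 1 + (j r / 15) * (s - 1) := by
      have := rpow_one_add_le_one_add_mul_self (s := s - 1) (by linarith)
        (p := j r / 15) (by have := (hj r).1; positivity) (by have := (hj r).2; linarith)
      simpa using this
    rw [h2, h3]
    exact mul_le_mul_of_nonneg_left h4 (Real.rpow_nonneg hu.le _)
  have h5 : ∑ r, c r * t ^ j r ≤ ∑ r, c r * (u ^ j r * (1 + (j r / 15) * (s - 1))) :=
    Finset.sum_le_sum fun r _ => mul_le_mul_of_nonneg_left (hB r) (hc r)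
  have h6 : ∑ r, c r * (u ^ j r * (1 + (j r / 15) * (s - 1))) =
      (∑ r, c r * u ^ j r) + (s - 1) / 15 * ∑ r, c r * (j r * u ^ j r) := by
    rw [Finset.mul_sum, ← Finset.sum_add_distrib]
    exact Finset.sum_congr rfl fun r _ => by ring
  have h7 : t ^ 15 = u ^ 15 * s := by
    rw [hs, ← mul_pow, mul_div_cancel₀ t hu.ne']
  rw [h6, ← h0, ← h1] at h5
  rw [h7]
  linarith

/-! ### the function -/

/-- `n / 2π` -/
def kk (n : ℕ) : ℝ := n / (2 * π)

theorem kk_pos {n : ℕ} (hn : 0 < n) : 0 < kk n := by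
  have : (0 : ℝ) < n := by exact_mod_cast hn
  unfold kk; positivity

theorem kk_mul (n : ℕ) : kk n * (2 * π) = n := by
  unfold kk; field_simp

variable {ι : Type*} [Fintype ι]

/-- the deletion -/
def dL (n : ℕ) (c j : ι → ℝ) (w : ι → ℝ × ℝ → ℝ) (p : ℝ × ℝ × ℝ) : ℝ :=
  ∑ r, c r * p.2.1 ^ j r * w r (kk n * p.1, kk 15 * p.2.2)

/-- the function of class L. -/
def kL (n : ℕ) (S R : ℝ → ℝ) (A : ℝ) (c j : ι → ℝ) (w : ι → ℝ × ℝ → ℝ) (p : ℝ × ℝ × ℝ) : ℂ :=
  ((p.2.1 ^ 15 : ℝ) : ℂ) * ee (R (kk 15 * p.2.2) + 1 / 2) +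
    (A : ℂ) * ee (S (kk n * p.1) + 1 / 2) - (dL n c j w p : ℂ)

section reg

variable {n : ℕ} {S R : ℝ → ℝ} {A : ℝ} {c j : ι → ℝ} {w : ι → ℝ × ℝ → ℝ}

theorem contDiffAt_dL (hw : ∀ r, Win S R (w r)) {p : ℝ × ℝ × ℝ} (hp : 0 < p.2.1) :
    ContDiffAt ℝ 2 (dL n c j w) p := by
  unfold dL
  refine ContDiffAt.sum fun r _ => ?_
  have h1 : ContDiffAt ℝ 2 (fun p : ℝ × ℝ × ℝ => p.2.1) p := by fun_prop
  have h2 : ContDiffAt ℝ 2 (fun p : ℝ × ℝ × ℝ => p.2.1 ^ j r) p := h1.rpow_const_of_ne hp.ne'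
  have h3 : ContDiffAt ℝ 2 (fun p : ℝ × ℝ × ℝ => w r (kk n * p.1, kk 15 * p.2.2)) p :=
    ((hw r).smooth.contDiffAt).comp p (by fun_prop)
  exact (contDiffAt_const.mul h2).mul h3

theorem contDiffAt_kL (hS : Stc S) (hR : Stc R) (hw : ∀ r, Win S R (w r)) {p : ℝ × ℝ × ℝ} (hp : 0 < p.2.1) :
    ContDiffAt ℝ 2 (kL n S R A c j w) p := by
  have hS2 : ContDiff ℝ 2 S := hS.smooth
  have hR2 : ContDiff ℝ 2 R := hR.smooth
  have h1 : ContDiff ℝ 2 fun p : ℝ × ℝ × ℝ => ee (R (kk 15 * p.2.2) + 1 / 2) :=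
    contDiff_ee.comp ((hR2.comp (by fun_prop)).add contDiff_const)
  have h2 : ContDiff ℝ 2 fun p : ℝ × ℝ × ℝ => ee (S (kk n * p.1) + 1 / 2) :=
    contDiff_ee.comp ((hS2.comp (by fun_prop)).add contDiff_const)
  have h3 : ContDiff ℝ 2 fun p : ℝ × ℝ × ℝ => ((p.2.1 ^ 15 : ℝ) : ℂ) := by
    have h : ContDiff ℝ 2 fun p : ℝ × ℝ × ℝ => p.2.1 ^ 15 :=
      ContDiff.pow (contDiff_fst.comp contDiff_snd) 15
    exact Complex.ofRealCLM.contDiff.comp h
  have h4 : ContDiffAt ℝ 2 (fun p : ℝ × ℝ × ℝ => (dL n c j w p : ℂ)) p :=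
    (Complex.ofRealCLM.contDiff.contDiffAt).comp p (contDiffAt_dL hw hp)
  exact ((h3.mul h1).add (contDiff_const.mul h2)).contDiffAt.sub h4

end reg

/-! ### partial derivatives -/

section part

variable {h : ℝ × ℝ × ℝ → ℂ} {θ u ω : ℝ} {d : ℂ}

theorem part1 (hd : DifferentiableAt ℝ h (θ, u, ω)) (hh : HasDerivAt (fun s => h (s, u, ω)) d θ) :
    fderiv ℝ h (θ, u, ω) (1, 0, 0) = d :=
  (hd.hasFDerivAt.comp_hasDerivAt θ ((hasDerivAt_id θ).prodMk
    (hasDerivAt_const θ ((u, ω) : ℝ × ℝ)))).unique hh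

theorem part2 (hd : DifferentiableAt ℝ h (θ, u, ω)) (hh : HasDerivAt (fun s => h (θ, s, ω)) d u) :
    fderiv ℝ h (θ, u, ω) (0, 1, 0) = d :=
  (hd.hasFDerivAt.comp_hasDerivAt u ((hasDerivAt_const u θ).prodMk
    ((hasDerivAt_id u).prodMk (hasDerivAt_const u ω)))).unique hh

theorem part3 (hd : DifferentiableAt ℝ h (θ, u, ω)) (hh : HasDerivAt (fun s => h (θ, u, s)) d ω) :
    fderiv ℝ h (θ, u, ω) (0, 0, 1) = d :=
  (hd.hasFDerivAt.comp_hasDerivAt ω ((hasDerivAt_const ω θ).prodMk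
    ((hasDerivAt_const ω u).prodMk (hasDerivAt_id ω)))).unique hh

end part

theorem hasDerivAt_ww {w : ℝ × ℝ → ℝ} (hw : Differentiable ℝ w) (k θ y : ℝ) :
    HasDerivAt (fun s => w (k * s, y)) (k * fderiv ℝ w (k * θ, y) (1, 0)) θ := by
  have h1 : HasDerivAt (fun s : ℝ => ((k * s, y) : ℝ × ℝ)) (k, 0) θ := by
    simpa using ((hasDerivAt_id θ).const_mul k).prodMk (hasDerivAt_const θ y)
  have h2 := (hw (k * θ, y)).hasFDerivAt.comp_hasDerivAt θ h1
  have e : ((k, 0) : ℝ × ℝ) = k • ((1, 0) : ℝ × ℝ) := by simp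
  rw [e, map_smul, smul_eq_mul] at h2
  exact h2

theorem hasDerivAt_ww' {w : ℝ × ℝ → ℝ} (hw : Differentiable ℝ w) (k x ω : ℝ) :
    HasDerivAt (fun s => w (x, k * s)) (k * fderiv ℝ w (x, k * ω) (0, 1)) ω := by
  have h1 : HasDerivAt (fun s : ℝ => ((x, k * s) : ℝ × ℝ)) (0, k) ω := by
    simpa using (hasDerivAt_const ω x).prodMk ((hasDerivAt_id ω).const_mul k)
  have h2 := (hw (x, k * ω)).hasFDerivAt.comp_hasDerivAt ω h1
  have e : ((0, k) : ℝ × ℝ) = k • ((0, 1) : ℝ × ℝ) := by simp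
  rw [e, map_smul, smul_eq_mul] at h2
  exact h2

theorem hasDerivAt_eeS {S : ℝ → ℝ} (hS : Differentiable ℝ S) (k θ : ℝ) :
    HasDerivAt (fun s => ee (S (k * s) + 1 / 2))
      (((k * deriv S (k * θ) * (2 * π) : ℝ) : ℂ) * (Complex.I * ee (S (k * θ) + 1 / 2))) θ := by
  have h1 : HasDerivAt (fun s => S (k * s) + 1 / 2) (deriv S (k * θ) * k) θ := by
    have h := (hS (k * θ)).hasDerivAt.comp θ ((hasDerivAt_id θ).const_mul k)
    simpa using h.add_const (1 / 2)
  have h2 := (hasDerivAt_ee (S (k * θ) + 1 / 2)).scomp θ h1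
  have e : ((k * deriv S (k * θ) * (2 * π) : ℝ) : ℂ) * (Complex.I * ee (S (k * θ) + 1 / 2)) =
      (deriv S (k * θ) * k) • (((2 * π : ℝ) : ℂ) * Complex.I * ee (S (k * θ) + 1 / 2)) := by
    rw [Complex.real_smul]; push_cast; ring
  rw [e]
  exact h2

section reg2

variable {n : ℕ} {S R : ℝ → ℝ} {A : ℝ} {c j : ι → ℝ} {w : ι → ℝ × ℝ → ℝ}

/-- the three partial derivatives. -/
theorem kL_dθ (hS : Stc S) (hR : Stc R) (hw : ∀ r, Win S R (w r)) {θ u ω : ℝ} (hu : 0 < u)
    (hx : deriv S (kk n * θ) ≠ 0) : fderiv ℝ (kL n S R A c j w) (θ, u, ω) (1, 0, 0) =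
      ((A * (kk n * deriv S (kk n * θ) * (2 * π)) : ℝ) : ℂ) *
        (Complex.I * ee (S (kk n * θ) + 1 / 2)) := by
  have hSd : Differentiable ℝ S := hS.smooth.differentiable (by norm_num)
  refine part1 ((contDiffAt_kL hS hR hw hu).differentiableAt (by norm_num)) ?_
  have h1 : HasDerivAt (fun s : ℝ => (dL n c j w (s, u, ω) : ℂ)) 0 θ := by
    have h2 : HasDerivAt (fun s : ℝ => dL n c j w (s, u, ω)) 0 θ := by
      have h3 : HasDerivAt (fun s : ℝ => dL n c j w (s, u, ω))
          (∑ r, c r * u ^ j r * (kk n * fderiv ℝ (w r) (kk n * θ, kk 15 * ω) (1, 0))) θ := by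
        show HasDerivAt (fun s : ℝ => ∑ r, c r * u ^ j r * w r (kk n * s, kk 15 * ω)) _ θ
        exact HasDerivAt.fun_sum fun r _ => (hasDerivAt_ww
          ((hw r).smooth.differentiable (by norm_num)) (kk n) θ (kk 15 * ω)).const_mul (c r * u ^ j r)
      have h4 : ∑ r, c r * u ^ j r * (kk n * fderiv ℝ (w r) (kk n * θ, kk 15 * ω) (1, 0)) = 0 :=
        Finset.sum_eq_zero fun r _ => by rw [(hw r).fx _ _ hx]; ring
      rwa [h4] at h3
    simpa using h2.ofReal_comp
  have h5 : HasDerivAt (fun s : ℝ => ((u ^ 15 : ℝ) : ℂ) * ee (R (kk 15 * ω) + 1 / 2) +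
      (A : ℂ) * ee (S (kk n * s) + 1 / 2)) ((A : ℂ) * (((kk n * deriv S (kk n * θ) * (2 * π) : ℝ) : ℂ) *
        (Complex.I * ee (S (kk n * θ) + 1 / 2)))) θ :=
    ((hasDerivAt_eeS hSd (kk n) θ).const_mul (A : ℂ)).const_add _
  have h6 := h5.sub h1
  have e : ((A * (kk n * deriv S (kk n * θ) * (2 * π)) : ℝ) : ℂ) *
      (Complex.I * ee (S (kk n * θ) + 1 / 2)) = (A : ℂ) * (((kk n * deriv S (kk n * θ) * (2 * π) : ℝ) : ℂ) *
        (Complex.I * ee (S (kk n * θ) + 1 / 2))) - 0 := by push_cast; ring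
  rw [e]
  exact h6

theorem kL_dω (hS : Stc S) (hR : Stc R) (hw : ∀ r, Win S R (w r)) {θ u ω : ℝ} (hu : 0 < u)
    (hy : deriv R (kk 15 * ω) ≠ 0) : fderiv ℝ (kL n S R A c j w) (θ, u, ω) (0, 0, 1) =
      ((u ^ 15 * (kk 15 * deriv R (kk 15 * ω) * (2 * π)) : ℝ) : ℂ) *
        (Complex.I * ee (R (kk 15 * ω) + 1 / 2)) := by
  have hRd : Differentiable ℝ R := hR.smooth.differentiable (by norm_num)
  refine part3 ((contDiffAt_kL hS hR hw hu).differentiableAt (by norm_num)) ?_
  have h1 : HasDerivAt (fun s : ℝ => (dL n c j w (θ, u, s) : ℂ)) 0 ω := by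
    have h2 : HasDerivAt (fun s : ℝ => dL n c j w (θ, u, s)) 0 ω := by
      have h3 : HasDerivAt (fun s : ℝ => dL n c j w (θ, u, s))
          (∑ r, c r * u ^ j r * (kk 15 * fderiv ℝ (w r) (kk n * θ, kk 15 * ω) (0, 1))) ω := by
        show HasDerivAt (fun s : ℝ => ∑ r, c r * u ^ j r * w r (kk n * θ, kk 15 * s)) _ ω
        exact HasDerivAt.fun_sum fun r _ => (hasDerivAt_ww'
          ((hw r).smooth.differentiable (by norm_num)) (kk 15) (kk n * θ) ω).const_mul (c r * u ^ j r)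
      have h4 : ∑ r, c r * u ^ j r * (kk 15 * fderiv ℝ (w r) (kk n * θ, kk 15 * ω) (0, 1)) = 0 :=
        Finset.sum_eq_zero fun r _ => by rw [(hw r).fy _ _ hy]; ring
      rwa [h4] at h3
    simpa using h2.ofReal_comp
  have h5 : HasDerivAt (fun s : ℝ => ((u ^ 15 : ℝ) : ℂ) * ee (R (kk 15 * s) + 1 / 2) +
      (A : ℂ) * ee (S (kk n * θ) + 1 / 2)) (((u ^ 15 : ℝ) : ℂ) *
        (((kk 15 * deriv R (kk 15 * ω) * (2 * π) : ℝ) : ℂ) * (Complex.I * ee (R (kk 15 * ω) + 1 / 2)))) ω :=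
    ((hasDerivAt_eeS hRd (kk 15) ω).const_mul ((u ^ 15 : ℝ) : ℂ)).add_const _
  have h6 := h5.sub h1
  have e : ((u ^ 15 * (kk 15 * deriv R (kk 15 * ω) * (2 * π)) : ℝ) : ℂ) *
      (Complex.I * ee (R (kk 15 * ω) + 1 / 2)) = ((u ^ 15 : ℝ) : ℂ) *
        (((kk 15 * deriv R (kk 15 * ω) * (2 * π) : ℝ) : ℂ) * (Complex.I * ee (R (kk 15 * ω) + 1 / 2))) - 0 := by
    push_cast; ring
  rw [e]
  exact h6

theorem kL_du (hS : Stc S) (hR : Stc R) (hw : ∀ r, Win S R (w r)) {θ u ω : ℝ} (hu : 0 < u) :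
    fderiv ℝ (kL n S R A c j w) (θ, u, ω) (0, 1, 0) =
      ((15 * u ^ 14 : ℝ) : ℂ) * ee (R (kk 15 * ω) + 1 / 2) -
        ((∑ r, c r * (j r * u ^ (j r - 1)) * w r (kk n * θ, kk 15 * ω) : ℝ) : ℂ) := by
  refine part2 ((contDiffAt_kL hS hR hw hu).differentiableAt (by norm_num)) ?_
  have h1 : HasDerivAt (fun s : ℝ => (dL n c j w (θ, s, ω) : ℂ))
      ((∑ r, c r * (j r * u ^ (j r - 1)) * w r (kk n * θ, kk 15 * ω) : ℝ) : ℂ) u := by
    have h2 : HasDerivAt (fun s : ℝ => dL n c j w (θ, s, ω))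
        (∑ r, c r * (j r * u ^ (j r - 1)) * w r (kk n * θ, kk 15 * ω)) u := by
      show HasDerivAt (fun s : ℝ => ∑ r, c r * s ^ j r * w r (kk n * θ, kk 15 * ω)) _ u
      exact HasDerivAt.fun_sum fun r _ =>
        ((Real.hasDerivAt_rpow_const (Or.inl hu.ne')).const_mul (c r)).mul_const
          (w r (kk n * θ, kk 15 * ω))
    exact h2.ofReal_comp
  have h3 : HasDerivAt (fun s : ℝ => ((s ^ 15 : ℝ) : ℂ)) ((15 * u ^ 14 : ℝ) : ℂ) u := by
    have := (hasDerivAt_pow 15 u).ofReal_comp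
    simpa using this
  have h5 : HasDerivAt (fun s : ℝ => ((s ^ 15 : ℝ) : ℂ) * ee (R (kk 15 * ω) + 1 / 2) +
      (A : ℂ) * ee (S (kk n * θ) + 1 / 2)) (((15 * u ^ 14 : ℝ) : ℂ) * ee (R (kk 15 * ω) + 1 / 2)) u :=
    (h3.mul_const _).add_const _
  exact h5.sub h1

/-- **CLASS L IS REGULAR.** -/
theorem kL_reg (hn : 0 < n) (hS : Stc S) (hR : Stc R) (hw : ∀ r, Win S R (w r)) (hA : 0 < A) (hc : ∀ r, 0 ≤ c r)
    (hj : ∀ r, 0 ≤ j r ∧ j r ≤ 15)
    (hN : ∀ x y, deriv S x ≠ 0 → deriv R y ≠ 0 → (∀ r, c r * w r (x, y) = 0) ∨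
      ∃ t : ℝ, 0 < t ∧ t ^ 15 + A < ∑ r, c r * t ^ j r * w r (x, y))
    {θ u ω : ℝ} (hu : 0 < u) (h0 : kL n S R A c j w (θ, u, ω) = 0) (z : ℂ) :
    ∃ v, fderiv ℝ (kL n S R A c j w) (θ, u, ω) v = z := by
  set x := kk n * θ with hx_def
  set y := kk 15 * ω with hy_def
  set P : ℂ := ee (S x + 1 / 2) with hP
  set Q : ℂ := ee (R y + 1 / 2) with hQ
  set B : ℝ := ∑ r, c r * u ^ j r * w r (x, y) with hB
  set B' : ℝ := ∑ r, c r * (j r * u ^ (j r - 1)) * w r (x, y) with hB'
  have hB0 : 0 ≤ B := Finset.sum_nonneg fun r _ =>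
    mul_nonneg (mul_nonneg (hc r) (Real.rpow_nonneg hu.le _)) ((hw r).nn _)
  have hup : ∀ r, u * (j r * u ^ (j r - 1)) = j r * u ^ j r := fun r => by
    have h1 : u ^ j r = u ^ (j r - 1) * u := by
      rw [← Real.rpow_add_one hu.ne']; congr 1; ring
    rw [h1]; ring
  have hB'0 : 0 ≤ B' := Finset.sum_nonneg fun r _ =>
    mul_nonneg (mul_nonneg (hc r) (mul_nonneg (hj r).1 (Real.rpow_nonneg hu.le _))) ((hw r).nn _)
  have hB'1 : u * B' ≤ 15 * B := by
    rw [hB, hB', Finset.mul_sum, Finset.mul_sum]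
    refine Finset.sum_le_sum fun r _ => ?_
    have h1 : u * (c r * (j r * u ^ (j r - 1)) * w r (x, y)) =
        j r * (c r * u ^ j r * w r (x, y)) := by
      rw [show u * (c r * (j r * u ^ (j r - 1)) * w r (x, y)) =
        c r * (u * (j r * u ^ (j r - 1))) * w r (x, y) by ring, hup]; ring
    rw [h1]
    exact mul_le_mul_of_nonneg_right (hj r).2
      (mul_nonneg (mul_nonneg (hc r) (Real.rpow_nonneg hu.le _)) ((hw r).nn _))
  have e0 : ((u ^ 15 : ℝ) : ℂ) * Q + (A : ℂ) * P = (B : ℂ) := sub_eq_zero.1 h0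
  have hre : u ^ 15 * Q.re + A * P.re = B := by
    have := congrArg Complex.re e0
    simpa only [Complex.add_re, Complex.re_ofReal_mul, Complex.ofReal_re] using this
  have him : u ^ 15 * Q.im + A * P.im = 0 := by
    have := congrArg Complex.im e0
    simpa only [Complex.add_im, Complex.im_ofReal_mul, Complex.ofReal_im] using this
  have hPn : P.re ^ 2 + P.im ^ 2 = 1 := by
    have h1 := norm_ee (S x + 1 / 2)
    have h2 := Complex.sq_norm (ee (S x + 1 / 2))
    rw [h1, Complex.normSq_apply] at h2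
    rw [hP]; linarith
  have hQn : Q.re ^ 2 + Q.im ^ 2 = 1 := by
    have h1 := norm_ee (R y + 1 / 2)
    have h2 := Complex.sq_norm (ee (R y + 1 / 2))
    rw [h1, Complex.normSq_apply] at h2
    rw [hQ]; linarith
  have hu15 : (0 : ℝ) < u ^ 15 := by positivity
  have hpi := Real.pi_pos
  have hk := kk_pos hn
  have hk' := kk_pos (n := 15) (by norm_num)
  have hflat : ∀ {S : ℝ → ℝ} (_ : Stc S) (s : ℝ), deriv S s = 0 → ee (S s + 1 / 2) = -1 :=
    fun {S} hS s hs => by
      obtain ⟨k, hk⟩ := hS.flat s hs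
      rw [ee_add_half, hk, ee_int]
  have hrise : ∀ {S : ℝ → ℝ} (_ : Stc S) (s : ℝ), deriv S s ≠ 0 →
      (ee (S s + 1 / 2)).im = 0 → ee (S s + 1 / 2) = 1 :=
    fun {S} hS s hs h => by
      rw [ee_add_half] at h ⊢
      rw [ee_one (by simpa using h) (hS.rise s hs)]; ring
  have dadd : ∀ v v', fderiv ℝ (kL n S R A c j w) (θ, u, ω) (v + v') =
      fderiv ℝ (kL n S R A c j w) (θ, u, ω) v + fderiv ℝ (kL n S R A c j w) (θ, u, ω) v' :=
    fun v v' => map_add _ v v'
  have dsm : ∀ (r : ℝ) v, fderiv ℝ (kL n S R A c j w) (θ, u, ω) (r • v) =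
      (r : ℂ) * fderiv ℝ (kL n S R A c j w) (θ, u, ω) v :=
    fun r v => by rw [map_smul, Complex.real_smul]
  have du := kL_du (n := n) (A := A) (c := c) (j := j) hS hR hw (θ := θ) (ω := ω) hu
  rw [← hy_def, ← hx_def, ← hQ, ← hB'] at du
  by_cases hxf : deriv S x = 0
  · have hP1 : P = -1 := hflat hS x hxf
    by_cases hyf : deriv R y = 0
    · have hQ1 : Q = -1 := hflat hR y hyf
      rw [hP1, hQ1] at hre
      simp only [Complex.neg_re, Complex.one_re] at hre
      linarith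
    · have dω := kL_dω (n := n) (A := A) (c := c) (j := j) hS hR hw (θ := θ) hu hyf
      rw [← hy_def, ← hQ] at dω
      rw [hP1] at him hre
      simp only [Complex.neg_re, Complex.one_re, Complex.neg_im, Complex.one_im] at him hre
      have hQi : Q.im = 0 := by
        have : u ^ 15 * Q.im = 0 := by linarith
        exact (mul_eq_zero.1 this).resolve_left hu15.ne'
      have hQ1 : Q = 1 := hrise hR y hyf hQi
      rw [hQ1] at du dω hre
      simp only [Complex.one_re] at hre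
      have hpos : 0 < 15 * u ^ 14 - B' := by
        have h1 : 0 < u * (15 * u ^ 14 - B') := by
          have : u * (15 * u ^ 14 - B') = 15 * u ^ 15 - u * B' := by ring
          rw [this]; nlinarith
        exact (pos_iff_pos_of_mul_pos h1).1 hu
      refine onto_of_two dadd dsm du dω ?_ z
      simp only [mul_one, Complex.sub_re, Complex.ofReal_re, Complex.sub_im, Complex.ofReal_im,
        Complex.re_ofReal_mul, Complex.im_ofReal_mul, Complex.I_re, Complex.I_im]
      have : deriv R y ≠ 0 := hyf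
      have h2 : (15 * u ^ 14 - B') * (u ^ 15 * (kk 15 * deriv R y * (2 * π))) ≠ 0 := by
        refine mul_ne_zero hpos.ne' (mul_ne_zero hu15.ne' (mul_ne_zero (mul_ne_zero hk'.ne' this) ?_))
        positivity
      intro h3
      apply h2
      linarith
  · have dθ := kL_dθ (n := n) (A := A) (c := c) (j := j) hS hR hw (ω := ω) hu hxf
    rw [← hx_def, ← hP] at dθ
    by_cases hyf : deriv R y = 0
    · have hQ1 : Q = -1 := hflat hR y hyf
      rw [hQ1] at him hre du
      simp only [Complex.neg_re, Complex.one_re, Complex.neg_im, Complex.one_im] at him hre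
      have hPi : P.im = 0 := by
        have : A * P.im = 0 := by linarith
        exact (mul_eq_zero.1 this).resolve_left hA.ne'
      have hP1 : P = 1 := hrise hS x hxf hPi
      rw [hP1] at dθ
      refine onto_of_two dadd dsm du dθ ?_ z
      simp only [mul_one, Complex.sub_re, Complex.ofReal_re, Complex.sub_im, Complex.ofReal_im,
        Complex.re_ofReal_mul, Complex.im_ofReal_mul, Complex.I_re, Complex.I_im, Complex.neg_re,
        Complex.neg_im, Complex.one_re, Complex.one_im]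
      have h2 : (15 * u ^ 14 + B') * (A * (kk n * deriv S x * (2 * π))) ≠ 0 := by
        refine mul_ne_zero (by positivity) (mul_ne_zero hA.ne' (mul_ne_zero
          (mul_ne_zero hk.ne' hxf) ?_))
        positivity
      intro h3
      apply h2
      linarith
    · have dω := kL_dω (n := n) (A := A) (c := c) (j := j) hS hR hw (θ := θ) hu hyf
      rw [← hy_def, ← hQ] at dω
      have hα : A * (kk n * deriv S x * (2 * π)) ≠ 0 :=
        mul_ne_zero hA.ne' (mul_ne_zero (mul_ne_zero hk.ne' hxf) (by positivity))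
      have hβ : u ^ 15 * (kk 15 * deriv R y * (2 * π)) ≠ 0 :=
        mul_ne_zero hu15.ne' (mul_ne_zero (mul_ne_zero hk'.ne' hyf) (by positivity))
      set α := A * (kk n * deriv S x * (2 * π)) with hα_def
      set β := u ^ 15 * (kk 15 * deriv R y * (2 * π)) with hβ_def
      by_cases hpar : P.re * Q.im - P.im * Q.re = 0
      swap
      · refine onto_of_two dadd dsm dθ dω ?_ z
        simp only [Complex.re_ofReal_mul, Complex.im_ofReal_mul, Complex.I_mul_re,
          Complex.I_mul_im]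
        intro h3
        apply hpar
        have : α * β * (P.re * Q.im - P.im * Q.re) = 0 := by linarith
        exact (mul_eq_zero.1 this).resolve_left (mul_ne_zero hα hβ)
      by_cases hQi : Q.im = 0
      · have hPi : P.im = 0 := by
          have : A * P.im = 0 := by rw [hQi] at him; linarith
          exact (mul_eq_zero.1 this).resolve_left hA.ne'
        have hP1 : P = 1 := hrise hS x hxf hPi
        have hQ1 : Q = 1 := hrise hR y hyf hQi
        rw [hP1, hQ1] at hre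
        simp only [Complex.one_re, mul_one] at hre
        rw [hQ1] at du dω
        have hne : 15 * u ^ 14 - B' ≠ 0 := by
          intro h3
          have h4 : 15 * u ^ 15 = u * B' := by
            have : u * (15 * u ^ 14 - B') = 0 := by rw [h3, mul_zero]
            linarith [show u * (15 * u ^ 14 - B') = 15 * u ^ 15 - u * B' by ring]
          rcases hN x y hxf hyf with h5 | ⟨t, ht, h5⟩
          · have : B = 0 := Finset.sum_eq_zero fun r _ => by
              rw [show c r * u ^ j r * w r (x, y) = (c r * w r (x, y)) * u ^ j r by ring, h5 r,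
                zero_mul]
            linarith
          · have h6 := no_double (A := A) (u := u) (c := fun r => c r * w r (x, y)) (j := j)
              (fun r => mul_nonneg (hc r) ((hw r).nn _)) hj hu
              (by rw [hre, hB]; exact Finset.sum_congr rfl fun r _ => by ring)
              (by
                rw [h4, hB', Finset.mul_sum]
                refine Finset.sum_congr rfl fun r _ => ?_
                rw [show u * (c r * (j r * u ^ (j r - 1)) * w r (x, y)) =
                  c r * w r (x, y) * (u * (j r * u ^ (j r - 1))) by ring, hup]) ht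
            have h7 : ∑ r, c r * t ^ j r * w r (x, y) =
                ∑ r, c r * w r (x, y) * t ^ j r :=
              Finset.sum_congr rfl fun r _ => by ring
            linarith
        refine onto_of_two dadd dsm du dω ?_ z
        simp only [mul_one, Complex.sub_re, Complex.ofReal_re, Complex.sub_im, Complex.ofReal_im,
          Complex.re_ofReal_mul, Complex.im_ofReal_mul, Complex.I_re, Complex.I_im]
        intro h3
        have : (15 * u ^ 14 - B') * β = 0 := by linarith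
        exact (mul_ne_zero hne hβ) this
      · have hB1 : B = 0 := by
          have h1 : B * Q.im = 0 := by
            have h2 : B * Q.im = u ^ 15 * Q.re * Q.im + A * (P.re * Q.im) := by
              rw [← hre]; ring
            have h3 : P.re * Q.im = P.im * Q.re := by linarith
            rw [h2, h3]
            have h4 : u ^ 15 * Q.re * Q.im + A * (P.im * Q.re) =
                Q.re * (u ^ 15 * Q.im + A * P.im) := by ring
            rw [h4, him, mul_zero]
          exact (mul_eq_zero.1 h1).resolve_right hQi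
        have hB'z : B' = 0 := by
          have h1 : u * B' ≤ 0 := by rw [hB1] at hB'1; linarith
          have h2 : 0 ≤ u * B' := mul_nonneg hu.le hB'0
          exact (mul_eq_zero.1 (le_antisymm h1 h2)).resolve_left hu.ne'
        rw [hB'z] at du
        refine onto_of_two dadd dsm du dω ?_ z
        simp only [Complex.ofReal_zero, sub_zero, Complex.re_ofReal_mul, Complex.im_ofReal_mul,
          Complex.I_mul_re, Complex.I_mul_im]
        intro h3
        have h4 : 15 * u ^ 14 * β * (Q.re ^ 2 + Q.im ^ 2) = 0 := by linarith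
        rw [hQn, mul_one] at h4
        exact (mul_ne_zero (by positivity) hβ) h4

end reg2

end Crest.Agent.R267.NSL_855
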