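import Crest.Agent.R267.NSOk_966
import Crest.Agent.R267.NSL_855

/-!
# Row 267, planar arms: facts on `Sp`, `hat`, `fl`, `kl` (helper88)

* `lobe_of`, `gap_of`: `Sp' ≠ 0` on the open lobes `(k, k + 1/2)`, `Sp' = 0` on `[k - 1/2, k]`;
* `stc_Sp`, `stc_last`: own phases are staircases (`NSL_855.Stc`), the second one with signs;
* `win_bilG`, `win_fl`, `win_kl`: windows (`NSL_855.Win`), `fl_cube`, `kl_cube`;
* `hat_int`, `fderiv_hat_zero`: where `fl s ≠ 0`, `hat s` is an integer and its gradient is `0`;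
* `coupling_of_flat`: only couplings are flat somewhere.
-/

set_option autoImplicit false
set_option linter.unusedSectionVars false

noncomputable section

open Set Filter Topology Finset
open scoped ContDiff
open Crest.Agent.R267.T3aDefs_957 (st)
open Crest.Agent.R267.Calc_957
open Crest.Agent.R267.NSDefs_966
open Crest.Agent.R267.NSHat_966 Crest.Agent.R267.NSOk_966
open Crest.Agent.R267.NSL_855 (Stc Win)

namespace Crest.Agent.R267.NSFact_88

/-! ### the profile -/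

theorem deriv_Sp (k : ℤ) {x : ℝ} (h1 : (k : ℝ) - 1 / 2 < x) (h2 : x < k + 1) :
    deriv Sp x = 2 * std (2 * (x - k)) := (hasDerivAt_Sp k h1 h2).deriv

/-- where `Sp` moves: the open lobes. -/
theorem lobe_of {x : ℝ} (h : deriv Sp x ≠ 0) : ∃ k : ℤ, (k : ℝ) < x ∧ x < k + 1 / 2 := by
  obtain ⟨k, h1, h2⟩ := exists_cell x
  rw [deriv_Sp k h1 h2] at h
  refine ⟨k, ?_, ?_⟩
  · by_contra h3
    exact h (by rw [std_of_le (by linarith)]; ring)
  · by_contra h3
    exact h (by rw [std_of_ge (by linarith)]; ring)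

/-- where `Sp` does not move: the closed gaps. -/
theorem gap_of {x : ℝ} (h : deriv Sp x = 0) : ∃ k : ℤ, (k : ℝ) - 1 / 2 ≤ x ∧ x ≤ k := by
  obtain ⟨k, h1, h2⟩ := exists_cell x
  rw [deriv_Sp k h1 h2] at h
  rcases le_or_gt x k with h3 | h3
  · exact ⟨k, h1.le, h3⟩
  · rcases lt_or_ge x (k + 1 / 2) with h4 | h4
    · have := std_pos (x := 2 * (x - k)) (by linarith) (by linarith)
      linarith
    · exact ⟨k + 1, by push_cast; linarith, by push_cast; linarith⟩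

theorem Sp_gap (k : ℤ) {x : ℝ} (h1 : (k : ℝ) - 1 / 2 ≤ x) (h2 : x ≤ k) : Sp x = k := by
  rw [Sp_eq k h1 (by linarith), st_of_le (by linarith), add_zero]

theorem deriv_Sp_gap (k : ℤ) {x : ℝ} (h1 : (k : ℝ) - 1 / 2 ≤ x) (h2 : x ≤ k) :
    deriv Sp x = 0 := by
  rcases h1.lt_or_eq with h3 | h3
  · rw [deriv_Sp k h3 (by linarith), std_of_le (by linarith), mul_zero]
  · rw [deriv_Sp (k - 1) (by push_cast; linarith) (by push_cast; linarith),
      std_of_ge (by push_cast; linarith), mul_zero]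

theorem deriv_Sp_lobe (k : ℤ) {x : ℝ} (h1 : (k : ℝ) < x) (h2 : x < k + 1 / 2) :
    0 < deriv Sp x := by
  rw [deriv_Sp k (by linarith) (by linarith)]
  have := std_pos (x := 2 * (x - k)) (by linarith) (by linarith)
  linarith

/-- between two integers. -/
theorem not_int {c : ℤ} {z : ℝ} (h1 : (c : ℝ) < z) (h2 : z < c + 1) (n : ℤ) : z ≠ n := by
  rintro rfl
  have a : c < n := by exact_mod_cast h1
  have b : n < c + 1 := by exact_mod_cast h2
  omega

theorem stc_Sp : Stc Sp where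
  smooth := contDiff_Sp
  flat := fun x h => by
    obtain ⟨k, h1, h2⟩ := gap_of h
    exact ⟨k, Sp_gap k h1 h2⟩
  rise := fun x h => by
    obtain ⟨k, h1, h2⟩ := lobe_of h
    rw [Sp_eq k (by linarith) (by linarith)]
    have a := st_pos (x := 2 * (x - k)) (by linarith)
    have b := st_lt_one (x := 2 * (x - k)) (by linarith)
    exact not_int (by linarith) (by linarith)

/-! ### the own phase of `v` -/

variable {m : ℕ} {S : NS m}

theorem last_eq (hS : S.Ok) (k : ℤ) {x : ℝ} (h1 : (k : ℝ) - 1 / 2 ≤ x) (h2 : x ≤ k + 1) :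
    S.hat (Fin.last (m + 1)) x 0 = S.N (Fin.last (m + 1)) k 0 + S.sg k * st (2 * (x - k)) := by
  unfold NS.hat
  have h := bilS_eq (fun k l => (S.N (Fin.last (m + 1)) k l : ℝ)) k 0 (y := 0) h1 h2 (by norm_num)
    (by norm_num)
  rw [h]
  have e1 : S.N (Fin.last (m + 1)) k (0 + 1) = S.N (Fin.last (m + 1)) k 0 := hS.N1 _ _ _
  have e2 : S.N (Fin.last (m + 1)) (k + 1) (0 + 1) = S.N (Fin.last (m + 1)) (k + 1) 0 := hS.N1 _ _ _
  have e3 := hS.N1s k 0
  rw [e1, e2, e3]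
  unfold bf
  push_cast
  ring

theorem hasDerivAt_last (hS : S.Ok) (k : ℤ) {x : ℝ} (h1 : (k : ℝ) - 1 / 2 < x) (h2 : x < k + 1) :
    HasDerivAt (fun x => S.hat (Fin.last (m + 1)) x 0) (S.sg k * (2 * std (2 * (x - k)))) x := by
  have h := (((hasDerivAt_Sp k h1 h2).sub_const (k : ℝ)).const_mul (S.sg k : ℝ)).const_add
    (S.N (Fin.last (m + 1)) k 0 : ℝ)
  refine h.congr_of_eventuallyEq ?_
  filter_upwards [(isOpen_cell k).mem_nhds ⟨h1, h2⟩] with z hz
  rw [last_eq hS k hz.1.le hz.2.le, Sp_eq k hz.1.le hz.2.le]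
  ring

theorem deriv_last (hS : S.Ok) (k : ℤ) {x : ℝ} (h1 : (k : ℝ) - 1 / 2 < x) (h2 : x < k + 1) :
    deriv (fun x => S.hat (Fin.last (m + 1)) x 0) x = S.sg k * deriv Sp x := by
  rw [(hasDerivAt_last hS k h1 h2).deriv, deriv_Sp k h1 h2]

theorem sg_ne (hS : S.Ok) (k : ℤ) : (S.sg k : ℝ) ≠ 0 := by
  rcases hS.sg1 k with h | h <;> rw [h] <;> norm_num

theorem deriv_last_iff (hS : S.Ok) (x : ℝ) :
    deriv (fun x => S.hat (Fin.last (m + 1)) x 0) x = 0 ↔ deriv Sp x = 0 := by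
  obtain ⟨k, h1, h2⟩ := exists_cell x
  rw [deriv_last hS k h1 h2, mul_eq_zero]
  exact ⟨fun h => h.resolve_left (sg_ne hS k), Or.inr⟩

theorem stc_last (hS : S.Ok) : Stc fun x => S.hat (Fin.last (m + 1)) x 0 where
  smooth := (contDiff_hat (S := S) (Fin.last (m + 1))).comp (f := fun x : ℝ => (x, (0 : ℝ)))
    (by fun_prop)
  flat := fun x h => by
    obtain ⟨k, h1, h2⟩ := gap_of ((deriv_last_iff hS x).1 h)
    refine ⟨S.N (Fin.last (m + 1)) k 0, ?_⟩
    rw [last_eq hS k h1 (by linarith), st_of_le (by linarith), mul_zero, add_zero]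
  rise := fun x h => by
    obtain ⟨k, h1, h2⟩ := lobe_of (fun h' => h ((deriv_last_iff hS x).2 h'))
    rw [last_eq hS k (by linarith) (by linarith)]
    have a := st_pos (x := 2 * (x - k)) (by linarith)
    have b := st_lt_one (x := 2 * (x - k)) (by linarith)
    rcases hS.sg1 k with e | e <;> rw [e]
    · refine not_int (c := S.N (Fin.last (m + 1)) k 0) ?_ ?_ <;> push_cast <;> linarith
    · refine not_int (c := S.N (Fin.last (m + 1)) k 0 - 1) ?_ ?_ <;> push_cast <;> linarith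

/-! ### windows -/

theorem bil_nonneg {W : ℤ → ℤ → ℝ} (h : ∀ k l, 0 ≤ W k l) (X Y : ℝ) : 0 ≤ bil W X Y := by
  unfold bil
  have a0 := Int.fract_nonneg X
  have a1 := (Int.fract_lt_one X).le
  have b0 := Int.fract_nonneg Y
  have b1 := (Int.fract_lt_one Y).le
  have a1' : 0 ≤ 1 - Int.fract X := by linarith
  have b1' : 0 ≤ 1 - Int.fract Y := by linarith
  have := h ⌊X⌋ ⌊Y⌋
  have := h (⌊X⌋ + 1) ⌊Y⌋
  have := h ⌊X⌋ (⌊Y⌋ + 1)
  have := h (⌊X⌋ + 1) (⌊Y⌋ + 1)
  positivity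

theorem bil_le_one {W : ℤ → ℤ → ℝ} (h : ∀ k l, W k l ≤ 1) (X Y : ℝ) : bil W X Y ≤ 1 := by
  have h1 := bil_nonneg (W := fun k l => 1 - W k l) (fun k l => by have := h k l; linarith) X Y
  unfold bil at *
  nlinarith

theorem Gp_lobe (k : ℤ) {x : ℝ} (h1 : (k : ℝ) ≤ x) (h2 : x ≤ k + 1 / 2) : Gp x = k := by
  rw [Gp_eq k h1 (by linarith), st_of_le (by linarith), add_zero]

/-- `w` does not move in `x`. -/
theorem fderiv_x_zero {w : ℝ × ℝ → ℝ} {x y : ℝ} (hw : DifferentiableAt ℝ w (x, y))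
    (h : ∀ᶠ s in 𝓝 x, w (s, y) = w (x, y)) : fderiv ℝ w (x, y) (1, 0) = 0 := by
  have h1 : HasDerivAt (fun s : ℝ => ((s, y) : ℝ × ℝ)) (1, 0) x :=
    (hasDerivAt_id x).prodMk (hasDerivAt_const x y)
  have h2 := hw.hasFDerivAt.comp_hasDerivAt x h1
  have h3 : HasDerivAt (fun s : ℝ => w (s, y)) 0 x :=
    (hasDerivAt_const x (w (x, y))).congr_of_eventuallyEq h
  exact h2.unique h3

theorem fderiv_y_zero {w : ℝ × ℝ → ℝ} {x y : ℝ} (hw : DifferentiableAt ℝ w (x, y))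
    (h : ∀ᶠ s in 𝓝 y, w (x, s) = w (x, y)) : fderiv ℝ w (x, y) (0, 1) = 0 := by
  have h1 : HasDerivAt (fun s : ℝ => ((x, s) : ℝ × ℝ)) (0, 1) y :=
    (hasDerivAt_const y x).prodMk (hasDerivAt_id y)
  have h2 := hw.hasFDerivAt.comp_hasDerivAt y h1
  have h3 : HasDerivAt (fun s : ℝ => w (x, s)) 0 y :=
    (hasDerivAt_const y (w (x, y))).congr_of_eventuallyEq h
  exact h2.unique h3

theorem Gp_ev {x : ℝ} (h : deriv Sp x ≠ 0) : ∀ᶠ s in 𝓝 x, Gp s = Gp x := by
  obtain ⟨k, h1, h2⟩ := lobe_of h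
  filter_upwards [isOpen_Ioo.mem_nhds (show x ∈ Ioo (k : ℝ) (k + 1 / 2) from ⟨h1, h2⟩)] with s hs
  rw [Gp_lobe k hs.1.le hs.2.le, Gp_lobe k h1.le h2.le]

theorem win_bilG {W : ℤ → ℤ → ℝ} (h0 : ∀ k l, 0 ≤ W k l) {S R : ℝ → ℝ}
    (hS : ∀ x, deriv S x ≠ 0 → deriv Sp x ≠ 0) (hR : ∀ x, deriv R x ≠ 0 → deriv Sp x ≠ 0) :
    Win S R fun z => bil W (Gp z.1) (Gp z.2) where
  smooth := contDiff_bilG W
  nn := fun _ => bil_nonneg h0 _ _
  fx := fun x y h => by
    refine fderiv_x_zero (((contDiff_bilG W).differentiable (by norm_num)) _) ?_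
    filter_upwards [Gp_ev (hS x h)] with s hs
    simp only [hs]
  fy := fun x y h => by
    refine fderiv_y_zero (((contDiff_bilG W).differentiable (by norm_num)) _) ?_
    filter_upwards [Gp_ev (hR y h)] with s hs
    simp only [hs]

theorem ite01 (p : Prop) [Decidable p] : (0 : ℝ) ≤ (if p then 1 else 0) ∧
    (if p then (1 : ℝ) else 0) ≤ 1 := by
  split_ifs <;> norm_num

theorem win_fl (hS : S.Ok) (s : Fin (m + 2)) :
    Win (fun x => S.hat (Fin.last (m + 1)) x 0) Sp fun z => S.fl s z.1 z.2 :=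
  win_bilG (fun _ _ => (ite01 _).1) (fun x h h' => h ((deriv_last_iff hS x).2 h')) fun _ h => h

theorem win_kl (hS : S.Ok) :
    Win (fun x => S.hat (Fin.last (m + 1)) x 0) Sp fun z => S.kl z.1 z.2 :=
  win_bilG (fun _ _ => (ite01 _).1) (fun x h h' => h ((deriv_last_iff hS x).2 h')) fun _ h => h

theorem fl_nonneg (S : NS m) (s : Fin (m + 2)) (x y : ℝ) : 0 ≤ S.fl s x y :=
  bil_nonneg (fun _ _ => (ite01 _).1) _ _

theorem fl_le_one (S : NS m) (s : Fin (m + 2)) (x y : ℝ) : S.fl s x y ≤ 1 :=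
  bil_le_one (fun _ _ => (ite01 _).2) _ _

theorem kl_nonneg (S : NS m) (x y : ℝ) : 0 ≤ S.kl x y :=
  bil_nonneg (fun _ _ => (ite01 _).1) _ _

theorem kl_le_one (S : NS m) (x y : ℝ) : S.kl x y ≤ 1 :=
  bil_le_one (fun _ _ => (ite01 _).2) _ _

/-- values on a cube. -/
theorem fl_cube (S : NS m) (s : Fin (m + 2)) (k l : ℤ) {x y : ℝ} (h1 : (k : ℝ) ≤ x)
    (h2 : x ≤ k + 1 / 2) (h3 : (l : ℝ) ≤ y) (h4 : y ≤ l + 1 / 2) :
    S.fl s x y = if S.flat s k l then 1 else 0 :=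
  bilG_lobe _ k l h1 h2 h3 h4

theorem kl_cube (S : NS m) (k l : ℤ) {x y : ℝ} (h1 : (k : ℝ) ≤ x)
    (h2 : x ≤ k + 1 / 2) (h3 : (l : ℝ) ≤ y) (h4 : y ≤ l + 1 / 2) :
    S.kl x y = if S.kill k l then 1 else 0 :=
  bilG_lobe _ k l h1 h2 h3 h4

/-- the derivative of a window in `x` vanishes on the closed lobes and `hat` does not move in `x` in
the gaps. -/
theorem deriv_fl_x (S : NS m) (s : Fin (m + 2)) {x y : ℝ} (h : deriv Sp x ≠ 0) :
    deriv (fun x' => S.fl s x' y) x = 0 := by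
  have h1 : (fun x' => S.fl s x' y) =ᶠ[𝓝 x] fun _ => S.fl s x y := by
    filter_upwards [Gp_ev h] with z hz
    unfold NS.fl
    rw [hz]
  rw [h1.deriv_eq, deriv_const]

theorem deriv_fl_y (S : NS m) (s : Fin (m + 2)) {x y : ℝ} (h : deriv Sp y ≠ 0) :
    deriv (fun y' => S.fl s x y') y = 0 := by
  have h1 : (fun y' => S.fl s x y') =ᶠ[𝓝 y] fun _ => S.fl s x y := by
    filter_upwards [Gp_ev h] with z hz
    unfold NS.fl
    rw [hz]
  rw [h1.deriv_eq, deriv_const]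

/-! ### `hat` where `fl ≠ 0` -/

/-- only couplings are flat somewhere. -/
theorem coupling_of_flat (hS : S.Ok) {s : Fin (m + 2)} {k l : ℤ} (h : S.flat s k l) :
    ∃ s' : Fin m, s = NS.ix s' := by
  induction s using Fin.cases with
  | zero =>
    have := h.2.1
    rw [hS.N0, hS.N0] at this
    omega
  | succ s =>
    induction s using Fin.lastCases with
    | last =>
      have h1 := h.1
      rw [show (Fin.last m).succ = Fin.last (m + 1) from rfl, hS.N1s] at h1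
      rcases hS.sg1 k with e | e <;> rw [e] at h1 <;> omega
    | cast s => exact ⟨s, rfl⟩

end Crest.Agent.R267.NSFact_88
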