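import Crest.Agent.R267.NSDefs_966

/-!
# Row 267, C1: calculus of `Sp`, `Gp`, `bil`, `hat` (helper966)

`Sp_eq`, `Gp_eq`, `bil_eq`, `bilS_eq`, `bilG_eq` : local formulas; `contDiff_Sp`, `contDiff_bilS`,
`contDiff_bilG` : `C²`; periodicity.
-/

set_option autoImplicit false
set_option linter.unusedSectionVars false

noncomputable section

open Set Filter Topology Finset
open scoped ContDiff
open Crest.Agent.R267.T3aDefs_957 (st)
open Crest.Agent.R267.Calc_957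
open Crest.Agent.R267.NSDefs_966

namespace Crest.Agent.R267.NSHat_966

/-! ### the profiles -/

theorem Sp_eq (k : ℤ) {x : ℝ} (h1 : (k : ℝ) - 1 / 2 ≤ x) (h2 : x ≤ k + 1) :
    Sp x = k + st (2 * (x - k)) := by
  unfold Sp
  rcases lt_trichotomy x k with h | h | h
  · have hf : ⌊x⌋ = k - 1 := by
      rw [Int.floor_eq_iff]; push_cast; constructor <;> linarith
    have hfr : Int.fract x = x - (k - 1) := by
      rw [← Int.self_sub_floor, hf]; push_cast; ring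
    rw [hf, hfr, st_of_ge (by linarith), st_of_le (by linarith)]
    push_cast; ring
  · subst h
    simp
  · rcases h2.lt_or_eq with h3 | h3
    · have hf : ⌊x⌋ = k := by
        rw [Int.floor_eq_iff]; constructor <;> linarith
      have hfr : Int.fract x = x - k := by
        rw [← Int.self_sub_floor, hf]
      rw [hf, hfr]
    · have hf : ⌊x⌋ = k + 1 := by
        rw [Int.floor_eq_iff]; push_cast; constructor <;> linarith
      have hfr : Int.fract x = 0 := by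
        rw [← Int.self_sub_floor, hf]; push_cast; linarith
      rw [hf, hfr, st_of_ge (show (1 : ℝ) ≤ 2 * (x - k) by linarith), mul_zero,
        st_of_le le_rfl]
      push_cast; ring

theorem exists_cell (x : ℝ) : ∃ k : ℤ, (k : ℝ) - 1 / 2 < x ∧ x < k + 1 := by
  refine ⟨⌊x⌋, ?_, Int.lt_floor_add_one x⟩
  have := Int.floor_le x
  linarith

theorem exists_cell2 (x : ℝ) : ∃ k : ℤ, (k : ℝ) ≤ x ∧ x < k + 1 :=
  ⟨⌊x⌋, Int.floor_le x, Int.lt_floor_add_one x⟩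

theorem Sp_add_int (x : ℝ) (n : ℤ) : Sp (x + n) = Sp x + n := by
  unfold Sp
  rw [Int.floor_add_intCast, Int.fract_add_intCast]
  push_cast; ring

theorem Sp_add_nat (x : ℝ) (n : ℕ) : Sp (x + n) = Sp x + n := by
  have := Sp_add_int x n
  push_cast at this
  exact this

theorem Sp_add_15 (x : ℝ) : Sp (x + 15) = Sp x + 15 := by
  have := Sp_add_nat x 15
  push_cast at this
  exact this

theorem Gp_add_nat (x : ℝ) (n : ℕ) : Gp (x + n) = Gp x + n := by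
  unfold Gp
  rw [← Sp_add_nat]
  congr 1; ring

theorem Gp_add_15 (x : ℝ) : Gp (x + 15) = Gp x + 15 := by
  have := Gp_add_nat x 15
  push_cast at this
  exact this

/-- `Gp` on the cell `k` : lobe `[k, k+1/2]` flat, gap `[k+1/2, k+1]` rising. -/
theorem Gp_eq (k : ℤ) {x : ℝ} (h1 : (k : ℝ) ≤ x) (h2 : x ≤ k + 3 / 2) :
    Gp x = k + st (2 * (x - k) - 1) := by
  unfold Gp
  rw [Sp_eq k (by linarith) (by linarith)]
  congr 2; ring

theorem isOpen_cell (k : ℤ) : IsOpen {x : ℝ | (k : ℝ) - 1 / 2 < x ∧ x < k + 1} := by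
  have : {x : ℝ | (k : ℝ) - 1 / 2 < x ∧ x < k + 1} = Ioo ((k : ℝ) - 1 / 2) (k + 1) := rfl
  rw [this]; exact isOpen_Ioo

theorem contDiff_Sp : ContDiff ℝ 2 Sp := by
  rw [contDiff_iff_contDiffAt]
  intro x
  obtain ⟨k, h1, h2⟩ := exists_cell x
  have h : ContDiffAt ℝ 2 (fun x : ℝ => (k : ℝ) + st (2 * (x - k))) x :=
    (contDiff_const.add (contDiff_st.comp (contDiff_const.mul
      (contDiff_id.sub contDiff_const)))).contDiffAt
  refine h.congr_of_eventuallyEq ?_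
  filter_upwards [(isOpen_cell k).mem_nhds ⟨h1, h2⟩] with z hz
  exact Sp_eq k hz.1.le hz.2.le

theorem contDiff_Gp : ContDiff ℝ 2 Gp :=
  contDiff_Sp.comp (contDiff_id.sub contDiff_const)

theorem hasDerivAt_Sp (k : ℤ) {x : ℝ} (h1 : (k : ℝ) - 1 / 2 < x) (h2 : x < k + 1) :
    HasDerivAt Sp (2 * std (2 * (x - k))) x := by
  have h : HasDerivAt (fun x : ℝ => (k : ℝ) + st (2 * (x - k))) (2 * std (2 * (x - k))) x := by
    have h0 : HasDerivAt (fun x : ℝ => 2 * (x - k)) 2 x := by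
      have := ((hasDerivAt_id x).sub_const (k : ℝ)).const_mul 2
      simpa using this
    have := ((hasDerivAt_st (2 * (x - k))).comp x h0).const_add (k : ℝ)
    rw [mul_comm]
    exact this
  refine h.congr_of_eventuallyEq ?_
  filter_upwards [(isOpen_cell k).mem_nhds ⟨h1, h2⟩] with z hz
  exact Sp_eq k hz.1.le hz.2.le

/-! ### bilinear interpolation -/

/-- the bilinear formula. -/
def bf (a b c d μ ν : ℝ) : ℝ :=
  (1 - μ) * (1 - ν) * a + μ * (1 - ν) * b + (1 - μ) * ν * c + μ * ν * d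

theorem bil_eq (N : ℤ → ℤ → ℝ) (k l : ℤ) {μ ν : ℝ} (hμ : 0 ≤ μ) (hμ1 : μ ≤ 1) (hν : 0 ≤ ν)
    (hν1 : ν ≤ 1) :
    bil N (k + μ) (l + ν) = bf (N k l) (N (k + 1) l) (N k (l + 1)) (N (k + 1) (l + 1)) μ ν := by
  have key : ∀ (k : ℤ) (μ : ℝ), 0 ≤ μ → μ ≤ 1 →
      (⌊(k : ℝ) + μ⌋ = k ∧ Int.fract ((k : ℝ) + μ) = μ) ∨
      (μ = 1 ∧ ⌊(k : ℝ) + μ⌋ = k + 1 ∧ Int.fract ((k : ℝ) + μ) = 0) := by
    intro k μ h0 h1
    rcases h1.lt_or_eq with h | h
    · left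
      have hf : ⌊(k : ℝ) + μ⌋ = k := by rw [Int.floor_eq_iff]; constructor <;> linarith
      refine ⟨hf, ?_⟩
      rw [← Int.self_sub_floor, hf]; ring
    · right
      have hf : ⌊(k : ℝ) + μ⌋ = k + 1 := by
        rw [Int.floor_eq_iff]; push_cast; constructor <;> linarith
      refine ⟨h, hf, ?_⟩
      rw [← Int.self_sub_floor, hf]; push_cast; linarith
  unfold bil bf
  rcases key k μ hμ hμ1 with ⟨h1, h2⟩ | ⟨h0, h1, h2⟩ <;>
  rcases key l ν hν hν1 with ⟨h3, h4⟩ | ⟨h0', h3, h4⟩ <;>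
  rw [h1, h2, h3, h4]
  · subst h0'; ring
  · subst h0; ring
  · subst h0 h0'; ring

theorem bilS_eq (N : ℤ → ℤ → ℝ) (k l : ℤ) {x y : ℝ} (h1 : (k : ℝ) - 1 / 2 ≤ x) (h2 : x ≤ k + 1)
    (h3 : (l : ℝ) - 1 / 2 ≤ y) (h4 : y ≤ l + 1) :
    bil N (Sp x) (Sp y) = bf (N k l) (N (k + 1) l) (N k (l + 1)) (N (k + 1) (l + 1))
      (st (2 * (x - k))) (st (2 * (y - l))) := by
  rw [Sp_eq k h1 h2, Sp_eq l h3 h4]
  exact bil_eq N k l (st_nonneg _) (st_le_one _) (st_nonneg _) (st_le_one _)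

theorem bilG_eq (N : ℤ → ℤ → ℝ) (k l : ℤ) {x y : ℝ} (h1 : (k : ℝ) ≤ x) (h2 : x ≤ k + 3 / 2)
    (h3 : (l : ℝ) ≤ y) (h4 : y ≤ l + 3 / 2) :
    bil N (Gp x) (Gp y) = bf (N k l) (N (k + 1) l) (N k (l + 1)) (N (k + 1) (l + 1))
      (st (2 * (x - k) - 1)) (st (2 * (y - l) - 1)) := by
  rw [Gp_eq k h1 h2, Gp_eq l h3 h4]
  exact bil_eq N k l (st_nonneg _) (st_le_one _) (st_nonneg _) (st_le_one _)

/-- on the lobe cube `(k, l)` a window is constant. -/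
theorem bilG_lobe (N : ℤ → ℤ → ℝ) (k l : ℤ) {x y : ℝ} (h1 : (k : ℝ) ≤ x) (h2 : x ≤ k + 1 / 2)
    (h3 : (l : ℝ) ≤ y) (h4 : y ≤ l + 1 / 2) : bil N (Gp x) (Gp y) = N k l := by
  rw [bilG_eq N k l h1 (by linarith) h3 (by linarith), st_of_le (by linarith),
    st_of_le (by linarith)]
  unfold bf; ring

theorem bilS_add (N : ℤ → ℤ → ℝ) (n : ℤ) (c : ℝ) (h : ∀ k l, N (k + n) l = N k l + c) (X Y : ℝ) :
    bil N (X + n) Y = bil N X Y + c := by
  unfold bil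
  rw [Int.floor_add_intCast, Int.fract_add_intCast, h,
    show ⌊X⌋ + n + 1 = (⌊X⌋ + 1) + n by ring, h, h, h]
  ring

theorem bilS_add' (N : ℤ → ℤ → ℝ) (n : ℤ) (c : ℝ) (h : ∀ k l, N k (l + n) = N k l + c) (X Y : ℝ) :
    bil N X (Y + n) = bil N X Y + c := by
  unfold bil
  rw [Int.floor_add_intCast, Int.fract_add_intCast, h,
    show ⌊Y⌋ + n + 1 = (⌊Y⌋ + 1) + n by ring, h, h, h]
  ring

theorem contDiff_bf (a b c d : ℝ) {f g : ℝ × ℝ → ℝ} (hf : ContDiff ℝ 2 f) (hg : ContDiff ℝ 2 g) :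
    ContDiff ℝ 2 fun z => bf a b c d (f z) (g z) := by
  unfold bf; fun_prop

theorem contDiff_bilS (N : ℤ → ℤ → ℝ) : ContDiff ℝ 2 fun z : ℝ × ℝ => bil N (Sp z.1) (Sp z.2) := by
  rw [contDiff_iff_contDiffAt]
  intro z
  obtain ⟨k, h1, h2⟩ := exists_cell z.1
  obtain ⟨l, h3, h4⟩ := exists_cell z.2
  have h : ContDiffAt ℝ 2 (fun z : ℝ × ℝ => bf (N k l) (N (k + 1) l) (N k (l + 1))
      (N (k + 1) (l + 1)) (st (2 * (z.1 - k))) (st (2 * (z.2 - l)))) z :=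
    (contDiff_bf _ _ _ _
      (contDiff_st.comp (contDiff_const.mul (contDiff_fst.sub contDiff_const)))
      (contDiff_st.comp (contDiff_const.mul (contDiff_snd.sub contDiff_const)))).contDiffAt
  refine h.congr_of_eventuallyEq ?_
  have o1 : {z : ℝ × ℝ | (k : ℝ) - 1 / 2 < z.1 ∧ z.1 < k + 1} ∈ 𝓝 z :=
    ((isOpen_cell k).preimage continuous_fst).mem_nhds ⟨h1, h2⟩
  have o2 : {z : ℝ × ℝ | (l : ℝ) - 1 / 2 < z.2 ∧ z.2 < l + 1} ∈ 𝓝 z :=
    ((isOpen_cell l).preimage continuous_snd).mem_nhds ⟨h3, h4⟩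
  filter_upwards [o1, o2] with w hw hw'
  exact bilS_eq N k l hw.1.le hw.2.le hw'.1.le hw'.2.le

theorem contDiff_bilG (N : ℤ → ℤ → ℝ) : ContDiff ℝ 2 fun z : ℝ × ℝ => bil N (Gp z.1) (Gp z.2) := by
  have h := (contDiff_bilS N).comp (g := fun z : ℝ × ℝ => bil N (Sp z.1) (Sp z.2))
    (f := fun z : ℝ × ℝ => (z.1 - 1 / 2, z.2 - 1 / 2)) (by fun_prop)
  exact h

end Crest.Agent.R267.NSHat_966
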