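import Mathlib

/-!
# Row 267, N2 (helper796): regularity of the cubes of bilinear staircases, coefficient level
(helper966 #3428 (2))

`κ = Tq e(ν) + TX e(X) + Tp e(μ)`, `e(u) = exp(2 π i u)`, `X = μ ν` or `μ + ν - μ ν` (kept) or `0`
(killed). `(a, b)` is a covector, `Cc a b u = Re (ξ̄ e(u))`, `Sc a b u = Re (ξ̄ i e(u))`.
-/

set_option autoImplicit false

noncomputable section

open Real

namespace Crest.Agent.R267.NSKept_796

/-- component of `e(u)` -/
def Cc (a b u : ℝ) : ℝ := a * cos (2 * π * u) + b * sin (2 * π * u)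

/-- component of `i e(u)` -/
def Sc (a b u : ℝ) : ℝ := -a * sin (2 * π * u) + b * cos (2 * π * u)

theorem sq_add (a b u : ℝ) : Cc a b u ^ 2 + Sc a b u ^ 2 = a ^ 2 + b ^ 2 := by
  unfold Cc Sc
  have h := sin_sq_add_cos_sq (2 * π * u)
  linear_combination (a ^ 2 + b ^ 2) * h

theorem zero_of {a b u : ℝ} (h1 : Cc a b u = 0) (h2 : Sc a b u = 0) : a = 0 ∧ b = 0 := by
  have h := sq_add a b u
  rw [h1, h2] at h
  constructor <;> nlinarith [sq_nonneg a, sq_nonneg b]

theorem Cc_add (a b u v : ℝ) : Cc a b v = Cc a b u * cos (2 * π * (v - u)) +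
    Sc a b u * sin (2 * π * (v - u)) := by
  have h : 2 * π * v = 2 * π * u + 2 * π * (v - u) := by ring
  unfold Cc Sc
  rw [h, cos_add, sin_add]
  ring

theorem Sc_add (a b u v : ℝ) : Sc a b v = -Cc a b u * sin (2 * π * (v - u)) +
    Sc a b u * cos (2 * π * (v - u)) := by
  have h : 2 * π * v = 2 * π * u + 2 * π * (v - u) := by ring
  unfold Cc Sc
  rw [h, cos_add, sin_add]
  ring

/-- `sin (2 π u) = 0` with `0 < |u| < 1` means `|u| = 1 / 2` -/
theorem half_of_sin {u : ℝ} (h0 : u ≠ 0) (h1 : |u| < 1) (h : sin (2 * π * u) = 0) :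
    |u| = 1 / 2 := by
  obtain ⟨n, hn⟩ := sin_eq_zero_iff.1 h
  have hpi := pi_pos
  have h2 : (n : ℝ) = 2 * u := by
    have : (n : ℝ) * π = (2 * u) * π := by rw [hn]; ring
    exact mul_right_cancel₀ hpi.ne' this
  rw [abs_lt] at h1
  have h3 : (-2 : ℝ) < n := by rw [h2]; linarith
  have h4 : (n : ℝ) < 2 := by rw [h2]; linarith
  have h5 : (-2 : ℤ) < n := by exact_mod_cast h3
  have h6 : n < (2 : ℤ) := by exact_mod_cast h4
  have h7 : n = -1 ∨ n = 0 ∨ n = 1 := by omega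
  rcases h7 with h7 | h7 | h7
  · rw [h7] at h2
    have : u = -(1 / 2) := by push_cast at h2; linarith
    rw [this, abs_neg, abs_of_pos (by norm_num)]
  · rw [h7] at h2
    exact absurd (by push_cast at h2; linarith) h0
  · rw [h7] at h2
    have : u = 1 / 2 := by push_cast at h2; linarith
    rw [this, abs_of_pos (by norm_num)]

/-- `cos (2 π t) < 0`, `0 ≤ t` implies `1 / 4 < t` -/
theorem quarter_of_cos {t : ℝ} (h0 : 0 ≤ t) (h : cos (2 * π * t) < 0) : 1 / 4 < t := by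
  by_contra hcon
  have hpi := pi_pos
  refine absurd (cos_nonneg_of_neg_pi_div_two_le_of_le ?_ ?_) (not_le.2 h)
  · nlinarith
  · nlinarith [not_lt.1 hcon]

theorem fin_aux {T M c : ℝ} (hT : 0 < T) (hM : 0 < M) (h1 : -1 ≤ c) (h2 : c ≤ 1)
    (h : T + M * c ≤ 0) : c < 0 ∧ 0 ≤ T * c + M := by
  have hc : c < 0 := by
    by_contra hcon
    have := mul_nonneg hM.le (not_lt.1 hcon)
    linarith
  refine ⟨hc, ?_⟩
  have h3 : 0 ≤ (-(M * c) - T) * (-c) := mul_nonneg (by linarith) (by linarith)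
  have h4 : 0 ≤ M * ((1 - c) * (1 + c)) :=
    mul_nonneg hM.le (mul_nonneg (by linarith) (by linarith))
  nlinarith

/-- **core of the kept cubes**: `m + n = 1`, angles `t₁, t₂`. -/
theorem core {Tq TX Tp A B m n c s t₁ t₂ : ℝ} (hq : 0 < Tq) (hp : 0 < Tp) (hX : 0 < TX)
    (hA : 0 < A) (hB : 0 < B) (hm : 0 < m) (hn : 0 < n) (hcs : c ≠ 0 ∨ s ≠ 0)
    (hre : Tq * cos t₁ + TX + Tp * cos t₂ = 0) (him : Tq * sin t₁ + Tp * sin t₂ = 0)
    (hmn : m + n = 1)
    (hy : Tq * (-c * sin t₁ + s * cos t₁) + TX * m * s = 0)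
    (hl : A * (Tq * (c * cos t₁ + s * sin t₁)) = B * (Tp * (c * cos t₂ + s * sin t₂)))
    (hD : Tq * cos t₁ + m * TX ≠ 0 ∨ sin t₁ ≠ 0) :
    cos t₁ < 0 ∧ cos t₂ < 0 := by
  -- `D = Dr + i Di`
  set Dr := Tq * cos t₁ + m * TX with hDr
  set Di := Tq * sin t₁ with hDi
  have h1 : s * Dr = c * Di := by rw [hDr, hDi]; linarith
  have h2 : Dr = -(Tp * cos t₂ + n * TX) := by
    rw [hDr]; have : n = 1 - m := by linarith
    rw [this]; linarith
  have h3 : Di = -(Tp * sin t₂) := by rw [hDi]; linarith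
  -- scalar
  obtain ⟨t, ht0, htc, hts⟩ : ∃ t : ℝ, t ≠ 0 ∧ c = t * Dr ∧ s = t * Di := by
    by_cases hr : Dr = 0
    · have hi : Di ≠ 0 := by
        rcases hD with hD | hD
        · exact absurd hr hD
        · exact mul_ne_zero hq.ne' hD
      have hc : c = 0 := by
        rw [hr, mul_zero] at h1
        exact (mul_eq_zero.1 h1.symm).resolve_right hi
      have hs : s ≠ 0 := by
        rcases hcs with h | h
        · exact absurd hc h
        · exact h
      refine ⟨s / Di, div_ne_zero hs hi, ?_, ?_⟩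
      · rw [hr, mul_zero, hc]
      · field_simp
    · refine ⟨c / Dr, ?_, ?_, ?_⟩
      · intro h
        have hc : c = 0 := by
          rcases div_eq_zero_iff.1 h with h | h
          · exact h
          · exact absurd h hr
        rw [hc, zero_mul] at h1
        have hs : s = 0 := (mul_eq_zero.1 h1).resolve_right hr
        rcases hcs with h | h
        · exact h hc
        · exact h hs
      · field_simp
      · have : s = c * Di / Dr := by rw [← h1]; field_simp
        rw [this]; ring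
  have hp1 := sin_sq_add_cos_sq t₁
  have hp2 := sin_sq_add_cos_sq t₂
  have h4 : Dr * cos t₁ + Di * sin t₁ = Tq + m * TX * cos t₁ := by
    rw [hDr, hDi]; linear_combination Tq * hp1
  have h5 : Dr * cos t₂ + Di * sin t₂ = -(Tp + n * TX * cos t₂) := by
    rw [h2, h3]; linear_combination -Tp * hp2
  have h6 : A * (Tq * (Tq + m * TX * cos t₁)) + B * (Tp * (Tp + n * TX * cos t₂)) = 0 := by
    have h7 : c * cos t₁ + s * sin t₁ = t * (Tq + m * TX * cos t₁) := by
      rw [← h4, htc, hts]; ring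
    have h8 : c * cos t₂ + s * sin t₂ = -(t * (Tp + n * TX * cos t₂)) := by
      rw [htc, hts]; linear_combination t * h5
    rw [h7, h8] at hl
    have h9 : t * (A * (Tq * (Tq + m * TX * cos t₁)) + B * (Tp * (Tp + n * TX * cos t₂))) = 0 := by
      linarith
    exact (mul_eq_zero.1 h9).resolve_left ht0
  have hc1 := neg_one_le_cos t₁
  have hc1' := cos_le_one t₁
  have hc2 := neg_one_le_cos t₂
  have hc2' := cos_le_one t₂
  have hAq := mul_pos hA hq
  have hBp := mul_pos hB hp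
  have hmX := mul_pos hm hX
  have hnX := mul_pos hn hX
  -- one of the two is `≤ 0`
  rcases le_or_gt (Tq + m * TX * cos t₁) 0 with h7 | h7
  · obtain ⟨h8, h9⟩ := fin_aux hq hmX hc1 hc1' h7
    refine ⟨h8, ?_⟩
    have h10 : 0 ≤ Dr := h9
    rw [h2] at h10
    by_contra hcon
    have := mul_nonneg hp.le (not_lt.1 hcon)
    linarith
  · have h8 : Tp + n * TX * cos t₂ ≤ 0 := by
      by_contra hcon
      have h9 : 0 < A * (Tq * (Tq + m * TX * cos t₁)) := mul_pos hA (mul_pos hq h7)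
      have h10 : 0 < B * (Tp * (Tp + n * TX * cos t₂)) :=
        mul_pos hB (mul_pos hp (not_le.1 hcon))
      linarith
    obtain ⟨h9, h10⟩ := fin_aux hp hnX hc2 hc2' h8
    refine ⟨?_, h9⟩
    have h11 : Dr ≤ 0 := by rw [h2]; linarith
    by_contra hcon
    have := mul_nonneg hq.le (not_lt.1 hcon)
    rw [hDr] at h11
    linarith

theorem half_half {μ ν : ℝ} (hμ : 0 < μ) (hν : 0 < ν) (h : μ + ν = 1) (h1 : 1 / 4 < μ * μ)
    (h2 : 1 / 4 < ν * ν) : False := by
  have k8 : 1 / 2 < ν := by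
    by_contra hcon
    nlinarith [not_lt.1 hcon]
  have k9 : 1 / 2 < μ := by
    by_contra hcon
    nlinarith [not_lt.1 hcon]
  linarith

/-- data of a group: the three equations of a degenerate zero; `m = ∂X/∂ν`, `n = ∂X/∂μ`. -/
theorem kept_aux {μ ν X m n Tq TX Tp q x p a b : ℝ} (hμ : 0 < μ) (hμ' : μ < 1) (hν : 0 < ν)
    (hν' : ν < 1) (hm : 0 < m) (hn : 0 < n) (hmn : m + n = 1 → μ + ν = 1)
    (hX : (|ν - X| = ν * (1 - μ) ∧ |μ - X| = μ * (1 - ν)) ∨
      (|ν - X| = μ * (1 - ν) ∧ |μ - X| = ν * (1 - μ)))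
    (hq : 0 < Tq) (hp : 0 < Tp) (hTX : 0 ≤ TX) (hqx : x < q) (hxp : p < x)
    (K1 : Tq * cos (2 * π * ν) + TX * cos (2 * π * X) + Tp * cos (2 * π * μ) = 0)
    (K2 : Tq * sin (2 * π * ν) + TX * sin (2 * π * X) + Tp * sin (2 * π * μ) = 0)
    (hy : Tq * Sc a b ν + m * TX * Sc a b X = 0) (hx : Tp * Sc a b μ + n * TX * Sc a b X = 0)
    (hl : q * Tq * Cc a b ν + x * TX * Cc a b X + p * Tp * Cc a b μ = 0) : a = 0 ∧ b = 0 := by
  have E1 : Tq * Cc a b ν + TX * Cc a b X + Tp * Cc a b μ = 0 := by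
    unfold Cc; linear_combination a * K1 + b * K2
  have E2 : Tq * Sc a b ν + TX * Sc a b X + Tp * Sc a b μ = 0 := by
    unfold Sc; linear_combination -a * K2 + b * K1
  -- the two distances are not both `1 / 2`
  have hno : ¬ (sin (2 * π * (ν - X)) = 0 ∧ sin (2 * π * (μ - X)) = 0) := by
    rintro ⟨h1, h2⟩
    have b1 : 0 < ν * (1 - μ) := mul_pos hν (by linarith)
    have b2 : ν * (1 - μ) < 1 := by nlinarith
    have b3 : 0 < μ * (1 - ν) := mul_pos hμ (by linarith)
    have b4 : μ * (1 - ν) < 1 := by nlinarith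
    have h3 : 0 < |ν - X| ∧ |ν - X| < 1 ∧ 0 < |μ - X| ∧ |μ - X| < 1 := by
      rcases hX with ⟨h, h'⟩ | ⟨h, h'⟩ <;> rw [h, h'] <;> exact ⟨by assumption, by assumption,
        by assumption, by assumption⟩
    obtain ⟨h3, h4, h5, h6⟩ := h3
    have h7 := half_of_sin (abs_pos.1 h3) h4 h1
    have h8 := half_of_sin (abs_pos.1 h5) h6 h2
    have h9 : ν * (1 - μ) = 1 / 2 ∧ μ * (1 - ν) = 1 / 2 := by
      rcases hX with ⟨h, h'⟩ | ⟨h, h'⟩ <;> rw [h] at h7 <;> rw [h'] at h8
      · exact ⟨h7, h8⟩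
      · exact ⟨h8, h7⟩
    obtain ⟨h9, h10⟩ := h9
    have h11 : μ = ν := by linarith
    rw [h11] at h9
    nlinarith [sq_nonneg (ν - 1 / 2)]
  by_contra hab
  have hcs : Cc a b X ≠ 0 ∨ Sc a b X ≠ 0 := by
    by_contra h
    push Not at h
    exact hab (zero_of h.1 h.2)
  have hsum : TX * Sc a b X * (1 - (m + n)) = 0 := by linear_combination E2 - hy - hx
  rcases hTX.eq_or_lt with h0 | h0
  · -- no group `X`
    rw [← h0] at hy hx hl E1
    simp only [mul_zero, zero_mul, add_zero] at hy hx hl E1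
    have h1 : Sc a b ν = 0 := (mul_eq_zero.1 hy).resolve_left hq.ne'
    have h2 : (q - p) * (Tq * Cc a b ν) = 0 := by linear_combination hl - p * E1
    have h3 : Cc a b ν = 0 := by
      rcases mul_eq_zero.1 h2 with h | h
      · linarith
      · exact (mul_eq_zero.1 h).resolve_left hq.ne'
    exact hab (zero_of h3 h1)
  by_cases hs : Sc a b X = 0
  · have hc : Cc a b X ≠ 0 := hcs.resolve_right (not_not.2 hs)
    have h1 : Sc a b ν = 0 := by
      rw [hs, mul_zero, add_zero] at hy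
      exact (mul_eq_zero.1 hy).resolve_left hq.ne'
    have h2 : Sc a b μ = 0 := by
      rw [hs, mul_zero, add_zero] at hx
      exact (mul_eq_zero.1 hx).resolve_left hp.ne'
    rw [Sc_add a b X, hs, zero_mul, add_zero] at h1 h2
    exact hno ⟨(mul_eq_zero.1 h1).resolve_left (neg_ne_zero.2 hc),
      (mul_eq_zero.1 h2).resolve_left (neg_ne_zero.2 hc)⟩
  · have h1 : m + n = 1 := by
      rcases mul_eq_zero.1 hsum with h | h
      · exact absurd h (mul_ne_zero h0.ne' hs)
      · linarith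
    have h2 := hmn h1
    have eC : ∀ u : ℝ, cos (2 * π * (u - X)) = cos (2 * π * u) * cos (2 * π * X) +
        sin (2 * π * u) * sin (2 * π * X) := fun u => by rw [mul_sub, cos_sub]
    have eS : ∀ u : ℝ, sin (2 * π * (u - X)) = sin (2 * π * u) * cos (2 * π * X) -
        cos (2 * π * u) * sin (2 * π * X) := fun u => by rw [mul_sub, sin_sub]
    have hp1 := sin_sq_add_cos_sq (2 * π * X)
    have him : Tq * sin (2 * π * (ν - X)) + Tp * sin (2 * π * (μ - X)) = 0 := by
      rw [eS, eS]; linear_combination cos (2 * π * X) * K2 - sin (2 * π * X) * K1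
    have hre : Tq * cos (2 * π * (ν - X)) + TX + Tp * cos (2 * π * (μ - X)) = 0 := by
      rw [eC, eC]; linear_combination cos (2 * π * X) * K1 + sin (2 * π * X) * K2 - TX * hp1
    have key := core (A := q - x) (B := x - p) (c := Cc a b X) (s := Sc a b X) hq hp h0
      (by linarith) (by linarith) hm hn hcs hre him h1
      (by rw [Sc_add a b X ν] at hy; linear_combination hy)
      (by
        rw [← Cc_add a b X ν, ← Cc_add a b X μ]
        linear_combination hl - x * E1)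
      (by
        right
        intro h3
        refine hno ⟨h3, ?_⟩
        rw [h3, mul_zero, zero_add] at him
        exact (mul_eq_zero.1 him).resolve_left hp.ne')
    obtain ⟨k1, k2⟩ := key
    have ea : ∀ u : ℝ, cos (2 * π * |u|) = cos (2 * π * u) := by
      intro u
      rcases abs_choice u with h | h <;> rw [h]
      rw [mul_neg, cos_neg]
    rw [← ea] at k1 k2
    have k3 := quarter_of_cos (abs_nonneg _) k1
    have k4 := quarter_of_cos (abs_nonneg _) k2
    have k5 : 1 / 4 < ν * (1 - μ) ∧ 1 / 4 < μ * (1 - ν) := by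
      rcases hX with ⟨h, h'⟩ | ⟨h, h'⟩ <;> rw [h] at k3 <;> rw [h'] at k4
      · exact ⟨k3, k4⟩
      · exact ⟨k4, k3⟩
    have k6 : 1 - μ = ν := by linarith
    have k7 : 1 - ν = μ := by linarith
    rw [k6, k7] at k5
    exact half_half hμ hν h2 k5.2 k5.1

/-- **kept cubes, type `min`**: `X = μ ν`. -/
theorem kept_min {μ ν Tq TX Tp q x p a b : ℝ} (hμ : 0 < μ) (hμ' : μ < 1) (hν : 0 < ν)
    (hν' : ν < 1) (hq : 0 < Tq) (hp : 0 < Tp) (hTX : 0 ≤ TX) (hqx : x < q) (hxp : p < x)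
    (K1 : Tq * cos (2 * π * ν) + TX * cos (2 * π * (μ * ν)) + Tp * cos (2 * π * μ) = 0)
    (K2 : Tq * sin (2 * π * ν) + TX * sin (2 * π * (μ * ν)) + Tp * sin (2 * π * μ) = 0)
    (hy : Tq * Sc a b ν + μ * TX * Sc a b (μ * ν) = 0)
    (hx : Tp * Sc a b μ + ν * TX * Sc a b (μ * ν) = 0)
    (hl : q * Tq * Cc a b ν + x * TX * Cc a b (μ * ν) + p * Tp * Cc a b μ = 0) :
    a = 0 ∧ b = 0 := by
  refine kept_aux hμ hμ' hν hν' hμ hν (fun h => h) (Or.inl ⟨?_, ?_⟩) hq hp hTX hqx hxp K1 K2 hy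
    hx hl
  · rw [show ν - μ * ν = ν * (1 - μ) by ring, abs_of_pos (mul_pos hν (by linarith))]
  · rw [show μ - μ * ν = μ * (1 - ν) by ring, abs_of_pos (mul_pos hμ (by linarith))]

/-- **kept cubes, type `max`**: `X = μ + ν - μ ν`. -/
theorem kept_max {μ ν Tq TX Tp q x p a b : ℝ} (hμ : 0 < μ) (hμ' : μ < 1) (hν : 0 < ν)
    (hν' : ν < 1) (hq : 0 < Tq) (hp : 0 < Tp) (hTX : 0 ≤ TX) (hqx : x < q) (hxp : p < x)
    (K1 : Tq * cos (2 * π * ν) + TX * cos (2 * π * (μ + ν - μ * ν)) + Tp * cos (2 * π * μ) = 0)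
    (K2 : Tq * sin (2 * π * ν) + TX * sin (2 * π * (μ + ν - μ * ν)) + Tp * sin (2 * π * μ) = 0)
    (hy : Tq * Sc a b ν + (1 - μ) * TX * Sc a b (μ + ν - μ * ν) = 0)
    (hx : Tp * Sc a b μ + (1 - ν) * TX * Sc a b (μ + ν - μ * ν) = 0)
    (hl : q * Tq * Cc a b ν + x * TX * Cc a b (μ + ν - μ * ν) + p * Tp * Cc a b μ = 0) :
    a = 0 ∧ b = 0 := by
  refine kept_aux hμ hμ' hν hν' (by linarith) (by linarith) (fun h => by linarith)
    (Or.inr ⟨?_, ?_⟩) hq hp hTX hqx hxp K1 K2 hy hx hl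
  · rw [show ν - (μ + ν - μ * ν) = -(μ * (1 - ν)) by ring, abs_neg,
      abs_of_pos (mul_pos hμ (by linarith))]
  · rw [show μ - (μ + ν - μ * ν) = -(ν * (1 - μ)) by ring, abs_neg,
      abs_of_pos (mul_pos hν (by linarith))]

/-- **killed cubes**: `X = 0`; a degenerate zero has `μ = ν = 1 / 2` and `h = Tq + Tp - TX` has a
double zero. -/
theorem killed {μ ν Tq TX Tp q x p a b : ℝ} (hμ : 0 < μ) (hμ' : μ < 1) (hν : 0 < ν)
    (hν' : ν < 1) (hq : 0 < Tq) (hp : 0 < Tp) (hTX : 0 ≤ TX) (hqx : x < q) (hxp : p < x)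
    (K1 : Tq * cos (2 * π * ν) + TX + Tp * cos (2 * π * μ) = 0)
    (K2 : Tq * sin (2 * π * ν) + Tp * sin (2 * π * μ) = 0)
    (hy : Tq * Sc a b ν = 0) (hx : Tp * Sc a b μ = 0)
    (hl : q * Tq * Cc a b ν + x * TX * Cc a b 0 + p * Tp * Cc a b μ = 0) :
    (a = 0 ∧ b = 0) ∨ (μ = 1 / 2 ∧ ν = 1 / 2 ∧ Tq + Tp = TX ∧ q * Tq + p * Tp = x * TX) := by
  by_contra hcon
  push Not at hcon
  obtain ⟨hab, hcon⟩ := hcon
  have hab' : ¬ (a = 0 ∧ b = 0) := fun h => hab h.1 h.2
  have hy' : Sc a b ν = 0 := (mul_eq_zero.1 hy).resolve_left hq.ne'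
  have hx' : Sc a b μ = 0 := (mul_eq_zero.1 hx).resolve_left hp.ne'
  have C0 : Cc a b 0 = a := by unfold Cc; simp
  have S0 : Sc a b 0 = b := by unfold Sc; simp
  have E1 : Tq * Cc a b ν + TX * a + Tp * Cc a b μ = 0 := by
    unfold Cc; linear_combination a * K1 + b * K2
  have E2 : Tq * Sc a b ν + TX * b + Tp * Sc a b μ = 0 := by
    unfold Sc; linear_combination -a * K2 + b * K1
  rw [C0] at hl
  rcases hTX.eq_or_lt with h0 | h0
  · rw [← h0] at hl E1
    have h2 : (q - p) * (Tq * Cc a b ν) = 0 := by linear_combination hl - p * E1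
    have h3 : Cc a b ν = 0 := by
      rcases mul_eq_zero.1 h2 with h | h
      · linarith
      · exact (mul_eq_zero.1 h).resolve_left hq.ne'
    exact hab' (zero_of h3 hy')
  · have hb : b = 0 := by
      rw [hy', hx', mul_zero, mul_zero, zero_add, add_zero] at E2
      exact (mul_eq_zero.1 E2).resolve_left h0.ne'
    have ha : a ≠ 0 := fun h => hab' ⟨h, hb⟩
    have hs : ∀ u : ℝ, Sc a b u = 0 → sin (2 * π * u) = 0 := by
      intro u hu
      unfold Sc at hu
      rw [hb, zero_mul, add_zero] at hu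
      exact (mul_eq_zero.1 hu).resolve_left (neg_ne_zero.2 ha)
    have hhalf : ∀ u : ℝ, 0 < u → u < 1 → Sc a b u = 0 → u = 1 / 2 := by
      intro u h1 h2 h3
      have := half_of_sin h1.ne' (by rwa [abs_of_pos h1]) (hs u h3)
      rwa [abs_of_pos h1] at this
    have h1 := hhalf μ hμ hμ' hx'
    have h2 := hhalf ν hν hν' hy'
    have ec : cos (2 * π * (1 / 2)) = -1 := by
      rw [show 2 * π * (1 / 2) = π by ring, cos_pi]
    have hCc : Cc a b (1 / 2) = -a := by
      unfold Cc; rw [ec, hb]; ring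
    rw [h1, h2] at hl
    rw [hCc] at hl
    rw [h1, h2, ec] at K1
    refine hcon h1 h2 (by linarith) ?_
    have : a * (q * Tq + p * Tp - x * TX) = 0 := by linear_combination -hl
    have := (mul_eq_zero.1 this).resolve_left ha
    linarith

/-- **gaps**: `T e(μ) + T' = 0` with different exponents is always regular. -/
theorem gap {μ T T' q p a b : ℝ} (hT : 0 < T) (hqp : q ≠ p)
    (K1 : T * cos (2 * π * μ) + T' = 0) (K2 : T * sin (2 * π * μ) = 0)
    (hx : T * Sc a b μ = 0) (hl : q * T * Cc a b μ + p * T' * Cc a b 0 = 0) :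
    a = 0 ∧ b = 0 := by
  have C0 : Cc a b 0 = a := by unfold Cc; simp
  have E1 : T * Cc a b μ + T' * a = 0 := by
    unfold Cc; linear_combination a * K1 + b * K2
  rw [C0] at hl
  have h1 : (q - p) * (T * Cc a b μ) = 0 := by linear_combination hl - p * E1
  have h2 : Cc a b μ = 0 := by
    rcases mul_eq_zero.1 h1 with h | h
    · exact absurd (by linarith) hqp
    · exact (mul_eq_zero.1 h).resolve_left hT.ne'
  exact zero_of h2 ((mul_eq_zero.1 hx).resolve_left hT.ne')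

end Crest.Agent.R267.NSKept_796
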