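import Mathlib

/-!
# Row 267, planar arms: separated scales, every middle term dominates somewhere

Terms `r ^ X s * u ^ J s` with `J` strictly decreasing and `X` strictly convex as a function of `J`:
for small `r` every middle term is larger than the sum of all the others for some `u > 0`.
-/

set_option autoImplicit false

noncomputable section

namespace Crest.Agent.R267.NSSep_88

open Finset Filter Topology

variable {ι : Type} [Fintype ι] [LinearOrder ι]

/-- a supporting line at a middle point. -/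
theorem exists_slope {J X : ι → ℕ} (hJ : StrictAnti J)
    (hX : ∀ p m q, p < m → m < q → (J p - J q) * X m < (J m - J q) * X p + (J p - J m) * X q)
    {m : ι} (hp : ∃ p, p < m) (hq : ∃ q, m < q) :
    ∃ σ : ℝ, ∀ s, s ≠ m → (X m : ℝ) - σ * J m < X s - σ * J s := by
  classical
  have hJr : ∀ {a b : ι}, a < b → (J b : ℝ) < J a := fun h => by exact_mod_cast hJ h
  have key : ∀ p q, p < m → m < q →
      ((X m : ℝ) - X q) / (J m - J q) < ((X p : ℝ) - X m) / (J p - J m) := by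
    intro p q h1 h2
    have a1 := hJr h1
    have a2 := hJr h2
    have h3 : ((J p - J q : ℕ) : ℝ) * X m < ((J m - J q : ℕ) : ℝ) * X p +
        ((J p - J m : ℕ) : ℝ) * X q := by exact_mod_cast hX p m q h1 h2
    rw [Nat.cast_sub (hJ (h1.trans h2)).le, Nat.cast_sub (hJ h2).le,
      Nat.cast_sub (hJ h1).le] at h3
    rw [div_lt_div_iff₀ (by linarith) (by linarith)]
    nlinarith
  obtain ⟨p0, hp0⟩ := hp
  obtain ⟨q0, hq0⟩ := hq
  obtain ⟨p1, hp1, hp1'⟩ := exists_min_image (univ.filter fun p => p < m)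
    (fun p => ((X p : ℝ) - X m) / (J p - J m)) ⟨p0, by simp [hp0]⟩
  obtain ⟨q1, hq1, hq1'⟩ := exists_max_image (univ.filter fun q => m < q)
    (fun q => ((X m : ℝ) - X q) / (J m - J q)) ⟨q0, by simp [hq0]⟩
  rw [mem_filter] at hp1 hq1
  have h1 := key p1 q1 hp1.2 hq1.2
  refine ⟨(((X m : ℝ) - X q1) / (J m - J q1) + ((X p1 : ℝ) - X m) / (J p1 - J m)) / 2,
    fun s hs => ?_⟩
  set σ := (((X m : ℝ) - X q1) / (J m - J q1) + ((X p1 : ℝ) - X m) / (J p1 - J m)) / 2 with hσ
  rcases lt_or_gt_of_ne hs with h | h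
  · have h2 := hp1' s (by simp [h])
    have a1 := hJr h
    have h3 : σ < ((X s : ℝ) - X m) / (J s - J m) := by
      refine lt_of_lt_of_le ?_ h2
      rw [hσ]
      linarith
    rw [lt_div_iff₀ (by linarith)] at h3
    linarith
  · have h2 := hq1' s (by simp [h])
    have a1 := hJr h
    have h3 : ((X m : ℝ) - X s) / (J m - J s) < σ := by
      refine lt_of_le_of_lt h2 ?_
      rw [hσ]
      linarith
    rw [div_lt_iff₀ (by linarith)] at h3
    linarith

/-- the same for all small `r` at one point. -/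
theorem sep_at {J X : ι → ℕ} {m : ι} {σ : ℝ}
    (h : ∀ s, s ≠ m → (X m : ℝ) - σ * J m < X s - σ * J s) :
    ∀ᶠ r : ℝ in 𝓝[>] 0, ∃ u : ℝ, 0 < u ∧
      ∑ s ∈ univ.erase m, r ^ X s * u ^ J s < r ^ X m * u ^ J m := by
  have h1 : Tendsto (fun r : ℝ => ∑ s ∈ univ.erase m,
      r ^ (((X s : ℝ) - σ * J s) - ((X m : ℝ) - σ * J m))) (𝓝[>] 0) (𝓝 0) := by
    have h2 : Tendsto (fun r : ℝ => ∑ s ∈ univ.erase m,
        r ^ (((X s : ℝ) - σ * J s) - ((X m : ℝ) - σ * J m))) (𝓝[>] 0)
        (𝓝 (∑ s ∈ (univ : Finset ι).erase m, (0 : ℝ))) := by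
      refine tendsto_finsetSum _ fun s hs => ?_
      have h3 : 0 < ((X s : ℝ) - σ * J s) - ((X m : ℝ) - σ * J m) :=
        sub_pos.2 (h s (ne_of_mem_erase hs))
      have h4 := (Real.continuousAt_rpow_const (0 : ℝ) _ (Or.inr h3.le)).tendsto
      rw [Real.zero_rpow h3.ne'] at h4
      exact h4.mono_left nhdsWithin_le_nhds
    rwa [sum_const_zero] at h2
  filter_upwards [h1.eventually (gt_mem_nhds one_pos), self_mem_nhdsWithin] with r hr hr0
  have hr0' : 0 < r := hr0
  refine ⟨r ^ (-σ), Real.rpow_pos_of_pos hr0' _, ?_⟩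
  have e : ∀ s, r ^ X s * (r ^ (-σ)) ^ J s = r ^ ((X s : ℝ) - σ * J s) := by
    intro s
    rw [← Real.rpow_natCast (r ^ (-σ)) (J s), ← Real.rpow_mul hr0'.le, ← Real.rpow_natCast r (X s),
      ← Real.rpow_add hr0']
    congr 1
    ring
  simp only [e]
  have hpos : 0 < r ^ ((X m : ℝ) - σ * J m) := Real.rpow_pos_of_pos hr0' _
  calc ∑ s ∈ univ.erase m, r ^ ((X s : ℝ) - σ * J s) =
      (∑ s ∈ univ.erase m, r ^ (((X s : ℝ) - σ * J s) - ((X m : ℝ) - σ * J m))) *
        r ^ ((X m : ℝ) - σ * J m) := by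
        rw [sum_mul]
        refine sum_congr rfl fun s _ => ?_
        rw [← Real.rpow_add hr0']
        congr 1
        ring
    _ < 1 * r ^ ((X m : ℝ) - σ * J m) := mul_lt_mul_of_pos_right hr hpos
    _ = _ := one_mul _

/-- **SEP**: for small `r` every middle term dominates the sum of all the other terms somewhere. -/
theorem sep {J X : ι → ℕ} (hJ : StrictAnti J)
    (hX : ∀ p m q, p < m → m < q → (J p - J q) * X m < (J m - J q) * X p + (J p - J m) * X q) :
    ∃ r0 : ℝ, 0 < r0 ∧ r0 ≤ 1 ∧ ∀ r, 0 < r → r ≤ r0 → ∀ m, (∃ p, p < m) → (∃ q, m < q) →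
      ∃ u : ℝ, 0 < u ∧ ∑ s ∈ univ.erase m, r ^ X s * u ^ J s < r ^ X m * u ^ J m := by
  have h1 : ∀ᶠ r : ℝ in 𝓝[>] 0, ∀ m : ι, (∃ p, p < m) → (∃ q, m < q) →
      ∃ u : ℝ, 0 < u ∧ ∑ s ∈ univ.erase m, r ^ X s * u ^ J s < r ^ X m * u ^ J m := by
    rw [eventually_all]
    intro m
    by_cases hp : ∃ p, p < m
    · by_cases hq : ∃ q, m < q
      · obtain ⟨σ, hσ⟩ := exists_slope hJ hX hp hq
        filter_upwards [sep_at hσ] with r hr _ _
        exact hr
      · exact Eventually.of_forall fun r _ h => absurd h hq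
    · exact Eventually.of_forall fun r h => absurd h hp
  obtain ⟨r1, hr1, h2⟩ := mem_nhdsGT_iff_exists_Ioc_subset.1 h1
  have hr1' : (0 : ℝ) < r1 := hr1
  refine ⟨min r1 1, lt_min hr1' one_pos, min_le_right _ _, fun r hr hrr => ?_⟩
  exact h2 ⟨hr, hrr.trans (min_le_left _ _)⟩

end Crest.Agent.R267.NSSep_88
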