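import Crest.Agent.R267.NSDefs_966
import Crest.Agent.R267.NSSep_88

/-!
# Row 267, planar arms: `NS.Neg` for the official coefficients
-/

set_option autoImplicit false

noncomputable section

namespace Crest.Agent.R267.NSNeg_88

open Finset
open Crest.Agent.R267.NSDefs_966

variable {m : ℕ} {S : NS m} {a : ℕ}

/-- the exponents of `r`. -/
def XX (S : NS m) (a : ℕ) (s : Fin (m + 2)) : ℕ := a * S.i s + S.j s - 15

theorem conv (hS : S.Ok) (hc : S.Cvx a) (p q r : Fin (m + 2)) (h : p < q) (h' : q < r) :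
    (S.j p - S.j r) * XX S a q < (S.j q - S.j r) * XX S a p + (S.j p - S.j q) * XX S a r := by
  have h1 := hc.2.2 p q r h h'
  have e1 := hS.hj h
  have e2 := hS.hj h'
  have e3 := hS.hj (h.trans h')
  have x1 := hc.1 p
  have x2 := hc.1 q
  have x3 := hc.1 r
  unfold XX
  zify [e1.le, e2.le, e3.le, x1, x2, x3]
  push_cast at h1
  nlinarith

/-- sums over all terms. -/
theorem sum_all (f : Fin (m + 2) → ℝ) : ∑ s, f s = f 0 + (∑ s : Fin m, f (NS.ix s)) +
    f (Fin.last (m + 1)) := by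
  rw [Fin.sum_univ_succ, Fin.sum_univ_castSucc, ← add_assoc]
  rfl

/-- **every coupling dominates somewhere, for small `r`.** -/
theorem neg (hS : S.Ok) (hc : S.Cvx a) : ∃ r0 : ℝ, 0 < r0 ∧ r0 ≤ 1 ∧ ∀ r, 0 < r → r ≤ r0 →
    S.Neg (S.Mr a r) (NS.Mvr a r) := by
  obtain ⟨r0, hr0, hr1, H⟩ := NSSep_88.sep (J := S.j) (X := XX S a) hS.hj (conv hS hc)
  refine ⟨r0, hr0, hr1, fun r hr hrr s => ?_⟩
  obtain ⟨u, hu, h1⟩ := H r hr hrr (NS.ix s) ⟨0, Fin.succ_pos _⟩
    ⟨Fin.last (m + 1), Fin.castSucc_lt_last s |> Fin.succ_lt_succ_iff.2⟩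
  refine ⟨Real.log u, ?_⟩
  have hexp : ∀ n : ℕ, Real.exp ((n : ℝ) * Real.log u) = u ^ n := fun n => by
    rw [Real.exp_nat_mul, Real.exp_log hu]
  have h15 : Real.exp (15 * Real.log u) = u ^ 15 := by
    have := hexp 15
    push_cast at this
    exact this
  rw [h15]
  simp only [hexp]
  have e0 : ∀ f : Fin (m + 2) → ℝ, ∑ s' ∈ univ.erase (NS.ix s), f s' =
      f 0 + (∑ s' ∈ univ.erase s, f (NS.ix s')) + f (Fin.last (m + 1)) := by
    intro f
    have h2 := add_sum_erase univ f (mem_univ (NS.ix s))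
    have h3 := add_sum_erase univ (fun s' => f (NS.ix s')) (mem_univ s)
    rw [sum_all] at h2
    linarith
  rw [e0] at h1
  have x0 : r ^ XX S a 0 * u ^ S.j 0 = u ^ 15 := by
    unfold XX
    rw [hS.i0, hS.j0]
    simp
  have x1 : r ^ XX S a (Fin.last (m + 1)) * u ^ S.j (Fin.last (m + 1)) = NS.Mvr a r := by
    unfold XX NS.Mvr
    rw [hS.i1, hS.j1, pow_zero, mul_one, add_zero, mul_comm]
  rw [x0, x1] at h1
  have h4 : ∀ s', r ^ XX S a (NS.ix s') * u ^ S.j (NS.ix s') =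
      S.Mr a r s' * u ^ S.j (NS.ix s') := fun s' => rfl
  simp only [h4] at h1
  linarith

end Crest.Agent.R267.NSNeg_88
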