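import Mathlib
import Crest.Agent.R267.PlSign_543

/-!
# Row 267 (helper543): pointwise regularity of bilinear staircases (966's N2, #3428 (2), (3))

Abstract algebra of one cube.  Terms `i` with exponents `l i`, coefficients `T i ≥ 0`, in three
groups `G i = 0` (type `q`, biggest exponents), `1` (type `X`), `2` (type `p`, smallest exponents);
all terms of the group `g` have the same direction `(c g, s g)` (a unit vector, in the frame of the
covector `ζ`).
-/

set_option autoImplicit false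

namespace Crest.Agent.R267.PlCube_543

open Finset Real
open Crest.Agent.R267.PlSign_543

variable {ι : Type*} [Fintype ι]

/-- total coefficient of a group. -/
noncomputable def tot (T : ι → ℝ) (G : ι → Fin 3) (g : Fin 3) : ℝ :=
  ∑ i, if G i = g then T i else 0

theorem tot_nonneg {T : ι → ℝ} (hT : ∀ i, 0 ≤ T i) (G : ι → Fin 3) (g : Fin 3) :
    0 ≤ tot T G g := by
  unfold tot
  exact Finset.sum_nonneg fun i _ => by split_ifs <;> [exact hT i; exact le_rfl]

theorem sum_group (T : ι → ℝ) (G : ι → Fin 3) (f : Fin 3 → ℝ) :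
    ∑ i, T i * f (G i) = tot T G 0 * f 0 + tot T G 1 * f 1 + tot T G 2 * f 2 := by
  unfold tot
  rw [Finset.sum_mul, Finset.sum_mul, Finset.sum_mul, ← Finset.sum_add_distrib,
    ← Finset.sum_add_distrib]
  refine Finset.sum_congr rfl fun i _ => ?_
  generalize G i = g
  fin_cases g <;> simp

theorem T_zero_of_tot {T : ι → ℝ} (hT : ∀ i, 0 ≤ T i) {G : ι → Fin 3}
    (h : ∀ g, tot T G g = 0) (i : ι) : T i = 0 := by
  have h1 := h (G i)
  unfold tot at h1
  have h2 := (Finset.sum_eq_zero_iff_of_nonneg (s := Finset.univ)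
    (f := fun k => if G k = G i then T k else 0)
    (fun k _ => by split_ifs <;> [exact hT k; exact le_rfl])).1 h1 i (Finset.mem_univ i)
  simpa using h2

theorem cases3 (g : Fin 3) : g = 0 ∨ g = 1 ∨ g = 2 := by fin_cases g <;> simp

theorem sq_eq_one_iff_of_ne_zero {x : ℝ} (h : x ^ 2 = 1) : x = 1 ∨ x = -1 := by
  have : (x - 1) * (x + 1) = 0 := by linarith [h, sq x]
  rcases mul_eq_zero.1 this with h1 | h1
  · left; linarith
  · right; linarith

/-- the hypotheses common to all cubes. -/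
structure Alg (T l : ι → ℝ) (G : ι → Fin 3) (a b : ℝ) (c s : Fin 3 → ℝ) : Prop where
  nn : ∀ i, 0 ≤ T i
  hab : a < b
  hq : ∀ i, G i = 0 → b < l i
  hX1 : ∀ i, G i = 1 → a < l i
  hX2 : ∀ i, G i = 1 → l i < b
  hp : ∀ i, G i = 2 → l i < a
  unit : ∀ g, c g ^ 2 + s g ^ 2 = 1
  r0 : ∑ i, T i * c (G i) = 0
  i0 : ∑ i, T i * s (G i) = 0
  r1 : ∑ i, l i * (T i * c (G i)) = 0

namespace Alg

variable {T l : ι → ℝ} {G : ι → Fin 3} {a b : ℝ} {c s : Fin 3 → ℝ}

theorem i0' (h : Alg T l G a b c s) : tot T G 0 * s 0 + tot T G 1 * s 1 + tot T G 2 * s 2 = 0 := by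
  rw [← sum_group]; exact h.i0

theorem r0' (h : Alg T l G a b c s) : tot T G 0 * c 0 + tot T G 1 * c 1 + tot T G 2 * c 2 = 0 := by
  rw [← sum_group]; exact h.r0

/-- each term has the sign of its group -/
theorem sgn (h : Alg T l G a b c s) (i : ι) (g : Fin 3) (hg : G i = g) :
    (0 ≤ tot T G g * c g → 0 ≤ T i * c g) ∧ (tot T G g * c g ≤ 0 → T i * c g ≤ 0) := by
  have hle : T i ≤ tot T G g := by
    unfold tot
    have := Finset.single_le_sum (s := Finset.univ) (f := fun k => if G k = g then T k else 0)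
      (fun k _ => by split_ifs <;> [exact h.nn k; exact le_rfl]) (Finset.mem_univ i)
    simpa [hg] using this
  rcases eq_or_lt_of_le (h.nn i) with h0 | h0
  · rw [← h0]; simp
  · have h2 : 0 < tot T G g := lt_of_lt_of_le h0 hle
    constructor
    · intro h3
      have : 0 ≤ c g := by
        by_contra hc
        push Not at hc
        nlinarith [mul_neg_of_pos_of_neg h2 hc]
      positivity
    · intro h3
      have : c g ≤ 0 := by
        by_contra hc
        push Not at hc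
        nlinarith [mul_pos h2 hc]
      exact mul_nonpos_of_nonneg_of_nonpos h0.le this

/-- sign pattern with (at most) one change at the threshold `a`: everything real vanishes. -/
theorem van_a (h : Alg T l G a b c s)
    (h1 : (0 ≤ tot T G 0 * c 0 ∧ 0 ≤ tot T G 1 * c 1 ∧ tot T G 2 * c 2 ≤ 0) ∨
      (tot T G 0 * c 0 ≤ 0 ∧ tot T G 1 * c 1 ≤ 0 ∧ 0 ≤ tot T G 2 * c 2)) (g : Fin 3) :
    tot T G g * c g = 0 := by
  have hs : ∀ i, ∀ g, G i = g → (0 ≤ tot T G g * c g → 0 ≤ T i * c g) ∧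
      (tot T G g * c g ≤ 0 → T i * c g ≤ 0) := h.sgn
  have hz : ∀ i, T i * c (G i) = 0 := by
    intro i
    have hne : ∀ i, l i ≠ a := by
      intro i
      have h3 : G i = 0 ∨ G i = 1 ∨ G i = 2 := by
        generalize G i = g; fin_cases g <;> simp
      rcases h3 with h3 | h3 | h3
      · exact ne_of_gt (h.hab.trans (h.hq i h3))
      · exact ne_of_gt (h.hX1 i h3)
      · exact ne_of_lt (h.hp i h3)
    rcases h1 with ⟨h1, h2, h3⟩ | ⟨h1, h2, h3⟩
    · refine one_change' (s := Finset.univ) (e := fun i => T i * c (G i)) (l := l) (lam := a)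
        (fun i _ => ?_) h.r0 h.r1 i (Finset.mem_univ i) (hne i)
      have h4 : G i = 0 ∨ G i = 1 ∨ G i = 2 := by
        generalize G i = g; fin_cases g <;> simp
      rcases h4 with h4 | h4 | h4
      · exact Or.inr ⟨by show 0 ≤ T i * c (G i); rw [h4]; exact (hs i 0 h4).1 h1,
          (h.hab.trans (h.hq i h4)).le⟩
      · exact Or.inr ⟨by show 0 ≤ T i * c (G i); rw [h4]; exact (hs i 1 h4).1 h2,
          (h.hX1 i h4).le⟩
      · exact Or.inl ⟨by show T i * c (G i) ≤ 0; rw [h4]; exact (hs i 2 h4).2 h3, (h.hp i h4).le⟩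
    · refine one_change (s := Finset.univ) (e := fun i => T i * c (G i)) (l := l) (lam := a)
        (fun i _ => ?_) h.r0 h.r1 i (Finset.mem_univ i) (hne i)
      have h4 : G i = 0 ∨ G i = 1 ∨ G i = 2 := by
        generalize G i = g; fin_cases g <;> simp
      rcases h4 with h4 | h4 | h4
      · exact Or.inr ⟨by show T i * c (G i) ≤ 0; rw [h4]; exact (hs i 0 h4).2 h1,
          (h.hab.trans (h.hq i h4)).le⟩
      · exact Or.inr ⟨by show T i * c (G i) ≤ 0; rw [h4]; exact (hs i 1 h4).2 h2,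
          (h.hX1 i h4).le⟩
      · exact Or.inl ⟨by show 0 ≤ T i * c (G i); rw [h4]; exact (hs i 2 h4).1 h3, (h.hp i h4).le⟩
  unfold tot
  rw [Finset.sum_mul]
  refine Finset.sum_eq_zero fun i _ => ?_
  split_ifs with h3
  · have := hz i; rw [h3] at this; exact this
  · simp

/-- pattern with (at most) one change at the threshold `b`. -/
theorem van_b (h : Alg T l G a b c s)
    (h1 : (0 ≤ tot T G 0 * c 0 ∧ tot T G 1 * c 1 ≤ 0 ∧ tot T G 2 * c 2 ≤ 0) ∨
      (tot T G 0 * c 0 ≤ 0 ∧ 0 ≤ tot T G 1 * c 1 ∧ 0 ≤ tot T G 2 * c 2)) (g : Fin 3) :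
    tot T G g * c g = 0 := by
  have hs : ∀ i, ∀ g, G i = g → (0 ≤ tot T G g * c g → 0 ≤ T i * c g) ∧
      (tot T G g * c g ≤ 0 → T i * c g ≤ 0) := h.sgn
  have hz : ∀ i, T i * c (G i) = 0 := by
    intro i
    have hne : ∀ i, l i ≠ b := by
      intro i
      rcases cases3 (G i) with h3 | h3 | h3
      · exact ne_of_gt (h.hq i h3)
      · exact ne_of_lt (h.hX2 i h3)
      · exact ne_of_lt ((h.hp i h3).trans h.hab)
    rcases h1 with ⟨h1, h2, h3⟩ | ⟨h1, h2, h3⟩
    · refine one_change' (s := Finset.univ) (e := fun i => T i * c (G i)) (l := l) (lam := b)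
        (fun i _ => ?_) h.r0 h.r1 i (Finset.mem_univ i) (hne i)
      rcases cases3 (G i) with h4 | h4 | h4
      · exact Or.inr ⟨by show 0 ≤ T i * c (G i); rw [h4]; exact (hs i 0 h4).1 h1, (h.hq i h4).le⟩
      · exact Or.inl ⟨by show T i * c (G i) ≤ 0; rw [h4]; exact (hs i 1 h4).2 h2, (h.hX2 i h4).le⟩
      · exact Or.inl ⟨by show T i * c (G i) ≤ 0; rw [h4]; exact (hs i 2 h4).2 h3,
          ((h.hp i h4).trans h.hab).le⟩
    · refine one_change (s := Finset.univ) (e := fun i => T i * c (G i)) (l := l) (lam := b)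
        (fun i _ => ?_) h.r0 h.r1 i (Finset.mem_univ i) (hne i)
      rcases cases3 (G i) with h4 | h4 | h4
      · exact Or.inr ⟨by show T i * c (G i) ≤ 0; rw [h4]; exact (hs i 0 h4).2 h1, (h.hq i h4).le⟩
      · exact Or.inl ⟨by show 0 ≤ T i * c (G i); rw [h4]; exact (hs i 1 h4).1 h2, (h.hX2 i h4).le⟩
      · exact Or.inl ⟨by show 0 ≤ T i * c (G i); rw [h4]; exact (hs i 2 h4).1 h3,
          ((h.hp i h4).trans h.hab).le⟩
  unfold tot
  rw [Finset.sum_mul]
  refine Finset.sum_eq_zero fun i _ => ?_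
  split_ifs with h3
  · have := hz i; rw [h3] at this; exact this
  · simp

/-- all real parts vanish or the pattern is `(+,-,+)`. -/
theorem pattern (h : Alg T l G a b c s) :
    (∀ g, tot T G g * c g = 0) ∨
      (0 < tot T G 0 ∧ 0 < tot T G 1 ∧ 0 < tot T G 2 ∧ c 0 * c 1 < 0 ∧ c 2 * c 1 < 0) := by
  have n0 := tot_nonneg h.nn G 0
  have n1 := tot_nonneg h.nn G 1
  have n2 := tot_nonneg h.nn G 2
  by_cases h1 : (0 ≤ tot T G 0 * c 0 ∧ 0 ≤ tot T G 1 * c 1 ∧ tot T G 2 * c 2 ≤ 0) ∨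
      (tot T G 0 * c 0 ≤ 0 ∧ tot T G 1 * c 1 ≤ 0 ∧ 0 ≤ tot T G 2 * c 2)
  · exact Or.inl (h.van_a h1)
  by_cases h2 : (0 ≤ tot T G 0 * c 0 ∧ tot T G 1 * c 1 ≤ 0 ∧ tot T G 2 * c 2 ≤ 0) ∨
      (tot T G 0 * c 0 ≤ 0 ∧ 0 ≤ tot T G 1 * c 1 ∧ 0 ≤ tot T G 2 * c 2)
  · exact Or.inl (h.van_b h2)
  -- remaining patterns
  have hr := h.r0'
  push Not at h1 h2
  set A := tot T G 0 * c 0 with hA
  set B := tot T G 1 * c 1 with hB
  set C := tot T G 2 * c 2 with hC
  have key : (0 < A ∧ B < 0 ∧ 0 < C) ∨ (A < 0 ∧ 0 < B ∧ C < 0) := by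
    rcases lt_trichotomy A 0 with hA' | hA' | hA' <;>
    rcases lt_trichotomy B 0 with hB' | hB' | hB' <;>
    rcases lt_trichotomy C 0 with hC' | hC' | hC' <;>
    first
      | exact Or.inl ⟨hA', hB', hC'⟩
      | exact Or.inr ⟨hA', hB', hC'⟩
      | exact absurd hr (by linarith)
      | exact absurd (h1.1 (by linarith) (by linarith)) (by linarith)
      | exact absurd (h1.2 (by linarith) (by linarith)) (by linarith)
      | exact absurd (h2.1 (by linarith) (by linarith)) (by linarith)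
      | exact absurd (h2.2 (by linarith) (by linarith)) (by linarith)
  right
  rcases key with ⟨k1, k2, k3⟩ | ⟨k1, k2, k3⟩
  · have c0 : 0 < c 0 := by by_contra hc; push Not at hc; nlinarith [mul_nonneg n0 (neg_nonneg.2 hc)]
    have c1 : c 1 < 0 := by by_contra hc; push Not at hc; nlinarith [mul_nonneg n1 hc]
    have c2 : 0 < c 2 := by by_contra hc; push Not at hc; nlinarith [mul_nonneg n2 (neg_nonneg.2 hc)]
    refine ⟨?_, ?_, ?_, mul_neg_of_pos_of_neg c0 c1, mul_neg_of_pos_of_neg c2 c1⟩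
    · rcases eq_or_lt_of_le n0 with h0 | h0
      · rw [hA, ← h0] at k1; simp at k1
      · exact h0
    · rcases eq_or_lt_of_le n1 with h0 | h0
      · rw [hB, ← h0] at k2; simp at k2
      · exact h0
    · rcases eq_or_lt_of_le n2 with h0 | h0
      · rw [hC, ← h0] at k3; simp at k3
      · exact h0
  · have c0 : c 0 < 0 := by by_contra hc; push Not at hc; nlinarith [mul_nonneg n0 hc]
    have c1 : 0 < c 1 := by by_contra hc; push Not at hc; nlinarith [mul_nonneg n1 (neg_nonneg.2 hc)]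
    have c2 : c 2 < 0 := by by_contra hc; push Not at hc; nlinarith [mul_nonneg n2 hc]
    refine ⟨?_, ?_, ?_, mul_neg_of_neg_of_pos c0 c1, mul_neg_of_neg_of_pos c2 c1⟩
    · rcases eq_or_lt_of_le n0 with h0 | h0
      · rw [hA, ← h0] at k1; simp at k1
      · exact h0
    · rcases eq_or_lt_of_le n1 with h0 | h0
      · rw [hB, ← h0] at k2; simp at k2
      · exact h0
    · rcases eq_or_lt_of_le n2 with h0 | h0
      · rw [hC, ← h0] at k3; simp at k3
      · exact h0

/-- **main algebra**: angular equations `T_p s_p + A T_X s_X = 0`, `T_q s_q + B T_X s_X = 0`.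
Then all coefficients vanish, or the group `X` is opposite to both others. -/
theorem main (h : Alg T l G a b c s) {A B : ℝ}
    (hx : tot T G 2 * s 2 + A * (tot T G 1 * s 1) = 0)
    (hy : tot T G 0 * s 0 + B * (tot T G 1 * s 1) = 0) (_hA : 0 ≤ A) (_hB : 0 ≤ B) :
    (∀ i, T i = 0) ∨
      (0 < tot T G 0 ∧ 0 < tot T G 1 ∧ 0 < tot T G 2 ∧
        ((A + B = 1 ∧ ((0 < A → c 2 * c 1 + s 2 * s 1 < 0) ∧ (0 < B → c 0 * c 1 + s 0 * s 1 < 0)))
          ∨ (s 0 = 0 ∧ s 1 = 0 ∧ s 2 = 0 ∧ c 0 * c 1 = -1 ∧ c 2 * c 1 = -1))) ∨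
      (0 < tot T G 1 ∧ A + B = 1 ∧ s 1 ≠ 0 ∧
        (0 < A → c 2 * c 1 + s 2 * s 1 < 0) ∧ (0 < B → c 0 * c 1 + s 0 * s 1 < 0)) := by
  have n0 := tot_nonneg h.nn G 0
  have n1 := tot_nonneg h.nn G 1
  have n2 := tot_nonneg h.nn G 2
  have hi := h.i0'
  have hS : tot T G 1 * s 1 * (1 - A - B) = 0 := by linarith
  -- opposite directions from the angular equations
  have opp : ∀ g D, 0 ≤ tot T G g → tot T G g * s g + D * (tot T G 1 * s 1) = 0 → 0 < D →
      tot T G 1 * s 1 ≠ 0 → s g * s 1 < 0 := by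
    intro g D hg he hD hne
    have h1 : tot T G g * (s g * s 1) = - (D * tot T G 1 * (s 1) ^ 2) := by
      have := congrArg (fun z => z * s 1) he
      simp only [zero_mul] at this
      linarith
    have h2 : 0 < D * tot T G 1 * (s 1) ^ 2 := by
      have : tot T G 1 ≠ 0 := left_ne_zero_of_mul hne
      have h3 : 0 < tot T G 1 := lt_of_le_of_ne n1 (Ne.symm this)
      have h4 : s 1 ≠ 0 := right_ne_zero_of_mul hne
      positivity
    by_contra hc
    push Not at hc
    have := mul_nonneg hg hc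
    linarith
  rcases h.pattern with hp | ⟨p0, p1, p2, q0, q2⟩
  · -- everything real vanishes
    by_cases hX : tot T G 1 * s 1 = 0
    · -- then all totals vanish
      left
      refine T_zero_of_tot (G := G) h.nn fun g => ?_
      have h0 : tot T G 0 * s 0 = 0 := by rw [hX] at hy; linarith
      have h2 : tot T G 2 * s 2 = 0 := by rw [hX] at hx; linarith
      have hs : ∀ g, tot T G g * s g = 0 := by
        intro g; rcases cases3 g with rfl | rfl | rfl <;> assumption
      have := h.unit g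
      have h3 : tot T G g * (c g ^ 2 + s g ^ 2) = 0 := by
        have e1 := hp g
        have e2 := hs g
        calc tot T G g * (c g ^ 2 + s g ^ 2) = (tot T G g * c g) * c g + (tot T G g * s g) * s g := by
              ring
          _ = 0 := by rw [e1, e2]; ring
      rw [this, mul_one] at h3
      exact h3
    · right; right
      have h1 : tot T G 1 ≠ 0 := left_ne_zero_of_mul hX
      have hAB : A + B = 1 := by
        rcases mul_eq_zero.1 hS with h2 | h2
        · exact absurd h2 hX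
        · linarith
      have hc1 : c 1 = 0 := by
        rcases mul_eq_zero.1 (hp 1) with h2 | h2
        · exact absurd h2 h1
        · exact h2
      refine ⟨lt_of_le_of_ne n1 (Ne.symm h1), hAB, right_ne_zero_of_mul hX, ?_, ?_⟩
      · intro hA0
        have := opp 2 A n2 hx hA0 hX
        rw [hc1]; linarith
      · intro hB0
        have := opp 0 B n0 hy hB0 hX
        rw [hc1]; linarith
  · right; left
    refine ⟨p0, p1, p2, ?_⟩
    by_cases hX : s 1 = 0
    · right
      have h2 : s 2 = 0 := by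
        rw [hX] at hx; simp at hx
        rcases hx with hx | hx
        · exact absurd hx p2.ne'
        · exact hx
      have h0 : s 0 = 0 := by
        rw [hX] at hy; simp at hy
        rcases hy with hy | hy
        · exact absurd hy p0.ne'
        · exact hy
      refine ⟨h0, hX, h2, ?_, ?_⟩
      · have e0 := h.unit 0
        have e1 := h.unit 1
        rw [h0] at e0; rw [hX] at e1
        have e3 : (c 0 * c 1) ^ 2 = 1 := by
          have : (c 0 * c 1) ^ 2 = c 0 ^ 2 * c 1 ^ 2 := by ring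
          rw [this]
          have e0' : c 0 ^ 2 = 1 := by linarith
          have e1' : c 1 ^ 2 = 1 := by linarith
          rw [e0', e1']; norm_num
        rcases sq_eq_one_iff_of_ne_zero e3 with h5 | h5
        · linarith
        · exact h5
      · have e0 := h.unit 2
        have e1 := h.unit 1
        rw [h2] at e0; rw [hX] at e1
        have e3 : (c 2 * c 1) ^ 2 = 1 := by
          have : (c 2 * c 1) ^ 2 = c 2 ^ 2 * c 1 ^ 2 := by ring
          rw [this]
          have e0' : c 2 ^ 2 = 1 := by linarith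
          have e1' : c 1 ^ 2 = 1 := by linarith
          rw [e0', e1']; norm_num
        rcases sq_eq_one_iff_of_ne_zero e3 with h5 | h5
        · linarith
        · exact h5
    · left
      have hne : tot T G 1 * s 1 ≠ 0 := mul_ne_zero p1.ne' hX
      have hAB : A + B = 1 := by
        rcases mul_eq_zero.1 hS with h2 | h2
        · exact absurd h2 hne
        · linarith
      refine ⟨hAB, ?_, ?_⟩
      · intro hA0
        have := opp 2 A n2 hx hA0 hne
        linarith
      · intro hB0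
        have := opp 0 B n0 hy hB0 hne
        linarith

end Alg

theorem cos_neg {δ : ℝ} (h0 : 0 ≤ δ) (h1 : δ ≤ 1) (h : cos (2 * π * δ) < 0) :
    1 / 4 < δ ∧ δ < 3 / 4 := by
  have hpi := pi_pos
  constructor
  · by_contra hc
    push Not at hc
    have := cos_nonneg_of_neg_pi_div_two_le_of_le (x := 2 * π * δ) (by nlinarith) (by nlinarith)
    linarith
  · by_contra hc
    push Not at hc
    have h2 : cos (2 * π * δ) = cos (2 * π * (1 - δ)) := by
      have : 2 * π * (1 - δ) = 2 * π - 2 * π * δ := by ring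
      rw [this, cos_two_pi_sub]
    rw [h2] at h
    have := cos_nonneg_of_neg_pi_div_two_le_of_le (x := 2 * π * (1 - δ)) (by nlinarith)
      (by nlinarith)
    linarith

theorem cos_neg_one {δ : ℝ} (h0 : 0 ≤ δ) (h1 : δ ≤ 1) (h : cos (2 * π * δ) = -1) : δ = 1 / 2 := by
  have hpi := pi_pos
  rcases le_total δ (1 / 2) with h2 | h2
  · have := injOn_cos (show 2 * π * δ ∈ Set.Icc 0 π from ⟨by positivity, by nlinarith⟩)
      (show π ∈ Set.Icc 0 π from ⟨hpi.le, le_rfl⟩) (by rw [h, cos_pi])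
    have h3 : π * (2 * δ - 1) = 0 := by linarith
    rcases mul_eq_zero.1 h3 with h4 | h4
    · exact absurd h4 hpi.ne'
    · linarith
  · have h2' : cos (2 * π * (1 - δ)) = -1 := by
      have : 2 * π * (1 - δ) = 2 * π - 2 * π * δ := by ring
      rw [this, cos_two_pi_sub, h]
    have := injOn_cos (show 2 * π * (1 - δ) ∈ Set.Icc 0 π from ⟨by nlinarith, by nlinarith⟩)
      (show π ∈ Set.Icc 0 π from ⟨hpi.le, le_rfl⟩) (by rw [h2', cos_pi])
    have h3 : π * (1 - 2 * δ) = 0 := by linarith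
    rcases mul_eq_zero.1 h3 with h4 | h4
    · exact absurd h4 hpi.ne'
    · linarith

namespace Alg

variable {T l : ι → ℝ} {G : ι → Fin 3} {a b : ℝ} {c s : Fin 3 → ℝ}

/-- core of the kept cubes: `{δ₂, δ₀} = {m (1-n), n (1-m)}`, `A + B = 1 → m + n = 1`. -/
theorem kept_aux (h : Alg T l G a b c s) {A B m n d0 d2 : ℝ}
    (hx : tot T G 2 * s 2 + A * (tot T G 1 * s 1) = 0)
    (hy : tot T G 0 * s 0 + B * (tot T G 1 * s 1) = 0) (hA : 0 < A) (hB : 0 < B)
    (hm : m ∈ Set.Icc (0:ℝ) 1) (hn : n ∈ Set.Icc (0:ℝ) 1) (hAB : A + B = 1 → m + n = 1)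
    (hd : (d2 = m * (1 - n) ∧ d0 = n * (1 - m)) ∨ (d2 = n * (1 - m) ∧ d0 = m * (1 - n)))
    (e2 : c 2 * c 1 + s 2 * s 1 = cos (2 * π * d2))
    (e0 : c 0 * c 1 + s 0 * s 1 = cos (2 * π * d0)) : ∀ i, T i = 0 := by
  obtain ⟨m0, m1⟩ := hm
  obtain ⟨n0, n1⟩ := hn
  have b1 : 0 ≤ m * (1 - n) := mul_nonneg m0 (by linarith)
  have b2 : 0 ≤ n * (1 - m) := mul_nonneg n0 (by linarith)
  have b3 : m * (1 - n) ≤ 1 := by nlinarith
  have b4 : n * (1 - m) ≤ 1 := by nlinarith
  have r2 : 0 ≤ d2 ∧ d2 ≤ 1 := by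
    rcases hd with ⟨h1, h2⟩ | ⟨h1, h2⟩ <;> rw [h1] <;> constructor <;> assumption
  have r0 : 0 ≤ d0 ∧ d0 ≤ 1 := by
    rcases hd with ⟨h1, h2⟩ | ⟨h1, h2⟩ <;> rw [h2] <;> constructor <;> assumption
  have fin : A + B = 1 → c 2 * c 1 + s 2 * s 1 < 0 → c 0 * c 1 + s 0 * s 1 < 0 → False := by
    intro h1 h2 h3
    have h4 := hAB h1
    have h5 := cos_neg r2.1 r2.2 (by rw [← e2]; exact h2)
    have h6 := cos_neg r0.1 r0.2 (by rw [← e0]; exact h3)
    have hn' : n = 1 - m := by linarith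
    rcases hd with ⟨h7, h8⟩ | ⟨h7, h8⟩ <;> rw [h7] at h5 <;> rw [h8] at h6 <;>
      rw [hn'] at h5 h6 <;> nlinarith [h5.1, h6.1]
  rcases h.main hx hy hA.le hB.le with h1 | ⟨-, -, -, h1 | h1⟩ | h1
  · exact h1
  · exact absurd (fin h1.1 (h1.2.1 hA) (h1.2.2 hB)) id
  · exfalso
    obtain ⟨s0, s1, s2, h3, h4⟩ := h1
    have h5 := cos_neg_one r2.1 r2.2 (by rw [← e2, h4, s2, s1]; ring)
    have h6 := cos_neg_one r0.1 r0.2 (by rw [← e0, h3, s0, s1]; ring)
    have h7 : (m * (1 - n)) * (n * (1 - m)) = 1 / 4 := by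
      rcases hd with ⟨h7, h8⟩ | ⟨h7, h8⟩
      · rw [← h7, ← h8, h5, h6]; norm_num
      · rw [← h7, ← h8, h5, h6]; norm_num
    have h8 : m * (1 - m) ≤ 1 / 4 := by nlinarith [sq_nonneg (m - 1 / 2)]
    have h9 : n * (1 - n) ≤ 1 / 4 := by nlinarith [sq_nonneg (n - 1 / 2)]
    have h10 : 0 ≤ m * (1 - m) := mul_nonneg m0 (by linarith)
    have h11 : 0 ≤ n * (1 - n) := mul_nonneg n0 (by linarith)
    have h12 : (m * (1 - m)) * (n * (1 - n)) ≤ 1 / 4 * (1 / 4) :=
      mul_le_mul h8 h9 h11 (by norm_num)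
    nlinarith
  · exact absurd (fin h1.2.1 (h1.2.2.2.1 hA) (h1.2.2.2.2 hB)) id

/-- **kept cube of type `min`** (`X = m n`). -/
theorem kept_min (h : Alg T l G a b c s) {m n : ℝ} (hm : m ∈ Set.Ioo (0:ℝ) 1)
    (hn : n ∈ Set.Ioo (0:ℝ) 1)
    (hx : tot T G 2 * s 2 + n * (tot T G 1 * s 1) = 0)
    (hy : tot T G 0 * s 0 + m * (tot T G 1 * s 1) = 0)
    (e2 : c 2 * c 1 + s 2 * s 1 = cos (2 * π * (m * (1 - n))))
    (e0 : c 0 * c 1 + s 0 * s 1 = cos (2 * π * (n * (1 - m)))) : ∀ i, T i = 0 :=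
  h.kept_aux hx hy hn.1 hm.1 ⟨hm.1.le, hm.2.le⟩ ⟨hn.1.le, hn.2.le⟩ (fun h => by linarith)
    (Or.inl ⟨rfl, rfl⟩) e2 e0

/-- **kept cube of type `max`** (`X = m + n - m n`). -/
theorem kept_max (h : Alg T l G a b c s) {m n : ℝ} (hm : m ∈ Set.Ioo (0:ℝ) 1)
    (hn : n ∈ Set.Ioo (0:ℝ) 1)
    (hx : tot T G 2 * s 2 + (1 - n) * (tot T G 1 * s 1) = 0)
    (hy : tot T G 0 * s 0 + (1 - m) * (tot T G 1 * s 1) = 0)
    (e2 : c 2 * c 1 + s 2 * s 1 = cos (2 * π * (n * (1 - m))))
    (e0 : c 0 * c 1 + s 0 * s 1 = cos (2 * π * (m * (1 - n)))) : ∀ i, T i = 0 :=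
  h.kept_aux hx hy (by linarith [hn.2]) (by linarith [hm.2]) ⟨hm.1.le, hm.2.le⟩
    ⟨hn.1.le, hn.2.le⟩ (fun h => by linarith) (Or.inr ⟨rfl, rfl⟩) e2 e0

/-- signs of the killed cube. -/
def ep (g : Fin 3) : ℝ := if g = 1 then -1 else 1

/-- **killed cube** (`X` flat): nothing, or a double zero of a function `≥ 0`. -/
theorem killed (h : Alg T l G a b c s) (hx : tot T G 2 * s 2 = 0) (hy : tot T G 0 * s 0 = 0) :
    (∀ i, T i = 0) ∨ ∀ τ, 0 ≤ ∑ i, T i * ep (G i) * exp (l i * τ) := by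
  rcases h.main (A := 0) (B := 0) (by linarith) (by linarith) le_rfl le_rfl with
    h1 | ⟨-, -, -, h1 | h1⟩ | h1
  · exact Or.inl h1
  · exact absurd h1.1 (by norm_num)
  · right
    intro τ
    obtain ⟨s0, s1, s2, h3, h4⟩ := h1
    have c0 : c 0 ^ 2 = 1 := by have := h.unit 0; rw [s0] at this; linarith
    have hc1 : c 1 = - c 0 := by
      have : c 0 * (c 0 * c 1) = c 0 ^ 2 * c 1 := by ring
      rw [h3, c0] at this; linarith
    have hc2 : c 2 = c 0 := by
      have c1 : c 1 ^ 2 = 1 := by have := h.unit 1; rw [s1] at this; linarith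
      have : c 1 * (c 2 * c 1) = c 1 ^ 2 * c 2 := by ring
      rw [h4, c1] at this; linarith
    have hc : ∀ g, c g = c 0 * ep g := by
      intro g
      rcases cases3 g with rfl | rfl | rfl
      · simp [ep]
      · simp [ep, hc1]
      · simp [ep, hc2]
    have f0 : ∑ i, T i * ep (G i) = 0 := by
      have h5 : c 0 * ∑ i, T i * ep (G i) = 0 := by
        rw [← h.r0, Finset.mul_sum]
        exact Finset.sum_congr rfl fun i _ => by rw [hc (G i)]; ring
      rcases mul_eq_zero.1 h5 with h6 | h6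
      · rw [h6] at c0; norm_num at c0
      · exact h6
    have f1 : ∑ i, l i * (T i * ep (G i)) = 0 := by
      have h5 : c 0 * ∑ i, l i * (T i * ep (G i)) = 0 := by
        rw [← h.r1, Finset.mul_sum]
        exact Finset.sum_congr rfl fun i _ => by rw [hc (G i)]; ring
      rcases mul_eq_zero.1 h5 with h6 | h6
      · rw [h6] at c0; norm_num at c0
      · exact h6
    refine two_change (s := Finset.univ) (e := fun i => T i * ep (G i)) (l := l) h.hab ?_ f0 f1 τ
    intro i _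
    rcases cases3 (G i) with h5 | h5 | h5
    · left
      exact ⟨by show 0 ≤ T i * ep (G i); rw [h5]; simpa [ep] using h.nn i,
        Or.inr (h.hq i h5).le⟩
    · right
      exact ⟨by show T i * ep (G i) ≤ 0; rw [h5]; simpa [ep] using h.nn i,
        (h.hX1 i h5).le, (h.hX2 i h5).le⟩
    · left
      exact ⟨by show 0 ≤ T i * ep (G i); rw [h5]; simpa [ep] using h.nn i,
        Or.inl (h.hp i h5).le⟩
  · exact absurd h1.2.1 (by norm_num)

/-- **strips** (one variable flat): two groups `0 > 2`, one of them real. -/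
theorem strip (h : Alg T l G a b c s) (h1 : ∀ i, G i ≠ 1)
    (hx : tot T G 2 * s 2 = 0 ∨ tot T G 0 * s 0 = 0) : ∀ i, T i = 0 := by
  have h2 : tot T G 1 = 0 := by
    unfold tot; exact Finset.sum_eq_zero fun i _ => by simp [h1 i]
  have h3 := h.i0'
  rw [h2, zero_mul, add_zero] at h3
  have h4 : tot T G 2 * s 2 = 0 ∧ tot T G 0 * s 0 = 0 := by
    rcases hx with hx | hx
    · exact ⟨hx, by linarith⟩
    · exact ⟨by linarith, hx⟩
  rcases h.main (A := 0) (B := 0) (by linarith [h4.1]) (by linarith [h4.2]) le_rfl le_rfl with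
    h1 | h1 | h1
  · exact h1
  · exact absurd h2 h1.2.1.ne'
  · exact absurd h2 h1.1.ne'

end Alg

end Crest.Agent.R267.PlCube_543
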