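import Mathlib
import Crest.Agent.R267.PlCube_543

/-!
# Row 267 (helper543): one cube of a nested system, covector form

Terms `i : ι` (finite linear order, exponents `l` strictly antitone), integer corner increments of
one cube `a i = N(k+1,l) - N(k,l)`, `b i = N(k,l+1) - N(k,l)`, `d i = N(k+1,l+1) - N(k,l)`,
all steps in `{0,1}`; nestedness: `b`, `d - a` antitone in `i`, `a`, `d - b` monotone in `i`.
-/

set_option autoImplicit false

namespace Crest.Agent.R267.PlTyp_543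

open Finset Real
open Crest.Agent.R267.PlCube_543

/-- integer data of one cube. -/
structure Cor (ι : Type*) [LinearOrder ι] (a b d : ι → ℤ) : Prop where
  a01 : ∀ i, a i = 0 ∨ a i = 1
  b01 : ∀ i, b i = 0 ∨ b i = 1
  da : ∀ i, d i - a i = 0 ∨ d i - a i = 1
  db : ∀ i, d i - b i = 0 ∨ d i - b i = 1
  d01 : ∀ i, d i = 0 ∨ d i = 1
  nb : ∀ i j, i ≤ j → b j ≤ b i
  nda : ∀ i j, i ≤ j → d j - a j ≤ d i - a i
  na : ∀ i j, i ≤ j → a i ≤ a j
  ndb : ∀ i j, i ≤ j → d i - b i ≤ d j - b j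

/-- group of a term: `0` = type `q` (moves with `y`), `2` = type `p`, `1` = the rest. -/
def grp (a b d : ℤ) : Fin 3 := if a = 0 ∧ b = 1 ∧ d = 1 then 0 else
  if a = 1 ∧ b = 0 ∧ d = 1 then 2 else 1

/-- bilinear interpolation. -/
def bil (a b d : ℤ) (m n : ℝ) : ℝ := a * (m * (1 - n)) + b * (n * (1 - m)) + d * (m * n)

/-- its partial derivatives. -/
def bilm (a b d : ℤ) (n : ℝ) : ℝ := a * (1 - n) + (d - b) * n
def biln (a b d : ℤ) (m : ℝ) : ℝ := b * (1 - m) + (d - a) * m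

theorem hasDerivAt_bilm (a b d : ℤ) (m n : ℝ) :
    HasDerivAt (fun m => bil a b d m n) (bilm a b d n) m := by
  have : HasDerivAt (fun m : ℝ => (a : ℝ) * (m * (1 - n)) + b * (n * (1 - m)) + d * (m * n))
      (a * (1 * (1 - n)) + b * (n * (0 - 1)) + d * (1 * n)) m :=
    ((((hasDerivAt_id m).mul_const _).const_mul _).add
      ((((hasDerivAt_const m (1:ℝ)).sub (hasDerivAt_id m)).const_mul n).const_mul _)).add
      (((hasDerivAt_id m).mul_const n).const_mul _)
  have h2 : bilm a b d n = a * (1 * (1 - n)) + b * (n * (0 - 1)) + d * (1 * n) := by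
    unfold bilm; ring
  rw [h2]
  exact this

theorem hasDerivAt_biln (a b d : ℤ) (m n : ℝ) :
    HasDerivAt (fun n => bil a b d m n) (biln a b d m) n := by
  have : HasDerivAt (fun n : ℝ => (a : ℝ) * (m * (1 - n)) + b * (n * (1 - m)) + d * (m * n))
      (a * (m * (0 - 1)) + b * (1 * (1 - m)) + d * (m * 1)) n :=
    (((((hasDerivAt_const n (1:ℝ)).sub (hasDerivAt_id n)).const_mul m).const_mul _).add
      (((hasDerivAt_id n).mul_const (1 - m)).const_mul _)).add
      (((hasDerivAt_id n).const_mul m).const_mul _)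
  have h2 : biln a b d m = a * (m * (0 - 1)) + b * (1 * (1 - m)) + d * (m * 1) := by
    unfold biln; ring
  rw [h2]
  exact this

namespace Cor

variable {ι : Type*} [LinearOrder ι] {a b d : ι → ℤ}

/-- the five types. -/
theorem types (h : Cor ι a b d) (i : ι) :
    (a i = 0 ∧ b i = 1 ∧ d i = 1) ∨ (a i = 1 ∧ b i = 0 ∧ d i = 1) ∨
    (a i = 0 ∧ b i = 0 ∧ d i = 0) ∨ (a i = 0 ∧ b i = 0 ∧ d i = 1) ∨
    (a i = 1 ∧ b i = 1 ∧ d i = 1) := by
  have h1 := h.a01 i
  have h2 := h.b01 i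
  have h3 := h.da i
  have h4 := h.db i
  have h5 := h.d01 i
  omega

theorem mono (h : Cor ι a b d) {i j : ι} (hij : i ≤ j) :
    grp (a i) (b i) (d i) ≤ grp (a j) (b j) (d j) := by
  have h1 := h.nb i j hij
  have h2 := h.nda i j hij
  have h3 := h.na i j hij
  have h4 := h.ndb i j hij
  rcases h.types i with ⟨e1, e2, e3⟩ | ⟨e1, e2, e3⟩ | ⟨e1, e2, e3⟩ | ⟨e1, e2, e3⟩ | ⟨e1, e2, e3⟩ <;>
  rcases h.types j with ⟨f1, f2, f3⟩ | ⟨f1, f2, f3⟩ | ⟨f1, f2, f3⟩ | ⟨f1, f2, f3⟩ | ⟨f1, f2, f3⟩ <;>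
  first
    | (exfalso; omega)
    | (rw [e1, e2, e3, f1, f2, f3]; first | done | decide)

/-- all the terms of the middle group have the same type. -/
theorem same (h : Cor ι a b d) {i j : ι} (hi : grp (a i) (b i) (d i) = 1)
    (hj : grp (a j) (b j) (d j) = 1) : a i = a j ∧ b i = b j ∧ d i = d j := by
  wlog hij : i ≤ j generalizing i j
  · have := this hj hi (le_of_not_ge hij)
    exact ⟨this.1.symm, this.2.1.symm, this.2.2.symm⟩
  have h1 := h.nb i j hij
  have h2 := h.nda i j hij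
  have h3 := h.na i j hij
  have h4 := h.ndb i j hij
  rcases h.types i with ⟨e1, e2, e3⟩ | ⟨e1, e2, e3⟩ | ⟨e1, e2, e3⟩ | ⟨e1, e2, e3⟩ | ⟨e1, e2, e3⟩ <;>
  rcases h.types j with ⟨f1, f2, f3⟩ | ⟨f1, f2, f3⟩ | ⟨f1, f2, f3⟩ | ⟨f1, f2, f3⟩ | ⟨f1, f2, f3⟩ <;>
  first
    | (exfalso; omega)
    | (rw [e1, e2, e3] at hi; exact absurd hi (by decide))
    | (rw [f1, f2, f3] at hj; exact absurd hj (by decide))
    | exact ⟨e1.trans f1.symm, e2.trans f2.symm, e3.trans f3.symm⟩

end Cor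

/-- separation of two finite sets of reals. -/
theorem exists_sep (X Y : Finset ℝ) (h : ∀ x ∈ X, ∀ y ∈ Y, x < y) :
    ∃ c, (∀ x ∈ X, x < c) ∧ ∀ y ∈ Y, c < y := by
  rcases X.eq_empty_or_nonempty with rfl | hX
  · rcases Y.eq_empty_or_nonempty with rfl | hY
    · exact ⟨0, by simp, by simp⟩
    · refine ⟨Y.min' hY - 1, by simp, fun y hy => ?_⟩
      have := Y.min'_le y hy
      linarith
  · rcases Y.eq_empty_or_nonempty with rfl | hY
    · refine ⟨X.max' hX + 1, fun x hx => ?_, by simp⟩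
      have := X.le_max' x hx
      linarith
    · obtain ⟨c, h1, h2⟩ := exists_between (h _ (X.max'_mem hX) _ (Y.min'_mem hY))
      exact ⟨c, fun x hx => (X.le_max' x hx).trans_lt h1, fun y hy => h2.trans_le (Y.min'_le y hy)⟩

/-- thresholds of a monotone grouping. -/
theorem exists_thr {ι : Type*} [Fintype ι] [LinearOrder ι] {l : ι → ℝ} (hl : StrictAnti l)
    {G : ι → Fin 3} (hG : ∀ i j, i ≤ j → G i ≤ G j) :
    ∃ a b : ℝ, a < b ∧ (∀ i, G i = 0 → b < l i) ∧ (∀ i, G i = 1 → a < l i) ∧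
      (∀ i, G i = 1 → l i < b) ∧ (∀ i, G i = 2 → l i < a) := by
  classical
  have hlt : ∀ i j, G i < G j → l j < l i := by
    intro i j h
    refine hl ?_
    by_contra hc
    exact absurd (hG j i (le_of_not_gt hc)) (not_le_of_gt h)
  obtain ⟨b, h1, h2⟩ := exists_sep ((Finset.univ.filter fun i => G i ≠ 0).image l)
    ((Finset.univ.filter fun i => G i = 0).image l) (by
      intro x hx y hy
      simp only [Finset.mem_image, Finset.mem_filter, Finset.mem_univ, true_and] at hx hy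
      obtain ⟨i, hi, rfl⟩ := hx
      obtain ⟨j, hj, rfl⟩ := hy
      exact hlt j i (by rw [hj]; exact Fin.pos_of_ne_zero hi))
  obtain ⟨a, h3, h4⟩ := exists_sep ((Finset.univ.filter fun i => G i = 2).image l)
    (insert b ((Finset.univ.filter fun i => G i ≠ 2).image l)) (by
      intro x hx y hy
      simp only [Finset.mem_insert, Finset.mem_image, Finset.mem_filter, Finset.mem_univ,
        true_and] at hx hy
      obtain ⟨i, hi, rfl⟩ := hx
      rcases hy with rfl | ⟨j, hj, rfl⟩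
      · exact h1 _ (Finset.mem_image.2 ⟨i, by simp [hi], rfl⟩)
      · exact hlt j i (by
          rw [hi]
          rcases cases3 (G j) with h | h | h
          · rw [h]; decide
          · rw [h]; decide
          · exact absurd h hj))
  refine ⟨a, b, h4 _ (Finset.mem_insert_self _ _), ?_, ?_, ?_, ?_⟩
  · intro i hi
    exact h2 _ (Finset.mem_image.2 ⟨i, by simp [hi], rfl⟩)
  · intro i hi
    exact h4 _ (Finset.mem_insert_of_mem (Finset.mem_image.2 ⟨i, by simp [hi], rfl⟩))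
  · intro i hi
    exact h1 _ (Finset.mem_image.2 ⟨i, by simp [hi], rfl⟩)
  · intro i hi
    exact h3 _ (Finset.mem_image.2 ⟨i, by simp [hi], rfl⟩)

/-- interpolation factor of the middle group in the `m`-equation. -/
theorem bilm_grp {ι : Type*} [LinearOrder ι] {a b d : ι → ℤ} (h : Cor ι a b d) (i : ι) (n : ℝ) :
    (grp (a i) (b i) (d i) = 0 → bilm (a i) (b i) (d i) n = 0) ∧
    (grp (a i) (b i) (d i) = 2 → bilm (a i) (b i) (d i) n = 1) := by
  unfold bilm
  rcases h.types i with ⟨e1, e2, e3⟩ | ⟨e1, e2, e3⟩ | ⟨e1, e2, e3⟩ | ⟨e1, e2, e3⟩ | ⟨e1, e2, e3⟩ <;>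
    rw [e1, e2, e3] <;> constructor <;> intro hg <;>
    first
      | (exact absurd hg (by decide))
      | (push_cast; ring)

theorem biln_grp {ι : Type*} [LinearOrder ι] {a b d : ι → ℤ} (h : Cor ι a b d) (i : ι) (m : ℝ) :
    (grp (a i) (b i) (d i) = 0 → biln (a i) (b i) (d i) m = 1) ∧
    (grp (a i) (b i) (d i) = 2 → biln (a i) (b i) (d i) m = 0) := by
  unfold biln
  rcases h.types i with ⟨e1, e2, e3⟩ | ⟨e1, e2, e3⟩ | ⟨e1, e2, e3⟩ | ⟨e1, e2, e3⟩ | ⟨e1, e2, e3⟩ <;>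
    rw [e1, e2, e3] <;> constructor <;> intro hg <;>
    first
      | (exact absurd hg (by decide))
      | (push_cast; ring)

theorem bil_grp {ι : Type*} [LinearOrder ι] {a b d : ι → ℤ} (h : Cor ι a b d) (i : ι) (m n : ℝ) :
    (grp (a i) (b i) (d i) = 0 → bil (a i) (b i) (d i) m n = n) ∧
    (grp (a i) (b i) (d i) = 2 → bil (a i) (b i) (d i) m n = m) := by
  unfold bil
  rcases h.types i with ⟨e1, e2, e3⟩ | ⟨e1, e2, e3⟩ | ⟨e1, e2, e3⟩ | ⟨e1, e2, e3⟩ | ⟨e1, e2, e3⟩ <;>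
    rw [e1, e2, e3] <;> constructor <;> intro hg <;>
    first
      | (exact absurd hg (by decide))
      | (push_cast; ring)

theorem cos_shift (B : ℤ) (v φ : ℝ) :
    cos (2 * π * (B + v + 1 / 2) - φ) = cos (2 * π * v + π - φ) := by
  have : 2 * π * (B + v + 1 / 2) - φ = 2 * π * v + π - φ + B * (2 * π) := by ring
  rw [this, cos_add_int_mul_two_pi]

theorem sin_shift (B : ℤ) (v φ : ℝ) :
    sin (2 * π * (B + v + 1 / 2) - φ) = sin (2 * π * v + π - φ) := by
  have : 2 * π * (B + v + 1 / 2) - φ = 2 * π * v + π - φ + B * (2 * π) := by ring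
  rw [this, sin_add_int_mul_two_pi]

/-- the real equations of a bad zero in one cube, `S = phases`, `fx, fy` = factors. -/
structure Eqs {ι : Type*} [Fintype ι] (T J fx fy : ι → ℝ) (ψ : ι → ℝ) (φ : ℝ) : Prop where
  c0 : ∑ i, T i * cos (2 * π * (ψ i + 1 / 2) - φ) = 0
  s0 : ∑ i, T i * sin (2 * π * (ψ i + 1 / 2) - φ) = 0
  c1 : ∑ i, J i * (T i * cos (2 * π * (ψ i + 1 / 2) - φ)) = 0
  sx : ∑ i, fx i * (T i * sin (2 * π * (ψ i + 1 / 2) - φ)) = 0
  sy : ∑ i, fy i * (T i * sin (2 * π * (ψ i + 1 / 2) - φ)) = 0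

/-- **one open cube.** -/
theorem cube {ι : Type*} [Fintype ι] [LinearOrder ι] {a b d B : ι → ℤ} (h : Cor ι a b d)
    {T J : ι → ℝ} (hJ : StrictAnti J) (hT : ∀ i, 0 ≤ T i) {m n : ℝ}
    (hm : m ∈ Set.Ioo (0 : ℝ) 1) (hn : n ∈ Set.Ioo (0 : ℝ) 1) {φ : ℝ}
    (E : Eqs T J (fun i => bilm (a i) (b i) (d i) n) (fun i => biln (a i) (b i) (d i) m)
      (fun i => B i + bil (a i) (b i) (d i) m n) φ) :
    (∀ i, T i = 0) ∨ ((∃ i, a i = 0 ∧ b i = 0 ∧ d i = 0) ∧
      ∀ τ, 0 ≤ ∑ i, T i * Alg.ep (grp (a i) (b i) (d i)) * exp (J i * τ)) := by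
  classical
  set G : ι → Fin 3 := fun i => grp (a i) (b i) (d i) with hG
  obtain ⟨α, β, hab, t1, t2, t3, t4⟩ := exists_thr hJ (G := G) (fun i j hij => h.mono hij)
  -- phase and factors of the middle group
  obtain ⟨X, XA, XB, hX, hXA, hXB, hcase⟩ : ∃ X XA XB : ℝ,
      (∀ i, G i = 1 → bil (a i) (b i) (d i) m n = X) ∧
      (∀ i, G i = 1 → bilm (a i) (b i) (d i) n = XA) ∧
      (∀ i, G i = 1 → biln (a i) (b i) (d i) m = XB) ∧
      ((∀ i, G i ≠ 1) ∨ (X = m * n ∧ XA = n ∧ XB = m) ∨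
        (X = m + n - m * n ∧ XA = 1 - n ∧ XB = 1 - m) ∨
        (XA = 0 ∧ XB = 0 ∧ ∃ i, a i = 0 ∧ b i = 0 ∧ d i = 0)) := by
    by_cases hex : ∃ i, G i = 1
    · obtain ⟨i0, hi0⟩ := hex
      refine ⟨bil (a i0) (b i0) (d i0) m n, bilm (a i0) (b i0) (d i0) n,
        biln (a i0) (b i0) (d i0) m, ?_, ?_, ?_, ?_⟩
      · intro i hi; obtain ⟨h1, h2, h3⟩ := h.same hi hi0; rw [h1, h2, h3]
      · intro i hi; obtain ⟨h1, h2, h3⟩ := h.same hi hi0; rw [h1, h2, h3]
      · intro i hi; obtain ⟨h1, h2, h3⟩ := h.same hi hi0; rw [h1, h2, h3]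
      · right
        have hi0' : grp (a i0) (b i0) (d i0) = 1 := hi0
        rcases h.types i0 with ⟨e1, e2, e3⟩ | ⟨e1, e2, e3⟩ | ⟨e1, e2, e3⟩ | ⟨e1, e2, e3⟩ |
          ⟨e1, e2, e3⟩
        · rw [e1, e2, e3] at hi0'; exact absurd hi0' (by decide)
        · rw [e1, e2, e3] at hi0'; exact absurd hi0' (by decide)
        · right; right
          refine ⟨?_, ?_, i0, e1, e2, e3⟩
          · rw [e1, e2, e3]; unfold bilm; push_cast; ring
          · rw [e1, e2, e3]; unfold biln; push_cast; ring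
        · left
          rw [e1, e2, e3]; unfold bil bilm biln; push_cast
          exact ⟨by ring, by ring, by ring⟩
        · right; left
          rw [e1, e2, e3]; unfold bil bilm biln; push_cast
          exact ⟨by ring, by ring, by ring⟩
    · push Not at hex
      exact ⟨0, 0, 0, fun i hi => absurd hi (hex i), fun i hi => absurd hi (hex i),
        fun i hi => absurd hi (hex i), Or.inl hex⟩
  set ph : Fin 3 → ℝ := ![n, X, m] with hph
  set c : Fin 3 → ℝ := fun g => cos (2 * π * ph g + π - φ) with hc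
  set s : Fin 3 → ℝ := fun g => sin (2 * π * ph g + π - φ) with hs
  have hbil : ∀ i, bil (a i) (b i) (d i) m n = ph (G i) := by
    intro i
    rcases cases3 (G i) with hg | hg | hg
    · rw [hg, (bil_grp h i m n).1 hg]; rfl
    · rw [hg, hX i hg]; rfl
    · rw [hg, (bil_grp h i m n).2 hg]; rfl
  have hcos : ∀ i, cos (2 * π * (((B i : ℝ) + bil (a i) (b i) (d i) m n) + 1 / 2) - φ) =
      c (G i) := by
    intro i; rw [cos_shift, hbil i]
  have hsin : ∀ i, sin (2 * π * (((B i : ℝ) + bil (a i) (b i) (d i) m n) + 1 / 2) - φ) =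
      s (G i) := by
    intro i; rw [sin_shift, hbil i]
  have E0 : ∑ i, T i * c (G i) = 0 := by
    rw [← E.c0]; exact Finset.sum_congr rfl fun i _ => by rw [hcos i]
  have E0s : ∑ i, T i * s (G i) = 0 := by
    rw [← E.s0]; exact Finset.sum_congr rfl fun i _ => by rw [hsin i]
  have E1 : ∑ i, J i * (T i * c (G i)) = 0 := by
    rw [← E.c1]; exact Finset.sum_congr rfl fun i _ => by rw [hcos i]
  have hx : tot T G 2 * s 2 + XA * (tot T G 1 * s 1) = 0 := by
    have h1 := sum_group T G (fun g => (![0, XA, 1] : Fin 3 → ℝ) g * s g)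
    have h2 : ∑ i, T i * ((![0, XA, 1] : Fin 3 → ℝ) (G i) * s (G i)) = 0 := by
      refine Eq.trans (Finset.sum_congr rfl fun i _ => ?_) E.sx
      show _ = bilm (a i) (b i) (d i) n * (T i * sin (2 * π * (((B i : ℝ) +
        bil (a i) (b i) (d i) m n) + 1 / 2) - φ))
      rw [hsin i]
      have : bilm (a i) (b i) (d i) n = (![0, XA, 1] : Fin 3 → ℝ) (G i) := by
        rcases cases3 (G i) with hg | hg | hg
        · rw [hg, (bilm_grp h i n).1 hg]; rfl
        · rw [hg, hXA i hg]; rfl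
        · rw [hg, (bilm_grp h i n).2 hg]; rfl
      rw [this]; ring
    rw [h2] at h1
    simp at h1
    linarith
  have hy : tot T G 0 * s 0 + XB * (tot T G 1 * s 1) = 0 := by
    have h1 := sum_group T G (fun g => (![1, XB, 0] : Fin 3 → ℝ) g * s g)
    have h2 : ∑ i, T i * ((![1, XB, 0] : Fin 3 → ℝ) (G i) * s (G i)) = 0 := by
      refine Eq.trans (Finset.sum_congr rfl fun i _ => ?_) E.sy
      show _ = biln (a i) (b i) (d i) m * (T i * sin (2 * π * (((B i : ℝ) +
        bil (a i) (b i) (d i) m n) + 1 / 2) - φ))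
      rw [hsin i]
      have : biln (a i) (b i) (d i) m = (![1, XB, 0] : Fin 3 → ℝ) (G i) := by
        rcases cases3 (G i) with hg | hg | hg
        · rw [hg, (biln_grp h i m).1 hg]; rfl
        · rw [hg, hXB i hg]; rfl
        · rw [hg, (biln_grp h i m).2 hg]; rfl
      rw [this]; ring
    rw [h2] at h1
    simp at h1
    linarith
  have hAlg : Alg T J G α β c s :=
    ⟨hT, hab, t1, t2, t3, t4, fun g => by rw [hc, hs]; exact cos_sq_add_sin_sq _, E0, E0s, E1⟩
  have dot : ∀ g, c g * c 1 + s g * s 1 = cos (2 * π * (ph g - ph 1)) := by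
    intro g
    have : 2 * π * (ph g - ph 1) = (2 * π * ph g + π - φ) - (2 * π * ph 1 + π - φ) := by ring
    rw [this, cos_sub]
  rcases hcase with h1 | ⟨hX1, hA1, hB1⟩ | ⟨hX1, hA1, hB1⟩ | ⟨hA1, hB1, hfl⟩
  · left
    refine hAlg.strip h1 (Or.inl ?_)
    have : tot T G 1 = 0 := by
      unfold tot; exact Finset.sum_eq_zero fun i _ => by simp [h1 i]
    rw [this] at hx; linarith
  · left
    rw [hA1] at hx
    rw [hB1] at hy
    refine hAlg.kept_min hm hn hx hy ?_ ?_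
    · rw [dot 2]
      have : ph 2 - ph 1 = m * (1 - n) := by
        show m - X = _; rw [hX1]; ring
      rw [this]
    · rw [dot 0]
      have : ph 0 - ph 1 = n * (1 - m) := by
        show n - X = _; rw [hX1]; ring
      rw [this]
  · left
    rw [hA1] at hx
    rw [hB1] at hy
    refine hAlg.kept_max hm hn hx hy ?_ ?_
    · rw [dot 2, ← Real.cos_neg]
      have : -(2 * π * (ph 2 - ph 1)) = 2 * π * (n * (1 - m)) := by
        show -(2 * π * (m - X)) = _; rw [hX1]; ring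
      rw [this]
    · rw [dot 0, ← Real.cos_neg]
      have : -(2 * π * (ph 0 - ph 1)) = 2 * π * (m * (1 - n)) := by
        show -(2 * π * (n - X)) = _; rw [hX1]; ring
      rw [this]
  · rw [hA1] at hx
    rw [hB1] at hy
    rcases hAlg.killed (by linarith) (by linarith) with h1 | h1
    · exact Or.inl h1
    · exact Or.inr ⟨hfl, h1⟩

/-- **two groups only** (strips): one of them real. -/
theorem two_groups {ι : Type*} [Fintype ι] [LinearOrder ι] {T J ψ : ι → ℝ} (hJ : StrictAnti J)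
    (hT : ∀ i, 0 ≤ T i) {G : ι → Fin 3} (hG : ∀ i j, i ≤ j → G i ≤ G j) (h1 : ∀ i, G i ≠ 1)
    {B : ι → ℤ} {ph : Fin 3 → ℝ} (hψ : ∀ i, ψ i = B i + ph (G i)) {φ : ℝ}
    (c0 : ∑ i, T i * cos (2 * π * (ψ i + 1 / 2) - φ) = 0)
    (s0 : ∑ i, T i * sin (2 * π * (ψ i + 1 / 2) - φ) = 0)
    (c1 : ∑ i, J i * (T i * cos (2 * π * (ψ i + 1 / 2) - φ)) = 0)
    {g : Fin 3} (hg : g = 0 ∨ g = 2)
    (sx : ∑ i, (if G i = g then 1 else 0) * (T i * sin (2 * π * (ψ i + 1 / 2) - φ)) = 0) :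
    ∀ i, T i = 0 := by
  obtain ⟨α, β, hab, t1, t2, t3, t4⟩ := exists_thr hJ hG
  set c : Fin 3 → ℝ := fun g => cos (2 * π * ph g + π - φ) with hc
  set s : Fin 3 → ℝ := fun g => sin (2 * π * ph g + π - φ) with hs
  have hcos : ∀ i, cos (2 * π * (ψ i + 1 / 2) - φ) = c (G i) := by
    intro i; rw [hψ i, cos_shift]
  have hsin : ∀ i, sin (2 * π * (ψ i + 1 / 2) - φ) = s (G i) := by
    intro i; rw [hψ i, sin_shift]
  have E0 : ∑ i, T i * c (G i) = 0 :=
    Eq.trans (Finset.sum_congr rfl fun i _ => by rw [hcos i]) c0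
  have E0s : ∑ i, T i * s (G i) = 0 :=
    Eq.trans (Finset.sum_congr rfl fun i _ => by rw [hsin i]) s0
  have E1 : ∑ i, J i * (T i * c (G i)) = 0 :=
    Eq.trans (Finset.sum_congr rfl fun i _ => by rw [hcos i]) c1
  have hAlg : Alg T J G α β c s :=
    ⟨hT, hab, t1, t2, t3, t4, fun g => by rw [hc, hs]; exact cos_sq_add_sin_sq _, E0, E0s, E1⟩
  have hx : tot T G g * s g = 0 := by
    refine Eq.trans ?_ sx
    unfold tot
    rw [Finset.sum_mul]
    refine Finset.sum_congr rfl fun i _ => ?_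
    rw [hsin i]
    split_ifs with h
    · rw [h]; ring
    · ring
  refine hAlg.strip h1 ?_
  rcases hg with rfl | rfl
  · exact Or.inr hx
  · exact Or.inl hx

/-- **all phases integers.** -/
theorem corner {ι : Type*} [Fintype ι] {T ψ : ι → ℝ} (hT : ∀ i, 0 ≤ T i)
    {B : ι → ℤ} (hψ : ∀ i, ψ i = B i) {φ : ℝ}
    (c0 : ∑ i, T i * cos (2 * π * (ψ i + 1 / 2) - φ) = 0)
    (s0 : ∑ i, T i * sin (2 * π * (ψ i + 1 / 2) - φ) = 0) : ∀ i, T i = 0 := by
  have hcos : ∀ i, cos (2 * π * (ψ i + 1 / 2) - φ) = cos (π - φ) := by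
    intro i
    have := cos_shift (B i) 0 φ
    rw [hψ i]; rw [add_zero, mul_zero, zero_add] at this; exact this
  have hsin : ∀ i, sin (2 * π * (ψ i + 1 / 2) - φ) = sin (π - φ) := by
    intro i
    have := sin_shift (B i) 0 φ
    rw [hψ i]; rw [add_zero, mul_zero, zero_add] at this; exact this
  have e0 : (∑ i, T i) * cos (π - φ) = 0 := by
    rw [Finset.sum_mul]
    exact Eq.trans (Finset.sum_congr rfl fun i _ => by rw [hcos i]) c0
  have e1 : (∑ i, T i) * sin (π - φ) = 0 := by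
    rw [Finset.sum_mul]
    exact Eq.trans (Finset.sum_congr rfl fun i _ => by rw [hsin i]) s0
  have e2 : ∑ i, T i = 0 := by
    have h1 := cos_sq_add_sin_sq (π - φ)
    calc ∑ i, T i = (∑ i, T i) * (cos (π - φ) ^ 2 + sin (π - φ) ^ 2) := by rw [h1, mul_one]
      _ = ((∑ i, T i) * cos (π - φ)) * cos (π - φ) + ((∑ i, T i) * sin (π - φ)) * sin (π - φ) := by
          ring
      _ = 0 := by rw [e0, e1]; ring
  intro i
  exact (Finset.sum_eq_zero_iff_of_nonneg fun i _ => hT i).1 e2 i (Finset.mem_univ i)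

end Crest.Agent.R267.PlTyp_543
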