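import Crest.Agent.R267.ZoneN_951
import Crest.Agent.R267.NSFact_88
import Crest.Agent.R267.LemL_951
import Crest.Agent.R267.PlTyp_543

/-!
# Row 267, C1 (helper543): LEAF REGB of NSDefs_966 (helper966's lemma, board #3428 (2), (3))
-/

set_option autoImplicit false
set_option linter.unusedSectionVars false

noncomputable section

namespace Crest.Agent.R267.NSRegB_543

open Finset Real Set Topology
open Crest.Agent.R267.PlCube_543 Crest.Agent.R267.PlTyp_543
open Crest.Agent.R267.T3aDefs_957 (st)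
open Crest.Agent.R267.Calc_957
open Crest.Agent.R267.LemL_951 (rf jf rf_eq exists_conormal)
open Crest.Agent.R267.NSDefs_966 (Sp Gp NS PD cf RegBProp)
open Crest.Agent.R267.NSHat_966
open Crest.Agent.R267.NSOk_966
open Crest.Agent.R267.NSFact_88
open Crest.Agent.R267.ZoneN_951 (hasDerivAt_e fd_line hat_first)

variable {m : ℕ} {S : NS m}

/-- all the coefficients. -/
def Cb (S : NS m) (M : Fin m → ℝ) (Mv t : ℝ) (s : Fin (m + 2)) (x y : ℝ) : ℝ :=
  cf (fun σ => M σ * (1 - t + t * S.fl (NS.ix σ) x y)) Mv s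

/-- the sum of all the terms. -/
def Kb (S : NS m) (M : Fin m → ℝ) (Mv t : ℝ) (z : ℝ × ℝ × ℝ) : ℂ :=
  ∑ s, ((Cb S M Mv t s z.1 z.2.2 * Real.exp (S.j s * z.2.1) : ℝ) : ℂ) *
    NSDefs_966.e (S.hat s z.1 z.2.2 + 1 / 2)

theorem Cb_zero (M : Fin m → ℝ) (Mv t x y : ℝ) : Cb S M Mv t 0 x y = 1 := by simp [Cb, cf]

theorem Cb_last (M : Fin m → ℝ) (Mv t x y : ℝ) : Cb S M Mv t (Fin.last m).succ x y = Mv := by
  simp [Cb, cf]

theorem Cb_ix (M : Fin m → ℝ) (Mv t x y : ℝ) (s : Fin m) :
    Cb S M Mv t s.castSucc.succ x y = M s * (1 - t + t * S.fl (NS.ix s) x y) := by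
  simp only [Cb, cf, Fin.cons_succ, Fin.snoc_castSucc]

theorem K_eqB (hS : S.Ok) (M : Fin m → ℝ) (Mv t : ℝ) :
    (S.pathB M Mv).K t = Kb S M Mv t := by
  funext z
  unfold Kb
  rw [Fin.sum_univ_succ, Fin.sum_univ_castSucc, Cb_zero, Cb_last]
  have j0 : S.j 0 = 15 := hS.j0
  have j1 : S.j (Fin.last m).succ = 0 := hS.j1
  rw [j0, j1]
  have e1 : S.hat (Fin.last m).succ z.1 z.2.2 = S.hat (Fin.last (m + 1)) z.1 0 :=
    hat_last hS z.1 z.2.2
  rw [e1, hat_first hS]
  simp only [Cb_ix]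
  unfold PD.K PD.mid
  have e2 : (S.pathB M Mv).cv t = Mv := rfl
  rw [e2]
  have e3 : ∀ s : Fin m, ((((S.pathB M Mv).c s (t, z.1, z.2.2) *
      Real.exp ((S.pathB M Mv).E s * z.2.1) : ℝ) : ℂ) *
        NSDefs_966.e ((S.pathB M Mv).ψ s (t, z.1, z.2.2))) =
      ((M s * (1 - t + t * S.fl (NS.ix s) z.1 z.2.2) * Real.exp (S.j s.castSucc.succ * z.2.1) : ℝ) : ℂ)
        * NSDefs_966.e (S.hat s.castSucc.succ z.1 z.2.2 + 1 / 2) := fun s => rfl
  simp only [e3]
  have e4 : (S.pathB M Mv).q (t, z.2.2) = Sp z.2.2 + 1 / 2 := rfl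
  have e5 : (S.pathB M Mv).p (t, z.1) = S.hat (Fin.last (m + 1)) z.1 0 + 1 / 2 := rfl
  rw [e4, e5]
  simp only [Nat.cast_ofNat, one_mul, Nat.cast_zero, zero_mul, Real.exp_zero, mul_one]
  ring

theorem contDiff_Cb (M : Fin m → ℝ) (Mv t : ℝ) (s : Fin (m + 2)) :
    ContDiff ℝ 2 fun z : ℝ × ℝ => Cb S M Mv t s z.1 z.2 := by
  induction s using Fin.cases with
  | zero => simp only [Cb_zero]; exact contDiff_const
  | succ s =>
    induction s using Fin.lastCases with
    | last => simp only [Cb_last]; exact contDiff_const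
    | cast s =>
      simp only [Cb_ix]
      exact contDiff_const.mul (contDiff_const.add (contDiff_const.mul (contDiff_fl (NS.ix s))))

theorem contDiff_e : ContDiff ℝ 2 NSDefs_966.e := by
  unfold NSDefs_966.e
  exact (Complex.contDiff_exp (𝕜 := ℝ)).comp
    ((contDiff_const.mul Complex.ofRealCLM.contDiff).mul contDiff_const)

theorem contDiff_Kb (M : Fin m → ℝ) (Mv t : ℝ) : ContDiff ℝ 2 (Kb S M Mv t) := by
  unfold Kb
  refine ContDiff.sum fun s _ => ?_
  have h0 : ContDiff ℝ 2 fun z : ℝ × ℝ × ℝ => Cb S M Mv t s z.1 z.2.2 :=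
    (contDiff_Cb M Mv t s).comp (f := fun z : ℝ × ℝ × ℝ => (z.1, z.2.2)) (by fun_prop)
  have h1 : ContDiff ℝ 2 fun z : ℝ × ℝ × ℝ =>
      (Cb S M Mv t s z.1 z.2.2 * Real.exp (S.j s * z.2.1) : ℝ) := h0.mul (by fun_prop)
  have h2 : ContDiff ℝ 2 fun z : ℝ × ℝ × ℝ => S.hat s z.1 z.2.2 + 1 / 2 :=
    ((contDiff_hat (S := S) s).comp (f := fun z : ℝ × ℝ × ℝ => (z.1, z.2.2)) (by fun_prop)).add
      contDiff_const
  exact (Complex.ofRealCLM.contDiff.comp h1).mul (contDiff_e.comp h2)

theorem fd_rad (M : Fin m → ℝ) (Mv t x lam y : ℝ) :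
    fderiv ℝ (Kb S M Mv t) (x, lam, y) (0, 1, 0) =
      ∑ s, (((S.j s : ℝ) * (Cb S M Mv t s x y * Real.exp (S.j s * lam)) : ℝ) : ℂ) *
        NSDefs_966.e (S.hat s x y + 1 / 2) := by
  refine fd_line (c := fun τ => (x, lam + τ, y))
    ((contDiff_Kb M Mv t).differentiable (by norm_num) _) ?_ (by simp) ?_
  · refine (hasDerivAt_const _ _).prodMk (HasDerivAt.prodMk ?_ (hasDerivAt_const _ _))
    exact (hasDerivAt_id (0 : ℝ)).const_add lam
  · unfold Kb
    refine HasDerivAt.fun_sum fun s _ => ?_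
    have h0 : HasDerivAt (fun τ : ℝ => (S.j s : ℝ) * (lam + τ)) ((S.j s : ℝ) * 1) 0 :=
      ((hasDerivAt_id (0 : ℝ)).const_add lam).const_mul _
    have h1 := (h0.exp.const_mul (Cb S M Mv t s x y)).ofReal_comp.mul_const
      (NSDefs_966.e (S.hat s x y + 1 / 2))
    refine h1.congr_deriv ?_
    simp only [add_zero, mul_one]
    push_cast
    ring

theorem hasDerivAt_shift {f : ℝ → ℝ} {f' x : ℝ} (h : HasDerivAt f f' x) :
    HasDerivAt (fun τ => f (x + τ)) f' 0 := by
  have h0 : HasDerivAt (fun τ : ℝ => x + τ) 1 0 := (hasDerivAt_id (0 : ℝ)).const_add x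
  have h1 : HasDerivAt f f' ((fun τ : ℝ => x + τ) 0) := by simpa using h
  have := h1.comp (0 : ℝ) h0
  rw [mul_one] at this
  exact this

theorem Cb_x (M : Fin m → ℝ) (Mv t : ℝ) (s : Fin (m + 2)) {x y : ℝ} (hx : deriv Sp x ≠ 0) :
    ∀ᶠ τ in 𝓝 (0 : ℝ), Cb S M Mv t s (x + τ) y = Cb S M Mv t s x y := by
  have h1 : Filter.Tendsto (fun τ : ℝ => x + τ) (𝓝 0) (𝓝 x) := by
    have : Filter.Tendsto (fun τ : ℝ => x + τ) (𝓝 0) (𝓝 (x + 0)) :=
      (continuous_const.add continuous_id).tendsto 0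
    rwa [add_zero] at this
  filter_upwards [h1.eventually (Gp_ev hx)] with τ hτ
  unfold Cb NS.fl
  rw [hτ]

theorem Cb_y (M : Fin m → ℝ) (Mv t : ℝ) (s : Fin (m + 2)) {x y : ℝ} (hy : deriv Sp y ≠ 0) :
    ∀ᶠ τ in 𝓝 (0 : ℝ), Cb S M Mv t s x (y + τ) = Cb S M Mv t s x y := by
  have h1 : Filter.Tendsto (fun τ : ℝ => y + τ) (𝓝 0) (𝓝 y) := by
    have : Filter.Tendsto (fun τ : ℝ => y + τ) (𝓝 0) (𝓝 (y + 0)) :=
      (continuous_const.add continuous_id).tendsto 0
    rwa [add_zero] at this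
  filter_upwards [h1.eventually (Gp_ev hy)] with τ hτ
  unfold Cb NS.fl
  rw [hτ]

theorem fd_x (M : Fin m → ℝ) (Mv t lam : ℝ) {x y : ℝ} (hx : deriv Sp x ≠ 0)
    {F : Fin (m + 2) → ℝ} (hF : ∀ s, HasDerivAt (fun x' => S.hat s x' y) (F s) x) :
    fderiv ℝ (Kb S M Mv t) (x, lam, y) (1, 0, 0) =
      ∑ s, (((2 * π * F s) * (Cb S M Mv t s x y * Real.exp (S.j s * lam)) : ℝ) : ℂ) *
        (Complex.I * NSDefs_966.e (S.hat s x y + 1 / 2)) := by
  refine fd_line (c := fun τ => (x + τ, lam, y))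
    ((contDiff_Kb M Mv t).differentiable (by norm_num) _) ?_ (by simp) ?_
  · exact ((hasDerivAt_id (0 : ℝ)).const_add x).prodMk
      ((hasDerivAt_const _ _).prodMk (hasDerivAt_const _ _))
  · unfold Kb
    refine HasDerivAt.fun_sum fun s _ => ?_
    have h0 := (hasDerivAt_e ((hasDerivAt_shift (hF s)).add_const (1 / 2 : ℝ))).const_mul
      ((Cb S M Mv t s x y * Real.exp (S.j s * lam) : ℝ) : ℂ)
    refine (h0.congr_of_eventuallyEq ?_).congr_deriv ?_
    · filter_upwards [Cb_x M Mv t s (y := y) hx] with τ hτ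
      show ((Cb S M Mv t s (x + τ) y * Real.exp (S.j s * lam) : ℝ) : ℂ) * _ = _
      rw [hτ]
    · simp only [add_zero]
      push_cast
      ring

theorem fd_y (M : Fin m → ℝ) (Mv t lam : ℝ) {x y : ℝ} (hy : deriv Sp y ≠ 0)
    {F : Fin (m + 2) → ℝ} (hF : ∀ s, HasDerivAt (fun y' => S.hat s x y') (F s) y) :
    fderiv ℝ (Kb S M Mv t) (x, lam, y) (0, 0, 1) =
      ∑ s, (((2 * π * F s) * (Cb S M Mv t s x y * Real.exp (S.j s * lam)) : ℝ) : ℂ) *
        (Complex.I * NSDefs_966.e (S.hat s x y + 1 / 2)) := by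
  refine fd_line (c := fun τ => (x, lam, y + τ))
    ((contDiff_Kb M Mv t).differentiable (by norm_num) _) ?_ (by simp) ?_
  · exact (hasDerivAt_const _ _).prodMk
      ((hasDerivAt_const _ _).prodMk ((hasDerivAt_id (0 : ℝ)).const_add y))
  · unfold Kb
    refine HasDerivAt.fun_sum fun s _ => ?_
    have h0 := (hasDerivAt_e ((hasDerivAt_shift (hF s)).add_const (1 / 2 : ℝ))).const_mul
      ((Cb S M Mv t s x y * Real.exp (S.j s * lam) : ℝ) : ℂ)
    refine (h0.congr_of_eventuallyEq ?_).congr_deriv ?_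
    · filter_upwards [Cb_y M Mv t s (x := x) hy] with τ hτ
      show ((Cb S M Mv t s x (y + τ) * Real.exp (S.j s * lam) : ℝ) : ℂ) * _ = _
      rw [hτ]
    · simp only [add_zero]
      push_cast
      ring

/-! ### conormal equations -/

theorem rf_e (T a φ : ℝ) : rf (Complex.exp (φ * Complex.I)) ((T : ℂ) * NSDefs_966.e a) =
    T * cos (2 * π * a - φ) := by
  have h1 : NSDefs_966.e a = ⟨cos (2 * π * a), sin (2 * π * a)⟩ := by
    unfold NSDefs_966.e
    have : (2 * (π : ℂ) * (a : ℂ) * Complex.I) = ((2 * π * a : ℝ) : ℂ) * Complex.I := by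
      push_cast; ring
    rw [this]
    refine Complex.ext ?_ ?_
    · rw [Complex.exp_ofReal_mul_I_re]
    · rw [Complex.exp_ofReal_mul_I_im]
  rw [LemL_951.rf_real_mul, h1, rf, Complex.exp_ofReal_mul_I_re, Complex.exp_ofReal_mul_I_im,
    cos_sub]
  ring

theorem jf_e (T a φ : ℝ) : jf (Complex.exp (φ * Complex.I)) ((T : ℂ) * NSDefs_966.e a) =
    T * sin (2 * π * a - φ) := by
  have h1 : NSDefs_966.e a = ⟨cos (2 * π * a), sin (2 * π * a)⟩ := by
    unfold NSDefs_966.e
    have : (2 * (π : ℂ) * (a : ℂ) * Complex.I) = ((2 * π * a : ℝ) : ℂ) * Complex.I := by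
      push_cast; ring
    rw [this]
    refine Complex.ext ?_ ?_
    · rw [Complex.exp_ofReal_mul_I_re]
    · rw [Complex.exp_ofReal_mul_I_im]
  rw [LemL_951.jf_real_mul, h1, jf, Complex.exp_ofReal_mul_I_re, Complex.exp_ofReal_mul_I_im,
    sin_sub]
  ring

theorem rf_Ie (T a φ : ℝ) :
    rf (Complex.exp (φ * Complex.I)) ((T : ℂ) * (Complex.I * NSDefs_966.e a)) =
    -(T * sin (2 * π * a - φ)) := by
  have : (T : ℂ) * (Complex.I * NSDefs_966.e a) = Complex.I * ((T : ℂ) * NSDefs_966.e a) := by ring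
  rw [this, LemL_951.rf_I_mul, jf_e]

/-- **equations of a bad zero.** -/
theorem bad (M : Fin m → ℝ) (Mv t x lam y : ℝ) (h0 : Kb S M Mv t (x, lam, y) = 0)
    (hns : ¬ Function.Surjective (fderiv ℝ (Kb S M Mv t) (x, lam, y))) :
    ∃ φ : ℝ,
      (∑ s, (Cb S M Mv t s x y * Real.exp (S.j s * lam)) *
        cos (2 * π * (S.hat s x y + 1 / 2) - φ) = 0) ∧
      (∑ s, (Cb S M Mv t s x y * Real.exp (S.j s * lam)) *
        sin (2 * π * (S.hat s x y + 1 / 2) - φ) = 0) ∧
      (∑ s, (S.j s : ℝ) * ((Cb S M Mv t s x y * Real.exp (S.j s * lam)) *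
        cos (2 * π * (S.hat s x y + 1 / 2) - φ)) = 0) ∧
      (deriv Sp x ≠ 0 → ∀ F : Fin (m + 2) → ℝ,
        (∀ s, HasDerivAt (fun x' => S.hat s x' y) (F s * deriv Sp x) x) →
        ∑ s, F s * ((Cb S M Mv t s x y * Real.exp (S.j s * lam)) *
          sin (2 * π * (S.hat s x y + 1 / 2) - φ)) = 0) ∧
      (deriv Sp y ≠ 0 → ∀ F : Fin (m + 2) → ℝ,
        (∀ s, HasDerivAt (fun y' => S.hat s x y') (F s * deriv Sp y) y) →
        ∑ s, F s * ((Cb S M Mv t s x y * Real.exp (S.j s * lam)) *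
          sin (2 * π * (S.hat s x y + 1 / 2) - φ)) = 0) := by
  obtain ⟨u, hu, -, hk⟩ := exists_conormal (fderiv ℝ (Kb S M Mv t) (x, lam, y)).toLinearMap hns
  obtain ⟨φ, rfl⟩ := (Complex.norm_eq_one_iff u).1 hu
  have hk' : ∀ v, rf (Complex.exp (φ * Complex.I)) (fderiv ℝ (Kb S M Mv t) (x, lam, y) v) = 0 :=
    fun v => hk v
  have hpi := pi_pos
  refine ⟨φ, ?_, ?_, ?_, ?_, ?_⟩
  · have h1 : rf (Complex.exp (φ * Complex.I)) (Kb S M Mv t (x, lam, y)) = 0 := by
      rw [h0]; simp [rf]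
    unfold Kb at h1
    rw [LemL_951.rf_sum] at h1
    simpa only [rf_e] using h1
  · have h1 : jf (Complex.exp (φ * Complex.I)) (Kb S M Mv t (x, lam, y)) = 0 := by
      rw [h0]; simp [jf]
    unfold Kb at h1
    rw [LemL_951.jf_sum] at h1
    simpa only [jf_e] using h1
  · have h1 := hk' (0, 1, 0)
    rw [fd_rad, LemL_951.rf_sum] at h1
    simp only [rf_e] at h1
    rw [← h1]
    exact Finset.sum_congr rfl fun s _ => by ring
  · intro hx F hF
    have h1 := hk' (1, 0, 0)
    rw [fd_x M Mv t lam hx hF, LemL_951.rf_sum] at h1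
    simp only [rf_Ie] at h1
    have h2 : (2 * π * deriv Sp x) * ∑ s, F s * ((Cb S M Mv t s x y * Real.exp (S.j s * lam)) *
          sin (2 * π * (S.hat s x y + 1 / 2) - φ)) = 0 := by
      rw [Finset.mul_sum, ← neg_zero, ← h1, ← Finset.sum_neg_distrib]
      exact Finset.sum_congr rfl fun s _ => by ring
    rcases mul_eq_zero.1 h2 with h3 | h3
    · exact absurd h3 (mul_ne_zero (by positivity) hx)
    · exact h3
  · intro hy F hF
    have h1 := hk' (0, 0, 1)
    rw [fd_y M Mv t lam hy hF, LemL_951.rf_sum] at h1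
    simp only [rf_Ie] at h1
    have h2 : (2 * π * deriv Sp y) * ∑ s, F s * ((Cb S M Mv t s x y * Real.exp (S.j s * lam)) *
          sin (2 * π * (S.hat s x y + 1 / 2) - φ)) = 0 := by
      rw [Finset.mul_sum, ← neg_zero, ← h1, ← Finset.sum_neg_distrib]
      exact Finset.sum_congr rfl fun s _ => by ring
    rcases mul_eq_zero.1 h2 with h3 | h3
    · exact absurd h3 (mul_ne_zero (by positivity) hy)
    · exact h3

/-! ### derivatives of the phases -/

theorem hasDerivAt_hat_x (S : NS m) (s : Fin (m + 2)) (k l : ℤ) {x y : ℝ}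
    (h1 : (k : ℝ) - 1 / 2 < x) (h2 : x < k + 1) (h3 : (l : ℝ) - 1 / 2 ≤ y) (h4 : y ≤ l + 1) :
    HasDerivAt (fun x' => S.hat s x' y)
      (((1 - st (2 * (y - l))) * (S.N s (k + 1) l - S.N s k l) +
        st (2 * (y - l)) * (S.N s (k + 1) (l + 1) - S.N s k (l + 1))) * deriv Sp x) x := by
  set ν := st (2 * (y - l)) with hν
  have hd := hasDerivAt_Sp k h1 h2
  have hd' : HasDerivAt Sp (deriv Sp x) x := hd.differentiableAt.hasDerivAt
  have e1 : HasDerivAt (fun x' => bf (S.N s k l) (S.N s (k + 1) l) (S.N s k (l + 1))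
      (S.N s (k + 1) (l + 1)) (Sp x' - k) ν)
      (((1 - ν) * (S.N s (k + 1) l - S.N s k l) +
        ν * (S.N s (k + 1) (l + 1) - S.N s k (l + 1))) * deriv Sp x) x := by
    unfold bf
    have e2 := hd'.sub_const (k : ℝ)
    have e3 := ((((e2.const_sub 1).mul_const (1 - ν)).mul_const (S.N s k l : ℝ)).add
      ((e2.mul_const (1 - ν)).mul_const (S.N s (k + 1) l : ℝ))).add
      (((e2.const_sub 1).mul_const ν).mul_const (S.N s k (l + 1) : ℝ)) |>.add
      ((e2.mul_const ν).mul_const (S.N s (k + 1) (l + 1) : ℝ))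
    refine e3.congr_deriv ?_
    ring
  refine e1.congr_of_eventuallyEq ?_
  filter_upwards [(isOpen_cell k).mem_nhds ⟨h1, h2⟩] with z hz
  show S.hat s z y = _
  unfold NS.hat
  rw [bilS_eq _ k l hz.1.le hz.2.le h3 h4, Sp_eq k hz.1.le hz.2.le]
  simp only [add_sub_cancel_left]
  rfl

theorem hasDerivAt_hat_y (S : NS m) (s : Fin (m + 2)) (k l : ℤ) {x y : ℝ}
    (h1 : (k : ℝ) - 1 / 2 ≤ x) (h2 : x ≤ k + 1) (h3 : (l : ℝ) - 1 / 2 < y) (h4 : y < l + 1) :
    HasDerivAt (fun y' => S.hat s x y')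
      (((1 - st (2 * (x - k))) * (S.N s k (l + 1) - S.N s k l) +
        st (2 * (x - k)) * (S.N s (k + 1) (l + 1) - S.N s (k + 1) l)) * deriv Sp y) y := by
  set μ := st (2 * (x - k)) with hμ
  have hd := hasDerivAt_Sp l h3 h4
  have hd' : HasDerivAt Sp (deriv Sp y) y := hd.differentiableAt.hasDerivAt
  have e1 : HasDerivAt (fun y' => bf (S.N s k l) (S.N s (k + 1) l) (S.N s k (l + 1))
      (S.N s (k + 1) (l + 1)) μ (Sp y' - l))
      (((1 - μ) * (S.N s k (l + 1) - S.N s k l) +
        μ * (S.N s (k + 1) (l + 1) - S.N s (k + 1) l)) * deriv Sp y) y := by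
    unfold bf
    have e2 := hd'.sub_const (l : ℝ)
    have e3 := ((((e2.const_sub 1).const_mul (1 - μ)).mul_const (S.N s k l : ℝ)).add
      (((e2.const_sub 1).const_mul μ).mul_const (S.N s (k + 1) l : ℝ))).add
      ((e2.const_mul (1 - μ)).mul_const (S.N s k (l + 1) : ℝ)) |>.add
      ((e2.const_mul μ).mul_const (S.N s (k + 1) (l + 1) : ℝ))
    refine e3.congr_deriv ?_
    ring
  refine e1.congr_of_eventuallyEq ?_
  filter_upwards [(isOpen_cell l).mem_nhds ⟨h3, h4⟩] with z hz
  show S.hat s x z = _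
  unfold NS.hat
  rw [bilS_eq _ k l h1 h2 hz.1.le hz.2.le, Sp_eq l hz.1.le hz.2.le]
  simp only [add_sub_cancel_left]
  rfl

/-! ### nestedness, monotone form -/

theorem mono_of_succ {f : Fin (m + 2) → ℤ} (h : ∀ s : Fin (m + 1), f s.castSucc ≤ f s.succ) :
    Monotone f := Fin.monotone_iff_le_succ.2 h

theorem mono_k (hS : S.Ok) (k l : ℤ) :
    Monotone fun s => S.sg k * (S.N s (k + 1) l - S.N s k l) := by
  refine mono_of_succ fun s => ?_
  have := hS.nestk s k l
  simp only [mul_sub] at this ⊢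
  linarith

theorem anti_l (hS : S.Ok) (k l : ℤ) : Antitone fun s => S.N s k (l + 1) - S.N s k l := by
  have : Monotone fun s => -(S.N s k (l + 1) - S.N s k l) := by
    refine mono_of_succ fun s => ?_
    have := hS.nestl s k l
    linarith
  intro s s' h
  have h1 := this h
  simp only at h1 ⊢
  linarith

/-- integer data of a positive cell. -/
theorem cor_pos (hS : S.Ok) {k : ℤ} (l : ℤ) (hk : S.sg k = 1) :
    Cor (Fin (m + 2)) (fun s => S.N s (k + 1) l - S.N s k l)
      (fun s => S.N s k (l + 1) - S.N s k l) (fun s => S.N s (k + 1) (l + 1) - S.N s k l) where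
  a01 := fun s => by have := hS.stepk s k l; rw [hk, one_mul] at this; exact this
  b01 := fun s => hS.stepl s k l
  da := fun s => by have := hS.stepl s (k + 1) l; omega
  db := fun s => by have := hS.stepk s k (l + 1); rw [hk, one_mul] at this; omega
  d01 := fun s => by
    have h1 := hS.stepk s k l
    rw [hk, one_mul] at h1
    have h2 := hS.stepl s (k + 1) l
    have h3 := hS.diagp s k l hk
    omega
  nb := fun s s' h => anti_l hS k l h
  nda := fun s s' h => by
    have := anti_l hS (k + 1) l h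
    simp only at this ⊢
    omega
  na := fun s s' h => by
    have := mono_k hS k l h
    simp only [hk, one_mul] at this ⊢
    exact this
  ndb := fun s s' h => by
    have := mono_k hS k (l + 1) h
    simp only [hk, one_mul] at this ⊢
    omega

/-- integer data of a negative cell, read from the right corner. -/
theorem cor_neg (hS : S.Ok) {k : ℤ} (l : ℤ) (hk : S.sg k = -1) :
    Cor (Fin (m + 2)) (fun s => S.N s k l - S.N s (k + 1) l)
      (fun s => S.N s (k + 1) (l + 1) - S.N s (k + 1) l)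
      (fun s => S.N s k (l + 1) - S.N s (k + 1) l) where
  a01 := fun s => by have := hS.stepk s k l; rw [hk] at this; omega
  b01 := fun s => hS.stepl s (k + 1) l
  da := fun s => by have := hS.stepl s k l; omega
  db := fun s => by have := hS.stepk s k (l + 1); rw [hk] at this; omega
  d01 := fun s => by
    have h1 := hS.stepk s k l
    rw [hk] at h1
    have h2 := hS.stepl s k l
    have h3 := hS.diagn s k l hk
    omega
  nb := fun s s' h => anti_l hS (k + 1) l h
  nda := fun s s' h => by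
    have := anti_l hS k l h
    simp only at this ⊢
    omega
  na := fun s s' h => by
    have := mono_k hS k l h
    simp only [hk] at this ⊢
    omega
  ndb := fun s s' h => by
    have := mono_k hS k (l + 1) h
    simp only [hk] at this ⊢
    omega

/-! ### the leaf -/

theorem fl_le (s : Fin (m + 2)) (x y : ℝ) {t : ℝ} (ht : t ∈ Icc (0 : ℝ) 1) :
    0 ≤ 1 - t + t * S.fl s x y ∧ 1 - t + t * S.fl s x y ≤ 1 := by
  have h1 := fl_nonneg S s x y
  have h2 := fl_le_one S s x y
  obtain ⟨h3, h4⟩ := ht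
  constructor
  · have := mul_nonneg h3 h1; linarith
  · nlinarith

theorem Cb_nonneg {M : Fin m → ℝ} {Mv t : ℝ} (hM : ∀ s, 0 < M s) (hMv : 0 < Mv)
    (ht : t ∈ Icc (0 : ℝ) 1) (s : Fin (m + 2)) (x y : ℝ) : 0 ≤ Cb S M Mv t s x y := by
  induction s using Fin.cases with
  | zero => rw [Cb_zero]; norm_num
  | succ s =>
    induction s using Fin.lastCases with
    | last => rw [Cb_last]; exact hMv.le
    | cast s => rw [Cb_ix]; exact mul_nonneg (hM s).le (fl_le _ _ _ ht).1

/-- `Neg` at a killed cell contradicts a function `≥ 0`. -/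
theorem neg_kill (hS : S.Ok) {M : Fin m → ℝ} {Mv t : ℝ} (hM : ∀ s, 0 < M s)
    (hMv : 0 < Mv) (hN : S.Neg M Mv) (ht : t ∈ Icc (0 : ℝ) 1) {k l : ℤ} {x y lam : ℝ}
    (h1 : (k : ℝ) ≤ x) (h2 : x ≤ k + 1 / 2) (h3 : (l : ℝ) ≤ y) (h4 : y ≤ l + 1 / 2)
    {ε : Fin (m + 2) → ℝ} (hε : ∀ s, ε s ≤ 1) {s0 : Fin (m + 2)} (hs0 : S.flat s0 k l)
    (hε0 : ε s0 = -1)
    (h : ∀ τ, 0 ≤ ∑ s, (Cb S M Mv t s x y * Real.exp (S.j s * lam)) * ε s *
      Real.exp (S.j s * τ)) : False := by
  obtain ⟨σ, rfl⟩ := coupling_of_flat hS hs0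
  obtain ⟨L, hL⟩ := hN σ
  have h5 := h (L - lam)
  have e1 : ∑ s, (Cb S M Mv t s x y * Real.exp (S.j s * lam)) * ε s *
      Real.exp (S.j s * (L - lam)) = ∑ s, Cb S M Mv t s x y * ε s * Real.exp (S.j s * L) := by
    refine Finset.sum_congr rfl fun s _ => ?_
    have : Real.exp (S.j s * L) = Real.exp (S.j s * lam) * Real.exp (S.j s * (L - lam)) := by
      rw [← Real.exp_add]; congr 1; ring
    rw [this]; ring
  rw [e1, Fin.sum_univ_succ, Fin.sum_univ_castSucc, Cb_zero, Cb_last] at h5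
  have j0 : S.j 0 = 15 := hS.j0
  have j1 : S.j (Fin.last m).succ = 0 := hS.j1
  rw [j0, j1] at h5
  simp only [Cb_ix] at h5
  have b0 : 1 * ε 0 * Real.exp ((15 : ℕ) * L) ≤ Real.exp (15 * L) := by
    have := hε 0
    have h6 := Real.exp_pos (15 * L)
    push_cast
    nlinarith
  have b1 : Mv * ε (Fin.last m).succ * Real.exp ((0 : ℕ) * L) ≤ Mv := by
    have := hε (Fin.last m).succ
    simp only [Nat.cast_zero, zero_mul, Real.exp_zero, mul_one]
    nlinarith
  have b2 : ∑ s : Fin m, M s * (1 - t + t * S.fl (NS.ix s) x y) * ε s.castSucc.succ *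
      Real.exp (S.j s.castSucc.succ * L) ≤
      ∑ s' ∈ univ.erase σ, M s' * Real.exp (S.j (NS.ix s') * L) -
        M σ * Real.exp (S.j (NS.ix σ) * L) := by
    rw [← Finset.add_sum_erase _ _ (Finset.mem_univ σ)]
    have c1 : M σ * (1 - t + t * S.fl (NS.ix σ) x y) * ε σ.castSucc.succ *
        Real.exp (S.j σ.castSucc.succ * L) = - (M σ * Real.exp (S.j (NS.ix σ) * L)) := by
      rw [fl_cube S (NS.ix σ) k l h1 h2 h3 h4, if_pos hs0]
      have : ε σ.castSucc.succ = -1 := hε0
      rw [this]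
      show M σ * (1 - t + t * 1) * (-1) * Real.exp (S.j (NS.ix σ) * L) = _
      ring
    rw [c1]
    have c2 : ∑ s ∈ univ.erase σ, M s * (1 - t + t * S.fl (NS.ix s) x y) * ε s.castSucc.succ *
        Real.exp (S.j s.castSucc.succ * L) ≤
        ∑ s' ∈ univ.erase σ, M s' * Real.exp (S.j (NS.ix s') * L) := by
      refine Finset.sum_le_sum fun s _ => ?_
      have d1 := fl_le (S := S) (NS.ix s) x y ht
      have d2 := hε s.castSucc.succ
      have d3 := (hM s)
      have d4 := Real.exp_pos (S.j (NS.ix s) * L)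
      show M s * (1 - t + t * S.fl (NS.ix s) x y) * ε s.castSucc.succ *
        Real.exp (S.j (NS.ix s) * L) ≤ _
      have d5 : (1 - t + t * S.fl (NS.ix s) x y) * ε s.castSucc.succ ≤ 1 := by nlinarith
      have d6 : 0 < M s * Real.exp (S.j (NS.ix s) * L) := mul_pos d3 d4
      nlinarith
    linarith
  linarith

/-- **LEAF REGB.** -/
theorem regB : RegBProp := by
  intro m S hS M Mv hM hMv hN t ht z hz
  by_contra hns
  obtain ⟨x, lam, y⟩ := z
  rw [K_eqB hS] at hz hns
  obtain ⟨φ, c0, s0, c1, sx, sy⟩ := bad M Mv t x lam y hz hns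
  set T : Fin (m + 2) → ℝ := fun s => Cb S M Mv t s x y * Real.exp (S.j s * lam) with hTdef
  have hT : ∀ s, 0 ≤ T s := fun s => mul_nonneg (Cb_nonneg hM hMv ht s x y) (Real.exp_pos _).le
  have hJ : StrictAnti fun s => (S.j s : ℝ) := fun s s' h => by
    show (S.j s' : ℝ) < S.j s
    exact_mod_cast hS.hj h
  have hT0 : ¬ ∀ s, T s = 0 := by
    intro h
    have := h 0
    rw [hTdef] at this
    simp only [Cb_zero, one_mul] at this
    exact absurd this (Real.exp_pos _).ne'
  apply hT0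
  by_cases hx : deriv Sp x = 0 <;> by_cases hy : deriv Sp y = 0
  · -- corner
    obtain ⟨k, a1, a2⟩ := gap_of hx
    obtain ⟨l, b1, b2⟩ := gap_of hy
    refine corner (ψ := fun s => S.hat s x y) (B := fun s => S.N s k l) hT (fun s => ?_) c0 s0
    unfold NS.hat
    rw [bilS_eq _ k l a1 (by linarith) b1 (by linarith), st_of_le (by linarith),
      st_of_le (by linarith)]
    unfold bf; ring
  · -- `x` flat, `y` moves
    obtain ⟨k, a1, a2⟩ := gap_of hx
    obtain ⟨l, b1, b2⟩ := lobe_of hy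
    set ν := st (2 * (y - l)) with hν
    have e0 : st (2 * (x - k)) = 0 := st_of_le (by linarith)
    have hhat : ∀ s, S.hat s x y = S.N s k l + ν * (S.N s k (l + 1) - S.N s k l) := by
      intro s
      unfold NS.hat
      rw [bilS_eq _ k l a1 (by linarith) (by linarith) (by linarith), e0]
      unfold bf; ring
    have hd : ∀ s, HasDerivAt (fun y' => S.hat s x y')
        (((S.N s k (l + 1) - S.N s k l : ℤ) : ℝ) * deriv Sp y) y := by
      intro s
      have := hasDerivAt_hat_y S s k l a1 (by linarith) (by linarith) (by linarith : y < l + 1)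
      rw [e0] at this
      refine this.congr_deriv ?_
      push_cast; ring
    have h1 := sy hy _ hd
    refine two_groups (J := fun s => (S.j s : ℝ)) hJ hT
      (G := fun s => if S.N s k (l + 1) - S.N s k l = 1 then 0 else 2) ?_ ?_
      (ψ := fun s => S.hat s x y) (B := fun s => S.N s k l) (ph := ![ν, 0, 0]) ?_ c0 s0 c1
      (g := 0) (Or.inl rfl) ?_
    · intro s s' h
      have h2 := anti_l hS k l h
      have h3 := hS.stepl s k l
      have h4 := hS.stepl s' k l
      simp only at h2 ⊢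
      split_ifs with h5 h6 h6
      · exact le_rfl
      · decide
      · omega
      · exact le_rfl
    · intro s
      split_ifs <;> decide
    · intro s
      rw [hhat s]
      rcases hS.stepl s k l with h2 | h2
      · have h3 : ¬ (S.N s k (l + 1) - S.N s k l = 1) := by omega
        rw [if_neg h3]
        have h4 : (S.N s k (l + 1) : ℝ) - S.N s k l = 0 := by exact_mod_cast h2
        rw [h4]; simp
      · rw [if_pos h2]
        have h4 : (S.N s k (l + 1) : ℝ) - S.N s k l = 1 := by exact_mod_cast h2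
        rw [h4]; simp
    · refine Eq.trans (Finset.sum_congr rfl fun s _ => ?_) h1
      rcases hS.stepl s k l with h2 | h2
      · have h3 : ¬ (S.N s k (l + 1) - S.N s k l = 1) := by omega
        rw [if_neg h3, h2]
        simp
      · rw [if_pos h2, h2]
        simp [hTdef]
  · -- `x` moves, `y` flat
    obtain ⟨k, a1, a2⟩ := lobe_of hx
    obtain ⟨l, b1, b2⟩ := gap_of hy
    set μ := st (2 * (x - k)) with hμ
    have e0 : st (2 * (y - l)) = 0 := st_of_le (by linarith)
    have hhat : ∀ s, S.hat s x y = S.N s k l + μ * (S.N s (k + 1) l - S.N s k l) := by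
      intro s
      unfold NS.hat
      rw [bilS_eq _ k l (by linarith) (by linarith) b1 (by linarith), e0]
      unfold bf; ring
    have hd : ∀ s, HasDerivAt (fun x' => S.hat s x' y)
        (((S.N s (k + 1) l - S.N s k l : ℤ) : ℝ) * deriv Sp x) x := by
      intro s
      have := hasDerivAt_hat_x S s k l (by linarith) (by linarith : x < k + 1) b1 (by linarith)
      rw [e0] at this
      refine this.congr_deriv ?_
      push_cast; ring
    have h1 := sx hx _ hd
    have hsg := hS.sg1 k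
    have hsq : S.sg k * S.sg k = 1 := by rcases hsg with h | h <;> rw [h] <;> norm_num
    have hinc : ∀ s, S.N s (k + 1) l - S.N s k l =
        S.sg k * (S.sg k * (S.N s (k + 1) l - S.N s k l)) := by
      intro s; rw [← mul_assoc, hsq, one_mul]
    refine two_groups (J := fun s => (S.j s : ℝ)) hJ hT
      (G := fun s => if S.sg k * (S.N s (k + 1) l - S.N s k l) = 1 then 2 else 0) ?_ ?_
      (ψ := fun s => S.hat s x y) (B := fun s => S.N s k l) (ph := ![0, 0, S.sg k * μ]) ?_ c0 s0 c1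
      (g := 2) (Or.inr rfl) ?_
    · intro s s' h
      have h2 := mono_k hS k l h
      have h3 := hS.stepk s k l
      have h4 := hS.stepk s' k l
      simp only at h2 ⊢
      split_ifs with h5 h6 h6
      · exact le_rfl
      · omega
      · decide
      · exact le_rfl
    · intro s
      split_ifs <;> decide
    · intro s
      rw [hhat s]
      rcases hS.stepk s k l with h2 | h2
      · have h3 : ¬ (S.sg k * (S.N s (k + 1) l - S.N s k l) = 1) := by omega
        rw [if_neg h3]
        have h4 : S.N s (k + 1) l - S.N s k l = 0 := by rw [hinc s, h2, mul_zero]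
        have h5 : (S.N s (k + 1) l : ℝ) - S.N s k l = 0 := by exact_mod_cast h4
        rw [h5]; simp
      · rw [if_pos h2]
        have h4 : S.N s (k + 1) l - S.N s k l = S.sg k := by rw [hinc s, h2, mul_one]
        have h5 : (S.N s (k + 1) l : ℝ) - S.N s k l = S.sg k := by exact_mod_cast h4
        rw [h5]
        simp [mul_comm]
    · have h6 : (S.sg k : ℝ) * ∑ s, (if (if S.sg k * (S.N s (k + 1) l - S.N s k l) = 1 then
          (2 : Fin 3) else 0) = 2 then (1 : ℝ) else 0) *
          (T s * sin (2 * π * (S.hat s x y + 1 / 2) - φ)) = 0 := by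
        rw [Finset.mul_sum]
        refine Eq.trans (Finset.sum_congr rfl fun s _ => ?_) h1
        rcases hS.stepk s k l with h2 | h2
        · have h3 : ¬ (S.sg k * (S.N s (k + 1) l - S.N s k l) = 1) := by omega
          have h4 : S.N s (k + 1) l - S.N s k l = 0 := by rw [hinc s, h2, mul_zero]
          rw [if_neg h3, h4]
          simp
        · have h4 : S.N s (k + 1) l - S.N s k l = S.sg k := by rw [hinc s, h2, mul_one]
          rw [if_pos h2, h4]
          simp [hTdef]
      rcases mul_eq_zero.1 h6 with h7 | h7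
      · exact absurd h7 (sg_ne hS k)
      · exact h7
  · -- open cube
    obtain ⟨k, a1, a2⟩ := lobe_of hx
    obtain ⟨l, b1, b2⟩ := lobe_of hy
    set μ := st (2 * (x - k)) with hμ
    set ν := st (2 * (y - l)) with hν
    have hμ1 : μ ∈ Set.Ioo (0 : ℝ) 1 := ⟨st_pos (by linarith), st_lt_one (by linarith)⟩
    have hν1 : ν ∈ Set.Ioo (0 : ℝ) 1 := ⟨st_pos (by linarith), st_lt_one (by linarith)⟩
    have hhat : ∀ s, S.hat s x y = bf (S.N s k l) (S.N s (k + 1) l) (S.N s k (l + 1))
        (S.N s (k + 1) (l + 1)) μ ν := by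
      intro s
      unfold NS.hat
      rw [bilS_eq _ k l (by linarith) (by linarith) (by linarith) (by linarith)]
    have hdx : ∀ s, HasDerivAt (fun x' => S.hat s x' y) _ x := fun s =>
      hasDerivAt_hat_x S s k l (by linarith) (by linarith : x < k + 1) (by linarith)
        (by linarith : y ≤ l + 1)
    have hdy : ∀ s, HasDerivAt (fun y' => S.hat s x y') _ y := fun s =>
      hasDerivAt_hat_y S s k l (by linarith) (by linarith : x ≤ k + 1) (by linarith)
        (by linarith : y < l + 1)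
    have h1 := sx hx _ hdx
    have h2 := sy hy _ hdy
    rcases hS.sg1 k with hk | hk
    · have hc := cor_pos hS l hk
      have E : Eqs T (fun s => (S.j s : ℝ))
          (fun s => PlTyp_543.bilm (S.N s (k + 1) l - S.N s k l) (S.N s k (l + 1) - S.N s k l)
            (S.N s (k + 1) (l + 1) - S.N s k l) ν)
          (fun s => PlTyp_543.biln (S.N s (k + 1) l - S.N s k l) (S.N s k (l + 1) - S.N s k l)
            (S.N s (k + 1) (l + 1) - S.N s k l) μ)
          (fun s => (S.N s k l : ℤ) + PlTyp_543.bil (S.N s (k + 1) l - S.N s k l)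
            (S.N s k (l + 1) - S.N s k l) (S.N s (k + 1) (l + 1) - S.N s k l) μ ν) φ := by
        have e1 : (fun s => ((S.N s k l : ℤ) : ℝ) + PlTyp_543.bil (S.N s (k + 1) l - S.N s k l)
            (S.N s k (l + 1) - S.N s k l) (S.N s (k + 1) (l + 1) - S.N s k l) μ ν) =
            fun s => S.hat s x y := by
          funext s
          rw [hhat s]; unfold bf PlTyp_543.bil; push_cast; ring
        rw [e1]
        refine ⟨c0, s0, c1, ?_, ?_⟩
        · refine Eq.trans (Finset.sum_congr rfl fun s _ => ?_) h1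
          unfold PlTyp_543.bilm; push_cast; ring
        · refine Eq.trans (Finset.sum_congr rfl fun s _ => ?_) h2
          unfold PlTyp_543.biln; push_cast; ring
      rcases cube hc hJ hT hμ1 hν1 E with h3 | ⟨⟨s1, e1, e2, e3⟩, h3⟩
      · exact h3
      · exfalso
        refine neg_kill hS hM hMv hN ht (k := k) (l := l) a1.le a2.le b1.le b2.le (s0 := s1)
          (fun s => ?_) ⟨by omega, by omega, by omega⟩ ?_ h3
        · unfold Alg.ep; split_ifs <;> norm_num
        · show Alg.ep _ = -1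
          rw [e1, e2, e3]
          simp [Alg.ep, grp]
    · have hc := cor_neg hS l hk
      have hμ2 : 1 - μ ∈ Set.Ioo (0 : ℝ) 1 := ⟨by linarith [hμ1.2], by linarith [hμ1.1]⟩
      have E : Eqs T (fun s => (S.j s : ℝ))
          (fun s => PlTyp_543.bilm (S.N s k l - S.N s (k + 1) l)
            (S.N s (k + 1) (l + 1) - S.N s (k + 1) l) (S.N s k (l + 1) - S.N s (k + 1) l) ν)
          (fun s => PlTyp_543.biln (S.N s k l - S.N s (k + 1) l)
            (S.N s (k + 1) (l + 1) - S.N s (k + 1) l) (S.N s k (l + 1) - S.N s (k + 1) l) (1 - μ))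
          (fun s => (S.N s (k + 1) l : ℤ) + PlTyp_543.bil (S.N s k l - S.N s (k + 1) l)
            (S.N s (k + 1) (l + 1) - S.N s (k + 1) l) (S.N s k (l + 1) - S.N s (k + 1) l)
            (1 - μ) ν) φ := by
        have e1 : (fun s => ((S.N s (k + 1) l : ℤ) : ℝ) + PlTyp_543.bil (S.N s k l - S.N s (k + 1) l)
            (S.N s (k + 1) (l + 1) - S.N s (k + 1) l) (S.N s k (l + 1) - S.N s (k + 1) l)
            (1 - μ) ν) = fun s => S.hat s x y := by
          funext s
          rw [hhat s]; unfold bf PlTyp_543.bil; push_cast; ring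
        rw [e1]
        refine ⟨c0, s0, c1, ?_, ?_⟩
        · have h1' : - ∑ s, ((1 - ν) * (S.N s (k + 1) l - S.N s k l) +
              ν * (S.N s (k + 1) (l + 1) - S.N s k (l + 1))) *
              (T s * sin (2 * π * (S.hat s x y + 1 / 2) - φ)) = 0 := by
            rw [h1, neg_zero]
          rw [← Finset.sum_neg_distrib] at h1'
          refine Eq.trans (Finset.sum_congr rfl fun s _ => ?_) h1'
          unfold PlTyp_543.bilm; push_cast; ring
        · refine Eq.trans (Finset.sum_congr rfl fun s _ => ?_) h2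
          unfold PlTyp_543.biln; push_cast; ring
      rcases cube hc hJ hT hμ2 hν1 E with h3 | ⟨⟨s1, e1, e2, e3⟩, h3⟩
      · exact h3
      · exfalso
        refine neg_kill hS hM hMv hN ht (k := k) (l := l) a1.le a2.le b1.le b2.le (s0 := s1)
          (fun s => ?_) ⟨by omega, by omega, by omega⟩ ?_ h3
        · unfold Alg.ep; split_ifs <;> norm_num
        · show Alg.ep _ = -1
          rw [e1, e2, e3]
          simp [Alg.ep, grp]

end Crest.Agent.R267.NSRegB_543
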