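import Mathlib

/-!
# Row 267 (helper780): integer tables of the nested staircase systems of the four nontrivial arms
(966 #3428 (4), 869 #3382, ruling #3508: TABLES)

`ext i j T` = quasi-periodic extension of a `15 × 15` table to `ℤ × ℤ`
(`k` = gap of the `v`-circle, `l` = gap of the `w`-circle):
`ext (k+15) l = ext k l + i`, `ext k (l+15) = ext k l + j`.
A system is a list of tables, the first one is `l` (own phase of `w`), the last one `k` (own phase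
of `v`).  `Sys.Ok`: unit steps, diagonal steps `≤ 1` for the couplings, nestedness.
`Sys.Kept c`: the cube `(k, l)` is crossed by all terms iff `l % 15 < c (k % 15)`.
-/

set_option autoImplicit false

namespace Crest.Agent.R267.NSTab_780

/-- entry of a table -/
def ent (T : List (List ℕ)) (a b : ℕ) : ℕ := (T.getD a []).getD b 0

/-- quasi-periodic extension -/
def ext (i j : ℤ) (T : List (List ℕ)) (k l : ℤ) : ℤ :=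
  i * (k / 15) + j * (l / 15) + (ent T (k % 15).toNat (l % 15).toNat : ℤ)

theorem ext_k (i j : ℤ) (T : List (List ℕ)) (k l : ℤ) : ext i j T (k + 15) l = ext i j T k l + i := by
  have h1 : (k + 15) / 15 = k / 15 + 1 := by omega
  have h2 : (k + 15) % 15 = k % 15 := by omega
  rw [ext, ext, h1, h2]; ring

theorem ext_l (i j : ℤ) (T : List (List ℕ)) (k l : ℤ) : ext i j T k (l + 15) = ext i j T k l + j := by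
  have h1 : (l + 15) / 15 = l / 15 + 1 := by omega
  have h2 : (l + 15) % 15 = l % 15 := by omega
  rw [ext, ext, h1, h2]; ring

/-- quasi-periodic functions -/
structure QP (i j : ℤ) (N : ℤ → ℤ → ℤ) : Prop where
  k : ∀ k l, N (k + 15) l = N k l + i
  l : ∀ k l, N k (l + 15) = N k l + j

theorem qp_ext (i j : ℤ) (T : List (List ℕ)) : QP i j (ext i j T) := ⟨ext_k i j T, ext_l i j T⟩

theorem QP.kn {i j : ℤ} {N : ℤ → ℤ → ℤ} (h : QP i j N) (n : ℕ) (k l : ℤ) :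
    N (k + 15 * n) l = N k l + i * n := by
  induction n with
  | zero => simp
  | succ n ih =>
    have : k + 15 * ((n + 1 : ℕ) : ℤ) = (k + 15 * n) + 15 := by push_cast; ring
    rw [this, h.k, ih]; push_cast; ring

theorem QP.ln {i j : ℤ} {N : ℤ → ℤ → ℤ} (h : QP i j N) (n : ℕ) (k l : ℤ) :
    N k (l + 15 * n) = N k l + j * n := by
  induction n with
  | zero => simp
  | succ n ih =>
    have : l + 15 * ((n + 1 : ℕ) : ℤ) = (l + 15 * n) + 15 := by push_cast; ring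
    rw [this, h.l, ih]; push_cast; ring

theorem QP.kz {i j : ℤ} {N : ℤ → ℤ → ℤ} (h : QP i j N) (n k l : ℤ) :
    N (k + 15 * n) l = N k l + i * n := by
  obtain ⟨m, rfl | rfl⟩ := n.eq_nat_or_neg
  · exact h.kn m k l
  · have := h.kn m (k + 15 * (-(m : ℤ))) l
    rw [show k + 15 * (-(m : ℤ)) + 15 * (m : ℤ) = k by ring] at this
    linarith

theorem QP.lz {i j : ℤ} {N : ℤ → ℤ → ℤ} (h : QP i j N) (n k l : ℤ) :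
    N k (l + 15 * n) = N k l + j * n := by
  obtain ⟨m, rfl | rfl⟩ := n.eq_nat_or_neg
  · exact h.ln m k l
  · have := h.ln m k (l + 15 * (-(m : ℤ)))
    rw [show l + 15 * (-(m : ℤ)) + 15 * (m : ℤ) = l by ring] at this
    linarith

/-- difference -/
def df (N : ℤ → ℤ → ℤ) (a b k l : ℤ) : ℤ := N (k + a) (l + b) - N k l

theorem QP.df {i j : ℤ} {N : ℤ → ℤ → ℤ} (h : QP i j N) (a b k l : ℤ) :
    df N a b k l = df N a b (k % 15) (l % 15) := by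
  have hk : k = k % 15 + 15 * (k / 15) := by omega
  have hl : l = l % 15 + 15 * (l / 15) := by omega
  simp only [NSTab_780.df]
  have e1 : N (k + a) (l + b) = N (k % 15 + a) (l % 15 + b) + i * (k / 15) + j * (l / 15) := by
    have : N (k + a) (l + b) = N ((k % 15 + a) + 15 * (k / 15)) ((l % 15 + b) + 15 * (l / 15)) := by
      congr 1 <;> omega
    rw [this, h.kz, h.lz]; ring
  have e2 : N k l = N (k % 15) (l % 15) + i * (k / 15) + j * (l / 15) := by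
    have : N k l = N (k % 15 + 15 * (k / 15)) (l % 15 + 15 * (l / 15)) := by
      rw [← hk, ← hl]
    rw [this, h.kz, h.lz]; ring
  rw [e1, e2]; ring

/-- reduction to residues -/
theorem of_res {P : ℤ → ℤ → Prop} (hP : ∀ k l, P (k % 15) (l % 15) → P k l)
    (h : ∀ a b : Fin 15, P (a : ℕ) (b : ℕ)) (k l : ℤ) : P k l := by
  apply hP
  have h1 := Int.emod_nonneg k (show (15 : ℤ) ≠ 0 by norm_num)
  have h2 := Int.emod_lt_of_pos k (show (0 : ℤ) < 15 by norm_num)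
  have h3 := Int.emod_nonneg l (show (15 : ℤ) ≠ 0 by norm_num)
  have h4 := Int.emod_lt_of_pos l (show (0 : ℤ) < 15 by norm_num)
  have := h ⟨(k % 15).toNat, by omega⟩ ⟨(l % 15).toNat, by omega⟩
  simpa [Int.toNat_of_nonneg h1, Int.toNat_of_nonneg h3] using this

/-- one term of a system: degrees and table -/
structure Tm where
  i : ℤ
  j : ℤ
  T : List (List ℕ)

/-- the integer function of a term -/
def Tm.N (A : Tm) : ℤ → ℤ → ℤ := ext A.i A.j A.T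

theorem Tm.qp (A : Tm) : QP A.i A.j A.N := qp_ext _ _ _

/-- unit steps on the residues -/
def stepC (A : Tm) : Bool :=
  decide (∀ a b : Fin 15, 0 ≤ df A.N 1 0 (a : ℕ) (b : ℕ) ∧ df A.N 1 0 (a : ℕ) (b : ℕ) ≤ 1 ∧
    0 ≤ df A.N 0 1 (a : ℕ) (b : ℕ) ∧ df A.N 0 1 (a : ℕ) (b : ℕ) ≤ 1)

/-- diagonal steps -/
def diagC (A : Tm) : Bool := decide (∀ a b : Fin 15, df A.N 1 1 (a : ℕ) (b : ℕ) ≤ 1)

/-- nestedness -/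
def nestC (A B : Tm) : Bool :=
  decide (∀ a b : Fin 15, df B.N 0 1 (a : ℕ) (b : ℕ) ≤ df A.N 0 1 (a : ℕ) (b : ℕ) ∧
    df A.N 1 0 (a : ℕ) (b : ℕ) ≤ df B.N 1 0 (a : ℕ) (b : ℕ))

/-- kept cubes -/
def keptC (L : List Tm) (c : List ℕ) : Bool :=
  decide (∀ a b : Fin 15, (∀ A ∈ L, 1 ≤ df A.N 1 1 (a : ℕ) (b : ℕ)) ↔ (b : ℕ) < c.getD a 0)

theorem Tm.step {A : Tm} (h : stepC A = true) (k l : ℤ) :
    (0 ≤ A.N (k + 1) l - A.N k l ∧ A.N (k + 1) l - A.N k l ≤ 1) ∧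
      (0 ≤ A.N k (l + 1) - A.N k l ∧ A.N k (l + 1) - A.N k l ≤ 1) := by
  have h1 := of_decide_eq_true h
  have h2 := of_res (P := fun k l => 0 ≤ df A.N 1 0 k l ∧ df A.N 1 0 k l ≤ 1 ∧
    0 ≤ df A.N 0 1 k l ∧ df A.N 0 1 k l ≤ 1)
    (fun k l h => by rw [A.qp.df 1 0 k l, A.qp.df 0 1 k l]; exact h) h1 k l
  simp only [df, add_zero] at h2
  exact ⟨⟨h2.1, h2.2.1⟩, h2.2.2⟩

theorem Tm.diag {A : Tm} (h : diagC A = true) (k l : ℤ) : A.N (k + 1) (l + 1) - A.N k l ≤ 1 := by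
  have h1 := of_decide_eq_true h
  exact of_res (P := fun k l => df A.N 1 1 k l ≤ 1)
    (fun k l h => by rw [A.qp.df 1 1 k l]; exact h) h1 k l

theorem Tm.nest {A B : Tm} (h : nestC A B = true) (k l : ℤ) :
    B.N k (l + 1) - B.N k l ≤ A.N k (l + 1) - A.N k l ∧
      A.N (k + 1) l - A.N k l ≤ B.N (k + 1) l - B.N k l := by
  have h1 := of_decide_eq_true h
  have h2 := of_res (P := fun k l => df B.N 0 1 k l ≤ df A.N 0 1 k l ∧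
    df A.N 1 0 k l ≤ df B.N 1 0 k l)
    (fun k l h => by
      rw [A.qp.df 1 0 k l, A.qp.df 0 1 k l, B.qp.df 1 0 k l, B.qp.df 0 1 k l]; exact h) h1 k l
  simp only [df, add_zero] at h2
  exact h2

theorem kept {L : List Tm} {c : List ℕ} (h : keptC L c = true) (k l : ℤ) :
    (∀ A ∈ L, 1 ≤ A.N (k + 1) (l + 1) - A.N k l) ↔ (l % 15).toNat < c.getD (k % 15).toNat 0 := by
  have h1 := of_decide_eq_true h
  have h2 := of_res (P := fun k l => (∀ A ∈ L, 1 ≤ df A.N 1 1 k l) ↔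
      (l % 15).toNat < c.getD (k % 15).toNat 0)
    (fun k l h => by
      have e : ∀ x : ℤ, x % 15 % 15 = x % 15 := fun x => by omega
      rw [e, e] at h
      rw [← h]
      constructor <;> intro H A hA
      · have := H A hA; rwa [A.qp.df 1 1 k l] at this
      · have := H A hA; rwa [A.qp.df 1 1 k l])
    (fun a b => by
      have ha : ((a : ℕ) : ℤ) % 15 = (a : ℕ) := by omega
      have hb : ((b : ℕ) : ℤ) % 15 = (b : ℕ) := by omega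
      rw [ha, hb, Int.toNat_natCast, Int.toNat_natCast]
      exact h1 a b) k l
  exact h2

/-- own phase of `w` -/
def own0 : Tm := ⟨0, 15, [[0, 1, 2, 3, 4, 5, 6, 7, 8, 9, 10, 11, 12, 13, 14],
  [0, 1, 2, 3, 4, 5, 6, 7, 8, 9, 10, 11, 12, 13, 14],
  [0, 1, 2, 3, 4, 5, 6, 7, 8, 9, 10, 11, 12, 13, 14],
  [0, 1, 2, 3, 4, 5, 6, 7, 8, 9, 10, 11, 12, 13, 14],
  [0, 1, 2, 3, 4, 5, 6, 7, 8, 9, 10, 11, 12, 13, 14],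
  [0, 1, 2, 3, 4, 5, 6, 7, 8, 9, 10, 11, 12, 13, 14],
  [0, 1, 2, 3, 4, 5, 6, 7, 8, 9, 10, 11, 12, 13, 14],
  [0, 1, 2, 3, 4, 5, 6, 7, 8, 9, 10, 11, 12, 13, 14],
  [0, 1, 2, 3, 4, 5, 6, 7, 8, 9, 10, 11, 12, 13, 14],
  [0, 1, 2, 3, 4, 5, 6, 7, 8, 9, 10, 11, 12, 13, 14],
  [0, 1, 2, 3, 4, 5, 6, 7, 8, 9, 10, 11, 12, 13, 14],
  [0, 1, 2, 3, 4, 5, 6, 7, 8, 9, 10, 11, 12, 13, 14],
  [0, 1, 2, 3, 4, 5, 6, 7, 8, 9, 10, 11, 12, 13, 14],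
  [0, 1, 2, 3, 4, 5, 6, 7, 8, 9, 10, 11, 12, 13, 14],
  [0, 1, 2, 3, 4, 5, 6, 7, 8, 9, 10, 11, 12, 13, 14]]⟩

/-- own phase of `v` -/
def own1 : Tm := ⟨15, 0, [[0, 0, 0, 0, 0, 0, 0, 0, 0, 0, 0, 0, 0, 0, 0],
  [1, 1, 1, 1, 1, 1, 1, 1, 1, 1, 1, 1, 1, 1, 1],
  [2, 2, 2, 2, 2, 2, 2, 2, 2, 2, 2, 2, 2, 2, 2],
  [3, 3, 3, 3, 3, 3, 3, 3, 3, 3, 3, 3, 3, 3, 3],
  [4, 4, 4, 4, 4, 4, 4, 4, 4, 4, 4, 4, 4, 4, 4],
  [5, 5, 5, 5, 5, 5, 5, 5, 5, 5, 5, 5, 5, 5, 5],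
  [6, 6, 6, 6, 6, 6, 6, 6, 6, 6, 6, 6, 6, 6, 6],
  [7, 7, 7, 7, 7, 7, 7, 7, 7, 7, 7, 7, 7, 7, 7],
  [8, 8, 8, 8, 8, 8, 8, 8, 8, 8, 8, 8, 8, 8, 8],
  [9, 9, 9, 9, 9, 9, 9, 9, 9, 9, 9, 9, 9, 9, 9],
  [10, 10, 10, 10, 10, 10, 10, 10, 10, 10, 10, 10, 10, 10, 10],
  [11, 11, 11, 11, 11, 11, 11, 11, 11, 11, 11, 11, 11, 11, 11],
  [12, 12, 12, 12, 12, 12, 12, 12, 12, 12, 12, 12, 12, 12, 12],
  [13, 13, 13, 13, 13, 13, 13, 13, 13, 13, 13, 13, 13, 13, 13],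
  [14, 14, 14, 14, 14, 14, 14, 14, 14, 14, 14, 14, 14, 14, 14]]⟩

/-- arm fx, coupling `v^1 w^9` -/
def fx1 : Tm := ⟨1, 9, [[0, 1, 2, 3, 4, 5, 6, 6, 7, 8, 8, 9, 9, 9, 9],
  [1, 1, 2, 3, 4, 5, 6, 7, 7, 8, 9, 9, 10, 10, 10],
  [1, 2, 2, 3, 4, 5, 6, 7, 8, 8, 9, 10, 10, 10, 10],
  [1, 2, 3, 3, 4, 5, 6, 7, 8, 9, 9, 10, 10, 10, 10],
  [1, 2, 3, 4, 4, 5, 6, 7, 8, 9, 9, 10, 10, 10, 10],
  [1, 2, 3, 4, 5, 5, 6, 7, 8, 9, 9, 10, 10, 10, 10],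
  [1, 2, 3, 4, 5, 6, 6, 7, 8, 9, 9, 10, 10, 10, 10],
  [1, 2, 3, 4, 5, 6, 7, 7, 8, 9, 9, 10, 10, 10, 10],
  [1, 2, 3, 4, 5, 6, 7, 7, 8, 9, 9, 10, 10, 10, 10],
  [1, 2, 3, 4, 5, 6, 7, 7, 8, 9, 9, 10, 10, 10, 10],
  [1, 2, 3, 4, 5, 6, 7, 7, 8, 9, 9, 10, 10, 10, 10],
  [1, 2, 3, 4, 5, 6, 7, 7, 8, 9, 9, 10, 10, 10, 10],
  [1, 2, 3, 4, 5, 6, 7, 7, 8, 9, 9, 10, 10, 10, 10],
  [1, 2, 3, 4, 5, 6, 7, 7, 8, 9, 9, 10, 10, 10, 10],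
  [1, 2, 3, 4, 5, 6, 7, 7, 8, 9, 9, 10, 10, 10, 10]]⟩

/-- arm fx, coupling `v^3 w^4` -/
def fx2 : Tm := ⟨3, 4, [[0, 1, 2, 3, 4, 4, 4, 4, 4, 4, 4, 4, 4, 4, 4],
  [1, 1, 2, 3, 4, 5, 5, 5, 5, 5, 5, 5, 5, 5, 5],
  [2, 2, 2, 3, 4, 5, 6, 6, 6, 6, 6, 6, 6, 6, 6],
  [3, 3, 3, 3, 4, 5, 6, 7, 7, 7, 7, 7, 7, 7, 7],
  [3, 4, 4, 4, 4, 5, 6, 7, 7, 7, 7, 7, 7, 7, 7],
  [3, 4, 5, 5, 5, 5, 6, 7, 7, 7, 7, 7, 7, 7, 7],
  [3, 4, 5, 6, 6, 6, 6, 7, 7, 7, 7, 7, 7, 7, 7],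
  [3, 4, 5, 6, 7, 7, 7, 7, 7, 7, 7, 7, 7, 7, 7],
  [3, 4, 5, 6, 7, 7, 7, 7, 7, 7, 7, 7, 7, 7, 7],
  [3, 4, 5, 6, 7, 7, 7, 7, 7, 7, 7, 7, 7, 7, 7],
  [3, 4, 5, 6, 7, 7, 7, 7, 7, 7, 7, 7, 7, 7, 7],
  [3, 4, 5, 6, 7, 7, 7, 7, 7, 7, 7, 7, 7, 7, 7],
  [3, 4, 5, 6, 7, 7, 7, 7, 7, 7, 7, 7, 7, 7, 7],
  [3, 4, 5, 6, 7, 7, 7, 7, 7, 7, 7, 7, 7, 7, 7],
  [3, 4, 5, 6, 7, 7, 7, 7, 7, 7, 7, 7, 7, 7, 7]]⟩

/-- windows of the arm fx -/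
def c_fx : List ℕ := [15, 12, 11, 7, 7, 7, 7, 4, 4, 4, 4, 4, 4, 4, 4]

/-- the system fx -/
def L_fx : List Tm := [own0, fx1, fx2, own1]

/-- arm fy, coupling `v^4 w^7` -/
def fy1 : Tm := ⟨4, 7, [[0, 1, 2, 3, 4, 5, 6, 6, 6, 6, 6, 7, 7, 7, 7],
  [1, 1, 2, 3, 4, 5, 6, 7, 7, 7, 7, 7, 8, 8, 8],
  [2, 2, 2, 3, 4, 5, 6, 7, 8, 8, 8, 8, 8, 9, 9],
  [3, 3, 3, 3, 4, 5, 6, 7, 8, 9, 9, 9, 9, 9, 10],
  [4, 4, 4, 4, 4, 5, 6, 7, 8, 9, 10, 10, 10, 10, 10],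
  [4, 5, 5, 5, 5, 5, 6, 7, 8, 9, 10, 11, 11, 11, 11],
  [4, 5, 6, 6, 6, 6, 6, 7, 8, 9, 10, 11, 11, 11, 11],
  [4, 5, 6, 7, 7, 7, 7, 7, 8, 9, 10, 11, 11, 11, 11],
  [4, 5, 6, 7, 8, 8, 8, 8, 8, 9, 10, 11, 11, 11, 11],
  [4, 5, 6, 7, 8, 9, 9, 9, 9, 9, 10, 11, 11, 11, 11],
  [4, 5, 6, 7, 8, 9, 10, 10, 10, 10, 10, 11, 11, 11, 11],
  [4, 5, 6, 7, 8, 9, 10, 10, 10, 10, 10, 11, 11, 11, 11],
  [4, 5, 6, 7, 8, 9, 10, 10, 10, 10, 10, 11, 11, 11, 11],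
  [4, 5, 6, 7, 8, 9, 10, 10, 10, 10, 10, 11, 11, 11, 11],
  [4, 5, 6, 7, 8, 9, 10, 10, 10, 10, 10, 11, 11, 11, 11]]⟩

/-- arm fy, coupling `v^8 w^2` -/
def fy2 : Tm := ⟨8, 2, [[0, 1, 2, 2, 2, 2, 2, 2, 2, 2, 2, 2, 2, 2, 2],
  [1, 1, 2, 3, 3, 3, 3, 3, 3, 3, 3, 3, 3, 3, 3],
  [2, 2, 2, 3, 4, 4, 4, 4, 4, 4, 4, 4, 4, 4, 4],
  [3, 3, 3, 3, 4, 5, 5, 5, 5, 5, 5, 5, 5, 5, 5],
  [4, 4, 4, 4, 4, 5, 6, 6, 6, 6, 6, 6, 6, 6, 6],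
  [5, 5, 5, 5, 5, 5, 6, 7, 7, 7, 7, 7, 7, 7, 7],
  [6, 6, 6, 6, 6, 6, 6, 7, 8, 8, 8, 8, 8, 8, 8],
  [7, 7, 7, 7, 7, 7, 7, 7, 8, 9, 9, 9, 9, 9, 9],
  [8, 8, 8, 8, 8, 8, 8, 8, 8, 9, 10, 10, 10, 10, 10],
  [8, 9, 9, 9, 9, 9, 9, 9, 9, 9, 10, 10, 10, 10, 10],
  [8, 9, 10, 10, 10, 10, 10, 10, 10, 10, 10, 10, 10, 10, 10],
  [8, 9, 10, 10, 10, 10, 10, 10, 10, 10, 10, 10, 10, 10, 10],
  [8, 9, 10, 10, 10, 10, 10, 10, 10, 10, 10, 10, 10, 10, 10],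
  [8, 9, 10, 10, 10, 10, 10, 10, 10, 10, 10, 10, 10, 10, 10],
  [8, 9, 10, 10, 10, 10, 10, 10, 10, 10, 10, 10, 10, 10, 10]]⟩

/-- arm fy, coupling `v^10 w^1` -/
def fy3 : Tm := ⟨10, 1, [[0, 1, 1, 1, 1, 1, 1, 1, 1, 1, 1, 1, 1, 1, 1],
  [1, 1, 2, 2, 2, 2, 2, 2, 2, 2, 2, 2, 2, 2, 2],
  [2, 2, 2, 3, 3, 3, 3, 3, 3, 3, 3, 3, 3, 3, 3],
  [3, 3, 3, 3, 4, 4, 4, 4, 4, 4, 4, 4, 4, 4, 4],
  [4, 4, 4, 4, 4, 5, 5, 5, 5, 5, 5, 5, 5, 5, 5],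
  [5, 5, 5, 5, 5, 5, 6, 6, 6, 6, 6, 6, 6, 6, 6],
  [6, 6, 6, 6, 6, 6, 6, 7, 7, 7, 7, 7, 7, 7, 7],
  [7, 7, 7, 7, 7, 7, 7, 7, 8, 8, 8, 8, 8, 8, 8],
  [8, 8, 8, 8, 8, 8, 8, 8, 8, 9, 9, 9, 9, 9, 9],
  [9, 9, 9, 9, 9, 9, 9, 9, 9, 9, 10, 10, 10, 10, 10],
  [9, 10, 10, 10, 10, 10, 10, 10, 10, 10, 10, 10, 10, 10, 10],
  [10, 10, 11, 11, 11, 11, 11, 11, 11, 11, 11, 11, 11, 11, 11],
  [10, 11, 11, 11, 11, 11, 11, 11, 11, 11, 11, 11, 11, 11, 11],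
  [10, 11, 11, 11, 11, 11, 11, 11, 11, 11, 11, 11, 11, 11, 11],
  [10, 11, 11, 11, 11, 11, 11, 11, 11, 11, 11, 11, 11, 11, 11]]⟩

/-- windows of the arm fy -/
def c_fy : List ℕ := [15, 15, 15, 15, 15, 11, 11, 11, 10, 10, 2, 2, 1, 1, 1]

/-- the system fy -/
def L_fy : List Tm := [own0, fy1, fy2, fy3, own1]

/-- arm gx, coupling `v^4 w^3` -/
def gx1 : Tm := ⟨4, 3, [[0, 1, 2, 3, 3, 3, 3, 3, 3, 3, 3, 3, 3, 3, 3],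
  [1, 1, 2, 3, 4, 4, 4, 4, 4, 4, 4, 4, 4, 4, 4],
  [2, 2, 2, 3, 4, 5, 5, 5, 5, 5, 5, 5, 5, 5, 5],
  [3, 3, 3, 3, 4, 5, 6, 6, 6, 6, 6, 6, 6, 6, 6],
  [4, 4, 4, 4, 4, 5, 6, 7, 7, 7, 7, 7, 7, 7, 7],
  [4, 5, 5, 5, 5, 5, 6, 7, 7, 7, 7, 7, 7, 7, 7],
  [4, 5, 6, 6, 6, 6, 6, 7, 7, 7, 7, 7, 7, 7, 7],
  [4, 5, 6, 7, 7, 7, 7, 7, 7, 7, 7, 7, 7, 7, 7],
  [4, 5, 6, 7, 7, 7, 7, 7, 7, 7, 7, 7, 7, 7, 7],
  [4, 5, 6, 7, 7, 7, 7, 7, 7, 7, 7, 7, 7, 7, 7],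
  [4, 5, 6, 7, 7, 7, 7, 7, 7, 7, 7, 7, 7, 7, 7],
  [4, 5, 6, 7, 7, 7, 7, 7, 7, 7, 7, 7, 7, 7, 7],
  [4, 5, 6, 7, 7, 7, 7, 7, 7, 7, 7, 7, 7, 7, 7],
  [4, 5, 6, 7, 7, 7, 7, 7, 7, 7, 7, 7, 7, 7, 7],
  [4, 5, 6, 7, 7, 7, 7, 7, 7, 7, 7, 7, 7, 7, 7]]⟩

/-- arm gx, coupling `v^9 w^1` -/
def gx2 : Tm := ⟨9, 1, [[0, 1, 1, 1, 1, 1, 1, 1, 1, 1, 1, 1, 1, 1, 1],
  [1, 1, 2, 2, 2, 2, 2, 2, 2, 2, 2, 2, 2, 2, 2],
  [2, 2, 2, 3, 3, 3, 3, 3, 3, 3, 3, 3, 3, 3, 3],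
  [3, 3, 3, 3, 4, 4, 4, 4, 4, 4, 4, 4, 4, 4, 4],
  [4, 4, 4, 4, 4, 5, 5, 5, 5, 5, 5, 5, 5, 5, 5],
  [5, 5, 5, 5, 5, 5, 6, 6, 6, 6, 6, 6, 6, 6, 6],
  [6, 6, 6, 6, 6, 6, 6, 7, 7, 7, 7, 7, 7, 7, 7],
  [6, 7, 7, 7, 7, 7, 7, 7, 7, 7, 7, 7, 7, 7, 7],
  [7, 7, 8, 8, 8, 8, 8, 8, 8, 8, 8, 8, 8, 8, 8],
  [8, 8, 8, 9, 9, 9, 9, 9, 9, 9, 9, 9, 9, 9, 9],
  [8, 9, 9, 9, 9, 9, 9, 9, 9, 9, 9, 9, 9, 9, 9],
  [9, 9, 10, 10, 10, 10, 10, 10, 10, 10, 10, 10, 10, 10, 10],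
  [9, 10, 10, 10, 10, 10, 10, 10, 10, 10, 10, 10, 10, 10, 10],
  [9, 10, 10, 10, 10, 10, 10, 10, 10, 10, 10, 10, 10, 10, 10],
  [9, 10, 10, 10, 10, 10, 10, 10, 10, 10, 10, 10, 10, 10, 10]]⟩

/-- windows of the arm gx -/
def c_gx : List ℕ := [15, 15, 15, 15, 7, 7, 7, 3, 3, 3, 3, 2, 1, 1, 1]

/-- the system gx -/
def L_gx : List Tm := [own0, gx1, gx2, own1]

/-- arm gy, coupling `v^1 w^10` -/
def gy1 : Tm := ⟨1, 10, [[0, 1, 2, 3, 4, 5, 6, 7, 8, 9, 9, 10, 10, 10, 10],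
  [1, 1, 2, 3, 4, 5, 6, 7, 8, 9, 10, 10, 11, 11, 11],
  [1, 2, 2, 3, 4, 5, 6, 7, 8, 9, 10, 11, 11, 11, 11],
  [1, 2, 3, 3, 4, 5, 6, 7, 8, 9, 10, 11, 11, 11, 11],
  [1, 2, 3, 4, 4, 5, 6, 7, 8, 9, 10, 11, 11, 11, 11],
  [1, 2, 3, 4, 5, 5, 6, 7, 8, 9, 10, 11, 11, 11, 11],
  [1, 2, 3, 4, 5, 6, 6, 7, 8, 9, 10, 11, 11, 11, 11],
  [1, 2, 3, 4, 5, 6, 7, 7, 8, 9, 10, 11, 11, 11, 11],
  [1, 2, 3, 4, 5, 6, 7, 8, 8, 9, 10, 11, 11, 11, 11],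
  [1, 2, 3, 4, 5, 6, 7, 8, 9, 9, 10, 11, 11, 11, 11],
  [1, 2, 3, 4, 5, 6, 7, 8, 9, 10, 10, 11, 11, 11, 11],
  [1, 2, 3, 4, 5, 6, 7, 8, 9, 10, 10, 11, 11, 11, 11],
  [1, 2, 3, 4, 5, 6, 7, 8, 9, 10, 10, 11, 11, 11, 11],
  [1, 2, 3, 4, 5, 6, 7, 8, 9, 10, 10, 11, 11, 11, 11],
  [1, 2, 3, 4, 5, 6, 7, 8, 9, 10, 10, 11, 11, 11, 11]]⟩

/-- arm gy, coupling `v^2 w^8` -/
def gy2 : Tm := ⟨2, 8, [[0, 1, 2, 3, 4, 5, 6, 7, 8, 8, 8, 8, 8, 8, 8],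
  [1, 1, 2, 3, 4, 5, 6, 7, 8, 9, 9, 9, 9, 9, 9],
  [2, 2, 2, 3, 4, 5, 6, 7, 8, 9, 10, 10, 10, 10, 10],
  [2, 3, 3, 3, 4, 5, 6, 7, 8, 9, 10, 10, 10, 10, 10],
  [2, 3, 4, 4, 4, 5, 6, 7, 8, 9, 10, 10, 10, 10, 10],
  [2, 3, 4, 5, 5, 5, 6, 7, 8, 9, 10, 10, 10, 10, 10],
  [2, 3, 4, 5, 6, 6, 6, 7, 8, 9, 10, 10, 10, 10, 10],
  [2, 3, 4, 5, 6, 7, 7, 7, 8, 9, 10, 10, 10, 10, 10],
  [2, 3, 4, 5, 6, 7, 8, 8, 8, 9, 10, 10, 10, 10, 10],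
  [2, 3, 4, 5, 6, 7, 8, 9, 9, 9, 10, 10, 10, 10, 10],
  [2, 3, 4, 5, 6, 7, 8, 9, 10, 10, 10, 10, 10, 10, 10],
  [2, 3, 4, 5, 6, 7, 8, 9, 10, 10, 10, 10, 10, 10, 10],
  [2, 3, 4, 5, 6, 7, 8, 9, 10, 10, 10, 10, 10, 10, 10],
  [2, 3, 4, 5, 6, 7, 8, 9, 10, 10, 10, 10, 10, 10, 10],
  [2, 3, 4, 5, 6, 7, 8, 9, 10, 10, 10, 10, 10, 10, 10]]⟩

/-- arm gy, coupling `v^7 w^4` -/
def gy3 : Tm := ⟨7, 4, [[0, 1, 2, 3, 4, 4, 4, 4, 4, 4, 4, 4, 4, 4, 4],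
  [1, 1, 2, 3, 4, 5, 5, 5, 5, 5, 5, 5, 5, 5, 5],
  [2, 2, 2, 3, 4, 5, 6, 6, 6, 6, 6, 6, 6, 6, 6],
  [3, 3, 3, 3, 4, 5, 6, 7, 7, 7, 7, 7, 7, 7, 7],
  [4, 4, 4, 4, 4, 5, 6, 7, 8, 8, 8, 8, 8, 8, 8],
  [5, 5, 5, 5, 5, 5, 6, 7, 8, 9, 9, 9, 9, 9, 9],
  [6, 6, 6, 6, 6, 6, 6, 7, 8, 9, 10, 10, 10, 10, 10],
  [6, 7, 7, 7, 7, 7, 7, 7, 8, 9, 10, 10, 10, 10, 10],
  [6, 7, 8, 8, 8, 8, 8, 8, 8, 9, 10, 10, 10, 10, 10],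
  [6, 7, 8, 9, 9, 9, 9, 9, 9, 9, 10, 10, 10, 10, 10],
  [6, 7, 8, 9, 10, 10, 10, 10, 10, 10, 10, 10, 10, 10, 10],
  [7, 7, 8, 9, 10, 11, 11, 11, 11, 11, 11, 11, 11, 11, 11],
  [7, 8, 8, 9, 10, 11, 11, 11, 11, 11, 11, 11, 11, 11, 11],
  [7, 8, 9, 9, 10, 11, 11, 11, 11, 11, 11, 11, 11, 11, 11],
  [7, 8, 9, 10, 10, 11, 11, 11, 11, 11, 11, 11, 11, 11, 11]]⟩

/-- windows of the arm gy -/
def c_gy : List ℕ := [15, 12, 10, 10, 10, 10, 10, 10, 10, 10, 8, 5, 5, 5, 5]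

/-- the system gy -/
def L_gy : List Tm := [own0, gy1, gy2, gy3, own1]

/-! ### the checks -/

theorem own0_N (k l : ℤ) : own0.N k l = l := by
  have h1 : ∀ a b : Fin 15, (ent own0.T a b : ℤ) = (b : ℕ) := by decide +kernel
  have h2 := Int.emod_nonneg k (show (15 : ℤ) ≠ 0 by norm_num)
  have h3 := Int.emod_lt_of_pos k (show (0 : ℤ) < 15 by norm_num)
  have h4 := Int.emod_nonneg l (show (15 : ℤ) ≠ 0 by norm_num)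
  have h5 := Int.emod_lt_of_pos l (show (0 : ℤ) < 15 by norm_num)
  have := h1 ⟨(k % 15).toNat, by omega⟩ ⟨(l % 15).toNat, by omega⟩
  simp only at this
  rw [Tm.N, ext, this]
  simp only [own0]
  omega

theorem own1_N (k l : ℤ) : own1.N k l = k := by
  have h1 : ∀ a b : Fin 15, (ent own1.T a b : ℤ) = (a : ℕ) := by decide +kernel
  have h2 := Int.emod_nonneg k (show (15 : ℤ) ≠ 0 by norm_num)
  have h3 := Int.emod_lt_of_pos k (show (0 : ℤ) < 15 by norm_num)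
  have h4 := Int.emod_nonneg l (show (15 : ℤ) ≠ 0 by norm_num)
  have h5 := Int.emod_lt_of_pos l (show (0 : ℤ) < 15 by norm_num)
  have := h1 ⟨(k % 15).toNat, by omega⟩ ⟨(l % 15).toNat, by omega⟩
  simp only at this
  rw [Tm.N, ext, this]
  simp only [own1]
  omega

theorem step_own0 : stepC own0 = true := by decide +kernel
theorem step_own1 : stepC own1 = true := by decide +kernel

theorem step_fx1 : stepC fx1 = true := by decide +kernel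
theorem diag_fx1 : diagC fx1 = true := by decide +kernel
theorem step_fx2 : stepC fx2 = true := by decide +kernel
theorem diag_fx2 : diagC fx2 = true := by decide +kernel
theorem nest_own0_fx1 : nestC own0 fx1 = true := by decide +kernel
theorem nest_fx1_fx2 : nestC fx1 fx2 = true := by decide +kernel
theorem nest_fx2_fxend : nestC fx2 own1 = true := by decide +kernel
theorem kept_fx : keptC L_fx c_fx = true := by decide +kernel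

theorem step_fy1 : stepC fy1 = true := by decide +kernel
theorem diag_fy1 : diagC fy1 = true := by decide +kernel
theorem step_fy2 : stepC fy2 = true := by decide +kernel
theorem diag_fy2 : diagC fy2 = true := by decide +kernel
theorem step_fy3 : stepC fy3 = true := by decide +kernel
theorem diag_fy3 : diagC fy3 = true := by decide +kernel
theorem nest_own0_fy1 : nestC own0 fy1 = true := by decide +kernel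
theorem nest_fy1_fy2 : nestC fy1 fy2 = true := by decide +kernel
theorem nest_fy2_fy3 : nestC fy2 fy3 = true := by decide +kernel
theorem nest_fy3_fyend : nestC fy3 own1 = true := by decide +kernel
theorem kept_fy : keptC L_fy c_fy = true := by decide +kernel

theorem step_gx1 : stepC gx1 = true := by decide +kernel
theorem diag_gx1 : diagC gx1 = true := by decide +kernel
theorem step_gx2 : stepC gx2 = true := by decide +kernel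
theorem diag_gx2 : diagC gx2 = true := by decide +kernel
theorem nest_own0_gx1 : nestC own0 gx1 = true := by decide +kernel
theorem nest_gx1_gx2 : nestC gx1 gx2 = true := by decide +kernel
theorem nest_gx2_gxend : nestC gx2 own1 = true := by decide +kernel
theorem kept_gx : keptC L_gx c_gx = true := by decide +kernel

theorem step_gy1 : stepC gy1 = true := by decide +kernel
theorem diag_gy1 : diagC gy1 = true := by decide +kernel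
theorem step_gy2 : stepC gy2 = true := by decide +kernel
theorem diag_gy2 : diagC gy2 = true := by decide +kernel
theorem step_gy3 : stepC gy3 = true := by decide +kernel
theorem diag_gy3 : diagC gy3 = true := by decide +kernel
theorem nest_own0_gy1 : nestC own0 gy1 = true := by decide +kernel
theorem nest_gy1_gy2 : nestC gy1 gy2 = true := by decide +kernel
theorem nest_gy2_gy3 : nestC gy2 gy3 = true := by decide +kernel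
theorem nest_gy3_gyend : nestC gy3 own1 = true := by decide +kernel
theorem kept_gy : keptC L_gy c_gy = true := by decide +kernel

end Crest.Agent.R267.NSTab_780
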