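import Mathlib
import Crest.Agent.R267.NdB_484

/-!
# S0406, package T4N: Newton nondegenerate polynomials (helper484)

`poly S c = ∑_{v ∈ S} c_v x^v`, `pd i = x_i ∂_i`.
`ND S c` : `κ max_v |x^v| ≤ max_i |x_i ∂_i F|` near the origin.
`reg_of_nd` : then `0` is a regular value on every small ellipsoid.
-/

set_option autoImplicit false
set_option linter.unusedSectionVars false

noncomputable section

open Set Filter Topology Finset
open Crest.Agent.R267.Cone_808 Crest.Agent.R267.SphReg_808 Crest.Agent.R267.NdB_484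

namespace Crest.Agent.R267.NdC_484

variable {ι : Type*} [Fintype ι]

/-- monomial. -/
def mo (v : ι → ℕ) (x : ι → ℂ) : ℂ := ∏ i, x i ^ v i

/-- polynomial function with support in `S`. -/
def poly (S : Finset (ι → ℕ)) (c : (ι → ℕ) → ℂ) (x : ι → ℂ) : ℂ := ∑ v ∈ S, c v * mo v x

/-- `x_i ∂_i`. -/
def pd (S : Finset (ι → ℕ)) (c : (ι → ℕ) → ℂ) (i : ι) (x : ι → ℂ) : ℂ :=
  ∑ v ∈ S, (v i : ℂ) * (c v * mo v x)

/-- quantitative Newton nondegeneracy. -/
def ND (S : Finset (ι → ℕ)) (c : (ι → ℕ) → ℂ) : Prop :=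
  ∃ κ > 0, ∃ δ > 0, ∀ x : ι → ℂ, x ≠ 0 → ‖x‖ < δ →
    ∃ i, 0 < ‖pd S c i x‖ ∧ ∀ v ∈ S, κ * ‖mo v x‖ ≤ ‖pd S c i x‖

variable {S : Finset (ι → ℕ)} {c : (ι → ℕ) → ℂ}

theorem contDiff_mo {𝕜 : Type*} [NontriviallyNormedField 𝕜] [NormedAlgebra 𝕜 ℂ]
    {n : WithTop ℕ∞} (v : ι → ℕ) : ContDiff 𝕜 n (mo v) := by
  unfold mo
  exact contDiff_prod fun i _ => (contDiff_apply 𝕜 ℂ i).pow _

theorem contDiff_poly {𝕜 : Type*} [NontriviallyNormedField 𝕜] [NormedAlgebra 𝕜 ℂ]
    {n : WithTop ℕ∞} : ContDiff 𝕜 n (poly S c) := by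
  unfold poly
  exact ContDiff.sum fun v _ => contDiff_const.mul (contDiff_mo v)

theorem mo_curve (v : ι → ℕ) (x y : ι → ℂ) (t : ℂ) :
    mo v (fun i => x i * (1 + t * y i)) = mo v x * ∏ i, (1 + t * y i) ^ v i := by
  unfold mo
  rw [← Finset.prod_mul_distrib]
  exact Finset.prod_congr rfl fun i _ => mul_pow _ _ _

theorem hasDerivAt_prod_curve (v : ι → ℕ) (y : ι → ℂ) :
    HasDerivAt (fun t : ℂ => ∏ i, (1 + t * y i) ^ v i) (∑ i, (v i : ℂ) * y i) 0 := by
  classical
  have h1 : ∀ i ∈ (Finset.univ : Finset ι),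
      HasDerivAt (fun t : ℂ => (1 + t * y i) ^ v i) ((v i : ℂ) * y i) 0 := by
    intro i _
    have h2 : HasDerivAt (fun t : ℂ => 1 + t * y i) (y i) 0 := by
      simpa using ((hasDerivAt_id (0 : ℂ)).mul_const (y i)).const_add 1
    have h3 := h2.fun_pow (v i)
    simpa using h3
  have h4 := HasDerivAt.fun_finsetProd h1
  refine h4.congr_deriv ?_
  refine Finset.sum_congr rfl fun i _ => ?_
  simp

theorem fderiv_poly (x y : ι → ℂ) :
    fderiv ℂ (poly S c) x (fun i => x i * y i) = ∑ i, y i * pd S c i x := by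
  have hd : DifferentiableAt ℂ (poly S c) x := (contDiff_poly (n := 1)).differentiable
    (by norm_num) x
  have h1 : HasDerivAt (fun t : ℂ => (fun i => x i * (1 + t * y i) : ι → ℂ))
      (fun i => x i * y i) 0 := by
    rw [hasDerivAt_pi]
    intro i
    have h2 : HasDerivAt (fun t : ℂ => 1 + t * y i) (y i) 0 := by
      simpa using ((hasDerivAt_id (0 : ℂ)).mul_const (y i)).const_add 1
    exact h2.const_mul (x i)
  have hx : (fun i => x i * (1 + (0 : ℂ) * y i) : ι → ℂ) = x := by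
    funext i; simp
  have h3 : HasDerivAt (fun t : ℂ => poly S c (fun i => x i * (1 + t * y i)))
      (fderiv ℂ (poly S c) x (fun i => x i * y i)) 0 := by
    have h4 : HasFDerivAt (poly S c) (fderiv ℂ (poly S c) x)
        ((fun t : ℂ => (fun i => x i * (1 + t * y i) : ι → ℂ)) 0) := by
      simp only [hx]; exact hd.hasFDerivAt
    exact h4.comp_hasDerivAt 0 h1
  have h5 : HasDerivAt (fun t : ℂ => poly S c (fun i => x i * (1 + t * y i)))
      (∑ v ∈ S, c v * (mo v x * ∑ i, (v i : ℂ) * y i)) 0 := by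
    unfold poly
    refine HasDerivAt.fun_sum fun v _ => ?_
    have h6 := ((hasDerivAt_prod_curve v y).const_mul (mo v x)).const_mul (c v)
    refine h6.congr_of_eventuallyEq (Filter.Eventually.of_forall fun t => ?_)
    simp only [mo_curve]
  rw [h3.unique h5]
  unfold pd
  simp only [Finset.mul_sum]
  rw [Finset.sum_comm]
  refine Finset.sum_congr rfl fun i _ => Finset.sum_congr rfl fun v _ => ?_
  ring

/-- a complex linear functional which is onto on a complex hyperplane. -/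
theorem exists_orth {L : (ι → ℂ) →ₗ[ℂ] ℂ} {u : ι → ℂ} (hu : nsq u = 1)
    (h : ¬ ∃ l : ℂ, ∀ y, L y = l * ∑ i, (starRingEnd ℂ) (u i) * y i) (b : ℂ) :
    ∃ y : ι → ℂ, ip u y = 0 ∧ L y = b := by
  have hu' : ∑ i, (starRingEnd ℂ) (u i) * u i = 1 := by
    have h1 : ∀ i, (starRingEnd ℂ) (u i) * u i = ((‖u i‖ ^ 2 : ℝ) : ℂ) := by
      intro i
      rw [mul_comm, Complex.mul_conj, Complex.normSq_eq_norm_sq]
    simp only [h1]
    rw [← Complex.ofReal_sum]
    have : ∑ i, ‖u i‖ ^ 2 = 1 := hu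
    rw [this, Complex.ofReal_one]
  have hex : ∃ y : ι → ℂ, ∑ i, (starRingEnd ℂ) (u i) * y i = 0 ∧ L y ≠ 0 := by
    by_contra hn
    push Not at hn
    apply h
    refine ⟨L u, fun y => ?_⟩
    set s := ∑ i, (starRingEnd ℂ) (u i) * y i with hs
    have h2 : ∑ i, (starRingEnd ℂ) (u i) * (y - s • u) i = 0 := by
      simp only [Pi.sub_apply, Pi.smul_apply, smul_eq_mul, mul_sub, Finset.sum_sub_distrib]
      rw [← hs]
      have : ∑ i, (starRingEnd ℂ) (u i) * (s * u i) = s * ∑ i, (starRingEnd ℂ) (u i) * u i := by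
        rw [Finset.mul_sum]; exact Finset.sum_congr rfl fun i _ => by ring
      rw [this, hu', mul_one, sub_self]
    have h3 := hn _ h2
    rw [map_sub, map_smul, smul_eq_mul, sub_eq_zero] at h3
    rw [h3]; ring
  obtain ⟨y, hy1, hy2⟩ := hex
  refine ⟨(b / L y) • y, ?_, ?_⟩
  · have h4 : ip u ((b / L y) • y) =
        ((b / L y) * ∑ i, (starRingEnd ℂ) (u i) * y i).re := by
      unfold ip
      rw [Finset.mul_sum, Complex.re_sum]
      refine Finset.sum_congr rfl fun i _ => ?_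
      rw [Complex.inner, Pi.smul_apply, smul_eq_mul]
      congr 1
      ring
    rw [h4, hy1, mul_zero, Complex.zero_re]
  · rw [map_smul, smul_eq_mul]
    field_simp

/-- `a log (P / a) ≤ P`. -/
theorem log_bound {a P : ℝ} (ha : 0 < a) (haP : a ≤ P) :
    |Real.log P - Real.log a| * a ≤ P := by
  have hP : 0 < P := ha.trans_le haP
  have h1 : Real.log P - Real.log a = Real.log (P / a) := (Real.log_div hP.ne' ha.ne').symm
  have h2 : 1 ≤ P / a := by rwa [le_div_iff₀ ha, one_mul]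
  rw [h1, abs_of_nonneg (Real.log_nonneg h2)]
  have h3 := Real.log_le_sub_one_of_pos (lt_of_lt_of_le one_pos h2)
  have h4 : Real.log (P / a) * a ≤ (P / a - 1) * a := mul_le_mul_of_nonneg_right h3 ha.le
  have h5 : (P / a - 1) * a = P - a := by field_simp
  linarith

/-- `-log |x|` with value `0` at `0`. -/
def lg (x : ι → ℂ) (i : ι) : ℝ := -Real.log ‖x i‖

theorem mo_log {v : ι → ℕ} {x : ι → ℂ} (h : mo v x ≠ 0) :
    ∑ i, (v i : ℝ) * lg x i = -Real.log ‖mo v x‖ := by
  unfold mo at h ⊢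
  rw [norm_prod, Real.log_prod (fun i hi => by
    rw [Finset.prod_ne_zero_iff] at h
    exact norm_ne_zero_iff.2 (h i hi)), ← Finset.sum_neg_distrib]
  refine Finset.sum_congr rfl fun i _ => ?_
  rw [norm_pow, Real.log_pow]
  unfold lg
  ring

/-- **the key estimate.** -/
theorem key {κ B : ℝ} (hκ : 0 < κ) {x : ι → ℂ} (h0 : poly S c x = 0)
    (hB : ∀ i, x i ≠ 0 → B ≤ lg x i) (hB0 : 0 ≤ B) (hC : ∑ v ∈ S, ‖c v‖ < B * κ)
    {i₀ : ι} (hi₀ : 0 < ‖pd S c i₀ x‖) (hM : ∀ v ∈ S, κ * ‖mo v x‖ ≤ ‖pd S c i₀ x‖)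
    {r : ι → ℝ} (hr : ∀ i, 0 ≤ r i) {l : ℂ} (hl : ∀ i, pd S c i x = l * r i) : False := by
  set P := ‖pd S c i₀ x‖ / κ with hP
  have hPpos : 0 < P := div_pos hi₀ hκ
  have hMP : ∀ v ∈ S, ‖mo v x‖ ≤ P := fun v hv => by
    rw [hP, le_div_iff₀ hκ, mul_comm]; exact hM v hv
  -- the sum
  have e1 : ∑ i, (lg x i : ℂ) * pd S c i x =
      ∑ v ∈ S, (((∑ i, (v i : ℝ) * lg x i) + Real.log P : ℝ) : ℂ) * (c v * mo v x) := by
    have e2 : ∑ v ∈ S, (((∑ i, (v i : ℝ) * lg x i) + Real.log P : ℝ) : ℂ) * (c v * mo v x) =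
        ∑ v ∈ S, ((∑ i, (v i : ℝ) * lg x i : ℝ) : ℂ) * (c v * mo v x) +
          (Real.log P : ℂ) * poly S c x := by
      unfold poly
      rw [Finset.mul_sum, ← Finset.sum_add_distrib]
      refine Finset.sum_congr rfl fun v _ => ?_
      push_cast; ring
    rw [e2, h0, mul_zero, add_zero]
    unfold pd
    simp only [Finset.mul_sum]
    rw [Finset.sum_comm]
    refine Finset.sum_congr rfl fun v _ => ?_
    push_cast
    rw [Finset.sum_mul]
    exact Finset.sum_congr rfl fun i _ => by ring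
  have e3 : ‖∑ i, (lg x i : ℂ) * pd S c i x‖ ≤ (∑ v ∈ S, ‖c v‖) * P := by
    rw [e1, Finset.sum_mul]
    refine (norm_sum_le _ _).trans (Finset.sum_le_sum fun v hv => ?_)
    by_cases hv0 : mo v x = 0
    · rw [hv0, mul_zero, mul_zero, norm_zero]; positivity
    · rw [mo_log hv0, norm_mul, norm_mul, Complex.norm_real, Real.norm_eq_abs]
      have h1 := log_bound (norm_pos_iff.2 hv0) (hMP v hv)
      have h2 : |(-Real.log ‖mo v x‖ + Real.log P)| = |Real.log P - Real.log ‖mo v x‖| := by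
        congr 1; ring
      rw [h2]
      calc |Real.log P - Real.log ‖mo v x‖| * (‖c v‖ * ‖mo v x‖)
          = ‖c v‖ * (|Real.log P - Real.log ‖mo v x‖| * ‖mo v x‖) := by ring
        _ ≤ ‖c v‖ * P := mul_le_mul_of_nonneg_left h1 (norm_nonneg _)
  have hlg : ∀ i, 0 ≤ lg x i := by
    intro i
    by_cases hi : x i = 0
    · unfold lg; rw [hi]; simp
    · exact hB0.trans (hB i hi)
  have e4 : ∑ i, (lg x i : ℂ) * pd S c i x = l * ((∑ i, lg x i * r i : ℝ) : ℂ) := by
    push_cast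
    rw [Finset.mul_sum]
    refine Finset.sum_congr rfl fun i _ => ?_
    rw [hl]; ring
  have e5 : lg x i₀ * r i₀ ≤ ∑ i, lg x i * r i :=
    Finset.single_le_sum (f := fun i => lg x i * r i)
      (fun i _ => mul_nonneg (hlg i) (hr i)) (Finset.mem_univ i₀)
  have hx0 : x i₀ ≠ 0 := by
    intro hx
    apply hi₀.ne'
    rw [norm_eq_zero]
    unfold pd
    refine Finset.sum_eq_zero fun v _ => ?_
    by_cases hv : v i₀ = 0
    · rw [hv]; simp
    · have : mo v x = 0 := by
        unfold mo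
        exact Finset.prod_eq_zero (Finset.mem_univ i₀) (by rw [hx, zero_pow hv])
      rw [this]; simp
  have e6 : B * ‖pd S c i₀ x‖ ≤ ‖∑ i, (lg x i : ℂ) * pd S c i x‖ := by
    rw [e4, norm_mul, Complex.norm_real, Real.norm_eq_abs,
      abs_of_nonneg (Finset.sum_nonneg fun i _ => mul_nonneg (hlg i) (hr i)), hl i₀, norm_mul,
      Complex.norm_real, Real.norm_eq_abs, abs_of_nonneg (hr i₀)]
    calc B * (‖l‖ * r i₀) = ‖l‖ * (B * r i₀) := by ring
      _ ≤ ‖l‖ * (lg x i₀ * r i₀) := mul_le_mul_of_nonneg_left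
          (mul_le_mul_of_nonneg_right (hB i₀ hx0) (hr i₀)) (norm_nonneg _)
      _ ≤ ‖l‖ * ∑ i, lg x i * r i := mul_le_mul_of_nonneg_left e5 (norm_nonneg _)
  have e7 : ‖pd S c i₀ x‖ = κ * P := by rw [hP]; field_simp
  rw [e7] at e6
  have e8 := e6.trans e3
  have e9 : (B * κ) * P ≤ (∑ v ∈ S, ‖c v‖) * P := by linarith [e8]
  exact absurd (le_of_mul_le_mul_right e9 hPpos) (not_le.2 hC)

/-- **small ellipsoids are transverse.** -/
theorem reg_of_nd (h : ND S c) : ∃ δ > 0, ∀ d : ι → ℝ, (∀ i, 0 < d i) → (∀ i, d i < δ) →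
    RegAt (poly S c) d := by
  classical
  obtain ⟨κ, hκ, δ₀, hδ₀, hND⟩ := h
  set C := ∑ v ∈ S, ‖c v‖ with hC
  have hC0 : 0 ≤ C := Finset.sum_nonneg fun _ _ => norm_nonneg _
  set B := (C + 1) / κ with hB
  have hBpos : 0 < B := div_pos (by linarith) hκ
  refine ⟨min δ₀ (Real.exp (-B)), lt_min hδ₀ (Real.exp_pos _), fun d hd0 hd u hu hFu b => ?_⟩
  set x := dil d u with hx
  have hui : ∀ i, ‖u i‖ ≤ 1 := by
    intro i
    have h1 : ‖u i‖ ^ 2 ≤ 1 := by
      have := Finset.single_le_sum (f := fun i => ‖u i‖ ^ 2) (fun _ _ => by positivity)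
        (Finset.mem_univ i)
      have hu' : ∑ i, ‖u i‖ ^ 2 = 1 := hu
      rwa [hu'] at this
    nlinarith [norm_nonneg (u i)]
  have hxi : ∀ i, ‖x i‖ ≤ d i := by
    intro i
    rw [hx]
    unfold dil
    rw [norm_mul, Complex.norm_real, Real.norm_eq_abs, abs_of_pos (hd0 i)]
    calc d i * ‖u i‖ ≤ d i * 1 := mul_le_mul_of_nonneg_left (hui i) (hd0 i).le
      _ = d i := mul_one _
  have hx0 : x ≠ 0 := by
    intro h0
    have hu0 : u = 0 := by
      funext i
      have h1 := congrFun h0 i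
      rw [hx] at h1
      unfold dil at h1
      have h2 : (d i : ℂ) ≠ 0 := by exact_mod_cast (hd0 i).ne'
      exact (mul_eq_zero.1 h1).resolve_left h2
    rw [hu0] at hu
    simp [nsq] at hu
  have hne : Nonempty ι := by
    by_contra hn
    rw [not_nonempty_iff] at hn
    exact hx0 (Subsingleton.elim _ _)
  have hxn : ‖x‖ < δ₀ := by
    obtain ⟨j, hj⟩ := Finite.exists_max fun i => ‖x i‖
    have h1 : ‖x‖ ≤ ‖x j‖ := (pi_norm_le_iff_of_nonneg (norm_nonneg _)).2 hj
    exact h1.trans_lt ((hxi j).trans_lt ((hd j).trans_le (min_le_left _ _)))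
  obtain ⟨i₀, hi₀, hM⟩ := hND x hx0 hxn
  -- real and complex derivative
  have hdiff : DifferentiableAt ℂ (poly S c) x := (contDiff_poly (n := 1)).differentiable
    (by norm_num) x
  have hre : fderiv ℝ (poly S c) x = (fderiv ℂ (poly S c) x).restrictScalars ℝ :=
    (hdiff.hasFDerivAt.restrictScalars ℝ).fderiv
  let L : (ι → ℂ) →ₗ[ℂ] ℂ :=
    { toFun := fun y => fderiv ℂ (poly S c) x (dil d y)
      map_add' := fun y z => by
        have : dil d (y + z) = dil d y + dil d z := by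
          funext i; simp [dil, mul_add]
        rw [this, map_add]
      map_smul' := fun a y => by
        have : dil d (a • y) = a • dil d y := by
          funext i; simp only [dil, Pi.smul_apply, smul_eq_mul]; ring
        rw [this, map_smul]; rfl }
  have hL : ∀ y, L y = fderiv ℂ (poly S c) x (dil d y) := fun _ => rfl
  by_cases hcase : ∃ l : ℂ, ∀ y, L y = l * ∑ i, (starRingEnd ℂ) (u i) * y i
  · exfalso
    obtain ⟨l, hl⟩ := hcase
    refine key (S := S) (c := c) hκ (x := x) (B := B) hFu (fun i hi => ?_) hBpos.le ?_ hi₀ hM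
      (r := fun i => ‖u i‖ ^ 2) (fun i => by positivity) (l := l) (fun i => ?_)
    · unfold lg
      have h1 : ‖x i‖ ≤ Real.exp (-B) :=
        (hxi i).trans ((hd i).le.trans (min_le_right _ _))
      have h2 := (Real.log_le_log_iff (norm_pos_iff.2 hi) (Real.exp_pos _)).2 h1
      rw [Real.log_exp] at h2
      linarith
    · rw [← hC, hB]
      field_simp
      linarith
    · have h1 := fderiv_poly (S := S) (c := c) x (Pi.single i 1)
      have h2 : ∑ j, (Pi.single i (1 : ℂ) : ι → ℂ) j * pd S c j x = pd S c i x := by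
        rw [Finset.sum_eq_single i]
        · simp
        · intro j _ hj; rw [Pi.single_eq_of_ne hj, zero_mul]
        · intro h; exact absurd (Finset.mem_univ i) h
      rw [h2] at h1
      rw [← h1]
      have h3 : (fun j => x j * (Pi.single i (1 : ℂ) : ι → ℂ) j) =
          dil d (Pi.single i (u i)) := by
        funext j
        by_cases hj : j = i
        · subst hj; simp [dil, hx]
        · simp [dil, Pi.single_eq_of_ne hj]
      rw [h3, ← hL, hl]
      congr 1
      rw [Finset.sum_eq_single i]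
      · rw [Pi.single_eq_same, mul_comm, Complex.mul_conj, Complex.normSq_eq_norm_sq]
      · intro j _ hj; rw [Pi.single_eq_of_ne hj, mul_zero]
      · intro h; exact absurd (Finset.mem_univ i) h
  · obtain ⟨y, hy1, hy2⟩ := exists_orth hu hcase b
    refine ⟨y, hy1, ?_⟩
    rw [hre, ContinuousLinearMap.coe_restrictScalars', ← hy2, hL]

end Crest.Agent.R267.NdC_484
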