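import Mathlib
import Crest.Agent.R267.NdC_484
import Crest.Agent.R267.NdLit_560

/-!
# S0406, package T4N: assembly (helper484)

`s0406_of_link` : two Newton nondegenerate polynomials (`ND`) of orders `4`, `5` whose small links
are homeomorphic give the statement of S0406.
-/

set_option autoImplicit false
set_option linter.unusedSectionVars false

noncomputable section

open Set Filter Topology Finset
open Crest.Agent.R267.Cone_808 Crest.Agent.R267.SphReg_808 Crest.Agent.R267.NdB_484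
open Crest.Agent.R267.NdC_484

namespace Crest.Agent.R267.NdD_484

section General

variable {ι : Type*} [Fintype ι] {S S' : Finset (ι → ℕ)} {c c' : (ι → ℕ) → ℂ}

/-- all small ellipsoids cut out homeomorphic links. -/
theorem link_indep (h : ND S c) : ∃ δ > 0, ∀ d d' : ι → ℝ, (∀ i, 0 < d i) → (∀ i, d i < δ) →
    (∀ i, 0 < d' i) → (∀ i, d' i < δ) →
    ∃ g : Sph ι ≃ₜ Sph ι, ∀ x : Sph ι,
      poly S c (dil d x) = 0 ↔ poly S c (dil d' (g x)) = 0 := by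
  obtain ⟨δ, hδ, hreg⟩ := reg_of_nd h
  refine ⟨δ, hδ, fun d d' h1 h2 h3 h4 => ?_⟩
  refine link_congr contDiff_poly fun t ht => hreg _ (fun i => ?_) (fun i => ?_)
  · rcases eq_or_lt_of_le ht.1 with h0 | h0
    · rw [← h0]; simpa using h1 i
    · have e1 : 0 ≤ (1 - t) * d i := mul_nonneg (by linarith [ht.2]) (h1 i).le
      have e2 : 0 < t * d' i := mul_pos h0 (h3 i)
      linarith
  · rcases eq_or_lt_of_le ht.1 with h0 | h0
    · rw [← h0]; simpa using h2 i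
    · have e1 : (1 - t) * d i ≤ (1 - t) * δ :=
        mul_le_mul_of_nonneg_left (h2 i).le (by linarith [ht.2])
      have e2 : t * d' i < t * δ := mul_lt_mul_of_pos_left (h4 i) h0
      linarith

/-- the small links of `F` and `G` are homeomorphic. -/
def LinkPair (S : Finset (ι → ℕ)) (c : (ι → ℕ) → ℂ) (S' : Finset (ι → ℕ)) (c' : (ι → ℕ) → ℂ) :
    Prop :=
  ∀ δ > (0 : ℝ), ∃ d d' : ι → ℝ, (∀ i, 0 < d i) ∧ (∀ i, d i < δ) ∧ (∀ i, 0 < d' i) ∧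
    (∀ i, d' i < δ) ∧ ∃ h : Sph ι ≃ₜ Sph ι, ∀ u : Sph ι,
      poly S c (dil d u) = 0 ↔ poly S' c' (dil d' (h u)) = 0

theorem mo_zero {v : ι → ℕ} (h : 0 < ∑ i, v i) : mo v (0 : ι → ℂ) = 0 := by
  obtain ⟨i, hi⟩ : ∃ i, v i ≠ 0 := by
    by_contra hn
    push Not at hn
    simp [hn] at h
  unfold mo
  exact Finset.prod_eq_zero (Finset.mem_univ i) (by simp [zero_pow hi])

theorem poly_zero (h : ∀ v ∈ S, 0 < ∑ i, v i) : poly S c (0 : ι → ℂ) = 0 := by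
  unfold poly
  exact Finset.sum_eq_zero fun v hv => by rw [mo_zero (h v hv), mul_zero]

/-- **homeomorphism of germs.** -/
theorem germ_of_linkPair (h : ND S c) (h' : ND S' c') (h0 : ∀ v ∈ S, 0 < ∑ i, v i)
    (h0' : ∀ v ∈ S', 0 < ∑ i, v i) (hl : LinkPair S c S' c') :
    ∃ φ : OpenPartialHomeomorph (ι → ℂ) (ι → ℂ),
      (0 : ι → ℂ) ∈ φ.source ∧ φ 0 = 0 ∧
        ∀ x ∈ φ.source, (poly S c x = 0 ↔ poly S' c' (φ x) = 0) := by
  obtain ⟨δ₁, hδ₁, hr₁⟩ := reg_of_nd h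
  obtain ⟨δ₂, hδ₂, hr₂⟩ := reg_of_nd h'
  obtain ⟨δ₃, hδ₃, hl₁⟩ := link_indep h
  obtain ⟨δ₄, hδ₄, hl₂⟩ := link_indep h'
  set δ := min (min δ₁ δ₂) (min δ₃ δ₄) with hδ
  have hδ0 : 0 < δ := lt_min (lt_min hδ₁ hδ₂) (lt_min hδ₃ hδ₄)
  have l1 : δ ≤ δ₁ := (min_le_left _ _).trans (min_le_left _ _)
  have l2 : δ ≤ δ₂ := (min_le_left _ _).trans (min_le_right _ _)
  have l3 : δ ≤ δ₃ := (min_le_right _ _).trans (min_le_left _ _)
  have l4 : δ ≤ δ₄ := (min_le_right _ _).trans (min_le_right _ _)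
  obtain ⟨d, d', d1, d2, d3, d4, g, hg⟩ := hl δ hδ0
  set T := Real.log (δ / 2) with hT
  have hTe : ∀ t ≤ T, Real.exp (t * 1) < δ := by
    intro t ht
    have h1 : Real.exp (t * 1) ≤ Real.exp T := Real.exp_le_exp.2 (by linarith)
    rw [hT, Real.exp_log (by positivity)] at h1
    linarith
  obtain ⟨g₁, hg₁⟩ := hl₁ (ex (fun _ : ι => (1 : ℝ)) T) d (fun i => Real.exp_pos _)
    (fun i => (hTe T le_rfl).trans_le l3) d1 (fun i => (d2 i).trans_le l3)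
  obtain ⟨g₂, hg₂⟩ := hl₂ d' (ex (fun _ : ι => (1 : ℝ)) T) d3 (fun i => (d4 i).trans_le l4)
    (fun i => Real.exp_pos _) (fun i => (hTe T le_rfl).trans_le l4)
  refine germ_of_link (w := fun _ => 1) (w' := fun _ => 1) (T := T) (T' := T)
    contDiff_poly contDiff_poly (fun _ => one_pos) (fun _ => one_pos)
    (fun t ht => hr₁ _ (fun i => Real.exp_pos _) fun i => (hTe t ht).trans_le l1)
    (fun t ht => hr₂ _ (fun i => Real.exp_pos _) fun i => (hTe t ht).trans_le l2)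
    (by rw [poly_zero h0, poly_zero h0']) ((g₁.trans g).trans g₂) fun u => ?_
  rw [act_eq, act_eq, hg₁, hg, hg₂]
  rfl

end General

section Four

variable {n : ℕ} {S S' : Finset (Fin n → ℕ)} {c c' : (Fin n → ℕ) → ℂ}

/-- the polynomial. -/
def mp (S : Finset (Fin n → ℕ)) (c : (Fin n → ℕ) → ℂ) : MvPolynomial (Fin n) ℂ :=
  ∑ v ∈ S, MvPolynomial.monomial (Finsupp.equivFunOnFinite.symm v) (c v)

theorem aeval_mp (x : Fin n → ℂ) : MvPolynomial.aeval x (mp S c) = poly S c x := by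
  unfold mp poly mo
  rw [map_sum]
  refine Finset.sum_congr rfl fun v _ => ?_
  rw [MvPolynomial.aeval_monomial, Finsupp.prod_fintype _ _ (fun i => pow_zero _)]
  rfl

theorem coeff_mp (v : Fin n → ℕ) [Decidable (v ∈ S)] :
    MvPolynomial.coeff (Finsupp.equivFunOnFinite.symm v) (mp S c) = if v ∈ S then c v else 0 := by
  classical
  unfold mp
  rw [MvPolynomial.coeff_sum]
  simp only [MvPolynomial.coeff_monomial, Finsupp.equivFunOnFinite.symm.injective.eq_iff]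
  rw [Finset.sum_ite_eq']
  by_cases h : v ∈ S
  · rw [if_pos h, if_pos h]
  · rw [if_neg h, if_neg h]

theorem supp_mp {d : Fin n →₀ ℕ} (h : d ∈ (mp S c).support) :
    ∃ v ∈ S, d = Finsupp.equivFunOnFinite.symm v := by
  classical
  obtain ⟨v, rfl⟩ := Finsupp.equivFunOnFinite.symm.surjective d
  rw [MvPolynomial.mem_support_iff, coeff_mp] at h
  by_cases hv : v ∈ S
  · exact ⟨v, hv, rfl⟩
  · rw [if_neg hv] at h; exact absurd rfl h

theorem degree_symm (v : Fin n → ℕ) :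
    (Finsupp.equivFunOnFinite.symm v : Fin n →₀ ℕ).degree = ∑ i, v i := by
  rw [Finsupp.degree_eq_sum]
  rfl

theorem isolated_mp (h : ND S c) :
    ∀ᶠ x in 𝓝[≠] (0 : Fin n → ℂ), ∃ i, MvPolynomial.aeval x (MvPolynomial.pderiv i (mp S c)) ≠ 0 := by
  obtain ⟨κ, hκ, δ, hδ, hND⟩ := h
  have h1 : ∀ᶠ x in 𝓝[≠] (0 : Fin n → ℂ), x ≠ 0 := eventually_mem_nhdsWithin
  have h2 : ∀ᶠ x in 𝓝 (0 : Fin n → ℂ), ‖x‖ < δ := by
    have := Metric.ball_mem_nhds (0 : Fin n → ℂ) hδ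
    filter_upwards [this] with x hx
    simpa using hx
  filter_upwards [h1, h2.filter_mono nhdsWithin_le_nhds] with x hx0 hx
  rw [← NdLit_560.fderiv_ne_zero_iff]
  obtain ⟨i, hi, -⟩ := hND x hx0 hx
  intro h3
  have h4 : (fun x : Fin n → ℂ => MvPolynomial.aeval x (mp S c)) = poly S c := by
    funext y; exact aeval_mp y
  rw [h4] at h3
  have h5 := fderiv_poly (S := S) (c := c) x (Pi.single i 1)
  rw [h3] at h5
  have h6 : ∑ j, (Pi.single i (1 : ℂ) : Fin n → ℂ) j * pd S c j x = pd S c i x := by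
    rw [Finset.sum_eq_single i]
    · simp
    · intro j _ hj; rw [Pi.single_eq_of_ne hj, zero_mul]
    · intro h; exact absurd (Finset.mem_univ i) h
  rw [h6] at h5
  rw [← h5] at hi
  simp at hi

end Four

/-- **ASSEMBLY of S0406.** -/
theorem s0406_of_link {S S' : Finset (Fin 4 → ℕ)} {c c' : (Fin 4 → ℕ) → ℂ}
    (h : ND S c) (h' : ND S' c')
    (hS : ∀ v ∈ S, 4 ≤ ∑ i, v i) (hS1 : ∃ v ∈ S, c v ≠ 0 ∧ ∑ i, v i = 4)
    (hS' : ∀ v ∈ S', 5 ≤ ∑ i, v i) (hS1' : ∃ v ∈ S', c' v ≠ 0 ∧ ∑ i, v i = 5)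
    (hl : LinkPair S c S' c') :
    ∃ (f g : (Fin 4 → ℂ) → ℂ),
      AnalyticAt ℂ f 0 ∧ AnalyticAt ℂ g 0 ∧ f 0 = 0 ∧ g 0 = 0 ∧
      (∀ h u : (Fin 4 → ℂ) → ℂ, AnalyticAt ℂ h 0 → AnalyticAt ℂ u 0 → h 0 = 0 →
        ¬ (f =ᶠ[𝓝 0] fun x => h x ^ 2 * u x)) ∧
      (∀ h u : (Fin 4 → ℂ) → ℂ, AnalyticAt ℂ h 0 → AnalyticAt ℂ u 0 → h 0 = 0 →
        ¬ (g =ᶠ[𝓝 0] fun x => h x ^ 2 * u x)) ∧
      fderiv ℂ f 0 = 0 ∧ (∀ᶠ x in 𝓝[≠] (0 : Fin 4 → ℂ), fderiv ℂ f x ≠ 0) ∧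
      fderiv ℂ g 0 = 0 ∧ (∀ᶠ x in 𝓝[≠] (0 : Fin 4 → ℂ), fderiv ℂ g x ≠ 0) ∧
      (∃ φ : OpenPartialHomeomorph (Fin 4 → ℂ) (Fin 4 → ℂ),
        (0 : Fin 4 → ℂ) ∈ φ.source ∧ φ 0 = 0 ∧ ∀ x ∈ φ.source, (f x = 0 ↔ g (φ x) = 0)) ∧
      (∀ j < 4, iteratedFDeriv ℂ j f 0 = 0) ∧ iteratedFDeriv ℂ 4 f 0 ≠ 0 ∧
      (∀ j < 5, iteratedFDeriv ℂ j g 0 = 0) ∧ iteratedFDeriv ℂ 5 g 0 ≠ 0 := by
  classical
  have deg : ∀ {S : Finset (Fin 4 → ℕ)} {c : (Fin 4 → ℕ) → ℂ} {m : ℕ},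
      (∀ v ∈ S, m ≤ ∑ i, v i) → ∀ d ∈ (mp S c).support, m ≤ d.degree := by
    intro S c m hS d hd
    obtain ⟨v, hv, rfl⟩ := supp_mp hd
    rw [degree_symm]; exact hS v hv
  have deg1 : ∀ {S : Finset (Fin 4 → ℕ)} {c : (Fin 4 → ℕ) → ℂ} {m : ℕ},
      (∃ v ∈ S, c v ≠ 0 ∧ ∑ i, v i = m) → ∃ d ∈ (mp S c).support, d.degree = m := by
    rintro S c m ⟨v, hv, hc, hm⟩
    refine ⟨Finsupp.equivFunOnFinite.symm v, ?_, by rw [degree_symm]; exact hm⟩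
    rw [MvPolynomial.mem_support_iff, coeff_mp, if_pos hv]; exact hc
  refine NdLit_560.s0406_of (mp S c) (mp S' c') (deg hS) (deg1 hS1) (deg hS') (deg1 hS1')
    (isolated_mp h) (isolated_mp h') ?_
  obtain ⟨φ, h1, h2, h3⟩ := germ_of_linkPair h h'
    (fun v hv => lt_of_lt_of_le (by norm_num) (hS v hv))
    (fun v hv => lt_of_lt_of_le (by norm_num) (hS' v hv)) hl
  refine ⟨φ, h1, h2, fun x hx => ?_⟩
  rw [aeval_mp, aeval_mp]
  exact h3 x hx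

end Crest.Agent.R267.NdD_484
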