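import Mathlib
import Crest.Agent.R267.NdC_484

/-!
# S0406, package T4N: a criterion for `ND` (helper484)

`Lim S c Ξ` : `Ξ v = lim x^v / max |x^w|` along a sequence `x → 0` violating `ND`.
`nd_of` : if no such `Ξ` exists then `ND`.
`Lim.rel` : the binomial relations satisfied by `Ξ`.
-/

set_option autoImplicit false
set_option linter.unusedSectionVars false

noncomputable section

open Set Filter Topology Finset
open Crest.Agent.R267.NdC_484

namespace Crest.Agent.R267.NdE_484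

variable {ι : Type*} [Fintype ι]

/-- `Ξ` is a limit of normalised monomials along a sequence which violates `ND`. -/
structure Lim (S : Finset (ι → ℕ)) (c : (ι → ℕ) → ℂ) (Ξ : (ι → ℕ) → ℂ) : Prop where
  ex : ∃ (x : ℕ → ι → ℂ) (M : ℕ → ℝ), Tendsto x atTop (𝓝 0) ∧ (∀ n, x n ≠ 0) ∧ (∀ n, 0 < M n) ∧
    (∀ n, ∀ v ∈ S, ‖mo v (x n)‖ ≤ M n) ∧ (∀ n, ∃ v ∈ S, ‖mo v (x n)‖ = M n) ∧
    (∀ v ∈ S, Tendsto (fun n => mo v (x n) / (M n : ℂ)) atTop (𝓝 (Ξ v))) ∧
    ∀ i, Tendsto (fun n => ‖pd S c i (x n)‖ / M n) atTop (𝓝 0)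

variable {S : Finset (ι → ℕ)} {c : (ι → ℕ) → ℂ} {Ξ : (ι → ℕ) → ℂ}

/-- the linear equations. -/
theorem Lim.lin (h : Lim S c Ξ) (i : ι) : ∑ v ∈ S, (v i : ℂ) * (c v * Ξ v) = 0 := by
  obtain ⟨x, M, -, -, hM, -, -, hΞ, hpd⟩ := h.ex
  have h1 : Tendsto (fun n => pd S c i (x n) / (M n : ℂ)) atTop
      (𝓝 (∑ v ∈ S, (v i : ℂ) * (c v * Ξ v))) := by
    have h2 : (fun n => pd S c i (x n) / (M n : ℂ)) =
        fun n => ∑ v ∈ S, (v i : ℂ) * (c v * (mo v (x n) / (M n : ℂ))) := by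
      funext n
      unfold pd
      rw [Finset.sum_div]
      exact Finset.sum_congr rfl fun v _ => by ring
    rw [h2]
    exact tendsto_finsetSum _ fun v hv => (hΞ v hv).const_mul _ |>.const_mul _
  have h3 := h1.norm
  have h4 : (fun n => ‖pd S c i (x n) / (M n : ℂ)‖) = fun n => ‖pd S c i (x n)‖ / M n := by
    funext n
    rw [norm_div, Complex.norm_real, Real.norm_eq_abs, abs_of_pos (hM n)]
  rw [h4] at h3
  exact norm_eq_zero.1 (tendsto_nhds_unique h3 (hpd i))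

/-- some `Ξ v` does not vanish. -/
theorem Lim.ne (h : Lim S c Ξ) : ∃ v ∈ S, Ξ v ≠ 0 := by
  obtain ⟨x, M, -, -, hM, -, hmax, hΞ, -⟩ := h.ex
  by_contra hn
  push Not at hn
  have h1 : Tendsto (fun n => ∑ v ∈ S, ‖mo v (x n) / (M n : ℂ)‖) atTop (𝓝 0) := by
    have h2 : Tendsto (fun n => ∑ v ∈ S, ‖mo v (x n) / (M n : ℂ)‖) atTop
        (𝓝 (∑ v ∈ S, ‖Ξ v‖)) := tendsto_finsetSum _ fun v hv => (hΞ v hv).norm
    rwa [Finset.sum_eq_zero fun v hv => by rw [hn v hv, norm_zero]] at h2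
  have h3 : ∀ n, 1 ≤ ∑ v ∈ S, ‖mo v (x n) / (M n : ℂ)‖ := by
    intro n
    obtain ⟨v, hv, hvM⟩ := hmax n
    have h4 : ‖mo v (x n) / (M n : ℂ)‖ = 1 := by
      rw [norm_div, Complex.norm_real, Real.norm_eq_abs, abs_of_pos (hM n), hvM,
        div_self (hM n).ne']
    calc (1 : ℝ) = ‖mo v (x n) / (M n : ℂ)‖ := h4.symm
      _ ≤ _ := Finset.single_le_sum (f := fun v => ‖mo v (x n) / (M n : ℂ)‖)
        (fun _ _ => norm_nonneg _) hv
  exact absurd (ge_of_tendsto h1 (Eventually.of_forall h3)) (by norm_num)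

theorem mo_add (v w : ι → ℕ) (x : ι → ℂ) : mo (v + w) x = mo v x * mo w x := by
  unfold mo
  rw [← Finset.prod_mul_distrib]
  exact Finset.prod_congr rfl fun i _ => by rw [Pi.add_apply, pow_add]

theorem mo_zero_exp (x : ι → ℂ) : mo (0 : ι → ℕ) x = 1 := by
  unfold mo; simp

theorem mo_sum (l : List (ι → ℕ)) (x : ι → ℂ) : mo l.sum x = (l.map fun v => mo v x).prod := by
  induction l with
  | nil => simp [mo_zero_exp]
  | cons a l ih => rw [List.sum_cons, mo_add, List.map_cons, List.prod_cons, ih]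

theorem continuous_mo (v : ι → ℕ) : Continuous (mo v : (ι → ℂ) → ℂ) := by
  unfold mo; fun_prop

theorem mo_at_zero {e : ι → ℕ} (h : e ≠ 0) : mo e (0 : ι → ℂ) = 0 := by
  obtain ⟨i, hi⟩ := Function.ne_iff.1 h
  unfold mo
  exact Finset.prod_eq_zero (Finset.mem_univ i) (by
    rw [Pi.zero_apply, zero_pow]; exact hi)

theorem Lim.prod_tendsto {x : ℕ → ι → ℂ} {M : ℕ → ℝ}
    (hΞ : ∀ v ∈ S, Tendsto (fun n => mo v (x n) / (M n : ℂ)) atTop (𝓝 (Ξ v)))
    (l : List (ι → ℕ)) (hl : ∀ v ∈ l, v ∈ S) :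
    Tendsto (fun n => (l.map fun v => mo v (x n)).prod / (M n : ℂ) ^ l.length) atTop
      (𝓝 (l.map Ξ).prod) := by
  induction l with
  | nil => simp
  | cons a l ih =>
    have h1 := (hΞ a (hl a List.mem_cons_self)).mul
      (ih fun v hv => hl v (List.mem_cons_of_mem _ hv))
    rw [List.map_cons, List.prod_cons]
    refine h1.congr fun n => ?_
    rw [List.map_cons, List.prod_cons, List.length_cons, pow_succ']
    rw [div_mul_div_comm]

/-- **relation with an extra factor**: the product vanishes. -/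
theorem Lim.rel_zero (h : Lim S c Ξ) (l m : List (ι → ℕ)) (e : ι → ℕ) (hl : ∀ v ∈ l, v ∈ S)
    (hm : ∀ v ∈ m, v ∈ S) (hlen : l.length = m.length) (he : e ≠ 0) (hs : l.sum = m.sum + e) :
    (l.map Ξ).prod = 0 := by
  obtain ⟨x, M, hx, -, hM, -, -, hΞ, -⟩ := h.ex
  have h1 := Lim.prod_tendsto hΞ l hl
  have h2 := Lim.prod_tendsto hΞ m hm
  have h3 : Tendsto (fun n => mo e (x n)) atTop (𝓝 0) := by
    have := ((continuous_mo e).tendsto 0).comp hx
    rwa [mo_at_zero he] at this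
  have h4 := h2.mul h3
  rw [mul_zero] at h4
  refine tendsto_nhds_unique h1 (h4.congr fun n => ?_)
  rw [← mo_sum, ← mo_sum, hs, mo_add, hlen]
  ring

/-- **binomial relation.** -/
theorem Lim.rel (h : Lim S c Ξ) (l m : List (ι → ℕ)) (hl : ∀ v ∈ l, v ∈ S)
    (hm : ∀ v ∈ m, v ∈ S) (hlen : l.length = m.length) (hs : l.sum = m.sum) :
    (l.map Ξ).prod = (m.map Ξ).prod := by
  obtain ⟨x, M, hx, -, hM, -, -, hΞ, -⟩ := h.ex
  have h1 := Lim.prod_tendsto hΞ l hl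
  have h2 := Lim.prod_tendsto hΞ m hm
  refine tendsto_nhds_unique h1 (h2.congr fun n => ?_)
  rw [← mo_sum, ← mo_sum, hs, hlen]

/-- **relation with fewer factors**: the product vanishes. -/
theorem Lim.rel_lt (h : Lim S c Ξ) (h0 : ∀ v ∈ S, v ≠ 0) (l m : List (ι → ℕ)) (e : ι → ℕ)
    (hl : ∀ v ∈ l, v ∈ S) (hm : ∀ v ∈ m, v ∈ S) (hlen : l.length < m.length)
    (hs : l.sum = m.sum + e) : (l.map Ξ).prod = 0 := by
  obtain ⟨k, hk⟩ := Nat.exists_eq_add_of_lt hlen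
  -- drop elements of `m`
  have hm' : m = m.take l.length ++ m.drop l.length := (List.take_append_drop _ _).symm
  have hne : m.drop l.length ≠ [] := by
    intro h1
    have := congrArg List.length h1
    simp at this
    omega
  refine h.rel_zero l (m.take l.length) ((m.drop l.length).sum + e) hl
    (fun v hv => hm v (List.mem_of_mem_take hv)) (by simp; omega) ?_ ?_
  · intro h1
    obtain ⟨a, t, ht⟩ := List.exists_cons_of_ne_nil hne
    have ha : a ∈ S := hm a (List.mem_of_mem_drop (i := l.length) (by rw [ht]; simp))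
    apply h0 a ha
    rw [ht, List.sum_cons] at h1
    funext i
    have := congrFun h1 i
    simp only [Pi.add_apply, Pi.zero_apply] at this ⊢
    omega
  · rw [hs]
    conv_lhs => rw [hm', List.sum_append]
    rw [add_assoc]

/-- **criterion.** -/
theorem nd_of (hconv : ∀ x : ι → ℂ, x ≠ 0 → ∃ v ∈ S, mo v x ≠ 0)
    (h : ∀ Ξ : (ι → ℕ) → ℂ, ¬ Lim S c Ξ) : ND S c := by
  classical
  by_contra hn
  unfold ND at hn
  push Not at hn
  have key : ∀ n : ℕ, ∃ x : ι → ℂ, x ≠ 0 ∧ ‖x‖ < 1 / ((n : ℝ) + 1) ∧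
      ∀ i, 0 < ‖pd S c i x‖ → ∃ v ∈ S, ‖pd S c i x‖ < 1 / ((n : ℝ) + 1) * ‖mo v x‖ := by
    intro n
    have hp : 0 < 1 / ((n : ℝ) + 1) := by positivity
    exact hn _ hp _ hp
  choose x hx0 hx1 hx2 using key
  have hmax : ∀ n, ∃ v ∈ S, ∀ w ∈ S, ‖mo w (x n)‖ ≤ ‖mo v (x n)‖ := by
    intro n
    obtain ⟨v, hv, -⟩ := hconv (x n) (hx0 n)
    obtain ⟨w, hw, hw'⟩ := S.exists_max_image (fun v => ‖mo v (x n)‖) ⟨v, hv⟩
    exact ⟨w, hw, hw'⟩
  choose vm hvm hvmax using hmax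
  set M : ℕ → ℝ := fun n => ‖mo (vm n) (x n)‖ with hMdef
  have hM : ∀ n, 0 < M n := by
    intro n
    obtain ⟨v, hv, hv0⟩ := hconv (x n) (hx0 n)
    exact (norm_pos_iff.2 hv0).trans_le (hvmax n v hv)
  let Y : ℕ → ({v // v ∈ S} → ℂ) := fun n v => mo v.1 (x n) / (M n : ℂ)
  have hY : ∀ n, Y n ∈ Metric.closedBall (0 : {v // v ∈ S} → ℂ) 1 := by
    intro n
    rw [mem_closedBall_zero_iff, pi_norm_le_iff_of_nonneg zero_le_one]
    intro v
    change ‖mo v.1 (x n) / (M n : ℂ)‖ ≤ 1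
    rw [norm_div, Complex.norm_real, Real.norm_eq_abs, abs_of_pos (hM n), div_le_one (hM n)]
    exact hvmax n v.1 v.2
  obtain ⟨Z, -, φ, hφ, hZ⟩ := (isCompact_closedBall (0 : {v // v ∈ S} → ℂ) 1).tendsto_subseq hY
  have hxt : Tendsto x atTop (𝓝 0) := by
    rw [tendsto_zero_iff_norm_tendsto_zero]
    exact squeeze_zero (fun n => norm_nonneg _) (fun n => (hx1 n).le)
      tendsto_one_div_add_atTop_nhds_zero_nat
  have hpd : ∀ n i, ‖pd S c i (x n)‖ / M n ≤ 1 / ((n : ℝ) + 1) := by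
    intro n i
    rw [div_le_iff₀ (hM n)]
    rcases (norm_nonneg (pd S c i (x n))).eq_or_lt with h0 | h0
    · rw [← h0]; exact mul_nonneg (by positivity) (hM n).le
    · obtain ⟨v, hv, hv'⟩ := hx2 n i h0
      exact hv'.le.trans (mul_le_mul_of_nonneg_left (hvmax n v hv) (by positivity))
  refine h (fun v => if hv : v ∈ S then Z ⟨v, hv⟩ else 0) ⟨fun n => x (φ n), fun n => M (φ n),
    hxt.comp hφ.tendsto_atTop, fun n => hx0 _, fun n => hM _, fun n v hv => hvmax _ v hv,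
    fun n => ⟨vm (φ n), hvm _, rfl⟩, fun v hv => ?_, fun i => ?_⟩
  · rw [dif_pos hv]
    exact (tendsto_pi_nhds.1 hZ) ⟨v, hv⟩
  · have h1 : Tendsto (fun n => ‖pd S c i (x n)‖ / M n) atTop (𝓝 0) :=
      squeeze_zero (fun n => div_nonneg (norm_nonneg _) (hM n).le) (fun n => hpd n i)
        tendsto_one_div_add_atTop_nhds_zero_nat
    exact h1.comp hφ.tendsto_atTop

end Crest.Agent.R267.NdE_484
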