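import Mathlib
import Crest.Agent.R267.NdD_484

/-!
# S0406, package T3N: the Milnor condition for Newton nondegenerate polynomials (helper484)

`milnor` : if `ND S c` and `d` is a small positive diagonal, then for every `u` on the unit
sphere with `F (d u) ≠ 0` the argument of `F (d ·)` restricted to the sphere is a submersion.
`mreg`   : so `x ↦ |x| F (d x / |x|)` is a submersion at every point of the sphere.
-/

set_option autoImplicit false
set_option linter.unusedSectionVars false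

noncomputable section

open Set Filter Topology Finset
open Crest.Agent.R267.Cone_808 Crest.Agent.R267.SphReg_808 Crest.Agent.R267.NdB_484
open Crest.Agent.R267.NdC_484

namespace Crest.Agent.R267.NdM_484

variable {ι : Type*} [Fintype ι] {S : Finset (ι → ℕ)} {c : (ι → ℕ) → ℂ}

/-- **the key estimate, argument version.** -/
theorem keyM {κ B : ℝ} (hκ : 0 < κ) {x : ι → ℂ}
    (hB : ∀ i, x i ≠ 0 → B ≤ lg x i) (hB0 : 0 ≤ B) (hC : ∑ v ∈ S, ‖c v‖ < B * κ)
    {i₀ : ι} (hi₀ : 0 < ‖pd S c i₀ x‖) (hM : ∀ v ∈ S, κ * ‖mo v x‖ ≤ ‖pd S c i₀ x‖)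
    {r : ι → ℝ} (hr : ∀ i, 0 ≤ r i) {m : ℝ}
    (hl : ∀ i, pd S c i x = (Complex.I * m * poly S c x) * r i) : False := by
  set F := poly S c x with hF
  set P := ‖pd S c i₀ x‖ / κ with hP
  have hPpos : 0 < P := div_pos hi₀ hκ
  have hMP : ∀ v ∈ S, ‖mo v x‖ ≤ P := fun v hv => by
    rw [hP, le_div_iff₀ hκ, mul_comm]; exact hM v hv
  have e1 : ∑ i, (lg x i : ℂ) * pd S c i x + (Real.log P : ℂ) * F =
      ∑ v ∈ S, (((∑ i, (v i : ℝ) * lg x i) + Real.log P : ℝ) : ℂ) * (c v * mo v x) := by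
    have e2 : ∑ v ∈ S, (((∑ i, (v i : ℝ) * lg x i) + Real.log P : ℝ) : ℂ) * (c v * mo v x) =
        ∑ v ∈ S, ((∑ i, (v i : ℝ) * lg x i : ℝ) : ℂ) * (c v * mo v x) +
          (Real.log P : ℂ) * F := by
      rw [hF]
      unfold poly
      rw [Finset.mul_sum, ← Finset.sum_add_distrib]
      refine Finset.sum_congr rfl fun v _ => ?_
      push_cast; ring
    rw [e2]
    congr 1
    unfold pd
    simp only [Finset.mul_sum]
    rw [Finset.sum_comm]
    refine Finset.sum_congr rfl fun v _ => ?_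
    push_cast
    rw [Finset.sum_mul]
    exact Finset.sum_congr rfl fun i _ => by ring
  have e3 : ‖∑ i, (lg x i : ℂ) * pd S c i x + (Real.log P : ℂ) * F‖ ≤ (∑ v ∈ S, ‖c v‖) * P := by
    rw [e1, Finset.sum_mul]
    refine (norm_sum_le _ _).trans (Finset.sum_le_sum fun v hv => ?_)
    by_cases hv0 : mo v x = 0
    · rw [hv0, mul_zero, mul_zero, norm_zero]; positivity
    · rw [mo_log hv0, norm_mul, norm_mul, Complex.norm_real, Real.norm_eq_abs]
      have h1 := log_bound (norm_pos_iff.2 hv0) (hMP v hv)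
      have h2 : |(-Real.log ‖mo v x‖ + Real.log P)| = |Real.log P - Real.log ‖mo v x‖| := by
        congr 1; ring
      rw [h2]
      calc |Real.log P - Real.log ‖mo v x‖| * (‖c v‖ * ‖mo v x‖)
          = ‖c v‖ * (|Real.log P - Real.log ‖mo v x‖| * ‖mo v x‖) := by ring
        _ ≤ ‖c v‖ * P := mul_le_mul_of_nonneg_left h1 (norm_nonneg _)
  have hlg : ∀ i, 0 ≤ lg x i := by
    intro i
    by_cases hi : x i = 0
    · unfold lg; rw [hi]; simp
    · exact hB0.trans (hB i hi)
  set R := ∑ i, lg x i * r i with hR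
  have e4 : ∑ i, (lg x i : ℂ) * pd S c i x + (Real.log P : ℂ) * F =
      F * (((Real.log P : ℝ) : ℂ) + ((m * R : ℝ) : ℂ) * Complex.I) := by
    have : ∑ i, (lg x i : ℂ) * pd S c i x = F * (((m * R : ℝ) : ℂ) * Complex.I) := by
      rw [hR]
      push_cast
      rw [Finset.mul_sum, Finset.sum_mul, Finset.mul_sum]
      refine Finset.sum_congr rfl fun i _ => ?_
      rw [hl]; ring
    rw [this]; ring
  have e5 : lg x i₀ * r i₀ ≤ R :=
    Finset.single_le_sum (f := fun i => lg x i * r i)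
      (fun i _ => mul_nonneg (hlg i) (hr i)) (Finset.mem_univ i₀)
  have hx0 : x i₀ ≠ 0 := by
    intro hx
    apply hi₀.ne'
    rw [norm_eq_zero]
    unfold pd
    refine Finset.sum_eq_zero fun v _ => ?_
    by_cases hv : v i₀ = 0
    · rw [hv]; simp
    · have : mo v x = 0 := by
        unfold mo
        exact Finset.prod_eq_zero (Finset.mem_univ i₀) (by rw [hx, zero_pow hv])
      rw [this]; simp
  have hR0 : 0 ≤ R := Finset.sum_nonneg fun i _ => mul_nonneg (hlg i) (hr i)
  have e6 : B * ‖pd S c i₀ x‖ ≤ ‖∑ i, (lg x i : ℂ) * pd S c i x + (Real.log P : ℂ) * F‖ := by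
    have h1 : |m * R| ≤ ‖(((Real.log P : ℝ) : ℂ) + ((m * R : ℝ) : ℂ) * Complex.I)‖ := by
      have := Complex.abs_im_le_norm (((Real.log P : ℝ) : ℂ) + ((m * R : ℝ) : ℂ) * Complex.I)
      simpa using this
    have h2 : ‖pd S c i₀ x‖ = |m| * ‖F‖ * r i₀ := by
      rw [hl i₀, norm_mul, norm_mul, norm_mul, Complex.norm_I, one_mul, Complex.norm_real,
        Complex.norm_real, Real.norm_eq_abs, Real.norm_eq_abs, abs_of_nonneg (hr i₀)]
    rw [e4, norm_mul, h2]
    calc B * (|m| * ‖F‖ * r i₀) = ‖F‖ * (|m| * (B * r i₀)) := by ring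
      _ ≤ ‖F‖ * (|m| * (lg x i₀ * r i₀)) := by
          gcongr
          · exact hr i₀
          · exact hB i₀ hx0
      _ ≤ ‖F‖ * (|m| * R) := by gcongr
      _ = ‖F‖ * |m * R| := by rw [abs_mul, abs_of_nonneg hR0]
      _ ≤ _ := mul_le_mul_of_nonneg_left h1 (norm_nonneg _)
  have e7 : ‖pd S c i₀ x‖ = κ * P := by rw [hP]; field_simp
  rw [e7] at e6
  have e8 := e6.trans e3
  have e9 : (B * κ) * P ≤ (∑ v ∈ S, ‖c v‖) * P := by linarith [e8]
  exact absurd (le_of_mul_le_mul_right e9 hPpos) (not_le.2 hC)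

/-- if the imaginary part of a complex linear functional vanishes on a real hyperplane. -/
theorem exists_im {L : (ι → ℂ) →ₗ[ℂ] ℂ} {u : ι → ℂ} (hu : nsq u = 1)
    (h : ¬ ∃ m : ℝ, ∀ y, L y = (Complex.I * m) * ∑ i, (starRingEnd ℂ) (u i) * y i) (b : ℝ) :
    ∃ y : ι → ℂ, ip u y = 0 ∧ (L y).im = b := by
  have hip : ∀ y : ι → ℂ, ip u y = (∑ i, (starRingEnd ℂ) (u i) * y i).re := by
    intro y
    unfold ip
    rw [Complex.re_sum]
    refine Finset.sum_congr rfl fun i _ => ?_
    rw [Complex.inner]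
    congr 1
    ring
  have hex : ∃ y : ι → ℂ, ip u y = 0 ∧ (L y).im ≠ 0 := by
    by_contra hn
    push Not at hn
    apply h
    -- the functional is `m • ip u`
    set m : ℝ := (L u).im with hm
    have h1 : ∀ y, (L y).im = m * ip u y := by
      intro y
      have h2 : ip u (y - (ip u y : ℂ) • u) = 0 := by
        rw [hip, hip]
        have h3 : ∑ i, (starRingEnd ℂ) (u i) * (y - (((∑ i, (starRingEnd ℂ) (u i) * y i).re : ℝ) : ℂ)
            • u) i = ∑ i, (starRingEnd ℂ) (u i) * y i -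
              (((∑ i, (starRingEnd ℂ) (u i) * y i).re : ℝ) : ℂ) *
                ∑ i, (starRingEnd ℂ) (u i) * u i := by
          rw [Finset.mul_sum, ← Finset.sum_sub_distrib]
          refine Finset.sum_congr rfl fun i _ => ?_
          simp only [Pi.sub_apply, Pi.smul_apply, smul_eq_mul]
          ring
        have h4 : ∑ i, (starRingEnd ℂ) (u i) * u i = 1 := by
          have h1 : ∀ i, (starRingEnd ℂ) (u i) * u i = ((‖u i‖ ^ 2 : ℝ) : ℂ) := by
            intro i
            rw [mul_comm, Complex.mul_conj, Complex.normSq_eq_norm_sq]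
          simp only [h1]
          rw [← Complex.ofReal_sum]
          have : ∑ i, ‖u i‖ ^ 2 = 1 := hu
          rw [this, Complex.ofReal_one]
        rw [h3, h4, mul_one, Complex.sub_re, Complex.ofReal_re, sub_self]
      have h5 := hn _ h2
      rw [map_sub, map_smul, smul_eq_mul, Complex.sub_im, Complex.im_ofReal_mul] at h5
      rw [hm]
      linarith
    refine ⟨m, fun y => ?_⟩
    apply Complex.ext
    · have h6 := h1 (Complex.I • y)
      rw [map_smul, smul_eq_mul, Complex.I_mul_im, hip] at h6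
      have h7 : ∑ i, (starRingEnd ℂ) (u i) * (Complex.I • y) i =
          Complex.I * ∑ i, (starRingEnd ℂ) (u i) * y i := by
        rw [Finset.mul_sum]
        refine Finset.sum_congr rfl fun i _ => ?_
        simp only [Pi.smul_apply, smul_eq_mul]; ring
      rw [h7, Complex.I_mul_re] at h6
      rw [h6]
      simp
    · rw [h1, hip]
      simp
  obtain ⟨y, hy1, hy2⟩ := hex
  refine ⟨((b / (L y).im : ℝ) : ℂ) • y, ?_, ?_⟩
  · rw [hip] at hy1 ⊢
    have : ∑ i, (starRingEnd ℂ) (u i) * (((b / (L y).im : ℝ) : ℂ) • y) i =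
        ((b / (L y).im : ℝ) : ℂ) * ∑ i, (starRingEnd ℂ) (u i) * y i := by
      rw [Finset.mul_sum]
      refine Finset.sum_congr rfl fun i _ => ?_
      simp only [Pi.smul_apply, smul_eq_mul]; ring
    rw [this, Complex.re_ofReal_mul, hy1, mul_zero]
  · rw [map_smul, smul_eq_mul, Complex.im_ofReal_mul]
    field_simp

/-- **Milnor condition**: `arg F` is a submersion on small ellipsoids. -/
theorem milnor (h : ND S c) : ∃ δ > 0, ∀ d : ι → ℝ, (∀ i, 0 < d i) → (∀ i, d i < δ) →
    ∀ u : ι → ℂ, nsq u = 1 → poly S c (dil d u) ≠ 0 → ∀ b : ℝ, ∃ y : ι → ℂ, ip u y = 0 ∧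
      (fderiv ℝ (poly S c) (dil d u) (dil d y) / poly S c (dil d u)).im = b := by
  classical
  obtain ⟨κ, hκ, δ₀, hδ₀, hND⟩ := h
  set C := ∑ v ∈ S, ‖c v‖ with hC
  have hC0 : 0 ≤ C := Finset.sum_nonneg fun _ _ => norm_nonneg _
  set B := (C + 1) / κ with hB
  have hBpos : 0 < B := div_pos (by linarith) hκ
  refine ⟨min δ₀ (Real.exp (-B)), lt_min hδ₀ (Real.exp_pos _), fun d hd0 hd u hu hFu b => ?_⟩
  set x := dil d u with hx
  have hui : ∀ i, ‖u i‖ ≤ 1 := by
    intro i
    have h1 : ‖u i‖ ^ 2 ≤ 1 := by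
      have := Finset.single_le_sum (f := fun i => ‖u i‖ ^ 2) (fun _ _ => by positivity)
        (Finset.mem_univ i)
      have hu' : ∑ i, ‖u i‖ ^ 2 = 1 := hu
      rwa [hu'] at this
    nlinarith [norm_nonneg (u i)]
  have hxi : ∀ i, ‖x i‖ ≤ d i := by
    intro i
    rw [hx]
    unfold dil
    rw [norm_mul, Complex.norm_real, Real.norm_eq_abs, abs_of_pos (hd0 i)]
    calc d i * ‖u i‖ ≤ d i * 1 := mul_le_mul_of_nonneg_left (hui i) (hd0 i).le
      _ = d i := mul_one _
  have hx0 : x ≠ 0 := by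
    intro h0
    have hu0 : u = 0 := by
      funext i
      have h1 := congrFun h0 i
      rw [hx] at h1
      unfold dil at h1
      have h2 : (d i : ℂ) ≠ 0 := by exact_mod_cast (hd0 i).ne'
      exact (mul_eq_zero.1 h1).resolve_left h2
    rw [hu0] at hu
    simp [nsq] at hu
  have hne : Nonempty ι := by
    by_contra hn
    rw [not_nonempty_iff] at hn
    exact hx0 (Subsingleton.elim _ _)
  have hxn : ‖x‖ < δ₀ := by
    obtain ⟨j, hj⟩ := Finite.exists_max fun i => ‖x i‖
    have h1 : ‖x‖ ≤ ‖x j‖ := (pi_norm_le_iff_of_nonneg (norm_nonneg _)).2 hj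
    exact h1.trans_lt ((hxi j).trans_lt ((hd j).trans_le (min_le_left _ _)))
  obtain ⟨i₀, hi₀, hM⟩ := hND x hx0 hxn
  have hdiff : DifferentiableAt ℂ (poly S c) x := (contDiff_poly (n := 1)).differentiable
    (by norm_num) x
  have hre : fderiv ℝ (poly S c) x = (fderiv ℂ (poly S c) x).restrictScalars ℝ :=
    (hdiff.hasFDerivAt.restrictScalars ℝ).fderiv
  let L : (ι → ℂ) →ₗ[ℂ] ℂ :=
    { toFun := fun y => fderiv ℂ (poly S c) x (dil d y) / poly S c x
      map_add' := fun y z => by
        have : dil d (y + z) = dil d y + dil d z := by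
          funext i; simp [dil, mul_add]
        rw [this, map_add, add_div]
      map_smul' := fun a y => by
        have : dil d (a • y) = a • dil d y := by
          funext i; simp only [dil, Pi.smul_apply, smul_eq_mul]; ring
        rw [this, map_smul, smul_eq_mul, mul_div_assoc]; rfl }
  have hL : ∀ y, L y = fderiv ℂ (poly S c) x (dil d y) / poly S c x := fun _ => rfl
  by_cases hcase : ∃ m : ℝ, ∀ y, L y = (Complex.I * m) * ∑ i, (starRingEnd ℂ) (u i) * y i
  · exfalso
    obtain ⟨m, hm⟩ := hcase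
    refine keyM (S := S) (c := c) hκ (x := x) (B := B) (fun i hi => ?_) hBpos.le ?_ hi₀ hM
      (r := fun i => ‖u i‖ ^ 2) (fun i => by positivity) (m := m) (fun i => ?_)
    · unfold lg
      have h1 : ‖x i‖ ≤ Real.exp (-B) :=
        (hxi i).trans ((hd i).le.trans (min_le_right _ _))
      have h2 := (Real.log_le_log_iff (norm_pos_iff.2 hi) (Real.exp_pos _)).2 h1
      rw [Real.log_exp] at h2
      linarith
    · rw [← hC, hB]
      field_simp
      linarith
    · have h1 := fderiv_poly (S := S) (c := c) x (Pi.single i 1)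
      have h2 : ∑ j, (Pi.single i (1 : ℂ) : ι → ℂ) j * pd S c j x = pd S c i x := by
        rw [Finset.sum_eq_single i]
        · simp
        · intro j _ hj; rw [Pi.single_eq_of_ne hj, zero_mul]
        · intro h; exact absurd (Finset.mem_univ i) h
      rw [h2] at h1
      rw [← h1]
      have h3 : (fun j => x j * (Pi.single i (1 : ℂ) : ι → ℂ) j) =
          dil d (Pi.single i (u i)) := by
        funext j
        by_cases hj : j = i
        · subst hj; simp [dil, hx]
        · simp [dil, Pi.single_eq_of_ne hj]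
      have h4 : fderiv ℂ (poly S c) x (dil d (Pi.single i (u i))) =
          L (Pi.single i (u i)) * poly S c x := by
        rw [hL, div_mul_cancel₀ _ hFu]
      rw [h3, h4, hm]
      have h5 : ∑ j, (starRingEnd ℂ) (u j) * (Pi.single i (u i) : ι → ℂ) j =
          ((‖u i‖ ^ 2 : ℝ) : ℂ) := by
        rw [Finset.sum_eq_single i]
        · rw [Pi.single_eq_same, mul_comm, Complex.mul_conj, Complex.normSq_eq_norm_sq]
        · intro j _ hj; rw [Pi.single_eq_of_ne hj, mul_zero]
        · intro h; exact absurd (Finset.mem_univ i) h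
      rw [h5]; ring
  · obtain ⟨y, hy1, hy2⟩ := exists_im hu hcase b
    refine ⟨y, hy1, ?_⟩
    rw [hre, ContinuousLinearMap.coe_restrictScalars', ← hy2, hL]

/-- `x ↦ |x| F (d x / |x|)` is a submersion on the sphere: radial plus tangential directions. -/
theorem mreg (h : ND S c) : ∃ δ > 0, ∀ d : ι → ℝ, (∀ i, 0 < d i) → (∀ i, d i < δ) →
    ∀ u : ι → ℂ, nsq u = 1 → ∀ b : ℂ, ∃ (s : ℝ) (y : ι → ℂ), ip u y = 0 ∧
      s * poly S c (dil d u) + fderiv ℝ (poly S c) (dil d u) (dil d y) = b := by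
  obtain ⟨δ₁, hδ₁, h1⟩ := milnor h
  obtain ⟨δ₂, hδ₂, h2⟩ := reg_of_nd h
  refine ⟨min δ₁ δ₂, lt_min hδ₁ hδ₂, fun d hd0 hd u hu b => ?_⟩
  by_cases hF : poly S c (dil d u) = 0
  · obtain ⟨y, hy, hy'⟩ := h2 d hd0 (fun i => (hd i).trans_le (min_le_right _ _)) u hu hF b
    exact ⟨0, y, hy, by rw [hy', Complex.ofReal_zero, zero_mul, zero_add]⟩
  · obtain ⟨y, hy, hy'⟩ := h1 d hd0 (fun i => (hd i).trans_le (min_le_left _ _)) u hu hF
      (b / poly S c (dil d u)).im
    set F := poly S c (dil d u) with hFdef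
    set D := fderiv ℝ (poly S c) (dil d u) (dil d y) with hD
    refine ⟨(b / F).re - (D / F).re, y, hy, ?_⟩
    have h3 : ((((b / F).re - (D / F).re : ℝ) : ℂ)) + D / F = b / F := by
      apply Complex.ext
      · simp
      · simp [hy']
    calc (((b / F).re - (D / F).re : ℝ) : ℂ) * F + D
        = ((((b / F).re - (D / F).re : ℝ) : ℂ) + D / F) * F := by
          rw [add_mul, div_mul_cancel₀ _ hF]
      _ = b := by rw [h3, div_mul_cancel₀ _ hF]

end Crest.Agent.R267.NdM_484
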