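import Mathlib
import Crest.Agent.R267.NdE_484
import Crest.Agent.R267.NdM_484

/-!
# S0406, package T3N: uniform Newton nondegeneracy (helper484)

* `NDu κ δ S c` : `ND` with explicit constants;
* `nd_unif` : for a compact family of coefficients the constants are uniform;
* `reg_pt`, `mil_pt` : pointwise regularity of `F`, resp. of `arg F`, on every real hyperplane
  `∑ λ_i Re (conj x_i y_i) = 0` with `λ_i ≥ 0` (so for spheres, ellipsoids, boxes, ...).
-/

set_option autoImplicit false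
set_option linter.unusedSectionVars false

noncomputable section

open Set Filter Topology Finset
open Crest.Agent.R267.Cone_808 Crest.Agent.R267.SphReg_808 Crest.Agent.R267.NdB_484
open Crest.Agent.R267.NdC_484 Crest.Agent.R267.NdE_484 Crest.Agent.R267.NdM_484

namespace Crest.Agent.R267.NdU_484

variable {ι : Type*} [Fintype ι]

/-- `ND` with explicit constants. -/
def NDu (κ δ : ℝ) (S : Finset (ι → ℕ)) (c : (ι → ℕ) → ℂ) : Prop :=
  ∀ x : ι → ℂ, x ≠ 0 → ‖x‖ < δ →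
    ∃ i, 0 < ‖pd S c i x‖ ∧ ∀ v ∈ S, κ * ‖mo v x‖ ≤ ‖pd S c i x‖

variable {S : Finset (ι → ℕ)} {c : (ι → ℕ) → ℂ}

theorem NDu.mono {κ δ κ' δ' : ℝ} (h : NDu κ δ S c) (hκ : κ' ≤ κ) (hδ : δ' ≤ δ) :
    NDu κ' δ' S c := by
  intro x hx hxd
  obtain ⟨i, hi, hM⟩ := h x hx (hxd.trans_le hδ)
  exact ⟨i, hi, fun v hv => (mul_le_mul_of_nonneg_right hκ (norm_nonneg _)).trans (hM v hv)⟩

theorem NDu.nd {κ δ : ℝ} (hκ : 0 < κ) (hδ : 0 < δ) (h : NDu κ δ S c) : ND S c :=
  ⟨κ, hκ, δ, hδ, h⟩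

/-- **uniform criterion.** -/
theorem nd_unif {T : Type*} [TopologicalSpace T] [CompactSpace T] [FirstCountableTopology T]
    {C : T → (ι → ℕ) → ℂ} (hC : ∀ v ∈ S, Continuous fun t => C t v)
    (hconv : ∀ x : ι → ℂ, x ≠ 0 → ∃ v ∈ S, mo v x ≠ 0)
    (h : ∀ (t : T) (Ξ : (ι → ℕ) → ℂ), ¬ Lim S (C t) Ξ) :
    ∃ κ > 0, ∃ δ > 0, ∀ t, NDu κ δ S (C t) := by
  classical
  by_contra hn
  unfold NDu at hn
  push Not at hn
  have key : ∀ n : ℕ, ∃ (t : T) (x : ι → ℂ), x ≠ 0 ∧ ‖x‖ < 1 / ((n : ℝ) + 1) ∧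
      ∀ i, 0 < ‖pd S (C t) i x‖ →
        ∃ v ∈ S, ‖pd S (C t) i x‖ < 1 / ((n : ℝ) + 1) * ‖mo v x‖ := by
    intro n
    have hp : 0 < 1 / ((n : ℝ) + 1) := by positivity
    obtain ⟨t, ht⟩ := hn _ hp _ hp
    exact ⟨t, ht⟩
  choose t x hx0 hx1 hx2 using key
  have hmax : ∀ n, ∃ v ∈ S, ∀ w ∈ S, ‖mo w (x n)‖ ≤ ‖mo v (x n)‖ := by
    intro n
    obtain ⟨v, hv, -⟩ := hconv (x n) (hx0 n)
    obtain ⟨w, hw, hw'⟩ := S.exists_max_image (fun v => ‖mo v (x n)‖) ⟨v, hv⟩
    exact ⟨w, hw, hw'⟩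
  choose vm hvm hvmax using hmax
  set M : ℕ → ℝ := fun n => ‖mo (vm n) (x n)‖ with hMdef
  have hM : ∀ n, 0 < M n := by
    intro n
    obtain ⟨v, hv, hv0⟩ := hconv (x n) (hx0 n)
    exact (norm_pos_iff.2 hv0).trans_le (hvmax n v hv)
  let Y : ℕ → ({v // v ∈ S} → ℂ) := fun n v => mo v.1 (x n) / (M n : ℂ)
  have hY : ∀ n, Y n ∈ Metric.closedBall (0 : {v // v ∈ S} → ℂ) 1 := by
    intro n
    rw [mem_closedBall_zero_iff, pi_norm_le_iff_of_nonneg zero_le_one]
    intro v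
    change ‖mo v.1 (x n) / (M n : ℂ)‖ ≤ 1
    rw [norm_div, Complex.norm_real, Real.norm_eq_abs, abs_of_pos (hM n), div_le_one (hM n)]
    exact hvmax n v.1 v.2
  obtain ⟨t0, -, φ, hφ, ht0⟩ := (isCompact_univ (X := T)).tendsto_subseq fun n => mem_univ (t n)
  obtain ⟨Z, -, ψ, hψ, hZ⟩ := (isCompact_closedBall (0 : {v // v ∈ S} → ℂ) 1).tendsto_subseq
    fun n => hY (φ n)
  have hxt : Tendsto x atTop (𝓝 0) := by
    rw [tendsto_zero_iff_norm_tendsto_zero]
    exact squeeze_zero (fun n => norm_nonneg _) (fun n => (hx1 n).le)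
      tendsto_one_div_add_atTop_nhds_zero_nat
  have hpd : ∀ n i, ‖pd S (C (t n)) i (x n)‖ / M n ≤ 1 / ((n : ℝ) + 1) := by
    intro n i
    rw [div_le_iff₀ (hM n)]
    rcases (norm_nonneg (pd S (C (t n)) i (x n))).eq_or_lt with h0 | h0
    · rw [← h0]; exact mul_nonneg (by positivity) (hM n).le
    · obtain ⟨v, hv, hv'⟩ := hx2 n i h0
      exact hv'.le.trans (mul_le_mul_of_nonneg_left (hvmax n v hv) (by positivity))
  have hφψ : Tendsto (fun n => φ (ψ n)) atTop atTop := hφ.tendsto_atTop.comp hψ.tendsto_atTop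
  refine h t0 (fun v => if hv : v ∈ S then Z ⟨v, hv⟩ else 0) ⟨fun n => x (φ (ψ n)),
    fun n => M (φ (ψ n)),
    hxt.comp hφψ, fun n => hx0 _, fun n => hM _, fun n v hv => hvmax _ v hv,
    fun n => ⟨vm (φ (ψ n)), hvm _, rfl⟩, fun v hv => ?_, fun i => ?_⟩
  · rw [dif_pos hv]
    exact (tendsto_pi_nhds.1 hZ) ⟨v, hv⟩
  · -- compare the coefficients `C (t n)` with `C t0`
    have h1 : Tendsto (fun n => ‖pd S (C (t n)) i (x n)‖ / M n) atTop (𝓝 0) :=
      squeeze_zero (fun n => div_nonneg (norm_nonneg _) (hM n).le) (fun n => hpd n i)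
        tendsto_one_div_add_atTop_nhds_zero_nat
    have h2 := h1.comp hφψ
    have ht : Tendsto (fun n => t (φ (ψ n))) atTop (𝓝 t0) := ht0.comp hψ.tendsto_atTop
    have h3 : Tendsto (fun n => ∑ v ∈ S, (v i : ℝ) * ‖C t0 v - C (t (φ (ψ n))) v‖) atTop
        (𝓝 0) := by
      have h4 : Tendsto (fun n => ∑ v ∈ S, (v i : ℝ) * ‖C t0 v - C (t (φ (ψ n))) v‖) atTop
          (𝓝 (∑ v ∈ S, (v i : ℝ) * ‖C t0 v - C t0 v‖)) := by
        refine tendsto_finsetSum _ fun v hv => Tendsto.const_mul _ (Tendsto.norm ?_)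
        exact tendsto_const_nhds.sub (((hC v hv).tendsto t0).comp ht)
      simpa using h4
    refine squeeze_zero (fun n => div_nonneg (norm_nonneg _) (hM _).le) (fun n => ?_)
      (by simpa using h2.add h3)
    change ‖pd S (C t0) i (x (φ (ψ n)))‖ / M (φ (ψ n)) ≤
      ‖pd S (C (t (φ (ψ n)))) i (x (φ (ψ n)))‖ / M (φ (ψ n)) +
        ∑ v ∈ S, (v i : ℝ) * ‖C t0 v - C (t (φ (ψ n))) v‖
    set m := φ (ψ n) with hm
    have h5 : pd S (C t0) i (x m) - pd S (C (t m)) i (x m) =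
        ∑ v ∈ S, (v i : ℂ) * ((C t0 v - C (t m) v) * mo v (x m)) := by
      unfold pd
      rw [← Finset.sum_sub_distrib]
      exact Finset.sum_congr rfl fun v _ => by ring
    have h6 : ‖pd S (C t0) i (x m) - pd S (C (t m)) i (x m)‖ ≤
        (∑ v ∈ S, (v i : ℝ) * ‖C t0 v - C (t m) v‖) * M m := by
      rw [h5, Finset.sum_mul]
      refine (norm_sum_le _ _).trans (Finset.sum_le_sum fun v hv => ?_)
      rw [norm_mul, norm_mul, Complex.norm_natCast, ← mul_assoc]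
      exact mul_le_mul_of_nonneg_left (hvmax m v hv) (by positivity)
    have h7 : ‖pd S (C t0) i (x m)‖ ≤ ‖pd S (C (t m)) i (x m)‖ +
        ‖pd S (C t0) i (x m) - pd S (C (t m)) i (x m)‖ := by
      have := norm_add_le (pd S (C (t m)) i (x m))
        (pd S (C t0) i (x m) - pd S (C (t m)) i (x m))
      rwa [add_sub_cancel] at this
    rw [div_le_iff₀ (hM m), add_mul, div_mul_cancel₀ _ (hM m).ne']
    linarith

/-- real hyperplane with conormal `λ_i conj x_i`. -/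
def hyp (lam : ι → ℝ) (x y : ι → ℂ) : ℝ := ∑ i, lam i * ((starRingEnd ℂ) (x i) * y i).re

/-- the complex form. -/
def chyp (lam : ι → ℝ) (x y : ι → ℂ) : ℂ := ∑ i, (lam i : ℂ) * ((starRingEnd ℂ) (x i) * y i)

theorem chyp_re (lam : ι → ℝ) (x y : ι → ℂ) : (chyp lam x y).re = hyp lam x y := by
  unfold chyp hyp
  rw [Complex.re_sum]
  exact Finset.sum_congr rfl fun i _ => by rw [Complex.re_ofReal_mul]

theorem chyp_smul (lam : ι → ℝ) (x : ι → ℂ) (a : ℂ) (y : ι → ℂ) :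
    chyp lam x (a • y) = a * chyp lam x y := by
  unfold chyp
  rw [Finset.mul_sum]
  refine Finset.sum_congr rfl fun i _ => ?_
  simp only [Pi.smul_apply, smul_eq_mul]; ring

theorem chyp_add (lam : ι → ℝ) (x y z : ι → ℂ) :
    chyp lam x (y + z) = chyp lam x y + chyp lam x z := by
  unfold chyp
  rw [← Finset.sum_add_distrib]
  refine Finset.sum_congr rfl fun i _ => ?_
  simp only [Pi.add_apply]; ring

/-- a complex linear functional, a complex form `h`: onto on `Re h = 0` unless `L = l h`. -/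
theorem onto_of {V : Type*} [AddCommGroup V] [Module ℂ V] (L h : V →ₗ[ℂ] ℂ)
    (hne : ¬ ∃ l : ℂ, ∀ y, L y = l * h y) (b : ℂ) : ∃ y, h y = 0 ∧ L y = b := by
  have hex : ∃ y, h y = 0 ∧ L y ≠ 0 := by
    by_contra hn
    push Not at hn
    apply hne
    by_cases hh : ∃ u, h u ≠ 0
    · obtain ⟨u, hu⟩ := hh
      refine ⟨L u / h u, fun y => ?_⟩
      have h1 : h (y - (h y / h u) • u) = 0 := by
        rw [map_sub, map_smul, smul_eq_mul, div_mul_cancel₀ _ hu, sub_self]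
      have h2 := hn _ h1
      rw [map_sub, map_smul, smul_eq_mul, sub_eq_zero] at h2
      rw [h2]; ring
    · push Not at hh
      refine ⟨0, fun y => ?_⟩
      rw [hn y (hh y), zero_mul]
  obtain ⟨y, hy1, hy2⟩ := hex
  refine ⟨(b / L y) • y, ?_, ?_⟩
  · rw [map_smul, hy1, smul_zero]
  · rw [map_smul, smul_eq_mul, div_mul_cancel₀ _ hy2]

/-- imaginary part of a complex linear functional on a real hyperplane `Re h = 0`. -/
theorem im_of {V : Type*} [AddCommGroup V] [Module ℂ V] (L h : V →ₗ[ℂ] ℂ)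
    (hne : ¬ ∃ m : ℝ, ∀ y, L y = (Complex.I * m) * h y) (b : ℝ) :
    ∃ y, (h y).re = 0 ∧ (L y).im = b := by
  have hex : ∃ y, (h y).re = 0 ∧ (L y).im ≠ 0 := by
    by_contra hn
    push Not at hn
    apply hne
    by_cases hh : ∃ u, h u ≠ 0
    · obtain ⟨u0, hu0⟩ := hh
      set u := (1 / h u0) • u0 with hu
      have hu1 : h u = 1 := by
        rw [hu, map_smul, smul_eq_mul]; field_simp
      set m : ℝ := (L u).im with hm
      have h1 : ∀ y, (L y).im = m * (h y).re := by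
        intro y
        have h2 : (h (y - (((h y).re : ℝ) : ℂ) • u)).re = 0 := by
          rw [map_sub, map_smul, hu1, smul_eq_mul, mul_one, Complex.sub_re, Complex.ofReal_re,
            sub_self]
        have h5 := hn _ h2
        rw [map_sub, map_smul, smul_eq_mul, Complex.sub_im, Complex.im_ofReal_mul] at h5
        rw [hm]
        linarith
      refine ⟨m, fun y => ?_⟩
      apply Complex.ext
      · have h6 := h1 (Complex.I • y)
        rw [map_smul, map_smul, smul_eq_mul, smul_eq_mul, Complex.I_mul_im, Complex.I_mul_re] at h6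
        rw [h6]
        simp
      · rw [h1]
        simp
    · push Not at hh
      refine ⟨0, fun y => ?_⟩
      rw [hh y, mul_zero]
      have h1 := hn y (by rw [hh y, Complex.zero_re])
      have h2 := hn (Complex.I • y) (by rw [hh, Complex.zero_re])
      rw [map_smul, smul_eq_mul, Complex.I_mul_im] at h2
      exact Complex.ext h2 h1
  obtain ⟨y, hy1, hy2⟩ := hex
  refine ⟨((b / (L y).im : ℝ) : ℂ) • y, ?_, ?_⟩
  · rw [map_smul, smul_eq_mul, Complex.re_ofReal_mul, hy1, mul_zero]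
  · rw [map_smul, smul_eq_mul, Complex.im_ofReal_mul, div_mul_cancel₀ _ hy2]

/-- `chyp` as a linear form. -/
def chypL (lam : ι → ℝ) (x : ι → ℂ) : (ι → ℂ) →ₗ[ℂ] ℂ where
  toFun := chyp lam x
  map_add' := chyp_add lam x
  map_smul' := chyp_smul lam x

/-- `x_i ∂_i F` through the derivative. -/
theorem pd_eq [DecidableEq ι] (x : ι → ℂ) (i : ι) :
    pd S c i x = fderiv ℂ (poly S c) x (Pi.single i (x i)) := by
  have h1 := fderiv_poly (S := S) (c := c) x (Pi.single i 1)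
  have h2 : ∑ j, (Pi.single i (1 : ℂ) : ι → ℂ) j * pd S c j x = pd S c i x := by
    rw [Finset.sum_eq_single i]
    · simp
    · intro j _ hj; rw [Pi.single_eq_of_ne hj, zero_mul]
    · intro h; exact absurd (Finset.mem_univ i) h
  rw [h2] at h1
  rw [← h1]
  congr 1
  funext j
  by_cases hj : j = i
  · subst hj; simp
  · simp [Pi.single_eq_of_ne hj]

theorem chyp_single [DecidableEq ι] (lam : ι → ℝ) (x : ι → ℂ) (i : ι) :
    chyp lam x (Pi.single i (x i)) = ((lam i * ‖x i‖ ^ 2 : ℝ) : ℂ) := by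
  unfold chyp
  rw [Finset.sum_eq_single i]
  · rw [Pi.single_eq_same, mul_comm ((starRingEnd ℂ) (x i)), Complex.mul_conj,
      Complex.normSq_eq_norm_sq]
    push_cast; ring
  · intro j _ hj; rw [Pi.single_eq_of_ne hj]; ring
  · intro h; exact absurd (Finset.mem_univ i) h

theorem re_fderiv (x : ι → ℂ) :
    fderiv ℝ (poly S c) x = (fderiv ℂ (poly S c) x).restrictScalars ℝ := by
  have hdiff : DifferentiableAt ℂ (poly S c) x := (contDiff_poly (n := 1)).differentiable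
    (by norm_num) x
  exact (hdiff.hasFDerivAt.restrictScalars ℝ).fderiv

section pt

variable {κ δ C : ℝ}

/-- the radius. -/
def rad (κ δ C : ℝ) : ℝ := min δ (Real.exp (-((C + 1) / κ)))

theorem rad_pos (hδ : 0 < δ) : 0 < rad κ δ C := lt_min hδ (Real.exp_pos _)

/-- **pointwise regularity of the zero set.** -/
theorem reg_pt (hκ : 0 < κ) (h : NDu κ δ S c) (hC : ∑ v ∈ S, ‖c v‖ ≤ C)
    {x : ι → ℂ} (hx0 : x ≠ 0) (hxn : ‖x‖ < rad κ δ C) (hF : poly S c x = 0)
    {lam : ι → ℝ} (hlam : ∀ i, 0 ≤ lam i) (b : ℂ) :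
    ∃ y : ι → ℂ, chyp lam x y = 0 ∧ fderiv ℝ (poly S c) x y = b := by
  classical
  have hC0 : 0 ≤ C := (Finset.sum_nonneg fun _ _ => norm_nonneg _).trans hC
  set B := (C + 1) / κ with hB
  have hBpos : 0 < B := div_pos (by linarith) hκ
  obtain ⟨i₀, hi₀, hM⟩ := h x hx0 (hxn.trans_le (min_le_left _ _))
  by_cases hcase : ∃ l : ℂ, ∀ y, (fderiv ℂ (poly S c) x).toLinearMap y = l * chypL lam x y
  · exfalso
    obtain ⟨l, hl⟩ := hcase
    refine key (S := S) (c := c) hκ (x := x) (B := B) hF (fun i hi => ?_) hBpos.le ?_ hi₀ hM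
      (r := fun i => lam i * ‖x i‖ ^ 2) (fun i => mul_nonneg (hlam i) (by positivity)) (l := l)
      (fun i => ?_)
    · unfold lg
      have h1 : ‖x i‖ ≤ Real.exp (-B) :=
        (norm_le_pi_norm x i).trans (hxn.le.trans (min_le_right _ _))
      have h2 := (Real.log_le_log_iff (norm_pos_iff.2 hi) (Real.exp_pos _)).2 h1
      rw [Real.log_exp] at h2
      linarith
    · rw [hB, div_mul_cancel₀ _ hκ.ne']
      linarith
    · rw [pd_eq]
      have h1 := hl (Pi.single i (x i))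
      change fderiv ℂ (poly S c) x (Pi.single i (x i)) = l * chyp lam x (Pi.single i (x i)) at h1
      rw [h1, chyp_single]
  · obtain ⟨y, hy1, hy2⟩ := onto_of _ _ hcase b
    exact ⟨y, hy1, by rw [re_fderiv]; exact hy2⟩

/-- **pointwise Milnor condition.** -/
theorem mil_pt (hκ : 0 < κ) (h : NDu κ δ S c) (hC : ∑ v ∈ S, ‖c v‖ ≤ C)
    {x : ι → ℂ} (hx0 : x ≠ 0) (hxn : ‖x‖ < rad κ δ C) (hF : poly S c x ≠ 0)
    {lam : ι → ℝ} (hlam : ∀ i, 0 ≤ lam i) (b : ℝ) :
    ∃ y : ι → ℂ, hyp lam x y = 0 ∧ (fderiv ℝ (poly S c) x y / poly S c x).im = b := by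
  classical
  have hC0 : 0 ≤ C := (Finset.sum_nonneg fun _ _ => norm_nonneg _).trans hC
  set B := (C + 1) / κ with hB
  have hBpos : 0 < B := div_pos (by linarith) hκ
  obtain ⟨i₀, hi₀, hM⟩ := h x hx0 (hxn.trans_le (min_le_left _ _))
  let L : (ι → ℂ) →ₗ[ℂ] ℂ := (poly S c x)⁻¹ • (fderiv ℂ (poly S c) x).toLinearMap
  have hL : ∀ y, L y = (poly S c x)⁻¹ * fderiv ℂ (poly S c) x y := fun _ => rfl
  by_cases hcase : ∃ m : ℝ, ∀ y, L y = (Complex.I * m) * chypL lam x y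
  · exfalso
    obtain ⟨m, hm⟩ := hcase
    refine keyM (S := S) (c := c) hκ (x := x) (B := B) (fun i hi => ?_) hBpos.le ?_ hi₀ hM
      (r := fun i => lam i * ‖x i‖ ^ 2) (fun i => mul_nonneg (hlam i) (by positivity)) (m := m)
      (fun i => ?_)
    · unfold lg
      have h1 : ‖x i‖ ≤ Real.exp (-B) :=
        (norm_le_pi_norm x i).trans (hxn.le.trans (min_le_right _ _))
      have h2 := (Real.log_le_log_iff (norm_pos_iff.2 hi) (Real.exp_pos _)).2 h1
      rw [Real.log_exp] at h2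
      linarith
    · rw [hB, div_mul_cancel₀ _ hκ.ne']
      linarith
    · rw [pd_eq]
      have h1 := hm (Pi.single i (x i))
      rw [hL] at h1
      change _ = (Complex.I * m) * chyp lam x (Pi.single i (x i)) at h1
      rw [chyp_single] at h1
      rw [← mul_inv_cancel_left₀ hF (fderiv ℂ (poly S c) x (Pi.single i (x i))), h1]
      ring
  · obtain ⟨y, hy1, hy2⟩ := im_of _ _ hcase b
    refine ⟨y, ?_, ?_⟩
    · rw [← chyp_re]; exact hy1
    · rw [re_fderiv, ← hy2, hL, ContinuousLinearMap.coe_restrictScalars', div_eq_inv_mul]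

/-- **radial plus tangential derivatives are onto.** -/
theorem mreg_pt (hκ : 0 < κ) (h : NDu κ δ S c) (hC : ∑ v ∈ S, ‖c v‖ ≤ C)
    {x : ι → ℂ} (hx0 : x ≠ 0) (hxn : ‖x‖ < rad κ δ C)
    {lam : ι → ℝ} (hlam : ∀ i, 0 ≤ lam i) (b : ℂ) :
    ∃ (s : ℝ) (y : ι → ℂ), hyp lam x y = 0 ∧
      s * poly S c x + fderiv ℝ (poly S c) x y = b := by
  by_cases hF : poly S c x = 0
  · obtain ⟨y, hy, hy'⟩ := reg_pt hκ h hC hx0 hxn hF hlam b
    refine ⟨0, y, ?_, by rw [hy', Complex.ofReal_zero, zero_mul, zero_add]⟩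
    rw [← chyp_re, hy, Complex.zero_re]
  · obtain ⟨y, hy, hy'⟩ := mil_pt hκ h hC hx0 hxn hF hlam (b / poly S c x).im
    set F := poly S c x with hFdef
    set D := fderiv ℝ (poly S c) x y with hD
    refine ⟨(b / F).re - (D / F).re, y, hy, ?_⟩
    have h3 : ((((b / F).re - (D / F).re : ℝ) : ℂ)) + D / F = b / F := by
      apply Complex.ext
      · simp
      · simp [hy']
    calc (((b / F).re - (D / F).re : ℝ) : ℂ) * F + D
        = ((((b / F).re - (D / F).re : ℝ) : ℂ) + D / F) * F := by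
          rw [add_mul, div_mul_cancel₀ _ hF]
      _ = b := by rw [h3, div_mul_cancel₀ _ hF]

end pt

end Crest.Agent.R267.NdU_484
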