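import Mathlib

/-!
Row 267, node (d): orders of vanishing of polynomial functions.
`order_eq`: if the homogeneous components of `p` vanish below degree `k` but not in degree `k`,
then the iterated derivatives of `x ↦ eval x p` at `0` vanish below order `k` but not at order `k`.
-/

set_option autoImplicit false

namespace Crest.Agent.R267.Order_396

open MvPolynomial

section general

variable {E : Type*} [NormedAddCommGroup E] [NormedSpace ℂ E]

/-- A smooth function homogeneous of degree `d` has vanishing `j`-th derivative at `0`, `j ≠ d`. -/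
theorem iteratedFDeriv_zero_of_hom {F : E → ℂ} {d j : ℕ} (hF : ContDiff ℂ (⊤ : ℕ∞) F)
    (hom : ∀ (t : ℂ) (x : E), F (t • x) = t ^ d * F x) (hj : j ≠ d) :
    iteratedFDeriv ℂ j F 0 = 0 := by
  set g : E →L[ℂ] E := (2 : ℂ) • ContinuousLinearMap.id ℂ E with hg
  have h1 : F ∘ g = fun x => (2 : ℂ) ^ d • F x := by
    funext x
    simp [hg, hom]
  have h2 : iteratedFDeriv ℂ j (F ∘ g) 0
      = (iteratedFDeriv ℂ j F (g 0)).compContinuousLinearMap fun _ => g :=
    g.iteratedFDeriv_comp_right hF 0 (by exact_mod_cast le_top)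
  have h3 : iteratedFDeriv ℂ j (fun x => (2 : ℂ) ^ d • F x) 0
      = (2 : ℂ) ^ d • iteratedFDeriv ℂ j F 0 := by
    have := iteratedFDeriv_const_smul_apply (𝕜 := ℂ) (f := F) (x := (0 : E)) (i := j)
      (a := (2 : ℂ) ^ d) ((hF.of_le (by exact_mod_cast le_top)).contDiffAt)
    exact this
  rw [h1, h3] at h2
  ext m
  have h4 := congrArg (fun T => T m) h2
  simp only [map_zero] at h4
  have h5 : ((iteratedFDeriv ℂ j F 0).compContinuousLinearMap fun _ => g) m
      = (2 : ℂ) ^ j * iteratedFDeriv ℂ j F 0 m := by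
    rw [ContinuousMultilinearMap.compContinuousLinearMap_apply]
    have : (fun i => g (m i)) = fun i => (2 : ℂ) • m i := by
      funext i; simp [hg]
    rw [this, ContinuousMultilinearMap.map_smul_univ]
    simp
  rw [h5] at h4
  have h6 : ((2 : ℂ) ^ d - (2 : ℂ) ^ j) * iteratedFDeriv ℂ j F 0 m = 0 := by
    have : (2 : ℂ) ^ d * iteratedFDeriv ℂ j F 0 m = (2 : ℂ) ^ j * iteratedFDeriv ℂ j F 0 m := by
      simpa using h4
    rw [sub_mul, this, sub_self]
  rcases mul_eq_zero.1 h6 with h | h
  · exfalso
    have h7 : (2 : ℂ) ^ d = (2 : ℂ) ^ j := sub_eq_zero.1 h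
    have h8 : (2 : ℕ) ^ d = 2 ^ j := by exact_mod_cast h7
    exact hj (Nat.pow_right_injective (le_refl 2) h8).symm
  · simpa using h

/-- The `d`-th derivative at `0` of a smooth function homogeneous of degree `d`, on the diagonal. -/
theorem iteratedFDeriv_diag_of_hom {F : E → ℂ} {d : ℕ} (hF : ContDiff ℂ (⊤ : ℕ∞) F)
    (hom : ∀ (t : ℂ) (x : E), F (t • x) = t ^ d * F x) (v : E) :
    iteratedFDeriv ℂ d F 0 (fun _ => v) = (d.factorial : ℂ) * F v := by
  set g : ℂ →L[ℂ] E := ContinuousLinearMap.toSpanSingleton ℂ v with hg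
  have h1 : F ∘ g = fun t => t ^ d * F v := by
    funext t
    simp [hg, hom]
  have h2 : iteratedFDeriv ℂ d (F ∘ g) 0
      = (iteratedFDeriv ℂ d F (g 0)).compContinuousLinearMap fun _ => g :=
    g.iteratedFDeriv_comp_right hF 0 (by exact_mod_cast le_top)
  have h3 := congrArg (fun T => T (fun _ => (1 : ℂ))) h2
  simp only [map_zero, ContinuousMultilinearMap.compContinuousLinearMap_apply] at h3
  have h4 : g 1 = v := by simp [hg]
  rw [h4] at h3
  rw [← h3, h1]
  have h5 : iteratedFDeriv ℂ d (fun t : ℂ => t ^ d * F v) 0 (fun _ => (1 : ℂ))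
      = iteratedDeriv d (fun t : ℂ => t ^ d * F v) 0 := by
    rw [iteratedDeriv_eq_iteratedFDeriv]
  rw [h5]
  rw [iteratedDeriv_mul_const_field, iteratedDeriv_fun_pow_zero]
  simp

end general

variable {n : ℕ}

theorem contDiff_eval (p : MvPolynomial (Fin n) ℂ) :
    ContDiff ℂ (⊤ : ℕ∞) (fun x : Fin n → ℂ => eval x p) := by
  induction p using MvPolynomial.induction_on with
  | C a => simpa using (contDiff_const (c := a))
  | add p q hp hq => simpa using hp.add hq
  | mul_X p i hp =>
    have : ContDiff ℂ (⊤ : ℕ∞) (fun x : Fin n → ℂ => x i) := contDiff_apply ℂ ℂ i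
    simpa using hp.mul this

theorem eval_smul_of_hom {p : MvPolynomial (Fin n) ℂ} {d : ℕ} (hp : p.IsHomogeneous d)
    (t : ℂ) (x : Fin n → ℂ) : eval (t • x) p = t ^ d * eval x p := by
  rw [eval_eq, eval_eq, Finset.mul_sum]
  refine Finset.sum_congr rfl fun m hm => ?_
  have h1 : (∑ i ∈ m.support, m i) = d := by
    have := hp (mem_support_iff.1 hm)
    rw [Finsupp.weight_apply] at this
    simpa [Finsupp.sum] using this
  simp only [Pi.smul_apply, smul_eq_mul, mul_pow]
  rw [Finset.prod_mul_distrib, Finset.prod_pow_eq_pow_sum, h1]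
  ring

/-- The order of vanishing at the origin of a polynomial function. -/
theorem order_eq (p : MvPolynomial (Fin n) ℂ) (k : ℕ)
    (hlow : ∀ j < k, homogeneousComponent j p = 0) (hk : homogeneousComponent k p ≠ 0) :
    (∀ j < k, iteratedFDeriv ℂ j (fun x : Fin n → ℂ => eval x p) 0 = 0) ∧
      iteratedFDeriv ℂ k (fun x : Fin n → ℂ => eval x p) 0 ≠ 0 := by
  classical
  set F : ℕ → (Fin n → ℂ) → ℂ := fun d x => eval x (homogeneousComponent d p) with hFdef
  have hsum : (fun x : Fin n → ℂ => eval x p)
      = fun x => ∑ d ∈ Finset.range (max p.totalDegree k + 1), F d x := by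
    funext x
    have h0 : p = ∑ d ∈ Finset.range (max p.totalDegree k + 1), homogeneousComponent d p := by
      conv_lhs => rw [← sum_homogeneousComponent p]
      refine Finset.sum_subset ?_ ?_
      · intro i hi
        simp only [Finset.mem_range] at hi ⊢
        omega
      · intro i _ hi
        apply homogeneousComponent_eq_zero
        simp only [Finset.mem_range, not_lt] at hi
        omega
    conv_lhs => rw [h0]
    simp [hFdef, map_sum]
  have hC : ∀ d, ContDiff ℂ (⊤ : ℕ∞) (F d) := fun d => contDiff_eval _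
  have hhom : ∀ d (t : ℂ) (x : Fin n → ℂ), F d (t • x) = t ^ d * F d x := fun d t x =>
    eval_smul_of_hom (homogeneousComponent_isHomogeneous d p) t x
  have key : ∀ j ≤ k, iteratedFDeriv ℂ j (fun x : Fin n → ℂ => eval x p) 0
      = iteratedFDeriv ℂ j (F j) 0 := by
    intro j hj
    rw [hsum]
    have h1 : iteratedFDeriv ℂ j
        (fun x => ∑ d ∈ Finset.range (max p.totalDegree k + 1), F d x) 0
        = ∑ d ∈ Finset.range (max p.totalDegree k + 1), iteratedFDeriv ℂ j (F d) 0 := by
      have h2 := iteratedFDeriv_sum (𝕜 := ℂ) (i := j) (f := F)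
        (u := Finset.range (max p.totalDegree k + 1))
        (fun d _ => (hC d).of_le (by exact_mod_cast le_top))
      have h3 := congrFun h2 (0 : Fin n → ℂ)
      simpa using h3
    rw [h1]
    refine Finset.sum_eq_single_of_mem j (Finset.mem_range.2 (by omega)) ?_
    intro d _ hd
    exact iteratedFDeriv_zero_of_hom (hC d) (hhom d) (Ne.symm hd)
  refine ⟨fun j hj => ?_, fun h0 => ?_⟩
  · rw [key j hj.le]
    have : F j = fun _ => 0 := by
      funext x
      simp [hFdef, hlow j hj]
    rw [this]
    simp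
  · rw [key k le_rfl] at h0
    apply hk
    apply MvPolynomial.funext
    intro v
    have h1 := iteratedFDeriv_diag_of_hom (hC k) (hhom k) v
    rw [h0] at h1
    have h2 : (k.factorial : ℂ) ≠ 0 := by exact_mod_cast k.factorial_ne_zero
    have h3 : F k v = 0 := by
      have : (k.factorial : ℂ) * F k v = 0 := by simpa using h1.symm
      exact (mul_eq_zero.1 this).resolve_left h2
    simpa [hFdef] using h3

end Crest.Agent.R267.Order_396
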