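import Crest.Agent.R267.P41_339

/-!
# S0407, package P4, node P4.11: the hyperbolic pair, matrix level (helper61)

For `A = sysMat (F L u q s j)` and its monodromy `T` (`A * T = Aᵀ`) there are integral vectors
`e`, `f` with `eᵗ A T^k e = 0` for all `k` and `eᵗ A T^k f = 0` unless `3 u ∣ k`, in which case
it is the product of the `ell p k`, `p ∈ q` (the pairing of the canonical generator of
`ℤ[ζ_Q]`).
-/

set_option autoImplicit false

namespace Crest.Agent.R267.P411_61

open Matrix Crest.Agent.R267.P4Defs_780 Crest.Agent.R267.P41_339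

/-! ### one chain -/

/-- first basis vector -/
def e0 (c : List ℕ) : Fin (mu c) → ℤ := fun i => if (i : ℕ) = 0 then 1 else 0

lemma e0_eq {c : List ℕ} (h : 0 < mu c) : e0 c = Pi.single (⟨0, h⟩ : Fin (mu c)) 1 := by
  ext i
  unfold e0
  by_cases hi : (i : ℕ) = 0
  · rw [if_pos hi, show i = ⟨0, h⟩ from Fin.ext hi, Pi.single_eq_same]
  · rw [if_neg hi, Pi.single_eq_of_ne]
    intro e; exact hi (by rw [e])

/-- monodromy of one chain: `L * T1 = Lᵀ`. -/
noncomputable def T1 (c : List ℕ) : Matrix (Fin (mu c)) (Fin (mu c)) ℤ :=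
  ((-1 : ℤ) ^ c.length) • compMat c ^ mu c.tail

lemma sign_sq (n : ℕ) : ((-1 : ℤ) ^ n) * ((-1 : ℤ) ^ n) = 1 := by
  rw [← mul_pow]; simp

theorem chain_T1 {a : ℕ} {l : List ℕ} (h : Good (a :: l)) :
    chainMat (a :: l) * T1 (a :: l) = (chainMat (a :: l))ᵀ := by
  unfold T1
  rw [List.tail_cons, Matrix.mul_smul, chain_mono h, smul_smul, List.length_cons, sign_sq,
    one_smul]

/-- pairing of `ω^a` and `T^k ω^b` in one chain -/
noncomputable def q1 (c : List ℕ) (a b k : ℕ) : ℤ :=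
  (compMat c ^ a *ᵥ e0 c) ⬝ᵥ ((chainMat c * T1 c ^ k) *ᵥ (compMat c ^ b *ᵥ e0 c))

/-- pairing of `1` and `ω^n` in `x^r`. -/
def ell (r n : ℕ) : ℤ := if r ∣ n then 1 else if n % r = 1 then -1 else 0

lemma ell_mod (r n : ℕ) : ell r (n % r) = ell r n := by
  unfold ell
  have h : r ∣ n % r ↔ r ∣ n := Nat.dvd_mod_iff dvd_rfl
  simp only [h, Nat.mod_mod]

lemma mu_single (r : ℕ) : mu [r] = r - 1 := by simp [mu]

lemma phi_single {r : ℕ} (h : 2 ≤ r) :
    phi [r] = ∑ i ∈ Finset.range r, (Polynomial.X : Polynomial ℤ) ^ i := by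
  have hg : Good [r] := by intro a ha; simp at ha; omega
  have h1 := phi_mul hg
  have h2 : phi ([] : List ℕ) = Polynomial.X - 1 := rfl
  rw [h2, List.prod_nil, mul_one] at h1
  have h3 : (∑ i ∈ Finset.range r, (Polynomial.X : Polynomial ℤ) ^ i) * (Polynomial.X - 1) =
      Polynomial.X ^ r - 1 := geom_sum_mul _ _
  have h4 : (Polynomial.X - 1 : Polynomial ℤ) ≠ 0 := by
    intro h
    have := congrArg (Polynomial.eval 0) h
    simp at this
  exact mul_right_cancel₀ h4 (h1.trans h3.symm)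

lemma comp_geom {r : ℕ} (h : 2 ≤ r) : ∑ i ∈ Finset.range r, compMat [r] ^ i = 0 := by
  have hg : Good [r] := by intro a ha; simp at ha; omega
  have h1 := comp_phi hg
  rw [phi_single h, map_sum] at h1
  simpa using h1

lemma chainMat_single (r : ℕ) (i j : Fin (mu [r])) :
    chainMat [r] i j = if i = j then 1 else if (j : ℕ) = i + 1 then -1 else 0 := by
  rw [chainMat_apply, symb_coeff]
  have h2 : phi ([] : List ℕ) = Polynomial.X - 1 := rfl
  rw [h2]
  by_cases h1 : i = j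
  · subst h1
    simp
  · have h1' : (i : ℕ) ≠ j := fun e => h1 (Fin.ext e)
    rw [if_neg h1]
    by_cases h3 : (j : ℕ) = i + 1
    · rw [if_pos h3, if_pos (by rw [Fin.le_def]; omega), h3, Nat.add_sub_cancel_left]
      simp [Polynomial.coeff_one]
    · rw [if_neg h3]
      split_ifs with h4
      · rw [Fin.le_def] at h4
        obtain ⟨d, hd⟩ : ∃ d, (j : ℕ) - i = d + 2 := ⟨(j : ℕ) - i - 2, by omega⟩
        rw [hd]
        simp [Polynomial.coeff_one, Polynomial.coeff_X]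
      · rfl

lemma pair_pow {r : ℕ} (h : 3 ≤ r) (n : ℕ) :
    e0 [r] ⬝ᵥ (chainMat [r] *ᵥ (compMat [r] ^ n *ᵥ e0 [r])) = ell r n := by
  have hg : Good [r] := by intro a ha; simp at ha; omega
  have hmu : mu [r] = r - 1 := mu_single r
  have h0 : 0 < mu [r] := by omega
  have hsmall : ∀ n, n < r - 1 →
      e0 [r] ⬝ᵥ (chainMat [r] *ᵥ (compMat [r] ^ n *ᵥ e0 [r])) =
        if n = 0 then 1 else if n = 1 then -1 else 0 := by
    intro n hn
    have hn' : n < mu [r] := by omega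
    rw [e0_eq h0, comp_pow_mulVec_zero h0 hn', Matrix.mulVec_single_one, single_one_dotProduct,
      Matrix.col_apply, chainMat_single]
    simp only [Fin.mk.injEq, zero_add]
    by_cases h1 : n = 0
    · simp [h1]
    · rw [if_neg (fun e => h1 e.symm), if_neg h1]
  have hmod : compMat [r] ^ n = compMat [r] ^ (n % r) := by
    conv_lhs => rw [← Nat.div_add_mod n r, pow_add, pow_mul]
    have h3 := comp_pow_prod hg
    rw [List.prod_singleton] at h3
    rw [h3, one_pow, one_mul]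
  rw [hmod, ← ell_mod]
  have hlt : n % r < r := Nat.mod_lt _ (by omega)
  generalize n % r = m at hlt
  by_cases hm : m < r - 1
  · rw [hsmall m hm]
    unfold ell
    by_cases h1 : m = 0
    · simp [h1]
    · have h2 : ¬ r ∣ m := Nat.not_dvd_of_pos_of_lt (Nat.pos_of_ne_zero h1) (by omega)
      rw [if_neg h1, if_neg h2, Nat.mod_eq_of_lt (by omega)]
  · have hm' : m = r - 1 := by omega
    have h4 := comp_geom (r := r) (by omega)
    obtain ⟨r', rfl⟩ : ∃ r', r = r' + 3 := ⟨r - 3, by omega⟩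
    rw [show r' + 3 = (r' + 2) + 1 by ring, Finset.sum_range_succ] at h4
    have h5 := congrArg (fun M => e0 [r' + 3] ⬝ᵥ (chainMat [r' + 3] *ᵥ (M *ᵥ e0 [r' + 3]))) h4
    simp only [Matrix.add_mulVec, Matrix.mulVec_add, dotProduct_add, Matrix.zero_mulVec,
      Matrix.mulVec_zero, dotProduct_zero, Matrix.sum_mulVec, Matrix.mulVec_sum,
      dotProduct_sum] at h5
    rw [Finset.sum_congr rfl (fun i hi => hsmall i (by
      have := Finset.mem_range.1 hi; omega))] at h5
    have h6 : ∑ i ∈ Finset.range (r' + 2), (if i = 0 then (1 : ℤ) else if i = 1 then -1 else 0)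
        = 0 := by
      rw [Finset.sum_range_succ', Finset.sum_range_succ']
      simp
    rw [h6, zero_add] at h5
    rw [hm', show r' + 3 - 1 = r' + 2 by omega, h5]
    unfold ell
    have h2 : ¬ (r' + 3) ∣ (r' + 2) := Nat.not_dvd_of_pos_of_lt (by omega) (by omega)
    rw [if_neg h2, Nat.mod_eq_of_lt (by omega), if_neg (by omega)]

/-- `C` is an isometry: moving powers to the right. -/
lemma chain_move {a : ℕ} {l : List ℕ} (h : Good (a :: l)) (n : ℕ)
    (x y : Fin (mu (a :: l)) → ℤ) :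
    (compMat (a :: l) ^ n *ᵥ x) ⬝ᵥ (chainMat (a :: l) *ᵥ (compMat (a :: l) ^ n *ᵥ y)) =
      x ⬝ᵥ (chainMat (a :: l) *ᵥ y) := by
  induction n generalizing x y with
  | zero => simp
  | succ n ih =>
      rw [pow_succ, ← Matrix.mulVec_mulVec, ← Matrix.mulVec_mulVec, ih]
      conv_rhs => rw [← chain_inv h]
      rw [← Matrix.mulVec_mulVec, ← Matrix.mulVec_mulVec, Matrix.dotProduct_mulVec x,
        Matrix.vecMul_transpose]

theorem q1_single {r : ℕ} (h : 3 ≤ r) (a b k : ℕ) :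
    q1 [r] a b k = (-1) ^ k * ell r (k + b + (r - 1) * a) := by
  have hg : Good [r] := by intro a ha; simp at ha; omega
  have hpr := comp_pow_prod hg
  rw [List.prod_singleton] at hpr
  unfold q1
  have h1 : T1 [r] ^ k = ((-1 : ℤ) ^ k) • compMat [r] ^ k := by
    unfold T1
    have : mu ([r] : List ℕ).tail = 1 := rfl
    rw [this, pow_one, List.length_singleton, pow_one, neg_one_smul, neg_pow, ← neg_one_zsmul,
      smul_pow, one_pow]
    simp [zsmul_eq_mul]
  rw [h1, Matrix.mul_smul, Matrix.smul_mulVec, dotProduct_smul, smul_eq_mul]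
  congr 1
  have h5 : (chainMat [r] * compMat [r] ^ k) *ᵥ (compMat [r] ^ b *ᵥ e0 [r]) =
      chainMat [r] *ᵥ (compMat [r] ^ (k + b) *ᵥ e0 [r]) := by
    rw [pow_add, Matrix.mulVec_mulVec, Matrix.mulVec_mulVec, Matrix.mul_assoc]
  rw [h5, ← pair_pow h, ← chain_move hg a (e0 [r]), Matrix.mulVec_mulVec _ (compMat [r] ^ a),
    ← pow_add]
  congr 3
  have h2 : a + (k + b + (r - 1) * a) = (k + b) + r * a := by
    obtain ⟨r', rfl⟩ : ∃ r', r = r' + 1 := ⟨r - 1, by omega⟩
    rw [Nat.add_sub_cancel]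
    ring
  rw [h2, pow_add _ (k + b), pow_mul, hpr, one_pow, mul_one]

/-- a chain whose denominator divides `k` contributes a sign. -/
theorem q1_sign {c : List ℕ} (hc : c ≠ []) (h2 : ∀ a ∈ c, 1 ≤ a) (hmu : 0 < mu c) {k : ℕ}
    (hk : c.prod ∣ mu c.tail * k) : q1 c 0 0 k = 1 ∨ q1 c 0 0 k = -1 := by
  obtain ⟨a, l, rfl⟩ : ∃ a l, c = a :: l := List.exists_cons_of_ne_nil hc
  have hg : Good (a :: l) := h2
  have h1 : T1 (a :: l) ^ k = (((-1 : ℤ) ^ (a :: l).length) ^ k) •
      (1 : Matrix (Fin (mu (a :: l))) (Fin (mu (a :: l))) ℤ) := by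
    unfold T1
    obtain ⟨t, ht⟩ := hk
    rw [smul_pow, ← pow_mul (compMat (a :: l)), ht, pow_mul (compMat (a :: l)),
      comp_pow_prod hg, one_pow]
  have h3 : e0 (a :: l) ⬝ᵥ (chainMat (a :: l) *ᵥ e0 (a :: l)) = 1 := by
    rw [e0_eq hmu, Matrix.mulVec_single_one, single_one_dotProduct, Matrix.col_apply,
      chainMat_apply, if_pos le_rfl, Nat.sub_self, symb_coeff, phi_coeff_zero hg.tail, ← mul_pow]
    simp
  unfold q1
  rw [h1, pow_zero, Matrix.one_mulVec, Matrix.mul_smul, Matrix.mul_one, Matrix.smul_mulVec,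
    dotProduct_smul, h3, smul_eq_mul, mul_one, ← pow_mul]
  exact neg_one_pow_eq_or ℤ _

/-! ### systems -/

/-- monodromy of a system -/
noncomputable def Tsys : (S : List (List ℕ)) → Matrix (Idx S) (Idx S) ℤ
  | [] => 1
  | c :: S => Matrix.kroneckerMap (· * ·) (T1 c) (Tsys S)

theorem sys_T : ∀ (S : List (List ℕ)), (∀ c ∈ S, c ≠ [] ∧ ∀ a ∈ c, 1 ≤ a) →
    sysMat S * Tsys S = (sysMat S)ᵀ
  | [], _ => by
      show (1 : Matrix (Idx []) (Idx []) ℤ) * 1 = 1ᵀ
      rw [Matrix.mul_one, Matrix.transpose_one]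
  | c :: S, h => by
      obtain ⟨hc, hg⟩ := h c (by simp)
      obtain ⟨a, l, rfl⟩ : ∃ a l, c = a :: l := List.exists_cons_of_ne_nil hc
      have ih := sys_T S (fun c hc => h c (by simp [hc]))
      show Matrix.kroneckerMap (· * ·) (chainMat (a :: l)) (sysMat S) *
        Matrix.kroneckerMap (· * ·) (T1 (a :: l)) (Tsys S) =
        (Matrix.kroneckerMap (· * ·) (chainMat (a :: l)) (sysMat S))ᵀ
      have h1 := Matrix.mul_kronecker_mul (chainMat (a :: l)) (T1 (a :: l)) (sysMat S) (Tsys S)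
      rw [chain_T1 hg, ih] at h1
      exact h1.symm

/-- pure tensors of powers of the cyclic generators -/
noncomputable def vec : (S : List (List ℕ)) → List ℕ → Idx S → ℤ
  | [], _ => fun _ => 1
  | c :: S, as => fun p => (compMat c ^ as.headD 0 *ᵥ e0 c) p.1 * vec S as.tail p.2

/-- product of the pairings -/
noncomputable def pairS : (S : List (List ℕ)) → List ℕ → List ℕ → ℕ → ℤ
  | [], _, _, _ => 1
  | c :: S, as, bs, k => q1 c (as.headD 0) (bs.headD 0) k * pairS S as.tail bs.tail k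

lemma Tsys_pow (c : List ℕ) (S : List (List ℕ)) (k : ℕ) :
    Tsys (c :: S) ^ k = Matrix.kroneckerMap (· * ·) (T1 c ^ k) (Tsys S ^ k) := by
  induction k with
  | zero =>
      rw [pow_zero, pow_zero, pow_zero]
      exact (Matrix.one_kronecker_one (α := ℤ)).symm
  | succ k ih =>
      rw [pow_succ, ih, pow_succ, pow_succ]
      exact (Matrix.mul_kronecker_mul (T1 c ^ k) (T1 c) (Tsys S ^ k) (Tsys S)).symm

lemma kron_mulVec {m n : Type} [Fintype m] [Fintype n] (A : Matrix m m ℤ) (B : Matrix n n ℤ)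
    (x : m → ℤ) (y : n → ℤ) :
    (Matrix.kroneckerMap (· * ·) A B) *ᵥ (fun p => x p.1 * y p.2) =
      fun p => (A *ᵥ x) p.1 * (B *ᵥ y) p.2 := by
  ext p
  simp only [Matrix.mulVec, dotProduct, Matrix.kroneckerMap_apply, Fintype.sum_prod_type,
    Finset.sum_mul_sum]
  refine Finset.sum_congr rfl fun i _ => Finset.sum_congr rfl fun j _ => ?_
  ring

lemma kron_dot {m n : Type} [Fintype m] [Fintype n] (x x' : m → ℤ) (y y' : n → ℤ) :
    (fun p : m × n => x p.1 * y p.2) ⬝ᵥ (fun p : m × n => x' p.1 * y' p.2) =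
      (x ⬝ᵥ x') * (y ⬝ᵥ y') := by
  simp only [dotProduct, Fintype.sum_prod_type, Finset.sum_mul_sum]
  refine Finset.sum_congr rfl fun i _ => Finset.sum_congr rfl fun j _ => ?_
  ring

theorem pair_vec : ∀ (S : List (List ℕ)) (as bs : List ℕ) (k : ℕ),
    vec S as ⬝ᵥ ((sysMat S * Tsys S ^ k) *ᵥ vec S bs) = pairS S as bs k
  | [], as, bs, k => by
      show (fun _ : Idx [] => (1 : ℤ)) ⬝ᵥ (((1 : Matrix (Idx []) (Idx []) ℤ) * 1 ^ k) *ᵥ
        fun _ : Idx [] => (1 : ℤ)) = 1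
      rw [one_pow, Matrix.mul_one, Matrix.one_mulVec]
      rfl
  | c :: S, as, bs, k => by
      have ih := pair_vec S as.tail bs.tail k
      rw [Tsys_pow]
      have h1 : sysMat (c :: S) * (show Matrix (Idx (c :: S)) (Idx (c :: S)) ℤ from
          Matrix.kroneckerMap (· * ·) (T1 c ^ k) (Tsys S ^ k)) =
          Matrix.kroneckerMap (· * ·) (chainMat c * T1 c ^ k) (sysMat S * Tsys S ^ k) :=
        (Matrix.mul_kronecker_mul (chainMat c) (T1 c ^ k) (sysMat S) (Tsys S ^ k)).symm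
      rw [h1]
      show (fun p : Fin (mu c) × Idx S => (compMat c ^ as.headD 0 *ᵥ e0 c) p.1 *
          vec S as.tail p.2) ⬝ᵥ
        ((Matrix.kroneckerMap (· * ·) (chainMat c * T1 c ^ k) (sysMat S * Tsys S ^ k)) *ᵥ
          (fun p : Fin (mu c) × Idx S => (compMat c ^ bs.headD 0 *ᵥ e0 c) p.1 *
            vec S bs.tail p.2)) = _
      rw [kron_mulVec, kron_dot, ih]
      rfl

lemma pairS_append : ∀ (S S' : List (List ℕ)) (as bs : List ℕ) (k : ℕ),
    as.length ≤ S.length → bs.length ≤ S.length →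
    pairS (S ++ S') as bs k = pairS S as bs k * pairS S' [] [] k
  | [], S', as, bs, k, h1, h2 => by
      have e1 : as = [] := List.eq_nil_of_length_eq_zero (Nat.le_zero.1 h1)
      have e2 : bs = [] := List.eq_nil_of_length_eq_zero (Nat.le_zero.1 h2)
      subst e1 e2
      simp [pairS]
  | c :: S, S', as, bs, k, h1, h2 => by
      rw [List.length_cons] at h1 h2
      have ih := pairS_append S S' as.tail bs.tail k (by rw [List.length_tail]; omega)
        (by rw [List.length_tail]; omega)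
      rw [List.cons_append]
      simp only [pairS]
      rw [ih, mul_assoc]

lemma pairS_append_nil (S S' : List (List ℕ)) (k : ℕ) :
    pairS (S ++ S') [] [] k = pairS S [] [] k * pairS S' [] [] k :=
  pairS_append S S' [] [] k (by simp) (by simp)

lemma pairS_rep (n : ℕ) (S : List (List ℕ)) (k : ℕ) :
    pairS (rep n S) [] [] k = (pairS S [] [] k) ^ n := by
  induction n with
  | zero => simp [rep, pairS]
  | succ n ih =>
      have : rep (n + 1) S = S ++ rep n S := by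
        unfold rep
        rw [List.replicate_succ, List.flatten_cons]
      rw [this, pairS_append_nil, ih, pow_succ']

lemma pairS_sign : ∀ (S : List (List ℕ)) (k : ℕ),
    (∀ c ∈ S, q1 c 0 0 k = 1 ∨ q1 c 0 0 k = -1) →
    pairS S [] [] k = 1 ∨ pairS S [] [] k = -1
  | [], k, _ => Or.inl rfl
  | c :: S, k, h => by
      have h1 := h c (by simp)
      have h2 := pairS_sign S k (fun c hc => h c (by simp [hc]))
      have e : pairS (c :: S) [] [] k = q1 c 0 0 k * pairS S [] [] k := rfl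
      rw [e]
      rcases h1 with h1 | h1 <;> rcases h2 with h2 | h2 <;> simp [h1, h2]

lemma pairS_rep8 {n : ℕ} {S : List (List ℕ)} {k : ℕ}
    (h : ∀ c ∈ S, q1 c 0 0 k = 1 ∨ q1 c 0 0 k = -1) :
    pairS (rep (8 * n) S) [] [] k = 1 := by
  rw [pairS_rep, pow_mul]
  rcases pairS_sign S k h with h1 | h1 <;> rw [h1] <;> norm_num

lemma pairS_map {q : List ℕ} (h : ∀ p ∈ q, 3 ≤ p) (k : ℕ) :
    pairS (q.map (fun x => [x])) [] [] k =
      ((-1) ^ k) ^ q.length * (q.map (fun p => ell p k)).prod := by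
  induction q with
  | nil => simp [pairS]
  | cons p q ih =>
      have e : pairS ((p :: q).map (fun x => [x])) [] [] k =
        q1 [p] 0 0 k * pairS (q.map (fun x => [x])) [] [] k := rfl
      rw [e, ih (fun p hp => h p (by simp [hp])), q1_single (h p (by simp))]
      rw [List.map_cons, List.prod_cons, List.length_cons, pow_succ]
      simp only [mul_zero, add_zero]
      ring

/-! ### the chains of the certificate -/

lemma chainOf_pos {a b : ℕ} (ha : 0 < a) :
    chainOf a b = (b / a) :: chainOf (b % a) b := by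
  rw [chainOf, dif_neg (by omega)]

lemma chainOf_zero (b : ℕ) : chainOf 0 b = [] := by
  rw [chainOf, dif_pos rfl]

/-- the first weight of `chainOf a b` is `a / b`. -/
lemma chainOf_spec {b : ℕ} : ∀ a : ℕ, 0 < a → 2 * a < b →
    (∀ x ∈ chainOf a b, 2 ≤ x) ∧ mu (chainOf a b).tail * b = a * (chainOf a b).prod := by
  intro a
  induction a using Nat.strong_induction_on with
  | _ a ih =>
    intro ha h2
    have hdiv : 2 ≤ b / a := by
      rw [Nat.le_div_iff_mul_le ha]; omega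
    have hdm := Nat.div_add_mod b a
    rw [chainOf_pos ha, List.tail_cons, List.prod_cons]
    rcases Nat.eq_zero_or_pos (b % a) with h0 | h0
    · rw [h0, chainOf_zero]
      refine ⟨by simpa using hdiv, ?_⟩
      rw [h0, add_zero] at hdm
      simp only [mu, List.prod_nil, mul_one, one_mul]
      exact hdm.symm
    · have hlt : b % a < a := Nat.mod_lt _ ha
      obtain ⟨h3, h4⟩ := ih (b % a) hlt h0 (by omega)
      have h5 : (chainOf (b % a) b) ≠ [] := by
        rw [chainOf_pos h0]; simp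
      obtain ⟨x, l, hxl⟩ : ∃ x l, chainOf (b % a) b = x :: l := List.exists_cons_of_ne_nil h5
      rw [hxl] at h3 h4 ⊢
      refine ⟨?_, ?_⟩
      · intro y hy
        rcases List.mem_cons.1 hy with h | h
        · subst h; exact hdiv
        · exact h3 y h
      · rw [List.tail_cons] at h4
        have h6 := mu_add_mu (a := x) (l := l) (by have := h3 x (by simp); omega)
        rw [← List.prod_cons] at h6
        have h7 : mu (x :: l) * b + (b % a) * (x :: l).prod = (x :: l).prod * b := by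
          rw [← h4, ← add_mul, h6]
        have h8 : (x :: l).prod * b = a * (b / a * (x :: l).prod) + (b % a) * (x :: l).prod := by
          conv_lhs => rw [← hdm]
          ring
        omega

lemma mu_pos_of_two {c : List ℕ} (h : ∀ x ∈ c, 2 ≤ x) : 0 < mu c := by
  cases c with
  | nil => simp [mu]
  | cons x l =>
      have hg : Good (x :: l) := Good.of_two h
      have h1 := mu_add_mu (a := x) (l := l) hg.head
      have h2 := mu_le_prod l
      have h3 : 0 < l.prod := hg.tail.prod_pos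
      have h4 : 2 ≤ x := h x (by simp)
      nlinarith

/-- admissible chain whose monodromy order divides `m` -/
structure OK (m : ℕ) (c : List ℕ) : Prop where
  ne : c ≠ []
  two : ∀ x ∈ c, 2 ≤ x
  dvd : c.prod ∣ mu c.tail * m

lemma OK.one {m : ℕ} {c : List ℕ} (h : OK m c) : ∀ x ∈ c, 1 ≤ x :=
  fun x hx => le_trans (by norm_num) (h.two x hx)

lemma OK.mul {m n : ℕ} {c : List ℕ} (h : OK m c) (hmn : m ∣ n) : OK n c :=
  ⟨h.ne, h.two, by
    obtain ⟨t, rfl⟩ := hmn
    rw [← mul_assoc]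
    exact Dvd.dvd.mul_right h.dvd _⟩

lemma OK.sign {m : ℕ} {c : List ℕ} (h : OK m c) {k : ℕ} (hk : m ∣ k) :
    q1 c 0 0 k = 1 ∨ q1 c 0 0 k = -1 :=
  q1_sign h.ne h.one (mu_pos_of_two h.two) (h.mul hk).dvd

lemma ok_chainOf {a b m : ℕ} (ha : 0 < a) (h2 : 2 * a < b) (hb : b ∣ m) :
    OK m (chainOf a b) := by
  obtain ⟨h3, h4⟩ := chainOf_spec (b := b) a ha h2
  refine ⟨by rw [chainOf_pos ha]; simp, h3, ?_⟩
  obtain ⟨t, rfl⟩ := hb
  rw [← mul_assoc, h4, mul_comm a, mul_assoc]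
  exact dvd_mul_right _ _

lemma ok_single {r m : ℕ} (h : 2 ≤ r) (hm : r ∣ m) : OK m [r] :=
  ⟨by simp, by simpa using h, by simpa [mu] using hm⟩

section Family

variable {L : List (ℕ × ℕ × ℤ)} {u : ℕ} {q : List ℕ}

lemma ok_both (hC : Cert L u) {x : ℕ × ℕ × ℤ} (hx : x ∈ L) {c : List ℕ} (hc : c ≠ [])
    (h : c = chainOf x.1 x.2.1 ∨ c = chainOf (x.2.1 % x.1) x.2.1) : OK (3 * u) c := by
  obtain ⟨h1, h2, _, h4⟩ := hC.range x hx
  have hb : x.2.1 ∣ 3 * u := by
    rcases h4 with h4 | h4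
    · rw [h4]; exact dvd_mul_left _ _
    · rw [h4]
  rcases h with rfl | rfl
  · exact ok_chainOf h1 h2 hb
  · have h0 : 0 < x.2.1 % x.1 := by
      rcases Nat.eq_zero_or_pos (x.2.1 % x.1) with h0 | h0
      · rw [h0, chainOf_zero] at hc; exact absurd rfl hc
      · exact h0
    have := Nat.mod_lt x.2.1 h1
    exact ok_chainOf h0 (by omega) hb

lemma ok_ZP (hC : Cert L u) : ∀ c ∈ ZP L, OK (3 * u) c := by
  intro c hc
  unfold ZP at hc
  rw [List.mem_filter, List.mem_flatMap] at hc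
  obtain ⟨⟨x, hx, hcx⟩, hne⟩ := hc
  have hne' : c ≠ [] := by simpa using hne
  refine ok_both hC hx hne' ?_
  unfold blockP at hcx
  rw [List.mem_append, List.mem_replicate, List.mem_replicate] at hcx
  rcases hcx with ⟨_, h⟩ | ⟨_, h⟩
  · exact Or.inl h
  · exact Or.inr h

lemma ok_ZM (hC : Cert L u) : ∀ c ∈ ZM L, OK (3 * u) c := by
  intro c hc
  unfold ZM at hc
  rw [List.mem_filter, List.mem_flatMap] at hc
  obtain ⟨⟨x, hx, hcx⟩, hne⟩ := hc
  have hne' : c ≠ [] := by simpa using hne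
  refine ok_both hC hx hne' ?_
  unfold blockM at hcx
  rw [List.mem_append, List.mem_replicate, List.mem_replicate] at hcx
  rcases hcx with ⟨_, h⟩ | ⟨_, h⟩
  · exact Or.inr h
  · exact Or.inl h

lemma mem_rep {n : ℕ} {S : List (List ℕ)} {c : List ℕ} (h : c ∈ rep n S) : c ∈ S := by
  unfold rep at h
  rw [List.mem_flatten] at h
  obtain ⟨S', h1, h2⟩ := h
  rw [List.mem_replicate] at h1
  rw [← h1.2]; exact h2

/-- all chains of `F` are admissible with monodromy order dividing `3 u ∏ q`. -/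
lemma ok_F (hC : Cert L u) (hA : Aux u q) (s j : ℕ) :
    ∀ c ∈ F L u q s j, OK (3 * u * q.prod) c := by
  intro c hc
  have hu := hC.big
  unfold F at hc
  simp only [List.mem_append] at hc
  rcases hc with (((h | h) | h) | h) | h
  · have := mem_rep h
    rw [List.mem_singleton] at this
    subst this
    exact ok_single (by norm_num) ⟨u * q.prod, by ring⟩
  · have := mem_rep h
    rw [List.mem_singleton] at this
    subst this
    exact ok_single (by omega) ⟨3 * q.prod, by ring⟩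
  · exact (ok_ZP hC c (mem_rep h)).mul (dvd_mul_right _ _)
  · exact (ok_ZM hC c (mem_rep h)).mul (dvd_mul_right _ _)
  · rw [List.mem_map] at h
    obtain ⟨x, hx, rfl⟩ := h
    exact ok_single (by have := (hA.big x hx).1; omega)
      (Dvd.dvd.mul_left (List.dvd_prod hx) _)

/-- the monodromy of a system: `A * T = Aᵀ`. -/
theorem F_T (hC : Cert L u) (hA : Aux u q) (s j : ℕ) :
    sysMat (F L u q s j) * Tsys (F L u q s j) = (sysMat (F L u q s j))ᵀ :=
  sys_T _ fun c hc => ⟨(ok_F hC hA s j c hc).ne, (ok_F hC hA s j c hc).one⟩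

/-! ### the order of the monodromy -/

lemma T1_pow {m : ℕ} {c : List ℕ} (h : OK m c) :
    T1 c ^ m = ((-1 : ℤ) ^ m) ^ c.length • (1 : Matrix (Fin (mu c)) (Fin (mu c)) ℤ) := by
  obtain ⟨t, ht⟩ := h.dvd
  unfold T1
  rw [smul_pow, ← pow_mul (compMat c), ht, pow_mul (compMat c),
    comp_pow_prod (Good.of_two h.two), one_pow, ← pow_mul, ← pow_mul, mul_comm c.length]

lemma Tsys_pow_OK {m : ℕ} : ∀ (S : List (List ℕ)), (∀ c ∈ S, OK m c) →
    Tsys S ^ m = ((-1 : ℤ) ^ m) ^ nvar S • (1 : Matrix (Idx S) (Idx S) ℤ)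
  | [], _ => by
      show (1 : Matrix (Idx []) (Idx []) ℤ) ^ m = ((-1 : ℤ) ^ m) ^ 0 • 1
      rw [one_pow, pow_zero, one_smul]
  | c :: S, h => by
      have ih := Tsys_pow_OK S (fun c hc => h c (by simp [hc]))
      have hn : nvar (c :: S) = c.length + nvar S := by simp [nvar]
      rw [Tsys_pow, T1_pow (h c (by simp)), ih, hn, pow_add]
      have h1 : Matrix.kroneckerMap (· * ·)
          (((-1 : ℤ) ^ m) ^ c.length • (1 : Matrix (Fin (mu c)) (Fin (mu c)) ℤ))
          (((-1 : ℤ) ^ m) ^ nvar S • (1 : Matrix (Idx S) (Idx S) ℤ)) =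
          (((-1 : ℤ) ^ m) ^ c.length * ((-1 : ℤ) ^ m) ^ nvar S) •
            Matrix.kroneckerMap (· * ·) (1 : Matrix (Fin (mu c)) (Fin (mu c)) ℤ)
              (1 : Matrix (Idx S) (Idx S) ℤ) := by
        ext p p'
        simp only [Matrix.kroneckerMap_apply, Matrix.smul_apply, smul_eq_mul]
        ring
      refine h1.trans ?_
      congr 1
      exact Matrix.one_kronecker_one (α := ℤ)

lemma nvar_append (S S' : List (List ℕ)) : nvar (S ++ S') = nvar S + nvar S' := by
  simp [nvar]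

lemma nvar_rep (n : ℕ) (S : List (List ℕ)) : nvar (rep n S) = n * nvar S := by
  induction n with
  | zero => simp [rep, nvar]
  | succ n ih =>
      have : rep (n + 1) S = S ++ rep n S := by
        unfold rep
        rw [List.replicate_succ, List.flatten_cons]
      rw [this, nvar_append, ih]
      ring

lemma nvar_F (hA : Aux u q) (s j : ℕ) : 8 ∣ nvar (F L u q s j) := by
  unfold F
  rw [nvar_append, nvar_append, nvar_append, nvar_append, nvar_rep, nvar_rep, nvar_rep, nvar_rep]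
  have h : nvar (q.map fun x => [x]) = 8 := by
    have h2 := hA.length
    unfold nvar
    rw [List.map_map]
    have : (List.length ∘ fun x : ℕ => [x]) = fun _ => 1 := by ext x; simp
    rw [this]
    simp [h2]
  rw [h, mul_assoc 8, mul_assoc 8]
  exact ⟨nvar [[3]] + nvar [[u]] + (s - j) * nvar (ZP L) + j * nvar (ZM L) + 1, by ring⟩

/-- `T ^ (3 u ∏ q) = 1`. -/
theorem F_Tpow (hC : Cert L u) (hA : Aux u q) (s j : ℕ) :
    Tsys (F L u q s j) ^ (3 * u * q.prod) = 1 := by
  rw [Tsys_pow_OK _ (ok_F hC hA s j)]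
  obtain ⟨t, ht⟩ := nvar_F (L := L) hA s j
  have h8 : ∀ k : ℕ, ((-1 : ℤ) ^ k) ^ 8 = 1 := by
    intro k
    rw [← pow_mul, mul_comm, pow_mul]; norm_num
  rw [ht, pow_mul, h8, one_pow, one_smul]

/-! ### the hyperbolic pair -/

/-- the prefix of the family -/
lemma F_eq (L : List (ℕ × ℕ × ℤ)) (u : ℕ) (q : List ℕ) (s j : ℕ) :
    F L u q s j = [[3], [3], [3], [3], [3], [3], [3], [3], [u], [u], [u], [u], [u], [u], [u],
      [u]] ++ (rep (8 * (s - j)) (ZP L) ++ rep (8 * j) (ZM L) ++ q.map (fun x => [x])) := by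
  unfold F
  have h1 : rep 8 [[3]] = [[3], [3], [3], [3], [3], [3], [3], [3]] := rfl
  have h2 : rep 8 [[u]] = [[u], [u], [u], [u], [u], [u], [u], [u]] := rfl
  rw [h1, h2]
  simp only [List.append_assoc]
  rfl

/-- the isotropic vector -/
noncomputable def eV (S : List (List ℕ)) : Idx S → ℤ :=
  vec S [0, 0, 0] + vec S [1, 1, 1] + vec S [2, 2, 2]

/-- its partner -/
noncomputable def fV (S : List (List ℕ)) : Idx S → ℤ := vec S [2, 0, 0, 1, 0, 0, 0, 0, 1]

lemma sign16 (k : ℕ) : ((-1 : ℤ) ^ k) ^ 8 = 1 := by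
  rw [← pow_mul, mul_comm, pow_mul]; norm_num

lemma pair_F (L : List (ℕ × ℕ × ℤ)) (u : ℕ) (q : List ℕ) (s j : ℕ) (as bs : List ℕ) (k : ℕ)
    (ha : as.length ≤ 16) (hb : bs.length ≤ 16) :
    vec (F L u q s j) as ⬝ᵥ ((sysMat (F L u q s j) * Tsys (F L u q s j) ^ k) *ᵥ
      vec (F L u q s j) bs) =
    pairS [[3], [3], [3], [3], [3], [3], [3], [3], [u], [u], [u], [u], [u], [u], [u],
      [u]] as bs k * (pairS (rep (8 * (s - j)) (ZP L)) [] [] k *
        pairS (rep (8 * j) (ZM L)) [] [] k * pairS (q.map (fun x => [x])) [] [] k) := by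
  rw [pair_vec, F_eq, pairS_append _ _ _ _ _ (by simpa using ha) (by simpa using hb),
    pairS_append_nil, pairS_append_nil]

/-- contribution of the chains behind the prefix -/
noncomputable def rest (L : List (ℕ × ℕ × ℤ)) (q : List ℕ) (s j k : ℕ) : ℤ :=
  pairS (rep (8 * (s - j)) (ZP L)) [] [] k * pairS (rep (8 * j) (ZM L)) [] [] k *
    pairS (q.map (fun x => [x])) [] [] k

lemma rest_eq (hC : Cert L u) (hA : Aux u q) (s j : ℕ) {k : ℕ} (hk : 3 * u ∣ k) :
    rest L q s j k = (q.map (fun p => ell p k)).prod := by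
  unfold rest
  rw [pairS_rep8 (fun c hc => (ok_ZP hC c hc).sign hk),
    pairS_rep8 (fun c hc => (ok_ZM hC c hc).sign hk), pairS_map, hA.length, sign16]
  · ring
  · intro p hp
    have := (hA.big p hp).1
    omega

lemma pref_same {u : ℕ} (hu : 3 ≤ u) (a b k : ℕ) :
    pairS [[3], [3], [3], [3], [3], [3], [3], [3], [u], [u], [u], [u], [u], [u], [u],
      [u]] [a, a, a] [b, b, b] k =
      ell 3 (k + b + 2 * a) ^ 3 * (ell 3 k ^ 5 * ell u k ^ 8) := by
  simp only [pairS, List.headD_cons, List.tail_cons, List.headD_nil, List.tail_nil,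
    q1_single (le_refl 3), q1_single hu, mul_zero, add_zero]
  have h := sign16 k
  norm_num
  generalize (-1 : ℤ) ^ k = x at h ⊢
  generalize ell 3 (k + b + 2 * a) = y
  generalize ell 3 k = z
  generalize ell u k = w
  linear_combination (y ^ 3 * z ^ 5 * w ^ 8 * (x ^ 8 + 1)) * h

lemma pref_f {u : ℕ} (hu : 3 ≤ u) (a k : ℕ) :
    pairS [[3], [3], [3], [3], [3], [3], [3], [3], [u], [u], [u], [u], [u], [u], [u],
      [u]] [a, a, a] [2, 0, 0, 1, 0, 0, 0, 0, 1] k =
      ell 3 (k + 2 + 2 * a) * ell 3 (k + 2 * a) ^ 2 * (ell 3 (k + 1) * ell 3 k ^ 4) *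
        (ell u (k + 1) * ell u k ^ 7) := by
  simp only [pairS, List.headD_cons, List.tail_cons, List.headD_nil, List.tail_nil,
    q1_single (le_refl 3), q1_single hu, mul_zero, add_zero]
  have h := sign16 k
  norm_num
  generalize (-1 : ℤ) ^ k = x at h ⊢
  generalize ell 3 (k + 2 + 2 * a) = y
  generalize ell 3 (k + 2 * a) = y'
  generalize ell 3 (k + 1) = z'
  generalize ell 3 k = z
  generalize ell u (k + 1) = w'
  generalize ell u k = w
  linear_combination (y * y' ^ 2 * z' * z ^ 4 * w' * w ^ 7 * (x ^ 8 + 1)) * h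

lemma ell3_cases (k : ℕ) :
    (k % 3 = 0 ∧ ell 3 k = 1) ∨ (k % 3 = 1 ∧ ell 3 k = -1) ∨ (k % 3 = 2 ∧ ell 3 k = 0) := by
  have h := Nat.mod_lt k (show 0 < 3 by norm_num)
  rw [← ell_mod]
  generalize k % 3 = m at h
  interval_cases m <;> simp [ell]

lemma ell3_sum (k : ℕ) : ell 3 k ^ 3 + ell 3 (k + 1) ^ 3 + ell 3 (k + 2) ^ 3 = 0 := by
  rcases ell3_cases k with ⟨h1, h2⟩ | ⟨h1, h2⟩ | ⟨h1, h2⟩ <;>
  rcases ell3_cases (k + 1) with ⟨h3, h4⟩ | ⟨h3, h4⟩ | ⟨h3, h4⟩ <;>
  rcases ell3_cases (k + 2) with ⟨h5, h6⟩ | ⟨h5, h6⟩ | ⟨h5, h6⟩ <;>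
  first
    | omega
    | (rw [h2, h4, h6]; norm_num)

lemma ellu {u : ℕ} (hu : 3 < u) (k : ℕ) :
    ell u (k + 1) * ell u k ^ 7 = if u ∣ k then -1 else 0 := by
  rw [← ell_mod u (k + 1), ← ell_mod u k]
  have hm := Nat.mod_lt k (show 0 < u by omega)
  by_cases h : u ∣ k
  · have h0 : k % u = 0 := Nat.mod_eq_zero_of_dvd h
    rw [if_pos h, h0, Nat.add_mod, h0, zero_add, Nat.mod_mod, Nat.mod_eq_of_lt (by omega)]
    have h1 : ¬ u ∣ 1 := Nat.not_dvd_of_pos_of_lt (by norm_num) (by omega)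
    simp [ell, h1, Nat.mod_eq_of_lt (show 1 < u by omega)]
  · rw [if_neg h]
    have h0 : k % u ≠ 0 := fun e => h (Nat.dvd_of_mod_eq_zero e)
    by_cases h1 : k % u = 1
    · rw [Nat.add_mod, h1, Nat.mod_eq_of_lt (show 1 < u by omega),
        Nat.mod_eq_of_lt (show 1 + 1 < u by omega)]
      have h2 : ¬ u ∣ (1 + 1) := Nat.not_dvd_of_pos_of_lt (by norm_num) (by omega)
      have h3 : ell u (1 + 1) = 0 := by
        unfold ell
        rw [if_neg h2, Nat.mod_eq_of_lt (by omega), if_neg (by norm_num)]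
      rw [h3, zero_mul]
    · have h2 : ¬ u ∣ (k % u) := Nat.not_dvd_of_pos_of_lt (by omega) hm
      have h3 : ell u (k % u) = 0 := by
        unfold ell
        rw [if_neg h2, Nat.mod_mod, if_neg h1]
      rw [h3]
      ring

lemma ell3f (k : ℕ) :
    (ell 3 (k + 2 + 2 * 0) * ell 3 (k + 2 * 0) ^ 2 + ell 3 (k + 2 + 2 * 1) *
      ell 3 (k + 2 * 1) ^ 2 + ell 3 (k + 2 + 2 * 2) * ell 3 (k + 2 * 2) ^ 2) *
      (ell 3 (k + 1) * ell 3 k ^ 4) = if 3 ∣ k then -1 else 0 := by
  have e : ∀ a b : ℕ, a % 3 = b % 3 → ell 3 a = ell 3 b := by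
    intro a b h
    rw [← ell_mod 3 a, ← ell_mod 3 b, h]
  have hm := Nat.mod_lt k (show 0 < 3 by norm_num)
  have h : k % 3 = 0 ∨ k % 3 = 1 ∨ k % 3 = 2 := by omega
  have e0 : ell 3 0 = 1 := by simp [ell]
  have e1 : ell 3 1 = -1 := by simp [ell]
  have e2 : ell 3 2 = 0 := by simp [ell]
  simp only [mul_zero, add_zero, mul_one, Nat.reduceMul, Nat.add_assoc, Nat.reduceAdd]
  rcases h with h | h | h
  · rw [if_pos (Nat.dvd_of_mod_eq_zero h), e (k + 6) 0 (by omega), e (k + 4) 1 (by omega),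
      e (k + 2) 2 (by omega), e (k + 1) 1 (by omega), e k 0 (by omega), e0, e1, e2]
    norm_num
  · rw [if_neg (by omega), e (k + 1) 2 (by omega), e2]
    ring
  · rw [if_neg (by omega), e k 2 (by omega), e2]
    ring

/-- `e` is isotropic for all powers of the monodromy. -/
theorem hyp_ee (hC : Cert L u) (s j k : ℕ) :
    eV (F L u q s j) ⬝ᵥ ((sysMat (F L u q s j) * Tsys (F L u q s j) ^ k) *ᵥ
      eV (F L u q s j)) = 0 := by
  have hu : 3 ≤ u := le_of_lt hC.big
  unfold eV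
  simp only [Matrix.mulVec_add, dotProduct_add, add_dotProduct]
  have h : ∀ a b : ℕ, vec (F L u q s j) [a, a, a] ⬝ᵥ
      ((sysMat (F L u q s j) * Tsys (F L u q s j) ^ k) *ᵥ vec (F L u q s j) [b, b, b]) =
      ell 3 (k + b + 2 * a) ^ 3 * ((ell 3 k ^ 5 * ell u k ^ 8) * rest L q s j k) := by
    intro a b
    rw [pair_F L u q s j _ _ k (by simp) (by simp), pref_same hu]
    unfold rest
    ring
  rw [h 0 0, h 0 1, h 0 2, h 1 0, h 1 1, h 1 2, h 2 0, h 2 1, h 2 2]
  have s0 := ell3_sum (k + 2 * 0)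
  have s1 := ell3_sum (k + 2 * 1)
  have s2 := ell3_sum (k + 2 * 2)
  rw [show k + 2 * 0 + 1 = k + 1 + 2 * 0 by ring, show k + 2 * 0 + 2 = k + 2 + 2 * 0 by ring,
    show k + 2 * 0 = k + 0 + 2 * 0 by ring] at s0
  rw [show k + 2 * 1 + 1 = k + 1 + 2 * 1 by ring, show k + 2 * 1 + 2 = k + 2 + 2 * 1 by ring,
    show k + 2 * 1 = k + 0 + 2 * 1 by ring] at s1
  rw [show k + 2 * 2 + 1 = k + 1 + 2 * 2 by ring, show k + 2 * 2 + 2 = k + 2 + 2 * 2 by ring,
    show k + 2 * 2 = k + 0 + 2 * 2 by ring] at s2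
  linear_combination ((ell 3 k ^ 5 * ell u k ^ 8) * rest L q s j k) * (s0 + s1 + s2)

/-- the pairing of `e` and `f`. -/
theorem hyp_ef (hC : Cert L u) (hA : Aux u q) (s j k : ℕ) :
    eV (F L u q s j) ⬝ᵥ ((sysMat (F L u q s j) * Tsys (F L u q s j) ^ k) *ᵥ
      fV (F L u q s j)) = if 3 * u ∣ k then (q.map (fun p => ell p k)).prod else 0 := by
  have hu : 3 ≤ u := le_of_lt hC.big
  unfold eV fV
  simp only [add_dotProduct]
  have h : ∀ a : ℕ, vec (F L u q s j) [a, a, a] ⬝ᵥ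
      ((sysMat (F L u q s j) * Tsys (F L u q s j) ^ k) *ᵥ
        vec (F L u q s j) [2, 0, 0, 1, 0, 0, 0, 0, 1]) =
      ell 3 (k + 2 + 2 * a) * ell 3 (k + 2 * a) ^ 2 * (ell 3 (k + 1) * ell 3 k ^ 4) *
        (ell u (k + 1) * ell u k ^ 7) * rest L q s j k := by
    intro a
    rw [pair_F L u q s j _ _ k (by simp) (by simp), pref_f hu]
    rfl
  rw [h 0, h 1, h 2, ← add_mul, ← add_mul, ← add_mul, ← add_mul, ← add_mul, ← add_mul, ell3f,
    ellu hC.big]
  by_cases h3 : 3 ∣ k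
  · by_cases h4 : u ∣ k
    · have h5 : 3 * u ∣ k := by
        apply Nat.Coprime.mul_dvd_of_dvd_of_dvd _ h3 h4
        rw [Nat.coprime_primes Nat.prime_three hC.prime]
        have := hC.big
        omega
      rw [if_pos h3, if_pos h4, if_pos h5, rest_eq hC hA s j h5]
      ring
    · rw [if_pos h3, if_neg h4, if_neg (fun h => h4 (dvd_trans (dvd_mul_left _ _) h))]
      ring
  · rw [if_neg h3, if_neg (fun h => h3 (dvd_trans (dvd_mul_right _ _) h))]
    ring

/-- P4.11, matrix level. -/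
theorem hyp_pair (hC : Cert L u) (hA : Aux u q) (s j : ℕ) :
    ∃ e f : Idx (F L u q s j) → ℤ, ∀ k : ℕ,
      e ⬝ᵥ ((sysMat (F L u q s j) * Tsys (F L u q s j) ^ k) *ᵥ e) = 0 ∧
      e ⬝ᵥ ((sysMat (F L u q s j) * Tsys (F L u q s j) ^ k) *ᵥ f) =
        if 3 * u ∣ k then (q.map (fun p => ell p k)).prod else 0 :=
  ⟨eV _, fV _, fun k => ⟨hyp_ee hC s j k, hyp_ef hC hA s j k⟩⟩

/-! ### the shifted form -/

/-- `h = (n + 1) / 2`, `n = 3 u ∏ q`: `b(x, y) = xᵗ A T ^ h y` is symmetric. -/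
def hs (u : ℕ) (q : List ℕ) : ℕ := (3 * u * q.prod + 1) / 2

/-- the Frobenius functional: `λ (X ^ k)`. -/
def lamF (u : ℕ) (q : List ℕ) (k : ℕ) : ℤ :=
  if 3 * u ∣ k then (q.map (fun p => ell p (hs u q + k))).prod else 0

lemma ell_add (p a b : ℕ) (h : p ∣ b) : ell p (a + b) = ell p a := by
  obtain ⟨t, rfl⟩ := h
  rw [← ell_mod, Nat.add_mul_mod_self_left, ell_mod]

lemma coprime_mq (hC : Cert L u) (hA : Aux u q) : Nat.Coprime (3 * u) q.prod := by
  rw [Nat.coprime_list_prod_right_iff]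
  intro p hp
  have h1 := hA.prime p hp
  have h2 := hA.big p hp
  apply Nat.Coprime.mul_left
  · rw [Nat.coprime_primes Nat.prime_three h1]; omega
  · rw [Nat.coprime_primes hC.prime h1]; exact fun e => h2.2 e.symm

/-- P4.11, matrix level, for the symmetric form `b(x, y) = xᵗ A T ^ h y`. -/
theorem hyp_pair' (hC : Cert L u) (hA : Aux u q) (s j : ℕ) :
    ∃ e f : Idx (F L u q s j) → ℤ, ∀ k : ℕ,
      e ⬝ᵥ ((sysMat (F L u q s j) * Tsys (F L u q s j) ^ (hs u q + k)) *ᵥ e) = 0 ∧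
      e ⬝ᵥ ((sysMat (F L u q s j) * Tsys (F L u q s j) ^ (hs u q + k)) *ᵥ f) = lamF u q k := by
  have hu := hC.big
  have hm : 0 < 3 * u := by omega
  obtain ⟨i, hi1, hi2⟩ := Nat.chineseRemainder (coprime_mq hC hA)
    (3 * u * hs u q - hs u q) 0
  have hi3 : 3 * u ∣ hs u q + i := by
    have h1 : hs u q + i ≡ hs u q + (3 * u * hs u q - hs u q) [MOD 3 * u] := hi1.add_left _
    rw [Nat.add_sub_cancel' (Nat.le_mul_of_pos_left _ hm)] at h1
    rw [Nat.dvd_iff_mod_eq_zero, h1]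
    exact Nat.mul_mod_right _ _
  have hi4 : q.prod ∣ i := (Nat.modEq_zero_iff_dvd).1 hi2
  refine ⟨eV _, Tsys (F L u q s j) ^ i *ᵥ fV _, fun k => ⟨hyp_ee hC s j _, ?_⟩⟩
  rw [Matrix.mulVec_mulVec, Matrix.mul_assoc, ← pow_add, hyp_ef hC hA]
  have h5 : 3 * u ∣ hs u q + k + i ↔ 3 * u ∣ k := by
    rw [show hs u q + k + i = k + (hs u q + i) by ring]
    exact Nat.dvd_add_iff_left hi3 |>.symm
  unfold lamF
  by_cases hk : 3 * u ∣ k
  · rw [if_pos hk, if_pos (h5.2 hk)]
    congr 1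
    apply List.map_congr_left
    intro p hp
    exact ell_add p _ _ ((List.dvd_prod hp).trans hi4)
  · rw [if_neg hk, if_neg (fun h => hk (h5.1 h))]

end Family

end Crest.Agent.R267.P411_61
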