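import Crest.Agent.R267.P411_61

/-!
# S0407, package P4, node P4.11: hyperbolic pair for an arbitrary functional (helper61)
-/

set_option autoImplicit false

namespace Crest.Agent.R267.P411c_61

open Matrix Crest.Agent.R267.P4Defs_780 Crest.Agent.R267.P41_339
open Crest.Agent.R267.P411_61

/-! ### tensors with an arbitrary last factor -/

/-- pure tensor of powers of the generators with a general vector behind. -/
noncomputable def vecr : (S : List (List ℕ)) → List ℕ → {S' : List (List ℕ)} →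
    (Idx S' → ℤ) → Idx (S ++ S') → ℤ
  | [], _, _, r => r
  | c :: S, as, _, r => fun p => (compMat c ^ as.headD 0 *ᵥ e0 c) p.1 * vecr S as.tail r p.2

theorem pair_vecr : ∀ (S : List (List ℕ)) (as bs : List ℕ) {S' : List (List ℕ)}
    (r r' : Idx S' → ℤ) (k : ℕ),
    vecr S as r ⬝ᵥ ((sysMat (S ++ S') * Tsys (S ++ S') ^ k) *ᵥ vecr S bs r') =
      pairS S as bs k * (r ⬝ᵥ ((sysMat S' * Tsys S' ^ k) *ᵥ r'))
  | [], as, bs, S', r, r', k => by
      show r ⬝ᵥ ((sysMat S' * Tsys S' ^ k) *ᵥ r') = 1 * _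
      rw [one_mul]
  | c :: S, as, bs, S', r, r', k => by
      have ih := pair_vecr S as.tail bs.tail r r' k
      show vecr (c :: S) as r ⬝ᵥ ((sysMat (c :: (S ++ S')) * Tsys (c :: (S ++ S')) ^ k) *ᵥ
        vecr (c :: S) bs r') = _
      rw [Tsys_pow]
      have h1 : sysMat (c :: (S ++ S')) *
          (show Matrix (Idx (c :: (S ++ S'))) (Idx (c :: (S ++ S'))) ℤ from
          Matrix.kroneckerMap (· * ·) (T1 c ^ k) (Tsys (S ++ S') ^ k)) =
          Matrix.kroneckerMap (· * ·) (chainMat c * T1 c ^ k)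
            (sysMat (S ++ S') * Tsys (S ++ S') ^ k) :=
        (Matrix.mul_kronecker_mul (chainMat c) (T1 c ^ k) (sysMat (S ++ S'))
          (Tsys (S ++ S') ^ k)).symm
      rw [h1]
      show (fun p : Fin (mu c) × Idx (S ++ S') => (compMat c ^ as.headD 0 *ᵥ e0 c) p.1 *
          vecr S as.tail r p.2) ⬝ᵥ
        ((Matrix.kroneckerMap (· * ·) (chainMat c * T1 c ^ k)
          (sysMat (S ++ S') * Tsys (S ++ S') ^ k)) *ᵥ
          (fun p : Fin (mu c) × Idx (S ++ S') => (compMat c ^ bs.headD 0 *ᵥ e0 c) p.1 *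
            vecr S bs.tail r' p.2)) = _
      rw [kron_mulVec, kron_dot, ih, ← mul_assoc]
      rfl

/-! ### unimodularity -/

theorem sys_inv : ∀ (S : List (List ℕ)), (∀ c ∈ S, c ≠ [] ∧ ∀ a ∈ c, 1 ≤ a) →
    ∃ B : Matrix (Idx S) (Idx S) ℤ, sysMat S * B = 1
  | [], _ => ⟨1, by
      show (1 : Matrix (Idx []) (Idx []) ℤ) * 1 = 1
      rw [Matrix.mul_one]⟩
  | c :: S, h => by
      obtain ⟨hc, hg⟩ := h c (by simp)
      obtain ⟨a, l, rfl⟩ : ∃ a l, c = a :: l := List.exists_cons_of_ne_nil hc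
      obtain ⟨B, hB⟩ := sys_inv S (fun c hc => h c (by simp [hc]))
      have hd : IsUnit (chainMat (a :: l)).det := by rw [chain_det hg]; exact isUnit_one
      have h1 := Matrix.mul_nonsing_inv (chainMat (a :: l)) hd
      refine ⟨Matrix.kroneckerMap (· * ·) (chainMat (a :: l))⁻¹ B, ?_⟩
      have h2 := Matrix.mul_kronecker_mul (chainMat (a :: l)) (chainMat (a :: l))⁻¹
        (sysMat S) B
      rw [h1, hB] at h2
      exact h2.symm.trans (Matrix.one_kronecker_one (α := ℤ))

/-- `T` is an isometry. -/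
lemma sys_isom {S : List (List ℕ)} (hS : sysMat S * Tsys S = (sysMat S)ᵀ) (j : ℕ)
    (x y : Idx S → ℤ) :
    (Tsys S ^ j *ᵥ x) ⬝ᵥ (sysMat S *ᵥ (Tsys S ^ j *ᵥ y)) = x ⬝ᵥ (sysMat S *ᵥ y) := by
  have h1 : (Tsys S)ᵀ * sysMat S * Tsys S = sysMat S := by
    have h2 := congrArg Matrix.transpose hS
    rw [Matrix.transpose_mul, Matrix.transpose_transpose] at h2
    rw [Matrix.mul_assoc, hS, h2]
  induction j generalizing x y with
  | zero => simp
  | succ n ih =>
      rw [pow_succ, ← Matrix.mulVec_mulVec, ← Matrix.mulVec_mulVec, ih]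
      conv_rhs => rw [← h1]
      rw [← Matrix.mulVec_mulVec, ← Matrix.mulVec_mulVec, Matrix.dotProduct_mulVec x,
        Matrix.vecMul_transpose]

/-! ### functionals on `ℤ[ζ_Q]` -/

/-- a functional on `ℤ[ζ_Q]`, `Q = ∏ q`, given by its values on the powers of `ζ`. -/
structure Adm (q : List ℕ) (G : ℕ → ℤ) : Prop where
  per : ∀ k, G (k + q.prod) = G k
  van : ∀ p ∈ q, ∀ e, q.prod ∣ p * e → ¬ q.prod ∣ e → ∀ k,
    ∑ t ∈ Finset.range p, G (k + t * e) = 0

lemma modEq_add_mul (a c t : ℕ) : a + c * t ≡ a [MOD c] :=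
  ((Nat.modEq_iff_dvd' (Nat.le_add_right _ _)).2 (by
    rw [Nat.add_sub_cancel_left]; exact dvd_mul_right _ _)).symm

lemma Adm.per_mul {q : List ℕ} {G : ℕ → ℤ} (h : Adm q G) (k t : ℕ) :
    G (k + q.prod * t) = G k := by
  induction t with
  | zero => simp
  | succ t ih => rw [Nat.mul_succ, ← add_assoc, h.per, ih]

lemma Adm.congr {q : List ℕ} {G : ℕ → ℤ} (h : Adm q G) {a b : ℕ}
    (hab : a ≡ b [MOD q.prod]) : G a = G b := by
  rcases le_total a b with h1 | h1
  · obtain ⟨t, ht⟩ := (Nat.modEq_iff_dvd' h1).1 hab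
    rw [show b = a + q.prod * t by omega, h.per_mul]
  · obtain ⟨t, ht⟩ := (Nat.modEq_iff_dvd' h1).1 hab.symm
    rw [show a = b + q.prod * t by omega, h.per_mul]

/-- `⊗ ω_i ^ j` -/
noncomputable def vecJ : (S : List (List ℕ)) → ℕ → Idx S → ℤ
  | [], _ => fun _ => 1
  | c :: S, j => fun p => (compMat c ^ j *ᵥ e0 c) p.1 * vecJ S j p.2

lemma vecJ_zero : ∀ S : List (List ℕ), vecJ S 0 = vec S []
  | [] => rfl
  | c :: S => by
      ext p
      show (compMat c ^ 0 *ᵥ e0 c) p.1 * vecJ S 0 p.2 =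
        (compMat c ^ 0 *ᵥ e0 c) p.1 * vec S [] p.2
      rw [vecJ_zero S]

/-- one factor -/
lemma single_functional {p : ℕ} (hp : 3 ≤ p) (H : ℕ → ℤ) (hper : ∀ i, H (i + p) = H i)
    (hsum : ∑ i ∈ Finset.range p, H i = 0) (j : ℕ) :
    ∑ i : Fin (mu [p]), (compMat [p] ^ j *ᵥ e0 [p]) i * H i = H j := by
  have hg : Good [p] := by intro a ha; simp at ha; omega
  have hmu : mu [p] = p - 1 := mu_single p
  have h0 : 0 < mu [p] := by omega
  have hper' : ∀ i t, H (i + p * t) = H i := by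
    intro i t
    induction t with
    | zero => simp
    | succ t ih => rw [Nat.mul_succ, ← add_assoc, hper, ih]
  have hH : H j = H (j % p) := by
    conv_lhs => rw [← Nat.mod_add_div j p, hper']
  have hmod : compMat [p] ^ j = compMat [p] ^ (j % p) := by
    conv_lhs => rw [← Nat.div_add_mod j p, pow_add, pow_mul]
    have h3 := comp_pow_prod hg
    rw [List.prod_singleton] at h3
    rw [h3, one_pow, one_mul]
  rw [hmod, hH]
  have hlt : j % p < p := Nat.mod_lt _ (by omega)
  generalize j % p = m at hlt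
  have hsmall : ∀ m, m < p - 1 →
      ∑ i : Fin (mu [p]), (compMat [p] ^ m *ᵥ e0 [p]) i * H i = H m := by
    intro m hm
    have hm' : m < mu [p] := by omega
    rw [e0_eq h0, comp_pow_mulVec_zero h0 hm', Finset.sum_eq_single (⟨m, hm'⟩ : Fin (mu [p]))]
    · simp
    · intro i _ hi
      rw [Pi.single_eq_of_ne hi, zero_mul]
    · simp
  by_cases hm : m < p - 1
  · exact hsmall m hm
  · have hm' : m = p - 1 := by omega
    have h4 := comp_geom (r := p) (by omega)
    obtain ⟨p', rfl⟩ : ∃ p', p = p' + 1 := ⟨p - 1, by omega⟩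
    rw [Finset.sum_range_succ] at h4 hsum
    have h5 := congrArg (fun M => ∑ i : Fin (mu [p' + 1]), (M *ᵥ e0 [p' + 1]) i * H i) h4
    simp only [Matrix.add_mulVec, Matrix.sum_mulVec, Matrix.zero_mulVec, Pi.add_apply,
      Pi.zero_apply, zero_mul, Finset.sum_const_zero, add_mul, Finset.sum_add_distrib,
      Finset.sum_apply, Finset.sum_mul] at h5
    rw [Finset.sum_comm] at h5
    rw [Finset.sum_congr rfl (fun i hi => hsmall i (by
      have := Finset.mem_range.1 hi; omega))] at h5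
    rw [hm', Nat.add_sub_cancel]
    linear_combination h5 - hsum

theorem exists_gamma : ∀ (q : List ℕ), (∀ p ∈ q, p.Prime) → (∀ p ∈ q, 3 ≤ p) → q.Nodup →
    ∀ G : ℕ → ℤ, Adm q G →
    ∃ γ : Idx (q.map fun x => [x]) → ℤ, ∀ j, vecJ (q.map fun x => [x]) j ⬝ᵥ γ = G j
  | [], _, _, _, G, hG => by
      refine ⟨fun _ => G 0, fun j => ?_⟩
      have h1 : G j = G 0 := hG.congr (by simp [Nat.modEq_one])
      rw [h1]
      show ∑ _i : Unit, (1 : ℤ) * G 0 = G 0
      simp
  | p :: q, h1, h2, h3, G, hG => by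
      have hp := h1 p (by simp)
      have hp3 := h2 p (by simp)
      rw [List.nodup_cons] at h3
      have hco : Nat.Coprime p q.prod := by
        rw [Nat.coprime_list_prod_right_iff]
        intro r hr
        rw [Nat.coprime_primes hp (h1 r (by simp [hr]))]
        rintro rfl
        exact h3.1 hr
      have hQ : (p :: q).prod = p * q.prod := List.prod_cons
      obtain ⟨E, hE1, hE2⟩ := Nat.chineseRemainder hco 1 0
      obtain ⟨E', hE3, hE4⟩ := Nat.chineseRemainder hco 0 1
      rw [Nat.modEq_zero_iff_dvd] at hE2 hE3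
      have hpE : p * q.prod ∣ p * E := Nat.mul_dvd_mul_left p hE2
      have hQE : p * q.prod ∣ q.prod * E' := by
        rw [mul_comm q.prod]; exact Nat.mul_dvd_mul_right hE3 _
      have hsumE : E + E' ≡ 1 [MOD (p * q.prod)] := by
        rw [← Nat.modEq_and_modEq_iff_modEq_mul hco]
        constructor
        · have := hE1.add ((Nat.modEq_zero_iff_dvd).2 hE3)
          simpa using this
        · have := ((Nat.modEq_zero_iff_dvd).2 hE2).add hE4
          simpa using this
      have hnE : ¬ (p :: q).prod ∣ E := by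
        intro hd
        rw [hQ] at hd
        have h5 : p ∣ E := (dvd_mul_right _ _).trans hd
        have h6 : (0 : ℕ) ≡ 1 [MOD p] := ((Nat.modEq_zero_iff_dvd).2 h5).symm.trans hE1
        have h7 := (Nat.modEq_iff_dvd' (by norm_num)).1 h6
        rw [Nat.sub_zero, Nat.dvd_one] at h7
        omega
      have hGi : ∀ i : ℕ, Adm q (fun k => G (i * E + k * E')) := by
        intro i
        refine ⟨fun k => ?_, fun r hr e he1 he2 k => ?_⟩
        · apply hG.congr
          rw [hQ]
          obtain ⟨t, ht⟩ := hQE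
          rw [add_mul, ← add_assoc, ht]
          exact modEq_add_mul _ _ _
        · have h5 := hG.van r (by simp [hr]) (e * E') ?_ ?_ (i * E + k * E')
          · rw [← h5]
            refine Finset.sum_congr rfl fun t _ => ?_
            congr 1
            ring
          · rw [hQ]
            obtain ⟨t, ht⟩ := he1
            obtain ⟨t', ht'⟩ := hE3
            refine ⟨t * t', ?_⟩
            rw [← mul_assoc, ht, ht']
            ring
          · intro hd
            rw [hQ] at hd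
            apply he2
            have h6 : q.prod ∣ e * E' := (dvd_mul_left _ _).trans hd
            have h7 : e * E' ≡ e * 1 [MOD q.prod] := hE4.mul_left e
            rw [mul_one] at h7
            exact (Nat.modEq_zero_iff_dvd).1 (h7.symm.trans ((Nat.modEq_zero_iff_dvd).2 h6))
      have ih := fun i : ℕ => exists_gamma q (fun p hp => h1 p (by simp [hp]))
        (fun p hp => h2 p (by simp [hp])) h3.2 _ (hGi i)
      choose γ hγ using ih
      refine ⟨fun P => γ (P.1 : Fin (mu [p])) P.2, fun j => ?_⟩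
      have e1 : vecJ ((p :: q).map fun x => [x]) j ⬝ᵥ
          (fun P : Idx ((p :: q).map fun x => [x]) => γ (P.1 : Fin (mu [p])) P.2) =
          ∑ i : Fin (mu [p]), (compMat [p] ^ j *ᵥ e0 [p]) i *
            (vecJ (q.map fun x => [x]) j ⬝ᵥ γ i) := by
        show ∑ P : Fin (mu [p]) × Idx (q.map fun x => [x]),
          ((compMat [p] ^ j *ᵥ e0 [p]) P.1 * vecJ (q.map fun x => [x]) j P.2) *
            γ (P.1 : Fin (mu [p])) P.2 = _
        rw [Fintype.sum_prod_type]
        refine Finset.sum_congr rfl fun i _ => ?_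
        simp only [dotProduct, Finset.mul_sum]
        refine Finset.sum_congr rfl fun I _ => ?_
        ring
      rw [e1]
      simp only [hγ]
      rw [single_functional hp3 (fun i => G (i * E + j * E'))]
      · apply hG.congr
        rw [hQ, ← mul_add]
        have := hsumE.mul_left j
        rwa [mul_one] at this
      · intro i
        apply hG.congr
        rw [hQ]
        obtain ⟨t, ht⟩ := hpE
        rw [add_mul, ht, show i * E + p * q.prod * t + j * E' =
          i * E + j * E' + p * q.prod * t by ring]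
        exact modEq_add_mul _ _ _
      · have h5 := hG.van p (by simp) E (by rw [hQ]; exact hpE) hnE (j * E')
        rw [← h5]
        refine Finset.sum_congr rfl fun t _ => ?_
        congr 1
        ring

/-! ### the vector realising a functional -/

lemma ok_q {q : List ℕ} (h1 : ∀ p ∈ q, p.Prime) :
    ∀ c ∈ q.map (fun x => [x]), OK q.prod c := by
  intro c hc
  rw [List.mem_map] at hc
  obtain ⟨x, hx, rfl⟩ := hc
  exact ok_single (h1 x hx).two_le (List.dvd_prod hx)

lemma nvar_map (q : List ℕ) : nvar (q.map fun x => [x]) = q.length := by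
  unfold nvar
  rw [List.map_map]
  have : (List.length ∘ fun x : ℕ => [x]) = fun _ => 1 := by ext x; simp
  rw [this]
  simp

lemma Tsys_vecJ : ∀ (q : List ℕ) (j : ℕ), Tsys (q.map fun x => [x]) ^ j *ᵥ
    vecJ (q.map fun x => [x]) 0 = ((-1) ^ j) ^ q.length • vecJ (q.map fun x => [x]) j
  | [], j => by
      show (1 : Matrix (Idx []) (Idx []) ℤ) ^ j *ᵥ (fun _ => 1) =
        (((-1 : ℤ) ^ j) ^ 0) • (fun _ => 1)
      rw [one_pow, Matrix.one_mulVec, pow_zero, one_smul]
      rfl
  | p :: q, j => by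
      have ih := Tsys_vecJ q j
      have e1 : Tsys ((p :: q).map fun x => [x]) ^ j = Matrix.kroneckerMap (· * ·)
        (T1 [p] ^ j) (Tsys (q.map fun x => [x]) ^ j) := Tsys_pow [p] _ j
      rw [e1]
      show (Matrix.kroneckerMap (· * ·) (T1 [p] ^ j) (Tsys (q.map fun x => [x]) ^ j)) *ᵥ
        (fun P : Fin (mu [p]) × Idx (q.map fun x => [x]) =>
          (compMat [p] ^ 0 *ᵥ e0 [p]) P.1 * vecJ (q.map fun x => [x]) 0 P.2) = _
      rw [kron_mulVec, ih]
      have h1 : T1 [p] ^ j = ((-1 : ℤ) ^ j) • compMat [p] ^ j := by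
        unfold T1
        have : mu ([p] : List ℕ).tail = 1 := rfl
        rw [this, pow_one, List.length_singleton, pow_one, smul_pow]
      rw [h1, pow_zero, Matrix.one_mulVec, Matrix.smul_mulVec]
      ext P
      show ((-1 : ℤ) ^ j • (compMat [p] ^ j *ᵥ e0 [p])) P.1 *
        (((-1 : ℤ) ^ j) ^ q.length • vecJ (q.map fun x => [x]) j) P.2 =
        ((-1 : ℤ) ^ j) ^ (q.length + 1) •
          ((compMat [p] ^ j *ᵥ e0 [p]) P.1 * vecJ (q.map fun x => [x]) j P.2)
      simp only [Pi.smul_apply, smul_eq_mul]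
      ring

section Family

variable {L : List (ℕ × ℕ × ℤ)} {u : ℕ} {q : List ℕ}

/-- every functional on `ℤ[ζ_Q]` is `k ↦ L(d, T ^ k r)` for a vector `r` of the block of the
auxiliary primes. -/
theorem exists_r (hA : Aux u q) (G : ℕ → ℤ) (hG : Adm q G) :
    ∃ r : Idx (q.map fun x => [x]) → ℤ, ∀ k,
      vec (q.map fun x => [x]) [] ⬝ᵥ ((sysMat (q.map fun x => [x]) *
        Tsys (q.map fun x => [x]) ^ k) *ᵥ r) = G k := by
  have hok := ok_q hA.prime
  have hQ : 0 < q.prod := Nat.pos_of_ne_zero (by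
    intro h0
    rw [List.prod_eq_zero_iff] at h0
    exact (hA.prime 0 h0).ne_zero rfl)
  have hne : q ≠ [] := by
    intro h; have := hA.length; rw [h] at this; simp at this
  have hQ1 : q.prod ≠ 1 := by
    obtain ⟨p, l, rfl⟩ := List.exists_cons_of_ne_nil hne
    intro h
    rw [List.prod_cons] at h
    have := Nat.eq_one_of_mul_eq_one_right h
    exact (hA.prime p (by simp)).one_lt.ne' this
  obtain ⟨Q', hQ'⟩ : ∃ Q', q.prod = Q' + 2 := ⟨q.prod - 2, by omega⟩
  -- reversed functional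
  have hG' : Adm q (fun j => G ((Q' + 1) * j)) := by
    refine ⟨fun k => ?_, fun p hp e h1 h2 k => ?_⟩
    · apply hG.congr
      rw [mul_add, mul_comm (Q' + 1) q.prod]
      exact modEq_add_mul _ _ _
    · have h5 := hG.van p hp ((Q' + 1) * e) ?_ ?_ ((Q' + 1) * k)
      · rw [← h5]
        refine Finset.sum_congr rfl fun t _ => ?_
        congr 1
        ring
      · rw [mul_left_comm]; exact Dvd.dvd.mul_left h1 _
      · intro hd
        apply h2
        apply Nat.Coprime.dvd_of_dvd_mul_left _ hd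
        rw [hQ']
        have : Nat.Coprime (Q' + 1 + 1) (Q' + 1) := by simp
        exact this
  obtain ⟨γ, hγ⟩ := exists_gamma q hA.prime (fun p hp => by have := (hA.big p hp).1; omega)
    hA.nodup _ hG'
  obtain ⟨B, hB⟩ := sys_inv (q.map fun x => [x]) (fun c hc => ⟨(hok c hc).ne, (hok c hc).one⟩)
  have hT := sys_T (q.map fun x => [x]) (fun c hc => ⟨(hok c hc).ne, (hok c hc).one⟩)
  have hTQ : Tsys (q.map fun x => [x]) ^ q.prod = 1 := by
    rw [Tsys_pow_OK _ hok, nvar_map, hA.length, sign16, one_smul]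
  refine ⟨B *ᵥ γ, fun k => ?_⟩
  have e1 : Tsys (q.map fun x => [x]) ^ ((Q' + 1) * k) * Tsys (q.map fun x => [x]) ^ k = 1 := by
    rw [← pow_add, show (Q' + 1) * k + k = q.prod * k by rw [hQ']; ring, pow_mul, hTQ, one_pow]
  have e2 := sys_isom hT ((Q' + 1) * k) (vec (q.map fun x => [x]) [])
    (Tsys (q.map fun x => [x]) ^ k *ᵥ (B *ᵥ γ))
  rw [Matrix.mulVec_mulVec _ (Tsys (q.map fun x => [x]) ^ ((Q' + 1) * k)), e1,
    Matrix.one_mulVec, Matrix.mulVec_mulVec γ, hB, Matrix.one_mulVec, ← vecJ_zero,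
    Tsys_vecJ, hA.length, sign16, one_smul, hγ] at e2
  rw [← Matrix.mulVec_mulVec, ← vecJ_zero, ← e2]
  apply hG.congr
  have : (Q' + 1) * ((Q' + 1) * k) = k + q.prod * (Q' * k) := by rw [hQ']; ring
  rw [this]
  exact modEq_add_mul _ _ _

/-- the part of `F` before the auxiliary block. -/
def pre (L : List (ℕ × ℕ × ℤ)) (u s j : ℕ) : List (List ℕ) :=
  rep 8 [[3]] ++ rep 8 [[u]] ++ rep (8 * (s - j)) (ZP L) ++ rep (8 * j) (ZM L)

lemma pre_eq (L : List (ℕ × ℕ × ℤ)) (u s j : ℕ) :
    pre L u s j = [[3], [3], [3], [3], [3], [3], [3], [3], [u], [u], [u], [u], [u], [u], [u],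
      [u]] ++ (rep (8 * (s - j)) (ZP L) ++ rep (8 * j) (ZM L)) := by
  unfold pre
  have h1 : rep 8 [[3]] = [[3], [3], [3], [3], [3], [3], [3], [3]] := rfl
  have h2 : rep 8 [[u]] = [[u], [u], [u], [u], [u], [u], [u], [u]] := rfl
  rw [h1, h2]
  simp only [List.append_assoc]
  rfl

/-- contribution of the middle chains -/
noncomputable def mid (L : List (ℕ × ℕ × ℤ)) (s j k : ℕ) : ℤ :=
  pairS (rep (8 * (s - j)) (ZP L)) [] [] k * pairS (rep (8 * j) (ZM L)) [] [] k

lemma mid_eq (hC : Cert L u) (s j : ℕ) {k : ℕ} (hk : 3 * u ∣ k) : mid L s j k = 1 := by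
  unfold mid
  rw [pairS_rep8 (fun c hc => (ok_ZP hC c hc).sign hk),
    pairS_rep8 (fun c hc => (ok_ZM hC c hc).sign hk), one_mul]

lemma pair_pre (L : List (ℕ × ℕ × ℤ)) (u s j : ℕ) (as bs : List ℕ) (k : ℕ)
    (ha : as.length ≤ 16) (hb : bs.length ≤ 16) :
    pairS (pre L u s j) as bs k =
    pairS [[3], [3], [3], [3], [3], [3], [3], [3], [u], [u], [u], [u], [u], [u], [u],
      [u]] as bs k * mid L s j k := by
  rw [pre_eq, pairS_append _ _ _ _ _ (by simpa using ha) (by simpa using hb),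
    pairS_append_nil]
  rfl

/-- P4.11 for an arbitrary functional. -/
theorem hyp_gen (hC : Cert L u) (hA : Aux u q) (s j : ℕ) (G : ℕ → ℤ) (hG : Adm q G) :
    ∃ e f : Idx (F L u q s j) → ℤ, ∀ k : ℕ,
      e ⬝ᵥ ((sysMat (F L u q s j) * Tsys (F L u q s j) ^ k) *ᵥ e) = 0 ∧
      e ⬝ᵥ ((sysMat (F L u q s j) * Tsys (F L u q s j) ^ k) *ᵥ f) =
        if 3 * u ∣ k then G k else 0 := by
  have hu : 3 ≤ u := le_of_lt hC.big
  obtain ⟨r, hr⟩ := exists_r hA G hG
  set d := vec (q.map fun x => [x]) [] with hd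
  set P := pre L u s j with hP
  have key : ∃ e f : Idx (P ++ q.map fun x => [x]) → ℤ, ∀ k : ℕ,
      e ⬝ᵥ ((sysMat (P ++ q.map fun x => [x]) * Tsys (P ++ q.map fun x => [x]) ^ k) *ᵥ e) = 0 ∧
      e ⬝ᵥ ((sysMat (P ++ q.map fun x => [x]) * Tsys (P ++ q.map fun x => [x]) ^ k) *ᵥ f) =
        if 3 * u ∣ k then G k else 0 := by
    refine ⟨vecr P [0, 0, 0] d + vecr P [1, 1, 1] d + vecr P [2, 2, 2] d,
      vecr P [2, 0, 0, 1, 0, 0, 0, 0, 1] r, fun k => ⟨?_, ?_⟩⟩
    · simp only [Matrix.mulVec_add, dotProduct_add, add_dotProduct]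
      have h : ∀ a b : ℕ, vecr P [a, a, a] d ⬝ᵥ
          ((sysMat (P ++ q.map fun x => [x]) * Tsys (P ++ q.map fun x => [x]) ^ k) *ᵥ
            vecr P [b, b, b] d) =
          ell 3 (k + b + 2 * a) ^ 3 * ((ell 3 k ^ 5 * ell u k ^ 8) * (mid L s j k *
            (d ⬝ᵥ ((sysMat (q.map fun x => [x]) * Tsys (q.map fun x => [x]) ^ k) *ᵥ d)))) := by
        intro a b
        rw [pair_vecr, hP, pair_pre L u s j _ _ k (by simp) (by simp), pref_same hu]
        ring
      rw [h 0 0, h 0 1, h 0 2, h 1 0, h 1 1, h 1 2, h 2 0, h 2 1, h 2 2]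
      have s0 := ell3_sum (k + 2 * 0)
      have s1 := ell3_sum (k + 2 * 1)
      have s2 := ell3_sum (k + 2 * 2)
      rw [show k + 2 * 0 + 1 = k + 1 + 2 * 0 by ring, show k + 2 * 0 + 2 = k + 2 + 2 * 0 by ring,
        show k + 2 * 0 = k + 0 + 2 * 0 by ring] at s0
      rw [show k + 2 * 1 + 1 = k + 1 + 2 * 1 by ring, show k + 2 * 1 + 2 = k + 2 + 2 * 1 by ring,
        show k + 2 * 1 = k + 0 + 2 * 1 by ring] at s1
      rw [show k + 2 * 2 + 1 = k + 1 + 2 * 2 by ring, show k + 2 * 2 + 2 = k + 2 + 2 * 2 by ring,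
        show k + 2 * 2 = k + 0 + 2 * 2 by ring] at s2
      linear_combination ((ell 3 k ^ 5 * ell u k ^ 8) * (mid L s j k *
        (d ⬝ᵥ ((sysMat (q.map fun x => [x]) * Tsys (q.map fun x => [x]) ^ k) *ᵥ d)))) *
        (s0 + s1 + s2)
    · simp only [add_dotProduct]
      have h : ∀ a : ℕ, vecr P [a, a, a] d ⬝ᵥ
          ((sysMat (P ++ q.map fun x => [x]) * Tsys (P ++ q.map fun x => [x]) ^ k) *ᵥ
            vecr P [2, 0, 0, 1, 0, 0, 0, 0, 1] r) =
          ell 3 (k + 2 + 2 * a) * ell 3 (k + 2 * a) ^ 2 * (ell 3 (k + 1) * ell 3 k ^ 4) *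
            (ell u (k + 1) * ell u k ^ 7) * mid L s j k * G k := by
        intro a
        rw [pair_vecr, hP, pair_pre L u s j _ _ k (by simp) (by simp), pref_f hu, hr]
      rw [h 0, h 1, h 2, ← add_mul, ← add_mul, ← add_mul, ← add_mul, ← add_mul, ← add_mul,
        ← add_mul, ← add_mul, ell3f, ellu hC.big]
      by_cases h3 : 3 ∣ k
      · by_cases h4 : u ∣ k
        · have h5 : 3 * u ∣ k := by
            apply Nat.Coprime.mul_dvd_of_dvd_of_dvd _ h3 h4
            rw [Nat.coprime_primes Nat.prime_three hC.prime]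
            have := hC.big
            omega
          rw [if_pos h3, if_pos h4, if_pos h5, mid_eq hC s j h5]
          ring
        · rw [if_pos h3, if_neg h4, if_neg (fun h => h4 (dvd_trans (dvd_mul_left _ _) h))]
          ring
      · rw [if_neg h3, if_neg (fun h => h3 (dvd_trans (dvd_mul_right _ _) h))]
        ring
  exact key

end Family

end Crest.Agent.R267.P411c_61
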