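import Mathlib

/-!
# R267, P4.5: rational polynomials which are positive on the real line are sums of squares (helper96)
-/

set_option autoImplicit false

namespace Crest.Agent.R267.P45SOS_96

open Polynomial

/-- a real polynomial which is positive on the line is a sum of two squares, with degree bounds. -/
theorem two_squares (n : ℕ) : ∀ p : ℝ[X], p.natDegree ≤ n → (∀ t : ℝ, 0 < p.eval t) →
    ∃ a b : ℝ[X], p = a ^ 2 + b ^ 2 ∧ 2 * a.natDegree ≤ p.natDegree ∧
      2 * b.natDegree ≤ p.natDegree := by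
  induction n using Nat.strong_induction_on with
  | _ n ih =>
  intro p hpn hp
  rcases Nat.eq_zero_or_pos p.natDegree with h0 | h0
  · refine ⟨C (Real.sqrt (p.coeff 0)), 0, ?_, by simp [h0], by simp⟩
    have h1 := eq_C_of_natDegree_eq_zero h0
    have h2 : 0 < p.coeff 0 := by
      have := hp 0
      rw [h1] at this
      simpa using this
    rw [← C_pow, Real.sq_sqrt h2.le]
    simpa using h1
  · have hnu : ¬ IsUnit p := by
      intro hu
      have := natDegree_eq_zero_of_isUnit hu
      omega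
    obtain ⟨g, hgm, hgi, hgp⟩ := exists_monic_irreducible_factor p hnu
    obtain ⟨h, rfl⟩ := hgp
    have hg0 : ∀ t, g.eval t ≠ 0 := by
      intro t ht
      have := hp t
      rw [eval_mul, ht, zero_mul] at this
      exact lt_irrefl _ this
    have hd2 : g.natDegree ≤ 2 := hgi.natDegree_le_two
    have hd1 : g.natDegree ≠ 1 := by
      intro h1
      have := hgm.eq_X_add_C h1
      have h2 := hg0 (-g.coeff 0)
      rw [this] at h2
      simp at h2
    have hd0 : g.natDegree ≠ 0 := hgi.natDegree_pos.ne'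
    have hd : g.natDegree = 2 := by omega
    have hgform : g = X ^ 2 + C (g.coeff 1) * X + C (g.coeff 0) := by
      have h1 := g.as_sum_range_C_mul_X_pow
      rw [hd] at h1
      simp only [Finset.sum_range_succ, Finset.sum_range_zero, pow_zero, mul_one, pow_one,
        zero_add] at h1
      have h2 : g.coeff 2 = 1 := by
        have := hgm.coeff_natDegree
        rwa [hd] at this
      rw [h2, C_1, one_mul] at h1
      nth_rewrite 1 [h1]
      ring
    set u := g.coeff 1 with hu
    set v := g.coeff 0 with hv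
    have hpos : 0 < v - u ^ 2 / 4 := by
      by_contra hneg
      push Not at hneg
      apply hg0 (-u / 2 + Real.sqrt (u ^ 2 / 4 - v))
      rw [hgform]
      simp only [eval_add, eval_pow, eval_X, eval_mul, eval_C]
      have := Real.sq_sqrt (show 0 ≤ u ^ 2 / 4 - v by linarith)
      nlinarith
    set β := Real.sqrt (v - u ^ 2 / 4) with hβ
    have hβ2 : β ^ 2 = v - u ^ 2 / 4 := Real.sq_sqrt hpos.le
    have hgsq : g = (X + C (u / 2)) ^ 2 + (C β) ^ 2 := by
      rw [← C_pow, hβ2]
      nth_rewrite 1 [hgform]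
      have : (X + C (u / 2)) ^ 2 + C (v - u ^ 2 / 4) =
          X ^ 2 + C (2 * (u / 2)) * X + (C ((u / 2) ^ 2) + C (v - u ^ 2 / 4)) := by
        simp only [C_mul, C_pow, C_ofNat]; ring
      rw [this, ← C_add]
      congr 3
      · congr 1; ring
      · ring
    have hh : ∀ t, 0 < h.eval t := by
      intro t
      have h1 := hp t
      rw [eval_mul] at h1
      have h2 : 0 < g.eval t := by
        rw [hgsq]
        simp only [eval_add, eval_pow, eval_X, eval_C]
        have : 0 < β ^ 2 := by rw [hβ2]; exact hpos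
        positivity
      exact (mul_pos_iff_of_pos_left h2).mp h1
    have hh0 : h ≠ 0 := by
      intro h1
      have := hh 0
      rw [h1] at this
      simp at this
    have hdeg : (g * h).natDegree = 2 + h.natDegree := by
      rw [hgm.natDegree_mul' hh0, hd]
    rw [hdeg] at hpn ⊢
    obtain ⟨a, b, hab, ha, hb⟩ := ih h.natDegree (by omega) h le_rfl hh
    refine ⟨(X + C (u / 2)) * a - C β * b, (X + C (u / 2)) * b + C β * a, ?_, ?_, ?_⟩
    · nth_rewrite 1 [hgsq]
      nth_rewrite 1 [hab]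
      ring
    · have h1 : ((X + C (u / 2)) * a - C β * b).natDegree ≤ 1 + h.natDegree / 2 := by
        refine (natDegree_sub_le _ _).trans (max_le ?_ ?_)
        · refine (natDegree_mul_le).trans ?_
          have : (X + C (u / 2)).natDegree = 1 := natDegree_X_add_C _
          omega
        · refine (natDegree_mul_le).trans ?_
          rw [natDegree_C]; omega
      omega
    · have h1 : ((X + C (u / 2)) * b + C β * a).natDegree ≤ 1 + h.natDegree / 2 := by
        refine (natDegree_add_le _ _).trans (max_le ?_ ?_)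
        · refine (natDegree_mul_le).trans ?_
          have : (X + C (u / 2)).natDegree = 1 := natDegree_X_add_C _
          omega
        · refine (natDegree_mul_le).trans ?_
          rw [natDegree_C]; omega
      omega

/-- nonnegative rational constants times a square are sums of squares. -/
theorem const_sq {c : ℚ} (hc : 0 ≤ c) (a : ℚ[X]) : IsSumSq (C c * (a * a)) := by
  have h1 : IsSumSq (C c : ℚ[X]) := by
    have h2 : c = (c.num.toNat * c.den : ℕ) * (((c.den : ℚ)⁻¹) * ((c.den : ℚ)⁻¹)) := by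
      have h3 : ((c.num.toNat : ℕ) : ℚ) = c.num := by
        have : ((c.num.toNat : ℕ) : ℤ) = c.num := Int.toNat_of_nonneg (Rat.num_nonneg.mpr hc)
        exact_mod_cast this
      have h4 : (c.den : ℚ) ≠ 0 := by exact_mod_cast c.den_nz
      push_cast
      rw [h3]
      field_simp
      exact (Rat.mul_den_eq_num c)
    rw [h2, C_mul, C_mul]
    refine IsSumSq.mul ?_ (IsSumSq.mul_self _)
    rw [map_natCast]
    exact IsSumSq.natCast _
  exact h1.mul (IsSumSq.mul_self _)

/-- `∑_{k ≤ n} X^{2k}` -/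
noncomputable def EE (n : ℕ) : ℚ[X] := ∑ k ∈ Finset.range (n + 1), X ^ (2 * k)

/-- small perturbations of `2 η (1 + X² + ... + X^{2n})` are sums of squares. -/
theorem pert {η : ℚ} (hη : 0 ≤ η) (c : ℕ → ℚ) (hc : ∀ j, |c j| ≤ η) (n : ℕ) :
    IsSumSq ((∑ j ∈ Finset.range (2 * n + 1), C (c j) * X ^ j) +
      C (2 * η) * (∑ k ∈ Finset.range n, X ^ (2 * k)) + C (3 / 2 * η) * (X ^ n * X ^ n) : ℚ[X]) := by
  induction n with
  | zero =>
    have h1 := (abs_le.mp (hc 0)).1
    have h2 : IsSumSq (C (c 0 + 3 / 2 * η) * ((1 : ℚ[X]) * 1)) := const_sq (by linarith) 1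
    refine Eq.mpr (congrArg IsSumSq ?_) h2
    simp [C_add]
  | succ n ih =>
    have hA := ih
    -- odd term
    have hB : IsSumSq (C (η / 2) * (X ^ n * X ^ n) + C (c (2 * n + 1)) * X ^ (2 * n + 1) +
        C (η / 2) * (X ^ (n + 1) * X ^ (n + 1)) : ℚ[X]) := by
      have h1 := hc (2 * n + 1)
      have h2 : IsSumSq (C ((η - |c (2 * n + 1)|) / 2) * ((X ^ n : ℚ[X]) * X ^ n)) :=
        const_sq (by linarith) _
      have h3 : IsSumSq (C ((η - |c (2 * n + 1)|) / 2) * ((X ^ (n + 1) : ℚ[X]) * X ^ (n + 1))) :=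
        const_sq (by linarith) _
      rcases le_total 0 (c (2 * n + 1)) with h | h
      · have h4 : IsSumSq (C (|c (2 * n + 1)| / 2) * ((X ^ n + X ^ (n + 1) : ℚ[X]) *
            (X ^ n + X ^ (n + 1)))) := const_sq (by positivity) _
        have h5 := (h2.add h3).add h4
        refine Eq.mpr (congrArg IsSumSq ?_) h5
        rw [abs_of_nonneg h]
        have e1 : (C (η / 2) : ℚ[X]) = C ((η - c (2 * n + 1)) / 2) + C (c (2 * n + 1) / 2) := by
          rw [← C_add]; congr 1; ring
        have e2 : (C (c (2 * n + 1)) : ℚ[X]) = 2 * C (c (2 * n + 1) / 2) := by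
          rw [show (2 : ℚ[X]) = C 2 from rfl, ← C_mul]; congr 1; ring
        rw [e1, e2]
        ring
      · have h4 : IsSumSq (C (|c (2 * n + 1)| / 2) * ((X ^ n - X ^ (n + 1) : ℚ[X]) *
            (X ^ n - X ^ (n + 1)))) := const_sq (by positivity) _
        have h5 := (h2.add h3).add h4
        refine Eq.mpr (congrArg IsSumSq ?_) h5
        rw [abs_of_nonpos h]
        have e1 : (C (η / 2) : ℚ[X]) = C ((η - -c (2 * n + 1)) / 2) + C (-c (2 * n + 1) / 2) := by
          rw [← C_add]; congr 1; ring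
        have e2 : (C (c (2 * n + 1)) : ℚ[X]) = - (2 * C (-c (2 * n + 1) / 2)) := by
          rw [show (2 : ℚ[X]) = C 2 from rfl, ← C_mul, ← C_neg]; congr 1; ring
        rw [e1, e2]
        ring
    have hC : IsSumSq (C (c (2 * n + 2) + η) * (X ^ (n + 1) * X ^ (n + 1)) : ℚ[X]) :=
      const_sq (by have := (abs_le.mp (hc (2 * n + 2))).1; linarith) _
    have h5 := (hA.add hB).add hC
    refine Eq.mpr (congrArg IsSumSq ?_) h5
    rw [show 2 * (n + 1) + 1 = 2 * n + 1 + 1 + 1 by ring, Finset.sum_range_succ,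
      Finset.sum_range_succ _ (2 * n + 1), Finset.sum_range_succ _ n]
    have e1 : (C (2 * η) : ℚ[X]) = 4 * C (η / 2) := by
      rw [show (4 : ℚ[X]) = C 4 from rfl, ← C_mul]; congr 1; ring
    have e2 : (C (3 / 2 * η) : ℚ[X]) = 3 * C (η / 2) := by
      rw [show (3 : ℚ[X]) = C 3 from rfl, ← C_mul]; congr 1; ring
    have e3 : (C (c (2 * n + 2) + η) : ℚ[X]) = C (c (2 * n + 2)) + 2 * C (η / 2) := by
      rw [show (2 : ℚ[X]) = C 2 from rfl, ← C_mul, ← C_add]; congr 1; ring
    rw [e1, e2, e3, show 2 * n + 1 + 1 = 2 * n + 2 by ring]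
    ring

/-! ### positivity with room -/

/-- the real version of `EE n` -/
theorem EE_eval (n : ℕ) (t : ℝ) :
    ((EE n).map (algebraMap ℚ ℝ)).eval t = ∑ k ∈ Finset.range (n + 1), t ^ (2 * k) := by
  unfold EE
  rw [Polynomial.map_sum, eval_finsetSum]
  refine Finset.sum_congr rfl fun k _ => ?_
  simp

theorem EE_natDegree (n : ℕ) : (EE n).natDegree ≤ 2 * n := by
  unfold EE
  refine natDegree_sum_le_of_forall_le _ _ fun k hk => ?_
  rw [natDegree_X_pow]
  have := Finset.mem_range.mp hk
  omega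

/-- a positive polynomial of degree `2n` dominates a multiple of `1 + t² + ... + t^{2n}`. -/
theorem room {F : ℝ[X]} {n : ℕ} (hn : F.natDegree = 2 * n) (hF : ∀ t : ℝ, 0 < F.eval t) :
    ∃ ε : ℚ, 0 < ε ∧ ∀ t : ℝ, 0 < F.eval t - (ε : ℝ) * ∑ k ∈ Finset.range (n + 1), t ^ (2 * k) := by
  have hF0 : F ≠ 0 := by
    intro h
    have := hF 0
    rw [h] at this
    simp at this
  have hrev : ∀ s : ℝ, s ≠ 0 → F.reverse.eval s = s ^ (2 * n) * F.eval s⁻¹ := by
    intro s hs
    let _ : Invertible s⁻¹ := invertibleOfNonzero (inv_ne_zero hs)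
    have h1 := eval₂_reverse_mul_pow (RingHom.id ℝ) s⁻¹ F
    have h2 : ⅟(s⁻¹) = s := by rw [invOf_eq_inv, inv_inv]
    rw [h2, hn] at h1
    change F.reverse.eval s * s⁻¹ ^ (2 * n) = F.eval s⁻¹ at h1
    rw [← h1]
    have h3 : s ^ (2 * n) * s⁻¹ ^ (2 * n) = 1 := by
      rw [← mul_pow, mul_inv_cancel₀ hs, one_pow]
    linear_combination (-F.reverse.eval s) * h3
  have hrev0 : ∀ s : ℝ, 0 < F.reverse.eval s := by
    intro s
    rcases eq_or_ne s 0 with rfl | hs
    · have h1 : F.reverse.eval 0 = F.leadingCoeff := by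
        rw [← coeff_zero_eq_eval_zero, coeff_zero_reverse]
      have h2 : F.leadingCoeff ≠ 0 := leadingCoeff_ne_zero.mpr hF0
      have h3 : 0 ≤ F.reverse.eval 0 := by
        by_contra hneg
        push Not at hneg
        have hc : Continuous fun s : ℝ => F.reverse.eval s := F.reverse.continuous
        have hop : IsOpen {s : ℝ | F.reverse.eval s < 0} := isOpen_lt hc continuous_const
        obtain ⟨r, hr, hball⟩ := Metric.isOpen_iff.mp hop 0 hneg
        have h4 : F.reverse.eval (r / 2) < 0 := hball (by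
          rw [Metric.mem_ball, Real.dist_eq, sub_zero, abs_of_pos (by positivity)]
          linarith)
        rw [hrev _ (by positivity)] at h4
        have h5 : 0 < (r / 2) ^ (2 * n) * F.eval (r / 2)⁻¹ := mul_pos (by positivity) (hF _)
        linarith
      rw [h1] at h3 ⊢
      exact lt_of_le_of_ne h3 h2.symm
    · rw [hrev s hs]
      refine mul_pos ?_ (hF _)
      rw [pow_mul]
      positivity
  have hcomp : ∀ G : ℝ[X], (∀ t, 0 < G.eval t) → ∃ δ : ℝ, 0 < δ ∧ ∀ t ∈ Set.Icc (-1 : ℝ) 1, δ ≤ G.eval t := by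
    intro G hG
    obtain ⟨t0, _, ht0⟩ := isCompact_Icc.exists_isMinOn (Set.nonempty_Icc.mpr (by norm_num : (-1 : ℝ) ≤ 1))
      (f := fun t : ℝ => G.eval t) G.continuous.continuousOn
    exact ⟨G.eval t0, hG t0, fun t ht => ht0 ht⟩
  obtain ⟨δ1, hδ1, h1⟩ := hcomp F hF
  obtain ⟨δ2, hδ2, h2⟩ := hcomp F.reverse hrev0
  obtain ⟨ε, hε0, hε⟩ := exists_rat_btwn (show (0 : ℝ) < min δ1 δ2 / (n + 1) by positivity)
  have hε0' : (0 : ℝ) < ε := by exact_mod_cast hε0
  have hε' : (ε : ℝ) * (n + 1) < min δ1 δ2 := by rwa [lt_div_iff₀ (by positivity)] at hε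
  refine ⟨ε, by exact_mod_cast hε0, fun t => ?_⟩
  rcases le_total |t| 1 with ht | ht
  · have h3 := h1 t (abs_le.mp ht)
    have h4 : ∑ k ∈ Finset.range (n + 1), t ^ (2 * k) ≤ n + 1 := by
      have : ∀ k ∈ Finset.range (n + 1), t ^ (2 * k) ≤ 1 := by
        intro k _
        rw [pow_mul, ← sq_abs]
        exact pow_le_one₀ (by positivity) (pow_le_one₀ (abs_nonneg _) ht)
      calc _ ≤ ∑ _k ∈ Finset.range (n + 1), (1 : ℝ) := Finset.sum_le_sum this
        _ = n + 1 := by simp
    have h5 : (ε : ℝ) * ∑ k ∈ Finset.range (n + 1), t ^ (2 * k) ≤ ε * (n + 1) :=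
      mul_le_mul_of_nonneg_left h4 hε0'.le
    have := min_le_left δ1 δ2
    linarith
  · have ht0 : t ≠ 0 := by
      intro h; rw [h] at ht; simp at ht; linarith
    have h3 := h2 t⁻¹ (by
      rw [Set.mem_Icc, ← abs_le, abs_inv]
      exact inv_le_one_of_one_le₀ ht)
    rw [hrev _ (inv_ne_zero ht0), inv_inv] at h3
    have ht2 : 1 ≤ t ^ 2 := by rw [← sq_abs]; exact one_le_pow₀ ht
    have h4 : ∑ k ∈ Finset.range (n + 1), t ^ (2 * k) ≤ (n + 1) * t ^ (2 * n) := by
      have : ∀ k ∈ Finset.range (n + 1), t ^ (2 * k) ≤ t ^ (2 * n) := by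
        intro k hk
        rw [pow_mul, pow_mul]
        exact pow_le_pow_right₀ ht2 (by have := Finset.mem_range.mp hk; omega)
      calc _ ≤ ∑ _k ∈ Finset.range (n + 1), t ^ (2 * n) := Finset.sum_le_sum this
        _ = (n + 1) * t ^ (2 * n) := by simp
    have hp : 0 < t ^ (2 * n) := by rw [pow_mul]; positivity
    have h5 : (ε : ℝ) * ∑ k ∈ Finset.range (n + 1), t ^ (2 * k) ≤ ε * (n + 1) * t ^ (2 * n) := by
      rw [mul_assoc]
      exact mul_le_mul_of_nonneg_left h4 hε0'.le
    have h6 : δ2 * t ^ (2 * n) ≤ F.eval t := by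
      have : t⁻¹ ^ (2 * n) * t ^ (2 * n) = 1 := by
        rw [← mul_pow, inv_mul_cancel₀ ht0, one_pow]
      calc δ2 * t ^ (2 * n) ≤ (t⁻¹ ^ (2 * n) * F.eval t) * t ^ (2 * n) :=
            mul_le_mul_of_nonneg_right h3 hp.le
        _ = F.eval t * (t⁻¹ ^ (2 * n) * t ^ (2 * n)) := by ring
        _ = F.eval t := by rw [this, mul_one]
    have h7 : ε * (n + 1) * t ^ (2 * n) < δ2 * t ^ (2 * n) := by
      apply mul_lt_mul_of_pos_right _ hp
      exact hε'.trans_le (min_le_right _ _)
    linarith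

/-- **positive rational polynomials are sums of squares.** -/
theorem isSumSq_of_pos (f : ℚ[X]) (hf : ∀ t : ℝ, 0 < (f.map (algebraMap ℚ ℝ)).eval t) :
    IsSumSq f := by
  set F := f.map (algebraMap ℚ ℝ) with hFdef
  have hinj : Function.Injective (algebraMap ℚ ℝ) := (algebraMap ℚ ℝ).injective
  -- even degree
  obtain ⟨n, hn⟩ : ∃ n, F.natDegree = 2 * n := by
    obtain ⟨a, b, hab, ha, hb⟩ := two_squares _ F le_rfl hf
    have h1 : F.natDegree ≤ max (2 * a.natDegree) (2 * b.natDegree) := by
      rw [hab]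
      refine (natDegree_add_le _ _).trans (max_le_max ?_ ?_)
      · exact natDegree_pow_le
      · exact natDegree_pow_le
    rcases le_total a.natDegree b.natDegree with h | h
    · exact ⟨b.natDegree, by omega⟩
    · exact ⟨a.natDegree, by omega⟩
  obtain ⟨ε, hε, hroom⟩ := room hn hf
  set G : ℚ[X] := f - C ε * EE n with hG
  have hGeval : ∀ t : ℝ, 0 < (G.map (algebraMap ℚ ℝ)).eval t := by
    intro t
    have := hroom t
    rw [hG, Polynomial.map_sub, Polynomial.map_mul, map_C, eval_sub, eval_mul, eval_C, EE_eval]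
    exact this
  have hfdeg : f.natDegree = 2 * n := by
    rw [← hn, hFdef, natDegree_map_eq_of_injective hinj]
  have hGdeg : (G.map (algebraMap ℚ ℝ)).natDegree ≤ 2 * n := by
    rw [natDegree_map_eq_of_injective hinj]
    refine (natDegree_sub_le _ _).trans (max_le hfdeg.le ?_)
    exact (natDegree_C_mul_le _ _).trans (EE_natDegree n)
  obtain ⟨a, b, hab, ha, hb⟩ := two_squares _ _ le_rfl hGeval
  have ha' : a.natDegree ≤ n := by omega
  have hb' : b.natDegree ≤ n := by omega
  -- rational approximations of reals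
  have hu : ∀ x : ℝ, ∃ u : ℕ → ℚ, Filter.Tendsto (fun k => (u k : ℝ)) Filter.atTop (nhds x) := by
    intro x
    have h1 : x ∈ closure (Set.range ((↑) : ℚ → ℝ)) := Rat.denseRange_cast x
    obtain ⟨v, hv, hv'⟩ := mem_closure_iff_seq_limit.mp h1
    choose u hu using hv
    exact ⟨u, by simpa [hu] using hv'⟩
  choose u hu using hu
  let app : ℝ[X] → ℕ → ℚ[X] := fun p k => ∑ i ∈ Finset.range (n + 1), C (u (p.coeff i) k) * X ^ i
  have happc : ∀ (p : ℝ[X]) (k i : ℕ), (app p k).coeff i = if i < n + 1 then u (p.coeff i) k else 0 := by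
    intro p k i
    simp only [app, finsetSum_coeff, coeff_C_mul, coeff_X_pow, mul_ite, mul_one, mul_zero]
    rw [Finset.sum_ite_eq]
    simp
  have happ : ∀ p : ℝ[X], p.natDegree ≤ n → ∀ i, Filter.Tendsto (fun k => ((app p k).coeff i : ℝ))
      Filter.atTop (nhds (p.coeff i)) := by
    intro p hp i
    simp only [happc]
    split_ifs with h
    · exact hu _
    · have : p.coeff i = 0 := coeff_eq_zero_of_natDegree_lt (by omega)
      rw [this]
      simp
  have happd : ∀ (p : ℝ[X]) k, (app p k).natDegree ≤ n := by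
    intro p k
    rw [natDegree_le_iff_coeff_eq_zero]
    intro i hi
    rw [happc, if_neg (by omega)]
  have hsq : ∀ p : ℝ[X], p.natDegree ≤ n → ∀ i, Filter.Tendsto
      (fun k => ((app p k * app p k).coeff i : ℝ)) Filter.atTop (nhds ((p * p).coeff i)) := by
    intro p hp i
    simp only [coeff_mul, Rat.cast_sum, Rat.cast_mul]
    exact tendsto_finsetSum _ fun x _ => (happ p hp x.1).mul (happ p hp x.2)
  have hev : ∀ j ∈ Finset.range (2 * n + 1), ∀ᶠ k in Filter.atTop,
      |((G - app a k * app a k - app b k * app b k).coeff j : ℝ)| ≤ (ε : ℝ) / 2 := by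
    intro j _
    have h1 := ((tendsto_const_nhds (x := ((G.coeff j : ℚ) : ℝ))).sub (hsq a ha' j)).sub (hsq b hb' j)
    have h2 : ((G.coeff j : ℚ) : ℝ) - (a * a).coeff j - (b * b).coeff j = 0 := by
      have := congrArg (fun p => p.coeff j) hab
      simp only [coeff_map, coeff_add, pow_two] at this
      have h3 : (algebraMap ℚ ℝ) (G.coeff j) = ((G.coeff j : ℚ) : ℝ) := rfl
      rw [← h3, this]; ring
    rw [h2] at h1
    have h4 : ∀ᶠ x in nhds (0 : ℝ), |x| ≤ (ε : ℝ) / 2 := by
      have hp : (0 : ℝ) < (ε : ℝ) / 2 := by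
        have : (0 : ℝ) < ε := by exact_mod_cast hε
        positivity
      filter_upwards [Metric.ball_mem_nhds (0 : ℝ) hp] with x hx
      rw [Metric.mem_ball, Real.dist_eq, sub_zero] at hx
      exact hx.le
    filter_upwards [h1.eventually h4] with k hk
    simpa using hk
  obtain ⟨k, hk⟩ := ((Filter.eventually_all_finset _).mpr hev).exists
  set r := G - app a k * app a k - app b k * app b k with hr
  have hrdeg : r.natDegree ≤ 2 * n := by
    have hmul : ∀ p : ℝ[X], (app p k * app p k).natDegree ≤ 2 * n := fun p =>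
      natDegree_mul_le.trans (by have := happd p k; omega)
    have hGd : G.natDegree ≤ 2 * n := by
      rwa [natDegree_map_eq_of_injective hinj] at hGdeg
    exact (natDegree_sub_le _ _).trans (max_le ((natDegree_sub_le _ _).trans
      (max_le hGd (hmul a))) (hmul b))
  have hc : ∀ j, |r.coeff j| ≤ ε / 2 := by
    intro j
    rcases Nat.lt_or_ge j (2 * n + 1) with h | h
    · have := hk j (Finset.mem_range.mpr h)
      have h1 : ((|r.coeff j| : ℚ) : ℝ) ≤ ((ε / 2 : ℚ) : ℝ) := by push_cast; exact this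
      exact_mod_cast h1
    · rw [coeff_eq_zero_of_natDegree_lt (by omega), abs_zero]; positivity
  have h1 := pert (by positivity : (0 : ℚ) ≤ ε / 2) (fun j => r.coeff j) hc n
  have h2 : IsSumSq (C (1 / 4 * ε) * (X ^ n * X ^ n) : ℚ[X]) := const_sq (by positivity) _
  have h3 := ((IsSumSq.mul_self (app a k)).add (IsSumSq.mul_self (app b k))).add (h1.add h2)
  refine Eq.mpr (congrArg IsSumSq ?_) h3
  have h4 : r = ∑ j ∈ Finset.range (2 * n + 1), C (r.coeff j) * X ^ j := by
    conv_lhs => rw [r.as_sum_range_C_mul_X_pow' (show r.natDegree < 2 * n + 1 by omega)]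
  have h5 : f = app a k * app a k + app b k * app b k + (r + C ε * EE n) := by
    rw [hr, hG]; ring
  rw [← h4, h5]
  have h6 : EE n = (∑ k ∈ Finset.range n, X ^ (2 * k)) + X ^ n * X ^ n := by
    unfold EE
    rw [Finset.sum_range_succ]
    ring
  have e1 : (C (2 * (ε / 2)) : ℚ[X]) = C ε := by congr 1; ring
  have e2 : (C ε : ℚ[X]) = C (3 / 2 * (ε / 2)) + C (1 / 4 * ε) := by rw [← C_add]; congr 1; ring
  rw [h6, e1]
  linear_combination (X ^ n * X ^ n) * e2

end Crest.Agent.R267.P45SOS_96
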