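import Mathlib
import Crest.Agent.R267.P4Defs_780
import Crest.Agent.R267.P45SOS_96

/-!
# R267, P4.5 (TOR): real congruence implies rational congruence after taking copies (helper96)

For arbitrary invertible (nonsymmetric) rational matrices `A`, `B` which are congruent over `ℝ`,
some number `m > 0` of copies of `A` is congruent over `ℚ` to `m` copies of `B`.
-/

set_option autoImplicit false

namespace Crest.Agent.R267.P45Tor_96

open Matrix Polynomial Crest.Agent.R267.P4Defs_780

/-! ### rational retractions of the reals -/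

theorem exists_retract (F : Finset ℝ) : ∀ ε : ℝ, 0 < ε →
    ∃ φ : ℝ →ₗ[ℚ] ℚ, φ 1 = 1 ∧ ∀ x ∈ F, |((φ x : ℚ) : ℝ) - x| < ε := by
  classical
  induction F using Finset.induction_on with
  | empty =>
    intro ε _
    obtain ⟨g, hg⟩ := (Algebra.linearMap ℚ ℝ).exists_leftInverse_of_injective
      (LinearMap.ker_eq_bot.mpr (algebraMap ℚ ℝ).injective)
    refine ⟨g, ?_, by simp⟩
    have := LinearMap.congr_fun hg 1
    simpa using this
  | insert x F hx ih =>
    intro ε hε
    by_cases hmem : x ∈ Submodule.span ℚ ((insert (1 : ℝ) F : Finset ℝ) : Set ℝ)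
    · obtain ⟨c, _, hc⟩ := Submodule.mem_span_finset.mp hmem
      set S : ℝ := ∑ y ∈ insert (1 : ℝ) F, |(c y : ℝ)| with hS
      have hS0 : 0 ≤ S := Finset.sum_nonneg fun _ _ => abs_nonneg _
      obtain ⟨φ, hφ1, hφ⟩ := ih (ε / (1 + S)) (by positivity)
      have hφ' : ∀ y ∈ insert (1 : ℝ) F, |((φ y : ℚ) : ℝ) - y| ≤ ε / (1 + S) := by
        intro y hy
        rcases Finset.mem_insert.mp hy with rfl | hy
        · rw [hφ1]; simp; positivity
        · exact (hφ y hy).le
      refine ⟨φ, hφ1, fun y hy => ?_⟩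
      have hle : ε / (1 + S) ≤ ε := by
        rw [div_le_iff₀ (by positivity)]
        nlinarith
      rcases Finset.mem_insert.mp hy with rfl | hy
      · have h1 : ((φ y : ℚ) : ℝ) - y = ∑ z ∈ insert (1 : ℝ) F, (c z : ℝ) * (((φ z : ℚ) : ℝ) - z) := by
          nth_rewrite 1 [← hc]
          nth_rewrite 1 [← hc]
          rw [map_sum, Rat.cast_sum, ← Finset.sum_sub_distrib]
          refine Finset.sum_congr rfl fun z _ => ?_
          rw [map_smul, smul_eq_mul, Rat.smul_def]
          push_cast; ring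
        rw [h1]
        calc |∑ z ∈ insert (1 : ℝ) F, (c z : ℝ) * (((φ z : ℚ) : ℝ) - z)|
            ≤ ∑ z ∈ insert (1 : ℝ) F, |(c z : ℝ) * (((φ z : ℚ) : ℝ) - z)| :=
              Finset.abs_sum_le_sum_abs _ _
          _ ≤ ∑ z ∈ insert (1 : ℝ) F, |(c z : ℝ)| * (ε / (1 + S)) := by
              refine Finset.sum_le_sum fun z hz => ?_
              rw [abs_mul]
              exact mul_le_mul_of_nonneg_left (hφ' z hz) (abs_nonneg _)
          _ = S * (ε / (1 + S)) := by rw [← Finset.sum_mul]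
          _ < ε := by
              rw [mul_div_assoc', div_lt_iff₀ (by positivity)]
              nlinarith
      · exact (hφ y hy).trans_le hle
    · obtain ⟨f, hf, hf0⟩ := Submodule.exists_dual_map_eq_bot_of_notMem hmem inferInstance
      have hfz : ∀ y ∈ insert (1 : ℝ) F, f y = 0 := by
        intro y hy
        have h1 : f y ∈ (Submodule.span ℚ ((insert (1 : ℝ) F : Finset ℝ) : Set ℝ)).map f :=
          Submodule.mem_map_of_mem (Submodule.subset_span hy)
        rw [hf0] at h1
        exact (Submodule.mem_bot ℚ).mp h1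
      obtain ⟨φ, hφ1, hφ⟩ := ih ε hε
      obtain ⟨q, hq⟩ := exists_rat_near x hε
      refine ⟨φ + ((q - φ x) / f x) • f, ?_, fun y hy => ?_⟩
      · have := hfz 1 (Finset.mem_insert_self _ _)
        simp [this, hφ1]
      · rcases Finset.mem_insert.mp hy with rfl | hy
        · have h1 : (φ + ((q - φ y) / f y) • f) y = q := by
            rw [LinearMap.add_apply, LinearMap.smul_apply, smul_eq_mul, div_mul_cancel₀ _ hf]
            ring
          rw [h1, abs_sub_comm]
          exact hq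
        · have h1 : (φ + ((q - φ x) / f x) • f) y = φ y := by
            rw [LinearMap.add_apply, LinearMap.smul_apply, hfz y (Finset.mem_insert_of_mem hy)]
            simp
          rw [h1]
          exact hφ y hy

/-! ### symmetric square roots of sums of squares -/

theorem exists_sym {R : Type} [CommRing R] {s : R} (h : IsSumSq s) :
    ∃ (J : Type) (_ : Fintype J) (_ : DecidableEq J) (_ : Nonempty J) (U : Matrix J J R),
      Uᵀ = U ∧ U * U = s • (1 : Matrix J J R) := by
  induction h with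
  | zero => exact ⟨Unit, inferInstance, inferInstance, inferInstance, 0, by simp, by simp⟩
  | sq_add a hs ih =>
    obtain ⟨J, i1, i2, i3, U, hU, hU2⟩ := ih
    refine ⟨J ⊕ J, inferInstance, inferInstance, inferInstance,
      fromBlocks (a • 1) U U (-(a • 1)), ?_, ?_⟩
    · rw [fromBlocks_transpose, hU]
      simp
    · rw [fromBlocks_multiply, hU2, ← fromBlocks_one, fromBlocks_smul]
      congr 1
      · rw [add_smul, smul_mul_smul_comm, one_mul]
      · simp
      · simp
      · rw [add_smul, neg_mul_neg, smul_mul_smul_comm, one_mul, add_comm]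

/-! ### congruence calculus -/

section cong

variable {R : Type} [CommRing R] {ι κ μ : Type} [Fintype ι] [Fintype κ] [Fintype μ]
  [DecidableEq ι] [DecidableEq κ] [DecidableEq μ]

theorem Cong.refl (A : Matrix ι ι R) : Cong R A A := ⟨1, 1, by simp, by simp, by simp⟩

theorem Cong.symm {A : Matrix ι ι R} {B : Matrix κ κ R} (h : Cong R A B) : Cong R B A := by
  obtain ⟨P, Q, hPQ, hQP, hAB⟩ := h
  refine ⟨Q, P, hQP, hPQ, ?_⟩
  have h1 : Qᵀ * Pᵀ = 1 := by rw [← transpose_mul, hPQ, transpose_one]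
  rw [← hAB]
  calc Qᵀ * (Pᵀ * A * P) * Q = (Qᵀ * Pᵀ) * A * (P * Q) := by simp only [Matrix.mul_assoc]
    _ = A := by rw [h1, hPQ, Matrix.one_mul, Matrix.mul_one]

theorem Cong.trans {A : Matrix ι ι R} {B : Matrix κ κ R} {D : Matrix μ μ R} (h : Cong R A B)
    (h' : Cong R B D) : Cong R A D := by
  obtain ⟨P, Q, hPQ, hQP, hAB⟩ := h
  obtain ⟨P', Q', hPQ', hQP', hBD⟩ := h'
  refine ⟨P * P', Q' * Q, ?_, ?_, ?_⟩
  · calc P * P' * (Q' * Q) = P * (P' * Q') * Q := by simp only [Matrix.mul_assoc]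
      _ = 1 := by rw [hPQ', Matrix.mul_one, hPQ]
  · calc Q' * Q * (P * P') = Q' * (Q * P) * P' := by simp only [Matrix.mul_assoc]
      _ = 1 := by rw [hQP, Matrix.mul_one, hQP']
  · rw [← hBD, ← hAB, transpose_mul]
    simp only [Matrix.mul_assoc]

theorem Cong.reindex (A : Matrix ι ι R) (e : ι ≃ κ) : Cong R A (A.submatrix e.symm e.symm) := by
  refine ⟨(1 : Matrix ι ι R).submatrix id e.symm, (1 : Matrix ι ι R).submatrix e.symm id, ?_, ?_, ?_⟩
  · have h := submatrix_mul_equiv (1 : Matrix ι ι R) (1 : Matrix ι ι R) id e.symm id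
    rw [Matrix.mul_one] at h
    rw [h]; rfl
  · rw [← submatrix_mul _ _ _ _ _ Function.bijective_id, Matrix.mul_one, submatrix_one_equiv]
  · ext i j
    simp [Matrix.mul_apply, Matrix.one_apply]

theorem Cong.of_det {A : Matrix ι ι R} {P : Matrix ι ι R} (hP : IsUnit P.det) :
    Cong R A (Pᵀ * A * P) :=
  ⟨P, P⁻¹, Matrix.mul_nonsing_inv P hP, Matrix.nonsing_inv_mul P hP, rfl⟩

/-- congruence of `m` copies. -/
theorem Cong.blockDiagonal {A : Matrix ι ι R} {B : Matrix κ κ R} (h : Cong R A B) :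
    Cong R (blockDiagonal fun _ : μ => A) (blockDiagonal fun _ : μ => B) := by
  obtain ⟨P, Q, hPQ, hQP, hAB⟩ := h
  refine ⟨Matrix.blockDiagonal fun _ => P, Matrix.blockDiagonal fun _ => Q, ?_, ?_, ?_⟩
  · rw [← Matrix.blockDiagonal_mul, hPQ]; exact Matrix.blockDiagonal_one
  · rw [← Matrix.blockDiagonal_mul, hQP]; exact Matrix.blockDiagonal_one
  · rw [Matrix.blockDiagonal_transpose, ← Matrix.blockDiagonal_mul, ← Matrix.blockDiagonal_mul,
      hAB]

end cong

/-! ### evaluation at a self-adjoint matrix -/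

section core

variable {κ : Type} [Fintype κ] [DecidableEq κ]

theorem aeval_adj {B C : Matrix κ κ ℚ} (h : Cᵀ * B = B * C) (p : ℚ[X]) :
    (aeval C p)ᵀ * B = B * aeval C p := by
  induction p using Polynomial.induction_on' with
  | add p q hp hq => rw [map_add, transpose_add, Matrix.add_mul, hp, hq, Matrix.mul_add]
  | monomial n a =>
    have hpow : ∀ n : ℕ, (C ^ n)ᵀ * B = B * C ^ n := by
      intro n
      induction n with
      | zero => simp
      | succ n ih =>
        rw [pow_succ, transpose_mul, Matrix.mul_assoc, ih, ← Matrix.mul_assoc, h,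
          Matrix.mul_assoc, ← pow_succ', ← pow_succ]
    rw [aeval_monomial, Algebra.algebraMap_eq_smul_one, smul_mul_assoc, one_mul, transpose_smul,
      Matrix.smul_mul, hpow, Matrix.mul_smul]

/-- if `C` is `B`-self-adjoint and `C = f(C)` with `f` a sum of squares, then some number of
copies of `B` and `B * C` are congruent over `ℚ`. -/
theorem cong_of_sumSq {B C : Matrix κ κ ℚ} (h : Cᵀ * B = B * C) (hC : IsUnit C.det) {f : ℚ[X]}
    (hf : IsSumSq f) (hfC : aeval C f = C) :
    ∃ (J : Type) (_ : Fintype J) (_ : DecidableEq J) (_ : Nonempty J),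
      Cong ℚ (blockDiagonal fun _ : J => B) (blockDiagonal fun _ : J => B * C) := by
  obtain ⟨J, i1, i2, i3, U, hU, hU2⟩ := exists_sym hf
  refine ⟨J, i1, i2, i3, ?_⟩
  let W : Matrix (κ × J) (κ × J) ℚ := fun x y => (aeval C (U x.2 y.2)) x.1 y.1
  have hW2 : W * W = blockDiagonal fun _ : J => C := by
    ext ⟨i, a⟩ ⟨j, b⟩
    rw [Matrix.mul_apply, Fintype.sum_prod_type_right]
    have h1 : ∀ c : J, ∑ k : κ, W (i, a) (k, c) * W (k, c) (j, b) =
        (aeval C (U a c * U c b)) i j := by
      intro c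
      rw [map_mul, Matrix.mul_apply]
    simp only [h1]
    have h2 : ∑ c : J, (aeval C (U a c * U c b)) i j = (aeval C ((U * U) a b)) i j := by
      rw [Matrix.mul_apply, map_sum, Matrix.sum_apply]
    rw [h2, hU2, blockDiagonal_apply]
    by_cases hab : a = b
    · subst hab
      simp [hfC]
    · simp [hab]
  have hWB : Wᵀ * (blockDiagonal fun _ : J => B) * W = blockDiagonal fun _ : J => B * C := by
    have h3 : Wᵀ * (blockDiagonal fun _ : J => B) = (blockDiagonal fun _ : J => B) * W := by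
      ext ⟨i, a⟩ ⟨j, b⟩
      rw [Matrix.mul_apply, Matrix.mul_apply, Fintype.sum_prod_type_right,
        Fintype.sum_prod_type_right]
      have e1 : ∀ c : J, ∑ k : κ, Wᵀ (i, a) (k, c) * (blockDiagonal fun _ : J => B) (k, c) (j, b) =
          if c = b then ((aeval C (U c a))ᵀ * B) i j else 0 := by
        intro c
        by_cases hcb : c = b
        · subst hcb
          simp only [blockDiagonal_apply, if_true, Matrix.mul_apply]
          rfl
        · simp [blockDiagonal_apply, hcb]
      have e2 : ∀ c : J, ∑ k : κ, (blockDiagonal fun _ : J => B) (i, a) (k, c) * W (k, c) (j, b) =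
          if a = c then (B * (aeval C (U c b))) i j else 0 := by
        intro c
        by_cases hcb : a = c
        · subst hcb
          simp only [blockDiagonal_apply, if_true, Matrix.mul_apply]
          rfl
        · simp [blockDiagonal_apply, hcb]
      simp only [e1, e2, Finset.sum_ite_eq, Finset.sum_ite_eq', Finset.mem_univ, if_true]
      rw [aeval_adj h]
      have : U b a = U a b := by
        conv_rhs => rw [← hU]
        rfl
      rw [this]
    rw [h3, Matrix.mul_assoc, hW2, ← blockDiagonal_mul]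
  have hdet : IsUnit W.det := by
    have h4 : W.det * W.det = ∏ _c : J, C.det := by
      rw [← det_mul, hW2, det_blockDiagonal]
    have h5 : IsUnit (W.det * W.det) := by
      rw [h4, Finset.prod_const]
      exact hC.pow _
    exact isUnit_of_mul_isUnit_left h5
  have := Cong.of_det (A := blockDiagonal fun _ : J => B) hdet
  rwa [hWB] at this

/-- a rational matrix entrywise close to `1` has no nonpositive real characteristic root. -/
theorem charpoly_ne {C : Matrix κ κ ℚ}
    (hC : ∀ i j, |((C i j : ℚ) : ℝ) - (1 : Matrix κ κ ℝ) i j| < 1 / (Fintype.card κ + 1))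
    (t : ℝ) (ht : t ≤ 0) : (C.charpoly.map (algebraMap ℚ ℝ)).eval t ≠ 0 := by
  intro h0
  rw [← Matrix.charpoly_map, eval_charpoly] at h0
  obtain ⟨v, hv, hv0⟩ := Matrix.exists_mulVec_eq_zero_iff.mpr h0
  -- maximal entry
  have hne : Nonempty κ := by
    by_contra hemp
    rw [not_nonempty_iff] at hemp
    exact hv (Subsingleton.elim _ _)
  obtain ⟨i, hi⟩ := Finite.exists_max fun i => |v i|
  have hvi : 0 < |v i| := by
    obtain ⟨j, hj⟩ := Function.ne_iff.mp hv
    exact (abs_pos.mpr hj).trans_le (hi j)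
  have h1 := congrFun hv0 i
  have h2 : t * v i = ∑ j, ((C i j : ℚ) : ℝ) * v j := by
    have h3 : (Matrix.scalar κ t - C.map (algebraMap ℚ ℝ)).mulVec v i =
        t * v i - ∑ j, ((C i j : ℚ) : ℝ) * v j := by
      rw [Matrix.sub_mulVec, Pi.sub_apply]
      congr 1
      · rw [Matrix.scalar_apply, Matrix.mulVec_diagonal]
    rw [h3] at h1
    simpa [sub_eq_zero] using h1
  have h4 : (t - 1) * v i = ∑ j, (((C i j : ℚ) : ℝ) - (1 : Matrix κ κ ℝ) i j) * v j := by
    simp only [sub_mul, Finset.sum_sub_distrib, ← h2, one_mul]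
    congr 1
    simp [Matrix.one_apply]
  have h5 : |(t - 1) * v i| ≤ ∑ _j : κ, (1 / (Fintype.card κ + 1) : ℝ) * |v i| := by
    rw [h4]
    refine (Finset.abs_sum_le_sum_abs _ _).trans (Finset.sum_le_sum fun j _ => ?_)
    rw [abs_mul]
    exact mul_le_mul (hC i j).le (hi j) (abs_nonneg _) (by positivity)
  rw [Finset.sum_const, Finset.card_univ, nsmul_eq_mul, abs_mul] at h5
  have h6 : 1 ≤ |t - 1| := by
    rw [abs_of_nonpos (by linarith)]; linarith
  have h7 : (Fintype.card κ : ℝ) * (1 / (Fintype.card κ + 1) * |v i|) < |v i| := by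
    have : (Fintype.card κ : ℝ) / (Fintype.card κ + 1) < 1 := by
      rw [div_lt_one (by positivity)]; linarith
    calc (Fintype.card κ : ℝ) * (1 / (Fintype.card κ + 1) * |v i|) =
        ((Fintype.card κ : ℝ) / (Fintype.card κ + 1)) * |v i| := by ring
      _ < 1 * |v i| := mul_lt_mul_of_pos_right this hvi
      _ = |v i| := one_mul _
  nlinarith

end core

/-- `X + N m²` is positive for large `N` when `m` has positive degree and no nonpositive root. -/
theorem exists_N (m : ℝ[X]) (hd : 0 < m.natDegree) (hm : ∀ t : ℝ, t ≤ 0 → m.eval t ≠ 0) :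
    ∃ N : ℕ, ∀ t : ℝ, 0 < t + N * m.eval t ^ 2 := by
  -- the function `-t / m(t)²` is bounded on `(-∞, 0]`
  have hm0 : m ≠ 0 := by
    intro h; rw [h] at hd; simp at hd
  set p : ℝ[X] := m.comp (-X) with hp
  have hpe : ∀ x : ℝ, p.eval x = m.eval (-x) := by intro x; rw [hp]; simp
  have hpd : p.natDegree = m.natDegree := by
    rw [hp, natDegree_comp]; simp
  have hp0 : p ≠ 0 := by
    intro h
    rw [h] at hpd
    simp at hpd
    omega
  have hlim : Filter.Tendsto (fun x : ℝ => (X : ℝ[X]).eval x / (p ^ 2).eval x) Filter.atTop (nhds 0) := by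
    apply div_tendsto_atTop_zero_of_degree_lt
    rw [degree_X, degree_eq_natDegree (pow_ne_zero 2 hp0), natDegree_pow, hpd]
    have : 1 < 2 * m.natDegree := by omega
    exact_mod_cast this
  have hev : ∀ᶠ x : ℝ in Filter.atTop, (X : ℝ[X]).eval x / (p ^ 2).eval x < 1 :=
    hlim.eventually (gt_mem_nhds one_pos)
  obtain ⟨T, hT⟩ := Filter.eventually_atTop.mp hev
  have hcont : ContinuousOn (fun x : ℝ => x / p.eval x ^ 2) (Set.Icc 0 (max T 0)) := by
    apply ContinuousOn.div continuousOn_id (p.continuous.pow 2).continuousOn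
    intro x hx
    change p.eval x ^ 2 ≠ 0
    rw [hpe]
    exact pow_ne_zero 2 (hm _ (by linarith [hx.1]))
  obtain ⟨M, hM⟩ := isCompact_Icc.bddAbove_image hcont
  obtain ⟨N, hN⟩ := exists_nat_gt (max M 1)
  refine ⟨N, fun t => ?_⟩
  have hN1 : (1 : ℝ) < N := (le_max_right M 1).trans_lt hN
  have hNM : M < N := (le_max_left M 1).trans_lt hN
  rcases lt_or_ge 0 t with ht | ht
  · positivity
  · have hmt := hm t ht
    have hsq : 0 < m.eval t ^ 2 := by positivity
    have key : (-t) / m.eval t ^ 2 < N := by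
      rcases le_or_gt (-t) (max T 0) with h | h
      · have h1 := hM (Set.mem_image_of_mem _ (show -t ∈ Set.Icc 0 (max T 0) from ⟨by linarith, h⟩))
        simp only [hpe, neg_neg] at h1
        exact h1.trans_lt hNM
      · have h1 := hT (-t) ((le_max_left T 0).trans h.le)
        rw [eval_X, eval_pow, hpe, neg_neg] at h1
        exact h1.trans hN1
    rw [div_lt_iff₀ hsq] at key
    linarith

section tor

variable {ι κ : Type} [Fintype ι] [Fintype κ] [DecidableEq ι] [DecidableEq κ]

/-- the approximation step: a rational congruence to `B * C` with `C` self-adjoint, close to 1. -/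
theorem exists_approx {A B : Matrix κ κ ℚ} (hB : IsUnit B.det)
    (h : Cong ℝ (A.map (algebraMap ℚ ℝ)) (B.map (algebraMap ℚ ℝ))) :
    ∃ P : Matrix κ κ ℚ, IsUnit P.det ∧ (B⁻¹ * (Pᵀ * A * P))ᵀ * B = B * (B⁻¹ * (Pᵀ * A * P)) ∧
      ∀ i j, |(((B⁻¹ * (Pᵀ * A * P)) i j : ℚ) : ℝ) - (1 : Matrix κ κ ℝ) i j| <
        1 / (Fintype.card κ + 1) := by
  obtain ⟨P0, Q0, hPQ, hQP, hAB⟩ := h
  set r := algebraMap ℚ ℝ with hr
  have hmap : ∀ M N : Matrix κ κ ℚ, (M * N).map r = M.map r * N.map r := fun M N =>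
    Matrix.map_mul
  have hBB : B * B⁻¹ = 1 := Matrix.mul_nonsing_inv B hB
  have hBB' : B⁻¹ * B = 1 := Matrix.nonsing_inv_mul B hB
  -- the linear relation
  set S : Matrix κ κ ℚ := B⁻¹ * Bᵀ with hS
  have hBS : B * S = Bᵀ := by rw [hS, ← Matrix.mul_assoc, hBB, Matrix.one_mul]
  have hlin : A.map r * P0 * S.map r = (A.map r)ᵀ * P0 := by
    have h1 : Q0ᵀ * P0ᵀ = 1 := by rw [← transpose_mul, hPQ, transpose_one]
    have h2 : P0ᵀ * (A.map r * P0 * S.map r) = P0ᵀ * ((A.map r)ᵀ * P0) := by
      calc P0ᵀ * (A.map r * P0 * S.map r) = (P0ᵀ * A.map r * P0) * S.map r := by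
            simp only [Matrix.mul_assoc]
        _ = (B * S).map r := by rw [hAB, hmap B S]
        _ = (B.map r)ᵀ := by rw [hBS, transpose_map]
        _ = P0ᵀ * ((A.map r)ᵀ * P0) := by
            rw [← hAB]; simp only [transpose_mul, transpose_transpose, Matrix.mul_assoc]
    calc A.map r * P0 * S.map r = (Q0ᵀ * P0ᵀ) * (A.map r * P0 * S.map r) := by
          rw [h1, Matrix.one_mul]
      _ = Q0ᵀ * (P0ᵀ * (A.map r * P0 * S.map r)) := by rw [Matrix.mul_assoc]
      _ = Q0ᵀ * (P0ᵀ * ((A.map r)ᵀ * P0)) := by rw [h2]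
      _ = (Q0ᵀ * P0ᵀ) * ((A.map r)ᵀ * P0) := by rw [Matrix.mul_assoc]
      _ = (A.map r)ᵀ * P0 := by rw [h1, Matrix.one_mul]
  -- open conditions
  let Ψ : Matrix κ κ ℝ → Matrix κ κ ℝ := fun M => (B⁻¹).map r * (Mᵀ * A.map r * M)
  have hΨc : Continuous Ψ := by
    refine Continuous.matrix_mul continuous_const ?_
    exact (continuous_id.matrix_transpose.matrix_mul continuous_const).matrix_mul continuous_id
  have hΨ0 : Ψ P0 = 1 := by
    change (B⁻¹).map r * (P0ᵀ * A.map r * P0) = 1
    rw [hAB, ← hmap, hBB']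
    ext i j
    simp [Matrix.one_apply]
  let O : Set (κ → κ → ℝ) := {M | Matrix.det (M : Matrix κ κ ℝ) ≠ 0 ∧
    ∀ i j, |Ψ M i j - (1 : Matrix κ κ ℝ) i j| < 1 / (Fintype.card κ + 1)}
  have hO : IsOpen O := by
    have h1 : IsOpen {M : κ → κ → ℝ | Matrix.det (M : Matrix κ κ ℝ) ≠ 0} :=
      isOpen_ne_fun (Continuous.matrix_det continuous_id) continuous_const
    have h2 : IsOpen {M : κ → κ → ℝ | ∀ i j, |Ψ M i j - (1 : Matrix κ κ ℝ) i j| <
        1 / (Fintype.card κ + 1)} := by
      simp only [Set.ofPred_forall]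
      refine isOpen_iInter_of_finite fun i => isOpen_iInter_of_finite fun j => ?_
      refine isOpen_lt ?_ continuous_const
      exact ((hΨc.matrix_elem i j).sub continuous_const).abs
    exact h1.inter h2
  have hP0O : P0 ∈ O := by
    refine ⟨?_, fun i j => ?_⟩
    · have : P0.det * Q0.det = 1 := by rw [← det_mul, hPQ, det_one]
      exact left_ne_zero_of_mul_eq_one this
    · rw [hΨ0, sub_self, abs_zero]; positivity
  obtain ⟨η, hη, hball'⟩ := Metric.isOpen_iff.mp hO (fun i j => P0 i j) hP0O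
  have hball : ∀ M : Matrix κ κ ℝ, (∀ i j, |M i j - P0 i j| < η) → M ∈ O := by
    intro M hM
    refine hball' (a := fun i j => M i j) ?_
    rw [Metric.mem_ball, dist_pi_lt_iff hη]
    intro i
    rw [dist_pi_lt_iff hη]
    intro j
    rw [Real.dist_eq]
    exact hM i j
  obtain ⟨φ, hφ1, hφ⟩ := exists_retract (Finset.univ.image fun x : κ × κ => P0 x.1 x.2) η hη
  set P : Matrix κ κ ℚ := P0.map φ with hPdef
  have hPmem : P.map r ∈ O := by
    apply hball
    intro i j
    exact hφ _ (Finset.mem_image_of_mem (fun x : κ × κ => P0 x.1 x.2) (Finset.mem_univ (i, j)))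
  -- the linear relation over `ℚ`
  have hφl : ∀ (M : Matrix κ κ ℚ) (N : Matrix κ κ ℝ), (M.map r * N).map φ = M * N.map φ := by
    intro M N
    ext i j
    simp only [Matrix.map_apply, Matrix.mul_apply, map_sum]
    refine Finset.sum_congr rfl fun k _ => ?_
    have : r (M i k) * N k j = (M i k) • N k j := by rw [Rat.smul_def]; rfl
    rw [this, map_smul, smul_eq_mul]
  have hφr : ∀ (M : Matrix κ κ ℚ) (N : Matrix κ κ ℝ), (N * M.map r).map φ = N.map φ * M := by
    intro M N
    ext i j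
    simp only [Matrix.map_apply, Matrix.mul_apply, map_sum]
    refine Finset.sum_congr rfl fun k _ => ?_
    have : N i k * r (M k j) = (M k j) • N i k := by rw [Rat.smul_def, mul_comm]; rfl
    rw [this, map_smul, smul_eq_mul, mul_comm]
  have hlinQ : A * P * S = Aᵀ * P := by
    have h1 := congrArg (fun M : Matrix κ κ ℝ => M.map φ) hlin
    have h2 : (A.map r * P0 * S.map r).map φ = A * P * S := by rw [hφr, hφl]
    have h3 : ((A.map r)ᵀ * P0).map φ = Aᵀ * P := hφl Aᵀ P0
    rw [← h2, ← h3]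
    exact h1
  have hdetmap : ((P.det : ℚ) : ℝ) = (P.map r).det := RingHom.map_det r P
  refine ⟨P, ?_, ?_, ?_⟩
  · rw [isUnit_iff_ne_zero]
    intro h0
    apply hPmem.1
    rw [← hdetmap, h0, Rat.cast_zero]
  · -- self-adjointness
    have h1 : (B⁻¹ * (Pᵀ * A * P))ᵀ = Pᵀ * Aᵀ * P * (B⁻¹)ᵀ := by
      simp only [transpose_mul, transpose_transpose, Matrix.mul_assoc]
    have h2 : S * ((B⁻¹)ᵀ * B) = 1 := by
      rw [hS]
      calc B⁻¹ * Bᵀ * ((B⁻¹)ᵀ * B) = B⁻¹ * (Bᵀ * (B⁻¹)ᵀ) * B := by simp only [Matrix.mul_assoc]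
        _ = 1 := by rw [← transpose_mul, hBB', transpose_one, Matrix.mul_one, hBB']
    rw [h1, ← Matrix.mul_assoc, hBB, Matrix.one_mul]
    calc Pᵀ * Aᵀ * P * (B⁻¹)ᵀ * B = Pᵀ * (Aᵀ * P) * ((B⁻¹)ᵀ * B) := by
          simp only [Matrix.mul_assoc]
      _ = Pᵀ * (A * P * S) * ((B⁻¹)ᵀ * B) := by rw [hlinQ]
      _ = Pᵀ * A * P * (S * ((B⁻¹)ᵀ * B)) := by simp only [Matrix.mul_assoc]
      _ = Pᵀ * A * P := by rw [h2, Matrix.mul_one]
  · intro i j
    have h1 : Ψ (P.map r) = (B⁻¹ * (Pᵀ * A * P)).map r := by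
      change (B⁻¹).map r * ((P.map r)ᵀ * A.map r * P.map r) = _
      rw [hmap, hmap, hmap, transpose_map]
    have h2 := hPmem.2 i j
    rw [h1] at h2
    exact h2

theorem tor_same {A B : Matrix κ κ ℚ} (hA : IsUnit A.det) (hB : IsUnit B.det)
    (h : Cong ℝ (A.map (algebraMap ℚ ℝ)) (B.map (algebraMap ℚ ℝ))) :
    ∃ (J : Type) (_ : Fintype J) (_ : DecidableEq J) (_ : Nonempty J),
      Cong ℚ (blockDiagonal fun _ : J => A) (blockDiagonal fun _ : J => B) := by
  obtain ⟨P, hP, hadj, hclose⟩ := exists_approx hB h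
  set C : Matrix κ κ ℚ := B⁻¹ * (Pᵀ * A * P) with hC
  have hBC : B * C = Pᵀ * A * P := by
    rw [hC, ← Matrix.mul_assoc, Matrix.mul_nonsing_inv B hB, Matrix.one_mul]
  have hCdet : IsUnit C.det := by
    rw [hC, det_mul, det_mul, det_mul, det_transpose]
    have h1 : IsUnit (B⁻¹).det := Matrix.isUnit_nonsing_inv_det B hB
    exact h1.mul ((hP.mul hA).mul hP)
  -- the polynomial
  set m : ℚ[X] := (X - 1) * C.charpoly with hm
  have hmC : aeval C m = 0 := by rw [hm, map_mul, Matrix.aeval_self_charpoly, mul_zero]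
  have hmmap : m.map (algebraMap ℚ ℝ) = (X - 1) * C.charpoly.map (algebraMap ℚ ℝ) := by
    rw [hm, Polynomial.map_mul]; simp
  have hmdeg : 0 < (m.map (algebraMap ℚ ℝ)).natDegree := by
    rw [natDegree_map_eq_of_injective (algebraMap ℚ ℝ).injective, hm,
      Monic.natDegree_mul (by simpa using monic_X_sub_C (1 : ℚ)) C.charpoly_monic]
    have : (X - 1 : ℚ[X]).natDegree = 1 := by simpa using natDegree_X_sub_C (1 : ℚ)
    omega
  obtain ⟨N, hN⟩ := exists_N _ hmdeg (fun t ht => by
    rw [hmmap, eval_mul]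
    refine mul_ne_zero ?_ (charpoly_ne hclose t ht)
    simp only [eval_sub, eval_X, eval_one]
    linarith)
  have hpos : ∀ t : ℝ, 0 < ((X + (N : ℚ[X]) * m ^ 2 : ℚ[X]).map (algebraMap ℚ ℝ)).eval t := by
    intro t
    have := hN t
    simpa using this
  have hsq := P45SOS_96.isSumSq_of_pos _ hpos
  obtain ⟨J, i1, i2, i3, hJ⟩ := cong_of_sumSq (f := X + (N : ℚ[X]) * m ^ 2) hadj hCdet hsq
    (by simp [hmC])
  refine ⟨J, i1, i2, i3, ?_⟩
  rw [hBC] at hJ
  exact Cong.trans (Cong.blockDiagonal (μ := J) (Cong.of_det (A := A) hP)) (Cong.symm hJ)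

/-- **TOR**: two invertible rational matrices which are congruent over `ℝ` become congruent over
`ℚ` after taking a suitable number `m > 0` of copies of each. -/
theorem tor (A : Matrix ι ι ℚ) (B : Matrix κ κ ℚ) (hA : IsUnit A.det) (hB : IsUnit B.det)
    (h : Cong ℝ (A.map (algebraMap ℚ ℝ)) (B.map (algebraMap ℚ ℝ))) :
    ∃ m : ℕ, 0 < m ∧
      Cong ℚ (blockDiagonal fun _ : Fin m => A) (blockDiagonal fun _ : Fin m => B) := by
  have hcard : Fintype.card ι = Fintype.card κ := by
    obtain ⟨P, Q, hPQ, hQP, _⟩ := h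
    exact Matrix.square_of_invertible P Q hPQ hQP
  have e : ι ≃ κ := Fintype.equivOfCardEq hcard
  have h1 : Cong ℚ A (A.submatrix e.symm e.symm) := Cong.reindex A e
  have h2 : Cong ℝ ((A.submatrix e.symm e.symm).map (algebraMap ℚ ℝ)) (B.map (algebraMap ℚ ℝ)) := by
    rw [← submatrix_map]
    exact Cong.trans (Cong.symm (Cong.reindex _ e)) h
  have hA' : IsUnit (A.submatrix e.symm e.symm).det := by
    rwa [det_submatrix_equiv_self]
  obtain ⟨J, i1, i2, i3, hJ⟩ := tor_same hA' hB h2
  refine ⟨Fintype.card J, Fintype.card_pos, ?_⟩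
  let eJ : J ≃ Fin (Fintype.card J) := Fintype.equivFin J
  have hre : ∀ {μ : Type} [Fintype μ] [DecidableEq μ] (M : Matrix μ μ ℚ),
      Cong ℚ (blockDiagonal fun _ : J => M) (blockDiagonal fun _ : Fin (Fintype.card J) => M) := by
    intro μ _ _ M
    have := Cong.reindex (blockDiagonal fun _ : J => M) ((Equiv.refl μ).prodCongr eJ)
    refine Eq.mp ?_ this
    congr 1
    ext ⟨i, a⟩ ⟨j, b⟩
    simp [blockDiagonal_apply]
  exact Cong.trans (Cong.symm (hre A))
    (Cong.trans (Cong.trans (Cong.blockDiagonal (μ := J) h1) hJ) (hre B))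

end tor

end Crest.Agent.R267.P45Tor_96
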