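import Mathlib
import Crest.Agent.R267.P45Tor_96

/-!
# R267, P4.5 (CANC): cancellation for nonsymmetric forms over `ℚ` (helper96)

If `D`, `D + Dᵀ`, `D - Dᵀ` are invertible then `A ⊕ D ≅ B ⊕ D` implies `A ≅ B`.
-/

set_option autoImplicit false

namespace Crest.Agent.R267.P45Canc_96

open Matrix Crest.Agent.R267.P4Defs_780 Crest.Agent.R267.P45Tor_96

section loop

variable {ι κ μ : Type} [Fintype ι] [Fintype κ] [Fintype μ]
  [DecidableEq ι] [DecidableEq κ] [DecidableEq μ]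

/-- independence of the kernels of `g_λ - δ`. -/
theorem indep {X δ : Matrix μ μ ℚ} (hX : IsUnit X.det) (hc : X * δ = δ * X)
    (g : ℚ → Matrix μ μ ℚ) (G : Set ℚ)
    (hg : ∀ l ∈ G, g l * (l • 1 - X) = l • 1 + X)
    (hgδ : ∀ l ∈ G, g l * δ = δ * g l) (hgX : ∀ l ∈ G, g l * X = X * g l)
    (hgg : ∀ l ∈ G, ∀ l' ∈ G, g l * g l' = g l' * g l)
    (hinv : ∀ l ∈ G, IsUnit (l • (1 : Matrix μ μ ℚ) - X).det) (s : Finset ℚ) :
    (∀ l ∈ s, l ∈ G) → ∀ w : ℚ → μ → ℚ, (∀ l ∈ s, (g l - δ).mulVec (w l) = 0) →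
      ∑ l ∈ s, w l = 0 → ∀ l ∈ s, w l = 0 := by
  induction s using Finset.induction_on with
  | empty => intro _ w _ _ l hl; simp at hl
  | insert v s hv ih =>
    intro hs w hw hsum
    have hvG := hs v (Finset.mem_insert_self _ _)
    have hsG : ∀ l ∈ s, l ∈ G := fun l hl => hs l (Finset.mem_insert_of_mem hl)
    rw [Finset.sum_insert hv] at hsum
    have h1 : ∑ l ∈ s, (g v - δ).mulVec (w l) = 0 := by
      have := congrArg (fun x => (g v - δ).mulVec x) hsum
      simp only [Matrix.mulVec_add, hw v (Finset.mem_insert_self _ _), zero_add,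
        Matrix.mulVec_zero] at this
      rw [← Matrix.mulVec_sum]
      exact this
    have hcomm : ∀ l ∈ s, (g l - δ) * (g v - δ) = (g v - δ) * (g l - δ) := by
      intro l hl
      rw [sub_mul, mul_sub, mul_sub, sub_mul, mul_sub, mul_sub, hgg l (hsG l hl) v hvG,
        hgδ l (hsG l hl), hgδ v hvG]
      abel
    have h2 := ih hsG (fun l => (g v - δ).mulVec (w l)) (fun l hl => by
      rw [Matrix.mulVec_mulVec, hcomm l hl, ← Matrix.mulVec_mulVec,
        hw l (Finset.mem_insert_of_mem hl), Matrix.mulVec_zero]) h1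
    have h3 : ∀ l ∈ s, w l = 0 := by
      intro l hl
      have hlG := hsG l hl
      have hne : l ≠ v := fun h => hv (h ▸ hl)
      have e1 : (g l - g v).mulVec (w l) = 0 := by
        have e2 : g l - g v = (g l - δ) - (g v - δ) := by abel
        rw [e2, Matrix.sub_mulVec, hw l (Finset.mem_insert_of_mem hl), h2 l hl, sub_zero]
      -- `(g l - g v) (l - X) (v - X) = 2 (v - l) X`
      have e3 : ((l • (1 : Matrix μ μ ℚ) - X) * (v • 1 - X)) * (g l - g v) =
          (2 * (v - l)) • X := by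
        have c1 : (l • (1 : Matrix μ μ ℚ) - X) * g l = l • 1 + X := by
          rw [← hg l hlG, mul_sub, sub_mul, hgX l hlG]
          simp
        have c2 : (v • (1 : Matrix μ μ ℚ) - X) * g v = v • 1 + X := by
          rw [← hg v hvG, mul_sub, sub_mul, hgX v hvG]
          simp
        have c3 : (l • (1 : Matrix μ μ ℚ) - X) * (v • 1 - X) = (v • 1 - X) * (l • 1 - X) := by
          simp only [sub_mul, mul_sub, smul_mul_assoc, mul_smul_comm, one_mul, mul_one]
          module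
        rw [mul_sub]
        nth_rewrite 1 [c3]
        rw [Matrix.mul_assoc, c1, Matrix.mul_assoc, c2]
        simp only [sub_mul, mul_sub, mul_add, smul_mul_assoc, mul_smul_comm, one_mul, mul_one]
        module
      have e4 : ((2 * (v - l)) • X).mulVec (w l) = 0 := by
        rw [← e3, ← Matrix.mulVec_mulVec, e1, Matrix.mulVec_zero]
      rw [Matrix.smul_mulVec, smul_eq_zero] at e4
      rcases e4 with e4 | e4
      · exfalso
        apply hne
        have : v - l = 0 := by linarith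
        linarith
      · exact Matrix.eq_zero_of_mulVec_eq_zero hX.ne_zero e4
    intro l hl
    rcases Finset.mem_insert.mp hl with rfl | hl
    · rw [Finset.sum_eq_zero h3, add_zero] at hsum
      exact hsum
    · exact h3 l hl

/-- a good parameter for the Cayley transform. -/
theorem exists_good {X δ : Matrix μ μ ℚ} (hX : IsUnit X.det) (hc : X * δ = δ * X) :
    ∃ l : ℚ, IsUnit (l • (1 : Matrix μ μ ℚ) - X).det ∧
      IsUnit ((l • (1 : Matrix μ μ ℚ) + X) * (l • (1 : Matrix μ μ ℚ) - X)⁻¹ - δ).det := by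
  set G : Set ℚ := {l | IsUnit (l • (1 : Matrix μ μ ℚ) - X).det} with hG
  have hchar : ∀ l : ℚ, X.charpoly.eval l = (l • (1 : Matrix μ μ ℚ) - X).det := by
    intro l
    rw [eval_charpoly]
    congr 1
    rw [smul_one_eq_diagonal]
    rfl
  have hGinf : G.Infinite := by
    have h1 : Gᶜ ⊆ {l | X.charpoly.IsRoot l} := by
      intro l hl
      have h2 : ¬ IsUnit (l • (1 : Matrix μ μ ℚ) - X).det := hl
      rw [isUnit_iff_ne_zero, not_not] at h2
      change X.charpoly.eval l = 0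
      rw [hchar, h2]
    have h2 : {l | X.charpoly.IsRoot l}.Finite :=
      Polynomial.finite_setOf_isRoot X.charpoly_monic.ne_zero
    have h3 : (Gᶜ).Finite := h2.subset h1
    intro h4
    have := h4.union h3
    rw [Set.union_compl_self] at this
    exact Set.infinite_univ this
  obtain ⟨s, hsG, hcard⟩ := hGinf.exists_subset_card_eq (Fintype.card μ + 1)
  let g : ℚ → Matrix μ μ ℚ := fun l => (l • (1 : Matrix μ μ ℚ) + X) * (l • (1 : Matrix μ μ ℚ) - X)⁻¹
  -- commutation facts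
  have hcomX : ∀ (l : ℚ) (Y : Matrix μ μ ℚ), X * Y = Y * X →
      (l • (1 : Matrix μ μ ℚ) - X) * Y = Y * (l • (1 : Matrix μ μ ℚ) - X) := by
    intro l Y hY
    rw [sub_mul, mul_sub, hY]; simp
  have hcomX' : ∀ (l : ℚ) (Y : Matrix μ μ ℚ), X * Y = Y * X →
      (l • (1 : Matrix μ μ ℚ) + X) * Y = Y * (l • (1 : Matrix μ μ ℚ) + X) := by
    intro l Y hY
    rw [add_mul, mul_add, hY]; simp
  have hinvc : ∀ l ∈ G, ∀ Y : Matrix μ μ ℚ, X * Y = Y * X →
      (l • (1 : Matrix μ μ ℚ) - X)⁻¹ * Y = Y * (l • (1 : Matrix μ μ ℚ) - X)⁻¹ := by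
    intro l hl Y hY
    have h1 := hcomX l Y hY
    have hu : IsUnit (l • (1 : Matrix μ μ ℚ) - X).det := hl
    calc (l • (1 : Matrix μ μ ℚ) - X)⁻¹ * Y
        = (l • (1 : Matrix μ μ ℚ) - X)⁻¹ * Y *
            ((l • (1 : Matrix μ μ ℚ) - X) * (l • (1 : Matrix μ μ ℚ) - X)⁻¹) := by
          rw [Matrix.mul_nonsing_inv _ hu, Matrix.mul_one]
      _ = (l • (1 : Matrix μ μ ℚ) - X)⁻¹ * (Y * (l • (1 : Matrix μ μ ℚ) - X)) *
            (l • (1 : Matrix μ μ ℚ) - X)⁻¹ := by simp only [Matrix.mul_assoc]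
      _ = (l • (1 : Matrix μ μ ℚ) - X)⁻¹ * (l • (1 : Matrix μ μ ℚ) - X) * Y *
            (l • (1 : Matrix μ μ ℚ) - X)⁻¹ := by rw [← h1]; simp only [Matrix.mul_assoc]
      _ = Y * (l • (1 : Matrix μ μ ℚ) - X)⁻¹ := by
          rw [Matrix.nonsing_inv_mul _ hu, Matrix.one_mul]
  have hgY : ∀ l ∈ G, ∀ Y : Matrix μ μ ℚ, X * Y = Y * X → g l * Y = Y * g l := by
    intro l hl Y hY
    change (l • (1 : Matrix μ μ ℚ) + X) * (l • (1 : Matrix μ μ ℚ) - X)⁻¹ * Y =
      Y * ((l • (1 : Matrix μ μ ℚ) + X) * (l • (1 : Matrix μ μ ℚ) - X)⁻¹)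
    rw [Matrix.mul_assoc, hinvc l hl Y hY, ← Matrix.mul_assoc, hcomX' l Y hY, Matrix.mul_assoc]
  have hgX : ∀ l ∈ G, g l * X = X * g l := fun l hl => hgY l hl X rfl
  by_contra hcon
  push Not at hcon
  have hker : ∀ l ∈ s, ∃ w : μ → ℚ, w ≠ 0 ∧ (g l - δ).mulVec w = 0 := by
    intro l hl
    have h1 := hcon l (hsG hl)
    rw [isUnit_iff_ne_zero, not_not] at h1
    exact Matrix.exists_mulVec_eq_zero_iff.mpr h1
  choose! w hw0 hw using hker
  have hli : LinearIndependent ℚ (fun l : s => w l) := by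
    rw [Fintype.linearIndependent_iff]
    intro c hc0
    have h1 := indep hX hc g G (fun l hl => by
        change (l • (1 : Matrix μ μ ℚ) + X) * (l • (1 : Matrix μ μ ℚ) - X)⁻¹ * _ = _
        rw [Matrix.mul_assoc, Matrix.nonsing_inv_mul _ hl, Matrix.mul_one])
      (fun l hl => hgY l hl δ hc) hgX (fun l hl l' hl' => hgY l hl _ (hgX l' hl').symm)
      (fun l hl => hl) s (fun l hl => hsG hl)
      (fun l => if h : l ∈ s then c ⟨l, h⟩ • w l else 0) (fun l hl => by
        simp only [hl, dif_pos]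
        rw [Matrix.mulVec_smul, hw l hl, smul_zero])
      (by
        rw [← hc0, ← Finset.sum_attach]
        refine Finset.sum_congr rfl fun x _ => ?_
        simp)
    intro i
    have h2 := h1 i.1 i.2
    simp only [i.2, dif_pos] at h2
    rcases smul_eq_zero.mp h2 with h3 | h3
    · exact h3
    · exact absurd h3 (hw0 _ i.2)
  have h5 := hli.fintype_card_le_finrank
  rw [Fintype.card_coe, hcard, Module.finrank_fintype_fun_eq_card] at h5
  omega

/-- **CANC**: cancellation. -/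
theorem canc (A : Matrix ι ι ℚ) (B : Matrix κ κ ℚ) (D : Matrix μ μ ℚ) (hA : IsUnit A.det)
    (hB : IsUnit B.det) (hD : IsUnit D.det) (hp : IsUnit (D + Dᵀ).det) (hm : IsUnit (D - Dᵀ).det)
    (h : Cong ℚ (fromBlocks A 0 0 D) (fromBlocks B 0 0 D)) : Cong ℚ A B := by
  obtain ⟨P, Q, hPQ, hQP, hAB⟩ := h
  set α := P.toBlocks₁₁ with hα
  set β := P.toBlocks₁₂ with hβ
  set γ := P.toBlocks₂₁ with hγ
  set δ := P.toBlocks₂₂ with hδ
  have hPb : P = fromBlocks α β γ δ := (fromBlocks_toBlocks P).symm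
  have hQT : Qᵀ * Pᵀ = 1 := by rw [← transpose_mul, hPQ, transpose_one]
  set M : Matrix (ι ⊕ μ) (ι ⊕ μ) ℚ := fromBlocks A 0 0 D with hM
  set N : Matrix (κ ⊕ μ) (κ ⊕ μ) ℚ := fromBlocks B 0 0 D with hN
  have hMP : M * P = Qᵀ * N := by
    rw [← hAB]
    calc M * P = (Qᵀ * Pᵀ) * M * P := by rw [hQT, Matrix.one_mul]
      _ = Qᵀ * (Pᵀ * M * P) := by simp only [Matrix.mul_assoc]
  have hMP' : Mᵀ * P = Qᵀ * Nᵀ := by
    rw [← hAB]
    calc Mᵀ * P = (Qᵀ * Pᵀ) * Mᵀ * P := by rw [hQT, Matrix.one_mul]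
      _ = Qᵀ * (Pᵀ * M * P)ᵀ := by
        simp only [Matrix.mul_assoc, transpose_mul, transpose_transpose]
  set d := (Qᵀ).toBlocks₂₂ with hd
  have hQb : Qᵀ = fromBlocks (Qᵀ).toBlocks₁₁ (Qᵀ).toBlocks₁₂ (Qᵀ).toBlocks₂₁ d :=
    (fromBlocks_toBlocks _).symm
  have h22 : D * δ = d * D := by
    have h1 := hMP
    rw [hPb, hQb, hM, hN, fromBlocks_multiply, fromBlocks_multiply, fromBlocks_inj] at h1
    simpa using h1.2.2.2
  have h22' : Dᵀ * δ = d * Dᵀ := by
    have h1 := hMP'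
    rw [hPb, hQb, hM, hN, fromBlocks_transpose, fromBlocks_transpose, fromBlocks_multiply,
      fromBlocks_multiply, fromBlocks_inj] at h1
    simpa using h1.2.2.2
  -- the skew element
  set S := D + Dᵀ with hS
  set K := D - Dᵀ with hK
  set X : Matrix μ μ ℚ := S⁻¹ * K with hX
  have hSi : S⁻¹ * S = 1 := Matrix.nonsing_inv_mul S hp
  have hSi' : S * S⁻¹ = 1 := Matrix.mul_nonsing_inv S hp
  have hXdet : IsUnit X.det := by
    rw [hX, det_mul]
    exact (Matrix.isUnit_nonsing_inv_det S hp).mul hm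
  have hSδ : S * δ = d * S := by rw [hS, add_mul, mul_add, h22, h22']
  have hKδ : K * δ = d * K := by rw [hK, sub_mul, mul_sub, h22, h22']
  have hXδ : X * δ = δ * X := by
    rw [hX, Matrix.mul_assoc, hKδ]
    calc S⁻¹ * (d * K) = S⁻¹ * (d * (S * S⁻¹) * K) := by rw [hSi', Matrix.mul_one]
      _ = S⁻¹ * (d * S) * (S⁻¹ * K) := by simp only [Matrix.mul_assoc]
      _ = S⁻¹ * (S * δ) * (S⁻¹ * K) := by rw [hSδ]
      _ = (S⁻¹ * S) * δ * (S⁻¹ * K) := by simp only [Matrix.mul_assoc]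
      _ = δ * (S⁻¹ * K) := by rw [hSi, Matrix.one_mul]
  obtain ⟨l, hl, hl'⟩ := exists_good hXdet hXδ
  set g : Matrix μ μ ℚ := (l • (1 : Matrix μ μ ℚ) + X) * (l • (1 : Matrix μ μ ℚ) - X)⁻¹ with hg
  -- `g` is an isometry of `D`
  have hXT : Xᵀ * D = - (D * X) := by
    have hST : Sᵀ = S := by rw [hS, transpose_add, transpose_transpose, add_comm]
    have hKT : Kᵀ = -K := by rw [hK, transpose_sub, transpose_transpose, neg_sub]
    have h1 : Xᵀ = -(K * S⁻¹) := by
      rw [hX, transpose_mul, hKT, transpose_nonsing_inv, hST, Matrix.neg_mul]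
    rw [h1, hX, Matrix.neg_mul]
    congr 1
    have h2 : K = (2 : ℚ) • D - S := by
      rw [hK, hS, two_smul]; abel
    rw [h2, sub_mul, mul_sub, sub_mul, mul_sub]
    have h3 : S * S⁻¹ * D = D * (S⁻¹ * S) := by rw [hSi', hSi, Matrix.one_mul, Matrix.mul_one]
    rw [h3]
    congr 1
    simp only [Matrix.smul_mul, Matrix.mul_smul, Matrix.mul_assoc]
  have hgD : gᵀ * D * g = D := by
    set Y := l • (1 : Matrix μ μ ℚ) - X with hY
    set Z := l • (1 : Matrix μ μ ℚ) + X with hZ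
    have hYZ : Y * Z = Z * Y := by
      rw [hY, hZ]
      simp only [sub_mul, mul_sub, add_mul, mul_add, smul_mul_assoc, mul_smul_comm, one_mul,
        mul_one]
      module
    have hYi : Y * Y⁻¹ = 1 := Matrix.mul_nonsing_inv Y hl
    have hYi' : Y⁻¹ * Y = 1 := Matrix.nonsing_inv_mul Y hl
    have hZT : Zᵀ * D = D * Y := by
      rw [hZ, hY, transpose_add, transpose_smul, transpose_one, add_mul, hXT, mul_sub]
      simp [sub_eq_add_neg]
    have hYT : Yᵀ * D = D * Z := by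
      rw [hZ, hY, transpose_sub, transpose_smul, transpose_one, sub_mul, hXT, mul_add]
      simp
    have hYiT : (Y⁻¹)ᵀ * Yᵀ = 1 := by rw [← transpose_mul, hYi, transpose_one]
    calc gᵀ * D * g = (Y⁻¹)ᵀ * (Zᵀ * D) * (Z * Y⁻¹) := by
          rw [hg, transpose_mul]; simp only [Matrix.mul_assoc]
      _ = (Y⁻¹)ᵀ * D * (Y * Z) * Y⁻¹ := by rw [hZT]; simp only [Matrix.mul_assoc]
      _ = (Y⁻¹)ᵀ * (D * Z) * (Y * Y⁻¹) := by rw [hYZ]; simp only [Matrix.mul_assoc]
      _ = ((Y⁻¹)ᵀ * Yᵀ) * D := by rw [← hYT, hYi, Matrix.mul_one]; simp only [Matrix.mul_assoc]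
      _ = D := by rw [hYiT, Matrix.one_mul]
  -- closing the loop
  set Z : Matrix μ κ ℚ := (g - δ)⁻¹ * γ with hZ
  have hgZ : g * Z = γ + δ * Z := by
    have h1 : (g - δ) * Z = γ := by
      rw [hZ, ← Matrix.mul_assoc, Matrix.mul_nonsing_inv _ hl', Matrix.one_mul]
    rw [Matrix.sub_mul, sub_eq_iff_eq_add] at h1
    exact h1
  set R : Matrix ι κ ℚ := α + β * Z with hR
  have hRAR : Rᵀ * A * R = B := by
    have h1 : P * fromRows (1 : Matrix κ κ ℚ) Z = fromRows R (g * Z) := by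
      rw [hPb, fromBlocks_mul_fromRows, Matrix.mul_one, Matrix.mul_one, hgZ]
    have h2 : (fromRows (1 : Matrix κ κ ℚ) Z)ᵀ * N * fromRows (1 : Matrix κ κ ℚ) Z =
        B + Zᵀ * D * Z := by
      rw [hN, transpose_fromRows, fromCols_mul_fromBlocks, fromCols_mul_fromRows]
      simp
    have h3 : (fromRows R (g * Z))ᵀ * M * fromRows R (g * Z) =
        Rᵀ * A * R + Zᵀ * (gᵀ * D * g) * Z := by
      rw [hM, transpose_fromRows, fromCols_mul_fromBlocks, fromCols_mul_fromRows]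
      simp [Matrix.mul_assoc]
    have h4 : (fromRows R (g * Z))ᵀ * M * fromRows R (g * Z) =
        (fromRows (1 : Matrix κ κ ℚ) Z)ᵀ * N * fromRows (1 : Matrix κ κ ℚ) Z := by
      rw [← h1, ← hAB, transpose_mul]
      simp only [Matrix.mul_assoc]
    rw [h2, h3, hgD] at h4
    exact add_right_cancel h4
  have hcard : Fintype.card ι = Fintype.card κ := by
    have := Matrix.square_of_invertible P Q hPQ hQP
    rw [Fintype.card_sum, Fintype.card_sum] at this
    omega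
  have hinv : (B⁻¹ * Rᵀ * A) * R = 1 := by
    calc (B⁻¹ * Rᵀ * A) * R = B⁻¹ * (Rᵀ * A * R) := by simp only [Matrix.mul_assoc]
      _ = 1 := by rw [hRAR, Matrix.nonsing_inv_mul B hB]
  have hinv' : R * (B⁻¹ * Rᵀ * A) = 1 :=
    (Matrix.mul_eq_one_comm_of_equiv (Fintype.equivOfCardEq hcard.symm)).mp hinv
  exact ⟨R, B⁻¹ * Rᵀ * A, hinv', hinv, hRAR⟩

end loop

end Crest.Agent.R267.P45Canc_96
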