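import Crest.Agent.R267.P45Tor_96
import Crest.Agent.R267.P45Canc_96

/-!
# S0407, package P4.5d: bounded number of rational classes (helper96)

`ratb : REALS → TYPES → NDEG → RATB`.
-/

set_option autoImplicit false

namespace Crest.Agent.R267.P45Rat_96

open Matrix Crest.Agent.R267.P4Defs_780 Crest.Agent.R267.P45Tor_96

/-- all `F_{s,j}` (fixed `s`) are congruent over `ℝ`. -/
def REALS : Prop :=
  ∀ (L : List (ℕ × ℕ × ℤ)) (u : ℕ) (q : List ℕ), Cert L u → Aux u q →
    ∀ s : ℕ, ∀ i ≤ s, ∀ j ≤ s, CongOver ℝ (sysMat (F L u q s i)) (sysMat (F L u q s j))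

/-- finitely many rational types. -/
def TYPES : Prop :=
  ∀ (L : List (ℕ × ℕ × ℤ)) (u : ℕ) (q : List ℕ), Cert L u → Aux u q →
    ∃ (t : ℕ) (n : Fin t → ℕ) (tau : ∀ k, Matrix (Fin (n k)) (Fin (n k)) ℚ),
      (∀ k, IsUnit (tau k).det) ∧ ∀ s j : ℕ, ∃ (m : ℕ) (f : Fin m → Fin t),
        Cong ℚ ((sysMat (F L u q s j)).map (Int.cast : ℤ → ℚ))
          (Matrix.blockDiagonal' fun i => tau (f i))

/-- symmetric and antisymmetric parts are nondegenerate. -/
def NDEG : Prop :=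
  ∀ (L : List (ℕ × ℕ × ℤ)) (u : ℕ) (q : List ℕ), Cert L u → Aux u q → ∀ s j : ℕ,
    IsUnit ((sysMat (F L u q s j)).map (Int.cast : ℤ → ℚ) +
      ((sysMat (F L u q s j)).map (Int.cast : ℤ → ℚ))ᵀ).det ∧
    IsUnit ((sysMat (F L u q s j)).map (Int.cast : ℤ → ℚ) -
      ((sysMat (F L u q s j)).map (Int.cast : ℤ → ℚ))ᵀ).det

/-! ### more congruence calculus -/

section calc1

variable {R : Type} [CommRing R] {ι κ ι' κ' : Type} [Fintype ι] [Fintype κ] [Fintype ι']
  [Fintype κ'] [DecidableEq ι] [DecidableEq κ] [DecidableEq ι'] [DecidableEq κ']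

theorem Cong.of_submatrix (A : Matrix ι ι R) (B : Matrix κ κ R) (e : ι ≃ κ)
    (h : A = B.submatrix e e) : Cong R A B := by
  have h1 := Cong.reindex A e
  rw [h] at h1 ⊢
  simpa using h1

theorem Cong.sum {A : Matrix ι ι R} {B : Matrix κ κ R} {A' : Matrix ι' ι' R}
    {B' : Matrix κ' κ' R} (h : Cong R A A') (h' : Cong R B B') :
    Cong R (fromBlocks A 0 0 B) (fromBlocks A' 0 0 B') := by
  obtain ⟨P, Q, hPQ, hQP, hA⟩ := h
  obtain ⟨P', Q', hPQ', hQP', hB⟩ := h'
  refine ⟨fromBlocks P 0 0 P', fromBlocks Q 0 0 Q', ?_, ?_, ?_⟩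
  · rw [fromBlocks_multiply]
    simp [hPQ, hPQ', fromBlocks_one]
  · rw [fromBlocks_multiply]
    simp [hQP, hQP', fromBlocks_one]
  · rw [fromBlocks_transpose, fromBlocks_multiply, fromBlocks_multiply]
    simp [hA, hB]

theorem Cong.swap (A : Matrix ι ι R) (B : Matrix κ κ R) :
    Cong R (fromBlocks A 0 0 B) (fromBlocks B 0 0 A) := by
  refine Cong.of_submatrix _ _ (Equiv.sumComm ι κ) ?_
  ext i j
  rcases i with i | i <;> rcases j with j | j <;> simp

end calc1

/-! ### block sums of types -/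

section bs

variable {R : Type} [CommRing R] {T : Type} {n : T → ℕ}

/-- block sum of `tau (f i)`. -/
def bs (tau : ∀ k, Matrix (Fin (n k)) (Fin (n k)) R) {I : Type} [DecidableEq I] (f : I → T) :
    Matrix (Σ i, Fin (n (f i))) (Σ i, Fin (n (f i))) R := Matrix.blockDiagonal' fun i => tau (f i)

variable (tau : ∀ k, Matrix (Fin (n k)) (Fin (n k)) R) {I J : Type} [Fintype I] [Fintype J]
  [DecidableEq I] [DecidableEq J]

theorem bs_equiv (e : I ≃ J) (f : I → T) (g : J → T) (h : ∀ i, g (e i) = f i) :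
    Cong R (bs tau f) (bs tau g) := by
  have h' : f = g ∘ e := by funext i; exact (h i).symm
  subst h'
  refine Cong.of_submatrix _ _ (Equiv.sigmaCongrLeft (β := fun j => Fin (n (g j))) e) ?_
  ext ⟨i, x⟩ ⟨j, y⟩
  by_cases hij : i = j
  · subst hij
    simp [bs, blockDiagonal'_apply, Equiv.sigmaCongrLeft]
  · have : e i ≠ e j := fun h => hij (e.injective h)
    simp [bs, blockDiagonal'_apply, Equiv.sigmaCongrLeft, hij]

/-- the evident equivalence. -/
def sumEquiv (f : I → T) (g : J → T) :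
    (Σ i, Fin (n (Sum.elim f g i))) ≃ (Σ i, Fin (n (f i))) ⊕ Σ j, Fin (n (g j)) :=
  Equiv.sumSigmaDistrib _

omit [Fintype I] [Fintype J] [DecidableEq I] [DecidableEq J] in
theorem sumEquiv_inl (f : I → T) (g : J → T) (i : I) (x : Fin (n (f i))) :
    sumEquiv (n := n) f g ⟨Sum.inl i, x⟩ = Sum.inl ⟨i, x⟩ := rfl

omit [Fintype I] [Fintype J] [DecidableEq I] [DecidableEq J] in
theorem sumEquiv_inr (f : I → T) (g : J → T) (i : J) (x : Fin (n (g i))) :
    sumEquiv (n := n) f g ⟨Sum.inr i, x⟩ = Sum.inr ⟨i, x⟩ := rfl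

theorem bs_sum (f : I → T) (g : J → T) :
    Cong R (bs tau (Sum.elim f g)) (fromBlocks (bs tau f) 0 0 (bs tau g)) := by
  refine Cong.of_submatrix _ _ (sumEquiv f g) ?_
  ext ⟨i, x⟩ ⟨j, y⟩
  rcases i with i | i <;> rcases j with j | j
  · change _ = fromBlocks (bs tau f) 0 0 (bs tau g) (Sum.inl ⟨i, x⟩) (Sum.inl ⟨j, y⟩)
    by_cases hij : i = j
    · subst hij
      simp [bs, blockDiagonal'_apply]
    · simp [bs, blockDiagonal'_apply, hij]
  · change _ = fromBlocks (bs tau f) 0 0 (bs tau g) (Sum.inl ⟨i, x⟩) (Sum.inr ⟨j, y⟩)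
    simp [bs, blockDiagonal'_apply]
  · change _ = fromBlocks (bs tau f) 0 0 (bs tau g) (Sum.inr ⟨i, x⟩) (Sum.inl ⟨j, y⟩)
    simp [bs, blockDiagonal'_apply]
  · change _ = fromBlocks (bs tau f) 0 0 (bs tau g) (Sum.inr ⟨i, x⟩) (Sum.inr ⟨j, y⟩)
    by_cases hij : i = j
    · subst hij
      simp [bs, blockDiagonal'_apply]
    · simp [bs, blockDiagonal'_apply, hij]

/-- the evident equivalence. -/
def repEquiv (m : ℕ) (f : I → T) :
    ((Σ i, Fin (n (f i))) × Fin m) ≃ Σ x : Fin m × I, Fin (n (f x.2)) where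
  toFun x := ⟨(x.2, x.1.1), x.1.2⟩
  invFun x := (⟨x.1.2, x.2⟩, x.1.1)
  left_inv _ := rfl
  right_inv _ := rfl

theorem bs_rep (m : ℕ) (f : I → T) :
    Cong R (blockDiagonal fun _ : Fin m => bs tau f) (bs tau (fun x : Fin m × I => f x.2)) := by
  refine Cong.of_submatrix _ _ (repEquiv m f) ?_
  ext ⟨⟨i, x⟩, k⟩ ⟨⟨j, y⟩, l⟩
  by_cases hkl : k = l
  · subst hkl
    by_cases hij : i = j
    · subst hij
      simp [bs, blockDiagonal'_apply, blockDiagonal_apply, repEquiv]
    · simp [bs, blockDiagonal'_apply, blockDiagonal_apply, repEquiv, hij]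
  · simp [bs, blockDiagonal'_apply, blockDiagonal_apply, repEquiv, hkl]

omit [Fintype I] in
theorem bs_map {S : Type} [CommRing S] (φ : R →+* S) (f : I → T) :
    (bs tau f).map φ = bs (fun k => (tau k).map φ) f := by
  unfold bs
  rw [blockDiagonal'_map _ _ (map_zero φ)]

theorem det_bs (f : I → T) : IsUnit (bs tau f).det ↔ ∀ i, IsUnit (tau (f i)).det := by
  constructor
  · intro h i
    have h1 : bs tau f * (bs tau f)⁻¹ = 1 := Matrix.mul_nonsing_inv _ h
    set X := (bs tau f)⁻¹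
    have h2 : tau (f i) * (of fun y z => X ⟨i, y⟩ ⟨i, z⟩) = 1 := by
      ext x z
      have h3 := congrFun (congrFun h1 ⟨i, x⟩) ⟨i, z⟩
      rw [mul_apply, Fintype.sum_sigma, Finset.sum_eq_single i] at h3
      · rw [mul_apply]
        simpa [bs, blockDiagonal'_apply, one_apply] using h3
      · intro j _ hj
        simp [bs, blockDiagonal'_apply, hj.symm]
      · simp
    exact IsUnit.of_mul_eq_one _ (by rw [← det_mul, h2, det_one])
  · intro h
    have h1 : bs tau f * bs (fun k => (tau k)⁻¹) f = 1 := by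
      unfold bs
      rw [← blockDiagonal'_mul, ← blockDiagonal'_one]
      congr 1
      funext i
      exact Matrix.mul_nonsing_inv _ (h i)
    exact IsUnit.of_mul_eq_one _ (by rw [← det_mul, h1, det_one])

omit [Fintype I] in
theorem bs_transpose (f : I → T) : (bs tau f)ᵀ = bs (fun k => (tau k)ᵀ) f := by
  unfold bs
  rw [blockDiagonal'_transpose]

variable [Fintype T] [DecidableEq T]

/-- the block sum of `a k` copies of `tau k`. -/
def D (a : T → ℕ) : Matrix (Σ x : (Σ k, Fin (a k)), Fin (n x.1)) (Σ x : (Σ k, Fin (a k)), Fin (n x.1)) R :=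
  bs tau (fun x : Σ k, Fin (a k) => x.1)

theorem exists_D (f : I → T) : Cong R (bs tau f) (D tau fun k => Fintype.card {i // f i = k}) := by
  refine bs_equiv tau ((Equiv.sigmaFiberEquiv f).symm.trans
    (Equiv.sigmaCongrRight fun k => Fintype.equivFin {i // f i = k})) _ _ fun i => ?_
  simp [Equiv.sigmaFiberEquiv]

theorem D_add (a b : T → ℕ) : Cong R (D tau (a + b)) (fromBlocks (D tau a) 0 0 (D tau b)) := by
  refine Cong.trans (bs_equiv tau ((Equiv.sigmaCongrRight fun k =>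
    (finSumFinEquiv (m := a k) (n := b k)).symm).trans (Equiv.sigmaSumDistrib _ _)) _
    (Sum.elim (fun x : Σ k, Fin (a k) => x.1) (fun x : Σ k, Fin (b k) => x.1)) ?_) (bs_sum tau _ _)
  rintro ⟨k, i⟩
  change Sum.elim (fun x : Σ k, Fin (a k) => x.1) (fun x : Σ k, Fin (b k) => x.1)
    (Equiv.sigmaSumDistrib (fun k => Fin (a k)) (fun k => Fin (b k))
      ⟨k, finSumFinEquiv.symm i⟩) = k
  obtain ⟨y, hy⟩ : ∃ y, finSumFinEquiv.symm i = y := ⟨_, rfl⟩
  rw [hy]
  rcases y with y | y <;> rfl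

theorem D_mul (m : ℕ) (a : T → ℕ) :
    Cong R (blockDiagonal fun _ : Fin m => D tau a) (D tau fun k => m * a k) := by
  refine Cong.trans (bs_rep tau m _) ?_
  refine bs_equiv tau (Equiv.trans ?_ (Equiv.sigmaCongrRight fun k =>
    finProdFinEquiv (m := m) (n := a k))) _ _ ?_
  · exact
      { toFun := fun x => ⟨x.2.1, (x.1, x.2.2)⟩
        invFun := fun x => (x.2.1, ⟨x.1, x.2.2⟩)
        left_inv := fun _ => rfl
        right_inv := fun _ => rfl }
  · rintro ⟨i, k, j⟩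
    rfl

/-- the group of the relations. -/
def K : AddSubgroup (T → ℤ) where
  carrier := {v | ∃ a b : T → ℕ, Cong R (D tau a) (D tau b) ∧ ∀ k, v k = (a k : ℤ) - b k}
  zero_mem' := ⟨0, 0, Cong.refl _, by simp⟩
  neg_mem' := by
    rintro v ⟨a, b, h, hv⟩
    refine ⟨b, a, Cong.symm h, fun k => ?_⟩
    rw [Pi.neg_apply, hv k]; ring
  add_mem' := by
    rintro v w ⟨a, b, h, hv⟩ ⟨a', b', h', hw⟩
    refine ⟨a + a', b + b', ?_, fun k => ?_⟩
    · exact Cong.trans (D_add tau a a') (Cong.trans (Cong.sum h h') (Cong.symm (D_add tau b b')))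
    · rw [Pi.add_apply, hv k, hw k]
      push_cast [Pi.add_apply]
      ring

theorem mem_K {v : T → ℤ} :
    v ∈ K tau ↔ ∃ a b : T → ℕ, Cong R (D tau a) (D tau b) ∧ ∀ k, v k = (a k : ℤ) - b k := Iff.rfl

end bs

/-! ### rational forms -/

section rat

variable {T : Type} {n : T → ℕ} (tau : ∀ k, Matrix (Fin (n k)) (Fin (n k)) ℚ)

variable [Fintype T] [DecidableEq T]

theorem D_det (h0 : ∀ k, IsUnit (tau k).det) (a : T → ℕ) : IsUnit (D tau a).det := by
  rw [D, det_bs]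
  exact fun x => h0 _

theorem D_add_transpose (h0 : ∀ k, IsUnit (tau k + (tau k)ᵀ).det) (a : T → ℕ) :
    IsUnit (D tau a + (D tau a)ᵀ).det := by
  have : D tau a + (D tau a)ᵀ = D (fun k => tau k + (tau k)ᵀ) a := by
    unfold D
    rw [bs_transpose]
    unfold bs
    rw [← blockDiagonal'_add]
    rfl
  rw [this]
  exact D_det _ h0 a

theorem D_sub_transpose (h0 : ∀ k, IsUnit (tau k - (tau k)ᵀ).det) (a : T → ℕ) :
    IsUnit (D tau a - (D tau a)ᵀ).det := by
  have : D tau a - (D tau a)ᵀ = D (fun k => tau k - (tau k)ᵀ) a := by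
    unfold D
    rw [bs_transpose]
    unfold bs
    rw [← blockDiagonal'_sub]
    rfl
  rw [this]
  exact D_det _ h0 a

variable {tau}

/-- cancellation in terms of the group `K`. -/
theorem cong_of_mem (h0 : ∀ k, IsUnit (tau k).det)
    (hp : ∀ k, IsUnit (tau k + (tau k)ᵀ).det) (hm : ∀ k, IsUnit (tau k - (tau k)ᵀ).det)
    {a b : T → ℕ} (h : (fun k => (a k : ℤ) - b k) ∈ K tau) : Cong ℚ (D tau a) (D tau b) := by
  obtain ⟨a', b', h', hv⟩ := h
  have hab : a + b' = b + a' := by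
    funext k
    have h1 : (a k : ℤ) - b k = a' k - b' k := hv k
    simp only [Pi.add_apply]
    omega
  refine P45Canc_96.canc (D tau a) (D tau b) (D tau b') (D_det _ h0 _) (D_det _ h0 _)
    (D_det _ h0 _) (D_add_transpose _ hp _) (D_sub_transpose _ hm _) ?_
  have h1 := Cong.symm (D_add tau a b')
  rw [hab] at h1
  refine Cong.trans h1 (Cong.trans (D_add tau b a') ?_)
  exact Cong.sum (Cong.refl _) h'

/-- torsion in terms of the group `K`. -/
theorem torsion (h0 : ∀ k, IsUnit (tau k).det) {a b : T → ℕ}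
    (h : Cong ℝ ((D tau a).map (algebraMap ℚ ℝ)) ((D tau b).map (algebraMap ℚ ℝ))) :
    ∃ m : ℕ, 0 < m ∧ (m • fun k => (a k : ℤ) - b k) ∈ K tau := by
  obtain ⟨m, hm, h1⟩ := tor (D tau a) (D tau b) (D_det _ h0 _) (D_det _ h0 _) h
  refine ⟨m, hm, fun k => m * a k, fun k => m * b k, ?_, fun k => ?_⟩
  · exact Cong.trans (Cong.symm (D_mul tau m a)) (Cong.trans h1 (D_mul tau m b))
  · simp only [Pi.smul_apply, nsmul_eq_mul]
    push_cast
    ring

theorem bounded (h0 : ∀ k, IsUnit (tau k).det)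
    (hp : ∀ k, IsUnit (tau k + (tau k)ᵀ).det) (hm : ∀ k, IsUnit (tau k - (tau k)ᵀ).det) :
    ∃ B : ℕ, ∀ (s : ℕ) (a : ℕ → T → ℕ), (∀ i ≤ s, ∀ j ≤ s,
      Cong ℝ ((D tau (a i)).map (algebraMap ℚ ℝ)) ((D tau (a j)).map (algebraMap ℚ ℝ))) →
      ∃ col : ℕ → Fin (B + 1), ∀ i ≤ s, ∀ j ≤ s, col i = col j →
        Cong ℚ (D tau (a i)) (D tau (a j)) := by
  classical
  let K' : Submodule ℤ (T → ℤ) := AddSubgroup.toIntSubmodule (K tau)
  let W := Submodule.torsion ℤ ((T → ℤ) ⧸ K')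
  have hfin : Finite W := Module.finite_of_fg_torsion W (Submodule.torsion_isTorsion)
  refine ⟨Nat.card W, fun s a hs => ?_⟩
  let e : W ≃ Fin (Nat.card W) := Finite.equivFin W
  let v : ℕ → T → ℤ := fun i k => (a i k : ℤ) - a 0 k
  have hv : ∀ i ≤ s, K'.mkQ (v i) ∈ W := by
    intro i hi
    obtain ⟨m, hm, h1⟩ := torsion h0 (hs i hi 0 (Nat.zero_le _))
    rw [Submodule.mem_torsion_iff]
    refine ⟨⟨(m : ℤ), mem_nonZeroDivisors_of_ne_zero (by exact_mod_cast hm.ne')⟩, ?_⟩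
    change (m : ℤ) • K'.mkQ (v i) = 0
    rw [← map_smul, Submodule.mkQ_apply, Submodule.Quotient.mk_eq_zero, natCast_zsmul]
    exact h1
  refine ⟨fun i => if h : i ≤ s then (e ⟨_, hv i h⟩).castSucc else 0, fun i hi j hj hij => ?_⟩
  beta_reduce at hij
  rw [dif_pos hi, dif_pos hj] at hij
  have h1 := e.injective (Fin.castSucc_injective _ hij)
  rw [Subtype.mk.injEq, ← sub_eq_zero, ← map_sub, Submodule.mkQ_apply,
    Submodule.Quotient.mk_eq_zero] at h1
  refine cong_of_mem h0 hp hm ?_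
  have h2 : (fun k => (a i k : ℤ) - a j k) = v i - v j := by
    funext k
    simp [v]
  rw [h2]
  exact h1

end rat

/-! ### conclusion -/

theorem ratb (hR : REALS) (hT : TYPES) (hN : NDEG) : RATB := by
  intro L u q hC hA
  classical
  obtain ⟨t, n, tau, h0, hf⟩ := hT L u q hC hA
  -- restrict to the good types
  let T : Type := {k : Fin t // IsUnit (tau k + (tau k)ᵀ).det ∧ IsUnit (tau k - (tau k)ᵀ).det}
  let n' : T → ℕ := fun k => n k.1
  let tau' : ∀ k : T, Matrix (Fin (n' k)) (Fin (n' k)) ℚ := fun k => tau k.1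
  obtain ⟨B, hB⟩ := bounded (tau := tau') (fun k => h0 k.1) (fun k => k.2.1) (fun k => k.2.2)
  have hcl : ∀ s j : ℕ, ∃ a : T → ℕ,
      Cong ℚ ((sysMat (F L u q s j)).map (Int.cast : ℤ → ℚ)) (D tau' a) := by
    intro s j
    obtain ⟨m, f, hmf⟩ := hf s j
    obtain ⟨h1, h2⟩ := hN L u q hC hA s j
    have hgood : ∀ i, IsUnit (tau (f i) + (tau (f i))ᵀ).det ∧
        IsUnit (tau (f i) - (tau (f i))ᵀ).det := by
      obtain ⟨P, Q, hPQ, hQP, hM⟩ := hmf
      set M := (sysMat (F L u q s j)).map (Int.cast : ℤ → ℚ) with hMdef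
      have key : ∀ X : Matrix (Idx (F L u q s j)) (Idx (F L u q s j)) ℚ, IsUnit X.det →
          IsUnit (Pᵀ * X * P).det := by
        intro X hX
        have hXX : X * X⁻¹ = 1 := Matrix.mul_nonsing_inv X hX
        have h3 : (Pᵀ * X * P) * (Q * X⁻¹ * Qᵀ) = 1 := by
          calc (Pᵀ * X * P) * (Q * X⁻¹ * Qᵀ) = Pᵀ * X * (P * Q) * X⁻¹ * Qᵀ := by
                simp only [Matrix.mul_assoc]
            _ = Pᵀ * (X * X⁻¹) * Qᵀ := by rw [hPQ, Matrix.mul_one]; simp only [Matrix.mul_assoc]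
            _ = (Q * P)ᵀ := by rw [hXX, Matrix.mul_one, transpose_mul]
            _ = 1 := by rw [hQP, transpose_one]
        exact IsUnit.of_mul_eq_one _ (by rw [← det_mul, h3, det_one])
      have e1 : Pᵀ * (M + Mᵀ) * P = bs (fun k => tau k + (tau k)ᵀ) f := by
        have hMT : Pᵀ * Mᵀ * P = (bs tau f)ᵀ := by
          rw [bs, ← hM, transpose_mul, transpose_mul, transpose_transpose, Matrix.mul_assoc]
        rw [Matrix.mul_add, Matrix.add_mul, hMT, hM, bs_transpose]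
        unfold bs
        rw [← blockDiagonal'_add]
        rfl
      have e2 : Pᵀ * (M - Mᵀ) * P = bs (fun k => tau k - (tau k)ᵀ) f := by
        have hMT : Pᵀ * Mᵀ * P = (bs tau f)ᵀ := by
          rw [bs, ← hM, transpose_mul, transpose_mul, transpose_transpose, Matrix.mul_assoc]
        rw [Matrix.mul_sub, Matrix.sub_mul, hMT, hM, bs_transpose]
        unfold bs
        rw [← blockDiagonal'_sub]
        rfl
      have u1 := key _ h1
      have u2 := key _ h2
      rw [e1, det_bs] at u1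
      rw [e2, det_bs] at u2
      exact fun i => ⟨u1 i, u2 i⟩
    refine ⟨_, Cong.trans hmf (exists_D tau' (fun i : Fin m => (⟨f i, hgood i⟩ : T)))⟩
  choose a ha using hcl
  refine ⟨B, fun s => ?_⟩
  have hreal : ∀ i ≤ s, ∀ j ≤ s, Cong ℝ ((D tau' (a s i)).map (algebraMap ℚ ℝ))
      ((D tau' (a s j)).map (algebraMap ℚ ℝ)) := by
    intro i hi j hj
    have hmap : ∀ k, Cong ℝ ((sysMat (F L u q s k)).map (Int.cast : ℤ → ℝ))
        ((D tau' (a s k)).map (algebraMap ℚ ℝ)) := by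
      intro k
      obtain ⟨P, Q, hPQ, hQP, hM⟩ := ha s k
      refine ⟨P.map (algebraMap ℚ ℝ), Q.map (algebraMap ℚ ℝ), ?_, ?_, ?_⟩
      · rw [← Matrix.map_mul, hPQ, Matrix.map_one _ (map_zero _) (map_one _)]
      · rw [← Matrix.map_mul, hQP, Matrix.map_one _ (map_zero _) (map_one _)]
      · rw [← hM, Matrix.map_mul, Matrix.map_mul, transpose_map]
        congr 2
    exact Cong.trans (Cong.symm (hmap i)) (Cong.trans (hR L u q hC hA s i hi j hj) (hmap j))
  obtain ⟨col, hcol⟩ := hB s (a s) hreal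
  refine ⟨col, fun i hi j hj hij => ?_⟩
  exact Cong.trans (ha s i) (Cong.trans (hcol i hi j hj hij) (Cong.symm (ha s j)))

end Crest.Agent.R267.P45Rat_96

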