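import Mathlib

/-!
# Lattices over a complete "unramified" ring (helper543, row 267, node P4.6b, part 0)

`Base A π`: `π` is a nonzerodivisor of the commutative ring `A`, contained in the Jacobson radical,
`A` is `π`-adically separated, idempotents lift along `A → A ⧸ π`, and `A ⧸ π` is finite and
reduced.  Example: `A = ℤ_p[ζ_Q][C_m]` with `p ∤ Q m` and `π = p`.

* `exists_split` : a finite `π`-torsion-free module `X ≠ 0` is `A e × X'`, `e` idempotent;
* `projective_of_torsionFree`;
* `ind a X` = index of `a X` in `X`; finite torsion-free modules with the same `ind (π e + 1 - e)`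
  for all idempotents `e` are isomorphic (`iso_of_ind`);
* `ind_eq_of_isog`: isogenous modules have the same indices.
-/

set_option autoImplicit false

namespace Crest.Agent.R267.P46a0_543

open Function

universe u v w

/-- the hypotheses on the base ring. -/
structure Base (A : Type u) [CommRing A] (π : A) : Prop where
  nz : ∀ a : A, π * a = 0 → a = 0
  jac : Ideal.span {π} ≤ Ideal.jacobson (⊥ : Ideal A)
  sep : ∀ a : A, (∀ k : ℕ, π ^ k ∣ a) → a = 0
  idem : ∀ a : A, π ∣ a * a - a → ∃ e : A, e * e = e ∧ π ∣ e - a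
  fin : Finite (A ⧸ Ideal.span {π})
  red : IsReduced (A ⧸ Ideal.span {π})

theorem Base.of_complete (A : Type u) [CommRing A] (π : A) (nz : ∀ a : A, π * a = 0 → a = 0)
    [IsAdicComplete (Ideal.span {π}) A] (fin : Finite (A ⧸ Ideal.span {π}))
    (red : IsReduced (A ⧸ Ideal.span {π})) : Base A π where
  nz := nz
  jac := IsAdicComplete.le_jacobson_bot _
  sep a ha := by
    refine IsHausdorff.haus (I := Ideal.span {π}) inferInstance a fun n => ?_
    rw [SModEq.zero, Ideal.span_singleton_pow, smul_eq_mul, Ideal.mul_top,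
      Ideal.mem_span_singleton]
    exact ha n
  idem a ha := by
    have hH : HenselianRing A (Ideal.span {π}) := inferInstance
    have h1 : Polynomial.Monic (Polynomial.X ^ 2 - Polynomial.X : Polynomial A) := by
      monicity!
    obtain ⟨e, he, hea⟩ := hH.is_henselian (Polynomial.X ^ 2 - Polynomial.X) h1 a
      (by
        simp only [Polynomial.eval_sub, Polynomial.eval_pow, Polynomial.eval_X,
          Ideal.mem_span_singleton]
        rwa [sq])
      (by
        rw [isUnit_iff_exists_inv]
        refine ⟨Ideal.Quotient.mk _ (2 * a - 1), ?_⟩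
        rw [← map_mul, ← (Ideal.Quotient.mk _).map_one, Ideal.Quotient.eq,
          Ideal.mem_span_singleton]
        simp only [Polynomial.derivative_sub, Polynomial.derivative_X_pow,
          Polynomial.derivative_X, Polynomial.eval_sub, Polynomial.eval_mul, Polynomial.eval_pow,
          Polynomial.eval_X, Polynomial.eval_one, Polynomial.eval_C]
        obtain ⟨c, hc⟩ := ha
        refine ⟨4 * c, ?_⟩
        push_cast
        linear_combination 4 * hc)
    refine ⟨e, ?_, Ideal.mem_span_singleton.mp hea⟩
    have := he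
    simp only [Polynomial.IsRoot, Polynomial.eval_sub, Polynomial.eval_pow,
      Polynomial.eval_X] at this
    linear_combination this
  fin := fin
  red := red

section key

variable {A : Type u} [CommRing A] {π : A}

/-- **key lemma**: a nonzero module killed by `π` contains a nonzero vector `v = e v`, `e` an
idempotent which is primitive modulo `π`, with annihilator exactly `{a | π ∣ a e}`. -/
theorem Base.exists_prim (hA : Base A π) {V : Type v} [AddCommGroup V] [Module A V]
    (hV : ∀ v : V, π • v = 0) {v₀ : V} (hv₀ : v₀ ≠ 0) :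
    ∃ (e : A) (v : V), e * e = e ∧ v ≠ 0 ∧ e • v = v ∧ (∀ a : A, a • v = 0 → π ∣ a * e) ∧
      (∀ a : A, ¬ π ∣ a * e → ∃ b, π ∣ b * a * e - e) := by
  classical
  have := hA.fin
  have := hA.red
  have hss : IsSemisimpleRing (A ⧸ Ideal.span {π}) := IsArtinianRing.isSemisimpleRing_of_isReduced _
  -- annihilator of `v₀`
  let I₀ : Ideal A := LinearMap.ker (LinearMap.toSpanSingleton A V v₀)
  have hI₀ : I₀ ≠ ⊤ := by
    intro h
    have : (1 : A) ∈ I₀ := h ▸ Submodule.mem_top
    simp [I₀] at this
    exact hv₀ this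
  obtain ⟨m, hm, hIm⟩ := Ideal.exists_le_maximal I₀ hI₀
  have hπm : Ideal.span {π} ≤ m := by
    rw [Ideal.span_singleton_le_iff_mem]
    apply hIm
    simp [I₀, hV]
  obtain ⟨f, hf, hmf⟩ := IsSemisimpleRing.ideal_eq_span_idempotent
    (m.map (Ideal.Quotient.mk (Ideal.span {π})))
  obtain ⟨f', rfl⟩ := Ideal.Quotient.mk_surjective f
  -- lift the idempotent
  have hf' : π ∣ f' * f' - f' := by
    rw [← Ideal.mem_span_singleton, ← Ideal.Quotient.eq, map_mul]
    exact hf
  obtain ⟨f₁, hf₁, hff₁⟩ := hA.idem f' hf'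
  have hfm : ∀ a : A, a ∈ m ↔ π ∣ a * (1 - f₁) := by
    intro a
    have h1 : a ∈ m ↔ Ideal.Quotient.mk (Ideal.span {π}) a ∈
        m.map (Ideal.Quotient.mk (Ideal.span {π})) := by
      constructor
      · exact Ideal.mem_map_of_mem _
      · intro h
        have := (Ideal.mem_quotient_iff_mem_sup (I := Ideal.span {π}) (J := m) (x := a)).mp h
        rwa [sup_eq_left.mpr hπm] at this
    rw [h1, hmf, Ideal.mem_span_singleton]
    constructor
    · rintro ⟨c, hc⟩
      obtain ⟨c, rfl⟩ := Ideal.Quotient.mk_surjective c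
      rw [← map_mul, Ideal.Quotient.eq, Ideal.mem_span_singleton] at hc
      obtain ⟨x, hx⟩ := hc
      obtain ⟨y, hy⟩ := hff₁
      refine ⟨x * (1 - f₁) - y * c * (1 - f₁), ?_⟩
      linear_combination (1 - f₁) * hx - c * (1 - f₁) * hy - c * hf₁
    · rintro ⟨c, hc⟩
      refine ⟨Ideal.Quotient.mk _ a, ?_⟩
      rw [← map_mul, Ideal.Quotient.eq, Ideal.mem_span_singleton]
      obtain ⟨y, hy⟩ := hff₁
      refine ⟨c + y * a, ?_⟩
      linear_combination hc + a * hy
  have hone : (1 : A) ∉ m := fun h => hm.ne_top ((Ideal.eq_top_iff_one _).mpr h)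
  have he : (1 - f₁) * (1 - f₁) = 1 - f₁ := by linear_combination hf₁
  have hv : (1 - f₁) • v₀ ≠ 0 := by
    intro h
    have h1 : (1 - f₁) ∈ m := hIm (by simpa [I₀] using h)
    rw [hfm, he] at h1
    apply hone
    rw [hfm, one_mul]
    exact h1
  have hann : ∀ a : A, a ∈ m → a • ((1 - f₁) • v₀) = 0 := by
    intro a ha
    obtain ⟨c, hc⟩ := (hfm a).mp ha
    rw [smul_smul, hc, mul_smul, hV]
  have hfield : ∀ a : A, a ∉ m → ∃ b, b * a - 1 ∈ m := by
    intro a ha
    have : IsUnit (Ideal.Quotient.mk m a) := by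
      have h2 : Ideal.Quotient.mk m a ≠ 0 := by
        rwa [Ne, Ideal.Quotient.eq_zero_iff_mem]
      let _ := Ideal.Quotient.field m
      exact h2.isUnit
    obtain ⟨b, hb⟩ := this.exists_left_inv
    obtain ⟨b, rfl⟩ := Ideal.Quotient.mk_surjective b
    refine ⟨b, ?_⟩
    rwa [← map_mul, ← (Ideal.Quotient.mk _).map_one, Ideal.Quotient.eq] at hb
  refine ⟨1 - f₁, (1 - f₁) • v₀, he, hv, by rw [smul_smul, he], ?_, ?_⟩
  · intro a ha
    rw [← hfm]
    by_contra hna
    obtain ⟨b, hb⟩ := hfield a hna
    have h3 := hann _ hb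
    rw [sub_smul, mul_smul, ha, smul_zero, one_smul, zero_sub, neg_eq_zero] at h3
    exact hv h3
  · intro a ha
    rw [← hfm] at ha
    obtain ⟨b, hb⟩ := hfield a ha
    refine ⟨b, ?_⟩
    have := (hfm _).mp hb
    convert this using 1
    ring

end key

section split

variable {A : Type u} [CommRing A] {π : A}

/-- a surjection onto a projective module splits off. -/
theorem exists_equiv_prod {X : Type v} {Y : Type w} [AddCommGroup X] [Module A X]
    [AddCommGroup Y] [Module A Y] [Module.Projective A Y] (f : X →ₗ[A] Y) (hf : Surjective f) :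
    ∃ s : Y →ₗ[A] X, (∀ y, f (s y) = y) ∧
      Bijective (fun z : (LinearMap.ker f) × Y => (z.1 : X) + s z.2) := by
  obtain ⟨s, hs⟩ := Module.projective_lifting_property f LinearMap.id hf
  have hs' : ∀ y, f (s y) = y := fun y => by
    have := congrArg (fun g => g y) hs
    simpa using this
  refine ⟨s, hs', ?_, ?_⟩
  · rintro ⟨⟨a, ha⟩, y⟩ ⟨⟨b, hb⟩, z⟩ h
    simp only at h
    rw [LinearMap.mem_ker] at ha hb
    have h1 := congrArg f h
    rw [map_add, map_add, ha, hb, hs', hs', zero_add, zero_add] at h1
    subst h1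
    have h2 : a = b := by simpa using h
    subst h2
    rfl
  · intro x
    refine ⟨(⟨x - s (f x), ?_⟩, f x), ?_⟩
    · rw [LinearMap.mem_ker, map_sub, hs', sub_self]
    · simp

/-- the same as a linear equivalence. -/
theorem exists_linearEquiv_prod {X : Type v} {Y : Type w} [AddCommGroup X] [Module A X]
    [AddCommGroup Y] [Module A Y] [Module.Projective A Y] (f : X →ₗ[A] Y) (hf : Surjective f) :
    Nonempty (X ≃ₗ[A] (LinearMap.ker f) × Y) := by
  obtain ⟨s, -, hb⟩ := exists_equiv_prod f hf
  let g : (LinearMap.ker f) × Y →ₗ[A] X :=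
    LinearMap.coprod (LinearMap.ker f).subtype s
  exact ⟨(LinearEquiv.ofBijective g hb).symm⟩

/-- Nakayama. -/
theorem Base.nak (hA : Base A π) {X : Type v} [AddCommGroup X] [Module A X]
    [Module.Finite A X] (N : Submodule A X) (h : ∀ x : X, ∃ y : X, x - π • y ∈ N) : N = ⊤ := by
  rw [eq_top_iff]
  refine Submodule.le_of_le_smul_of_le_jacobson_bot (I := Ideal.span {π}) Module.Finite.fg_top
    hA.jac ?_
  intro x _
  obtain ⟨y, hy⟩ := h x
  rw [show x = (x - π • y) + π • y by abel]
  refine Submodule.add_mem_sup hy ?_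
  exact Submodule.smul_mem_smul (Ideal.mem_span_singleton_self π) Submodule.mem_top

/-- `X ⧸ π X` is finite. -/
theorem Base.finite_quot (hA : Base A π) (X : Type v) [AddCommGroup X] [Module A X]
    [Module.Finite A X] : Finite (X ⧸ LinearMap.range (LinearMap.lsmul A X π)) := by
  have := hA.fin
  obtain ⟨n, f, hf⟩ := Module.Finite.exists_fin' A X
  -- `(A ⧸ π)^n → X ⧸ π X`
  let g : (Fin n → A ⧸ Ideal.span {π}) → X ⧸ LinearMap.range (LinearMap.lsmul A X π) :=
    fun a => Submodule.Quotient.mk (f (fun i => (a i).out))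
  refine Finite.of_surjective g ?_
  intro x
  obtain ⟨x, rfl⟩ := Submodule.Quotient.mk_surjective _ x
  obtain ⟨a, rfl⟩ := hf x
  refine ⟨fun i => Ideal.Quotient.mk _ (a i), ?_⟩
  simp only [g]
  rw [Submodule.Quotient.eq, ← map_sub]
  have h1 : ∀ i, ∃ c, ((Ideal.Quotient.mk (Ideal.span {π}) (a i)).out - a i) = π * c := by
    intro i
    have h2 : Ideal.Quotient.mk (Ideal.span {π}) ((Ideal.Quotient.mk (Ideal.span {π}) (a i)).out)
        = Ideal.Quotient.mk (Ideal.span {π}) (a i) := by
      exact Quotient.out_eq _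
    rw [Ideal.Quotient.eq, Ideal.mem_span_singleton] at h2
    exact h2
  choose c hc using h1
  refine ⟨f c, ?_⟩
  rw [LinearMap.lsmul_apply, ← map_smul]
  congr 1
  ext i
  simp [hc]

/-- a vector `x = e x` outside `π X`, `e` primitive: its annihilator is `A (1 - e)` and the
quotient by it is torsion-free. -/
theorem Base.piece_props (hA : Base A π) {X : Type v} [AddCommGroup X] [Module A X]
    (hX : ∀ x : X, π • x = 0 → x = 0) {e : A} {x : X} (he : e * e = e) (hex : e • x = x)
    (hprim : ∀ a : A, ¬ π ∣ a * e → ∃ b, π ∣ b * a * e - e) (hx : ∀ y : X, x ≠ π • y) :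
    (∀ a : A, a • x = 0 → a * e = 0) ∧
      (∀ (y : X) (a : A), π • y = a • x → ∃ c : A, y = c • x) := by
  have hmk : ∀ a : A, (∃ y, π • y = a • x) → π ∣ a * e := by
    rintro a ⟨y, hy⟩
    by_contra hcon
    obtain ⟨b, c, hc⟩ := hprim a hcon
    apply hx (b • y - c • x)
    have h1 : (b * a * e - e) • x = (π * c) • x := by rw [hc]
    rw [sub_smul, mul_smul, hex, mul_smul, ← hy] at h1
    rw [smul_sub, smul_comm π b, smul_smul π c, ← h1]
    abel
  refine ⟨?_, ?_⟩
  · intro a ha
    apply hA.sep
    intro k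
    induction k generalizing a with
    | zero => simp
    | succ k ih =>
      obtain ⟨c, hc⟩ := hmk a ⟨0, by rw [smul_zero, ha]⟩
      have h1 : π • (c • x) = 0 := by
        rw [smul_smul, ← hc, mul_smul, hex, ha]
      obtain ⟨d, hd⟩ := ih c (hX _ h1)
      refine ⟨d, ?_⟩
      have h2 : a * e = π * (c * e) := by
        linear_combination e * hc - a * he
      rw [h2, hd]
      ring
  · intro y a hy
    obtain ⟨c, hc⟩ := hmk a ⟨y, hy⟩
    refine ⟨c, ?_⟩
    have h1 : π • (y - c • x) = 0 := by
      rw [smul_sub, hy, smul_smul π c, ← hc, mul_smul, hex, sub_self]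
    exact sub_eq_zero.mp (hX _ h1)

/-- splitting off a rank one piece. -/
theorem Base.exists_piece (hA : Base A π) (X : Type v) [AddCommGroup X] [Module A X]
    [Module.Finite A X] [Nontrivial X] :
    ∃ (e : A) (x : X), e * e = e ∧ e • x = x ∧ (∀ y : X, x ≠ π • y) ∧
      (∀ a : A, ¬ π ∣ a * e → ∃ b, π ∣ b * a * e - e) := by
  have hne : ∃ v₀ : X ⧸ LinearMap.range (LinearMap.lsmul A X π), v₀ ≠ 0 := by
    by_contra hcon
    push Not at hcon
    have h1 : (⊥ : Submodule A X) = ⊤ := by
      apply hA.nak
      intro x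
      have h2 := hcon (Submodule.Quotient.mk x)
      rw [Submodule.Quotient.mk_eq_zero] at h2
      obtain ⟨y, hy⟩ := h2
      refine ⟨y, ?_⟩
      rw [LinearMap.lsmul_apply] at hy
      rw [hy, sub_self]
      exact Submodule.zero_mem _
    exact bot_ne_top h1
  obtain ⟨v₀, hv₀⟩ := hne
  obtain ⟨e, v, he, hv, hev, hann, hprim⟩ := hA.exists_prim
    (V := X ⧸ LinearMap.range (LinearMap.lsmul A X π)) (by
      intro v
      obtain ⟨x, rfl⟩ := Submodule.Quotient.mk_surjective _ v
      rw [← Submodule.Quotient.mk_smul, Submodule.Quotient.mk_eq_zero]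
      exact ⟨x, rfl⟩) hv₀
  obtain ⟨x₀, rfl⟩ := Submodule.Quotient.mk_surjective _ v
  refine ⟨e, e • x₀, he, by rw [smul_smul, he], ?_, hprim⟩
  intro y hy
  apply hv
  rw [← hev, ← Submodule.Quotient.mk_smul, Submodule.Quotient.mk_eq_zero]
  exact ⟨y, hy.symm⟩

/-- `A e` as the quotient `A ⧸ (1 - e)` is projective. -/
theorem projective_quot {e : A} (he : e * e = e) :
    Module.Projective A (A ⧸ Ideal.span {1 - e}) := by
  let i : (A ⧸ Ideal.span {1 - e}) →ₗ[A] A :=
    Submodule.liftQ _ (LinearMap.toSpanSingleton A A e) (by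
      rw [Ideal.span_singleton_le_iff_mem]
      simp only [LinearMap.mem_ker, LinearMap.toSpanSingleton_apply, smul_eq_mul]
      linear_combination - he)
  refine Module.Projective.of_split i (Submodule.mkQ _) ?_
  ext
  simp only [LinearMap.coe_comp, comp_apply, LinearMap.id_coe, id_eq]
  change (Submodule.Quotient.mk (i (Submodule.Quotient.mk 1)) : A ⧸ Ideal.span {1 - e}) =
    Submodule.Quotient.mk 1
  rw [Submodule.Quotient.eq]
  change (1 : A) • e - 1 ∈ Ideal.span {1 - e}
  rw [Ideal.mem_span_singleton]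
  exact ⟨-1, by simp⟩

/-- the span of the vector of `exists_piece`. -/
theorem nonempty_span_equiv {X : Type v} [AddCommGroup X] [Module A X] {e : A} {x : X}
    (hex : e • x = x) (hann : ∀ a : A, a • x = 0 → a * e = 0) :
    Nonempty ((Submodule.span A {x}) ≃ₗ[A] (A ⧸ Ideal.span {1 - e})) := by
  have h1 : LinearMap.ker (LinearMap.toSpanSingleton A X x) = Ideal.span {1 - e} := by
    ext a
    rw [LinearMap.mem_ker, LinearMap.toSpanSingleton_apply, Ideal.mem_span_singleton]
    constructor
    · intro h
      exact ⟨a, by linear_combination hann a h⟩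
    · rintro ⟨c, rfl⟩
      rw [mul_comm, mul_smul, sub_smul, one_smul, hex, sub_self, smul_zero]
  have h2 : LinearMap.range (LinearMap.toSpanSingleton A X x) = Submodule.span A {x} :=
    (LinearMap.range_toSpanSingleton x)
  exact ⟨((Submodule.quotEquivOfEq _ _ h1).symm.trans
    ((LinearMap.toSpanSingleton A X x).quotKerEquivRange.trans
      (LinearEquiv.ofEq _ _ h2))).symm⟩

end split

section ind

variable {A : Type u} [CommRing A] {π : A}

/-- the index of `a X` in `X` (zero if infinite). -/
noncomputable def ind (a : A) (X : Type v) [AddCommGroup X] [Module A X] : ℕ :=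
  (LinearMap.range (LinearMap.lsmul A X a)).toAddSubgroup.index

theorem ind_congr (a : A) {X : Type v} {Y : Type w} [AddCommGroup X] [Module A X]
    [AddCommGroup Y] [Module A Y] (f : X ≃ₗ[A] Y) : ind a X = ind a Y := by
  have h1 : (LinearMap.range (LinearMap.lsmul A X a)).toAddSubgroup =
      (LinearMap.range (LinearMap.lsmul A Y a)).toAddSubgroup.comap
        (f : X →+ Y) := by
    ext x
    simp only [AddSubgroup.mem_comap, Submodule.mem_toAddSubgroup, LinearMap.mem_range,
      LinearMap.lsmul_apply]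
    constructor
    · rintro ⟨y, rfl⟩
      exact ⟨f y, by simp⟩
    · rintro ⟨y, hy⟩
      refine ⟨f.symm y, ?_⟩
      apply f.injective
      simpa using hy
  unfold ind
  rw [h1]
  exact AddSubgroup.index_comap_of_surjective _ f.surjective

theorem ind_prod (a : A) (X : Type v) (Y : Type w) [AddCommGroup X] [Module A X]
    [AddCommGroup Y] [Module A Y] : ind a (X × Y) = ind a X * ind a Y := by
  unfold ind
  rw [← AddSubgroup.index_prod]
  congr 1
  ext ⟨x, y⟩
  simp only [AddSubgroup.mem_prod, Submodule.mem_toAddSubgroup, LinearMap.mem_range,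
    LinearMap.lsmul_apply, Prod.exists, Prod.smul_mk, Prod.mk.injEq]
  constructor
  · rintro ⟨b, c, rfl, rfl⟩
    exact ⟨⟨b, rfl⟩, ⟨c, rfl⟩⟩
  · rintro ⟨⟨b, rfl⟩, ⟨c, rfl⟩⟩
    exact ⟨b, c, rfl, rfl⟩

/-- isogenous modules have the same indices. -/
theorem ind_eq_of_isog (a : A) {X : Type v} {Y : Type w} [AddCommGroup X] [Module A X]
    [AddCommGroup Y] [Module A Y] (f : X →ₗ[A] Y) (hf : Injective f)
    (haY : ∀ y : Y, a • y = 0 → y = 0)
    (hfin : (LinearMap.range f).toAddSubgroup.index ≠ 0) : ind a X = ind a Y := by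
  unfold ind
  -- `[Y : f (a X)] = [Y : a (f X)]`
  set H := (LinearMap.range f).toAddSubgroup
  have hX : ((LinearMap.range (LinearMap.lsmul A X a)).toAddSubgroup.map (f : X →+ Y)).index =
      (LinearMap.range (LinearMap.lsmul A X a)).toAddSubgroup.index * H.index := by
    rw [AddSubgroup.index_map_of_injective _ (f := (f : X →+ Y)) hf]
    rfl
  have hY : (H.map (LinearMap.lsmul A Y a : Y →+ Y)).index =
      H.index * (LinearMap.range (LinearMap.lsmul A Y a)).toAddSubgroup.index := by
    rw [AddSubgroup.index_map_of_injective _ (f := (LinearMap.lsmul A Y a : Y →+ Y))]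
    · rfl
    · intro x y hxy
      have h1 : a • x = a • y := hxy
      exact sub_eq_zero.mp (haY _ (by rw [smul_sub, h1, sub_self]))
  have hXY : (LinearMap.range (LinearMap.lsmul A X a)).toAddSubgroup.map (f : X →+ Y) =
      H.map (LinearMap.lsmul A Y a : Y →+ Y) := by
    ext y
    simp only [AddSubgroup.mem_map, Submodule.mem_toAddSubgroup, LinearMap.mem_range,
      H]
    constructor
    · rintro ⟨_, ⟨z, rfl⟩, rfl⟩
      exact ⟨f z, ⟨z, rfl⟩, by simp⟩
    · rintro ⟨_, ⟨z, rfl⟩, rfl⟩
      exact ⟨a • z, ⟨z, rfl⟩, by simp⟩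
  rw [hXY, hY, mul_comm] at hX
  exact (Nat.eq_of_mul_eq_mul_right (Nat.pos_of_ne_zero hfin) hX).symm

theorem Base.ind_ne_zero (hA : Base A π) {a b : A} (hab : a * b = π) (X : Type v)
    [AddCommGroup X] [Module A X] [Module.Finite A X] : ind a X ≠ 0 := by
  have h1 : (LinearMap.range (LinearMap.lsmul A X π)).toAddSubgroup ≤
      (LinearMap.range (LinearMap.lsmul A X a)).toAddSubgroup := by
    rintro _ ⟨y, rfl⟩
    exact ⟨b • y, by simp only [LinearMap.lsmul_apply, smul_smul, hab]⟩
  have h2 : (LinearMap.range (LinearMap.lsmul A X π)).toAddSubgroup.index ≠ 0 := by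
    have := hA.finite_quot X
    have h3 : Finite (X ⧸ (LinearMap.range (LinearMap.lsmul A X π)).toAddSubgroup) := this
    exact AddSubgroup.index_ne_zero_of_finite
  exact fun h => h2 (Nat.eq_zero_of_zero_dvd (h ▸ AddSubgroup.index_dvd_of_le h1))

/-- `ind a X ≠ 1` iff `a X ≠ X`. -/
theorem exists_of_ind_ne_one {a : A} {X : Type v} [AddCommGroup X] [Module A X]
    (h : ind a X ≠ 1) : ∃ x : X, ∀ y : X, x ≠ a • y := by
  by_contra hcon
  push Not at hcon
  apply h
  unfold ind
  rw [AddSubgroup.index_eq_one, eq_top_iff]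
  intro x _
  obtain ⟨y, hy⟩ := hcon x
  exact ⟨y, hy.symm⟩

theorem ind_ne_one {a : A} {X : Type v} [AddCommGroup X] [Module A X] {x : X}
    (h : ∀ y : X, x ≠ a • y) : ind a X ≠ 1 := by
  intro h1
  unfold ind at h1
  rw [AddSubgroup.index_eq_one, eq_top_iff] at h1
  obtain ⟨y, hy⟩ := h1 (AddSubgroup.mem_top x)
  exact h y hy.symm

/-- finite torsion-free modules are projective. -/
theorem Base.projective_aux (hA : Base A π) (n : ℕ) :
    ∀ (X : Type v) [AddCommGroup X] [Module A X] [Module.Finite A X],
      (∀ x : X, π • x = 0 → x = 0) → ind π X ≤ n → Module.Projective A X := by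
  induction n with
  | zero =>
    intro X _ _ _ _ hn
    exact absurd (Nat.le_zero.mp hn) (hA.ind_ne_zero (mul_one π) X)
  | succ n ih =>
    intro X _ _ _ hX hn
    rcases subsingleton_or_nontrivial X with hs | hs
    · infer_instance
    obtain ⟨e, x, he, hex, hx, hprim⟩ := hA.exists_piece X
    obtain ⟨hann, htf⟩ := hA.piece_props hX he hex hprim hx
    -- the quotient
    have hq : ∀ q : X ⧸ Submodule.span A {x}, π • q = 0 → q = 0 := by
      intro q hq
      obtain ⟨y, rfl⟩ := Submodule.Quotient.mk_surjective _ q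
      rw [← Submodule.Quotient.mk_smul, Submodule.Quotient.mk_eq_zero,
        Submodule.mem_span_singleton] at hq
      obtain ⟨a, ha⟩ := hq
      obtain ⟨c, rfl⟩ := htf y a ha.symm
      rw [Submodule.Quotient.mk_eq_zero]
      exact Submodule.smul_mem _ _ (Submodule.mem_span_singleton_self x)
    have hlt : ind π (X ⧸ Submodule.span A {x}) < ind π X := by
      -- `ind π (X/N) * [π X + N : π X] = ind π X`
      set T := (LinearMap.range (LinearMap.lsmul A X π)).toAddSubgroup with hT
      set T' := (LinearMap.range (LinearMap.lsmul A (X ⧸ Submodule.span A {x}) π)).toAddSubgroup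
        with hT'
      have h1 : (T'.comap ((Submodule.span A {x}).mkQ : X →+ X ⧸ Submodule.span A {x})).index =
          T'.index :=
        AddSubgroup.index_comap_of_surjective _ (Submodule.mkQ_surjective _)
      have h2 : T < T'.comap ((Submodule.span A {x}).mkQ : X →+ X ⧸ Submodule.span A {x}) := by
        rw [lt_iff_le_not_ge]
        constructor
        · rintro _ ⟨y, rfl⟩
          exact ⟨Submodule.Quotient.mk y, rfl⟩
        · intro hcon
          have h3 : x ∈ T := hcon (by
            refine ⟨0, ?_⟩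
            rw [map_zero]
            symm
            exact (Submodule.Quotient.mk_eq_zero _).mpr (Submodule.mem_span_singleton_self x))
          obtain ⟨y, hy⟩ := h3
          exact hx y hy.symm
      have h4 : T.index ≠ 0 := hA.ind_ne_zero (mul_one π) X
      unfold ind
      rw [← hT, ← hT', ← h1]
      have : T.FiniteIndex := ⟨h4⟩
      exact AddSubgroup.index_strictAnti h2
    have hp := ih (X ⧸ Submodule.span A {x}) hq (by omega)
    obtain ⟨g⟩ := exists_linearEquiv_prod (Submodule.span A {x}).mkQ
      (Submodule.mkQ_surjective _)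
    rw [Submodule.ker_mkQ] at g
    have hp2 := projective_quot he
    obtain ⟨g'⟩ := nonempty_span_equiv hex hann
    have hp3 : Module.Projective A (Submodule.span A {x}) := Module.Projective.of_equiv g'.symm
    exact Module.Projective.of_equiv g.symm

theorem Base.projective (hA : Base A π) (X : Type v) [AddCommGroup X] [Module A X]
    [Module.Finite A X] (hX : ∀ x : X, π • x = 0 → x = 0) : Module.Projective A X :=
  hA.projective_aux _ X hX le_rfl

/-- the element `π e + (1 - e)`. -/
theorem te_mul {e : A} (he : e * e = e) : (π * e + (1 - e)) * (π * (1 - e) + e) = π := by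
  linear_combination (-π ^ 2 + 2 * π - 1) * he

theorem te_smul {X : Type v} [AddCommGroup X] [Module A X] {e : A} (he : e * e = e)
    (hX : ∀ x : X, π • x = 0 → x = 0) : ∀ x : X, (π * e + (1 - e)) • x = 0 → x = 0 := by
  intro x hx
  apply hX
  rw [← te_mul (π := π) he, mul_comm, mul_smul, hx, smul_zero]

/-- **classification**: finite torsion-free modules with the same indices
`[X : (π e + 1 - e) X]` are isomorphic. -/
theorem Base.iso_aux (hA : Base A π) (n : ℕ) :
    ∀ (X : Type v) (Y : Type w) [AddCommGroup X] [Module A X] [Module.Finite A X]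
      [AddCommGroup Y] [Module A Y] [Module.Finite A Y],
      (∀ x : X, π • x = 0 → x = 0) → (∀ y : Y, π • y = 0 → y = 0) →
      (∀ e : A, e * e = e → ind (π * e + (1 - e)) X = ind (π * e + (1 - e)) Y) →
      ind π X ≤ n → Nonempty (X ≃ₗ[A] Y) := by
  induction n with
  | zero =>
    intro X _ _ _ _ _ _ _ _ _ _ hn
    exact absurd (Nat.le_zero.mp hn) (hA.ind_ne_zero (mul_one π) X)
  | succ n ih =>
    intro X Y _ _ _ _ _ _ hX hY hind hn
    rcases subsingleton_or_nontrivial X with hs | hs
    · -- `X = 0`
      have h1 := hind 1 (one_mul 1)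
      rw [mul_one, sub_self, add_zero] at h1
      have h2 : ind π X = 1 := by
        by_contra hcon
        obtain ⟨x, hx⟩ := exists_of_ind_ne_one hcon
        exact hx 0 (Subsingleton.elim _ _)
      rcases subsingleton_or_nontrivial Y with hs' | hs'
      · exact ⟨{ toFun := fun _ => 0, map_add' := by simp, map_smul' := by simp,
                 invFun := fun _ => 0, left_inv := fun _ => Subsingleton.elim _ _,
                 right_inv := fun _ => Subsingleton.elim _ _ }⟩
      · obtain ⟨e, y, -, -, hy, -⟩ := hA.exists_piece Y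
        exact absurd (h1 ▸ h2) (ind_ne_one hy)
    obtain ⟨e, x, he, hex, hx, hprim⟩ := hA.exists_piece X
    obtain ⟨hann, htf⟩ := hA.piece_props hX he hex hprim hx
    -- a vector in `Y`
    have h3 : ind (π * e + (1 - e)) X ≠ 1 := by
      apply ind_ne_one (x := x)
      intro y hy
      apply hx (e • y)
      have h4 : e • x = (π * e) • y := by
        rw [hy, smul_smul]
        congr 1
        linear_combination (π - 1) * he
      rw [hex] at h4
      rw [smul_smul, h4]
    rw [hind e he] at h3
    obtain ⟨y₀, hy₀⟩ := exists_of_ind_ne_one h3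
    have hy : ∀ z : Y, e • y₀ ≠ π • z := by
      intro z hz
      apply hy₀ (e • z + (1 - e) • y₀)
      have h5 : (π * e + (1 - e)) • (e • z + (1 - e) • y₀) = e • (π • z) + (1 - e) • y₀ := by
        rw [smul_add, smul_smul, smul_smul, smul_smul]
        congr 2
        · linear_combination (π - 1) * he
        · linear_combination (1 - π) * he
      rw [h5, ← hz, smul_smul, he, sub_smul, one_smul]
      abel
    have hey : e • (e • y₀) = e • y₀ := by rw [smul_smul, he]
    set y := e • y₀ with hydef
    obtain ⟨hann', htf'⟩ := hA.piece_props hY he hey hprim hy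
    have hq : ∀ q : X ⧸ Submodule.span A {x}, π • q = 0 → q = 0 := by
      intro q hq
      obtain ⟨z, rfl⟩ := Submodule.Quotient.mk_surjective _ q
      rw [← Submodule.Quotient.mk_smul, Submodule.Quotient.mk_eq_zero,
        Submodule.mem_span_singleton] at hq
      obtain ⟨a, ha⟩ := hq
      obtain ⟨c, rfl⟩ := htf z a ha.symm
      rw [Submodule.Quotient.mk_eq_zero]
      exact Submodule.smul_mem _ _ (Submodule.mem_span_singleton_self x)
    have hq' : ∀ q : Y ⧸ Submodule.span A {y}, π • q = 0 → q = 0 := by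
      intro q hq
      obtain ⟨z, rfl⟩ := Submodule.Quotient.mk_surjective _ q
      rw [← Submodule.Quotient.mk_smul, Submodule.Quotient.mk_eq_zero,
        Submodule.mem_span_singleton] at hq
      obtain ⟨a, ha⟩ := hq
      obtain ⟨c, rfl⟩ := htf' z a ha.symm
      rw [Submodule.Quotient.mk_eq_zero]
      exact Submodule.smul_mem _ _ (Submodule.mem_span_singleton_self y)
    have hpX := hA.projective _ hq
    have hpY := hA.projective _ hq'
    obtain ⟨g⟩ := exists_linearEquiv_prod (Submodule.span A {x}).mkQ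
      (Submodule.mkQ_surjective _)
    obtain ⟨g'⟩ := exists_linearEquiv_prod (Submodule.span A {y}).mkQ
      (Submodule.mkQ_surjective _)
    rw [Submodule.ker_mkQ] at g g'
    obtain ⟨k⟩ := nonempty_span_equiv hex hann
    obtain ⟨k'⟩ := nonempty_span_equiv hey hann'
    have hN : ∀ a b : A, a * b = π → ind a (Submodule.span A {x}) ≠ 0 := by
      intro a b hab
      exact hA.ind_ne_zero hab _
    have hind' : ∀ f : A, f * f = f →
        ind (π * f + (1 - f)) (X ⧸ Submodule.span A {x}) =
          ind (π * f + (1 - f)) (Y ⧸ Submodule.span A {y}) := by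
      intro f hf
      have h6 := hind f hf
      rw [ind_congr _ g, ind_congr _ g', ind_prod, ind_prod,
        ← ind_congr _ (k.trans k'.symm)] at h6
      exact Nat.eq_of_mul_eq_mul_left (Nat.pos_of_ne_zero (hN _ _ (te_mul hf))) h6
    have hlt : ind π (X ⧸ Submodule.span A {x}) < ind π X := by
      have h7 : ind π X = ind π (Submodule.span A {x}) * ind π (X ⧸ Submodule.span A {x}) := by
        rw [ind_congr _ g, ind_prod]
      have h8 : ind π (Submodule.span A {x}) ≠ 1 := by
        apply ind_ne_one (x := ⟨x, Submodule.mem_span_singleton_self x⟩)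
        rintro ⟨z, hz⟩ hcon
        exact hx z (congrArg Subtype.val hcon)
      have h9 : ind π (Submodule.span A {x}) ≠ 0 := hN _ _ (mul_one π)
      have h10 : ind π (X ⧸ Submodule.span A {x}) ≠ 0 := hA.ind_ne_zero (mul_one π) _
      rw [h7]
      have h11 : 2 ≤ ind π (Submodule.span A {x}) := by omega
      nlinarith [Nat.pos_of_ne_zero h10]
    obtain ⟨r⟩ := ih (X ⧸ Submodule.span A {x}) (Y ⧸ Submodule.span A {y}) hq hq' hind'
      (by omega)
    exact ⟨g.trans ((LinearEquiv.prodCongr (k.trans k'.symm) r).trans g'.symm)⟩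

theorem Base.iso_of_ind (hA : Base A π) (X : Type v) (Y : Type w) [AddCommGroup X] [Module A X]
    [Module.Finite A X] [AddCommGroup Y] [Module A Y] [Module.Finite A Y]
    (hX : ∀ x : X, π • x = 0 → x = 0) (hY : ∀ y : Y, π • y = 0 → y = 0)
    (hind : ∀ e : A, e * e = e → ind (π * e + (1 - e)) X = ind (π * e + (1 - e)) Y) :
    Nonempty (X ≃ₗ[A] Y) :=
  hA.iso_aux _ X Y hX hY hind le_rfl

/-- isogenous finite torsion-free modules are isomorphic. -/
theorem Base.iso_of_isog (hA : Base A π) {X : Type v} {Y : Type w} [AddCommGroup X] [Module A X]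
    [Module.Finite A X] [AddCommGroup Y] [Module A Y] [Module.Finite A Y]
    (hY : ∀ y : Y, π • y = 0 → y = 0)
    (f : X →ₗ[A] Y) (hf : Injective f)
    (hfin : (LinearMap.range f).toAddSubgroup.index ≠ 0) : Nonempty (X ≃ₗ[A] Y) := by
  refine hA.iso_of_ind X Y ?_ hY ?_
  · intro x hx
    apply hf
    rw [map_zero]
    apply hY
    rw [← map_smul, hx, map_zero]
  · intro e he
    exact ind_eq_of_isog _ f hf (te_smul he hY) hfin

end ind

end Crest.Agent.R267.P46a0_543
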