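import Crest.Agent.R267.P46a0_543

/-!
# Structure of lattices over `A[C_p]` with `Ĥ⁻¹ = 0` (helper543, row 267, node P4.6b)

`A` with `Base A p` (complete, unramified: `A ⧸ p` finite reduced), `M` a finite `p`-torsion-free
`A`-module, `g` an `A`-linear endomorphism with `g ^ p = 1` and `ker (1 + g + … + g^{p-1}) ⊆
(g - 1) M`.  Then `M = P[C_p] ⊕ Q` with `P`, `Q` finite projective over `A` and `g = 1` on `Q`
(`struct`); two such modules which are isogenous are isomorphic (`iso`).
-/

set_option autoImplicit false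

namespace Crest.Agent.R267.P46b_543

open Function Crest.Agent.R267.P46a0_543

universe u v w

/-- projective cover of a finite module killed by `π`. -/
theorem exists_cover_aux {A : Type u} [CommRing A] {π : A} (hA : Base A π) (n : ℕ) :
    ∀ (V : Type v) [AddCommGroup V] [Module A V] [Finite V], (∀ v : V, π • v = 0) →
      Nat.card V ≤ n →
      ∃ (P : Type u) (_ : AddCommGroup P) (_ : Module A P), Module.Finite A P ∧
        Module.Projective A P ∧ (∀ x : P, π • x = 0 → x = 0) ∧
        (∀ x : P, (∀ k : ℕ, ∃ y, x = π ^ k • y) → x = 0) ∧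
        ∃ θ : P →ₗ[A] V, Surjective θ ∧ ∀ x, θ x = 0 → ∃ y, x = π • y := by
  induction n with
  | zero =>
    intro V _ _ _ _ hn
    have := Nat.card_pos (α := V)
    omega
  | succ n ih =>
    intro V _ _ _ hV hn
    rcases subsingleton_or_nontrivial V with hs | hs
    · refine ⟨PUnit, inferInstance, inferInstance, inferInstance, inferInstance,
        fun _ _ => rfl, fun _ _ => rfl, 0, fun v => ⟨0, Subsingleton.elim _ _⟩, fun x _ => ⟨x, rfl⟩⟩
    obtain ⟨v₀, hv₀⟩ := exists_ne (0 : V)
    obtain ⟨e, v, he, hv, hev, hann, -⟩ := hA.exists_prim hV hv₀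
    -- quotient by `A v`
    have hfq : Finite (V ⧸ Submodule.span A {v}) :=
      Finite.of_surjective _ (Submodule.mkQ_surjective _)
    have hlt : Nat.card (V ⧸ Submodule.span A {v}) < Nat.card V := by
      have h1 := (Submodule.span A {v}).card_eq_card_quotient_mul_card
      have h2 : 1 < Nat.card (Submodule.span A {v}) := by
        rw [Finite.one_lt_card_iff_nontrivial]
        exact ⟨⟨⟨v, Submodule.mem_span_singleton_self v⟩, 0, fun h => hv (congrArg Subtype.val h)⟩⟩
      have h3 : 0 < Nat.card (V ⧸ Submodule.span A {v}) := Nat.card_pos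
      rw [h1]
      nlinarith
    obtain ⟨P, _, _, hfin, hproj, htf, hsep, θ, hθ, hker⟩ := ih (V ⧸ Submodule.span A {v}) (by
      intro q
      obtain ⟨x, rfl⟩ := Submodule.Quotient.mk_surjective _ q
      rw [← Submodule.Quotient.mk_smul, hV]
      rfl) (by omega)
    obtain ⟨l, hl⟩ := Module.projective_lifting_property (Submodule.span A {v}).mkQ θ
      (Submodule.mkQ_surjective _)
    have hl' : ∀ x, Submodule.Quotient.mk (l x) = θ x := fun x => by
      rw [← hl]; rfl
    have hpe := projective_quot he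
    let i : (A ⧸ Ideal.span {1 - e}) →ₗ[A] V :=
      Submodule.liftQ _ (LinearMap.toSpanSingleton A V v) (by
        rw [Ideal.span_singleton_le_iff_mem]
        simp only [LinearMap.mem_ker, LinearMap.toSpanSingleton_apply]
        rw [sub_smul, one_smul, hev, sub_self])
    have hi : ∀ a : A, i (Submodule.Quotient.mk a) = a • v := fun a => rfl
    refine ⟨P × (A ⧸ Ideal.span {1 - e}), inferInstance, inferInstance, inferInstance,
      inferInstance, ?_, ?_, LinearMap.coprod l i, ?_, ?_⟩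
    · rintro ⟨x, q⟩ h
      obtain ⟨a, rfl⟩ := Submodule.Quotient.mk_surjective _ q
      rw [Prod.smul_mk, Prod.mk_eq_zero] at h
      rw [Prod.mk_eq_zero]
      refine ⟨htf _ h.1, ?_⟩
      have h1 := h.2
      rw [← Submodule.Quotient.mk_smul, Submodule.Quotient.mk_eq_zero, smul_eq_mul,
        Ideal.mem_span_singleton] at h1
      obtain ⟨c, hc⟩ := h1
      have h2 : π * (e * a) = 0 := by linear_combination e * hc - c * he
      rw [Submodule.Quotient.mk_eq_zero, Ideal.mem_span_singleton]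
      exact ⟨a, by linear_combination hA.nz _ h2⟩
    · rintro ⟨x, q⟩ h
      obtain ⟨a, rfl⟩ := Submodule.Quotient.mk_surjective _ q
      rw [Prod.mk_eq_zero]
      refine ⟨hsep _ fun k => ?_, ?_⟩
      · obtain ⟨y, hy⟩ := h k
        exact ⟨y.1, congrArg Prod.fst hy⟩
      · have h2 : e * a = 0 := by
          apply hA.sep
          intro k
          obtain ⟨⟨y, r⟩, hy⟩ := h k
          obtain ⟨b, rfl⟩ := Submodule.Quotient.mk_surjective _ r
          have h3 := congrArg Prod.snd hy
          simp only [Prod.smul_snd] at h3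
          rw [← Submodule.Quotient.mk_smul, Submodule.Quotient.eq, smul_eq_mul,
            Ideal.mem_span_singleton] at h3
          obtain ⟨c, hc⟩ := h3
          exact ⟨e * b, by linear_combination e * hc - c * he⟩
        rw [Submodule.Quotient.mk_eq_zero, Ideal.mem_span_singleton]
        exact ⟨a, by linear_combination h2⟩
    · intro y
      obtain ⟨x, hx⟩ := hθ (Submodule.Quotient.mk y)
      rw [← hl', Submodule.Quotient.eq, Submodule.mem_span_singleton] at hx
      obtain ⟨a, ha⟩ := hx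
      refine ⟨(x, Submodule.Quotient.mk (-a)), ?_⟩
      rw [LinearMap.coprod_apply, hi, neg_smul, ha]
      abel
    · rintro ⟨x, q⟩ h
      obtain ⟨a, rfl⟩ := Submodule.Quotient.mk_surjective _ q
      rw [LinearMap.coprod_apply, hi] at h
      obtain ⟨x', rfl⟩ := hker x (by
        rw [← hl', Submodule.Quotient.mk_eq_zero, Submodule.mem_span_singleton]
        exact ⟨-a, by rw [neg_smul]; exact neg_eq_of_add_eq_zero_left h⟩)
      simp only [map_smul, hV, zero_add] at h
      obtain ⟨c, hc⟩ := hann a h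
      refine ⟨(x', Submodule.Quotient.mk c), ?_⟩
      rw [Prod.smul_mk, ← Submodule.Quotient.mk_smul]
      congr 1
      rw [Submodule.Quotient.eq, smul_eq_mul, ← hc, Ideal.mem_span_singleton]
      exact ⟨a, by ring⟩

theorem exists_cover {A : Type u} [CommRing A] {π : A} (hA : Base A π)
    (V : Type v) [AddCommGroup V] [Module A V] [Finite V] (hV : ∀ v : V, π • v = 0) :
    ∃ (P : Type u) (_ : AddCommGroup P) (_ : Module A P), Module.Finite A P ∧
      Module.Projective A P ∧ (∀ x : P, π • x = 0 → x = 0) ∧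
      (∀ x : P, (∀ k : ℕ, ∃ y, x = π ^ k • y) → x = 0) ∧
      ∃ θ : P →ₗ[A] V, Surjective θ ∧ ∀ x, θ x = 0 → ∃ y, x = π • y :=
  exists_cover_aux hA _ V hV le_rfl

/-- sums over `ZMod p`. -/
theorem sum_zmod {B : Type w} [AddCommMonoid B] (p : ℕ) [NeZero p] (f : ℕ → B) :
    ∑ i : ZMod p, f i.val = ∑ i ∈ Finset.range p, f i := by
  cases p with
  | zero => exact absurd rfl (NeZero.ne 0)
  | succ n => exact Fin.sum_univ_eq_sum_range f (n + 1)

/-- in a ring, `g ^ p = 1` implies `(g - 1) ^ p ∈ p R`. -/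
theorem sub_one_pow {R : Type w} [Ring R] {p : ℕ} (hp : p.Prime) {g : R} (hg : g ^ p = 1) :
    ∃ s : R, (g - 1) ^ p = (p : R) * s := by
  have h := (Commute.neg_one_right g).add_pow_prime_eq hp
  rw [hg] at h
  generalize (∑ k ∈ Finset.Ioo 0 p, g ^ (k - 1) * (-1) ^ (p - k - 1) *
    ((p.choose k / p : ℕ) : R)) = S at h
  rcases hp.eq_two_or_odd' with h2 | h2
  · subst h2
    refine ⟨1 + g * -1 * S, ?_⟩
    rw [sub_eq_add_neg, h, mul_add, mul_one, mul_assoc, mul_assoc, mul_assoc]
    norm_num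
  · rw [h2.neg_one_pow] at h
    refine ⟨g * -1 * S, ?_⟩
    rw [sub_eq_add_neg, h, mul_assoc, mul_assoc, mul_assoc]
    simp

section struct

set_option linter.unusedSectionVars false

variable {A : Type u} [CommRing A] {p : ℕ} [Fact p.Prime]

/-- the cyclic shift on `P[C_p] = (ZMod p → P)`. -/
def shift (A : Type u) [CommRing A] (p : ℕ) (P : Type w) [AddCommGroup P] [Module A P] :
    (ZMod p → P) →ₗ[A] (ZMod p → P) where
  toFun x i := x (i - 1)
  map_add' _ _ := rfl
  map_smul' _ _ := rfl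

@[simp] theorem shift_apply (P : Type w) [AddCommGroup P] [Module A P] (x : ZMod p → P)
    (i : ZMod p) : shift A p P x i = x (i - 1) := rfl

theorem shift_pow_apply (P : Type w) [AddCommGroup P] [Module A P] (x : ZMod p → P) (n : ℕ)
    (i : ZMod p) : (shift A p P ^ n) x i = x (i - n) := by
  induction n generalizing x with
  | zero => simp
  | succ n ih =>
    rw [pow_succ, Module.End.mul_apply, ih, shift_apply]
    congr 1
    push_cast
    ring

theorem shift_pow_p (P : Type w) [AddCommGroup P] [Module A P] : shift A p P ^ p = 1 := by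
  refine LinearMap.ext fun x => ?_
  funext i
  rw [shift_pow_apply]
  simp

variable {M : Type v} [AddCommGroup M] [Module A M] (g : M →ₗ[A] M)
  {P : Type w} [AddCommGroup P] [Module A P] (j : P →ₗ[A] M)

/-- the norm `1 + g + … + g^{p-1}`. -/
noncomputable def Nm (p : ℕ) (g : M →ₗ[A] M) : M →ₗ[A] M := ∑ i ∈ Finset.range p, g ^ i

theorem Nm_fixed {x : M} (hx : g x = x) : Nm p g x = (p : A) • x := by
  have h1 : ∀ i : ℕ, (g ^ i) x = x := by
    intro i
    induction i with
    | zero => simp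
    | succ i ih => rw [pow_succ, Module.End.mul_apply, hx, ih]
  simp only [Nm, LinearMap.sum_apply, h1, Finset.sum_const, Finset.card_range]
  rw [Nat.cast_smul_eq_nsmul]

theorem sub_Nm (hg : g ^ p = 1) (x : M) : g (Nm p g x) = Nm p g x := by
  have h1 := mul_geom_sum g p
  rw [hg, sub_self, sub_mul, one_mul, sub_eq_zero] at h1
  have h2 := congrArg (fun f => f x) h1
  simpa [Nm, Module.End.mul_apply] using h2

theorem Nm_sub (hg : g ^ p = 1) (x : M) : Nm p g (g x) = Nm p g x := by
  have h1 := geom_sum_mul g p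
  rw [hg, sub_self, mul_sub, mul_one, sub_eq_zero] at h1
  have h2 := congrArg (fun f => f x) h1
  simpa [Nm, Module.End.mul_apply] using h2

/-- the comparison map `P[C_p] → M`. -/
noncomputable def Phi : (ZMod p → P) →ₗ[A] M :=
  ∑ i : ZMod p, (g ^ i.val).comp (j.comp (LinearMap.proj i))

theorem Phi_apply (x : ZMod p → P) : Phi g j x = ∑ i : ZMod p, (g ^ i.val) (j (x i)) := by
  simp [Phi]

theorem pow_val_add_one (hg : g ^ p = 1) (i : ZMod p) : g ^ (i + 1).val = g ^ (i.val + 1) := by
  have h : (i + 1).val = (i.val + 1) % p := by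
    rw [ZMod.val_add, ZMod.val_one_eq_one_mod, Nat.add_mod_mod]
  rw [h]
  conv_rhs => rw [← Nat.div_add_mod (i.val + 1) p]
  rw [pow_add, pow_mul, hg, one_pow, one_mul]

theorem Phi_shift (hg : g ^ p = 1) (x : ZMod p → P) :
    Phi g j (shift A p P x) = g (Phi g j x) := by
  rw [Phi_apply, Phi_apply, map_sum, ← Equiv.sum_comp (Equiv.addRight (1 : ZMod p))]
  refine Finset.sum_congr rfl fun i _ => ?_
  rw [Equiv.coe_addRight, shift_apply, add_sub_cancel_right, pow_val_add_one g hg, pow_succ',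
    Module.End.mul_apply]

theorem Phi_const (y : P) : Phi g j (fun _ : ZMod p => y) = Nm p g (j y) := by
  rw [Phi_apply, Nm, LinearMap.sum_apply]
  exact sum_zmod p (fun i => (g ^ i) (j y))

theorem Phi_single (y : P) : Phi g j (Pi.single (0 : ZMod p) y) = j y := by
  classical
  rw [Phi_apply, Finset.sum_eq_single (0 : ZMod p)]
  · simp
  · intro i _ hi
    simp [Pi.single_eq_of_ne hi]
  · simp

variable {g j}

/-- the hypotheses on `(M, g)`. -/
structure Lat (A : Type u) [CommRing A] (p : ℕ) (M : Type v) [AddCommGroup M] [Module A M]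
    (g : M →ₗ[A] M) : Prop where
  finite : Module.Finite A M
  tf : ∀ x : M, (p : A) • x = 0 → x = 0
  pow : g ^ p = 1
  hm1 : ∀ x : M, ∑ i ∈ Finset.range p, (g ^ i) x = 0 → ∃ y, x = g y - y

theorem Lat.hm1' (h : Lat A p M g) {x : M} (hx : Nm p g x = 0) : ∃ y, x = g y - y :=
  h.hm1 x (by simpa [Nm] using hx)

/-- the covering data: `j : P → M` such that `P → M ⧸ (M^g + (g-1) M)` is surjective with kernel
`p P`. -/
structure Cov (A : Type u) [CommRing A] (p : ℕ) (M : Type v) [AddCommGroup M] [Module A M]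
    (g : M →ₗ[A] M) (P : Type w) [AddCommGroup P] [Module A P] (j : P →ₗ[A] M) : Prop where
  sep : ∀ x : P, (∀ k : ℕ, ∃ y, x = (p : A) ^ k • y) → x = 0
  surj : ∀ m : M, ∃ (y : P) (z w : M), g z = z ∧ m = j y + z + (g w - w)
  ker : ∀ (y : P) (z w : M), g z = z → j y = z + (g w - w) → ∃ y', y = (p : A) • y'

/-- claim (C). -/
theorem Cov.claimC (h : Lat A p M g) (c : Cov A p M g P j) {y : P} {z : M}
    (hyz : Nm p g (j y) = (p : A) • z) : ∃ y', y = (p : A) • y' := by
  have h1 : g z = z := by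
    have h2 : (p : A) • (g z - z) = 0 := by
      rw [smul_sub, ← map_smul, ← hyz, sub_Nm g h.pow, sub_self]
    exact sub_eq_zero.mp (h.tf _ h2)
  have h3 : Nm p g (j y - z) = 0 := by
    rw [map_sub, Nm_fixed g h1, hyz, sub_self]
  obtain ⟨w, hw⟩ := h.hm1' h3
  exact c.ker y z w h1 (by rw [← hw]; abel)

/-- claim (n = 1). -/
theorem Cov.claim_one (h : Lat A p M g) (c : Cov A p M g P j) {x : ZMod p → P}
    (hx : ∃ z, Phi g j x = (p : A) • z) (ht : ∃ y, shift A p P x - x = (p : A) • y) :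
    ∃ y, x = (p : A) • y := by
  obtain ⟨z, hz⟩ := hx
  obtain ⟨y, hy⟩ := ht
  have h1 : ∀ n : ℕ, ∃ u, x (n : ZMod p) = x 0 + (p : A) • u := by
    intro n
    induction n with
    | zero => exact ⟨0, by simp⟩
    | succ n ih =>
      obtain ⟨u, hu⟩ := ih
      have h2 := congrFun hy ((n + 1 : ℕ) : ZMod p)
      rw [Pi.sub_apply, shift_apply, Pi.smul_apply] at h2
      have h3 : (((n + 1 : ℕ) : ZMod p) - 1) = (n : ZMod p) := by push_cast; ring
      rw [h3, hu] at h2
      exact ⟨u - y ((n + 1 : ℕ) : ZMod p), by rw [smul_sub, ← h2]; abel⟩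
  have h1' : ∀ i : ZMod p, ∃ u, x i = x 0 + (p : A) • u := by
    intro i
    obtain ⟨u, hu⟩ := h1 i.val
    rw [ZMod.natCast_zmod_val] at hu
    exact ⟨u, hu⟩
  choose u hu using h1'
  have h4 : x = (fun _ => x 0) + (p : A) • u := by
    funext i
    exact hu i
  have h5 : Nm p g (j (x 0)) = (p : A) • (z - Phi g j u) := by
    rw [← Phi_const, smul_sub, ← hz]
    conv_rhs => rw [h4]
    rw [map_add, map_smul]
    abel
  obtain ⟨y', hy'⟩ := c.claimC h h5
  exact ⟨fun i => y' + u i, by
    funext i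
    rw [Pi.smul_apply, smul_add, ← hy']
    exact hu i⟩

theorem Cov.claim_n (h : Lat A p M g) (c : Cov A p M g P j) (n : ℕ) :
    ∀ x : ZMod p → P, (∃ z, Phi g j x = (p : A) • z) →
      (∃ y, ((shift A p P - 1) ^ n) x = (p : A) • y) → ∃ y, x = (p : A) • y := by
  induction n with
  | zero =>
    intro x _ ⟨y, hy⟩
    exact ⟨y, by simpa using hy⟩
  | succ n ih =>
    intro x hx ⟨y, hy⟩
    refine c.claim_one h hx ?_
    have h1 := ih ((shift A p P - 1) x) (by
      obtain ⟨z, hz⟩ := hx
      refine ⟨g z - z, ?_⟩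
      rw [LinearMap.sub_apply, Module.End.one_apply, map_sub, Phi_shift g j h.pow, hz, map_smul,
        smul_sub]) ⟨y, by rw [← hy, pow_succ, Module.End.mul_apply]⟩
    simpa using h1

/-- `P[C_p] ⧸ p → M ⧸ p` is injective. -/
theorem Cov.pure (h : Lat A p M g) (c : Cov A p M g P j) {x : ZMod p → P}
    (hx : ∃ z, Phi g j x = (p : A) • z) : ∃ y, x = (p : A) • y := by
  refine c.claim_n h p x hx ?_
  obtain ⟨s, hs⟩ := sub_one_pow (Fact.out : p.Prime) (shift_pow_p (A := A) (p := p) P)
  refine ⟨s x, ?_⟩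
  rw [hs, Module.End.mul_apply]
  simp [Nat.cast_smul_eq_nsmul]

theorem Cov.inj (h : Lat A p M g) (c : Cov A p M g P j) : Injective (Phi (p := p) g j) := by
  rw [injective_iff_map_eq_zero]
  intro x hx
  have h1 : ∀ k : ℕ, ∃ y, x = (p : A) ^ k • y ∧ Phi g j y = 0 := by
    intro k
    induction k with
    | zero => exact ⟨x, by simp, hx⟩
    | succ k ih =>
      obtain ⟨y, hy, hy0⟩ := ih
      obtain ⟨y', rfl⟩ := c.pure h ⟨0, by rw [hy0, smul_zero]⟩
      refine ⟨y', by rw [hy, smul_smul, pow_succ], ?_⟩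
      rw [map_smul] at hy0
      exact h.tf _ hy0
  funext i
  apply c.sep
  intro k
  obtain ⟨y, hy, -⟩ := h1 k
  exact ⟨y i, by rw [hy]; rfl⟩

/-- every `(g - 1) m` is in `(g - 1) Φ(P[C_p]) + (g - 1)^{n+1} M`. -/
theorem Cov.approx (h : Lat A p M g) (c : Cov A p M g P j) (n : ℕ) :
    ∀ m : M, ∃ (f : ZMod p → P) (m' : M),
      (g - 1) m = (g - 1) (Phi g j f) + ((g - 1) ^ (n + 1)) m' := by
  induction n with
  | zero =>
    intro m
    exact ⟨0, m, by simp⟩
  | succ n ih =>
    intro m
    obtain ⟨y, z, w, hz, hm⟩ := c.surj m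
    obtain ⟨f, m', hf⟩ := ih w
    refine ⟨Pi.single 0 y + (shift A p P f - f), m', ?_⟩
    have h1 : (g - 1) z = 0 := by
      rw [LinearMap.sub_apply, Module.End.one_apply, hz, sub_self]
    have h2 : Phi g j (shift A p P f - f) = (g - 1) (Phi g j f) := by
      rw [map_sub, Phi_shift g j h.pow, LinearMap.sub_apply, Module.End.one_apply]
    have h3 : m = j y + z + (g - 1) w := by
      rw [LinearMap.sub_apply, Module.End.one_apply]
      exact hm
    rw [h3, hf, map_add, map_add, h1, add_zero, map_add, map_add, map_add, Phi_single, h2,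
      add_assoc, pow_succ' (g - 1) (n + 1), Module.End.mul_apply]

/-- `(g - 1) M = (g - 1) Φ(P[C_p])`. -/
theorem Cov.surj_K (hA : Base A (p : A)) (h : Lat A p M g) (c : Cov A p M g P j) (m : M) :
    ∃ f : ZMod p → P, (g - 1) m = (g - 1) (Phi g j f) := by
  have := h.finite
  let K := LinearMap.range (g - 1)
  let t : M →ₗ[A] K := (g - 1).rangeRestrict
  have ht : Surjective t := (g - 1).surjective_rangeRestrict
  have hK : Module.Finite A K := Module.Finite.of_surjective t ht
  have h1 : LinearMap.range (t.comp (Phi (p := p) g j)) = ⊤ := by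
    apply hA.nak
    intro x
    obtain ⟨m, rfl⟩ := ht x
    obtain ⟨f, m', hf⟩ := c.approx h p m
    obtain ⟨s, hs⟩ := sub_one_pow (Fact.out : p.Prime) h.pow
    refine ⟨t (s m'), f, ?_⟩
    apply Subtype.ext
    have h2 : ((g - 1) ^ (p + 1)) m' = (p : A) • ((g - 1) (s m')) := by
      rw [pow_succ', Module.End.mul_apply, hs, Module.End.mul_apply, ← map_smul]
      congr 1
      simp [Nat.cast_smul_eq_nsmul]
    change (g - 1) (Phi g j f) = (g - 1) m - (p : A) • ((g - 1) (s m'))
    rw [hf, h2]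
    abel
  obtain ⟨f, hf⟩ : t m ∈ LinearMap.range (t.comp (Phi (p := p) g j)) := h1 ▸ Submodule.mem_top
  exact ⟨f, (congrArg Subtype.val hf).symm⟩

/-- the fixed part is finite. -/
theorem Lat.finite_ker (hA : Base A (p : A)) (h : Lat A p M g) :
    Module.Finite A (LinearMap.ker (g - 1)) := by
  have := h.finite
  have hK : Module.Finite A (LinearMap.range (g - 1)) :=
    Module.Finite.of_surjective _ (g - 1).surjective_rangeRestrict
  have hp : Module.Projective A (LinearMap.range (g - 1)) := by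
    refine hA.projective _ ?_
    rintro ⟨x, hx⟩ h0
    apply Subtype.ext
    exact h.tf _ (congrArg Subtype.val h0)
  obtain ⟨E⟩ := exists_linearEquiv_prod (g - 1).rangeRestrict (g - 1).surjective_rangeRestrict
  rw [LinearMap.ker_rangeRestrict] at E
  refine Module.Finite.of_surjective
    ((LinearMap.fst A (LinearMap.ker (g - 1)) (LinearMap.range (g - 1))).comp E.toLinearMap) ?_
  intro x
  obtain ⟨m, hm⟩ := E.surjective (x, 0)
  exact ⟨m, by simp [hm]⟩

/-- **STRUCT**. -/
theorem struct (hA : Base A (p : A)) (h : Lat A p M g) :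
    ∃ (P : Type u) (_ : AddCommGroup P) (_ : Module A P) (Q : Type v) (_ : AddCommGroup Q)
      (_ : Module A Q), Module.Finite A P ∧ Module.Projective A P ∧ Module.Finite A Q ∧
      Module.Projective A Q ∧ (∀ x : P, (p : A) • x = 0 → x = 0) ∧
      (∀ x : Q, (p : A) • x = 0 → x = 0) ∧
      ∃ E : ((ZMod p → P) × Q) ≃ₗ[A] M, ∀ x q, E (shift A p P x, q) = g (E (x, q)) := by
  have := h.finite
  -- the quotient `V`
  let W : Submodule A M := LinearMap.ker (g - 1) ⊔ LinearMap.range (g - 1)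
  have hW : ∀ m : M, (p : A) • m ∈ W := by
    intro m
    have h1 : (p : A) • m = Nm p g m - (Nm p g m - (p : A) • m) := by abel
    rw [h1]
    refine Submodule.sub_mem _ (Submodule.mem_sup_left ?_) (Submodule.mem_sup_right ?_)
    · rw [LinearMap.mem_ker, LinearMap.sub_apply, Module.End.one_apply, sub_Nm g h.pow, sub_self]
    · have h2 : Nm p g - (p : M →ₗ[A] M) = (g - 1) * (∑ i ∈ Finset.range p,
          ∑ k ∈ Finset.range i, g ^ k) := by
        rw [Finset.mul_sum, Nm]
        have h3 : ∀ i ∈ Finset.range p, (g - 1) * ∑ k ∈ Finset.range i, g ^ k = g ^ i - 1 :=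
          fun i _ => mul_geom_sum g i
        rw [Finset.sum_congr rfl h3, Finset.sum_sub_distrib]
        simp
      refine ⟨(∑ i ∈ Finset.range p, ∑ k ∈ Finset.range i, g ^ k) m, ?_⟩
      rw [← Module.End.mul_apply, ← h2, LinearMap.sub_apply]
      simp [Nat.cast_smul_eq_nsmul]
  have hfin : Finite (M ⧸ W) := by
    have h1 := hA.finite_quot M
    have h2 : LinearMap.range (LinearMap.lsmul A M (p : A)) ≤ W := by
      rintro _ ⟨m, rfl⟩
      exact hW m
    exact Finite.of_surjective _ (Submodule.factor_surjective h2)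
  obtain ⟨P, _, _, hPf, hPp, hPt, hPs, θ, hθ, hker⟩ := exists_cover hA (M ⧸ W) (by
    intro v
    obtain ⟨m, rfl⟩ := Submodule.Quotient.mk_surjective _ v
    rw [← Submodule.Quotient.mk_smul, Submodule.Quotient.mk_eq_zero]
    exact hW m)
  obtain ⟨j, hj⟩ := Module.projective_lifting_property W.mkQ θ (Submodule.mkQ_surjective _)
  have hj' : ∀ x, Submodule.Quotient.mk (j x) = θ x := fun x => by
    rw [← hj]; rfl
  have hfix : ∀ z : M, g z = z ↔ z ∈ LinearMap.ker (g - 1) := by
    intro z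
    rw [LinearMap.mem_ker, LinearMap.sub_apply, Module.End.one_apply, sub_eq_zero]
  have c : Cov A p M g P j := by
    refine ⟨hPs, ?_, ?_⟩
    · intro m
      obtain ⟨y, hy⟩ := hθ (Submodule.Quotient.mk m)
      rw [← hj', eq_comm, Submodule.Quotient.eq] at hy
      obtain ⟨z, hz, w, ⟨w', rfl⟩, hzw⟩ := Submodule.mem_sup.mp hy
      refine ⟨y, z, w', (hfix z).mpr hz, ?_⟩
      rw [LinearMap.sub_apply, Module.End.one_apply] at hzw
      rw [add_assoc, hzw]
      abel
    · intro y z w hz hyz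
      apply hker
      rw [← hj', Submodule.Quotient.mk_eq_zero, hyz]
      exact Submodule.add_mem_sup ((hfix z).mp hz) ⟨w, by
        rw [LinearMap.sub_apply, Module.End.one_apply]⟩
  -- the fixed part
  have hMg := h.finite_ker hA
  let η : P →ₗ[A] LinearMap.ker (g - 1) :=
    LinearMap.codRestrict _ ((Nm p g).comp j) (fun y => by
      rw [← hfix]
      exact sub_Nm g h.pow _)
  have hη : ∀ y, ((η y : LinearMap.ker (g - 1)) : M) = Nm p g (j y) := fun y => rfl
  have hQt : ∀ q : (LinearMap.ker (g - 1)) ⧸ LinearMap.range η, (p : A) • q = 0 → q = 0 := by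
    intro q hq
    obtain ⟨z, rfl⟩ := Submodule.Quotient.mk_surjective _ q
    rw [← Submodule.Quotient.mk_smul, Submodule.Quotient.mk_eq_zero] at hq
    obtain ⟨y, hy⟩ := hq
    have h1 : Nm p g (j y) = (p : A) • (z : M) := by
      rw [← hη, hy]; rfl
    obtain ⟨y', rfl⟩ := c.claimC h h1
    rw [Submodule.Quotient.mk_eq_zero]
    refine ⟨y', ?_⟩
    apply Subtype.ext
    rw [hη]
    rw [map_smul, map_smul] at h1
    have h2 : (p : A) • (Nm p g (j y') - (z : M)) = 0 := by rw [smul_sub, h1, sub_self]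
    exact sub_eq_zero.mp (h.tf _ h2)
  have hQp := hA.projective _ hQt
  obtain ⟨σ, hσ⟩ := Module.projective_lifting_property (LinearMap.range η).mkQ LinearMap.id
    (Submodule.mkQ_surjective _)
  have hσ' : ∀ q, Submodule.Quotient.mk (σ q) = q := fun q => by
    have := congrArg (fun f => f q) hσ
    simpa using this
  have hσfix : ∀ q, g (σ q : M) = σ q := fun q => (hfix _).mpr (σ q).2
  -- the map
  let E₀ : ((ZMod p → P) × ((LinearMap.ker (g - 1)) ⧸ LinearMap.range η)) →ₗ[A] M :=
    LinearMap.coprod (Phi g j) ((LinearMap.ker (g - 1)).subtype.comp σ)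
  have hE₀ : ∀ x q, E₀ (x, q) = Phi g j x + (σ q : M) := fun x q => rfl
  have hinj : Injective E₀ := by
    rw [injective_iff_map_eq_zero]
    rintro ⟨x, q⟩ h0
    rw [hE₀] at h0
    -- `x` is constant
    have h1 : shift A p P x - x = 0 := by
      apply c.inj h
      rw [map_sub, Phi_shift g j h.pow, map_zero]
      have h2 : Phi g j x = - (σ q : M) := eq_neg_of_add_eq_zero_left h0
      rw [h2, map_neg, hσfix, sub_self]
    have h3 : ∀ n : ℕ, x (n : ZMod p) = x 0 := by
      intro n
      induction n with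
      | zero => simp
      | succ n ih =>
        have h4 := congrFun h1 ((n + 1 : ℕ) : ZMod p)
        rw [Pi.sub_apply, shift_apply, Pi.zero_apply, sub_eq_zero] at h4
        rw [← h4, ← ih]
        congr 1
        push_cast
        ring
    have h5 : x = fun _ => x 0 := by
      funext i
      have := h3 i.val
      rwa [ZMod.natCast_zmod_val] at this
    rw [h5, Phi_const, ← hη] at h0
    have h6 : η (x 0) + σ q = 0 := Subtype.ext h0
    have h7 : q = 0 := by
      rw [← hσ' q, Submodule.Quotient.mk_eq_zero]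
      exact ⟨-(x 0), by rw [map_neg]; exact (eq_neg_of_add_eq_zero_right h6).symm⟩
    subst h7
    have h8 : x = 0 := by
      apply c.inj h
      rw [map_zero, h5, Phi_const, ← hη]
      rw [map_zero, add_zero] at h6
      rw [h6]
      rfl
    rw [h8]
    rfl
  have hsurj : Surjective E₀ := by
    intro m
    obtain ⟨f, hf⟩ := c.surj_K hA h m
    have h1 : m - Phi g j f ∈ LinearMap.ker (g - 1) := by
      rw [LinearMap.mem_ker, map_sub, hf, sub_self]
    let z : LinearMap.ker (g - 1) := ⟨m - Phi g j f, h1⟩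
    have h2 : z - σ (Submodule.Quotient.mk z) ∈ LinearMap.range η := by
      rw [← Submodule.Quotient.mk_eq_zero, Submodule.Quotient.mk_sub, hσ', sub_self]
    obtain ⟨y, hy⟩ := h2
    refine ⟨(f + fun _ => y, Submodule.Quotient.mk z), ?_⟩
    rw [hE₀, map_add, Phi_const, ← hη, hy]
    simp only [z, Submodule.coe_sub]
    abel
  refine ⟨P, inferInstance, inferInstance, _, inferInstance, inferInstance, hPf, hPp,
    inferInstance, hQp, hPt, hQt, LinearEquiv.ofBijective E₀ ⟨hinj, hsurj⟩, ?_⟩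
  intro x q
  change E₀ _ = g (E₀ _)
  rw [hE₀, hE₀, map_add, hσfix, Phi_shift g j h.pow]

end struct

section iso

set_option linter.unusedSectionVars false

variable {A : Type u} [CommRing A] {p : ℕ} [Fact p.Prime]

theorem ind_fin (a : A) (X : Type v) [AddCommGroup X] [Module A X] (n : ℕ) :
    ind a (Fin n → X) = ind a X ^ n := by
  induction n with
  | zero =>
    rw [pow_zero]
    by_contra hcon
    obtain ⟨x, hx⟩ := exists_of_ind_ne_one hcon
    exact hx 0 (Subsingleton.elim _ _)
  | succ n ih =>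
    rw [ind_congr a (Fin.consLinearEquiv A (fun _ => X)).symm, ind_prod, ih, pow_succ']

theorem ind_zmod (a : A) (X : Type v) [AddCommGroup X] [Module A X] :
    ind a (ZMod p → X) = ind a X ^ p := by
  rw [← ind_fin a X p]
  exact ind_congr a (LinearEquiv.funCongrLeft A X (ZMod.finEquiv p).toEquiv)

/-- the fixed part of `P[C_p] ⊕ Q`. -/
theorem ker_equiv {M : Type v} [AddCommGroup M] [Module A M] {g : M →ₗ[A] M}
    {P : Type u} [AddCommGroup P] [Module A P] {Q : Type w} [AddCommGroup Q] [Module A Q]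
    (E : ((ZMod p → P) × Q) ≃ₗ[A] M) (hE : ∀ x q, E (shift A p P x, q) = g (E (x, q))) :
    Nonempty ((LinearMap.ker (g - 1)) ≃ₗ[A] (P × Q)) := by
  let κ₀ : (P × Q) →ₗ[A] M := E.toLinearMap.comp
    (LinearMap.prodMap (LinearMap.pi fun _ => LinearMap.id) LinearMap.id)
  have hκ₀ : ∀ y q, κ₀ (y, q) = E ((fun _ => y), q) := fun y q => rfl
  let κ : (P × Q) →ₗ[A] LinearMap.ker (g - 1) := LinearMap.codRestrict _ κ₀ (by
    rintro ⟨y, q⟩
    rw [LinearMap.mem_ker, LinearMap.sub_apply, Module.End.one_apply, hκ₀, ← hE, sub_eq_zero]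
    rfl)
  have hκ : ∀ y q, ((κ (y, q) : LinearMap.ker (g - 1)) : M) = E ((fun _ => y), q) :=
    fun y q => rfl
  refine ⟨(LinearEquiv.ofBijective κ ⟨?_, ?_⟩).symm⟩
  · rintro ⟨y, q⟩ ⟨y', q'⟩ h
    have h1 : E ((fun _ => y), q) = E ((fun _ => y'), q') := by
      rw [← hκ, ← hκ, h]
    have h2 := E.injective h1
    rw [Prod.mk.injEq] at h2
    rw [Prod.mk.injEq]
    exact ⟨congrFun h2.1 0, h2.2⟩
  · rintro ⟨m, hm⟩
    obtain ⟨⟨x, q⟩, rfl⟩ := E.surjective m
    rw [LinearMap.mem_ker, LinearMap.sub_apply, Module.End.one_apply, ← hE, sub_eq_zero] at hm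
    have h2 := E.injective hm
    rw [Prod.mk.injEq] at h2
    have h3 : ∀ n : ℕ, x (n : ZMod p) = x 0 := by
      intro n
      induction n with
      | zero => simp
      | succ n ih =>
        have h4 := congrFun h2.1 ((n + 1 : ℕ) : ZMod p)
        rw [shift_apply] at h4
        rw [← h4, ← ih]
        congr 1
        push_cast
        ring
    refine ⟨(x 0, q), ?_⟩
    apply Subtype.ext
    rw [hκ]
    congr 2
    funext i
    have := h3 i.val
    rw [ZMod.natCast_zmod_val] at this
    exact this.symm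

/-- **ISO**: isogenous lattices are isomorphic. -/
theorem iso (hA : Base A (p : A)) {M₁ : Type v} [AddCommGroup M₁] [Module A M₁]
    {g₁ : M₁ →ₗ[A] M₁} {M₂ : Type w} [AddCommGroup M₂] [Module A M₂] {g₂ : M₂ →ₗ[A] M₂}
    (h₁ : Lat A p M₁ g₁) (h₂ : Lat A p M₂ g₂) (f : M₁ →ₗ[A] M₂) (hf : Injective f)
    (hfg : ∀ x, f (g₁ x) = g₂ (f x)) (hfin : (LinearMap.range f).toAddSubgroup.index ≠ 0) :
    ∃ e : M₁ ≃ₗ[A] M₂, ∀ x, e (g₁ x) = g₂ (e x) := by
  have := h₁.finite
  have := h₂.finite
  obtain ⟨P₁, _, _, Q₁, _, _, hP₁, -, hQ₁, -, htP₁, htQ₁, E₁, hE₁⟩ := struct hA h₁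
  obtain ⟨P₂, _, _, Q₂, _, _, hP₂, -, hQ₂, -, htP₂, htQ₂, E₂, hE₂⟩ := struct hA h₂
  obtain ⟨K₁⟩ := ker_equiv E₁ hE₁
  obtain ⟨K₂⟩ := ker_equiv E₂ hE₂
  -- the isogeny between the fixed parts
  let f' : LinearMap.ker (g₁ - 1) →ₗ[A] LinearMap.ker (g₂ - 1) :=
    LinearMap.codRestrict _ (f.comp (LinearMap.ker (g₁ - 1)).subtype) (by
      rintro ⟨x, hx⟩
      rw [LinearMap.mem_ker, LinearMap.sub_apply, Module.End.one_apply, sub_eq_zero] at hx ⊢
      change g₂ (f x) = f x
      rw [← hfg, hx])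
  have hf' : ∀ x, ((f' x : LinearMap.ker (g₂ - 1)) : M₂) = f x := fun x => rfl
  have hf'inj : Injective f' := by
    intro x y hxy
    apply Subtype.ext
    apply hf
    rw [← hf', ← hf', hxy]
  have hf'fin : (LinearMap.range f').toAddSubgroup.index ≠ 0 := by
    have h1 : (LinearMap.range f').toAddSubgroup =
        (LinearMap.range f).toAddSubgroup.comap
          ((LinearMap.ker (g₂ - 1)).subtype : LinearMap.ker (g₂ - 1) →+ M₂) := by
      ext ⟨x, hx⟩
      simp only [AddSubgroup.mem_comap, Submodule.mem_toAddSubgroup, LinearMap.mem_range]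
      constructor
      · rintro ⟨y, hy⟩
        exact ⟨y, by rw [← hf', hy]; rfl⟩
      · rintro ⟨y, hy⟩
        have hy' : f y = x := hy
        refine ⟨⟨y, ?_⟩, ?_⟩
        · rw [LinearMap.mem_ker, LinearMap.sub_apply, Module.End.one_apply, sub_eq_zero] at hx ⊢
          apply hf
          rw [hfg, hy', hx]
        · apply Subtype.ext
          rw [hf']
          exact hy'
    rw [h1, ← AddSubgroup.relIndex_top_right, ← AddSubgroup.comap_top
      ((LinearMap.ker (g₂ - 1)).subtype : LinearMap.ker (g₂ - 1) →+ M₂)]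
    refine AddSubgroup.relIndex_comap_ne_zero _ ?_
    rwa [AddSubgroup.relIndex_top_right]
  have key : ∀ e : A, e * e = e →
      ind ((p : A) * e + (1 - e)) P₁ = ind ((p : A) * e + (1 - e)) P₂ ∧
        ind ((p : A) * e + (1 - e)) Q₁ = ind ((p : A) * e + (1 - e)) Q₂ := by
    intro e he
    set a := (p : A) * e + (1 - e) with ha
    have h1 : ind a M₁ = ind a M₂ := ind_eq_of_isog a f hf (te_smul he h₂.tf) hfin
    have h2 : ind a (LinearMap.ker (g₁ - 1)) = ind a (LinearMap.ker (g₂ - 1)) := by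
      refine ind_eq_of_isog a f' hf'inj ?_ hf'fin
      intro y hy
      apply Subtype.ext
      exact te_smul he h₂.tf _ (congrArg Subtype.val hy)
    rw [← ind_congr a E₁, ← ind_congr a E₂, ind_prod, ind_prod, ind_zmod, ind_zmod] at h1
    rw [ind_congr a K₁, ind_congr a K₂, ind_prod, ind_prod] at h2
    have n1 : ind a P₁ ≠ 0 := hA.ind_ne_zero (te_mul he) P₁
    have n2 : ind a Q₁ ≠ 0 := hA.ind_ne_zero (te_mul he) Q₁
    have n3 : ind a P₂ ≠ 0 := hA.ind_ne_zero (te_mul he) P₂
    have n4 : ind a Q₂ ≠ 0 := hA.ind_ne_zero (te_mul he) Q₂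
    have hp2 := (Fact.out : p.Prime).two_le
    obtain ⟨r, hr⟩ : ∃ r, p = r + 2 := ⟨p - 2, by omega⟩
    have h3 : ind a P₁ ^ (r + 1) = ind a P₂ ^ (r + 1) := by
      have h4 : (ind a P₁ ^ (r + 1)) * (ind a P₁ * ind a Q₁) =
          (ind a P₂ ^ (r + 1)) * (ind a P₁ * ind a Q₁) := by
        conv_rhs => rw [h2]
        rw [hr] at h1
        calc (ind a P₁ ^ (r + 1)) * (ind a P₁ * ind a Q₁) = ind a P₁ ^ (r + 2) * ind a Q₁ := by ring
          _ = ind a P₂ ^ (r + 2) * ind a Q₂ := h1
          _ = _ := by ring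
      exact Nat.eq_of_mul_eq_mul_right (Nat.pos_of_ne_zero (mul_ne_zero n1 n2)) h4
    have h5 : ind a P₁ = ind a P₂ := Nat.pow_left_injective (Nat.succ_ne_zero r) h3
    refine ⟨h5, ?_⟩
    rw [h5] at h2
    exact Nat.eq_of_mul_eq_mul_left (Nat.pos_of_ne_zero n3) h2
  obtain ⟨eP⟩ := hA.iso_of_ind P₁ P₂ htP₁ htP₂ fun e he => (key e he).1
  obtain ⟨eQ⟩ := hA.iso_of_ind Q₁ Q₂ htQ₁ htQ₂ fun e he => (key e he).2
  let eF : ((ZMod p → P₁) × Q₁) ≃ₗ[A] ((ZMod p → P₂) × Q₂) :=
    LinearEquiv.prodCongr (LinearEquiv.piCongrRight fun _ => eP) eQ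
  have heF : ∀ x q, eF (shift A p P₁ x, q) = (shift A p P₂ (eF (x, q)).1, (eF (x, q)).2) :=
    fun x q => rfl
  refine ⟨(E₁.symm.trans eF).trans E₂, ?_⟩
  intro m
  obtain ⟨⟨x, q⟩, rfl⟩ := E₁.surjective m
  rw [← hE₁]
  simp only [LinearEquiv.trans_apply, LinearEquiv.symm_apply_apply]
  rw [heF, hE₂]

end iso

end Crest.Agent.R267.P46b_543
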