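import Mathlib
import Crest.Agent.R267.P4Herm_780
import Crest.Agent.R267.P48_118

/-!
# S0407, node P4.7a (helper118): hermitian forms over a finite reduced ring with involution
(element of trace one, skew unit) are classified by the underlying module.
-/

set_option autoImplicit false

namespace Crest.Agent.R267.P47Fin_118

open Crest.Agent.R267.P4Herm_780 Crest.Agent.R267.P4Herm_780.HForm Crest.Agent.R267.P48_118

/-- norms are surjective for a nontrivial involution of a finite field. -/
theorem norm_surj {K : Type*} [Field K] [Finite K] (σ : K →+* K) (hσ : ∀ x, σ (σ x) = x)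
    (hne : ∃ r, σ r ≠ r) (a : K) (ha : σ a = a) (ha0 : a ≠ 0) : ∃ l : K, l * σ l = a := by
  classical
  let s : Kˣ →* Kˣ := Units.map (σ : K →* K)
  have hs : ∀ u : Kˣ, ((s u : Kˣ) : K) = σ (u : K) := fun u => rfl
  let N : Kˣ →* Kˣ := MonoidHom.id Kˣ * s
  let D : Kˣ →* Kˣ := MonoidHom.id Kˣ / s
  have hN : ∀ u, N u = u * s u := fun u => rfl
  have hD : ∀ u, D u = u / s u := fun u => rfl
  have hker : N.ker = D.range := by
    ext u
    rw [MonoidHom.mem_ker, MonoidHom.mem_range, hN]
    constructor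
    · intro h
      have hk : (u : K) * σ (u : K) = 1 := by
        have := congrArg (fun v : Kˣ => (v : K)) h
        simpa [hs] using this
      -- Hilbert 90
      obtain ⟨t, ht⟩ : ∃ t : K, t + u * σ t ≠ 0 := by
        by_contra hcon
        push Not at hcon
        have h1 := hcon 1
        rw [map_one, mul_one] at h1
        obtain ⟨r, hr⟩ := hne
        have h2 := hcon r
        have h3 : (u : K) = -1 := by linear_combination h1
        rw [h3] at h2
        apply hr
        linear_combination - h2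
      refine ⟨Units.mk0 _ ht, ?_⟩
      rw [hD, div_eq_iff_eq_mul]
      ext
      simp only [Units.val_mk0, Units.val_mul, hs, map_add, map_mul, hσ]
      linear_combination (- t) * hk
    · rintro ⟨v, rfl⟩
      rw [hD]
      ext
      simp only [Units.val_mul, hs, Units.val_div_eq_div_val, map_div₀, hσ, Units.val_one]
      have h1 : (v : K) ≠ 0 := v.ne_zero
      have h2 : σ (v : K) ≠ 0 := by
        intro h
        apply h1
        rw [← hσ (v : K), h, map_zero]
      field_simp
  have hle : N.range ≤ D.ker := by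
    rintro _ ⟨v, rfl⟩
    rw [MonoidHom.mem_ker, hD, hN, div_eq_one]
    ext
    simp only [Units.val_mul, hs, map_mul, hσ]
    ring
  have hcard : Nat.card N.range = Nat.card D.ker := by
    have h1 := Subgroup.card_mul_index N.ker
    have h2 := Subgroup.card_mul_index D.ker
    rw [Subgroup.index_ker] at h1 h2
    rw [hker] at h1
    have h3 : 0 < Nat.card D.range := Nat.card_pos
    have : Nat.card D.range * Nat.card N.range = Nat.card D.range * Nat.card D.ker := by
      rw [h1, mul_comm, h2]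
    exact Nat.eq_of_mul_eq_mul_left h3 this
  have heq : N.range = D.ker := Subgroup.eq_of_le_of_card_ge hle hcard.ge
  have hmem : Units.mk0 a ha0 ∈ D.ker := by
    rw [MonoidHom.mem_ker, hD, div_eq_one]
    ext
    simp [hs, ha]
  rw [← heq] at hmem
  obtain ⟨l, hl⟩ := hmem
  refine ⟨l, ?_⟩
  have := congrArg (fun v : Kˣ => (v : K)) hl
  simpa [hN, hs] using this


section ring

variable {R : Type*} [CommRing R] [IsArtinianRing R] [IsReduced R]

/-- an element with prescribed residues. -/
theorem exists_residues (v : ∀ I : MaximalSpectrum R, R ⧸ I.asIdeal) :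
    ∃ b : R, ∀ I : MaximalSpectrum R, Ideal.Quotient.mk I.asIdeal b = v I := by
  obtain ⟨b, hb⟩ := (IsArtinianRing.equivPi R).surjective v
  exact ⟨b, fun I => by rw [← hb, IsArtinianRing.equivPi_apply]⟩

/-- an element congruent to prescribed elements. -/
theorem exists_residues' (v : MaximalSpectrum R → R) :
    ∃ b : R, ∀ I : MaximalSpectrum R, b - v I ∈ I.asIdeal := by
  obtain ⟨b, hb⟩ := exists_residues (R := R) (fun I => Ideal.Quotient.mk I.asIdeal (v I))
  exact ⟨b, fun I => Ideal.Quotient.eq.1 (hb I)⟩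

theorem exists_prim (I : MaximalSpectrum R) :
    ∃ p : R, p - 1 ∈ I.asIdeal ∧ ∀ J : MaximalSpectrum R, J ≠ I → p ∈ J.asIdeal := by
  classical
  obtain ⟨p, hp⟩ := exists_residues' (R := R) (fun J => if J = I then 1 else 0)
  refine ⟨p, by simpa using hp I, fun J hJ => ?_⟩
  simpa [hJ] using hp J

omit [IsArtinianRing R] [IsReduced R] in
theorem notMem_of_sub_one {I : MaximalSpectrum R} {p : R} (h : p - 1 ∈ I.asIdeal) :
    p ∉ I.asIdeal := by
  intro hp
  apply I.isMaximal.ne_top
  rw [Ideal.eq_top_iff_one]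
  have := I.asIdeal.sub_mem hp h
  simpa using this

/-- the quasi-inverse of an element outside of the ideals not containing `e`. -/
theorem exists_inv_on {e b : R} (he : e * e = e)
    (h : ∀ I : MaximalSpectrum R, e ∉ I.asIdeal → b ∉ I.asIdeal) :
    ∃ c : R, c * b = e ∧ e * c = c := by
  obtain ⟨q, hq⟩ := exists_quasiInv b
  refine ⟨e * q, ?_, by rw [← mul_assoc, he]⟩
  apply eq_of_mod
  intro I
  by_cases hI : e ∈ I.asIdeal
  · have : e * q * b - e = (q * b - 1) * e := by ring
    rw [this]; exact I.asIdeal.mul_mem_left _ hI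
  · have hbI := h I hI
    have h1 : b * (b * q - 1) ∈ I.asIdeal := by
      have : b * (b * q - 1) = 0 := by linear_combination hq
      rw [this]; exact I.asIdeal.zero_mem
    have h2 : b * q - 1 ∈ I.asIdeal :=
      (I.isMaximal.isPrime.mem_or_mem h1).resolve_left hbI
    have : e * q * b - e = e * (b * q - 1) := by ring
    rw [this]; exact I.asIdeal.mul_mem_left _ h2

end ring

section star

variable {R : Type*} [CommRing R] [StarRing R]

/-- the conjugate of a maximal ideal. -/
def conj (I : MaximalSpectrum R) : MaximalSpectrum R :=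
  ⟨Ideal.comap (starRingEnd R) I.asIdeal, by
    have := I.isMaximal
    refine Ideal.comap_isMaximal_of_surjective (starRingEnd R) ?_
    intro x
    exact ⟨star x, by rw [starRingEnd_apply, star_star]⟩⟩

theorem mem_conj {I : MaximalSpectrum R} {x : R} : x ∈ (conj I).asIdeal ↔ star x ∈ I.asIdeal :=
  Iff.rfl

theorem conj_conj (I : MaximalSpectrum R) : conj (conj I) = I := by
  ext x
  rw [mem_conj, mem_conj, star_star]

theorem exists_skew_notMem (hG : Good R) (I : MaximalSpectrum R) :
    ∃ r : R, r - star r ∉ I.asIdeal := by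
  obtain ⟨d, hdu, hd⟩ := hG.skew
  obtain ⟨c, hc⟩ := hG.tr
  by_cases h2 : (2 : R) ∈ I.asIdeal
  · refine ⟨c, fun h => ?_⟩
    apply I.isMaximal.ne_top
    rw [Ideal.eq_top_iff_one]
    have : (1 : R) = (c - star c) + 2 * star c := by linear_combination - hc
    rw [this]
    exact I.asIdeal.add_mem h (I.asIdeal.mul_mem_right _ h2)
  · refine ⟨d, fun h => ?_⟩
    rw [hd] at h
    have h3 : 2 * d ∈ I.asIdeal := by
      have : 2 * d = d - -d := by ring
      rw [this]; exact h
    rcases I.isMaximal.isPrime.mem_or_mem h3 with h4 | h4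
    · exact h2 h4
    · exact I.isMaximal.ne_top (I.asIdeal.eq_top_of_isUnit_mem h4 hdu)

variable [IsArtinianRing R] [IsReduced R]

/-- the idempotent of the orbit of `I`. -/
theorem exists_orbit_idem (I : MaximalSpectrum R) :
    ∃ e : R, e * e = e ∧ star e = e ∧ e ∉ I.asIdeal ∧ e ∉ (conj I).asIdeal ∧
      ∀ J : MaximalSpectrum R, e ∉ J.asIdeal → J = I ∨ J = conj I := by
  classical
  obtain ⟨e, he⟩ := exists_residues' (R := R) (fun J => if J = I ∨ J = conj I then 1 else 0)
  have h1 : ∀ J : MaximalSpectrum R, (J = I ∨ J = conj I) → e - 1 ∈ J.asIdeal := by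
    intro J hJ
    have := he J
    rwa [if_pos hJ] at this
  have h0 : ∀ J : MaximalSpectrum R, ¬ (J = I ∨ J = conj I) → e ∈ J.asIdeal := by
    intro J hJ
    have := he J
    rwa [if_neg hJ, sub_zero] at this
  refine ⟨e, ?_, ?_, notMem_of_sub_one (h1 I (Or.inl rfl)),
    notMem_of_sub_one (h1 (conj I) (Or.inr rfl)), ?_⟩
  · apply eq_of_mod
    intro J
    have : e * e - e = e * (e - 1) := by ring
    rw [this]
    by_cases hJ : J = I ∨ J = conj I
    · exact J.asIdeal.mul_mem_left _ (h1 J hJ)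
    · exact J.asIdeal.mul_mem_right _ (h0 J hJ)
  · apply eq_of_mod
    intro J
    by_cases hJ : J = I ∨ J = conj I
    · have hJ' : conj J = I ∨ conj J = conj I := by
        rcases hJ with hJ | hJ
        · right; rw [hJ]
        · left; rw [hJ, conj_conj]
      have e1 := h1 _ hJ'
      rw [mem_conj, star_sub, star_one] at e1
      have e2 := h1 _ hJ
      have : star e - e = (star e - 1) - (e - 1) := by ring
      rw [this]; exact J.asIdeal.sub_mem e1 e2
    · have hJ' : ¬ (conj J = I ∨ conj J = conj I) := by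
        rintro (h | h)
        · apply hJ; right; rw [← h, conj_conj]
        · apply hJ; left; rw [← conj_conj J, h, conj_conj]
      have e1 := h0 _ hJ'
      rw [mem_conj] at e1
      exact J.asIdeal.sub_mem e1 (h0 _ hJ)
  · intro J hJ
    by_contra hcon
    exact hJ (h0 J hcon)

/-- norms are surjective. -/
theorem exists_norm [Finite R] (hG : Good R) (I : MaximalSpectrum R) {e α : R} (he : e * e = e)
    (hes : star e = e) (heI : ∀ J : MaximalSpectrum R, e ∉ J.asIdeal → J = I ∨ J = conj I)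
    (hα : star α = α) (hαI : α ∉ I.asIdeal) :
    ∃ l : R, star l * l * α = e := by
  classical
  suffices h : ∃ l : R, (star l * l * α - 1 ∈ I.asIdeal) ∧
      (star l * l * α - 1 ∈ (conj I).asIdeal) by
    obtain ⟨l, h1, h2⟩ := h
    refine ⟨e * l, ?_⟩
    apply eq_of_mod
    intro J
    have e1 : star (e * l) * (e * l) * α - e = e * (star l * l * α - 1) := by
      rw [star_mul', hes]; linear_combination (star l * l * α) * he
    rw [e1]
    by_cases hJ : e ∈ J.asIdeal
    · exact J.asIdeal.mul_mem_right _ hJ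
    · rcases heI J hJ with rfl | rfl
      · exact J.asIdeal.mul_mem_left _ h1
      · exact Ideal.mul_mem_left _ _ h2
  let : ∀ I : MaximalSpectrum R, Field (R ⧸ I.asIdeal) := fun I => Ideal.Quotient.field I.asIdeal
  have hα0 : Ideal.Quotient.mk I.asIdeal α ≠ 0 := fun h => hαI ((mk_eq_zero' I α).1 h)
  -- reduce to the first congruence
  suffices h : ∃ l : R, (star l * l * α - 1 ∈ I.asIdeal) by
    obtain ⟨l, h1⟩ := h
    refine ⟨l, h1, ?_⟩
    rw [mem_conj]
    have : star (star l * l * α - 1) = star l * l * α - 1 := by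
      rw [star_sub, star_one, star_mul', star_mul', star_star, hα]; ring
    rw [this]; exact h1
  by_cases hII : conj I = I
  · let σ : (R ⧸ I.asIdeal) →+* (R ⧸ I.asIdeal) :=
      Ideal.quotientMap I.asIdeal (starRingEnd R) (by
        intro x hx
        have : x ∈ (conj I).asIdeal := by rw [hII]; exact hx
        exact this)
    have hσ : ∀ x : R, σ (Ideal.Quotient.mk I.asIdeal x) = Ideal.Quotient.mk I.asIdeal (star x) :=
      fun x => rfl
    have : Finite (R ⧸ I.asIdeal) := Finite.of_surjective _ Ideal.Quotient.mk_surjective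
    have hσσ : ∀ x, σ (σ x) = x := by
      intro x
      obtain ⟨x, rfl⟩ := Ideal.Quotient.mk_surjective x
      rw [hσ, hσ, star_star]
    obtain ⟨r, hr⟩ := exists_skew_notMem hG I
    have hne : ∃ r, σ r ≠ r := by
      refine ⟨Ideal.Quotient.mk I.asIdeal r, fun h => hr ?_⟩
      rw [hσ] at h
      exact Ideal.Quotient.eq.1 h.symm
    obtain ⟨l, hl⟩ := norm_surj σ hσσ hne (Ideal.Quotient.mk I.asIdeal α)⁻¹
      (by rw [map_inv₀, hσ, hα]) (inv_ne_zero hα0)
    obtain ⟨l, rfl⟩ := Ideal.Quotient.mk_surjective l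
    refine ⟨l, ?_⟩
    rw [hσ] at hl
    rw [← Ideal.Quotient.eq, map_mul, map_mul, map_one, mul_comm (Ideal.Quotient.mk I.asIdeal (star l)),
      hl]
    exact inv_mul_cancel₀ hα0
  · obtain ⟨l, hl⟩ := exists_residues (R := R)
      (fun J => if J = I then (Ideal.Quotient.mk J.asIdeal α)⁻¹ else 1)
    refine ⟨l, ?_⟩
    have h1 : Ideal.Quotient.mk I.asIdeal l = (Ideal.Quotient.mk I.asIdeal α)⁻¹ := by
      rw [hl I, if_pos rfl]
    have h2 : Ideal.Quotient.mk I.asIdeal (star l) = 1 := by
      have h3 : l - 1 ∈ (conj I).asIdeal := by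
        rw [← Ideal.Quotient.eq, map_one, hl, if_neg hII]
      rw [mem_conj, star_sub, star_one] at h3
      rw [← map_one (Ideal.Quotient.mk I.asIdeal)]
      exact Ideal.Quotient.eq.2 h3
    rw [← Ideal.Quotient.eq, map_mul, map_mul, map_one, h1, h2, one_mul]
    exact inv_mul_cancel₀ hα0

end star

section fin

variable {R M : Type*} [CommRing R] [StarRing R] [Finite R] [IsReduced R]
  [AddCommGroup M] [Module R M]

omit [Finite R] [IsReduced R] in
/-- if some value of `h` on `W × W` is outside of `I`, then some norm is. -/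
theorem exists_aniso (hG : Good R) (H : HForm R M) (W : Submodule R M) (I : MaximalSpectrum R)
    (h : ∃ z ∈ W, ∃ w ∈ W, H.h z w ∉ I.asIdeal) : ∃ x ∈ W, H.h x x ∉ I.asIdeal := by
  by_contra hcon
  push Not at hcon
  obtain ⟨z, hz, w, hw, hzw⟩ := h
  obtain ⟨r, hr⟩ := exists_skew_notMem hG I
  have k1 : H.h z w + H.h w z ∈ I.asIdeal := by
    have h1 := hcon (z + w) (W.add_mem hz hw)
    rw [H.add_right, H.add_left, H.add_left] at h1
    have h2 := I.asIdeal.sub_mem (I.asIdeal.sub_mem h1 (hcon z hz)) (hcon w hw)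
    have h3 : H.h z z + H.h w z + (H.h z w + H.h w w) - H.h z z - H.h w w = H.h z w + H.h w z := by
      ring
    rwa [h3] at h2
  have k2 : r * H.h z w + star r * H.h w z ∈ I.asIdeal := by
    have h1 := hcon (z + r • w) (W.add_mem hz (W.smul_mem r hw))
    rw [H.add_right, H.add_left, H.add_left] at h1
    have h2 := I.asIdeal.sub_mem (I.asIdeal.sub_mem h1 (hcon z hz))
      (hcon (r • w) (W.smul_mem r hw))
    have h3 : H.h z z + H.h (r • w) z + (H.h z (r • w) + H.h (r • w) (r • w)) - H.h z z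
        - H.h (r • w) (r • w) = r * H.h z w + star r * H.h w z := by
      rw [H.smul_right, H.smul_left]; ring
    rwa [h3] at h2
  have k3 : (r - star r) * H.h z w ∈ I.asIdeal := by
    have h4 := I.asIdeal.sub_mem k2 (I.asIdeal.mul_mem_left (star r) k1)
    have h5 : r * H.h z w + star r * H.h w z - star r * (H.h z w + H.h w z)
        = (r - star r) * H.h z w := by ring
    rwa [h5] at h4
  rcases I.isMaximal.isPrime.mem_or_mem k3 with h6 | h6
  · exact hr h6
  · exact hzw h6

/-- a vector of norm `e` (idempotent of an orbit) in `W`. -/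
theorem exists_unit_vector (hG : Good R) (H : HForm R M) (W : Submodule R M)
    (I : MaximalSpectrum R) {e : R} (he : e * e = e) (hes : star e = e)
    (heI' : e ∉ I.asIdeal)
    (heI : ∀ J : MaximalSpectrum R, e ∉ J.asIdeal → J = I ∨ J = conj I)
    (h : ∃ z ∈ W, ∃ w ∈ W, H.h z w ∉ I.asIdeal) :
    ∃ x ∈ W, H.h x x = e ∧ e • x = x := by
  obtain ⟨x, hx, hxx⟩ := exists_aniso hG H W I h
  have hα : star (e * H.h x x) = e * H.h x x := by
    rw [star_mul', hes, H.symm]
  have hαI : e * H.h x x ∉ I.asIdeal := by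
    intro hh
    rcases I.isMaximal.isPrime.mem_or_mem hh with h6 | h6
    · exact heI' h6
    · exact hxx h6
  obtain ⟨l, hl⟩ := exists_norm hG I he hes heI hα hαI
  refine ⟨(e * l) • x, W.smul_mem _ hx, ?_, by rw [smul_smul, ← mul_assoc, he]⟩
  rw [H.smul_right, H.smul_left, star_mul', hes]
  linear_combination e * hl + he - 0 * hl

/-- nondegenerate and `W` is an orthogonal summand: vectors of `W` which are nonzero at `J` are
detected by `W`. -/
theorem detect (H : HForm R M) (hnd : ∀ x, (∀ z, H.h z x = 0) → x = 0)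
    (K : Submodule R M) (hK : ∀ x, ∃ y ∈ K, ∀ z ∈ K, H.h z (x - y) = 0)
    (x : M) (hx : ∀ z ∈ K, H.h z x = 0) (J : MaximalSpectrum R)
    (hJ : ∀ p : R, p • x = 0 → p ∈ J.asIdeal) :
    ∃ w : M, (∀ z ∈ K, H.h z w = 0) ∧ H.h w x ∉ J.asIdeal := by
  obtain ⟨p, hp1, hp⟩ := exists_prim J
  have hpJ : p ∉ J.asIdeal := notMem_of_sub_one hp1
  have hne : p • x ≠ 0 := fun h => hpJ (hJ p h)
  have : ∃ z, H.h z (p • x) ≠ 0 := by
    by_contra hcon
    push Not at hcon
    exact hne (hnd _ hcon)
  obtain ⟨z, hz⟩ := this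
  obtain ⟨y, hy, hyz⟩ := hK z
  refine ⟨z - y, hyz, ?_⟩
  intro hmem
  apply hz
  have e1 : H.h z x = H.h (z - y) x := by
    rw [sub_eq_add_neg, H.add_left, h_neg_left, hx y hy]; ring
  rw [H.smul_right]
  apply eq_of_mod
  intro I
  rw [sub_zero]
  by_cases hI : I = J
  · subst hI
    rw [e1]
    exact I.asIdeal.mul_mem_left _ hmem
  · exact I.asIdeal.mul_mem_right _ (hp I hI)

/-- a functional which is nonzero on two vectors everywhere on the support of `e`. -/
theorem exists_functional (H : HForm R M) (hnd : ∀ x, (∀ z, H.h z x = 0) → x = 0)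
    (K : Submodule R M) (hK : ∀ x, ∃ y ∈ K, ∀ z ∈ K, H.h z (x - y) = 0)
    {e : R} (x x' : M) (hx : ∀ z ∈ K, H.h z x = 0) (hx' : ∀ z ∈ K, H.h z x' = 0)
    (hxe : H.h x x = e)
    (hJ' : ∀ J : MaximalSpectrum R, e ∉ J.asIdeal → ∀ p : R, p • x' = 0 → p ∈ J.asIdeal) :
    ∃ ζ : M →ₗ[R] R, (∀ z ∈ K, ζ z = 0) ∧
      ∀ J : MaximalSpectrum R, e ∉ J.asIdeal → ζ x ∉ J.asIdeal ∧ ζ x' ∉ J.asIdeal := by
  classical
  have hz : ∀ J : MaximalSpectrum R, ∃ z : M, (∀ k ∈ K, H.h k z = 0) ∧
      (e ∉ J.asIdeal → H.h z x ∉ J.asIdeal ∧ H.h z x' ∉ J.asIdeal) := by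
    intro J
    by_cases hJ : e ∈ J.asIdeal
    · exact ⟨0, fun k _ => h_zero_right H k, fun h => absurd hJ h⟩
    · obtain ⟨z2, hz2, hz2'⟩ := detect H hnd K hK x' hx' J (hJ' J hJ)
      by_cases h1 : H.h x x' ∈ J.asIdeal
      · by_cases h2 : H.h z2 x ∈ J.asIdeal
        · refine ⟨x + z2, fun k hk => by rw [H.add_right, hx k hk, hz2 k hk, add_zero],
            fun _ => ⟨fun h => hJ ?_, fun h => hz2' ?_⟩⟩
          · rw [H.add_left, hxe] at h
            exact (J.asIdeal.add_mem_iff_left h2).1 h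
          · rw [H.add_left] at h
            exact (J.asIdeal.add_mem_iff_right h1).1 h
        · exact ⟨z2, hz2, fun _ => ⟨h2, hz2'⟩⟩
      · exact ⟨x, hx, fun _ => ⟨by rw [hxe]; exact hJ, h1⟩⟩
  choose z hzK hzJ using hz
  choose p hp1 hp0 using fun J : MaximalSpectrum R => exists_prim J
  have : Fintype (MaximalSpectrum R) := Fintype.ofFinite _
  refine ⟨∑ J, p J • H.dual (z J), ?_, ?_⟩
  · intro k hk
    rw [LinearMap.sum_apply]
    apply Finset.sum_eq_zero
    intro J _
    rw [LinearMap.smul_apply]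
    change p J • H.h (z J) k = 0
    rw [← H.symm, hzK J k hk, star_zero, smul_zero]
  · have key : ∀ J : MaximalSpectrum R, ∀ v : M, H.h (z J) v ∉ J.asIdeal →
        (∑ J, p J • H.dual (z J)) v ∉ J.asIdeal := by
      intro J v hv hmem
      rw [LinearMap.sum_apply, ← Finset.add_sum_erase _ _ (Finset.mem_univ J)] at hmem
      have h1 : ∑ J' ∈ Finset.univ.erase J, (p J' • H.dual (z J')) v ∈ J.asIdeal := by
        apply J.asIdeal.sum_mem
        intro J' hJ'
        rw [LinearMap.smul_apply, smul_eq_mul]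
        exact J.asIdeal.mul_mem_right _ (hp0 J' J (Finset.ne_of_mem_erase hJ').symm)
      have h2 := (J.asIdeal.add_mem_iff_left h1).1 hmem
      rw [LinearMap.smul_apply, smul_eq_mul] at h2
      rcases J.isMaximal.isPrime.mem_or_mem h2 with h3 | h3
      · exact notMem_of_sub_one (hp1 J) h3
      · exact hv h3
    intro J hJ
    exact ⟨key J x (hzJ J hJ).1, key J x' (hzJ J hJ).2⟩

/-- the pull back of a form. -/
def pull (H : HForm R M) (g : M →ₗ[R] M) : HForm R M where
  h x y := H.h (g x) (g y)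
  add_right x y z := by rw [map_add, H.add_right]
  smul_right a x y := by rw [map_smul, H.smul_right]
  symm x y := H.symm _ _

omit [Finite R] [IsReduced R] in
theorem pull_nd {H : HForm R M} (hnd : ∀ x, (∀ z, H.h z x = 0) → x = 0) {g : M →ₗ[R] M}
    (hg : Function.Bijective g) : ∀ x, (∀ z, (pull H g).h z x = 0) → x = 0 := by
  intro x hx
  apply hg.1
  rw [map_zero]
  apply hnd
  intro z
  obtain ⟨z, rfl⟩ := hg.2 z
  exact hx z

theorem fin_step [Finite M] (hG : Good R) (H : HForm R M)
    (hnd : ∀ x, (∀ z, H.h z x = 0) → x = 0)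
    (K : Submodule R M) (hK : ∀ x, ∃ y ∈ K, ∀ z ∈ K, H.h z (x - y) = 0) (hKtop : K ≠ ⊤)
    (IH : ∀ K' : Submodule R M, K < K' → (∀ x, ∃ y ∈ K', ∀ z ∈ K', H.h z (x - y) = 0) →
      ∀ H' : HForm R M, (∀ x, (∀ z, H'.h z x = 0) → x = 0) →
        (∀ k ∈ K', ∀ v, H'.h k v = H.h k v) →
        ∃ g : M →ₗ[R] M, ∀ x y, H'.h (g x) (g y) = H.h x y)
    (H' : HForm R M) (hnd' : ∀ x, (∀ z, H'.h z x = 0) → x = 0)
    (hHH : ∀ k ∈ K, ∀ v, H'.h k v = H.h k v) :
    ∃ g : M →ₗ[R] M, ∀ x y, H'.h (g x) (g y) = H.h x y := by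
  classical
  -- the orthogonal complement
  let W : Submodule R M :=
    { carrier := {x | ∀ z ∈ K, H.h z x = 0}
      add_mem' := fun {a b} ha hb z hz => by rw [H.add_right, ha z hz, hb z hz, add_zero]
      zero_mem' := fun z _ => h_zero_right H z
      smul_mem' := fun c x hx z hz => by rw [H.smul_right, hx z hz, mul_zero] }
  have hW : ∀ x, x ∈ W ↔ ∀ z ∈ K, H.h z x = 0 := fun x => Iff.rfl
  have hsplit : ∀ x, ∃ y ∈ K, x - y ∈ W := hK
  -- a maximal ideal at which `W` does not vanish
  obtain ⟨I, hI⟩ : ∃ I : MaximalSpectrum R, ∃ z ∈ W, ∃ w ∈ W, H.h z w ∉ I.asIdeal := by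
    by_contra hcon
    push Not at hcon
    apply hKtop
    rw [Submodule.eq_top_iff']
    intro x
    obtain ⟨y, hy, hyW⟩ := hsplit x
    have : x - y = 0 := by
      apply hnd
      intro z
      obtain ⟨y', hy', hW'⟩ := hsplit z
      have e1 : H.h z (x - y) = H.h (z - y') (x - y) := by
        have e2 : z = (z - y') + y' := by abel
        nth_rewrite 1 [e2]
        rw [H.add_left, hyW y' hy', add_zero]
      rw [e1]
      apply eq_of_mod
      intro I
      rw [sub_zero]
      exact hcon I _ hW' _ hyW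
    rw [sub_eq_zero.1 this]; exact hy
  obtain ⟨e, he, hes, heI, heI', heJ⟩ := exists_orbit_idem I
  obtain ⟨x, hxW, hxx, hex⟩ := exists_unit_vector hG H W I he hes heI heJ hI
  have hxp : ∀ J : MaximalSpectrum R, e ∉ J.asIdeal → ∀ p : R, p • x = 0 → p ∈ J.asIdeal := by
    intro J hJ p hp
    have h1 : p * e = 0 := by rw [← hxx, ← H.smul_right, hp, h_zero_right]
    have h2 : p * e ∈ J.asIdeal := by rw [h1]; exact J.asIdeal.zero_mem
    exact (J.isMaximal.isPrime.mem_or_mem h2).resolve_right hJ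
  have hK' : ∀ x, ∃ y ∈ K, ∀ z ∈ K, H'.h z (x - y) = 0 := by
    intro x
    obtain ⟨y, hy, hyz⟩ := hK x
    exact ⟨y, hy, fun z hz => by rw [hHH z hz, hyz z hz]⟩
  obtain ⟨x', hx'W, hxx', hex'⟩ : ∃ x ∈ W, H'.h x x = e ∧ e • x = x := by
    apply exists_unit_vector hG H' W I he hes heI heJ
    obtain ⟨w, hw, hwx⟩ := detect H' hnd' K hK' x (fun z hz => by rw [hHH z hz, hxW z hz]) I
      (hxp I heI)
    exact ⟨w, fun z hz => by rw [← hHH z hz, hw z hz], x, hxW, hwx⟩
  have hxp' : ∀ J : MaximalSpectrum R, e ∉ J.asIdeal → ∀ p : R, p • x' = 0 → p ∈ J.asIdeal := by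
    intro J hJ p hp
    have h1 : p * e = 0 := by rw [← hxx', ← H'.smul_right, hp, h_zero_right]
    have h2 : p * e ∈ J.asIdeal := by rw [h1]; exact J.asIdeal.zero_mem
    exact (J.isMaximal.isPrime.mem_or_mem h2).resolve_right hJ
  obtain ⟨ζ, hζK, hζ⟩ := exists_functional H hnd K hK x x' hxW hx'W hxx hxp'
  obtain ⟨β, hβ, hβe⟩ := exists_inv_on he (fun J hJ => (hζ J hJ).1)
  obtain ⟨β', hβ', hβe'⟩ := exists_inv_on he (fun J hJ => (hζ J hJ).2)
  -- the automorphism moving `x` to `x'`
  let φ : M →ₗ[R] M := LinearMap.id + (β • ζ).smulRight (x' - x)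
  have hφ : ∀ v, φ v = v + (β * ζ v) • (x' - x) := fun v => rfl
  have hφinj : Function.Injective φ := by
    rw [injective_iff_map_eq_zero]
    intro w hw
    rw [hφ] at hw
    have h1 : ζ w + β * ζ w * (ζ x' - ζ x) = 0 := by
      have := congrArg ζ hw
      simpa using this
    have h2 : β * ζ w = 0 := by
      linear_combination β' * h1 - (β * ζ w) * hβ' + (β' * ζ w) * hβ + (ζ w) * hβe' -
        (ζ w) * hβe
    rw [h2, zero_smul, add_zero] at hw
    exact hw
  have hφbij : Function.Bijective φ :=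
    ⟨hφinj, Finite.injective_iff_surjective.1 hφinj⟩
  have hφx : φ x = x' := by
    rw [hφ, hβ, smul_sub, hex, hex']; abel
  have hφK : ∀ k ∈ K, φ k = k := fun k hk => by
    rw [hφ, hζK k hk, mul_zero, zero_smul, add_zero]
  set H2 := pull H' φ with hH2
  have hnd2 := pull_nd hnd' hφbij
  have hH2K : ∀ k ∈ K, ∀ v, H2.h k v = H.h k v := by
    intro k hk v
    change H'.h (φ k) (φ v) = _
    rw [hφK k hk, hHH k hk, hφ, H.add_right, H.smul_right, h_sub_right, hx'W k hk, hxW k hk]
    ring
  have hH2x : H2.h x x = e := by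
    change H'.h (φ x) (φ x) = _
    rw [hφx, hxx']
  -- the shear
  let η : M →ₗ[R] R := H2.dual x - H.dual x
  have hη : ∀ v, η v = H2.h x v - H.h x v := fun v => rfl
  have hηx : η x = 0 := by rw [hη, hH2x, hxx, sub_self]
  have hηK : ∀ k ∈ K, η k = 0 := by
    intro k hk
    rw [hη, ← H2.symm, ← H.symm, hH2K k hk, sub_self]
  let ψ : M →ₗ[R] M := LinearMap.id - η.smulRight x
  have hψ : ∀ v, ψ v = v - η v • x := fun v => rfl
  have hψinj : Function.Injective ψ := by
    rw [injective_iff_map_eq_zero]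
    intro w hw
    rw [hψ, sub_eq_zero] at hw
    have h1 : η w = 0 := by
      have := congrArg η hw
      rw [map_smul, hηx, smul_zero] at this
      exact this
    rw [hw, h1, zero_smul]
  have hψbij : Function.Bijective ψ :=
    ⟨hψinj, Finite.injective_iff_surjective.1 hψinj⟩
  have hψx : ψ x = x := by rw [hψ, hηx, zero_smul, sub_zero]
  have hψK : ∀ k ∈ K, ψ k = k := fun k hk => by rw [hψ, hηK k hk, zero_smul, sub_zero]
  set H3 := pull H2 ψ with hH3
  have hnd3 := pull_nd hnd2 hψbij
  have hH3K : ∀ k ∈ K, ∀ v, H3.h k v = H.h k v := by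
    intro k hk v
    change H2.h (ψ k) (ψ v) = _
    rw [hψK k hk, hH2K k hk, hψ, h_sub_right, H.smul_right, hxW k hk]
    ring
  have hH3x : ∀ v, H3.h x v = H.h x v := by
    intro v
    change H2.h (ψ x) (ψ v) = _
    rw [hψx, hψ, h_sub_right, H2.smul_right, hH2x, hη]
    have e1 : e * H2.h x v = H2.h x v := by
      have : H2.h (e • x) v = H2.h x v := by rw [hex]
      rwa [H2.smul_left, hes] at this
    have e2 : e * H.h x v = H.h x v := by
      have : H.h (e • x) v = H.h x v := by rw [hex]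
      rwa [H.smul_left, hes] at this
    linear_combination - e1 + e2
  obtain ⟨g, hg⟩ := IH (K ⊔ Submodule.span R {x}) (by
      rw [left_lt_sup]
      intro hle
      apply notMem_of_sub_one (p := (1 : R)) (I := I) (by simp)
      have h1 := hxW x (hle (Submodule.mem_span_singleton_self x))
      rw [hxx] at h1
      exact absurd (by rw [h1]; exact I.asIdeal.zero_mem) heI) (by
      intro v
      obtain ⟨y, hy, hyz⟩ := hK v
      refine ⟨y + (H.h x (v - y)) • x, Submodule.add_mem_sup hy
        (Submodule.smul_mem _ _ (Submodule.mem_span_singleton_self x)), ?_⟩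
      intro z hz
      obtain ⟨k, hk, l, hl, rfl⟩ := Submodule.mem_sup.1 hz
      obtain ⟨c, rfl⟩ := Submodule.mem_span_singleton.1 hl
      have e1 : e * H.h x (v - y) = H.h x (v - y) := by
        have : H.h (e • x) (v - y) = H.h x (v - y) := by rw [hex]
        rwa [H.smul_left, hes] at this
      have e2 : v - (y + (H.h x (v - y)) • x) = (v - y) - (H.h x (v - y)) • x := by
        abel
      rw [e2]
      have hyk := hyz k hk
      generalize v - y = u at e1 hyk ⊢
      rw [H.add_left, H.smul_left, h_sub_right, h_sub_right, H.smul_right, H.smul_right,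
        hyk, hxW k hk, hxx]
      linear_combination (- star c) * e1) H3 hnd3 (by
      intro z hz v
      obtain ⟨k, hk, l, hl, rfl⟩ := Submodule.mem_sup.1 hz
      obtain ⟨c, rfl⟩ := Submodule.mem_span_singleton.1 hl
      rw [H3.add_left, H3.smul_left, H.add_left, H.smul_left, hH3K k hk, hH3x])
  exact ⟨(φ.comp ψ).comp g, fun u v => hg u v⟩

/-- P4.7a: two nondegenerate forms on one finite module are isometric. -/
theorem fin_main [Finite M] (hG : Good R) (H H' : HForm R M)
    (hnd : ∀ x, (∀ z, H.h z x = 0) → x = 0) (hnd' : ∀ x, (∀ z, H'.h z x = 0) → x = 0) :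
    ∃ g : M →ₗ[R] M, ∀ x y, H'.h (g x) (g y) = H.h x y := by
  have hwf : WellFoundedGT (Submodule R M) := inferInstance
  have key : ∀ K : Submodule R M, (∀ x, ∃ y ∈ K, ∀ z ∈ K, H.h z (x - y) = 0) →
      ∀ H' : HForm R M, (∀ x, (∀ z, H'.h z x = 0) → x = 0) →
        (∀ k ∈ K, ∀ v, H'.h k v = H.h k v) →
        ∃ g : M →ₗ[R] M, ∀ x y, H'.h (g x) (g y) = H.h x y := by
    intro K
    induction K using hwf.induction with
    | ind K IH =>
      intro hK H' hnd' hHH
      by_cases htop : K = ⊤
      · exact ⟨LinearMap.id, fun x y => hHH x (htop ▸ Submodule.mem_top) y⟩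
      · exact fin_step hG H hnd K hK htop (fun K' hK' => IH K' hK') H' hnd' hHH
  refine key ⊥ (fun x => ⟨0, Submodule.zero_mem _, ?_⟩) H' hnd' ?_
  · intro z hz
    rw [(Submodule.mem_bot R).1 hz, h_zero_left]
  · intro k hk v
    rw [(Submodule.mem_bot R).1 hk, h_zero_left, h_zero_left]

end fin

end Crest.Agent.R267.P47Fin_118
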