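import Mathlib
import Crest.Agent.R267.P4Herm_780
import Crest.Agent.R267.P48_118
import Crest.Agent.R267.P47Fin_118

/-!
# S0407, node P4.7 (helper118): unimodular hermitian forms on a finite projective module over a
`J`-adically complete ring with finite reduced `R ⧸ J` are isometric.
-/

set_option autoImplicit false

namespace Crest.Agent.R267.P47_118

open Crest.Agent.R267.P4Herm_780 Crest.Agent.R267.P4Herm_780.HForm Crest.Agent.R267.P48_118
  Crest.Agent.R267.P47Fin_118

section general

variable {R P : Type*} [CommRing R] [StarRing R] [AddCommGroup P] [Module R P]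

theorem h_sub_left (H : HForm R P) (x y z : P) : H.h (x - y) z = H.h x z - H.h y z := by
  rw [sub_eq_add_neg, H.add_left, h_neg_left, sub_eq_add_neg]

/-- the isometries between unimodular forms on a finite module are bijective. -/
theorem bij_of_isom [Module.Finite R P] {H H' : HForm R P} (hU : H.Unimodular)
    (g : P →ₗ[R] P) (hg : ∀ x y, H'.h (g x) (g y) = H.h x y) : Function.Bijective g := by
  have hex : ∀ y : P, ∃ a : P, H.dual a = (H'.dual y).comp g := fun y => hU.2 _
  choose a ha using hex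
  have ha' : ∀ y x, H.h (a y) x = H'.h y (g x) := fun y x => by
    have := congrArg (fun f : P →ₗ[R] R => f x) (ha y)
    exact this
  let G : P →ₗ[R] P :=
    { toFun := a
      map_add' := fun y z => by
        apply hU.1
        ext x
        change H.h (a (y + z)) x = H.h (a y + a z) x
        rw [H.add_left, ha', ha', ha', H'.add_left]
      map_smul' := fun c y => by
        apply hU.1
        ext x
        change H.h (a (c • y)) x = H.h (c • a y) x
        rw [H.smul_left, ha', ha', H'.smul_left] }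
  have hG : ∀ x, G (g x) = x := by
    intro x
    apply hU.1
    ext z
    change H.h (a (g x)) z = H.h x z
    rw [ha', hg]
  have hGs : Function.Surjective G := fun x => ⟨g x, hG x⟩
  have hGb := OrzechProperty.bijective_of_surjective_endomorphism G hGs
  refine ⟨fun x y h => by rw [← hG x, ← hG y, h], fun y => ⟨G y, ?_⟩⟩
  apply hGb.1
  rw [hG]

variable {J : Ideal R}

omit [StarRing R] in
/-- functionals with values in `𝔟` on `𝔞 P`. -/
theorem fun_mem (𝔞 𝔟 : Ideal R) (f : P →ₗ[R] R) (hf : ∀ x, f x ∈ 𝔟) {a : P}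
    (ha : a ∈ (𝔞 • ⊤ : Submodule R P)) : f a ∈ 𝔞 * 𝔟 := by
  induction ha using Submodule.smul_induction_on' with
  | smul r hr n _ => rw [map_smul, smul_eq_mul]; exact Ideal.mul_mem_mul hr (hf n)
  | add x _ y _ hx hy => rw [map_add]; exact Ideal.add_mem _ hx hy

omit [StarRing R] in
theorem fun_mem' (𝔞 : Ideal R) (f : P →ₗ[R] R) {a : P}
    (ha : a ∈ (𝔞 • ⊤ : Submodule R P)) : f a ∈ 𝔞 := by
  have := fun_mem 𝔞 ⊤ f (fun _ => Submodule.mem_top) ha
  rwa [Ideal.mul_top] at this

theorem star_mem_pow (hJ : ∀ x ∈ J, star x ∈ J) (n : ℕ) : ∀ x ∈ J ^ n, star x ∈ J ^ n := by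
  induction n with
  | zero => intro x _; simp
  | succ n ih =>
    intro x hx
    rw [pow_succ] at hx ⊢
    induction hx using Submodule.mul_induction_on' with
    | mem_mul_mem a ha b hb =>
      rw [star_mul']
      exact Ideal.mul_mem_mul (ih a ha) (hJ b hb)
    | add x _ y _ hx hy => rw [star_add]; exact Ideal.add_mem _ hx hy

/-- `h(a, x) ∈ 𝔞` for `a ∈ 𝔞 P`. -/
theorem h_mem_left (H : HForm R P) (𝔞 : Ideal R) (hs : ∀ x ∈ 𝔞, star x ∈ 𝔞) {a : P}
    (ha : a ∈ (𝔞 • ⊤ : Submodule R P)) (x : P) : H.h a x ∈ 𝔞 := by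
  rw [← H.symm]
  exact hs _ (fun_mem' 𝔞 (H.dual x) ha)

/-- the dual basis argument. -/
theorem dualInv_mem [Module.Finite R P] [Module.Projective R P] {H : HForm R P}
    (hU : H.Unimodular) (𝔞 : Ideal R) (hs : ∀ x ∈ 𝔞, star x ∈ 𝔞) {a : P}
    (ha : ∀ x, H.h a x ∈ 𝔞) : a ∈ (𝔞 • ⊤ : Submodule R P) := by
  obtain ⟨n, s, hsurj⟩ := Module.Finite.exists_fin' R P
  obtain ⟨i, hi⟩ := Module.projective_lifting_property s LinearMap.id hsurj
  have hi' : ∀ x, s (i x) = x := fun x => by
    have := congrArg (fun f : P →ₗ[R] P => f x) hi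
    exact this
  have hex : ∀ j : Fin n, ∃ b : P, H.dual b = (LinearMap.proj j).comp i := fun j => hU.2 _
  choose b hb using hex
  have hb' : ∀ j x, H.h (b j) x = i x j := fun j x => by
    have := congrArg (fun f : P →ₗ[R] R => f x) (hb j)
    exact this
  have hsum : a = ∑ j, star (H.h a (s (Pi.single j 1))) • b j := by
    apply hU.1
    ext x
    change H.h a x = H.h (∑ j, star (H.h a (s (Pi.single j 1))) • b j) x
    have e1 : H.h (∑ j, star (H.h a (s (Pi.single j 1))) • b j) x
        = ∑ j, H.h (star (H.h a (s (Pi.single j 1))) • b j) x := by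
      rw [← H.symm]
      have : H.h x (∑ j, star (H.h a (s (Pi.single j 1))) • b j)
          = ∑ j, H.h x (star (H.h a (s (Pi.single j 1))) • b j) :=
        map_sum (H.dual x) _ _
      rw [this, star_sum]
      exact Finset.sum_congr rfl (fun j _ => H.symm _ _)
    rw [e1]
    have e2 : x = ∑ j, (i x j) • s (Pi.single j 1) := by
      conv_lhs => rw [← hi' x]
      have : i x = ∑ j, (i x j) • (Pi.single j (1 : R) : Fin n → R) := by
        ext l
        simp [Finset.sum_apply, Pi.single_apply]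
      conv_lhs => rw [this]
      rw [map_sum]
      exact Finset.sum_congr rfl (fun j _ => by rw [map_smul])
    have e3 : H.h a x = ∑ j, (i x j) * H.h a (s (Pi.single j 1)) := by
      conv_lhs => rw [e2]
      have : H.h a (∑ j, (i x j) • s (Pi.single j 1)) = ∑ j, H.h a ((i x j) • s (Pi.single j 1)) :=
        map_sum (H.dual a) _ _
      rw [this]
      exact Finset.sum_congr rfl (fun j _ => H.smul_right _ _ _)
    rw [e3]
    refine Finset.sum_congr rfl (fun j _ => ?_)
    rw [H.smul_left, star_star, hb', mul_comm]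
  rw [hsum]
  exact Submodule.sum_mem _ (fun j _ => Submodule.smul_mem_smul (hs _ (ha _)) Submodule.mem_top)

/-- one step of the lifting. -/
theorem lift_step [Module.Finite R P] [Module.Projective R P] (hJ : ∀ x ∈ J, star x ∈ J)
    {H H' : HForm R P} (hU : H.Unimodular) {c : R} (hc : c + star c = 1) (n : ℕ)
    (G : P →ₗ[R] P) (hG : ∀ x y, H.h x y - H'.h (G x) (G y) ∈ J ^ (n + 1)) :
    ∃ G' : P →ₗ[R] P, (∀ x, G' x - G x ∈ (J ^ (n + 1) • ⊤ : Submodule R P)) ∧
      ∀ x y, H.h x y - H'.h (G' x) (G' y) ∈ J ^ (n + 2) := by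
  let Δ : P → P →ₗ[R] R := fun y => H.dual y - (H'.dual (G y)).comp G
  have hΔ : ∀ y x, Δ y x = H.h y x - H'.h (G y) (G x) := fun y x => rfl
  have hΔs : ∀ y x, star (Δ y x) = Δ x y := fun y x => by
    rw [hΔ, hΔ, star_sub, H.symm, H'.symm]
  have hex : ∀ y : P, ∃ a : P, H.dual a = star c • Δ y := fun y => hU.2 _
  choose V hV using hex
  have hV' : ∀ y x, H.h (V y) x = star c * Δ y x := fun y x => by
    have := congrArg (fun f : P →ₗ[R] R => f x) (hV y)
    exact this
  have hV'' : ∀ y x, H.h x (V y) = c * Δ x y := fun y x => by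
    rw [← H.symm, hV', star_mul', star_star, hΔs]
  have hΔaddl : ∀ y z x, Δ (y + z) x = Δ y x + Δ z x := fun y z x => by
    rw [hΔ, hΔ, hΔ, map_add, H.add_left, H'.add_left]; ring
  have hΔsmull : ∀ (a : R) y x, Δ (a • y) x = star a * Δ y x := fun a y x => by
    rw [hΔ, hΔ, map_smul, H.smul_left, H'.smul_left]; ring
  have hΔmem : ∀ y x, Δ y x ∈ J ^ (n + 1) := fun y x => hG y x
  have hVmem : ∀ y, V y ∈ (J ^ (n + 1) • ⊤ : Submodule R P) := by
    intro y
    apply dualInv_mem hU _ (star_mem_pow hJ _)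
    intro x
    rw [hV']
    exact Ideal.mul_mem_left _ _ (hΔmem y x)
  let Vl : P →ₗ[R] P :=
    { toFun := V
      map_add' := fun y z => by
        apply hU.1
        ext x
        change H.h (V (y + z)) x = H.h (V y + V z) x
        rw [H.add_left, hV', hV', hV', hΔaddl]; ring
      map_smul' := fun a y => by
        apply hU.1
        ext x
        change H.h (V (a • y)) x = H.h (a • V y) x
        rw [H.smul_left, hV', hV', hΔsmull]; ring }
  have hVl : ∀ x, Vl x = V x := fun x => rfl
  refine ⟨G.comp (LinearMap.id + Vl), ?_, ?_⟩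
  · intro x
    have e1 : (G.comp (LinearMap.id + Vl)) x - G x = G (V x) := by
      rw [LinearMap.comp_apply, LinearMap.add_apply, map_add, LinearMap.id_apply, hVl]; abel
    rw [e1]
    have := hVmem x
    have h2 : G (V x) ∈ Submodule.map G (J ^ (n + 1) • ⊤ : Submodule R P) :=
      Submodule.mem_map_of_mem this
    rw [Submodule.map_smul''] at h2
    exact Submodule.smul_mono le_rfl le_top h2
  · intro x y
    have e1 : H.h x y - H'.h ((G.comp (LinearMap.id + Vl)) x) ((G.comp (LinearMap.id + Vl)) y)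
        = - H.h (V x) (V y) + Δ (V x) y + Δ x (V y) + Δ (V x) (V y) := by
      have e2 : ∀ z, (G.comp (LinearMap.id + Vl)) z = G z + G (V z) := fun z => by
        rw [LinearMap.comp_apply, LinearMap.add_apply, map_add, LinearMap.id_apply, hVl]
      rw [e2, e2, H'.add_left, H'.add_right, H'.add_right, hΔ, hΔ, hΔ]
      have e3 : H.h (V x) y + H.h x (V y) = Δ x y := by
        rw [hV', hV'']; linear_combination (Δ x y) * hc
      rw [hΔ] at e3
      linear_combination - e3
    rw [e1]
    have hle : J ^ (n + 1) * J ^ (n + 1) ≤ J ^ (n + 2) := by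
      rw [← pow_add]
      exact Ideal.pow_le_pow_right (by omega)
    have m1 : ∀ z, H.h (V x) (V z) ∈ J ^ (n + 2) := by
      intro z
      have h1 := fun_mem (J ^ (n + 1)) (J ^ (n + 1)) (H.dual (V x)) (fun w => by
        change H.h (V x) w ∈ _
        rw [hV']
        exact Ideal.mul_mem_left _ _ (hΔmem x w)) (hVmem z)
      exact hle h1
    have m2 : ∀ w z, Δ w (V z) ∈ J ^ (n + 2) := fun w z =>
      hle (fun_mem (J ^ (n + 1)) (J ^ (n + 1)) (Δ w) (hΔmem w) (hVmem z))
    have m3 : Δ (V x) y ∈ J ^ (n + 2) := by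
      rw [← hΔs]
      exact star_mem_pow hJ _ _ (m2 y x)
    exact Ideal.add_mem _ (Ideal.add_mem _ (Ideal.add_mem _ (neg_mem (m1 y)) m3) (m2 x y))
      (m2 (V x) y)

/-- the lifting. -/
theorem lift_all [Module.Finite R P] [Module.Projective R P] (hJ : ∀ x ∈ J, star x ∈ J)
    (hc : IsAdicComplete J R)
    {H H' : HForm R P} (hU : H.Unimodular) (hG : Good R)
    (G : P →ₗ[R] P) (hG1 : ∀ x y, H.h x y - H'.h (G x) (G y) ∈ J) :
    ∃ G' : P →ₗ[R] P, ∀ x y, H'.h (G' x) (G' y) = H.h x y := by
  obtain ⟨c, hcc⟩ := hG.tr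
  -- the sequence
  let T := fun n : ℕ => {G : P →ₗ[R] P // ∀ x y, H.h x y - H'.h (G x) (G y) ∈ J ^ (n + 1)}
  have hstep : ∀ n : ℕ, ∀ G : T n, ∃ G' : T (n + 1),
      ∀ x, G'.1 x - G.1 x ∈ (J ^ (n + 1) • ⊤ : Submodule R P) := by
    rintro n ⟨G, hG⟩
    obtain ⟨G', h1, h2⟩ := lift_step hJ hU hcc n G hG
    exact ⟨⟨G', h2⟩, h1⟩
  choose nxt hnxt using hstep
  let g : ∀ n : ℕ, T n := fun n => Nat.rec ⟨G, by simpa using hG1⟩ (fun n G => nxt n G) n
  have hg1 : ∀ n, g (n + 1) = nxt n (g n) := fun n => rfl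
  have hdiff : ∀ n x, (g (n + 1)).1 x - (g n).1 x ∈ (J ^ (n + 1) • ⊤ : Submodule R P) := by
    intro n x
    rw [hg1]
    exact hnxt n (g n) x
  have hdiff' : ∀ m n x, m ≤ n → (g n).1 x - (g m).1 x ∈ (J ^ m • ⊤ : Submodule R P) := by
    intro m n x hmn
    induction n, hmn using Nat.le_induction with
    | base => rw [sub_self]; exact Submodule.zero_mem _
    | succ n hmn ih =>
      have e1 : (g (n + 1)).1 x - (g m).1 x = ((g (n + 1)).1 x - (g n).1 x)
          + ((g n).1 x - (g m).1 x) := by abel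
      rw [e1]
      exact Submodule.add_mem _
        (Submodule.smul_mono_left (Ideal.pow_le_pow_right (by omega)) (hdiff n x)) ih
  -- the limit
  obtain ⟨k, s, hsurj⟩ := Module.Finite.exists_fin' R P
  obtain ⟨i, hi⟩ := Module.projective_lifting_property s LinearMap.id hsurj
  have hi' : ∀ x, s (i x) = x := fun x => by
    have := congrArg (fun f : P →ₗ[R] P => f x) hi
    exact this
  have hlim : ∀ j l : Fin k, ∃ L : R, ∀ n : ℕ,
      (i ((g n).1 (s (Pi.single j 1)))) l - L ∈ J ^ n := by
    intro j l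
    obtain ⟨L, hL⟩ := hc.toIsPrecomplete.prec' (fun n => (i ((g n).1 (s (Pi.single j 1)))) l) (by
      intro m n hmn
      rw [SModEq.sub_mem]
      have h1 := fun_mem' (J ^ m) ((LinearMap.proj l).comp i)
        (hdiff' m n (s (Pi.single j 1)) hmn)
      have h2 : (i ((g m).1 (s (Pi.single j 1)))) l - (i ((g n).1 (s (Pi.single j 1)))) l ∈ J ^ m := by
        rw [← neg_mem_iff, neg_sub]
        simpa using h1
      simpa using h2)
    refine ⟨L, fun n => ?_⟩
    have := hL n
    rw [SModEq.sub_mem] at this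
    simpa using this
  choose L hL using hlim
  let M : Matrix (Fin k) (Fin k) R := Matrix.of (fun l j => L j l)
  let G' : P →ₗ[R] P := s.comp ((Matrix.mulVecLin M).comp i)
  have hG' : ∀ n x, (g n).1 x - G' x ∈ (J ^ n • ⊤ : Submodule R P) := by
    intro n x
    have hsingle : ∀ v : Fin k → R, v = ∑ j, (v j) • (Pi.single j (1 : R) : Fin k → R) := by
      intro v
      ext l
      simp [Finset.sum_apply, Pi.single_apply]
    have e1 : (g n).1 x = ∑ j, (i x j) • s (i ((g n).1 (s (Pi.single j 1)))) := by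
      conv_lhs => rw [← hi' x, hsingle (i x)]
      rw [map_sum, map_sum]
      refine Finset.sum_congr rfl (fun j _ => ?_)
      rw [map_smul, map_smul, hi']
    have e2 : G' x = ∑ j, (i x j) • s (fun l => L j l) := by
      change s (M.mulVec (i x)) = _
      have : M.mulVec (i x) = ∑ j, (i x j) • (fun l => L j l) := by
        ext l
        simp [Matrix.mulVec, dotProduct, M, mul_comm]
      rw [this, map_sum]
      exact Finset.sum_congr rfl (fun j _ => map_smul _ _ _)
    rw [e1, e2, ← Finset.sum_sub_distrib]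
    apply Submodule.sum_mem
    intro j _
    rw [← smul_sub, ← map_sub]
    apply Submodule.smul_mem
    rw [hsingle (i ((g n).1 (s (Pi.single j 1))) - fun l => L j l), map_sum]
    apply Submodule.sum_mem
    intro l _
    rw [map_smul]
    exact Submodule.smul_mem_smul (hL j l n) Submodule.mem_top
  refine ⟨G', fun x y => ?_⟩
  have hz : H.h x y - H'.h (G' x) (G' y) = 0 := by
    apply hc.toIsHausdorff.haus'
    intro n
    rw [SModEq.sub_mem, sub_zero]
    have h1 : H.h x y - H'.h (G' x) (G' y) ∈ J ^ n := by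
      have e1 : H.h x y - H'.h (G' x) (G' y) = (H.h x y - H'.h ((g n).1 x) ((g n).1 y))
          + (H'.h ((g n).1 x - G' x) ((g n).1 y) + H'.h (G' x) ((g n).1 y - G' y)) := by
        rw [h_sub_left, h_sub_right]; ring
      rw [e1]
      refine Ideal.add_mem _ (Ideal.pow_le_pow_right (Nat.le_succ n) ((g n).2 x y))
        (Ideal.add_mem _ (h_mem_left H' _ (star_mem_pow hJ n) (hG' n x) _) ?_)
      exact fun_mem' (J ^ n) (H'.dual (G' x)) (hG' n y)
    simpa using h1
  exact (sub_eq_zero.1 hz).symm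

end general

section quot

variable {R P : Type*} [CommRing R] [StarRing R] [AddCommGroup P] [Module R P] (J : Ideal R)

/-- the involution of `R ⧸ J`. -/
@[reducible] def quotStar (hJ : ∀ x ∈ J, star x ∈ J) : StarRing (R ⧸ J) where
  star := Ideal.quotientMap J (starRingEnd R) (fun x hx => hJ x hx)
  star_involutive := fun x => by
    obtain ⟨x, rfl⟩ := Ideal.Quotient.mk_surjective x
    change Ideal.Quotient.mk J (star (star x)) = _
    rw [star_star]
  star_mul := fun x y => by
    rw [mul_comm x y]; exact map_mul _ _ _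
  star_add := fun x y => map_add _ _ _

theorem quotStar_mk (hJ : ∀ x ∈ J, star x ∈ J) (x : R) :
    (quotStar J hJ).star (Ideal.Quotient.mk J x) = Ideal.Quotient.mk J (star x) := rfl

theorem quot_wd (hJ : ∀ x ∈ J, star x ∈ J) (H : HForm R P) {x x' y y' : P}
    (hx : x - x' ∈ (J • ⊤ : Submodule R P)) (hy : y - y' ∈ (J • ⊤ : Submodule R P)) :
    Ideal.Quotient.mk J (H.h x y) = Ideal.Quotient.mk J (H.h x' y') := by
  rw [Ideal.Quotient.eq]
  have e1 : H.h x y - H.h x' y' = H.h (x - x') y + H.h x' (y - y') := by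
    rw [h_sub_left, h_sub_right]; ring
  rw [e1]
  exact Ideal.add_mem _ (h_mem_left H J hJ hx y) (fun_mem' J (H.dual x') hy)

/-- a set-theoretic section of `P → P / J P`. -/
noncomputable def sec (q : P ⧸ (J • ⊤ : Submodule R P)) : P :=
  Function.surjInv (Submodule.Quotient.mk_surjective _) q

omit [StarRing R] in
theorem sec_spec (q : P ⧸ (J • ⊤ : Submodule R P)) : Submodule.Quotient.mk (sec J q) = q :=
  Function.surjInv_eq _ q

omit [StarRing R] in
theorem sec_mk (x : P) : sec J (Submodule.Quotient.mk x) - x ∈ (J • ⊤ : Submodule R P) := by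
  rw [← Submodule.Quotient.eq, sec_spec]

/-- the reduction of a form. -/
noncomputable def quotForm (hJ : ∀ x ∈ J, star x ∈ J) (H : HForm R P) :
    @HForm (R ⧸ J) (P ⧸ (J • ⊤ : Submodule R P)) _ (quotStar J hJ) _ _ :=
  letI := quotStar J hJ
  { h := fun x y => Ideal.Quotient.mk J (H.h (sec J x) (sec J y))
    add_right := fun x y z => by
      rw [← map_add, ← H.add_right]
      apply quot_wd J hJ H
      · rw [sub_self]; exact Submodule.zero_mem _
      · rw [← Submodule.Quotient.eq, Submodule.Quotient.mk_add, sec_spec, sec_spec, sec_spec]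
    smul_right := fun a x y => by
      obtain ⟨a, rfl⟩ := Ideal.Quotient.mk_surjective a
      rw [← map_mul, ← H.smul_right]
      apply quot_wd J hJ H
      · rw [sub_self]; exact Submodule.zero_mem _
      · rw [← Submodule.Quotient.eq, sec_spec, ← Module.Quotient.mk_smul_mk, sec_spec]
    symm := fun x y => (quotStar_mk J hJ _).trans (congrArg _ (H.symm _ _)) }

theorem quotForm_mk (hJ : ∀ x ∈ J, star x ∈ J) (H : HForm R P) (x y : P) :
    letI := quotStar J hJ
    (quotForm J hJ H).h (Submodule.Quotient.mk x) (Submodule.Quotient.mk y)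
      = Ideal.Quotient.mk J (H.h x y) :=
  quot_wd J hJ H (sec_mk J x) (sec_mk J y)

end quot

/-- P4.7. -/
theorem p47 : P47 := by
  intro R _ _ J hG hJ hc hfin hred P _ _ _ _ H H' hU hU'
  letI := quotStar J hJ
  have hG0 : Good (R ⧸ J) := by
    obtain ⟨c, hcc⟩ := hG.tr
    obtain ⟨d, hdu, hd⟩ := hG.skew
    refine ⟨⟨Ideal.Quotient.mk J c, ?_⟩, ⟨Ideal.Quotient.mk J d, hdu.map _, ?_⟩⟩
    · rw [quotStar_mk, ← map_add, hcc, map_one]
    · rw [quotStar_mk, hd, map_neg]
  have hfinM : Module.Finite (R ⧸ J) (P ⧸ (J • ⊤ : Submodule R P)) := inferInstance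
  have hfinM' : Finite (P ⧸ (J • ⊤ : Submodule R P)) := Module.finite_of_finite (R ⧸ J)
  have hnd : ∀ H : HForm R P, H.Unimodular →
      ∀ x, (∀ z, (quotForm J hJ H).h z x = 0) → x = 0 := by
    intro H hU x hx
    obtain ⟨x, rfl⟩ := Submodule.Quotient.mk_surjective _ x
    rw [Submodule.Quotient.mk_eq_zero]
    apply dualInv_mem hU J hJ
    intro z
    have h1 := hx (Submodule.Quotient.mk z)
    rw [quotForm_mk, Ideal.Quotient.eq_zero_iff_mem] at h1
    rw [← H.symm]
    exact hJ _ h1
  obtain ⟨g0, hg0⟩ := fin_main hG0 (quotForm J hJ H) (quotForm J hJ H') (hnd H hU) (hnd H' hU')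
  let g0R : (P ⧸ (J • ⊤ : Submodule R P)) →ₗ[R] (P ⧸ (J • ⊤ : Submodule R P)) :=
    { toFun := g0
      map_add' := g0.map_add
      map_smul' := fun r x => by
        obtain ⟨x, rfl⟩ := Submodule.Quotient.mk_surjective _ x
        obtain ⟨y, hy⟩ := Submodule.Quotient.mk_surjective _ (g0 (Submodule.Quotient.mk x))
        rw [RingHom.id_apply, ← Submodule.Quotient.mk_smul, ← Module.Quotient.mk_smul_mk, map_smul,
          ← hy, Module.Quotient.mk_smul_mk, Submodule.Quotient.mk_smul] }
  obtain ⟨G, hGl⟩ := Module.projective_lifting_property (Submodule.mkQ (J • ⊤ : Submodule R P))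
    (g0R.comp (Submodule.mkQ _)) (Submodule.mkQ_surjective _)
  have hGl' : ∀ x, (Submodule.Quotient.mk (G x) : P ⧸ (J • ⊤ : Submodule R P))
      = g0 (Submodule.Quotient.mk x) := fun x => by
    have := congrArg (fun f : P →ₗ[R] (P ⧸ (J • ⊤ : Submodule R P)) => f x) hGl
    exact this
  obtain ⟨G', hG'⟩ := lift_all hJ hc hU hG G (by
    intro x y
    rw [← Ideal.Quotient.eq, ← quotForm_mk J hJ H, ← quotForm_mk J hJ H', hGl', hGl', hg0])
  exact ⟨LinearEquiv.ofBijective G' (bij_of_isom hU G' hG'), hG'⟩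

end Crest.Agent.R267.P47_118
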