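import Mathlib
import Crest.Agent.R267.P47_118

/-!
# S0407, package P4.6c, abstract half (helper484)

`R` a star ring satisfying the hypotheses of `P47`, `A = R ⧸ Ann(N)` another one; two unimodular
hermitian forms on an `R`-module of the form `P × Q` (`P` projective over `R`, `Q` projective over
`A`) are isometric.
-/

set_option autoImplicit false

namespace Crest.Agent.R267.P46c_484

open Crest.Agent.R267.P4Herm_780

/-- the hypotheses of `P47` on a ring with a given ideal. -/
structure Loc {R : Type} [CommRing R] [StarRing R] (J : Ideal R) : Prop where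
  good : Good R
  star_mem : ∀ x ∈ J, star x ∈ J
  complete : IsAdicComplete J R
  fin : Finite (R ⧸ J)
  red : IsReduced (R ⧸ J)

theorem Loc.isom {R : Type} [CommRing R] [StarRing R] {J : Ideal R} (hJ : Loc J)
    {P : Type} [AddCommGroup P] [Module R P] [Module.Finite R P] [Module.Projective R P]
    {H H' : HForm R P} (hU : H.Unimodular) (hU' : H'.Unimodular) : HForm.Isom H H' :=
  P47_118.p47 R J hJ.good hJ.star_mem hJ.complete hJ.fin hJ.red P H H' hU hU'

section

variable {R : Type} [CommRing R] [StarRing R]

omit [StarRing R] in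
/-- dual basis of a finite projective module. -/
theorem dual_basis (P : Type) [AddCommGroup P] [Module R P] [Module.Finite R P]
    [Module.Projective R P] :
    ∃ (n : ℕ) (b : Fin n → P) (f : Fin n → (P →ₗ[R] R)), ∀ x, x = ∑ i, f i x • b i := by
  obtain ⟨n, g, hg⟩ := Module.Finite.exists_fin' R P
  obtain ⟨s, hs⟩ := Module.projective_lifting_property g LinearMap.id hg
  refine ⟨n, fun i => g (Pi.single i 1), fun i => (LinearMap.proj i).comp s, fun x => ?_⟩
  have h1 : g (s x) = x := by
    have := LinearMap.congr_fun hs x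
    simpa using this
  conv_lhs => rw [← h1, ← LinearMap.sum_single_apply (fun _ : Fin n => R) (s x)]
  rw [map_sum]
  refine Finset.sum_congr rfl fun i _ => ?_
  rw [LinearMap.comp_apply, LinearMap.proj_apply, ← map_smul]
  congr 1
  rw [← Pi.single_smul, smul_eq_mul, mul_one]

variable {P : Type} [AddCommGroup P] [Module R P]

/-- the range of `HForm.dual` as a submodule of the dual. -/
def rangeDual (H : HForm R P) : Submodule R (P →ₗ[R] R) where
  carrier := Set.range H.dual
  add_mem' := by
    rintro _ _ ⟨x, rfl⟩ ⟨y, rfl⟩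
    exact ⟨x + y, by ext z; exact H.add_left x y z⟩
  zero_mem' := ⟨0, by
    ext z
    have := H.smul_left 0 0 z
    simpa [HForm.dual] using this⟩
  smul_mem' := by
    rintro a _ ⟨x, rfl⟩
    refine ⟨star a • x, ?_⟩
    ext z
    have := H.smul_left (star a) x z
    simpa [HForm.dual] using this

/-- Nakayama: a form which is surjective modulo `J ≤ jacobson ⊥` is unimodular. -/
theorem unimodular_of_mod [Module.Finite R P] [Module.Projective R P] (H : HForm R P)
    (J : Ideal R) (hJ : J ≤ Ideal.jacobson ⊥)
    (h : ∀ f : P →ₗ[R] R, ∃ x, ∀ y, f y - H.h x y ∈ J) : H.Unimodular := by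
  obtain ⟨n, b, c, hbc⟩ := dual_basis (R := R) P
  have hexp : ∀ f : P →ₗ[R] R, f = ∑ i, f (b i) • c i := by
    intro f
    ext x
    conv_lhs => rw [hbc x, map_sum]
    simp only [map_smul, smul_eq_mul, LinearMap.sum_apply, LinearMap.smul_apply]
    exact Finset.sum_congr rfl fun i _ => mul_comm _ _
  have hFG : (⊤ : Submodule R (P →ₗ[R] R)).FG := by
    classical
    refine ⟨Finset.univ.image c, ?_⟩
    rw [eq_top_iff]
    intro f _
    rw [hexp f]
    exact Submodule.sum_mem _ fun i _ => Submodule.smul_mem _ _
      (Submodule.subset_span (by simp))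
  have htop : (⊤ : Submodule R (P →ₗ[R] R)) ≤ rangeDual H := by
    refine Submodule.le_of_le_smul_of_le_jacobson_bot hFG hJ ?_
    intro f _
    obtain ⟨x, hx⟩ := h f
    have h1 : f = H.dual x + (f - H.dual x) := by abel
    rw [h1]
    refine Submodule.add_mem_sup ⟨x, rfl⟩ ?_
    rw [hexp (f - H.dual x)]
    exact Submodule.sum_mem _ fun i _ => Submodule.smul_mem_smul (hx _) trivial
  refine ⟨?_, fun f => htop trivial⟩
  intro x y hxy
  have hz : ∀ f : P →ₗ[R] R, f (x - y) = 0 := by
    intro f
    obtain ⟨z, hz⟩ := htop (show f ∈ (⊤ : Submodule R (P →ₗ[R] R)) from trivial)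
    have h2 : H.h (x - y) z = 0 := by
      rw [P47_118.h_sub_left]
      have := LinearMap.congr_fun hxy z
      change H.h x z = H.h y z at this
      rw [this, sub_self]
    rw [← hz]
    change H.h z (x - y) = 0
    rw [← H.symm, h2, star_zero]
  have : x - y = 0 := by
    rw [hbc (x - y)]
    exact Finset.sum_eq_zero fun i _ => by rw [hz, zero_smul]
  exact sub_eq_zero.1 this

end

/-- data of the quotient `A` of `R` by the annihilator of the norm element `N`. -/
structure NormQuot {R A : Type} [CommRing R] [StarRing R] [CommRing A] [StarRing A]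
    (π : R →+* A) (N : R) : Prop where
  surj : Function.Surjective π
  star_map : ∀ z, π (star z) = star (π z)
  star_N : star N = N
  ann : ∀ z, N * z = 0 ↔ π z = 0
  ker : ∀ z, (∀ c, π c = 0 → c * z = 0) → ∃ w, z = N * w

section

variable {R A : Type} [CommRing R] [StarRing R] [CommRing A] [StarRing A] {π : R →+* A} {N : R}

theorem NormQuot.eq_iff (hq : NormQuot π N) {z w : R} : N * z = N * w ↔ π z = π w := by
  rw [← sub_eq_zero, ← mul_sub, hq.ann, map_sub, sub_eq_zero]

/-- orthogonal decomposition. -/
theorem decomp (hq : NormQuot π N) {J : Ideal R} (hJ : J ≤ Ideal.jacobson ⊥) (hNJ : N ∈ J)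
    {P Q M : Type} [AddCommGroup P] [Module R P] [Module.Finite R P] [Module.Projective R P]
    [AddCommGroup Q] [Module A Q] [AddCommGroup M] [Module R M]
    (e : M ≃+ P × Q) (he : ∀ (r : R) (x : M), e (r • x) = (r • (e x).1, π r • (e x).2))
    (H : HForm R M) (hU : H.Unimodular) :
    ∃ (HP : HForm R P) (HQ : HForm A Q) (g : (P × Q) ≃+ M),
      HP.Unimodular ∧ HQ.Unimodular ∧ (∀ (r : R) p q, g (r • p, π r • q) = r • g (p, q)) ∧
      ∀ p q p' q', ∃ w : R, π w = HQ.h q q' ∧
        H.h (g (p, q)) (g (p', q')) = HP.h p p' + N * w := by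
  classical
  -- the inclusions
  set i : P → M := fun p => e.symm (p, 0) with hi
  set j : Q → M := fun q => e.symm (0, q) with hj
  have i_add : ∀ p p', i (p + p') = i p + i p' := fun p p' => by
    simp only [hi]; rw [← map_add]; simp
  have i_smul : ∀ (r : R) p, i (r • p) = r • i p := fun r p => by
    apply e.injective
    rw [he]; simp [hi]
  have j_add : ∀ p p', j (p + p') = j p + j p' := fun p p' => by
    simp only [hj]; rw [← map_add]; simp
  have j_smul : ∀ (r : R) q, j (π r • q) = r • j q := fun r q => by
    apply e.injective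
    rw [he]; simp [hj]
  have hdec : ∀ x : M, x = i (e x).1 + j (e x).2 := fun x => by
    simp only [hi, hj]; rw [← map_add]; simp
  -- elements of `j Q` pair into `N R`
  have jN : ∀ (q : Q) (y : M), ∃ w, H.h (j q) y = N * w := by
    intro q y
    apply hq.ker
    intro c hc
    have h1 : star c • j q = 0 := by
      rw [← j_smul, hq.star_map, hc, star_zero, zero_smul]
      simp [hj]
    have h2 := H.smul_left (star c) (j q) y
    rw [h1, star_star] at h2
    have h3 : H.h 0 y = 0 := by
      have := H.smul_left 0 0 y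
      simpa using this
    rw [← h2, h3]
  -- the form on `P`
  let HP : HForm R P :=
    { h := fun p p' => H.h (i p) (i p')
      add_right := fun x y z => by rw [i_add, H.add_right]
      smul_right := fun a x y => by rw [i_smul, H.smul_right]
      symm := fun x y => H.symm _ _ }
  have hHP : HP.Unimodular := by
    refine unimodular_of_mod HP J hJ fun f => ?_
    let Φ : M →ₗ[R] R :=
      { toFun := fun x => f (e x).1
        map_add' := fun x y => by simp
        map_smul' := fun r x => by rw [he]; simp }
    obtain ⟨x0, hx0⟩ := hU.2 Φ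
    refine ⟨(e x0).1, fun y => ?_⟩
    have h1 : H.h x0 (i y) = f y := by
      have := LinearMap.congr_fun hx0 (i y)
      change H.h x0 (i y) = f (e (i y)).1 at this
      rw [this]; simp [hi]
    obtain ⟨w, hw⟩ := jN (e x0).2 (i y)
    have h2 : H.h x0 (i y) = H.h (i (e x0).1) (i y) + N * w := by
      conv_lhs => rw [hdec x0, H.add_left, hw]
    change f y - H.h (i (e x0).1) (i y) ∈ J
    rw [← h1, h2, add_sub_cancel_left]
    exact J.mul_mem_right _ hNJ
  -- the projection of `j q`
  let F : Q → (P →ₗ[R] R) := fun q =>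
    { toFun := fun p => H.h (j q) (i p)
      map_add' := fun x y => by rw [i_add, H.add_right]
      map_smul' := fun r x => by rw [i_smul, H.smul_right]; rfl }
  choose σ hσ using fun q => hHP.2 (F q)
  have hσ' : ∀ q p, H.h (i (σ q)) (i p) = H.h (j q) (i p) := fun q p =>
    LinearMap.congr_fun (hσ q) p
  have σ_unique : ∀ q x, (∀ p, H.h (i x) (i p) = H.h (j q) (i p)) → σ q = x := by
    intro q x hx
    apply hHP.1
    rw [hσ]
    ext p
    exact (hx p).symm
  have σ_add : ∀ q q', σ (q + q') = σ q + σ q' := fun q q' => by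
    apply σ_unique
    intro p
    rw [i_add, j_add, H.add_left, H.add_left, hσ', hσ']
  have σ_smul : ∀ (r : R) q, σ (π r • q) = r • σ q := fun r q => by
    apply σ_unique
    intro p
    rw [i_smul, j_smul, H.smul_left, H.smul_left, hσ']
  -- the section
  set s : Q → M := fun q => j q - i (σ q) with hs
  have i_neg : ∀ p, i (-p) = - i p := fun p => by
    have h0 : i 0 = 0 := by simp [hi]
    have := i_add p (-p)
    rw [add_neg_cancel, h0] at this
    exact (neg_eq_of_add_eq_zero_right this.symm).symm
  have s_add : ∀ q q', s (q + q') = s q + s q' := fun q q' => by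
    simp only [hs]; rw [j_add, σ_add, i_add]; abel
  have s_smul : ∀ (r : R) q, s (π r • q) = r • s q := fun r q => by
    simp only [hs]; rw [j_smul, σ_smul, i_smul, smul_sub]
  have s_orth : ∀ q p, H.h (s q) (i p) = 0 := fun q p => by
    simp only [hs]; rw [P47_118.h_sub_left, hσ', sub_self]
  have s_orth' : ∀ q p, H.h (i p) (s q) = 0 := fun q p => by
    rw [← H.symm, s_orth, star_zero]
  have es : ∀ q, e (s q) = (-σ q, q) := fun q => by
    simp only [hs]; rw [map_sub]; simp [hi, hj]
  -- the new decomposition
  let g : (P × Q) ≃+ M :=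
    { toFun := fun v => i v.1 + s v.2
      invFun := fun x => ((e x).1 + σ (e x).2, (e x).2)
      left_inv := by
        rintro ⟨p, q⟩
        simp only [map_add, es]
        simp [hi]
      right_inv := by
        intro x
        simp only [hs]
        conv_rhs => rw [hdec x]
        rw [i_add]; abel
      map_add' := by
        rintro ⟨p, q⟩ ⟨p', q'⟩
        simp only [Prod.mk_add_mk]
        rw [i_add, s_add]; abel }
  have hg : ∀ p q, g (p, q) = i p + s q := fun _ _ => rfl
  have sN : ∀ (q : Q) (q' : Q), ∃ w, H.h (s q) (s q') = N * w := by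
    intro q q'
    obtain ⟨w, hw⟩ := jN q (s q')
    refine ⟨w, ?_⟩
    have : H.h (s q) (s q') = H.h (j q) (s q') - H.h (i (σ q)) (s q') := by
      simp only [hs]; rw [P47_118.h_sub_left]
    rw [this, s_orth', sub_zero, hw]
  choose W hW using sN
  let HQ : HForm A Q :=
    { h := fun q q' => π (W q q')
      add_right := fun x y z => by
        rw [← map_add, ← hq.eq_iff, mul_add, ← hW, ← hW, ← hW, s_add, H.add_right]
      smul_right := fun a x y => by
        obtain ⟨r, rfl⟩ := hq.surj a
        rw [← map_mul, ← hq.eq_iff, ← hW, s_smul, H.smul_right, hW]; ring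
      symm := fun x y => by
        rw [← hq.star_map, ← hq.eq_iff, ← hW y x, ← H.symm, hW x y, star_mul', hq.star_N] }
  have hHQ : HQ.Unimodular := by
    constructor
    · intro x y hxy
      have h1 : ∀ z, H.h (s x) (s z) = H.h (s y) (s z) := by
        intro z
        have := LinearMap.congr_fun hxy z
        change π (W x z) = π (W y z) at this
        rw [hW, hW, hq.eq_iff, this]
      have h2 : s x = s y := by
        apply hU.1
        ext z
        change H.h (s x) z = H.h (s y) z
        obtain ⟨⟨p, q⟩, rfl⟩ := g.surjective z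
        rw [hg, H.add_right, H.add_right, s_orth, s_orth, h1]
      have h3 := es x
      rw [h2, es y] at h3
      exact (Prod.ext_iff.1 h3).2.symm
    · intro φ
      set l : A → R := Function.surjInv hq.surj with hl
      have hlπ : ∀ a, π (l a) = a := Function.surjInv_eq hq.surj
      let Φ : M →ₗ[R] R :=
        { toFun := fun x => N * l (φ (e x).2)
          map_add' := fun x y => by
            rw [← mul_add, hq.eq_iff, map_add, map_add, hlπ, hlπ, hlπ, Prod.snd_add, map_add]
          map_smul' := fun r x => by
            rw [he, RingHom.id_apply, smul_eq_mul, mul_left_comm, hq.eq_iff, map_mul, hlπ, hlπ]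
            simp }
      obtain ⟨x0, hx0⟩ := hU.2 Φ
      have hx0' : ∀ y, H.h x0 y = N * l (φ (e y).2) := LinearMap.congr_fun hx0
      obtain ⟨⟨p0, q0⟩, rfl⟩ := g.surjective x0
      have hp0 : p0 = 0 := by
        apply hHP.1
        ext p
        change H.h (i p0) (i p) = H.h (i 0) (i p)
        have h1 := hx0' (i p)
        rw [hg, H.add_left, s_orth, add_zero] at h1
        have h2 : N * l (φ (e (i p)).2) = 0 := by
          rw [hq.ann, hlπ]; simp [hi]
        have h3 : H.h (i 0) (i p) = 0 := by
          have h5 := H.smul_left 0 (i 0) (i p)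
          rw [← i_smul, smul_zero, star_zero, zero_mul] at h5
          exact h5
        rw [h1, h2, h3]
      refine ⟨q0, ?_⟩
      ext q
      change π (W q0 q) = φ q
      have h1 := hx0' (s q)
      rw [hg, H.add_left, s_orth', zero_add, hW, hq.eq_iff, hlπ, es] at h1
      exact h1
  refine ⟨HP, HQ, g, hHP, hHQ, ?_, ?_⟩
  · intro r p q
    rw [hg, hg, i_smul, s_smul, smul_add]
  · intro p q p' q'
    refine ⟨W q q', rfl, ?_⟩
    rw [hg, hg, H.add_left, H.add_right, H.add_right, s_orth, s_orth', hW, add_zero, zero_add]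

/-- two unimodular hermitian forms on a module of the form `P × Q` are isometric. -/
theorem isom_of_split (hq : NormQuot π N) {J : Ideal R} {JA : Ideal A} (hR : Loc J) (hA : Loc JA)
    (hNJ : N ∈ J) {P Q M M' : Type}
    [AddCommGroup P] [Module R P] [Module.Finite R P] [Module.Projective R P]
    [AddCommGroup Q] [Module A Q] [Module.Finite A Q] [Module.Projective A Q]
    [AddCommGroup M] [Module R M] [AddCommGroup M'] [Module R M']
    (e : M ≃+ P × Q) (he : ∀ (r : R) (x : M), e (r • x) = (r • (e x).1, π r • (e x).2))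
    (e' : M' ≃+ P × Q) (he' : ∀ (r : R) (x : M'), e' (r • x) = (r • (e' x).1, π r • (e' x).2))
    (H : HForm R M) (H' : HForm R M') (hU : H.Unimodular) (hU' : H'.Unimodular) :
    HForm.Isom H H' := by
  have hJ : J ≤ Ideal.jacobson ⊥ := by
    have := hR.complete
    exact IsAdicComplete.le_jacobson_bot J
  obtain ⟨HP, HQ, g, hP, hQ, hg, hgh⟩ := decomp hq hJ hNJ e he H hU
  obtain ⟨HP', HQ', g', hP', hQ', hg', hgh'⟩ := decomp hq hJ hNJ e' he' H' hU'
  obtain ⟨a, ha⟩ := hR.isom hP hP'
  obtain ⟨b, hb⟩ := hA.isom hQ hQ'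
  let G : M ≃+ M' := (g.symm.trans (AddEquiv.prodCongr a.toAddEquiv b.toAddEquiv)).trans g'
  have hG : ∀ p q, G (g (p, q)) = g' (a p, b q) := by
    intro p q
    simp only [G, AddEquiv.trans_apply, AddEquiv.symm_apply_apply]; rfl
  have hGs : ∀ (r : R) (x : M), G (r • x) = r • G x := by
    intro r x
    obtain ⟨⟨p, q⟩, rfl⟩ := g.surjective x
    rw [← hg, hG, hG, map_smul, map_smul, hg']
  refine ⟨{ G with map_smul' := hGs }, ?_⟩
  intro x y
  change H'.h (G x) (G y) = H.h x y
  obtain ⟨⟨p, q⟩, rfl⟩ := g.surjective x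
  obtain ⟨⟨p', q'⟩, rfl⟩ := g.surjective y
  rw [hG, hG]
  obtain ⟨w, hw, h1⟩ := hgh p q p' q'
  obtain ⟨w', hw', h2⟩ := hgh' (a p) (b q) (a p') (b q')
  rw [h1, h2, ha]
  congr 1
  rw [hq.eq_iff, hw, hw', hb]

end

end Crest.Agent.R267.P46c_484
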