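import Crest.Agent.R267.P46b_543
import Crest.Agent.R267.P4Lam_780

/-!
# The local rings of S0407 (helper543, row 267, LOCSQ, part 1)

`Lam m Q ℤ_[p]`:
* `base_unram` : `p ∤ m Q` ⇒ `Base (Lam m Q ℤ_[p]) p`;
* `base_ram` : `Q = p Q'`, `p ∤ m Q'` ⇒ `Base (Lam m Q ℤ_[p]) (1 - x^{m Q'})`.
-/

set_option autoImplicit false

namespace Crest.Agent.R267.P46c_543

open Function Polynomial Crest.Agent.R267.P46a0_543 Crest.Agent.R267.P46b_543
open Crest.Agent.R267.P4Lam_780

universe u v w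

section complete

/-- finite modules over a complete noetherian ring are complete. -/
theorem isAdicComplete_of_finite {R : Type u} [CommRing R] [IsNoetherianRing R] (I : Ideal R)
    [IsAdicComplete I R] (M : Type v) [AddCommGroup M] [Module R M] [Module.Finite R M] :
    IsAdicComplete I M := by
  have hH : IsHausdorff I M := IsHausdorff.of_le_jacobson I M (IsAdicComplete.le_jacobson_bot I)
  have hP : IsPrecomplete I M := by
    rw [← AdicCompletion.of_surjective_iff]
    intro y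
    obtain ⟨t, rfl⟩ := AdicCompletion.ofTensorProduct_surjective_of_finite I M y
    induction t using TensorProduct.induction_on with
    | zero => exact ⟨0, by simp⟩
    | tmul r x =>
      obtain ⟨a, rfl⟩ := AdicCompletion.of_surjective I R r
      refine ⟨a • x, ?_⟩
      rw [AdicCompletion.ofTensorProduct_tmul, map_smul]
      ext n
      rfl
    | add x y hx hy =>
      obtain ⟨a, ha⟩ := hx
      obtain ⟨b, hb⟩ := hy
      exact ⟨a + b, by rw [map_add, map_add, ha, hb]⟩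
  exact { hH, hP with }

/-- comparison of adic topologies. -/
theorem isAdicComplete_of_le {B : Type u} [CommRing B] {I J : Ideal B} (hIJ : I ≤ J) {k : ℕ}
    (hJI : J ^ k ≤ I) [hI : IsAdicComplete I B] : IsAdicComplete J B := by
  have h1 : ∀ n, J ^ (k * n) ≤ I ^ n := fun n => by
    rw [pow_mul]
    exact Ideal.pow_right_mono hJI n
  have h2 : ∀ n, I ^ n ≤ J ^ n := fun n => Ideal.pow_right_mono hIJ n
  have hk : ∀ n, n ≤ k * n ∨ k = 0 := by
    intro n
    rcases Nat.eq_zero_or_pos k with h | h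
    · exact Or.inr h
    · exact Or.inl (Nat.le_mul_of_pos_left n h)
  refine { haus' := ?_, prec' := ?_ }
  · intro x hx
    refine hI.haus' x fun n => ?_
    have h3 := hx (k * n)
    rw [SModEq.zero, smul_eq_mul, Ideal.mul_top] at h3 ⊢
    exact h1 n h3
  · intro f hf
    rcases Nat.eq_zero_or_pos k with h0 | h0
    · -- `I = ⊤`
      refine ⟨0, fun n => ?_⟩
      have h4 : I = ⊤ := by
        rw [h0, pow_zero, Ideal.one_eq_top] at hJI
        exact top_le_iff.mp hJI
      have h5 : J = ⊤ := top_le_iff.mp (h4 ▸ hIJ)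
      rw [h5, smul_eq_mul, Ideal.mul_top, SModEq.sub_mem]
      simp [← Ideal.one_eq_top]
    obtain ⟨L, hL⟩ := hI.prec' (fun n => f (k * n)) (by
      intro m n hmn
      have h3 := hf (Nat.mul_le_mul_left k hmn)
      rw [SModEq.sub_mem, smul_eq_mul, Ideal.mul_top] at h3 ⊢
      exact h1 m h3)
    refine ⟨L, fun n => ?_⟩
    have h3 := hf (Nat.le_mul_of_pos_left n h0)
    have h4 := hL n
    rw [SModEq.sub_mem, smul_eq_mul, Ideal.mul_top] at h3 h4 ⊢
    have h5 := Ideal.add_mem _ h3 (h2 n h4)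
    rwa [sub_add_sub_cancel] at h5

variable {p : ℕ} [Fact p.Prime]

theorem isAdicComplete_padic (B : Type) [CommRing B] [Algebra ℤ_[p] B] [Module.Finite ℤ_[p] B] :
    IsAdicComplete (Ideal.span {(p : B)}) B := by
  have h0 : IsAdicComplete (Ideal.span {(p : ℤ_[p])}) ℤ_[p] := by
    rw [← PadicInt.maximalIdeal_eq_span_p]
    infer_instance
  have h1 := isAdicComplete_of_finite (Ideal.span {(p : ℤ_[p])}) B
  rw [← IsAdicComplete.map_algebraMap_iff (S := B), Ideal.map_span, Set.image_singleton,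
    map_natCast] at h1
  exact h1

/-- `B ⧸ p` is finite. -/
theorem finite_quot_p (B : Type) [CommRing B] [Algebra ℤ_[p] B] [Module.Finite ℤ_[p] B]
    (J : Ideal B) (hJ : (p : B) ∈ J) : Finite (B ⧸ J) := by
  obtain ⟨n, f, hf⟩ := Module.Finite.exists_fin' ℤ_[p] B
  let g : (Fin n → Fin p) → B ⧸ J := fun a => Ideal.Quotient.mk J (f (fun i => ((a i : ℕ) : ℤ_[p])))
  refine Finite.of_surjective g ?_
  intro x
  obtain ⟨x, rfl⟩ := Ideal.Quotient.mk_surjective x
  obtain ⟨a, rfl⟩ := hf x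
  have h1 : ∀ i, ∃ c : Fin p, ∃ b : ℤ_[p], ((c : ℕ) : ℤ_[p]) - a i = (p : ℤ_[p]) * b := by
    intro i
    obtain ⟨c, hc, hmem⟩ := PadicInt.exists_mem_range (x := a i)
    refine ⟨⟨c, hc⟩, ?_⟩
    rw [PadicInt.maximalIdeal_eq_span_p, Ideal.mem_span_singleton] at hmem
    obtain ⟨b, hb⟩ := hmem
    exact ⟨-b, by simp only [mul_neg, ← hb]; ring⟩
  choose c b hcb using h1
  refine ⟨c, ?_⟩
  simp only [g]
  rw [Ideal.Quotient.eq, ← map_sub]
  have h2 : ((fun i => ((c i : ℕ) : ℤ_[p])) - a) = (p : ℤ_[p]) • b := by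
    funext i
    simp [hcb i]
  rw [h2, map_smul, Algebra.smul_def, map_natCast]
  exact Ideal.mul_mem_right _ _ hJ

end complete

section red

variable {p : ℕ} [Fact p.Prime]

/-- Frobenius trick: a ring of characteristic `p` generated over `ℤ_p` by a root of unity of order
prime to `p` is reduced. -/
theorem isReduced_of_gen (k : Type) [CommRing k] [Algebra ℤ_[p] k] (hp0 : (p : k) = 0) (x : k)
    {n : ℕ} (hn : ¬ p ∣ n) (hx : x ^ n = 1) (hgen : ∀ z : k, ∃ f : ℤ_[p][X], z = aeval x f) :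
    IsReduced k := by
  have hp : p.Prime := Fact.out
  rcases subsingleton_or_nontrivial k with hs | hs
  · infer_instance
  have hchar : CharP k p := by
    rw [← CharP.charP_iff_prime_eq_zero hp] at hp0
    exact hp0
  have hexp : ExpChar k p := ExpChar.prime hp
  -- an exponent with `p ^ r ≡ 1 mod n`
  have hcop : Nat.Coprime p n := (Nat.Prime.coprime_iff_not_dvd hp).2 hn
  set r := n.totient with hr
  have hn0 : n ≠ 0 := by rintro rfl; exact hn (dvd_zero _)
  have hr0 : 0 < r := Nat.totient_pos.2 (Nat.pos_of_ne_zero hn0)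
  have hmod : p ^ r ≡ 1 [MOD n] := Nat.ModEq.pow_totient hcop
  have hxr : x ^ (p ^ r) = x := by
    have h1 : 1 ≤ p ^ r := Nat.one_le_pow _ _ hp.pos
    obtain ⟨c, hc⟩ := (Nat.modEq_iff_dvd' h1).mp hmod.symm
    have h2 : p ^ r = n * c + 1 := by omega
    rw [h2, pow_succ, pow_mul, hx, one_pow, one_mul]
  have hcoef : ∀ a : ℤ_[p], (algebraMap ℤ_[p] k a) ^ (p ^ r) = algebraMap ℤ_[p] k a := by
    intro a
    obtain ⟨c, hc, hmem⟩ := PadicInt.exists_mem_range (x := a)
    rw [PadicInt.maximalIdeal_eq_span_p, Ideal.mem_span_singleton] at hmem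
    obtain ⟨b, hb⟩ := hmem
    have h1 : algebraMap ℤ_[p] k a = (c : k) := by
      have h2 := congrArg (algebraMap ℤ_[p] k) hb
      rw [map_sub, map_mul, map_natCast, map_natCast, hp0, zero_mul, sub_eq_zero] at h2
      exact h2
    rw [h1]
    have h3 : ∀ s : ℕ, (c : k) ^ (p ^ s) = (c : k) := by
      intro s
      have := map_natCast (iterateFrobenius k p s) c
      rwa [iterateFrobenius_def] at this
    exact h3 r
  have hall : ∀ z : k, z ^ (p ^ r) = z := by
    intro z
    obtain ⟨f, rfl⟩ := hgen z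
    induction f using Polynomial.induction_on' with
    | add f g hf hg =>
      rw [map_add, add_pow_expChar_pow, hf, hg]
    | monomial m a =>
      rw [aeval_monomial, mul_pow, hcoef, ← pow_mul, mul_comm m, pow_mul, hxr]
  refine ⟨fun z hz => ?_⟩
  obtain ⟨m, hm⟩ := hz
  -- iterate
  have hit : ∀ s : ℕ, z ^ ((p ^ r) ^ s) = z := by
    intro s
    induction s with
    | zero => simp
    | succ s ih => rw [pow_succ, pow_mul, ih, hall]
  have h5 : m ≤ (p ^ r) ^ m := by
    have : 1 < p ^ r := Nat.one_lt_pow hr0.ne' hp.one_lt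
    exact (Nat.lt_pow_self this).le
  rw [← hit m]
  exact pow_eq_zero_of_le h5 hm

end red

section lam

theorem cyclotomic_mul_dvd_expand (R : Type*) [CommRing R] (k : ℕ) :
    ∀ a : ℕ, 0 < k → cyclotomic (a * k) R ∣ expand R k (cyclotomic a R) := by
  induction k using Nat.recOnMul with
  | zero => intro _ h; exact absurd h (lt_irrefl _)
  | one => intro a _; simp
  | prime p hp =>
    intro a _
    by_cases h : p ∣ a
    · rw [cyclotomic_expand_eq_cyclotomic hp h]
    · rw [cyclotomic_expand_eq_cyclotomic_mul hp h]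
      exact dvd_mul_right _ _
  | mul b c hb hc =>
    intro a h0
    have hb0 : 0 < b := Nat.pos_of_ne_zero (by rintro rfl; simp at h0)
    have hc0 : 0 < c := Nat.pos_of_ne_zero (by rintro rfl; simp at h0)
    have h1 := hb a hb0
    have h2 := hc (a * b) hc0
    have h3 := (expand R c).toRingHom.map_dvd h1
    rw [← mul_assoc]
    rw [mul_comm b c, expand_mul]
    exact h2.trans h3

theorem aeval_pow_cyclotomic' {R A : Type*} [CommRing R] [Ring A] [Algebra R A] {a k : ℕ} {t : A}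
    (ht : aeval t (cyclotomic (a * k) R) = 0) (hk0 : 0 < k) :
    aeval (t ^ k) (cyclotomic a R) = 0 := by
  obtain ⟨g, hg⟩ := cyclotomic_mul_dvd_expand R k a hk0
  rw [← expand_aeval, hg, map_mul, ht, zero_mul]

variable {p : ℕ} [Fact p.Prime]

theorem finite_lam (m Q : ℕ) [NeZero m] (R : Type) [CommRing R] :
    Module.Finite R (Lam m Q R) :=
  (Psi_monic m Q R).finite_adjoinRoot

theorem free_lam (m Q : ℕ) [NeZero m] (R : Type) [CommRing R] :
    Module.Free R (Lam m Q R) :=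
  (Psi_monic m Q R).free_adjoinRoot

theorem p_smul_eq_zero (B : Type) [AddCommGroup B] [Module ℤ_[p] B] [Module.Free ℤ_[p] B]
    {c : ℤ_[p]} (hc : c ≠ 0) {z : B} (hz : c • z = 0) : z = 0 := by
  rcases smul_eq_zero.mp hz with h | h
  · exact absurd h hc
  · exact h

theorem p_ne_zero : (p : ℤ_[p]) ≠ 0 := by
  have : p ≠ 0 := (Fact.out : p.Prime).ne_zero
  exact_mod_cast this

theorem lam_nz (m Q : ℕ) [NeZero m] (z : Lam m Q ℤ_[p]) (hz : (p : Lam m Q ℤ_[p]) * z = 0) :
    z = 0 := by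
  have := free_lam m Q ℤ_[p]
  apply p_smul_eq_zero (p := p) (Lam m Q ℤ_[p]) (c := (p : ℤ_[p])) p_ne_zero
  rw [Algebra.smul_def, map_natCast]
  exact hz

theorem base_unram (m Q : ℕ) [NeZero m] [NeZero Q] (h : ¬ p ∣ m * Q) :
    Base (Lam m Q ℤ_[p]) ((p : ℕ) : Lam m Q ℤ_[p]) := by
  have := finite_lam m Q ℤ_[p]
  have := isAdicComplete_padic (p := p) (Lam m Q ℤ_[p])
  refine Base.of_complete _ _ (lam_nz m Q) (finite_quot_p _ _ (Ideal.mem_span_singleton_self _)) ?_
  refine isReduced_of_gen (p := p) (Lam m Q ℤ_[p] ⧸ Ideal.span {((p : ℕ) : Lam m Q ℤ_[p])}) ?_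
    (Ideal.Quotient.mk _ (gx m Q ℤ_[p])) h ?_ ?_
  · rw [← map_natCast (Ideal.Quotient.mk _), Ideal.Quotient.eq_zero_iff_mem]
    exact Ideal.mem_span_singleton_self _
  · rw [← map_pow, gx_pow, map_one]
  · intro z
    obtain ⟨z, rfl⟩ := Ideal.Quotient.mk_surjective z
    induction z using P4Lam_780.ind with
    | h f =>
      refine ⟨f, ?_⟩
      have := aeval_algHom_apply (Ideal.Quotient.mkₐ ℤ_[p]
        (Ideal.span {((p : ℕ) : Lam m Q ℤ_[p])})) (gx m Q ℤ_[p]) f
      exact this.symm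

/-- the element `1 - ζ_p`. -/
noncomputable def piz (m Q' : ℕ) (p : ℕ) [Fact p.Prime] : Lam m (p * Q') ℤ_[p] :=
  1 - gx m (p * Q') ℤ_[p] ^ (m * Q')

theorem geom_zero (m Q' : ℕ) [NeZero m] [NeZero Q'] :
    ∑ i ∈ Finset.range p, (gx m (p * Q') ℤ_[p] ^ (m * Q')) ^ i = 0 := by
  have h1 : aeval (gx m (p * Q') ℤ_[p] ^ m) (cyclotomic (p * Q') ℤ_[p]) = 0 := aeval_gx_pow
  have h2 := aeval_pow_cyclotomic' h1 (NeZero.pos Q')
  rw [cyclotomic_prime, map_sum] at h2
  simpa [← pow_mul] using h2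

theorem piz_dvd_p (m Q' : ℕ) [NeZero m] [NeZero Q'] :
    ∃ w, (p : Lam m (p * Q') ℤ_[p]) = piz m Q' p * w := by
  set ζ := gx m (p * Q') ℤ_[p] ^ (m * Q') with hζ
  refine ⟨∑ i ∈ Finset.range p, ∑ k ∈ Finset.range i, ζ ^ k, ?_⟩
  rw [piz, ← hζ, Finset.mul_sum]
  have h3 : ∀ i ∈ Finset.range p, (1 - ζ) * ∑ k ∈ Finset.range i, ζ ^ k = 1 - ζ ^ i := by
    intro i _
    have := mul_geom_sum ζ i
    linear_combination -this
  rw [Finset.sum_congr rfl h3, Finset.sum_sub_distrib, geom_zero]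
  simp

theorem piz_pow (m Q' : ℕ) [NeZero m] [NeZero Q'] :
    ∃ s, (piz m Q' p) ^ p = (p : Lam m (p * Q') ℤ_[p]) * s := by
  set ζ := gx m (p * Q') ℤ_[p] ^ (m * Q') with hζ
  have h1 : ζ ^ p = 1 := by
    have h2 : NeZero (p * Q') := ⟨mul_ne_zero (Fact.out : p.Prime).ne_zero (NeZero.ne Q')⟩
    rw [hζ, ← pow_mul, show m * Q' * p = m * (p * Q') by ring]
    exact gx_pow
  obtain ⟨s, hs⟩ := sub_one_pow (Fact.out : p.Prime) h1
  refine ⟨(-1) ^ p * s, ?_⟩
  rw [piz, ← hζ, ← neg_sub, neg_pow, hs]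
  ring

theorem base_ram (m Q' : ℕ) [NeZero m] [NeZero Q'] (h : ¬ p ∣ m * Q') :
    Base (Lam m (p * Q') ℤ_[p]) (piz m Q' p) := by
  have := finite_lam m (p * Q') ℤ_[p]
  have hc := isAdicComplete_padic (p := p) (Lam m (p * Q') ℤ_[p])
  obtain ⟨w, hw⟩ := piz_dvd_p (p := p) m Q'
  obtain ⟨s, hs⟩ := piz_pow (p := p) m Q'
  have hle : Ideal.span {((p : ℕ) : Lam m (p * Q') ℤ_[p])} ≤ Ideal.span {piz m Q' p} := by
    rw [Ideal.span_singleton_le_span_singleton]
    exact ⟨w, hw⟩
  have hpow : Ideal.span {piz m Q' p} ^ p ≤ Ideal.span {((p : ℕ) : Lam m (p * Q') ℤ_[p])} := by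
    rw [Ideal.span_singleton_pow, Ideal.span_singleton_le_span_singleton]
    exact ⟨s, hs⟩
  have hc' := isAdicComplete_of_le hle hpow
  refine Base.of_complete _ _ ?_ (finite_quot_p _ _ (hle (Ideal.mem_span_singleton_self _))) ?_
  · intro z hz
    apply lam_nz m (p * Q')
    rw [hw, mul_right_comm, hz, zero_mul]
  · refine isReduced_of_gen (p := p) (Lam m (p * Q') ℤ_[p] ⧸ Ideal.span {piz m Q' p}) ?_
      (Ideal.Quotient.mk _ (gx m (p * Q') ℤ_[p])) h ?_ ?_
    · rw [← map_natCast (Ideal.Quotient.mk _), Ideal.Quotient.eq_zero_iff_mem]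
      exact hle (Ideal.mem_span_singleton_self _)
    · rw [← map_pow, ← sub_eq_zero, ← (Ideal.Quotient.mk _).map_one, ← map_sub,
        Ideal.Quotient.eq_zero_iff_mem, Ideal.mem_span_singleton]
      exact ⟨-1, by rw [piz]; ring⟩
    · intro z
      obtain ⟨z, rfl⟩ := Ideal.Quotient.mk_surjective z
      induction z using P4Lam_780.ind with
      | h f =>
        refine ⟨f, ?_⟩
        have := aeval_algHom_apply (Ideal.Quotient.mkₐ ℤ_[p]
          (Ideal.span {piz m Q' p})) (gx m (p * Q') ℤ_[p]) f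
        exact this.symm

end lam

end Crest.Agent.R267.P46c_543
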