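import Crest.Agent.R267.P46c_543

/-!
# The local modules of S0407 (helper543, row 267, LOCSQ, part 2)

`R = Lam (p m') Q ℤ_[p]`, `A = Lam m' Q ℤ_[p]`, `p ∤ m' Q`:
* `piH : R →ₐ A` (`x ↦ x`), section `sig : A →ₐ R`, `gg = x^{m' Q}` of order `p`,
* `Nn = 1 + gg + … + gg^{p-1}`: `Nn z = 0 ↔ piH z = 0`, `star Nn = Nn`,
  `(∀ w, piH w = 0 → w z = 0) → z ∈ Nn R`.
-/

set_option autoImplicit false

namespace Crest.Agent.R267.P46d_543

open Function Polynomial Crest.Agent.R267.P46a0_543 Crest.Agent.R267.P46b_543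
open Crest.Agent.R267.P4Lam_780 Crest.Agent.R267.P46c_543

section gen

variable {m Q : ℕ} {S : Type} [CommRing S]

/-- additive maps commuting with scalars and with `gx` are `Lam`-linear. -/
theorem lam_linear {M N : Type*} [AddCommGroup M] [Module (Lam m Q S) M] [AddCommGroup N]
    [Module (Lam m Q S) N] (f : M →+ N)
    (hc : ∀ (c : S) (x : M), f (algebraMap S (Lam m Q S) c • x) = algebraMap S (Lam m Q S) c • f x)
    (hx : ∀ x : M, f (gx m Q S • x) = gx m Q S • f x) (r : Lam m Q S) (x : M) :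
    f (r • x) = r • f x := by
  induction r using P4Lam_780.ind with
  | h g =>
    induction g using Polynomial.induction_on' generalizing x with
    | add g h hg hh => rw [map_add, add_smul, map_add, hg, hh, add_smul]
    | monomial k a =>
      rw [aeval_monomial, mul_smul, hc, mul_smul]
      congr 1
      induction k generalizing x with
      | zero => simp
      | succ k ih => rw [pow_succ, mul_smul, ih, hx, mul_smul]

/-- the same along a ring homomorphism. -/
theorem lam_semilinear {B : Type*} [CommRing B] (φ : Lam m Q S →+* B)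
    {M N : Type*} [AddCommGroup M] [Module (Lam m Q S) M] [AddCommGroup N]
    [Module B N] (f : M →+ N)
    (hc : ∀ (c : S) (x : M), f (algebraMap S (Lam m Q S) c • x) =
      φ (algebraMap S (Lam m Q S) c) • f x)
    (hx : ∀ x : M, f (gx m Q S • x) = φ (gx m Q S) • f x) (r : Lam m Q S) (x : M) :
    f (r • x) = φ r • f x := by
  let _ : Module (Lam m Q S) N := Module.compHom N φ
  exact lam_linear f hc hx r x

end gen

section rings

set_option linter.unusedSectionVars false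

variable {p : ℕ} [Fact p.Prime] {m' Q k l : ℕ} [NeZero m'] [NeZero Q]

theorem exists_kl (h : ¬ p ∣ m' * Q) : ∃ k l : ℕ, p * k = 1 + m' * Q * l := by
  have hp : p.Prime := Fact.out
  have hcop : Nat.Coprime p (m' * Q) := (Nat.Prime.coprime_iff_not_dvd hp).2 h
  have hn0 : 0 < m' * Q := Nat.mul_pos (NeZero.pos m') (NeZero.pos Q)
  have hr0 : 0 < (m' * Q).totient := Nat.totient_pos.2 hn0
  have hmod : p ^ (m' * Q).totient ≡ 1 [MOD (m' * Q)] := Nat.ModEq.pow_totient hcop
  have h1 : 1 ≤ p ^ (m' * Q).totient := Nat.one_le_pow _ _ hp.pos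
  obtain ⟨c, hc⟩ := (Nat.modEq_iff_dvd' h1).mp hmod.symm
  refine ⟨p ^ ((m' * Q).totient - 1), c, ?_⟩
  rw [← pow_succ', show (m' * Q).totient - 1 + 1 = (m' * Q).totient by omega]
  omega

variable (p m' Q) in
theorem piH_aux (hpQ : p.Coprime Q) :
    (Psi (p * m') Q ℤ_[p]).eval₂ (Algebra.ofId ℤ_[p] (Lam m' Q ℤ_[p])) (gx m' Q ℤ_[p]) = 0 := by
  change aeval (gx m' Q ℤ_[p]) (Psi (p * m') Q ℤ_[p]) = 0
  rw [Psi, expand_aeval, mul_comm, pow_mul]
  exact aeval_pow_cyclotomic aeval_gx_pow hpQ (Fact.out : p.Prime).pos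

variable (p m' Q) in
/-- the projection `R → A`. -/
noncomputable def piH (hpQ : p.Coprime Q) : Lam (p * m') Q ℤ_[p] →ₐ[ℤ_[p]] Lam m' Q ℤ_[p] :=
  AdjoinRoot.liftAlgHom _ (Algebra.ofId ℤ_[p] _) (gx m' Q ℤ_[p]) (piH_aux p m' Q hpQ)

theorem piH_gx (hpQ : p.Coprime Q) : piH p m' Q hpQ (gx (p * m') Q ℤ_[p]) = gx m' Q ℤ_[p] :=
  AdjoinRoot.lift_root (piH_aux p m' Q hpQ)

theorem k_coprime (hkl : p * k = 1 + m' * Q * l) : k.Coprime Q := by
  rw [Nat.coprime_iff_gcd_eq_one, ← Nat.dvd_one]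
  have h1 : Nat.gcd k Q ∣ p * k := (Nat.gcd_dvd_left k Q).mul_left p
  have h2 : Nat.gcd k Q ∣ m' * Q * l := ((Nat.gcd_dvd_right k Q).mul_left m').mul_right l
  rw [hkl] at h1
  exact (Nat.dvd_add_left h2).mp h1

theorem k_pos (hkl : p * k = 1 + m' * Q * l) : 0 < k := by
  rcases Nat.eq_zero_or_pos k with h | h
  · rw [h] at hkl; omega
  · exact h

variable (p m' Q k) in
/-- the element `x ^ (p k)`. -/
noncomputable def hh : Lam (p * m') Q ℤ_[p] := gx (p * m') Q ℤ_[p] ^ (p * k)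

theorem sig_aux (hkl : p * k = 1 + m' * Q * l) :
    (Psi m' Q ℤ_[p]).eval₂ (Algebra.ofId ℤ_[p] (Lam (p * m') Q ℤ_[p])) (hh p m' Q k) = 0 := by
  change aeval (hh p m' Q k) (Psi m' Q ℤ_[p]) = 0
  rw [Psi, expand_aeval, hh, ← pow_mul, show p * k * m' = (p * m') * k by ring, pow_mul]
  exact aeval_pow_cyclotomic aeval_gx_pow (k_coprime hkl) (k_pos hkl)

/-- the section `A → R`. -/
noncomputable def sig (hkl : p * k = 1 + m' * Q * l) :
    Lam m' Q ℤ_[p] →ₐ[ℤ_[p]] Lam (p * m') Q ℤ_[p] :=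
  AdjoinRoot.liftAlgHom _ (Algebra.ofId ℤ_[p] _) (hh p m' Q k) (sig_aux hkl)

theorem sig_gx (hkl : p * k = 1 + m' * Q * l) :
    sig hkl (gx m' Q ℤ_[p]) = hh p m' Q k :=
  AdjoinRoot.lift_root (sig_aux hkl)

variable (p m' Q) in
/-- the element of order `p`. -/
noncomputable def gg : Lam (p * m') Q ℤ_[p] := gx (p * m') Q ℤ_[p] ^ (m' * Q)

theorem gg_pow : gg p m' Q ^ p = 1 := by
  rw [gg, ← pow_mul, show m' * Q * p = (p * m') * Q by ring]
  exact gx_pow

theorem gx_eq (hkl : p * k = 1 + m' * Q * l) :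
    gx (p * m') Q ℤ_[p] = sig hkl (gx m' Q ℤ_[p]) * gg p m' Q ^ (l * (p - 1)) := by
  have hp : p.Prime := Fact.out
  rw [sig_gx, hh, gg, ← pow_mul, ← pow_add]
  have h1 : p * k + m' * Q * (l * (p - 1)) = 1 + (p * m') * Q * l := by
    obtain ⟨r, hr⟩ : ∃ r, p = r + 1 := ⟨p - 1, by have := hp.pos; omega⟩
    rw [hkl, hr]
    simp only [Nat.add_sub_cancel]
    ring
  rw [h1, pow_add, pow_one, pow_mul (gx (p * m') Q ℤ_[p]) (p * m' * Q), gx_pow, one_pow, mul_one]

theorem piH_gg (hpQ : p.Coprime Q) : piH p m' Q hpQ (gg p m' Q) = 1 := by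
  rw [gg, map_pow, piH_gx, gx_pow]

theorem piH_sig (hpQ : p.Coprime Q) (hkl : p * k = 1 + m' * Q * l) (a : Lam m' Q ℤ_[p]) :
    piH p m' Q hpQ (sig hkl a) = a := by
  induction a using P4Lam_780.ind with
  | h f =>
    rw [← aeval_algHom_apply, ← aeval_algHom_apply, sig_gx, hh, map_pow, piH_gx, hkl, pow_add,
      pow_one, pow_mul, gx_pow, one_pow, mul_one]

variable (p m' Q) in
/-- the norm element. -/
noncomputable def Nn : Lam (p * m') Q ℤ_[p] := ∑ i ∈ Finset.range p, gg p m' Q ^ i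

theorem gg_mul_Nn : gg p m' Q * Nn p m' Q = Nn p m' Q := by
  have h := mul_geom_sum (gg p m' Q) p
  rw [gg_pow, sub_self, sub_mul, one_mul, sub_eq_zero] at h
  exact h

theorem piH_Nn (hpQ : p.Coprime Q) : piH p m' Q hpQ (Nn p m' Q) = (p : Lam m' Q ℤ_[p]) := by
  rw [Nn, map_sum]
  simp [map_pow, piH_gg]

theorem star_gg : star (gg p m' Q) * gg p m' Q = 1 := by
  have h := gx_pow_mul_star (m := p * m') (Q := Q) (R := ℤ_[p]) (m' * Q)
  rw [gg]
  linear_combination h

theorem star_gg_eq : star (gg p m' Q) = gg p m' Q ^ (p - 1) := by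
  have hp : p.Prime := Fact.out
  have h1 : gg p m' Q ^ (p - 1) * gg p m' Q = 1 := by
    rw [← pow_succ, show p - 1 + 1 = p by have := hp.pos; omega, gg_pow]
  calc star (gg p m' Q) = star (gg p m' Q) * (gg p m' Q ^ (p - 1) * gg p m' Q) := by
        rw [h1, mul_one]
    _ = gg p m' Q ^ (p - 1) * (star (gg p m' Q) * gg p m' Q) := by ring
    _ = _ := by rw [star_gg, mul_one]

theorem star_Nn : star (Nn p m' Q) = Nn p m' Q := by
  have hp : p.Prime := Fact.out
  rw [Nn, star_sum]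
  -- reflect the sum
  have h1 : ∀ i ∈ Finset.range p, star (gg p m' Q ^ i) = gg p m' Q ^ (p - i) := by
    intro i hi
    have hi' : i < p := Finset.mem_range.mp hi
    have h2 : gg p m' Q ^ (p - i) * gg p m' Q ^ i = 1 := by
      rw [← pow_add, Nat.sub_add_cancel hi'.le, gg_pow]
    have h3 : star (gg p m' Q ^ i) * gg p m' Q ^ i = 1 := by
      rw [star_pow, ← mul_pow, star_gg, one_pow]
    calc star (gg p m' Q ^ i) = star (gg p m' Q ^ i) * (gg p m' Q ^ (p - i) * gg p m' Q ^ i) := by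
          rw [h2, mul_one]
      _ = gg p m' Q ^ (p - i) * (star (gg p m' Q ^ i) * gg p m' Q ^ i) := by ring
      _ = _ := by rw [h3, mul_one]
  rw [Finset.sum_congr rfl h1]
  obtain ⟨r, hr⟩ : ∃ r, p = r + 1 := ⟨p - 1, by have := hp.pos; omega⟩
  have h4 := gg_pow (p := p) (m' := m') (Q := Q)
  rw [← Finset.sum_range_reflect]
  have h5 : ∀ i ∈ Finset.range p, gg p m' Q ^ (p - (p - 1 - i)) = gg p m' Q ^ (i + 1) := by
    intro i hi
    have hi' : i < p := Finset.mem_range.mp hi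
    congr 1
    omega
  rw [Finset.sum_congr rfl h5]
  have h6 : ∑ i ∈ Finset.range p, gg p m' Q ^ (i + 1) =
      gg p m' Q * ∑ i ∈ Finset.range p, gg p m' Q ^ i := by
    rw [Finset.mul_sum]
    exact Finset.sum_congr rfl fun i _ => pow_succ' _ _
  rw [h6]
  exact gg_mul_Nn

theorem star_piH (hpQ : p.Coprime Q) (z : Lam (p * m') Q ℤ_[p]) :
    piH p m' Q hpQ (star z) = star (piH p m' Q hpQ z) := by
  have h0 : piH p m' Q hpQ (conj (gx (p * m') Q ℤ_[p])) = conj (gx m' Q ℤ_[p]) := by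
    have h1 : gx m' Q ℤ_[p] * conj (gx m' Q ℤ_[p]) = 1 := gx_mul_conj
    have h2 : gx m' Q ℤ_[p] * piH p m' Q hpQ (conj (gx (p * m') Q ℤ_[p])) = 1 := by
      rw [← piH_gx hpQ, ← map_mul, gx_mul_conj, map_one]
    linear_combination (conj (gx m' Q ℤ_[p])) * h2 -
      (piH p m' Q hpQ (conj (gx (p * m') Q ℤ_[p]))) * h1
  rw [star_def, star_def]
  induction z using P4Lam_780.ind with
  | h f =>
    rw [← aeval_algHom_apply, ← aeval_algHom_apply, ← aeval_algHom_apply, ← aeval_algHom_apply,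
      h0, piH_gx]

/-- the `A`-linear comparison `A[C_p] → R`. -/
noncomputable def Th (hkl : p * k = 1 + m' * Q * l) :
    (ZMod p → Lam m' Q ℤ_[p]) →ₗ[ℤ_[p]] Lam (p * m') Q ℤ_[p] where
  toFun a := ∑ i : ZMod p, sig hkl (a i) * gg p m' Q ^ i.val
  map_add' a b := by
    simp only [Pi.add_apply, map_add, add_mul, Finset.sum_add_distrib]
  map_smul' c a := by
    simp only [Pi.smul_apply, map_smul, smul_mul_assoc, Finset.smul_sum, RingHom.id_apply]

theorem Th_apply (hkl : p * k = 1 + m' * Q * l) (a : ZMod p → Lam m' Q ℤ_[p]) :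
    Th hkl a = ∑ i : ZMod p, sig hkl (a i) * gg p m' Q ^ i.val := rfl

theorem gg_val_add_one (i : ZMod p) : gg p m' Q ^ (i + 1).val = gg p m' Q ^ (i.val + 1) := by
  have h : (i + 1).val = (i.val + 1) % p := by
    rw [ZMod.val_add, ZMod.val_one_eq_one_mod, Nat.add_mod_mod]
  rw [h]
  conv_rhs => rw [← Nat.div_add_mod (i.val + 1) p]
  rw [pow_add, pow_mul, gg_pow, one_pow, one_mul]

theorem gg_mul_Th (hkl : p * k = 1 + m' * Q * l) (a : ZMod p → Lam m' Q ℤ_[p]) :
    gg p m' Q * Th hkl a = Th hkl (fun i => a (i - 1)) := by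
  rw [Th_apply, Th_apply, Finset.mul_sum, ← Equiv.sum_comp (Equiv.addRight (1 : ZMod p))
    (fun i => sig hkl (a (i - 1)) * gg p m' Q ^ i.val)]
  refine Finset.sum_congr rfl fun i _ => ?_
  rw [Equiv.coe_addRight, add_sub_cancel_right, gg_val_add_one, pow_succ]
  ring

theorem sig_mul_Th (hkl : p * k = 1 + m' * Q * l) (b : Lam m' Q ℤ_[p])
    (a : ZMod p → Lam m' Q ℤ_[p]) :
    sig hkl b * Th hkl a = Th hkl (fun i => b * a i) := by
  rw [Th_apply, Th_apply, Finset.mul_sum]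
  refine Finset.sum_congr rfl fun i _ => ?_
  rw [map_mul]
  ring

theorem Th_surjective (hkl : p * k = 1 + m' * Q * l) : Surjective (Th hkl) := by
  intro z
  induction z using P4Lam_780.ind with
  | h f =>
    induction f using Polynomial.induction_on' with
    | add f g hf hg =>
      obtain ⟨a, ha⟩ := hf
      obtain ⟨b, hb⟩ := hg
      exact ⟨a + b, by rw [map_add, map_add, ha, hb]⟩
    | monomial n c =>
      have h1 : ∀ n : ℕ, ∃ a, Th hkl a = gx (p * m') Q ℤ_[p] ^ n := by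
        intro n
        induction n with
        | zero =>
          refine ⟨Pi.single 0 1, ?_⟩
          rw [Th_apply, Finset.sum_eq_single (0 : ZMod p)]
          · simp
          · intro i _ hi
            simp [Pi.single_eq_of_ne hi]
          · simp
        | succ n ih =>
          obtain ⟨a, ha⟩ := ih
          have h2 : ∀ s : ℕ, ∃ b, Th hkl b = gg p m' Q ^ s * gx (p * m') Q ℤ_[p] ^ n := by
            intro s
            induction s with
            | zero => exact ⟨a, by rw [ha, pow_zero, one_mul]⟩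
            | succ s ihs =>
              obtain ⟨b, hb⟩ := ihs
              exact ⟨_, by rw [← gg_mul_Th, hb, pow_succ]; ring⟩
          obtain ⟨b, hb⟩ := h2 (l * (p - 1))
          refine ⟨fun i => gx m' Q ℤ_[p] * b i, ?_⟩
          rw [← sig_mul_Th, hb, ← mul_assoc, ← gx_eq hkl, pow_succ']
      obtain ⟨a, ha⟩ := h1 n
      refine ⟨c • a, ?_⟩
      rw [map_smul, ha, aeval_monomial, Algebra.smul_def]

theorem Th_injective (hkl : p * k = 1 + m' * Q * l) : Injective (Th hkl) := by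
  have f1 := free_lam m' Q ℤ_[p]
  have f2 := free_lam (p * m') Q ℤ_[p]
  have f3 := finite_lam m' Q ℤ_[p]
  have f4 := finite_lam (p * m') Q ℤ_[p]
  have h1 : Module.finrank ℤ_[p] (Lam m' Q ℤ_[p]) = Q.totient * m' := by
    rw [← Psi_natDegree m' Q ℤ_[p]]
    exact (AdjoinRoot.powerBasis' (Psi_monic m' Q ℤ_[p])).finrank
  have h2 : Module.finrank ℤ_[p] (Lam (p * m') Q ℤ_[p]) = Q.totient * (p * m') := by
    rw [← Psi_natDegree (p * m') Q ℤ_[p]]
    exact (AdjoinRoot.powerBasis' (Psi_monic (p * m') Q ℤ_[p])).finrank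
  have h3 : Module.finrank ℤ_[p] (ZMod p → Lam m' Q ℤ_[p]) =
      Module.finrank ℤ_[p] (Lam (p * m') Q ℤ_[p]) := by
    rw [Module.finrank_pi_fintype, h2, h1]
    simp [ZMod.card]
    ring
  let e : (ZMod p → Lam m' Q ℤ_[p]) ≃ₗ[ℤ_[p]] Lam (p * m') Q ℤ_[p] :=
    LinearEquiv.ofFinrankEq _ _ h3
  have h4 : Surjective (e.symm.toLinearMap ∘ₗ Th hkl) :=
    e.symm.surjective.comp (Th_surjective hkl)
  have h5 := OrzechProperty.injective_of_surjective_endomorphism _ h4
  intro x y hxy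
  exact h5 (by simp [hxy])

theorem piH_Th (hpQ : p.Coprime Q) (hkl : p * k = 1 + m' * Q * l)
    (a : ZMod p → Lam m' Q ℤ_[p]) : piH p m' Q hpQ (Th hkl a) = ∑ i, a i := by
  rw [Th_apply, map_sum]
  refine Finset.sum_congr rfl fun i _ => ?_
  rw [map_mul, map_pow, piH_gg, one_pow, mul_one, piH_sig]

theorem Nn_mul_Th (hkl : p * k = 1 + m' * Q * l) (a : ZMod p → Lam m' Q ℤ_[p]) :
    Nn p m' Q * Th hkl a = sig hkl (∑ i, a i) * Nn p m' Q := by
  have h1 : ∀ s : ℕ, Nn p m' Q * gg p m' Q ^ s = Nn p m' Q := by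
    intro s
    induction s with
    | zero => simp
    | succ s ih =>
      rw [pow_succ, ← mul_assoc, ih]
      linear_combination gg_mul_Nn (p := p) (m' := m') (Q := Q)
  rw [Th_apply, Finset.mul_sum, map_sum, Finset.sum_mul]
  refine Finset.sum_congr rfl fun i _ => ?_
  rw [mul_left_comm, h1]

theorem Nn_eq_Th (hkl : p * k = 1 + m' * Q * l) (b : Lam m' Q ℤ_[p]) :
    sig hkl b * Nn p m' Q = Th hkl (fun _ => b) := by
  rw [Th_apply, Nn, Finset.mul_sum]
  exact (sum_zmod p (fun i => sig hkl b * gg p m' Q ^ i)).symm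

/-- `N z = 0 ↔ π z = 0`. -/
theorem Nn_mul_eq_zero (hpQ : p.Coprime Q) (hkl : p * k = 1 + m' * Q * l)
    (z : Lam (p * m') Q ℤ_[p]) : Nn p m' Q * z = 0 ↔ piH p m' Q hpQ z = 0 := by
  obtain ⟨a, rfl⟩ := Th_surjective hkl z
  rw [Nn_mul_Th, piH_Th, Nn_eq_Th]
  constructor
  · intro h
    have h1 := Th_injective hkl (h.trans (map_zero (Th hkl)).symm)
    exact congrFun h1 0
  · intro h
    rw [h]
    exact map_zero (Th hkl)

/-- elements killed by `ker π` are multiples of `N`. -/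
theorem mem_Nn (hpQ : p.Coprime Q) (hkl : p * k = 1 + m' * Q * l)
    (z : Lam (p * m') Q ℤ_[p]) (hz : ∀ w, piH p m' Q hpQ w = 0 → w * z = 0) :
    ∃ w, z = Nn p m' Q * w := by
  obtain ⟨a, rfl⟩ := Th_surjective hkl z
  have h1 := hz (gg p m' Q - 1) (by rw [map_sub, piH_gg, map_one, sub_self])
  rw [sub_mul, one_mul, gg_mul_Th, ← map_sub] at h1
  have h2 := Th_injective hkl (h1.trans (map_zero (Th hkl)).symm)
  have h3 : ∀ n : ℕ, a (n : ZMod p) = a 0 := by
    intro n
    induction n with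
    | zero => simp
    | succ n ih =>
      have h4 := congrFun h2 ((n + 1 : ℕ) : ZMod p)
      rw [Pi.sub_apply, Pi.zero_apply, sub_eq_zero] at h4
      rw [← h4, ← ih]
      congr 1
      push_cast
      ring
  have h5 : a = fun _ => a 0 := by
    funext i
    have := h3 i.val
    rwa [ZMod.natCast_zmod_val] at this
  refine ⟨sig hkl (a 0), ?_⟩
  have h6 := Nn_eq_Th hkl (a 0)
  rw [← h5] at h6
  rw [← h6]
  ring

end rings

end Crest.Agent.R267.P46d_543
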