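import Mathlib
import Crest.Agent.R267.P4Brg_780
import Crest.Agent.R267.P46c_484

/-!
# S0407, package P4.6c: matrix side of `LOCSQ` (helper484)

* `goodQ`, `odd_m`: arithmetic of `Q = q₁ ⋯ q₈`, `m = 3 u`;
* `exists_isog_mat`: rationally congruent Seifert matrices have an integral isogeny
  intertwining the monodromies;
* `isog_lin`: the same over `ℤ_p` as an injective `Lam`-linear map of finite index;
* `cong_of_equiv`: projective case; `cong_of_split`: split case.
-/

set_option autoImplicit false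

namespace Crest.Agent.R267.P46e_484

open Polynomial Matrix Crest.Agent.R267.P4Herm_780 Crest.Agent.R267.P4Lam_780
  Crest.Agent.R267.P4Brg_780 Crest.Agent.R267.P4Defs_780 Crest.Agent.R267.P46c_484

/-! ### arithmetic -/

theorem odd_m {L : List (ℕ × ℕ × ℤ)} {u : ℕ} (hC : Cert L u) : Odd (3 * u) := by
  have h1 : Odd u := hC.prime.odd_of_ne_two (by have := hC.big; omega)
  exact (by decide : Odd 3).mul h1

theorem goodQ {u : ℕ} {q : List ℕ} (hA : Aux u q) : GoodQ q.prod := by
  obtain ⟨x, y, q', rfl⟩ : ∃ x y q', q = x :: y :: q' := by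
    have := hA.length
    match q, this with
    | x :: y :: q', _ => exact ⟨x, y, q', rfl⟩
  have hx := hA.prime x (by simp)
  have hy := hA.prime y (by simp)
  have hxy : x ≠ y := by
    have := hA.nodup
    simp only [List.nodup_cons, List.mem_cons, not_or] at this
    exact this.1.1
  have hpos : 0 < (x :: y :: q').prod := by
    apply List.prod_pos
    intro a ha
    exact (hA.prime a ha).pos
  have hxd : x ∣ (x :: y :: q').prod := List.dvd_prod (by simp)
  have hyd : y ∣ (x :: y :: q').prod := List.dvd_prod (by simp)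
  refine ⟨?_, ?_, ?_⟩
  · have h1 := Nat.le_of_dvd hpos hxd
    have h2 := (hA.big x (by simp)).1
    omega
  · intro p hp k hk
    have h1 : x ∣ p ^ k := hk ▸ hxd
    have h2 : y ∣ p ^ k := hk ▸ hyd
    have h3 := (Nat.prime_dvd_prime_iff_eq hx hp).1 (hx.dvd_of_dvd_pow h1)
    have h4 := (Nat.prime_dvd_prime_iff_eq hy hp).1 (hy.dvd_of_dvd_pow h2)
    exact hxy (h3.trans h4.symm)
  · have h1 : ∀ l : List ℕ, (∀ a ∈ l, a.Prime ∧ 3 < a) → Odd l.prod := by
      intro l
      induction l with
      | nil => intro _; simp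
      | cons a l ih =>
        intro h
        rw [List.prod_cons]
        exact ((h a (by simp)).1.odd_of_ne_two (by have := (h a (by simp)).2; omega)).mul
          (ih fun b hb => h b (by simp [hb]))
    exact h1 _ fun a ha => ⟨hA.prime a ha, (hA.big a ha).1⟩

/-! ### isogenies -/

section Isog

variable {m Q : ℕ} {ι κ : Type} [Fintype ι] [DecidableEq ι] [Fintype κ] [DecidableEq κ]

omit [DecidableEq ι] [DecidableEq κ] in
theorem exists_int_mul (P : Matrix ι κ ℚ) :
    ∃ (d : ℤ) (D : Matrix ι κ ℤ), d ≠ 0 ∧ D.map (Int.castRingHom ℚ) = (d : ℚ) • P := by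
  obtain ⟨b, hb⟩ := IsLocalization.exist_integer_multiples_of_finite (nonZeroDivisors ℤ)
    (fun x : ι × κ => P x.1 x.2)
  choose D hD using fun x => hb x
  refine ⟨b, Matrix.of fun i j => D (i, j), nonZeroDivisors.coe_ne_zero b, ?_⟩
  ext i j
  have := hD (i, j)
  rw [Matrix.map_apply, Matrix.smul_apply, smul_eq_mul, Matrix.of_apply]
  rw [show Int.castRingHom ℚ (D (i, j)) = algebraMap ℤ ℚ (D (i, j)) from rfl, this]
  simp [zsmul_eq_mul]

omit [Fintype ι] [DecidableEq ι] [Fintype κ] [DecidableEq κ] in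
theorem map_inj {A B : Matrix ι κ ℤ}
    (h : A.map (Int.castRingHom ℚ) = B.map (Int.castRingHom ℚ)) : A = B :=
  Matrix.map_injective Int.cast_injective h

omit [Fintype ι] [Fintype κ] [DecidableEq κ] in
theorem cast_smul {R : Type} [CommRing R] (k : ℤ) :
    (k • (1 : Matrix ι ι ℤ)).map (Int.castRingHom R) = (k : R) • (1 : Matrix ι ι R) := by
  ext i j
  simp only [Matrix.map_apply, Matrix.smul_apply, smul_eq_mul, Matrix.one_apply]
  split_ifs <;> simp

theorem exists_isog_mat {A T : Matrix ι ι ℤ} {B S : Matrix κ κ ℤ} (hA : MatLT m Q A T)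
    (hB : MatLT m Q B S) (h : CongOver ℚ A B) :
    ∃ (D : Matrix ι κ ℤ) (E : Matrix κ ι ℤ) (k : ℤ), k ≠ 0 ∧
      D * E = k • (1 : Matrix ι ι ℤ) ∧ E * D = k • (1 : Matrix κ κ ℤ) ∧ T * D = D * S := by
  obtain ⟨P, P', hPP, hPP', hc⟩ := h
  change Pᵀ * A.map (Int.castRingHom ℚ) * P = B.map (Int.castRingHom ℚ) at hc
  obtain ⟨d, D, hd, hD⟩ := exists_int_mul P
  obtain ⟨e, E, he, hE⟩ := exists_int_mul P'
  refine ⟨D, E, d * e, mul_ne_zero hd he, ?_, ?_, ?_⟩
  · apply map_inj
    rw [Matrix.map_mul, cast_smul, hD, hE, Matrix.smul_mul, Matrix.mul_smul, hPP, smul_smul]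
    push_cast; ring_nf
  · apply map_inj
    rw [Matrix.map_mul, cast_smul, hD, hE, Matrix.smul_mul, Matrix.mul_smul, hPP', smul_smul]
    push_cast; ring_nf
  · apply map_inj
    rw [Matrix.map_mul, Matrix.map_mul, hD, Matrix.smul_mul, Matrix.mul_smul]
    congr 1
    -- over `ℚ`
    have h1 := (hA.map (Int.castRingHom ℚ)).mono
    have h2 := (hB.map (Int.castRingHom ℚ)).mono
    have hdet := (hA.map (Int.castRingHom ℚ)).det
    set A' := A.map (Int.castRingHom ℚ)
    set B' := B.map (Int.castRingHom ℚ)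
    set T' := T.map (Int.castRingHom ℚ)
    set S' := S.map (Int.castRingHom ℚ)
    have h3 : Pᵀ * (A' * (T' * P)) = Pᵀ * (A' * (P * S')) := by
      calc Pᵀ * (A' * (T' * P)) = Pᵀ * (A' * T') * P := by simp only [Matrix.mul_assoc]
        _ = (Pᵀ * A' * P)ᵀ := by
            rw [h1, Matrix.transpose_mul, Matrix.transpose_mul, Matrix.transpose_transpose,
              Matrix.mul_assoc]
        _ = B' * S' := by rw [hc, h2]
        _ = Pᵀ * (A' * (P * S')) := by rw [← hc]; simp only [Matrix.mul_assoc]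
    have h4 : P'ᵀ * Pᵀ = 1 := by rw [← Matrix.transpose_mul, hPP, Matrix.transpose_one]
    have h5 := congrArg (fun X => A'⁻¹ * (P'ᵀ * X)) h3
    simp only [← Matrix.mul_assoc] at h5
    rw [Matrix.mul_assoc A'⁻¹ P'ᵀ Pᵀ, h4, Matrix.mul_one, Matrix.nonsing_inv_mul _ hdet,
      Matrix.one_mul, Matrix.one_mul] at h5
    exact h5

/-- an `R`-linear map which intertwines the monodromies is `Lam`-linear. -/
theorem smul_comm_of {R : Type} [CommRing R] {M N : Type} [AddCommGroup M] [Module R M]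
    [AddCommGroup N] [Module R N] {T : Module.End R M} {S : Module.End R N}
    (hT : aeval T (Psi m Q R) = 0) (hS : aeval S (Psi m Q R) = 0) (f : M →ₗ[R] N)
    (hf : ∀ x, f (T x) = S (f x)) (z : Lam m Q R) (x : M) :
    letI := lamModule T hT
    letI := lamModule S hS
    f (z • x) = z • f x := by
  let _ := lamModule T hT
  let _ := lamModule S hS
  have hk : ∀ (k : ℕ) x, f ((T ^ k) x) = (S ^ k) (f x) := by
    intro k
    induction k with
    | zero => intro x; rfl
    | succ k ih =>
      intro x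
      rw [pow_succ', pow_succ', Module.End.mul_apply, Module.End.mul_apply, hf, ih]
  induction z using ind with
  | h g =>
    change f (lamHom T hT _ x) = lamHom S hS _ (f x)
    rw [lamHom_aeval, lamHom_aeval]
    induction g using Polynomial.induction_on' with
    | add p q hp hq => simp only [map_add, LinearMap.add_apply]; rw [hp, hq]
    | monomial k r =>
      rw [aeval_monomial, aeval_monomial]
      simp only [Module.End.mul_apply, Module.algebraMap_end_apply, map_smul]
      rw [hk]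

theorem finite_quot {p : ℕ} [Fact p.Prime] {k : ℤ_[p]} (hk : k ≠ 0) :
    Finite (ℤ_[p] ⧸ Ideal.span {k}) := by
  have h1 : Ideal.span {k} = Ideal.span {(p : ℤ_[p]) ^ k.valuation} := by
    conv_lhs => rw [PadicInt.unitCoeff_spec hk]
    exact Ideal.span_singleton_mul_left_unit (Units.isUnit _) _
  rw [h1, ← PadicInt.ker_toZModPow]
  exact Finite.of_injective _ (RingHom.kerLift_injective (PadicInt.toZModPow k.valuation))

/-- the isogeny over `ℤ_p`. -/
theorem isog_lin (p : ℕ) [Fact p.Prime] {A T : Matrix ι ι ℤ} {B S : Matrix κ κ ℤ}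
    (hA : MatLT m Q A T) (hB : MatLT m Q B S) (h : CongOver ℚ A B) :
    ∃ f : (κ → ℤ_[p]) →ₗ[ℤ_[p]] (ι → ℤ_[p]), Function.Injective f ∧
      (LinearMap.range f).toAddSubgroup.index ≠ 0 ∧
      ∀ x, f (Matrix.toLin' (S.map (Int.castRingHom ℤ_[p])) x) =
        Matrix.toLin' (T.map (Int.castRingHom ℤ_[p])) (f x) := by
  obtain ⟨D, E, k, hk, hDE, hED, hTD⟩ := exists_isog_mat hA hB h
  set D' := D.map (Int.castRingHom ℤ_[p]) with hD'
  set E' := E.map (Int.castRingHom ℤ_[p]) with hE'
  have hk' : (k : ℤ_[p]) ≠ 0 := Int.cast_ne_zero.2 hk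
  have hDE' : D' * E' = (k : ℤ_[p]) • (1 : Matrix ι ι ℤ_[p]) := by
    rw [hD', hE', ← Matrix.map_mul, hDE, cast_smul]
  have hED' : E' * D' = (k : ℤ_[p]) • (1 : Matrix κ κ ℤ_[p]) := by
    rw [hD', hE', ← Matrix.map_mul, hED, cast_smul]
  refine ⟨Matrix.toLin' D', ?_, ?_, ?_⟩
  · intro x y hxy
    have h1 : Matrix.toLin' E' (Matrix.toLin' D' x) = Matrix.toLin' E' (Matrix.toLin' D' y) := by
      rw [hxy]
    rw [← Matrix.toLin'_mul_apply, ← Matrix.toLin'_mul_apply, hED', map_smul, Matrix.toLin'_one,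
      LinearMap.smul_apply, LinearMap.smul_apply, LinearMap.id_apply, LinearMap.id_apply] at h1
    ext i
    have h2 := congrFun h1 i
    simp only [Pi.smul_apply, smul_eq_mul] at h2
    rw [mul_left_cancel₀ hk' h2]
  · let φ : (ι → ℤ_[p]) →+ (ι → ℤ_[p] ⧸ Ideal.span {(k : ℤ_[p])}) :=
      { toFun := fun x i => Ideal.Quotient.mk _ (x i)
        map_zero' := by ext i; simp
        map_add' := by intro x y; ext i; simp }
    have hle : φ.ker ≤ (LinearMap.range (Matrix.toLin' D')).toAddSubgroup := by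
      intro x hx
      have h1 : ∀ i, ∃ y, x i = k * y := by
        intro i
        have h2 : Ideal.Quotient.mk (Ideal.span {(k : ℤ_[p])}) (x i) = 0 :=
          congrFun (AddMonoidHom.mem_ker.1 hx) i
        rw [Ideal.Quotient.eq_zero_iff_mem, Ideal.mem_span_singleton'] at h2
        obtain ⟨y, hy⟩ := h2
        exact ⟨y, by rw [← hy, mul_comm]⟩
      choose y hy using h1
      refine ⟨Matrix.toLin' E' y, ?_⟩
      rw [← Matrix.toLin'_mul_apply, hDE', map_smul, Matrix.toLin'_one, LinearMap.smul_apply,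
        LinearMap.id_apply]
      ext i
      rw [Pi.smul_apply, smul_eq_mul, hy]
    have hfin : φ.ker.index ≠ 0 := by
      have := finite_quot hk'
      rw [AddSubgroup.index_ker]
      exact Nat.card_ne_zero.2 ⟨inferInstance, inferInstance⟩
    exact fun h0 => hfin (Nat.eq_zero_of_zero_dvd (h0 ▸ AddSubgroup.index_dvd_of_le hle))
  · intro x
    rw [← Matrix.toLin'_mul_apply, ← Matrix.toLin'_mul_apply, hD', ← Matrix.map_mul,
      ← Matrix.map_mul, hTD]

end Isog

/-! ### transport of hermitian forms -/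

/-- pull-back of a hermitian form along a linear equivalence. -/
def pull {R M N : Type} [CommRing R] [StarRing R] [AddCommGroup M] [Module R M]
    [AddCommGroup N] [Module R N] (H : HForm R N) (e : M ≃ₗ[R] N) : HForm R M where
  h x y := H.h (e x) (e y)
  add_right x y z := by rw [map_add, H.add_right]
  smul_right a x y := by rw [map_smul, H.smul_right]
  symm x y := H.symm _ _

theorem pull_unimodular {R M N : Type} [CommRing R] [StarRing R] [AddCommGroup M] [Module R M]
    [AddCommGroup N] [Module R N] {H : HForm R N} (hU : H.Unimodular) (e : M ≃ₗ[R] N) :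
    (pull H e).Unimodular := by
  constructor
  · intro x y hxy
    apply e.injective
    apply hU.1
    ext z
    have := LinearMap.congr_fun hxy (e.symm z)
    change H.h (e x) (e (e.symm z)) = H.h (e y) (e (e.symm z)) at this
    rwa [e.apply_symm_apply] at this
  · intro f
    obtain ⟨x, hx⟩ := hU.2 (f.comp (e.symm : N →ₗ[R] M))
    refine ⟨e.symm x, ?_⟩
    ext z
    have := LinearMap.congr_fun hx (e z)
    change H.h x (e z) = f (e.symm (e z)) at this
    change H.h (e (e.symm x)) (e z) = f z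
    rw [e.apply_symm_apply, this, e.symm_apply_apply]

theorem isom_pull {R M N : Type} [CommRing R] [StarRing R] [AddCommGroup M] [Module R M]
    [AddCommGroup N] [Module R N] (H : HForm R N) (e : M ≃ₗ[R] N) : HForm.Isom (pull H e) H :=
  ⟨e, fun _ _ => rfl⟩

theorem isom_trans {R M N K : Type} [CommRing R] [StarRing R] [AddCommGroup M] [Module R M]
    [AddCommGroup N] [Module R N] [AddCommGroup K] [Module R K] {H : HForm R M} {H' : HForm R N}
    {H'' : HForm R K} (h : HForm.Isom H H') (h' : HForm.Isom H' H'') : HForm.Isom H H'' := by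
  obtain ⟨g, hg⟩ := h
  obtain ⟨g', hg'⟩ := h'
  exact ⟨g.trans g', fun x y => by rw [← hg, ← hg']; rfl⟩

/-- projective case: isomorphic projective modules carry isometric unimodular forms. -/
theorem isom_of_equiv {R : Type} [CommRing R] [StarRing R] {J : Ideal R} (hJ : Loc J)
    {M N : Type} [AddCommGroup M] [Module R M] [Module.Finite R M] [Module.Projective R M]
    [AddCommGroup N] [Module R N] (e : M ≃ₗ[R] N) {H : HForm R M} {H' : HForm R N}
    (hU : H.Unimodular) (hU' : H'.Unimodular) : HForm.Isom H H' :=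
  isom_trans (hJ.isom hU (pull_unimodular hU' e)) (isom_pull H' e)

/-! ### congruence of matrices -/

section Cong

variable {m Q : ℕ} [NeZero m] [NeZero Q] {R ι κ : Type} [CommRing R] [Nontrivial R] [Fintype ι]
  [DecidableEq ι] [Fintype κ] [DecidableEq κ]

/-- projective case. -/
theorem cong_of_proj {A T : Matrix ι ι R} {B S : Matrix κ κ R} (hA : MatLT m Q A T)
    (hB : MatLT m Q B S) (hQ : GoodQ Q) (hm : Odd m) {J : Ideal (Lam m Q R)} (hJ : Loc J)
    (hfin : @Module.Finite (Lam m Q R) (ι → R) _ _ (lamModule (Matrix.toLin' T) hA.toLT.psi))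
    (hproj : @Module.Projective (Lam m Q R) _ (ι → R) _
      (lamModule (Matrix.toLin' T) hA.toLT.psi))
    (e : Nonempty (@LinearEquiv (Lam m Q R) (Lam m Q R) _ _ (RingHom.id _) (RingHom.id _) _ _
      (ι → R) (κ → R) _ _ (lamModule (Matrix.toLin' T) hA.toLT.psi)
      (lamModule (Matrix.toLin' S) hB.toLT.psi))) : Cong R B A := by
  let _ := lamModule (Matrix.toLin' T) hA.toLT.psi
  let _ := lamModule (Matrix.toLin' S) hB.toLT.psi
  obtain ⟨e⟩ := e
  exact hA.cong_of_isom hB hQ hm
    (isom_of_equiv hJ e (hA.toLT.hform_unimodular hQ hm) (hB.toLT.hform_unimodular hQ hm))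

/-- split case. -/
theorem cong_of_split {A T : Matrix ι ι R} {B S : Matrix κ κ R} (hA : MatLT m Q A T)
    (hB : MatLT m Q B S) (hQ : GoodQ Q) (hm : Odd m) {J : Ideal (Lam m Q R)} (hJ : Loc J)
    {Λ : Type} [CommRing Λ] [StarRing Λ] {π : Lam m Q R →+* Λ} {N : Lam m Q R}
    (hq : NormQuot π N) {JA : Ideal Λ} (hJA : Loc JA) (hN : N ∈ J)
    {P Q₀ : Type} [AddCommGroup P] [Module (Lam m Q R) P] [Module.Finite (Lam m Q R) P]
    [Module.Projective (Lam m Q R) P] [AddCommGroup Q₀] [Module Λ Q₀] [Module.Finite Λ Q₀]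
    [Module.Projective Λ Q₀] (e : (ι → R) ≃+ P × Q₀)
    (he : letI := lamModule (Matrix.toLin' T) hA.toLT.psi
      ∀ (r : Lam m Q R) (x : ι → R), e (r • x) = (r • (e x).1, π r • (e x).2))
    (e' : (κ → R) ≃+ P × Q₀)
    (he' : letI := lamModule (Matrix.toLin' S) hB.toLT.psi
      ∀ (r : Lam m Q R) (x : κ → R), e' (r • x) = (r • (e' x).1, π r • (e' x).2)) :
    Cong R B A := by
  let _ := lamModule (Matrix.toLin' T) hA.toLT.psi
  let _ := lamModule (Matrix.toLin' S) hB.toLT.psi
  exact hA.cong_of_isom hB hQ hm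
    (isom_of_split hq hJ hJA hN e he e' he' _ _ (hA.toLT.hform_unimodular hQ hm)
      (hB.toLT.hform_unimodular hQ hm))

end Cong

/-! ### more arithmetic -/

theorem not_sq_dvd_m {L : List (ℕ × ℕ × ℤ)} {u : ℕ} (hC : Cert L u) {p : ℕ} (hp : p.Prime) :
    ¬ p ^ 2 ∣ 3 * u := by
  intro h
  have hu := hC.prime
  have hb := hC.big
  have h1 : p ∣ 3 * u := dvd_trans (Dvd.intro_left _ (by rw [pow_two])) h
  rcases hp.dvd_mul.1 h1 with h2 | h2
  · have h3 := (Nat.prime_dvd_prime_iff_eq hp Nat.prime_three).1 h2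
    subst h3
    have h4 : 3 ∣ u := by
      rw [pow_two] at h
      exact Nat.dvd_of_mul_dvd_mul_left (by norm_num) h
    have := (Nat.prime_dvd_prime_iff_eq Nat.prime_three hu).1 h4
    omega
  · have h3 := (Nat.prime_dvd_prime_iff_eq hp hu).1 h2
    subst h3
    have h4 : p ∣ 3 := by
      rw [pow_two] at h
      exact Nat.dvd_of_mul_dvd_mul_right hp.pos h
    have := (Nat.prime_dvd_prime_iff_eq hp Nat.prime_three).1 h4
    omega

theorem not_sq_dvd_prod : ∀ {q : List ℕ}, q.Nodup → (∀ x ∈ q, x.Prime) → ∀ {p : ℕ}, p.Prime →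
    ¬ p ^ 2 ∣ q.prod
  | [], _, _, p, hp, h => by
      rw [List.prod_nil] at h
      have := Nat.le_of_dvd one_pos h
      nlinarith [hp.two_le]
  | x :: q, hn, hq, p, hp, h => by
      rw [List.prod_cons] at h
      have hx := hq x (by simp)
      rw [List.nodup_cons] at hn
      have h1 : p ∣ x * q.prod := dvd_trans (Dvd.intro_left _ (by rw [pow_two])) h
      by_cases hpx : p = x
      · subst hpx
        rw [pow_two] at h
        have h2 : p ∣ q.prod := Nat.dvd_of_mul_dvd_mul_left hp.pos h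
        obtain ⟨y, hy, hpy⟩ := (Prime.dvd_prod_iff hp.prime).1 h2
        have := (Nat.prime_dvd_prime_iff_eq hp (hq y (by simp [hy]))).1 hpy
        subst this
        exact hn.1 hy
      · have h2 : Nat.Coprime (p ^ 2) x :=
          Nat.Coprime.pow_left 2 ((Nat.coprime_primes hp hx).2 hpx)
        exact not_sq_dvd_prod hn.2 (fun y hy => hq y (by simp [hy])) hp
          (h2.dvd_of_dvd_mul_left h)

theorem not_sq_dvd_Q {u : ℕ} {q : List ℕ} (hA : Aux u q) {p : ℕ} (hp : p.Prime) :
    ¬ p ^ 2 ∣ q.prod := not_sq_dvd_prod hA.nodup hA.prime hp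

theorem not_dvd_Q {L : List (ℕ × ℕ × ℤ)} {u : ℕ} {q : List ℕ} (hC : Cert L u) (hA : Aux u q)
    {p : ℕ} (hp : p.Prime) (h : p ∣ 3 * u) : ¬ p ∣ q.prod := by
  intro h'
  obtain ⟨y, hy, hpy⟩ := (Prime.dvd_prod_iff hp.prime).1 h'
  have h1 := (Nat.prime_dvd_prime_iff_eq hp (hA.prime y hy)).1 hpy
  subst h1
  have h2 := hA.big p hy
  rcases hp.dvd_mul.1 h with h3 | h3
  · have := (Nat.prime_dvd_prime_iff_eq hp Nat.prime_three).1 h3
    omega
  · exact h2.2 ((Nat.prime_dvd_prime_iff_eq hp hC.prime).1 h3)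

end Crest.Agent.R267.P46e_484
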