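import Crest.Agent.R267.P46d_543

/-!
# The local modules of S0407 (helper543, row 267, LOCSQ, part 3)

`split_lam`: two isogenous finite torsion-free `Lam (p m') Q ℤ_[p]`-modules satisfying `HM1` have
a common decomposition `P × Q₀`, `P` projective over `Lam (p m') Q ℤ_[p]`, `Q₀` projective over
`Lam m' Q ℤ_[p]`.  `iso_unram`, `iso_ram`: the cases `p ∤ m Q` and `p ∣ Q`.
-/

set_option autoImplicit false

namespace Crest.Agent.R267.P46e_543

open Function Polynomial Crest.Agent.R267.P46a0_543 Crest.Agent.R267.P46b_543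
open Crest.Agent.R267.P4Lam_780 Crest.Agent.R267.P46c_543 Crest.Agent.R267.P46d_543

section abs

set_option linter.unusedSectionVars false

variable {A R : Type} [CommRing A] [CommRing R] [Algebra A R] {p : ℕ} [Fact p.Prime] {g : R}

/-- multiplication by `g`. -/
def mulg (A : Type) {R : Type} [CommRing A] [CommRing R] [Algebra A R] (g : R) (M : Type)
    [AddCommGroup M] [Module R M] [Module A M] [IsScalarTower A R M] : M →ₗ[A] M :=
  (LinearMap.lsmul R M g).restrictScalars A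

theorem mulg_apply (M : Type) [AddCommGroup M] [Module R M] [Module A M] [IsScalarTower A R M]
    (x : M) : mulg A g M x = g • x := rfl

theorem mulg_pow_apply (M : Type) [AddCommGroup M] [Module R M] [Module A M]
    [IsScalarTower A R M] (n : ℕ) (x : M) : (mulg A g M ^ n) x = g ^ n • x := by
  induction n generalizing x with
  | zero => simp
  | succ n ih => rw [pow_succ, Module.End.mul_apply, ih, mulg_apply, smul_smul, pow_succ]

theorem lat_mulg (hg : g ^ p = 1) (M : Type) [AddCommGroup M] [Module R M] [Module A M]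
    [IsScalarTower A R M] [Module.Finite A M] (t : ∀ x : M, (p : A) • x = 0 → x = 0)
    (H : ∀ x : M, (∑ i ∈ Finset.range p, g ^ i) • x = 0 → ∃ y, x = g • y - y) :
    Lat A p M (mulg A g M) where
  finite := inferInstance
  tf := t
  pow := by
    refine LinearMap.ext fun x => ?_
    rw [mulg_pow_apply, hg, one_smul, Module.End.one_apply]
  hm1 x hx := by
    apply H
    rw [Finset.sum_smul, ← hx]
    exact Finset.sum_congr rfl fun i _ => (mulg_pow_apply M i x).symm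

/-- `A`-linear maps commuting with `g` are `R`-linear. -/
theorem lin_of (hgen : ∀ r : R, ∃ a : ZMod p → A, r = ∑ i, algebraMap A R (a i) * g ^ i.val)
    {M N : Type} [AddCommGroup M] [Module R M] [Module A M] [IsScalarTower A R M]
    [AddCommGroup N] [Module R N] [Module A N] [IsScalarTower A R N]
    (f : M →ₗ[A] N) (hf : ∀ x, f (g • x) = g • f x) (r : R) (x : M) : f (r • x) = r • f x := by
  obtain ⟨a, rfl⟩ := hgen r
  rw [Finset.sum_smul, Finset.sum_smul, map_sum]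
  refine Finset.sum_congr rfl fun i _ => ?_
  have h1 : ∀ n : ℕ, f (g ^ n • x) = g ^ n • f x := by
    intro n
    induction n with
    | zero => simp
    | succ n ih => rw [pow_succ', mul_smul, hf, ih, mul_smul]
  rw [mul_smul, mul_smul, algebraMap_smul, algebraMap_smul, map_smul, h1]

theorem proj_of_struct (hg : g ^ p = 1)
    (hgen : ∀ r : R, ∃ a : ZMod p → A, r = ∑ i, algebraMap A R (a i) * g ^ i.val)
    {P₀ : Type} [AddCommGroup P₀] [Module A P₀] [Module.Projective A P₀]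
    {P : Type} [AddCommGroup P] [Module R P] [Module A P] [IsScalarTower A R P]
    (E : (ZMod p → P₀) ≃ₗ[A] P) (hE : ∀ x, E (shift A p P₀ x) = g • E x) :
    Module.Projective R P := by
  apply Module.Projective.of_lifting_property''
  intro f hf
  -- lift `P₀`
  let ι₀ : P₀ →ₗ[A] P := E.toLinearMap.comp (LinearMap.single A (fun _ : ZMod p => P₀) 0)
  have hι₀ : ∀ y, ι₀ y = E (Pi.single 0 y) := fun y => rfl
  obtain ⟨τ₀, hτ₀⟩ := Module.projective_lifting_property (f.restrictScalars A) ι₀ hf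
  have hτ₀' : ∀ y, f (τ₀ y) = E (Pi.single 0 y) := fun y => by
    have := congrArg (fun h => h y) hτ₀
    simpa [hι₀] using this
  let τ : P →ₗ[A] (P →₀ R) :=
    ∑ i : ZMod p, ((mulg A (g ^ i.val) (P →₀ R)).comp (τ₀.comp (LinearMap.proj i))).comp
      E.symm.toLinearMap
  have hτ : ∀ x, τ x = ∑ i : ZMod p, g ^ i.val • τ₀ (E.symm x i) := by
    intro x
    simp only [τ, LinearMap.sum_apply]
    rfl
  have hEs : ∀ x, E.symm (g • x) = shift A p P₀ (E.symm x) := by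
    intro x
    apply E.injective
    rw [hE, E.apply_symm_apply, E.apply_symm_apply]
  have hval : ∀ i : ZMod p, g ^ (i + 1).val = g ^ (i.val + 1) := by
    intro i
    have h : (i + 1).val = (i.val + 1) % p := by
      rw [ZMod.val_add, ZMod.val_one_eq_one_mod, Nat.add_mod_mod]
    rw [h]
    conv_rhs => rw [← Nat.div_add_mod (i.val + 1) p]
    rw [pow_add, pow_mul, hg, one_pow, one_mul]
  have hτg : ∀ x, τ (g • x) = g • τ x := by
    intro x
    rw [hτ, hτ, hEs, Finset.smul_sum, ← Equiv.sum_comp (Equiv.addRight (1 : ZMod p))]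
    refine Finset.sum_congr rfl fun i _ => ?_
    rw [Equiv.coe_addRight, shift_apply, add_sub_cancel_right, hval, pow_succ', mul_smul]
  have hlin := lin_of hgen τ hτg
  let τR : P →ₗ[R] (P →₀ R) :=
    { toFun := τ
      map_add' := map_add τ
      map_smul' := fun r x => hlin r x }
  refine ⟨τR, ?_⟩
  refine LinearMap.ext fun x => ?_
  change f (τ x) = x
  rw [hτ, map_sum]
  obtain ⟨z, rfl⟩ := E.surjective x
  have hsh : ∀ (n : ℕ) (y : ZMod p → P₀), g ^ n • E y = E ((shift A p P₀ ^ n) y) := by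
    intro n
    induction n with
    | zero => intro y; simp
    | succ n ih =>
      intro y
      rw [pow_succ, mul_smul, ← hE, ih, pow_succ (shift A p P₀), Module.End.mul_apply]
  have h1 : ∀ i : ZMod p, f (g ^ i.val • τ₀ (E.symm (E z) i)) = E (Pi.single i (z i)) := by
    intro i
    rw [map_smul, hτ₀', E.symm_apply_apply, hsh]
    congr 1
    funext j
    rw [shift_pow_apply, ZMod.natCast_zmod_val]
    by_cases hij : j = i
    · subst hij; simp
    · rw [Pi.single_eq_of_ne (sub_ne_zero.mpr hij), Pi.single_eq_of_ne hij]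
  rw [Finset.sum_congr rfl fun i _ => h1 i, ← map_sum]
  congr 1
  exact Finset.univ_sum_single z

theorem split_abs (hA : Base A (p : A)) (hg : g ^ p = 1)
    (hgen : ∀ r : R, ∃ a : ZMod p → A, r = ∑ i, algebraMap A R (a i) * g ^ i.val)
    (π : R →+* A) (hπ : ∀ a, π (algebraMap A R a) = a) (hπg : π g = 1)
    (M₁ M₂ : Type) [AddCommGroup M₁] [Module R M₁] [Module A M₁] [IsScalarTower A R M₁]
    [Module.Finite A M₁] [AddCommGroup M₂] [Module R M₂] [Module A M₂] [IsScalarTower A R M₂]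
    [Module.Finite A M₂]
    (t₁ : ∀ x : M₁, (p : A) • x = 0 → x = 0)
    (H₁ : ∀ x : M₁, (∑ i ∈ Finset.range p, g ^ i) • x = 0 → ∃ y, x = g • y - y)
    (t₂ : ∀ x : M₂, (p : A) • x = 0 → x = 0)
    (H₂ : ∀ x : M₂, (∑ i ∈ Finset.range p, g ^ i) • x = 0 → ∃ y, x = g • y - y)
    (f : M₁ →ₗ[R] M₂) (hf : Injective f)
    (hfin : (LinearMap.range f).toAddSubgroup.index ≠ 0) :
    ∃ (P : Type) (_ : AddCommGroup P) (_ : Module R P) (Q₀ : Type) (_ : AddCommGroup Q₀)
      (_ : Module A Q₀), Module.Finite R P ∧ Module.Projective R P ∧ Module.Finite A Q₀ ∧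
      Module.Projective A Q₀ ∧
      (∃ e : M₁ ≃+ P × Q₀, ∀ (r : R) (x : M₁), e (r • x) = (r • (e x).1, π r • (e x).2)) ∧
      (∃ e : M₂ ≃+ P × Q₀, ∀ (r : R) (x : M₂), e (r • x) = (r • (e x).1, π r • (e x).2)) := by
  have L₁ := lat_mulg hg M₁ t₁ H₁
  have L₂ := lat_mulg hg M₂ t₂ H₂
  obtain ⟨P₀, _, _, Q₀, _, _, hPf, hPp, hQf, hQp, -, -, E, hE⟩ := struct hA L₁
  obtain ⟨e, he⟩ := iso hA L₁ L₂ (f.restrictScalars A) hf (fun x => f.map_smul g x) hfin
  have he' : ∀ x, e (g • x) = g • e x := he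
  have hlin := lin_of hgen e.toLinearMap he'
  have hE' : ∀ x q, E (shift A p P₀ x, q) = g • E (x, q) := hE
  -- the projection
  let pr₀ : M₁ →ₗ[A] M₁ :=
    (E.toLinearMap.comp (LinearMap.inl A _ _)).comp ((LinearMap.fst A _ _).comp E.symm.toLinearMap)
  have hpr₀ : ∀ x q, pr₀ (E (x, q)) = E (x, 0) := by
    intro x q
    simp [pr₀]
  have hpr₀g : ∀ m, pr₀ (g • m) = g • pr₀ m := by
    intro m
    obtain ⟨⟨x, q⟩, rfl⟩ := E.surjective m
    rw [← hE', hpr₀, hpr₀, hE']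
  have hprlin := lin_of hgen pr₀ hpr₀g
  let pr : M₁ →ₗ[R] M₁ :=
    { toFun := pr₀, map_add' := map_add pr₀, map_smul' := fun r x => hprlin r x }
  have hpr : ∀ x q, pr (E (x, q)) = E (x, 0) := hpr₀
  have hfM : Module.Finite R M₁ := Module.Finite.of_restrictScalars_finite A R M₁
  have hPfin : Module.Finite R (LinearMap.range pr) := inferInstance
  -- `P ≅ P₀[C_p]`
  let EP₀ : (ZMod p → P₀) →ₗ[A] (LinearMap.range pr) :=
    LinearMap.codRestrict ((LinearMap.range pr).restrictScalars A)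
      (E.toLinearMap.comp (LinearMap.inl A _ _)) (fun x => ⟨E (x, 0), hpr x 0⟩)
  have hEP₀ : ∀ x, ((EP₀ x : LinearMap.range pr) : M₁) = E (x, 0) := fun x => rfl
  have hbij : Bijective EP₀ := by
    constructor
    · intro x y hxy
      have h1 : E (x, 0) = E (y, 0) := by rw [← hEP₀, ← hEP₀, hxy]
      exact congrArg Prod.fst (E.injective h1)
    · rintro ⟨y, z, rfl⟩
      obtain ⟨⟨x, q⟩, rfl⟩ := E.surjective z
      refine ⟨x, ?_⟩
      apply Subtype.ext
      rw [hEP₀]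
      exact (hpr x q).symm
  have hPproj : Module.Projective R (LinearMap.range pr) := by
    refine proj_of_struct hg hgen (LinearEquiv.ofBijective EP₀ hbij) ?_
    intro x
    apply Subtype.ext
    change E (shift A p P₀ x, 0) = g • E (x, 0)
    exact hE' x 0
  -- the second projection
  let s : M₁ →ₗ[A] Q₀ := (LinearMap.snd A _ _).comp E.symm.toLinearMap
  have hs : ∀ x q, s (E (x, q)) = q := by
    intro x q
    simp [s]
  have hsg : ∀ n : ℕ, ∀ m, s (g ^ n • m) = s m := by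
    intro n
    induction n with
    | zero => intro m; simp
    | succ n ih =>
      intro m
      rw [pow_succ, mul_smul, ih]
      obtain ⟨⟨x, q⟩, rfl⟩ := E.surjective m
      rw [← hE', hs, hs]
  have hsπ : ∀ (r : R) (m : M₁), s (r • m) = π r • s m := by
    intro r m
    obtain ⟨a, rfl⟩ := hgen r
    rw [Finset.sum_smul, map_sum, map_sum, Finset.sum_smul]
    refine Finset.sum_congr rfl fun i _ => ?_
    rw [mul_smul, algebraMap_smul, map_smul, hsg, map_mul, hπ, map_pow, hπg, one_pow, mul_one]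
  -- the bijection
  let e₁ : M₁ ≃+ (LinearMap.range pr) × Q₀ :=
    { toFun := fun m => (⟨pr m, m, rfl⟩, s m)
      invFun := fun z => (z.1 : M₁) + E (0, z.2)
      left_inv := by
        intro m
        obtain ⟨⟨x, q⟩, rfl⟩ := E.surjective m
        simp only [hpr, hs]
        rw [← map_add]
        simp
      right_inv := by
        rintro ⟨⟨y, hy⟩, q⟩
        obtain ⟨z, hz⟩ := id hy
        obtain ⟨⟨x, q'⟩, rfl⟩ := E.surjective z
        rw [hpr] at hz
        subst hz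
        have h1 : E (x, 0) + E (0, q) = E (x, q) := by
          rw [← map_add]
          simp
        rw [Prod.mk.injEq]
        refine ⟨Subtype.ext ?_, ?_⟩
        · change pr (E (x, 0) + E (0, q)) = E (x, 0)
          rw [h1, hpr]
        · change s (E (x, 0) + E (0, q)) = q
          rw [h1, hs]
      map_add' := by
        intro x y
        rw [Prod.mk_add_mk, Prod.mk.injEq]
        exact ⟨Subtype.ext (map_add pr x y), map_add s x y⟩ }
  have he₁ : ∀ (r : R) (x : M₁), e₁ (r • x) = (r • (e₁ x).1, π r • (e₁ x).2) := by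
    intro r x
    change ((⟨pr (r • x), r • x, rfl⟩ : LinearMap.range pr), s (r • x)) = _
    rw [Prod.mk.injEq]
    exact ⟨Subtype.ext (pr.map_smul r x), hsπ r x⟩
  refine ⟨LinearMap.range pr, inferInstance, inferInstance, Q₀, inferInstance, inferInstance,
    hPfin, hPproj, hQf, hQp, ⟨e₁, he₁⟩, ⟨e.symm.toAddEquiv.trans e₁, ?_⟩⟩
  intro r x
  obtain ⟨y, rfl⟩ := e.surjective x
  have h2 : e (r • y) = r • e y := hlin r y
  change e₁ (e.symm (r • e y)) = (r • (e₁ (e.symm (e y))).1, π r • (e₁ (e.symm (e y))).2)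
  rw [← h2, e.symm_apply_apply, e.symm_apply_apply]
  exact he₁ r y

end abs

section lam

variable {p : ℕ} [Fact p.Prime] {m' Q : ℕ} [NeZero m'] [NeZero Q]

variable (p m' Q) in
/-- the projection `R → A` as a ring homomorphism. -/
noncomputable def piR (hpQ : p.Coprime Q) : Lam (p * m') Q ℤ_[p] →+* Lam m' Q ℤ_[p] :=
  (piH p m' Q hpQ).toRingHom

theorem piR_apply (hpQ : p.Coprime Q) (z : Lam (p * m') Q ℤ_[p]) :
    piR p m' Q hpQ z = piH p m' Q hpQ z := rfl

/-- **(a3)**: `p ∣ m`, `p ∤ m' Q`. -/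
theorem split_lam (h : ¬ p ∣ m' * Q) (hpQ : p.Coprime Q)
    (M₁ M₂ : Type) [AddCommGroup M₁] [Module (Lam (p * m') Q ℤ_[p]) M₁]
    [Module.Finite (Lam (p * m') Q ℤ_[p]) M₁] [AddCommGroup M₂]
    [Module (Lam (p * m') Q ℤ_[p]) M₂] [Module.Finite (Lam (p * m') Q ℤ_[p]) M₂]
    (t₁ : ∀ x : M₁, (p : Lam (p * m') Q ℤ_[p]) • x = 0 → x = 0)
    (H₁ : ∀ x : M₁, Nn p m' Q • x = 0 → ∃ y, x = gg p m' Q • y - y)
    (t₂ : ∀ x : M₂, (p : Lam (p * m') Q ℤ_[p]) • x = 0 → x = 0)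
    (H₂ : ∀ x : M₂, Nn p m' Q • x = 0 → ∃ y, x = gg p m' Q • y - y)
    (f : M₁ →ₗ[Lam (p * m') Q ℤ_[p]] M₂) (hf : Injective f)
    (hfin : (LinearMap.range f).toAddSubgroup.index ≠ 0) :
    ∃ (P : Type) (_ : AddCommGroup P) (_ : Module (Lam (p * m') Q ℤ_[p]) P)
      (Q₀ : Type) (_ : AddCommGroup Q₀) (_ : Module (Lam m' Q ℤ_[p]) Q₀),
      Module.Finite (Lam (p * m') Q ℤ_[p]) P ∧ Module.Projective (Lam (p * m') Q ℤ_[p]) P ∧
      Module.Finite (Lam m' Q ℤ_[p]) Q₀ ∧ Module.Projective (Lam m' Q ℤ_[p]) Q₀ ∧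
      (∃ e : M₁ ≃+ P × Q₀, ∀ (r : Lam (p * m') Q ℤ_[p]) (x : M₁),
        e (r • x) = (r • (e x).1, piR p m' Q hpQ r • (e x).2)) ∧
      (∃ e : M₂ ≃+ P × Q₀, ∀ (r : Lam (p * m') Q ℤ_[p]) (x : M₂),
        e (r • x) = (r • (e x).1, piR p m' Q hpQ r • (e x).2)) := by
  obtain ⟨k, l, hkl⟩ := exists_kl (p := p) h
  let _ : Algebra (Lam m' Q ℤ_[p]) (Lam (p * m') Q ℤ_[p]) := (sig hkl).toRingHom.toAlgebra
  let _ : Module (Lam m' Q ℤ_[p]) M₁ := Module.compHom M₁ (sig hkl).toRingHom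
  let _ : Module (Lam m' Q ℤ_[p]) M₂ := Module.compHom M₂ (sig hkl).toRingHom
  have hal : ∀ a : Lam m' Q ℤ_[p],
      algebraMap (Lam m' Q ℤ_[p]) (Lam (p * m') Q ℤ_[p]) a = sig hkl a := fun a => rfl
  have s₁ : IsScalarTower (Lam m' Q ℤ_[p]) (Lam (p * m') Q ℤ_[p]) M₁ :=
    ⟨fun a r x => by
      rw [Algebra.smul_def, mul_smul, hal]
      rfl⟩
  have s₂ : IsScalarTower (Lam m' Q ℤ_[p]) (Lam (p * m') Q ℤ_[p]) M₂ :=
    ⟨fun a r x => by
      rw [Algebra.smul_def, mul_smul, hal]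
      rfl⟩
  have s₃ : IsScalarTower ℤ_[p] (Lam m' Q ℤ_[p]) (Lam (p * m') Q ℤ_[p]) :=
    IsScalarTower.of_algebraMap_eq fun c => by
      rw [hal, AlgHom.commutes]
  have f₀ := finite_lam (p * m') Q ℤ_[p]
  have f₁ : Module.Finite (Lam m' Q ℤ_[p]) (Lam (p * m') Q ℤ_[p]) :=
    Module.Finite.of_restrictScalars_finite ℤ_[p] (Lam m' Q ℤ_[p]) (Lam (p * m') Q ℤ_[p])
  have f₂ : Module.Finite (Lam m' Q ℤ_[p]) M₁ :=
    Module.Finite.trans (Lam (p * m') Q ℤ_[p]) M₁
  have f₃ : Module.Finite (Lam m' Q ℤ_[p]) M₂ :=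
    Module.Finite.trans (Lam (p * m') Q ℤ_[p]) M₂
  have hA := base_unram (p := p) m' Q h
  have hp₁ : ∀ x : M₁, (p : Lam m' Q ℤ_[p]) • x = (p : Lam (p * m') Q ℤ_[p]) • x := by
    intro x
    rw [← algebraMap_smul (Lam (p * m') Q ℤ_[p]) (p : Lam m' Q ℤ_[p]) x, map_natCast]
  have hp₂ : ∀ x : M₂, (p : Lam m' Q ℤ_[p]) • x = (p : Lam (p * m') Q ℤ_[p]) • x := by
    intro x
    rw [← algebraMap_smul (Lam (p * m') Q ℤ_[p]) (p : Lam m' Q ℤ_[p]) x, map_natCast]
  exact split_abs hA gg_pow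
    (fun r => by
      obtain ⟨a, ha⟩ := Th_surjective hkl r
      exact ⟨a, by rw [← ha]; rfl⟩)
    (piR p m' Q hpQ)
    (fun a => piH_sig hpQ hkl a) (piH_gg hpQ) M₁ M₂
    (fun x hx => t₁ x (by rw [← hp₁]; exact hx)) H₁
    (fun x hx => t₂ x (by rw [← hp₂]; exact hx)) H₂ f hf hfin

end lam

section unram

variable {p : ℕ} [Fact p.Prime] {m Q : ℕ} [NeZero m] [NeZero Q]

/-- **(a1)**: `p ∤ m Q`. -/
theorem iso_unram (h : ¬ p ∣ m * Q) (M₁ M₂ : Type) [AddCommGroup M₁]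
    [Module (Lam m Q ℤ_[p]) M₁] [Module.Finite (Lam m Q ℤ_[p]) M₁] [AddCommGroup M₂]
    [Module (Lam m Q ℤ_[p]) M₂] [Module.Finite (Lam m Q ℤ_[p]) M₂]
    (t₁ : ∀ x : M₁, (p : Lam m Q ℤ_[p]) • x = 0 → x = 0)
    (t₂ : ∀ x : M₂, (p : Lam m Q ℤ_[p]) • x = 0 → x = 0)
    (f : M₁ →ₗ[Lam m Q ℤ_[p]] M₂) (hf : Injective f)
    (hfin : (LinearMap.range f).toAddSubgroup.index ≠ 0) :
    Module.Projective (Lam m Q ℤ_[p]) M₁ ∧ Module.Projective (Lam m Q ℤ_[p]) M₂ ∧
      Nonempty (M₁ ≃ₗ[Lam m Q ℤ_[p]] M₂) :=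
  ⟨(base_unram m Q h).projective M₁ t₁, (base_unram m Q h).projective M₂ t₂,
    (base_unram m Q h).iso_of_isog t₂ f hf hfin⟩

/-- **(a2)**: `p ∣ Q`. -/
theorem iso_ram {Q' : ℕ} [NeZero Q'] (h : ¬ p ∣ m * Q') (M₁ M₂ : Type) [AddCommGroup M₁]
    [Module (Lam m (p * Q') ℤ_[p]) M₁] [Module.Finite (Lam m (p * Q') ℤ_[p]) M₁] [AddCommGroup M₂]
    [Module (Lam m (p * Q') ℤ_[p]) M₂] [Module.Finite (Lam m (p * Q') ℤ_[p]) M₂]
    (t₁ : ∀ x : M₁, (p : Lam m (p * Q') ℤ_[p]) • x = 0 → x = 0)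
    (t₂ : ∀ x : M₂, (p : Lam m (p * Q') ℤ_[p]) • x = 0 → x = 0)
    (f : M₁ →ₗ[Lam m (p * Q') ℤ_[p]] M₂) (hf : Injective f)
    (hfin : (LinearMap.range f).toAddSubgroup.index ≠ 0) :
    Module.Projective (Lam m (p * Q') ℤ_[p]) M₁ ∧ Module.Projective (Lam m (p * Q') ℤ_[p]) M₂ ∧
      Nonempty (M₁ ≃ₗ[Lam m (p * Q') ℤ_[p]] M₂) := by
  obtain ⟨w, hw⟩ := piz_dvd_p (p := p) m Q'
  have u₁ : ∀ x : M₁, piz m Q' p • x = 0 → x = 0 := fun x hx =>
    t₁ x (by rw [hw, mul_comm (piz m Q' p) w, mul_smul, hx, smul_zero])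
  have u₂ : ∀ x : M₂, piz m Q' p • x = 0 → x = 0 := fun x hx =>
    t₂ x (by rw [hw, mul_comm (piz m Q' p) w, mul_smul, hx, smul_zero])
  exact ⟨(base_ram m Q' h).projective M₁ u₁, (base_ram m Q' h).projective M₂ u₂,
    (base_ram m Q' h).iso_of_isog u₂ f hf hfin⟩

end unram

end Crest.Agent.R267.P46e_543
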