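import Mathlib
import Crest.Agent.R267.P46e_484
import Crest.Agent.R267.P46e_543
import Crest.Agent.R267.P414_111
import Crest.Agent.R267.P4LocsQ_780

/-!
# S0407, package P4.6c: `LOCSQ` from `HM1` (helper484)
-/

set_option autoImplicit false
set_option linter.unusedSectionVars false

namespace Crest.Agent.R267.P46f_484

open Polynomial Matrix Function Crest.Agent.R267.P4Herm_780 Crest.Agent.R267.P4Lam_780
  Crest.Agent.R267.P4Brg_780 Crest.Agent.R267.P4Defs_780 Crest.Agent.R267.P46c_484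
  Crest.Agent.R267.P46c_543 Crest.Agent.R267.P46d_543 Crest.Agent.R267.P46e_543
  Crest.Agent.R267.P46e_484

/-! ### `Lam m Q ℤ_[p]` satisfies the hypotheses of `P47` -/

section loc

variable {p : ℕ} [Fact p.Prime]

theorem loc_lam (m Q : ℕ) [NeZero m] [NeZero Q] (hQ : GoodQ Q) :
    Loc (Ideal.span {(p : Lam m Q ℤ_[p])}).radical := by
  set I : Ideal (Lam m Q ℤ_[p]) := Ideal.span {(p : Lam m Q ℤ_[p])} with hI
  have hfin : Module.Finite ℤ_[p] (Lam m Q ℤ_[p]) := finite_lam m Q ℤ_[p]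
  have hnoeth : IsNoetherianRing (Lam m Q ℤ_[p]) := IsNoetherianRing.of_finite ℤ_[p] _
  have hIJ : I ≤ I.radical := Ideal.le_radical
  refine ⟨good hQ.npp hQ.odd, ?_, ?_, ?_, ?_⟩
  · intro x hx
    obtain ⟨n, hn⟩ := hx
    refine ⟨n, ?_⟩
    rw [Ideal.mem_span_singleton'] at hn ⊢
    obtain ⟨a, ha⟩ := hn
    refine ⟨star a, ?_⟩
    rw [← star_pow, ← ha, star_mul', star_natCast]
  · obtain ⟨k, hk⟩ := Ideal.exists_radical_pow_le_of_fg I (IsNoetherian.noetherian _)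
    have := isAdicComplete_padic (p := p) (Lam m Q ℤ_[p])
    exact isAdicComplete_of_le hIJ hk
  · exact finite_quot_p _ _ (hIJ (Ideal.mem_span_singleton_self _))
  · exact (Ideal.isRadical_iff_quotient_reduced _).1 (Ideal.radical_isRadical I)

theorem normQuot_lam {m' Q : ℕ} [NeZero m'] [NeZero Q] (h : ¬ p ∣ m' * Q) (hpQ : p.Coprime Q) :
    NormQuot (piR p m' Q hpQ) (Nn p m' Q) := by
  obtain ⟨k, l, hkl⟩ := exists_kl h
  refine ⟨?_, ?_, star_Nn, ?_, ?_⟩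
  · intro a
    exact ⟨sig hkl a, piH_sig hpQ hkl a⟩
  · intro z
    exact star_piH hpQ z
  · intro z
    exact Nn_mul_eq_zero hpQ hkl z
  · intro z hz
    exact mem_Nn hpQ hkl z hz

theorem Nn_mem (m' Q : ℕ) [NeZero m'] [NeZero Q] :
    Nn p m' Q ∈ (Ideal.span {(p : Lam (p * m') Q ℤ_[p])}).radical := by
  refine ⟨2, ?_⟩
  rw [Ideal.mem_span_singleton']
  refine ⟨Nn p m' Q, ?_⟩
  have h1 : ∀ i : ℕ, gg p m' Q ^ i * Nn p m' Q = Nn p m' Q := by
    intro i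
    induction i with
    | zero => rw [pow_zero, one_mul]
    | succ i ih => rw [pow_succ, mul_assoc, gg_mul_Nn, ih]
  have h2 : Nn p m' Q * Nn p m' Q = (p : Lam (p * m') Q ℤ_[p]) * Nn p m' Q := by
    conv_lhs => rw [show Nn p m' Q * Nn p m' Q =
      (∑ i ∈ Finset.range p, gg p m' Q ^ i) * Nn p m' Q from rfl]
    rw [Finset.sum_mul, Finset.sum_congr rfl fun i _ => h1 i, Finset.sum_const,
      Finset.card_range, nsmul_eq_mul]
  rw [pow_two, h2]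
  exact mul_comm _ _

end loc

/-! ### glue -/

section glue

variable {p : ℕ} [Fact p.Prime] {m Q : ℕ} [NeZero m] [NeZero Q] {ι κ : Type} [Fintype ι]
  [DecidableEq ι] [Fintype κ] [DecidableEq κ]

/-- the `ℤ_p`-matrices of an integral pair. -/
theorem matLT_p {A T : Matrix ι ι ℤ} (hA : MatLT m Q A T) :
    MatLT m Q (A.map (Int.castRingHom ℤ_[p])) (T.map (Int.castRingHom ℤ_[p])) := hA.map _

theorem finite_mod {T : Module.End ℤ_[p] (ι → ℤ_[p])} (hT : aeval T (Psi m Q ℤ_[p]) = 0) :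
    @Module.Finite (Lam m Q ℤ_[p]) (ι → ℤ_[p]) _ _ (lamModule T hT) := by
  let _ := lamModule T hT
  have := isScalarTower' T hT
  exact Module.Finite.of_restrictScalars_finite ℤ_[p] (Lam m Q ℤ_[p]) (ι → ℤ_[p])

theorem tf_mod {T : Module.End ℤ_[p] (ι → ℤ_[p])} (hT : aeval T (Psi m Q ℤ_[p]) = 0) :
    letI := lamModule T hT
    ∀ x : ι → ℤ_[p], (p : Lam m Q ℤ_[p]) • x = 0 → x = 0 := by
  let _ := lamModule T hT
  have := isScalarTower' T hT
  intro x hx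
  have h1 : (p : Lam m Q ℤ_[p]) • x = (p : ℤ_[p]) • x := by
    rw [← algebraMap_smul (Lam m Q ℤ_[p]) (p : ℤ_[p]) x, map_natCast]
  rw [h1] at hx
  ext i
  have h2 := congrFun hx i
  rw [Pi.smul_apply, Pi.zero_apply, smul_eq_mul] at h2
  rcases mul_eq_zero.1 h2 with h3 | h3
  · exact absurd h3 p_ne_zero
  · rw [h3]; rfl

/-- the isogeny as a `Lam`-linear map. -/
theorem isog_lam {A T : Matrix ι ι ℤ} {B S : Matrix κ κ ℤ} (hA : MatLT m Q A T)
    (hB : MatLT m Q B S) (h : CongOver ℚ A B) :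
    letI := lamModule (Matrix.toLin' (S.map (Int.castRingHom ℤ_[p]))) (matLT_p hB).toLT.psi
    letI := lamModule (Matrix.toLin' (T.map (Int.castRingHom ℤ_[p]))) (matLT_p hA).toLT.psi
    ∃ f : (κ → ℤ_[p]) →ₗ[Lam m Q ℤ_[p]] (ι → ℤ_[p]), Injective f ∧
      (LinearMap.range f).toAddSubgroup.index ≠ 0 := by
  let _ := lamModule (Matrix.toLin' (S.map (Int.castRingHom ℤ_[p]))) (matLT_p hB).toLT.psi
  let _ := lamModule (Matrix.toLin' (T.map (Int.castRingHom ℤ_[p]))) (matLT_p hA).toLT.psi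
  obtain ⟨f, hf, hi, hc⟩ := isog_lin p hA hB h
  refine ⟨{ f with map_smul' := smul_comm_of _ _ f hc }, hf, ?_⟩
  intro h0
  apply hi
  rw [← h0]
  congr 1

/-- case `p ∤ m Q`. -/
theorem cong_unram {A T : Matrix ι ι ℤ} {B S : Matrix κ κ ℤ} (hA : MatLT m Q A T)
    (hB : MatLT m Q B S) (hQ : GoodQ Q) (hm : Odd m) (hp : ¬ p ∣ m * Q) (h : CongOver ℚ A B) :
    CongOver ℤ_[p] A B := by
  let i1 := lamModule (Matrix.toLin' (S.map (Int.castRingHom ℤ_[p]))) (matLT_p hB).toLT.psi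
  let i2 := lamModule (Matrix.toLin' (T.map (Int.castRingHom ℤ_[p]))) (matLT_p hA).toLT.psi
  obtain ⟨f, hf, hi⟩ := isog_lam (p := p) hA hB h
  have f1 : @Module.Finite (Lam m Q ℤ_[p]) (κ → ℤ_[p]) _ _ i1 := finite_mod _
  have f2 : @Module.Finite (Lam m Q ℤ_[p]) (ι → ℤ_[p]) _ _ i2 := finite_mod _
  obtain ⟨h1, -, h3⟩ := iso_unram hp (κ → ℤ_[p]) (ι → ℤ_[p]) (tf_mod _) (tf_mod _) f hf hi
  exact cong_of_proj (matLT_p hB) (matLT_p hA) hQ hm (loc_lam m Q hQ) f1 h1 h3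

/-- case `p ∣ Q`. -/
theorem cong_ram {Q' : ℕ} [NeZero Q'] {A T : Matrix ι ι ℤ} {B S : Matrix κ κ ℤ}
    (hA : MatLT m (p * Q') A T) (hB : MatLT m (p * Q') B S) (hQ : GoodQ (p * Q')) (hm : Odd m)
    (hp : ¬ p ∣ m * Q') (h : CongOver ℚ A B) :
    CongOver ℤ_[p] A B := by
  have : NeZero (p * Q') := ⟨Nat.mul_ne_zero (Fact.out : p.Prime).ne_zero (NeZero.ne Q')⟩
  let i1 := lamModule (Matrix.toLin' (S.map (Int.castRingHom ℤ_[p]))) (matLT_p hB).toLT.psi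
  let i2 := lamModule (Matrix.toLin' (T.map (Int.castRingHom ℤ_[p]))) (matLT_p hA).toLT.psi
  obtain ⟨f, hf, hi⟩ := isog_lam (p := p) hA hB h
  have f1 : @Module.Finite (Lam m (p * Q') ℤ_[p]) (κ → ℤ_[p]) _ _ i1 := finite_mod _
  have f2 : @Module.Finite (Lam m (p * Q') ℤ_[p]) (ι → ℤ_[p]) _ _ i2 := finite_mod _
  obtain ⟨h1, -, h3⟩ := iso_ram hp (κ → ℤ_[p]) (ι → ℤ_[p]) (tf_mod _) (tf_mod _) f hf hi
  exact cong_of_proj (matLT_p hB) (matLT_p hA) hQ hm (loc_lam m _ hQ) f1 h1 h3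

/-- `HM1` for a matrix over `ℤ_p`: `ker (1 + g + … + g^(p-1)) = (g - 1) M`. -/
def HM1 (p : ℕ) [Fact p.Prime] (k : ℕ) (T : Matrix ι ι ℤ) : Prop :=
  ∀ x : ι → ℤ_[p], ∑ i ∈ Finset.range p, ((T.map (Int.castRingHom ℤ_[p]) ^ k) ^ i) *ᵥ x = 0 →
    ∃ y, x = (T.map (Int.castRingHom ℤ_[p]) ^ k) *ᵥ y - y

theorem hm1_mod {m' : ℕ} [NeZero m'] {T : Matrix ι ι ℤ}
    (hT : aeval (Matrix.toLin' (T.map (Int.castRingHom ℤ_[p]))) (Psi (p * m') Q ℤ_[p]) = 0)
    (h : HM1 p (m' * Q) T) :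
    letI := lamModule (Matrix.toLin' (T.map (Int.castRingHom ℤ_[p]))) hT
    ∀ x : ι → ℤ_[p], Nn p m' Q • x = 0 → ∃ y, x = gg p m' Q • y - y := by
  let _ := lamModule (Matrix.toLin' (T.map (Int.castRingHom ℤ_[p]))) hT
  have hg : ∀ (k : ℕ) (x : ι → ℤ_[p]), gx (p * m') Q ℤ_[p] ^ k • x =
      (T.map (Int.castRingHom ℤ_[p]) ^ k) *ᵥ x := by
    intro k x
    have h1 := smul_aeval' _ hT (X ^ k) x
    rw [map_pow, map_pow, aeval_X, aeval_X, ← Matrix.toLin'_pow, Matrix.toLin'_apply] at h1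
    exact h1
  intro x hx
  have h2 : ∑ i ∈ Finset.range p, ((T.map (Int.castRingHom ℤ_[p]) ^ (m' * Q)) ^ i) *ᵥ x = 0 := by
    rw [Nn, Finset.sum_smul] at hx
    rw [← hx]
    refine Finset.sum_congr rfl fun i _ => ?_
    rw [gg, ← pow_mul, ← pow_mul, hg]
  obtain ⟨y, hy⟩ := h x h2
  refine ⟨y, ?_⟩
  rw [gg, hg]
  exact hy

/-- case `p ∣ m`. -/
theorem cong_split {m' : ℕ} [NeZero m'] {A T : Matrix ι ι ℤ} {B S : Matrix κ κ ℤ}
    (hA : MatLT (p * m') Q A T) (hB : MatLT (p * m') Q B S) (hQ : GoodQ Q) (hm : Odd (p * m'))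
    (hp : ¬ p ∣ m' * Q) (h : CongOver ℚ A B) (hHA : HM1 p (m' * Q) T) (hHB : HM1 p (m' * Q) S) :
    CongOver ℤ_[p] A B := by
  have : NeZero (p * m') := ⟨Nat.mul_ne_zero (Fact.out : p.Prime).ne_zero (NeZero.ne m')⟩
  have hpQ : p.Coprime Q := (Nat.Prime.coprime_iff_not_dvd Fact.out).2
    fun hd => hp (dvd_mul_of_dvd_right hd _)
  let i1 := lamModule (Matrix.toLin' (S.map (Int.castRingHom ℤ_[p]))) (matLT_p hB).toLT.psi
  let i2 := lamModule (Matrix.toLin' (T.map (Int.castRingHom ℤ_[p]))) (matLT_p hA).toLT.psi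
  obtain ⟨f, hf, hi⟩ := isog_lam (p := p) hA hB h
  have f1 : @Module.Finite (Lam (p * m') Q ℤ_[p]) (κ → ℤ_[p]) _ _ i1 := finite_mod _
  have f2 : @Module.Finite (Lam (p * m') Q ℤ_[p]) (ι → ℤ_[p]) _ _ i2 := finite_mod _
  obtain ⟨P, _, _, Q₀, _, _, a1, a2, a3, a4, ⟨e, he⟩, ⟨e', he'⟩⟩ :=
    split_lam hp hpQ (κ → ℤ_[p]) (ι → ℤ_[p]) (tf_mod _) (hm1_mod _ hHB) (tf_mod _)
      (hm1_mod _ hHA) f hf hi
  exact cong_of_split (matLT_p hB) (matLT_p hA) hQ hm (loc_lam _ Q hQ) (normQuot_lam hp hpQ)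
    (loc_lam m' Q hQ) (Nn_mem m' Q) e he e' he'

end glue

/-! ### the theorem -/

/-- P4.6a in the form used here. -/
def HM1P : Prop :=
  ∀ (L : List (ℕ × ℕ × ℤ)) (u : ℕ) (q : List ℕ), Cert L u → Aux u q → ∀ s j : ℕ,
    ∀ (p : ℕ) [Fact p.Prime] (m' : ℕ), 3 * u = p * m' →
    ∀ T : Matrix (Idx (F L u q s j)) (Idx (F L u q s j)) ℤ,
      sysMat (F L u q s j) * T = (sysMat (F L u q s j))ᵀ → HM1 p (m' * q.prod) T

theorem locsq_of (hHM : HM1P) : P4LocsQ_780.LOCSQ := by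
  intro L u q hC hA s i _ j _ hc p hp
  obtain ⟨hd1, T, hT1, -, hT3⟩ := P414_111.mono L u q hC hA s i
  obtain ⟨hd2, S, hS1, -, hS3⟩ := P414_111.mono L u q hC hA s j
  have hMA : MatLT (3 * u) q.prod (sysMat (F L u q s i)) T := ⟨hd1, hT1, hT3⟩
  have hMB : MatLT (3 * u) q.prod (sysMat (F L u q s j)) S := ⟨hd2, hS1, hS3⟩
  have hQ := goodQ hA
  have hm := odd_m hC
  have hprime : p.Prime := hp.out
  have hm0 : NeZero (3 * u) := ⟨by have := hC.big; omega⟩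
  have hQ0 : NeZero q.prod := ⟨by have := hQ.two; omega⟩
  by_cases h1 : p ∣ 3 * u
  · obtain ⟨m', hm'⟩ := h1
    have hm1 : NeZero m' := ⟨by
      intro h0
      rw [h0, mul_zero] at hm'
      exact hm0.out hm'⟩
    have h2 : ¬ p ∣ m' * q.prod := by
      intro h
      rcases hprime.dvd_mul.1 h with h3 | h3
      · apply not_sq_dvd_m hC hprime
        rw [hm', pow_two]
        exact Nat.mul_dvd_mul_left p h3
      · exact not_dvd_Q hC hA hprime ⟨m', hm'⟩ h3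
    have hHA := hHM L u q hC hA s i p m' hm' T hT1
    have hHB := hHM L u q hC hA s j p m' hm' S hS1
    rw [hm'] at hMA hMB hm
    exact cong_split hMA hMB hQ hm h2 hc hHA hHB
  · by_cases h2 : p ∣ q.prod
    · obtain ⟨Q', hQ'⟩ := h2
      have hQ1 : NeZero Q' := ⟨by
        intro h0
        rw [h0, mul_zero] at hQ'
        exact hQ0.out hQ'⟩
      have h3 : ¬ p ∣ 3 * u * Q' := by
        intro h
        rcases hprime.dvd_mul.1 h with h4 | h4
        · exact h1 h4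
        · apply not_sq_dvd_Q hA hprime
          rw [hQ', pow_two]
          exact Nat.mul_dvd_mul_left p h4
      rw [hQ'] at hMA hMB hQ
      exact cong_ram hMA hMB hQ hm h3 hc
    · refine cong_unram hMA hMB hQ hm ?_ hc
      intro h
      rcases hprime.dvd_mul.1 h with h4 | h4
      · exact h1 h4
      · exact h2 h4

end Crest.Agent.R267.P46f_484
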