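import Mathlib

/-!
# S0407, package P4.6a: dimension shift modulo a polynomial (helper484)

`𝒜` commutative ring, `V` a module, `γ` an endomorphism, `N = 1 + γ + … + γ^(p-1)`,
`W f = f V`.  `E0 p f γ` : `ker N = im (γ - 1)` on `V / f V`;  `E1 p f γ` : `ker (γ - 1) = im N`.
-/

set_option autoImplicit false

namespace Crest.Agent.R267.P46g_484

section Abs

variable {𝒜 V : Type*} [CommRing 𝒜] [AddCommGroup V] [Module 𝒜 V]

/-- the norm. -/
def Nm (p : ℕ) (γ : V →ₗ[𝒜] V) : V →ₗ[𝒜] V := ∑ i ∈ Finset.range p, γ ^ i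

theorem Nm_apply (p : ℕ) (γ : V →ₗ[𝒜] V) (x : V) :
    Nm p γ x = ∑ i ∈ Finset.range p, (γ ^ i) x := by
  simp [Nm]

theorem Nm_comm (p : ℕ) (γ : V →ₗ[𝒜] V) (x : V) : Nm p γ (γ x - x) = (γ ^ p) x - x := by
  have h1 : Nm p γ * (γ - 1) = γ ^ p - 1 := geom_sum_mul γ p
  have h2 := LinearMap.congr_fun h1 x
  simpa using h2

theorem Nm_comm' (p : ℕ) (γ : V →ₗ[𝒜] V) (x : V) : γ (Nm p γ x) - Nm p γ x = (γ ^ p) x - x := by
  have h1 : (γ - 1) * Nm p γ = γ ^ p - 1 := mul_geom_sum γ p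
  have h2 := LinearMap.congr_fun h1 x
  simpa using h2

/-- `f V`. -/
def W (V : Type*) [AddCommGroup V] [Module 𝒜 V] (f : 𝒜) : Submodule 𝒜 V :=
  LinearMap.range (f • (LinearMap.id : V →ₗ[𝒜] V))

theorem mem_W {f : 𝒜} {x : V} : x ∈ W V f ↔ ∃ z, x = f • z := by
  unfold W
  rw [LinearMap.mem_range]
  exact ⟨fun ⟨z, hz⟩ => ⟨z, hz.symm⟩, fun ⟨z, hz⟩ => ⟨z, hz.symm⟩⟩

theorem smul_mem_W (f : 𝒜) (x : V) : f • x ∈ W V f := mem_W.2 ⟨x, rfl⟩

theorem map_mem_W {f : 𝒜} {x : V} (γ : V →ₗ[𝒜] V) (hx : x ∈ W V f) : γ x ∈ W V f := by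
  obtain ⟨z, rfl⟩ := mem_W.1 hx
  rw [map_smul]
  exact smul_mem_W _ _

/-- `Ĥ^{-1} = 0` modulo `f`. -/
def E0 (p : ℕ) (f : 𝒜) (γ : V →ₗ[𝒜] V) : Prop :=
  ∀ x, Nm p γ x ∈ W V f → ∃ y, x - (γ y - y) ∈ W V f

/-- `Ĥ^0 = 0` modulo `f`. -/
def E1 (p : ℕ) (f : 𝒜) (γ : V →ₗ[𝒜] V) : Prop :=
  ∀ x, γ x - x ∈ W V f → ∃ y, x - Nm p γ y ∈ W V f

variable {p : ℕ} {f f' : 𝒜} {γ : V →ₗ[𝒜] V}

theorem shift0 (hf : ∀ v : V, f • v = 0 → v = 0)
    (hp : ∀ x, (γ ^ p) x - x ∈ W V (f * f')) (hB : E0 p (f * f') γ) (h : E1 p f' γ) :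
    E0 p f γ := by
  intro x hx
  obtain ⟨z, hz⟩ := mem_W.1 hx
  obtain ⟨s, hs⟩ := mem_W.1 (hp x)
  have h1 : γ z - z ∈ W V f' := by
    refine mem_W.2 ⟨s, ?_⟩
    have h2 : f • (γ z - z - f' • s) = 0 := by
      rw [smul_sub, smul_sub, ← map_smul, ← hz, Nm_comm', hs, smul_smul, sub_self]
    exact sub_eq_zero.1 (hf _ h2)
  obtain ⟨w, hw⟩ := h z h1
  obtain ⟨w', hw'⟩ := mem_W.1 hw
  have h3 : Nm p γ (x - f • w) ∈ W V (f * f') := by
    refine mem_W.2 ⟨w', ?_⟩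
    rw [map_sub, map_smul, hz, ← smul_sub, hw', smul_smul]
  obtain ⟨y, hy⟩ := hB _ h3
  obtain ⟨t, ht⟩ := mem_W.1 hy
  refine ⟨y, mem_W.2 ⟨w + f' • t, ?_⟩⟩
  rw [smul_add, smul_smul, ← ht]
  abel

theorem shift1 (hf : ∀ v : V, f • v = 0 → v = 0)
    (hp : ∀ x, (γ ^ p) x - x ∈ W V (f * f')) (hB : E1 p (f * f') γ) (h : E0 p f' γ) :
    E1 p f γ := by
  intro x hx
  obtain ⟨z, hz⟩ := mem_W.1 hx
  obtain ⟨s, hs⟩ := mem_W.1 (hp x)
  have h1 : Nm p γ z ∈ W V f' := by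
    refine mem_W.2 ⟨s, ?_⟩
    have h2 : f • (Nm p γ z - f' • s) = 0 := by
      rw [smul_sub, ← map_smul, ← hz, Nm_comm, hs, smul_smul, sub_self]
    exact sub_eq_zero.1 (hf _ h2)
  obtain ⟨w, hw⟩ := h z h1
  obtain ⟨w', hw'⟩ := mem_W.1 hw
  have h3 : γ (x - f • w) - (x - f • w) ∈ W V (f * f') := by
    refine mem_W.2 ⟨w', ?_⟩
    rw [← smul_smul, ← hw', map_sub, map_smul, smul_sub, ← hz, smul_sub]
    abel
  obtain ⟨y, hy⟩ := hB _ h3
  obtain ⟨t, ht⟩ := mem_W.1 hy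
  refine ⟨y, mem_W.2 ⟨w + f' • t, ?_⟩⟩
  rw [smul_add, smul_smul, ← ht]
  abel

theorem pow_sub_mem {x : V} (h : γ x - x ∈ W V f) (n : ℕ) : (γ ^ n) x - x ∈ W V f := by
  induction n with
  | zero => simp
  | succ n ih =>
    have h1 : (γ ^ (n + 1)) x - x = γ ((γ ^ n) x - x) + (γ x - x) := by
      rw [pow_succ', Module.End.mul_apply, map_sub]; abel
    rw [h1]
    exact add_mem (map_mem_W γ ih) h

theorem pow_sub_eq (x : V) (n : ℕ) : ∃ y, (γ ^ n) x - x = γ y - y :=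
  ⟨Nm n γ x, (Nm_comm' n γ x).symm⟩

/-- cohomological triviality from a decomposition of the identity. -/
theorem ct1 (h : V →+ V) (hW : ∀ x ∈ W V f, h x ∈ W V f)
    (hid : ∀ x, ∑ t ∈ Finset.range p, (γ ^ t) (h ((γ ^ (p - t)) x)) - x ∈ W V f) :
    E1 p f γ := by
  intro x hx
  refine ⟨h x, ?_⟩
  have h1 : ∑ t ∈ Finset.range p, (γ ^ t) (h ((γ ^ (p - t)) x)) - Nm p γ (h x) ∈ W V f := by
    rw [Nm_apply, ← Finset.sum_sub_distrib]
    refine Submodule.sum_mem _ fun t _ => ?_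
    rw [← map_sub, ← map_sub]
    exact map_mem_W (γ ^ t) (hW _ (pow_sub_mem hx _))
  have h2 := sub_mem h1 (hid x)
  have h3 : ∑ t ∈ Finset.range p, (γ ^ t) (h ((γ ^ (p - t)) x)) - Nm p γ (h x) -
      (∑ t ∈ Finset.range p, (γ ^ t) (h ((γ ^ (p - t)) x)) - x) = x - Nm p γ (h x) := by abel
  rwa [h3] at h2

theorem sum_reflect (x : V) :
    ∑ t ∈ Finset.range p, (γ ^ (p - t)) x = γ (Nm p γ x) := by
  rw [Nm_apply, map_sum, ← Finset.sum_range_reflect]
  refine Finset.sum_congr rfl fun t ht => ?_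
  have h1 : t < p := Finset.mem_range.1 ht
  rw [← Module.End.mul_apply, ← pow_succ', show p - (p - 1 - t) = t + 1 by omega]

theorem ct0 (h : V →+ V) (hW : ∀ x ∈ W V f, h x ∈ W V f)
    (hid : ∀ x, ∑ t ∈ Finset.range p, (γ ^ t) (h ((γ ^ (p - t)) x)) - x ∈ W V f) :
    E0 p f γ := by
  intro x hx
  choose Y hY using fun t => pow_sub_eq (γ := γ) (h ((γ ^ (p - t)) x)) t
  refine ⟨∑ t ∈ Finset.range p, Y t, ?_⟩
  have h1 : ∑ t ∈ Finset.range p, (γ ^ t) (h ((γ ^ (p - t)) x)) =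
      h (γ (Nm p γ x)) + (γ (∑ t ∈ Finset.range p, Y t) - ∑ t ∈ Finset.range p, Y t) := by
    rw [← sum_reflect, map_sum, map_sum, ← Finset.sum_sub_distrib, ← Finset.sum_add_distrib]
    refine Finset.sum_congr rfl fun t _ => ?_
    rw [← hY t]; abel
  have h2 := hid x
  rw [h1] at h2
  have h3 : h (γ (Nm p γ x)) ∈ W V f := hW _ (map_mem_W γ hx)
  have h4 := sub_mem h3 h2
  have h5 : h (γ (Nm p γ x)) - (h (γ (Nm p γ x)) +
      (γ (∑ t ∈ Finset.range p, Y t) - ∑ t ∈ Finset.range p, Y t) - x) =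
      x - (γ (∑ t ∈ Finset.range p, Y t) - ∑ t ∈ Finset.range p, Y t) := by abel
  rwa [h5] at h4

end Abs

/-! ### the filter -/

section Filt

open Polynomial

variable {R : Type*} [CommRing R]

/-- the projection onto the monomials `X^i` with `p ∣ i / d`. -/
noncomputable def filt (R : Type*) [CommRing R] (d p : ℕ) : R[X] →ₗ[R] R[X] :=
  Polynomial.lsum fun i => if (i / d) % p = 0 then monomial i else 0

theorem filt_monomial (d p i : ℕ) (a : R) :
    filt R d p (monomial i a) = if (i / d) % p = 0 then monomial i a else 0 := by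
  unfold filt
  rw [Polynomial.lsum_apply, Polynomial.sum_monomial_index]
  · split_ifs <;> rfl
  · simp

theorem filt_X_pow_mul {d p : ℕ} (hd : 0 < d) (f : R[X]) :
    filt R d p ((X ^ (d * p) - 1) * f) = (X ^ (d * p) - 1) * filt R d p f := by
  induction f using Polynomial.induction_on' with
  | add f g hf hg => rw [mul_add, map_add, map_add, hf, hg, mul_add]
  | monomial i a =>
    have h1 : (X ^ (d * p) - 1) * monomial i a =
        (monomial (d * p + i) a : R[X]) - monomial i a := by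
      rw [sub_mul, one_mul, ← C_mul_X_pow_eq_monomial, ← C_mul_X_pow_eq_monomial]
      ring
    rw [h1, map_sub, filt_monomial, filt_monomial]
    have h2 : ((d * p + i) / d) % p = (i / d) % p := by
      rw [Nat.mul_add_div hd, Nat.add_comm, Nat.add_mod_right]
    rw [h2]
    split_ifs
    · rw [h1]
    · simp

theorem count {p e' : ℕ} (hp : p.Prime) (he : ¬ p ∣ e') (a : ℕ) {M : Type*} [AddCommMonoid M]
    (m : M) : ∑ t ∈ Finset.range p, (if (e' * (p - t) + a) % p = 0 then m else 0) = m := by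
  have := Fact.mk hp
  have he' : (e' : ZMod p) ≠ 0 := by
    rwa [Ne, ZMod.natCast_eq_zero_iff]
  have key : ∀ t < p, ((e' * (p - t) + a) % p = 0 ↔ (t : ZMod p) = a / e') := by
    intro t ht
    rw [← Nat.dvd_iff_mod_eq_zero, ← ZMod.natCast_eq_zero_iff]
    push_cast [Nat.cast_sub ht.le]
    rw [eq_div_iff he']
    simp only [CharP.cast_eq_zero, zero_sub]
    constructor
    · intro h; linear_combination -h
    · intro h; linear_combination -h
  set t0 := ((a : ZMod p) / e').val with ht0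
  have ht0p : t0 < p := ZMod.val_lt _
  rw [Finset.sum_eq_single t0]
  · rw [if_pos]
    rw [key t0 ht0p, ht0, ZMod.natCast_zmod_val]
  · intro t ht hne
    rw [if_neg]
    intro h
    rw [key t (Finset.mem_range.1 ht)] at h
    apply hne
    rw [ht0, ← h, ZMod.val_natCast, Nat.mod_eq_of_lt (Finset.mem_range.1 ht)]
  · intro h
    exact absurd (Finset.mem_range.2 ht0p) h

theorem filt_sum {d p e' : ℕ} (hd : 0 < d) (hp : p.Prime) (he : ¬ p ∣ e') (f : R[X]) :
    ∑ t ∈ Finset.range p, X ^ (d * e' * t) * filt R d p (X ^ (d * e' * (p - t)) * f) =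
      X ^ (d * e' * p) * f := by
  induction f using Polynomial.induction_on' with
  | add f g hf hg =>
    simp only [mul_add, map_add, Finset.sum_add_distrib]
    rw [hf, hg]
  | monomial i a =>
    have h1 : ∀ n : ℕ, (X : R[X]) ^ n * monomial i a = monomial (n + i) a := by
      intro n
      rw [← C_mul_X_pow_eq_monomial, ← C_mul_X_pow_eq_monomial]
      ring
    rw [h1]
    have h2 : ∀ t ∈ Finset.range p,
        (X : R[X]) ^ (d * e' * t) * filt R d p (X ^ (d * e' * (p - t)) * monomial i a) =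
        if (e' * (p - t) + i / d) % p = 0 then monomial (d * e' * p + i) a else 0 := by
      intro t ht
      have ht' : t < p := Finset.mem_range.1 ht
      rw [h1, filt_monomial]
      have h3 : (d * e' * (p - t) + i) / d = e' * (p - t) + i / d := by
        rw [mul_assoc, Nat.mul_add_div hd]
      rw [h3]
      split_ifs
      · rw [← C_mul_X_pow_eq_monomial, ← C_mul_X_pow_eq_monomial]
        have h4 : d * e' * p = d * e' * t + d * e' * (p - t) := by
          rw [← Nat.mul_add]; congr 1; omega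
        rw [h4]
        ring
      · rw [mul_zero]
    rw [Finset.sum_congr rfl h2]
    exact count hp he _ _

end Filt

end Crest.Agent.R267.P46g_484
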