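import Mathlib
import Crest.Agent.R267.P46g_484
import Crest.Agent.R267.P46f_484
import Crest.Agent.R267.P45e_235
import Crest.Agent.R267.P411_61

/-!
# S0407, package P4.6a: `HM1P` (helper484)

`ker N = im (T^k - 1)` over `ℤ_p` for the monodromy `T` of `F`.
-/

set_option autoImplicit false
set_option linter.unusedSectionVars false

namespace Crest.Agent.R267.P46h_484

open Polynomial Matrix Crest.Agent.R267.P46g_484 Crest.Agent.R267.P4Defs_780
  Crest.Agent.R267.P41_339
open scoped Kronecker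

/-! ### the module `J → R[X]` with `γ = X^e G` -/

section Gam

variable {R : Type*} [CommRing R] {J : Type*} [Fintype J] [DecidableEq J]

/-- `X^e G`. -/
noncomputable def gam (e : ℕ) (G : Matrix J J R) : (J → R[X]) →ₗ[R[X]] (J → R[X]) :=
  (X ^ e : R[X]) • Matrix.toLin' (G.map C)

theorem gam_apply (e : ℕ) (G : Matrix J J R) (x : J → R[X]) :
    gam e G x = (X ^ e : R[X]) • (G.map C *ᵥ x) := by
  simp [gam]

theorem gam_apply' (e : ℕ) (G : Matrix J J R) (x : J → R[X]) :
    gam e G x = G.map C *ᵥ ((X ^ e : R[X]) • x) := by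
  rw [gam_apply, Matrix.mulVec_smul]

theorem gam_pow (e : ℕ) (G : Matrix J J R) (n : ℕ) :
    gam e G ^ n = gam (e * n) (G ^ n) := by
  unfold gam
  rw [_root_.smul_pow, ← pow_mul, ← Matrix.toLin'_pow]
  congr 2
  exact (Matrix.map_pow G (C : R →+* R[X]) n).symm

theorem gam_pow_p {e p : ℕ} {G : Matrix J J R} (hG : G ^ p = 1) (x : J → R[X]) :
    (gam e G ^ p) x = (X ^ (e * p) : R[X]) • x := by
  rw [gam_pow, hG, gam_apply, Matrix.map_one _ (map_zero C) (map_one C), Matrix.one_mulVec]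

theorem X_pow_sub_one_dvd {r n : ℕ} (h : r ∣ n) : (X ^ r - 1 : R[X]) ∣ X ^ n - 1 := by
  obtain ⟨t, rfl⟩ := h
  rw [pow_mul]
  simpa using sub_dvd_pow_sub_pow (X ^ r : R[X]) 1 t

theorem hp_W {e p r : ℕ} {G : Matrix J J R} (hG : G ^ p = 1) (hr : r ∣ e * p) (x : J → R[X]) :
    (gam e G ^ p) x - x ∈ W (J → R[X]) (X ^ r - 1 : R[X]) := by
  obtain ⟨g, hg⟩ := X_pow_sub_one_dvd (R := R) hr
  refine mem_W.2 ⟨g • x, ?_⟩
  rw [gam_pow_p hG, smul_smul, ← hg, sub_smul, one_smul]

/-- componentwise filter. -/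
noncomputable def filtV (d p : ℕ) : (J → R[X]) →+ (J → R[X]) where
  toFun x := fun j => filt R d p (x j)
  map_zero' := by ext1 j; simp
  map_add' x y := by ext1 j; simp

theorem filtV_mulVec (d p : ℕ) (M : Matrix J J R) (x : J → R[X]) :
    filtV d p (M.map C *ᵥ x) = M.map C *ᵥ filtV d p x := by
  ext1 j
  change filt R d p (∑ i, C (M j i) * x i) = ∑ i, C (M j i) * filt R d p (x i)
  rw [map_sum]
  refine Finset.sum_congr rfl fun i _ => ?_
  rw [← smul_eq_C_mul, ← smul_eq_C_mul, map_smul]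

theorem ct_hyp {d p e' : ℕ} (hd : 0 < d) (hp : p.Prime) (he : ¬ p ∣ e') {G : Matrix J J R}
    (hG : G ^ p = 1) :
    (∀ x ∈ W (J → R[X]) (X ^ (d * p) - 1 : R[X]),
      filtV d p x ∈ W (J → R[X]) (X ^ (d * p) - 1 : R[X])) ∧
    (∀ x : J → R[X], ∑ t ∈ Finset.range p,
      ((gam (d * e') G) ^ t) (filtV d p (((gam (d * e') G) ^ (p - t)) x)) - x ∈
        W (J → R[X]) (X ^ (d * p) - 1 : R[X])) := by
  constructor
  · intro x hx
    obtain ⟨z, rfl⟩ := mem_W.1 hx
    refine mem_W.2 ⟨filtV d p z, ?_⟩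
    ext1 j
    exact filt_X_pow_mul hd (z j)
  · intro x
    have h1 : ∀ t ∈ Finset.range p,
        ((gam (d * e') G) ^ t) (filtV d p (((gam (d * e') G) ^ (p - t)) x)) =
        fun j => (X ^ (d * e' * t) * filt R d p (X ^ (d * e' * (p - t)) * x j) : R[X]) := by
      intro t ht
      have ht' : t < p := Finset.mem_range.1 ht
      rw [gam_pow, gam_pow, gam_apply' (d * e' * (p - t)), gam_apply (d * e' * t), filtV_mulVec,
        Matrix.mulVec_mulVec, ← Matrix.map_mul, ← pow_add,
        show t + (p - t) = p by omega, hG, Matrix.map_one _ (map_zero C) (map_one C),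
        Matrix.one_mulVec]
      rfl
    rw [Finset.sum_congr rfl h1]
    have h2 : (∑ t ∈ Finset.range p, fun j : J =>
        (X ^ (d * e' * t) * filt R d p (X ^ (d * e' * (p - t)) * x j) : R[X])) =
        (X ^ (d * e' * p) : R[X]) • x := by
      ext1 j
      rw [Finset.sum_apply]
      exact filt_sum hd hp he (x j)
    rw [h2]
    obtain ⟨g, hg⟩ := X_pow_sub_one_dvd (R := R) (r := d * p) (n := d * e' * p)
      ⟨e', by ring⟩
    refine mem_W.2 ⟨g • x, ?_⟩
    rw [smul_smul, ← hg, sub_smul, one_smul]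

theorem split_r {r e p : ℕ} (hr : 0 < r) (hp : p.Prime) (h1 : r ∣ e * p) (h2 : ¬ r ∣ e) :
    ∃ d e', 0 < d ∧ r = d * p ∧ e = d * e' ∧ ¬ p ∣ e' := by
  have hg : 0 < Nat.gcd r e := Nat.gcd_pos_of_pos_left _ hr
  obtain ⟨r', hr'⟩ := Nat.gcd_dvd_left r e
  obtain ⟨e', he'⟩ := Nat.gcd_dvd_right r e
  have hco : Nat.Coprime r' e' := by
    have h := Nat.coprime_div_gcd_div_gcd hg
    have h3 : r / Nat.gcd r e = r' := by
      conv_lhs => rw [hr']
      rw [← hr']
      exact Nat.div_eq_of_eq_mul_right hg hr'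
    have h4 : e / Nat.gcd r e = e' := Nat.div_eq_of_eq_mul_right hg he'
    rwa [h3, h4] at h
  have h5 : r' ∣ p := by
    have h6 : Nat.gcd r e * r' ∣ Nat.gcd r e * (e' * p) := by
      rw [← hr', ← mul_assoc, ← he']; exact h1
    have h7 := Nat.dvd_of_mul_dvd_mul_left hg h6
    exact hco.dvd_of_dvd_mul_left h7
  rcases (Nat.dvd_prime hp).1 h5 with h6 | h6
  · exfalso
    apply h2
    rw [h6, mul_one] at hr'
    rw [hr']
    exact Nat.gcd_dvd_right r e
  · refine ⟨Nat.gcd r e, e', hg, ?_, he', ?_⟩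
    · rw [← h6]; exact hr'
    · rw [h6] at hco
      exact hp.coprime_iff_not_dvd.1 hco

theorem base {r e p : ℕ} (hr : 0 < r) (hp : p.Prime) (h1 : r ∣ e * p) (h2 : ¬ r ∣ e)
    {G : Matrix J J R} (hG : G ^ p = 1) :
    E0 p (X ^ r - 1 : R[X]) (gam e G) ∧ E1 p (X ^ r - 1 : R[X]) (gam e G) := by
  obtain ⟨d, e', hd, rfl, rfl, he⟩ := split_r hr hp h1 h2
  obtain ⟨hA, hB⟩ := ct_hyp (R := R) hd hp he hG
  exact ⟨ct0 _ hA hB, ct1 _ hA hB⟩

end Gam

/-! ### matrices -/

section ME

variable {R : Type*} [CommRing R] {J : Type*} [Fintype J] [DecidableEq J]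

/-- `Ĥ^{-1} = 0` for a matrix. -/
def ME0 (p : ℕ) (A : Matrix J J R) : Prop :=
  ∀ x : J → R, ∑ i ∈ Finset.range p, (A ^ i) *ᵥ x = 0 → ∃ y, x = A *ᵥ y - y

/-- `Ĥ^0 = 0` for a matrix. -/
def ME1 (p : ℕ) (A : Matrix J J R) : Prop :=
  ∀ x : J → R, A *ᵥ x = x → ∃ y, x = ∑ i ∈ Finset.range p, (A ^ i) *ᵥ y

/-- both, by parity. -/
def ME (b : Bool) (p : ℕ) (A : Matrix J J R) : Prop := if b then ME1 p A else ME0 p A

/-- a presentation of the module of `A`. -/
structure Pres (V : Type*) [AddCommGroup V] [Module R[X] V] (γ : V →ₗ[R[X]] V) (f : R[X])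
    (A : Matrix J J R) where
  /-- the map -/
  toHom : V →+ (J → R)
  surj : ∀ y, ∃ x, toHom x = y
  ker : ∀ x, toHom x = 0 ↔ x ∈ W V f
  comm : ∀ x, toHom (γ x) = A *ᵥ toHom x

variable {V : Type*} [AddCommGroup V] [Module R[X] V] {γ : V →ₗ[R[X]] V} {f : R[X]}
  {A : Matrix J J R}

theorem Pres.comm_pow (P : Pres V γ f A) (n : ℕ) (x : V) :
    P.toHom ((γ ^ n) x) = (A ^ n) *ᵥ P.toHom x := by
  induction n with
  | zero => simp
  | succ n ih =>
    rw [pow_succ', Module.End.mul_apply, P.comm, ih, Matrix.mulVec_mulVec, ← pow_succ']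

theorem Pres.comm_Nm (P : Pres V γ f A) (p : ℕ) (x : V) :
    P.toHom (Nm p γ x) = ∑ i ∈ Finset.range p, (A ^ i) *ᵥ P.toHom x := by
  rw [Nm_apply, map_sum]
  exact Finset.sum_congr rfl fun i _ => P.comm_pow i x

theorem Pres.e0 (P : Pres V γ f A) {p : ℕ} : E0 p f γ ↔ ME0 p A := by
  constructor
  · intro h x hx
    obtain ⟨v, rfl⟩ := P.surj x
    rw [← P.comm_Nm, P.ker] at hx
    obtain ⟨y, hy⟩ := h v hx
    refine ⟨P.toHom y, ?_⟩
    rw [← P.ker, map_sub, map_sub, P.comm, sub_eq_zero] at hy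
    exact hy
  · intro h v hv
    rw [← P.ker, P.comm_Nm] at hv
    obtain ⟨y, hy⟩ := h _ hv
    obtain ⟨w, rfl⟩ := P.surj y
    refine ⟨w, ?_⟩
    rw [← P.ker, map_sub, map_sub, P.comm, sub_eq_zero]
    exact hy

theorem Pres.e1 (P : Pres V γ f A) {p : ℕ} : E1 p f γ ↔ ME1 p A := by
  constructor
  · intro h x hx
    obtain ⟨v, rfl⟩ := P.surj x
    rw [← P.comm, ← sub_eq_zero, ← map_sub, P.ker] at hx
    obtain ⟨y, hy⟩ := h v hx
    refine ⟨P.toHom y, ?_⟩
    rw [← P.ker, map_sub, P.comm_Nm, sub_eq_zero] at hy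
    exact hy
  · intro h v hv
    rw [← P.ker, map_sub, P.comm, sub_eq_zero] at hv
    obtain ⟨y, hy⟩ := h _ hv
    obtain ⟨w, rfl⟩ := P.surj y
    refine ⟨w, ?_⟩
    rw [← P.ker, map_sub, P.comm_Nm, sub_eq_zero]
    exact hy

end ME

/-! ### one chain -/

section Chain

variable {R : Type*} [CommRing R] {J : Type*} [Fintype J] [DecidableEq J]

/-- the companion matrix over `R`. -/
noncomputable def Cr (R : Type*) [CommRing R] (c : List ℕ) : Matrix (Fin (mu c)) (Fin (mu c)) R :=
  (compMat c).map (Int.castRingHom R)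

/-- `phi` over `R`. -/
noncomputable def phr (R : Type*) [CommRing R] (c : List ℕ) : R[X] :=
  (phi c).map (Int.castRingHom R)

theorem phr_monic {c : List ℕ} (h : Good c) : (phr R c).Monic := (basic h).monic.map _

theorem Cr_pow (c : List ℕ) (n : ℕ) : Cr R c ^ n = (compMat c ^ n).map (Int.castRingHom R) :=
  (Matrix.map_pow (compMat c) (Int.castRingHom R) n).symm

theorem aeval_phr {c : List ℕ} (h : Good c) : aeval (Cr R c) (phr R c) = 0 := by
  have h1 : ∀ g : ℤ[X], aeval (Cr R c) (g.map (Int.castRingHom R)) =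
      (aeval (compMat c) g).map (Int.castRingHom R) := by
    intro g
    induction g using Polynomial.induction_on' with
    | add g g' hg hg' =>
      rw [Polynomial.map_add, map_add, map_add, hg, hg',
        Matrix.map_add _ (fun a b => map_add (Int.castRingHom R) a b)]
    | monomial n a =>
      rw [Polynomial.map_monomial, aeval_monomial, aeval_monomial, Cr_pow]
      ext i j
      rw [← Algebra.smul_def, ← Algebra.smul_def, Matrix.smul_apply, Matrix.map_apply,
        Matrix.map_apply, Matrix.smul_apply, smul_eq_mul, smul_eq_mul, map_mul]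
  unfold phr
  rw [h1, comp_phi h]
  ext i j
  simp

variable (R) in
/-- first basis vector. -/
def b0 {c : List ℕ} (h0 : 0 < mu c) : Fin (mu c) → R := Pi.single ⟨0, h0⟩ 1

theorem Cr_pow_b0 {c : List ℕ} (h0 : 0 < mu c) {n : ℕ} (hn : n < mu c) :
    (Cr R c ^ n) *ᵥ b0 R h0 = Pi.single (⟨n, hn⟩ : Fin (mu c)) 1 := by
  have h1 := comp_pow_mulVec_zero h0 hn
  rw [Cr_pow]
  ext i
  have h2 := congrArg (Int.castRingHom R) (congrFun h1 i)
  rw [Matrix.mulVec_single_one, Matrix.col_apply] at h2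
  unfold b0
  rw [Matrix.mulVec_single_one, Matrix.col_apply, Matrix.map_apply, h2]
  by_cases hi : i = (⟨n, hn⟩ : Fin (mu c))
  · subst hi; simp
  · rw [Pi.single_eq_of_ne hi, Pi.single_eq_of_ne hi, map_zero]

/-- value of a polynomial of small degree. -/
theorem aeval_b0 {c : List ℕ} (h0 : 0 < mu c) {g : R[X]} (hg : g.natDegree < mu c)
    (i : Fin (mu c)) : (aeval (Cr R c) g *ᵥ b0 R h0) i = g.coeff i := by
  rw [aeval_eq_sum_range' hg, Matrix.sum_mulVec, Finset.sum_apply]
  rw [Finset.sum_eq_single (i : ℕ)]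
  · rw [Matrix.smul_mulVec, Cr_pow_b0 h0 i.2, Pi.smul_apply, Pi.single_eq_same, smul_eq_mul,
      mul_one]
  · intro n hn hne
    have hn' := Finset.mem_range.1 hn
    rw [Matrix.smul_mulVec, Cr_pow_b0 h0 hn', Pi.smul_apply, Pi.single_eq_of_ne, smul_zero]
    intro e
    exact hne (congrArg Fin.val e).symm
  · intro h
    exact absurd (Finset.mem_range.2 i.2) h

/-- the evaluation. -/
noncomputable def psi {c : List ℕ} (h0 : 0 < mu c) (J : Type*) :
    (J → R[X]) →+ (Fin (mu c) × J → R) where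
  toFun x := fun ij => (aeval (Cr R c) (x ij.2) *ᵥ b0 R h0) ij.1
  map_zero' := by ext1 ij; simp
  map_add' x y := by
    ext1 ij
    simp [Matrix.add_mulVec]

theorem psi_apply {c : List ℕ} (h0 : 0 < mu c) (x : J → R[X]) (ij : Fin (mu c) × J) :
    psi h0 J x ij = (aeval (Cr R c) (x ij.2) *ᵥ b0 R h0) ij.1 := rfl

theorem psi_surj {c : List ℕ} (h0 : 0 < mu c) (y : Fin (mu c) × J → R) :
    ∃ x, psi h0 J x = y := by
  refine ⟨fun j => ∑ i : Fin (mu c), monomial (i : ℕ) (y (i, j)), ?_⟩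
  ext1 ⟨i, j⟩
  rw [psi_apply]
  simp only
  rw [aeval_b0 h0]
  · rw [finsetSum_coeff, Finset.sum_eq_single i]
    · rw [coeff_monomial, if_pos rfl]
    · intro i' _ hne
      rw [coeff_monomial, if_neg]
      intro e; exact hne (Fin.ext e)
    · intro h; exact absurd (Finset.mem_univ _) h
  · refine lt_of_le_of_lt (natDegree_sum_le_of_forall_le (n := mu c - 1) _ _ ?_) (by omega)
    intro i' _
    refine (natDegree_monomial_le _).trans ?_
    have := i'.2
    omega

theorem psi_ker {c : List ℕ} (h : Good c) (h0 : 0 < mu c) (x : J → R[X]) :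
    psi h0 J x = 0 ↔ x ∈ W (J → R[X]) (phr R c) := by
  nontriviality R
  constructor
  · intro hx
    have hm := phr_monic (R := R) h
    refine mem_W.2 ⟨fun j => x j /ₘ phr R c, ?_⟩
    ext1 j
    have h1 := modByMonic_add_div (x j) (phr R c)
    have h2 : x j %ₘ phr R c = 0 := by
      have hdeg : (x j %ₘ phr R c).natDegree < mu c := by
        have h3 : (phr R c).natDegree = mu c := by
          unfold phr
          rw [(basic h).monic.natDegree_map, (basic h).natDegree]
        rw [← h3]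
        refine natDegree_modByMonic_lt _ hm ?_
        intro h4
        rw [h4, natDegree_one] at h3
        omega
      ext n
      rcases lt_or_ge n (mu c) with hn | hn
      · have h5 := congrFun hx (⟨n, hn⟩, j)
        rw [psi_apply] at h5
        simp only at h5
        rw [← h1, map_add, map_mul, aeval_phr h, zero_mul, add_zero, aeval_b0 h0 hdeg] at h5
        simpa using h5
      · rw [coeff_eq_zero_of_natDegree_lt (lt_of_lt_of_le hdeg hn), coeff_zero]
    rw [h2, zero_add] at h1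
    exact h1.symm
  · intro hx
    obtain ⟨z, rfl⟩ := mem_W.1 hx
    ext1 ⟨i, j⟩
    rw [psi_apply]
    simp only [Pi.smul_apply, smul_eq_mul]
    rw [map_mul, aeval_phr h, zero_mul, Matrix.zero_mulVec]
    rfl

theorem psi_comm {c : List ℕ} (h0 : 0 < mu c) (e : ℕ) (G : Matrix J J R) (x : J → R[X]) :
    psi h0 J (gam e G x) = ((Cr R c ^ e) ⊗ₖ G) *ᵥ psi h0 J x := by
  ext1 ⟨i, j⟩
  rw [psi_apply]
  simp only
  rw [gam_apply]
  have h1 : ((X ^ e : R[X]) • (G.map C *ᵥ x)) j = ∑ j', X ^ e * (C (G j j') * x j') := by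
    rw [Pi.smul_apply, smul_eq_mul, Matrix.mulVec, dotProduct, Finset.mul_sum]
    rfl
  rw [h1, map_sum, Matrix.sum_mulVec, Finset.sum_apply, Matrix.mulVec, dotProduct,
    Fintype.sum_prod_type, Finset.sum_comm]
  refine Finset.sum_congr rfl fun j' _ => ?_
  rw [← smul_eq_C_mul, mul_smul_comm, map_smul, map_mul, map_pow, aeval_X, Matrix.smul_mulVec,
    ← Matrix.mulVec_mulVec, Pi.smul_apply, smul_eq_mul, Matrix.mulVec, dotProduct,
    Finset.mul_sum]
  refine Finset.sum_congr rfl fun i' _ => ?_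
  rw [psi_apply, Matrix.kroneckerMap_apply]
  ring

/-- the presentation of `C^e ⊗ G`. -/
noncomputable def pres {c : List ℕ} (h : Good c) (h0 : 0 < mu c) (e : ℕ) (G : Matrix J J R) :
    Pres (J → R[X]) (gam e G) (phr R c) ((Cr R c ^ e) ⊗ₖ G) where
  toHom := psi h0 J
  surj := psi_surj h0
  ker := psi_ker h h0
  comm := psi_comm h0 e G

theorem monic_cancel {f : R[X]} (hf : f.Monic) (v : J → R[X]) (h : f • v = 0) : v = 0 := by
  ext1 j
  have h1 := congrFun h j
  rw [Pi.smul_apply, smul_eq_mul, Pi.zero_apply] at h1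
  refine hf.isRegular.left ?_
  change f * v j = f * 0
  rw [h1, mul_zero]

theorem kron_pow' {m n : Type*} [Fintype m] [DecidableEq m] [Fintype n] [DecidableEq n]
    (A : Matrix m m R) (B : Matrix n n R) (k : ℕ) : (A ⊗ₖ B) ^ k = (A ^ k) ⊗ₖ (B ^ k) := by
  induction k with
  | zero => simp
  | succ k ih => rw [pow_succ, pow_succ, pow_succ, ih, Matrix.mul_kronecker_mul]

theorem one_kron_mulVec {m n : Type*} [Fintype m] [DecidableEq m] [Fintype n] [DecidableEq n]
    (B : Matrix n n R) (x : m × n → R) (i : m) (j : n) :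
    (((1 : Matrix m m R) ⊗ₖ B) *ᵥ x) (i, j) = (B *ᵥ fun j' => x (i, j')) j := by
  rw [Matrix.mulVec, dotProduct, Fintype.sum_prod_type, Finset.sum_eq_single i]
  · rw [Matrix.mulVec, dotProduct]
    refine Finset.sum_congr rfl fun j' _ => ?_
    rw [Matrix.kroneckerMap_apply, Matrix.one_apply_eq, one_mul]
  · intro i' _ hne
    refine Finset.sum_eq_zero fun j' _ => ?_
    rw [Matrix.kroneckerMap_apply, Matrix.one_apply_ne (Ne.symm hne), zero_mul, zero_mul]
  · intro h; exact absurd (Finset.mem_univ _) h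

theorem ME_one {m : Type*} [Fintype m] [DecidableEq m] {b : Bool} {p : ℕ} {G : Matrix J J R}
    (h : ME b p G) : ME b p ((1 : Matrix m m R) ⊗ₖ G) := by
  have hpow : ∀ n, ((1 : Matrix m m R) ⊗ₖ G) ^ n = (1 : Matrix m m R) ⊗ₖ (G ^ n) := by
    intro n
    rw [kron_pow', one_pow]
  cases b with
  | false =>
    change ME0 p _
    change ME0 p G at h
    intro x hx
    have h1 : ∀ i : m, ∃ y : J → R, (fun j => x (i, j)) = G *ᵥ y - y := by
      intro i
      apply h
      ext1 j
      have h2 := congrFun hx (i, j)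
      rw [Finset.sum_apply] at h2 ⊢
      rw [Pi.zero_apply] at h2 ⊢
      rw [← h2]
      refine Finset.sum_congr rfl fun n _ => ?_
      rw [hpow, one_kron_mulVec]
    choose y hy using h1
    refine ⟨fun ij => y ij.1 ij.2, ?_⟩
    ext1 ⟨i, j⟩
    have h3 := congrFun (hy i) j
    rw [Pi.sub_apply, one_kron_mulVec]
    exact h3
  | true =>
    change ME1 p _
    change ME1 p G at h
    intro x hx
    have h1 : ∀ i : m, ∃ y : J → R, (fun j => x (i, j)) =
        ∑ n ∈ Finset.range p, (G ^ n) *ᵥ y := by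
      intro i
      apply h
      ext1 j
      have h2 := congrFun hx (i, j)
      rw [one_kron_mulVec] at h2
      exact h2
    choose y hy using h1
    refine ⟨fun ij => y ij.1 ij.2, ?_⟩
    ext1 ⟨i, j⟩
    have h3 := congrFun (hy i) j
    rw [Finset.sum_apply] at h3 ⊢
    refine h3.trans ?_
    refine Finset.sum_congr rfl fun n _ => ?_
    rw [hpow, one_kron_mulVec]

theorem Cr_pow_one {c : List ℕ} (h : Good c) {e : ℕ} (he : c.prod ∣ e) : Cr R c ^ e = 1 := by
  obtain ⟨t, rfl⟩ := he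
  rw [Cr_pow, pow_mul, comp_pow_prod h, one_pow]
  exact Matrix.map_one _ (map_zero _) (map_one _)

theorem phr_mul {a : ℕ} {l : List ℕ} (h : Good (a :: l)) :
    phr R (a :: l) * phr R l = X ^ (a * l.prod) - 1 := by
  unfold phr
  rw [← Polynomial.map_mul, phi_mul h]
  simp

/-- one shift. -/
theorem ME_shift {a : ℕ} {l : List ℕ} (h : Good (a :: l)) (h0 : 0 < mu (a :: l))
    (h1 : 0 < mu l) {p e : ℕ} (hp : p.Prime) (hd : a * l.prod ∣ e * p) (hn : ¬ a * l.prod ∣ e)
    {G : Matrix J J R} (hG : G ^ p = 1) {b : Bool} (hb : ME (!b) p ((Cr R l ^ e) ⊗ₖ G)) :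
    ME b p ((Cr R (a :: l) ^ e) ⊗ₖ G) := by
  have hr : 0 < a * l.prod := Nat.mul_pos h.head h.tail.prod_pos
  obtain ⟨hB0, hB1⟩ := base (R := R) hr hp hd hn hG
  have hW := hp_W (R := R) hG hd
  rw [← phr_mul h] at hB0 hB1 hW
  have hcan := monic_cancel (J := J) (phr_monic (R := R) h)
  cases b with
  | false =>
    change ME0 p _
    rw [← (pres h h0 e G).e0]
    change ME1 p _ at hb
    rw [← (pres h.tail h1 e G).e1] at hb
    exact shift0 hcan hW hB0 hb
  | true =>
    change ME1 p _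
    rw [← (pres h h0 e G).e1]
    change ME0 p _ at hb
    rw [← (pres h.tail h1 e G).e0] at hb
    exact shift1 hcan hW hB1 hb

/-- number of shifts modulo two. -/
def kap (e : ℕ) : List ℕ → Bool
  | [] => false
  | a :: l => if a * l.prod ∣ e then false else !kap e l

theorem ME_chain {p e : ℕ} (hp : p.Prime) {G : Matrix J J R} (hG : G ^ p = 1) :
    ∀ c : List ℕ, (∀ x ∈ c, 2 ≤ x) → c.prod ∣ e * p → ∀ b : Bool,
      ME (xor b (kap e c)) p G → ME b p ((Cr R c ^ e) ⊗ₖ G)
  | [], _, _, b, hb => by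
      rw [Cr_pow_one (by intro a ha; simp at ha) (by simp)]
      refine ME_one ?_
      simpa [kap] using hb
  | a :: l, h2, hd, b, hb => by
      have hg : Good (a :: l) := Good.of_two h2
      rw [List.prod_cons] at hd
      by_cases hdiv : a * l.prod ∣ e
      · rw [Cr_pow_one hg (by rwa [List.prod_cons])]
        refine ME_one ?_
        simpa [kap, hdiv] using hb
      · have h2' : ∀ x ∈ l, 2 ≤ x := fun x hx => h2 x (List.mem_cons_of_mem _ hx)
        refine ME_shift hg (P411_61.mu_pos_of_two h2) (P411_61.mu_pos_of_two h2') hp hd hdiv hG ?_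
        refine ME_chain hp hG l h2' ((dvd_mul_left _ _).trans hd) (!b) ?_
        have h3 : xor b (kap e (a :: l)) = xor (!b) (kap e l) := by
          rw [kap, if_neg hdiv]
          cases b <;> cases kap e l <;> rfl
        rwa [← h3]

end Chain

/-! ### the system -/

section Sys

variable {R : Type*} [CommRing R]

/-- the monodromy of a system over `R`. -/
noncomputable def Sr (R : Type*) [CommRing R] (S : List (List ℕ)) : Matrix (Idx S) (Idx S) R :=
  (P45e_235.sysMono S).map (Int.castRingHom R)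

theorem Sr_pow (S : List (List ℕ)) (n : ℕ) :
    Sr R S ^ n = (P45e_235.sysMono S ^ n).map (Int.castRingHom R) :=
  (Matrix.map_pow _ (Int.castRingHom R) n).symm

theorem monoMat_eq {c : List ℕ} (hc : c ≠ []) : P45e_235.monoMat c = compMat c ^ mu c.tail := by
  cases c with
  | nil => exact absurd rfl hc
  | cons a l => rfl

theorem Sr_cons_pow {c : List ℕ} (hc : c ≠ []) (S : List (List ℕ)) (k : ℕ) :
    Sr R (c :: S) ^ k =
      ((Cr R c ^ (mu c.tail * k)) ⊗ₖ (Sr R S ^ k) :
        Matrix (Fin (mu c) × Idx S) (Fin (mu c) × Idx S) R) := by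
  rw [Sr_pow, Sr_pow, Cr_pow, pow_mul, ← monoMat_eq hc]
  have h1 : P45e_235.sysMono (c :: S) ^ k =
      ((P45e_235.monoMat c ^ k) ⊗ₖ (P45e_235.sysMono S ^ k) :
        Matrix (Fin (mu c) × Idx S) (Fin (mu c) × Idx S) ℤ) :=
    P45e_235.kron_pow _ _ k
  rw [h1]
  ext ⟨i, j⟩ ⟨i', j'⟩
  exact map_mul (Int.castRingHom R) _ _

/-- number of shifts of a system modulo two. -/
def tot (k : ℕ) : List (List ℕ) → Bool
  | [] => false
  | c :: S => xor (kap (mu c.tail * k) c) (tot k S)

theorem Sr_pow_one {p k : ℕ} {S : List (List ℕ)} (hS : ∀ c ∈ S, P411_61.OK (k * p) c) :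
    (Sr R S ^ k) ^ p = 1 := by
  rw [← pow_mul, Sr_pow, P45e_235.sysMono_pow S]
  · exact Matrix.map_one _ (map_zero _) (map_one _)
  · intro c hc
    obtain ⟨hne, h2, t, ht⟩ := hS c hc
    rw [monoMat_eq hne, ← pow_mul, ht, pow_mul, comp_pow_prod (Good.of_two h2), one_pow]

theorem ME_sys {p k : ℕ} (hp : p.Prime) :
    ∀ S : List (List ℕ), (∀ c ∈ S, P411_61.OK (k * p) c) → ∀ b : Bool,
      ME (xor b (tot k S)) p (1 : Matrix Unit Unit R) → ME b p (Sr R S ^ k)
  | [], _, b, hb => by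
      have h1 : (Sr R [] ^ k) = (1 : Matrix Unit Unit R) := by
        rw [Sr_pow]
        have h2 : P45e_235.sysMono [] = 1 := rfl
        rw [h2, one_pow]
        exact Matrix.map_one _ (map_zero _) (map_one _)
      rw [tot, Bool.xor_false] at hb
      have h3 : ME b p (1 : Matrix (Idx []) (Idx []) R) := hb
      have h4 : (Sr R [] ^ k) = (1 : Matrix (Idx []) (Idx []) R) := h1
      rw [h4]
      exact h3
  | c :: S, hS, b, hb => by
      have hc := hS c List.mem_cons_self
      have hS' : ∀ d ∈ S, P411_61.OK (k * p) d := fun d hd => hS d (List.mem_cons_of_mem _ hd)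
      have h1 : ME b p ((Cr R c ^ (mu c.tail * k)) ⊗ₖ (Sr R S ^ k)) := by
        refine ME_chain hp (Sr_pow_one hS') c hc.two ?_ b ?_
        · rw [mul_assoc]; exact hc.dvd
        · refine ME_sys hp S hS' _ ?_
          rw [Bool.xor_assoc]
          exact hb
      rw [Sr_cons_pow hc.ne]
      exact h1

theorem tot_append (k : ℕ) (S S' : List (List ℕ)) :
    tot k (S ++ S') = xor (tot k S) (tot k S') := by
  induction S with
  | nil => simp [tot]
  | cons c S ih => rw [List.cons_append, tot, tot, ih, Bool.xor_assoc]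

theorem tot_rep (k n : ℕ) (S : List (List ℕ)) : tot k (rep (2 * n) S) = false := by
  induction n with
  | zero => rfl
  | succ n ih =>
    have h1 : rep (2 * (n + 1)) S = S ++ (S ++ rep (2 * n) S) := by
      unfold rep
      rw [show 2 * (n + 1) = 2 * n + 1 + 1 by ring, List.replicate_succ, List.flatten_cons,
        List.replicate_succ, List.flatten_cons]
    rw [h1, tot_append, tot_append, ih]
    cases tot k S <;> rfl

theorem tot_single (k : ℕ) (q : List ℕ) (h : ∀ x ∈ q, x ∣ k) :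
    tot k (q.map fun x => [x]) = false := by
  induction q with
  | nil => rfl
  | cons x q ih =>
    rw [List.map_cons, tot, ih fun y hy => h y (List.mem_cons_of_mem _ hy)]
    have h1 : x * ([] : List ℕ).prod ∣ mu ([x] : List ℕ).tail * k := by
      rw [List.prod_nil, mul_one]
      exact (h x List.mem_cons_self).mul_left _
    rw [kap, if_pos h1]
    rfl

theorem tot_F {L : List (ℕ × ℕ × ℤ)} {u : ℕ} {q : List ℕ} (s j m' : ℕ) :
    tot (m' * q.prod) (F L u q s j) = false := by
  unfold F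
  have h1 : ∀ x ∈ q, x ∣ m' * q.prod := fun x hx => (List.dvd_prod hx).mul_left _
  have e1 : 8 * (s - j) = 2 * (4 * (s - j)) := by ring
  have e2 : 8 * j = 2 * (4 * j) := by ring
  rw [tot_append, tot_append, tot_append, tot_append, tot_single _ q h1, e1, e2, tot_rep, tot_rep,
    show (8 : ℕ) = 2 * 4 by norm_num, tot_rep, tot_rep]
  rfl

end Sys

/-! ### the result -/

theorem eq_sysMono {L : List (ℕ × ℕ × ℤ)} {u : ℕ} {q : List ℕ} (hC : Cert L u) (hA : Aux u q)
    (s j : ℕ) {T : Matrix (Idx (F L u q s j)) (Idx (F L u q s j)) ℤ}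
    (hT : sysMat (F L u q s j) * T = (sysMat (F L u q s j))ᵀ) :
    T = P45e_235.sysMono (F L u q s j) := by
  have h1 := P45e_235.sys_det _ (P45e_235.good_F' hC hA s j)
  have h2 := P45e_235.transpose_F hC hA s j
  rw [h2] at hT
  have h3 : IsUnit (sysMat (F L u q s j)).det := by rw [h1]; exact isUnit_one
  have h4 := congrArg (fun M => (sysMat (F L u q s j))⁻¹ * M) hT
  simp only [Matrix.nonsing_inv_mul_cancel_left _ _ h3] at h4
  exact h4

theorem ME0_unit (p : ℕ) [Fact p.Prime] : ME0 p (1 : Matrix Unit Unit ℤ_[p]) := by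
  intro x hx
  refine ⟨0, ?_⟩
  have h1 : (p : ℤ_[p]) • x = 0 := by
    rw [← hx]
    simp only [one_pow, Matrix.one_mulVec, Finset.sum_const, Finset.card_range]
    ext1 i
    simp
  have hp : (p : ℤ_[p]) ≠ 0 := by exact_mod_cast (Fact.out : p.Prime).ne_zero
  have h2 : x = 0 := (smul_eq_zero.1 h1).resolve_left hp
  rw [h2]
  simp

/-- P4.6a: the norm condition. -/
theorem hm1p : P46f_484.HM1P := by
  intro L u q hC hA s j p hp m' hm T hT
  have hT' := eq_sysMono hC hA s j hT
  subst hT'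
  have hprime : p.Prime := Fact.out
  have hok : ∀ c ∈ F L u q s j, P411_61.OK (m' * q.prod * p) c := by
    intro c hc
    have h1 := P411_61.ok_F hC hA s j c hc
    have h2 : 3 * u * q.prod = m' * q.prod * p := by rw [hm]; ring
    rwa [h2] at h1
  have h3 : ME false p (Sr ℤ_[p] (F L u q s j) ^ (m' * q.prod)) := by
    refine ME_sys hprime _ hok false ?_
    rw [tot_F]
    exact ME0_unit p
  exact h3

/-- P4.6 + P4.7, unconditional. -/
theorem locsq : P4LocsQ_780.LOCSQ := P46f_484.locsq_of hm1p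

end Crest.Agent.R267.P46h_484
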