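import Mathlib
import Crest.Agent.R267.P4Fun_780

/-!
# S0407, package P4: completeness of finite free `ℤ_p`-algebras (helper780)

For a commutative ring `B`, finite free over `ℤ_p`, and `J = radical (p)`: `B` is `(p)`-adically
and `J`-adically complete, `B ⧸ J` is finite and reduced, `J` is stable under every involution.
-/

set_option autoImplicit false

namespace Crest.Agent.R267.P4Cpl_780

open Crest.Agent.R267.P4Lam_780 Crest.Agent.R267.P4Fun_780

section Gen

variable {B : Type} [CommRing B]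

theorem smodEq_iff {I : Ideal B} {n : ℕ} {x y : B} :
    x ≡ y [SMOD (I ^ n • ⊤ : Submodule B B)] ↔ x - y ∈ I ^ n := by
  rw [SModEq.sub_mem, smul_eq_mul, Ideal.mul_top]

/-- transfer of completeness between ideals with the same topology. -/
theorem isAdicComplete_of_le {I J : Ideal B} (hI : IsAdicComplete I B) (hIJ : I ≤ J) {k : ℕ}
    (hk : 0 < k) (hJI : J ^ k ≤ I) : IsAdicComplete J B := by
  have hJIn : ∀ n : ℕ, J ^ (k * n) ≤ I ^ n := fun n => by
    rw [pow_mul]; exact Ideal.pow_right_mono hJI n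
  refine { haus' := ?_, prec' := ?_ }
  · intro x hx
    apply hI.haus'
    intro n
    have := hx (k * n)
    rw [smodEq_iff] at this ⊢
    exact hJIn n this
  · intro f hf
    obtain ⟨L, hL⟩ := hI.prec' (fun n => f (k * n)) (by
      intro m n hmn
      have := hf (Nat.mul_le_mul_left k hmn)
      rw [smodEq_iff] at this ⊢
      exact hJIn m this)
    refine ⟨L, fun n => ?_⟩
    have h1 := hf (Nat.le_mul_of_pos_left n hk)
    have h2 := hL n
    rw [smodEq_iff] at h1 h2 ⊢
    have h3 : f n - L = (f n - f (k * n)) + (f (k * n) - L) := by ring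
    rw [h3]
    exact add_mem h1 (Ideal.pow_right_mono hIJ n h2)

end Gen

section Padic

variable (p : ℕ) [Fact p.Prime] {B : Type} [CommRing B] [Algebra ℤ_[p] B]

theorem mem_pow_iff {ι : Type} [Fintype ι] (b : Module.Basis ι ℤ_[p] B) (n : ℕ) (x : B) :
    x ∈ (Ideal.span {(p : B)}) ^ n ↔ ∀ i, (p : ℤ_[p]) ^ n ∣ b.repr x i := by
  rw [Ideal.span_singleton_pow, Ideal.mem_span_singleton']
  constructor
  · rintro ⟨y, rfl⟩ i
    have h1 : y * (p : B) ^ n = ((p : ℤ_[p]) ^ n) • y := by
      rw [Algebra.smul_def, map_pow, map_natCast, mul_comm]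
    rw [h1, map_smul, Finsupp.smul_apply, smul_eq_mul]
    exact dvd_mul_right _ _
  · intro h
    choose c hc using h
    refine ⟨∑ i, c i • b i, ?_⟩
    have h1 : (∑ i, c i • b i) * (p : B) ^ n = ((p : ℤ_[p]) ^ n) • ∑ i, c i • b i := by
      rw [Algebra.smul_def, map_pow, map_natCast, mul_comm]
    rw [h1, Finset.smul_sum]
    conv_rhs => rw [← b.sum_repr x]
    refine Finset.sum_congr rfl fun i _ => ?_
    rw [hc, smul_smul]

theorem isAdicComplete_p [Module.Free ℤ_[p] B] [Module.Finite ℤ_[p] B] :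
    IsAdicComplete (Ideal.span {(p : B)}) B := by
  classical
  let b := Module.Free.chooseBasis ℤ_[p] B
  have hZ : IsAdicComplete (Ideal.span {(p : ℤ_[p])}) ℤ_[p] := by
    rw [← PadicInt.maximalIdeal_eq_span_p]; infer_instance
  have hZm : ∀ (n : ℕ) (x : ℤ_[p]), x ∈ (Ideal.span {(p : ℤ_[p])}) ^ n ↔ (p : ℤ_[p]) ^ n ∣ x := by
    intro n x; rw [Ideal.span_singleton_pow, Ideal.mem_span_singleton]
  refine { haus' := ?_, prec' := ?_ }
  · intro x hx
    have h0 : ∀ i, b.repr x i = 0 := by
      intro i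
      apply hZ.haus'
      intro n
      have h1 := hx n
      rw [smodEq_iff, sub_zero, mem_pow_iff p b] at h1
      rw [smodEq_iff, sub_zero, hZm]
      exact h1 i
    rw [← b.sum_repr x]
    exact Finset.sum_eq_zero fun i _ => by rw [h0, zero_smul]
  · intro f hf
    have h1 : ∀ i, ∃ L : ℤ_[p], ∀ n, b.repr (f n) i ≡ L
        [SMOD ((Ideal.span {(p : ℤ_[p])}) ^ n • ⊤ : Submodule ℤ_[p] ℤ_[p])] := by
      intro i
      apply hZ.prec'
      intro m n hmn
      have h2 := hf hmn
      rw [smodEq_iff, mem_pow_iff p b] at h2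
      rw [smodEq_iff, hZm]
      have := h2 i
      rwa [map_sub, Finsupp.sub_apply] at this
    choose L hL using h1
    refine ⟨∑ i, L i • b i, fun n => ?_⟩
    rw [smodEq_iff, mem_pow_iff p b]
    intro i
    have h3 := hL i n
    rw [smodEq_iff, hZm] at h3
    rwa [map_sub, Finsupp.sub_apply, b.repr_sum_self]

theorem isNoetherian_B [Module.Finite ℤ_[p] B] : IsNoetherianRing B :=
  IsNoetherianRing.of_finite ℤ_[p] B

variable (B) in
/-- the ideal `J = radical (p)`. -/
def radp : Ideal B := (Ideal.span {(p : B)}).radical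

theorem isAdicComplete_radp [Module.Free ℤ_[p] B] [Module.Finite ℤ_[p] B] :
    IsAdicComplete (radp p B) B := by
  have := isNoetherian_B p (B := B)
  obtain ⟨k, hk⟩ := Ideal.exists_radical_pow_le_of_fg (Ideal.span {(p : B)})
    (IsNoetherian.noetherian _)
  exact isAdicComplete_of_le (isAdicComplete_p p) Ideal.le_radical (Nat.succ_pos k)
    ((Ideal.pow_le_pow_right (Nat.le_succ k)).trans hk)

theorem finite_quot_p [Module.Free ℤ_[p] B] [Module.Finite ℤ_[p] B] :
    Finite (B ⧸ Ideal.span {(p : B)}) := by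
  classical
  let b := Module.Free.chooseBasis ℤ_[p] B
  let g : (Module.Free.ChooseBasisIndex ℤ_[p] B → Fin p) → B ⧸ Ideal.span {(p : B)} :=
    fun c => Ideal.Quotient.mk _ (∑ i, ((c i : ℕ) : ℤ_[p]) • b i)
  refine Finite.of_surjective g fun y => ?_
  obtain ⟨x, rfl⟩ := Ideal.Quotient.mk_surjective y
  have h1 : ∀ i, ∃ n : Fin p, (p : ℤ_[p]) ∣ ((n : ℕ) : ℤ_[p]) - b.repr x i := by
    intro i
    obtain ⟨n, hn, hm⟩ := PadicInt.exists_mem_range (b.repr x i)
    refine ⟨⟨n, hn⟩, ?_⟩
    rw [PadicInt.maximalIdeal_eq_span_p, Ideal.mem_span_singleton] at hm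
    rw [← neg_sub]
    exact (dvd_neg).2 hm
  choose c hc using h1
  refine ⟨c, ?_⟩
  change Ideal.Quotient.mk _ _ = _
  rw [Ideal.Quotient.mk_eq_mk_iff_sub_mem, ← pow_one (Ideal.span {(p : B)}), mem_pow_iff p b]
  intro i
  rw [map_sub, Finsupp.sub_apply, b.repr_sum_self, pow_one]
  exact hc i

theorem finite_quot_radp [Module.Free ℤ_[p] B] [Module.Finite ℤ_[p] B] :
    Finite (B ⧸ radp p B) := by
  have := finite_quot_p p (B := B)
  exact Finite.of_surjective (Ideal.Quotient.factor (Ideal.le_radical))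
    (Ideal.Quotient.factor_surjective _)

omit [Fact p.Prime] [Algebra ℤ_[p] B] in
theorem isReduced_quot_radp : IsReduced (B ⧸ radp p B) :=
  (Ideal.isRadical_iff_quotient_reduced _).1 (Ideal.radical_isRadical _)

omit [Fact p.Prime] [Algebra ℤ_[p] B] in
theorem star_mem_radp [StarRing B] {x : B} (hx : x ∈ radp p B) : star x ∈ radp p B := by
  obtain ⟨n, hn⟩ := hx
  refine ⟨n, ?_⟩
  rw [Ideal.mem_span_singleton'] at hn ⊢
  obtain ⟨y, hy⟩ := hn
  refine ⟨star y, ?_⟩
  rw [← star_pow, ← hy, star_mul', star_natCast]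

/-- `P47` for finite free `ℤ_p`-algebras. -/
theorem isom_of_P47 (h47 : Crest.Agent.R267.P4Herm_780.P47) [StarRing B]
    [Module.Free ℤ_[p] B] [Module.Finite ℤ_[p] B] (hG : Crest.Agent.R267.P4Herm_780.Good B)
    (P : Type) [AddCommGroup P] [Module B P] [Module.Finite B P] [Module.Projective B P]
    (H H' : Crest.Agent.R267.P4Herm_780.HForm B P) (hH : H.Unimodular) (hH' : H'.Unimodular) :
    Crest.Agent.R267.P4Herm_780.HForm.Isom H H' :=
  h47 B (radp p B) hG (fun _ hx => star_mem_radp p hx) (isAdicComplete_radp p)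
    (finite_quot_radp p) (isReduced_quot_radp p) P H H' hH hH'

end Padic

end Crest.Agent.R267.P4Cpl_780
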