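import Mathlib
import Crest.Agent.R267.P4Asm_780

/-!
# S0407, package P4: assembly with a colouring, `RATB → LOCSQ → GLOBS → INTb` (helper780)
-/

set_option autoImplicit false

namespace Crest.Agent.R267.P4Fin_780

open Matrix Crest.Agent.R267.P4Defs_780 Crest.Agent.R267.P4LocsQ_780 Crest.Agent.R267.P4Asm_780

/-- the head of `chainOf a b` bounds all entries from below (strictly for the tail). -/
theorem chainOf_inc (a b : ℕ) : (chainOf a b).Pairwise (· < ·) ∧
    ∀ e ∈ chainOf a b, b / a ≤ e := by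
  induction a using Nat.strong_induction_on with
  | _ a ih =>
    rcases Nat.eq_zero_or_pos a with rfl | ha
    · rw [chainOf_zero]; simp
    · rw [chainOf_pos ha]
      have hlt := Nat.mod_lt b ha
      obtain ⟨h1, h2⟩ := ih _ hlt
      have key : ∀ e ∈ chainOf (b % a) b, b / a < e := by
        intro e he
        rcases Nat.eq_zero_or_pos (b % a) with h0 | h0
        · rw [h0, chainOf_zero] at he; simp at he
        · refine lt_of_lt_of_le ?_ (h2 e he)
          -- `b = (b / a) * a + b % a`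
          rw [Nat.lt_iff_add_one_le, Nat.le_div_iff_mul_le h0]
          have h3 := Nat.div_add_mod b a
          have h4 : b / a * (b % a) ≤ b / a * a := Nat.mul_le_mul_left _ hlt.le
          nlinarith
      refine ⟨List.pairwise_cons.2 ⟨key, h1⟩, ?_⟩
      intro e he
      rcases List.mem_cons.1 he with rfl | he
      · exact le_rfl
      · exact (key e he).le

theorem inc_Z {L : List (ℕ × ℕ × ℤ)} {c : List ℕ} (hc : c ∈ ZP L ∨ c ∈ ZM L) :
    c.Pairwise (· < ·) := by
  have hblock : ∀ x, c ∈ blockP x ∨ c ∈ blockM x →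
      c = chainOf x.1 x.2.1 ∨ c = chainOf (x.2.1 % x.1) x.2.1 := by
    intro x h
    simp only [blockP, blockM, List.mem_append, List.mem_replicate] at h
    tauto
  have key : ∀ x : ℕ × ℕ × ℤ, c = chainOf x.1 x.2.1 ∨ c = chainOf (x.2.1 % x.1) x.2.1 →
      c.Pairwise (· < ·) := by
    rintro x (rfl | rfl)
    · exact (chainOf_inc _ _).1
    · exact (chainOf_inc _ _).1
  rcases hc with hc | hc
  · simp only [ZP, List.mem_filter, List.mem_flatMap] at hc
    obtain ⟨⟨x, hx, hcx⟩, hne⟩ := hc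
    exact key x (hblock x (Or.inl hcx))
  · simp only [ZM, List.mem_filter, List.mem_flatMap] at hc
    obtain ⟨⟨x, hx, hcx⟩, hne⟩ := hc
    exact key x (hblock x (Or.inr hcx))

theorem inc_F {L : List (ℕ × ℕ × ℤ)} {u : ℕ} {q : List ℕ} {s j : ℕ} {c : List ℕ}
    (hc : c ∈ F L u q s j) : c.Pairwise (· < ·) := by
  simp only [F, List.mem_append, List.mem_map] at hc
  rcases hc with (((hc | hc) | hc) | hc) | ⟨x, hx, rfl⟩
  · have := mem_rep hc; simp at this; subst this; simp
  · have := mem_rep hc; simp at this; subst this; simp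
  · exact inc_Z (Or.inl (mem_rep hc))
  · exact inc_Z (Or.inr (mem_rep hc))
  · simp

/-- the output with a colouring `bit` which does not see squares. -/
theorem INTcol_of (hR : RATB) (hL : LOCSQ) (hG : GLOBS) (bit : List (List ℕ) → Bool)
    (hbit : ∀ S, bit ([2] :: S) = bit S) :
    ∃ S S' : List (List ℕ), Adm S ∧ Adm S' ∧ (∀ c ∈ S, c.Pairwise (· < ·)) ∧
      (∀ c ∈ S', c.Pairwise (· < ·)) ∧ nvar S = nvar S' ∧ 3 < nvar S ∧
      8 ∣ nvar S ∧ [2] ∈ S ∧ [3] ∈ S' ∧ (∀ c ∈ S', ∀ h : c ≠ [], 3 ≤ c.getLast h) ∧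
      bit S = bit S' ∧ Cong ℤ (sysMat S) (sysMat S') := by
  obtain ⟨L, u, q, hC, hA⟩ := exists_data
  obtain ⟨B, hB⟩ := hR L u q hC hA
  obtain ⟨h, hh⟩ := hG L u q hC hA
  obtain ⟨s, hs⟩ : ∃ s : ℕ, s = ((B + 1) * 2) * h := ⟨_, rfl⟩
  obtain ⟨col, hcol⟩ := hB s
  -- a colour with more than `h` indices
  obtain ⟨y, -, hy⟩ : ∃ y ∈ (Finset.univ : Finset (Fin (B + 1) × Bool)),
      h < ((Finset.range (s + 1)).filter (fun j => (col j, bit (F L u q s j)) = y)).card := by
    apply Finset.exists_lt_card_fiber_of_mul_lt_card_of_maps_to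
    · intro a _; exact Finset.mem_univ _
    · rw [hs]; simp [Fintype.card_prod]
  set J := (Finset.range (s + 1)).filter (fun j => (col j, bit (F L u q s j)) = y) with hJ
  have hJs : ∀ j ∈ J, j ≤ s := by
    intro j hj
    have := (Finset.mem_filter.1 hj).1
    have := Finset.mem_range.1 this
    omega
  have hJp : ∀ i ∈ J, ∀ j ∈ J, (col i, bit (F L u q s i)) = (col j, bit (F L u q s j)) := by
    intro i hi j hj
    rw [(Finset.mem_filter.1 hi).2, (Finset.mem_filter.1 hj).2]
  have hJc : ∀ i ∈ J, ∀ j ∈ J, col i = col j := fun i hi j hj => (Prod.mk.inj (hJp i hi j hj)).1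
  obtain ⟨i, hi, j, hj, hij, hcong⟩ := hh s J hJs hy
    (fun i hi j hj => hcol i (hJs i hi) j (hJs j hj) (hJc i hi j hj))
    (fun i hi j hj p _ => hL L u q hC hA s i (hJs i hi) j (hJs j hj)
      (hcol i (hJs i hi) j (hJs j hj) (hJc i hi j hj)) p)
  have hjs := hJs j hj
  clear hh hcol hB
  have hbij : bit (F L u q s j) = bit (F L u q s i) := (Prod.mk.inj (hJp j hj i hi)).2
  have hbr : ∀ (d : ℕ) (S : List (List ℕ)), bit (List.replicate d [2] ++ S) = bit S := by
    intro d S
    induction d with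
    | zero => rfl
    | succ d ih => rw [List.replicate_succ, List.cons_append, hbit, ih]
  -- the number of squares
  set d : ℕ := nvar (F L u q s i) - nvar (F L u q s j) with hd
  have hZ := nvar_Z (L := L) (fun x hx => (hC.range x hx).1)
  have hpos := hC.sum_pos
  have hPM : nvar (ZM L) < nvar (ZP L) := by omega
  obtain ⟨t, ht⟩ : ∃ t, j = i + t := ⟨j - i, by omega⟩
  obtain ⟨r, hr⟩ : ∃ r, s = j + r := ⟨s - j, by omega⟩
  obtain ⟨w, hw⟩ : ∃ w, nvar (ZP L) = nvar (ZM L) + w := ⟨nvar (ZP L) - nvar (ZM L), by omega⟩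
  have hwpos : 0 < w := by omega
  have htpos : 0 < t := by omega
  have hNi : nvar (F L u q s i) = nvar (F L u q s j) + 8 * (t * w) := by
    rw [nvar_F hA, nvar_F hA, hw]
    have e1 : s - i = r + t := by omega
    have e2 : s - j = r := by omega
    rw [e1, e2, ht]; ring
  have hdval : d = 8 * (t * w) := by rw [hd, hNi, Nat.add_sub_cancel_left]
  have hdpos : 0 < d := by
    rw [hdval]; exact Nat.mul_pos (by norm_num) (Nat.mul_pos htpos hwpos)
  clear_value d
  clear_value J
  refine ⟨List.replicate d [2] ++ F L u q s j, F L u q s i, ?_, ?_, ?_, ?_, ?_, ?_, ?_, ?_, ?_,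
    ?_, ?_, ?_⟩
  · intro c hc
    rcases List.mem_append.1 hc with hc | hc
    · rw [List.eq_of_mem_replicate hc]
      refine ⟨by simp, ?_⟩
      intro a ha; simp at ha; omega
    · obtain ⟨h1, h2, -⟩ := good_F hC hA hc
      exact ⟨h1, h2⟩
  · intro c hc
    obtain ⟨h1, h2, -⟩ := good_F hC hA hc
    exact ⟨h1, h2⟩
  · intro c hc
    rcases List.mem_append.1 hc with hc | hc
    · rw [List.eq_of_mem_replicate hc]; simp
    · exact inc_F hc
  · intro c hc; exact inc_F hc
  · rw [nvar_append, nvar_replicate, hNi, hdval]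
    simp only [List.length_cons, List.length_nil]
    ring
  · rw [nvar_append, nvar_F hA]; omega
  · rw [nvar_append, nvar_replicate, hdval, nvar_F hA]
    simp only [List.length_cons, List.length_nil]
    have : 8 * (t * w) * (0 + 1) + (24 + 8 * (s - j) * nvar (ZP L) + 8 * j * nvar (ZM L)) =
      8 * (t * w + 3 + (s - j) * nvar (ZP L) + j * nvar (ZM L)) := by ring
    rw [this]
    exact dvd_mul_right _ _
  · exact List.mem_append_left _ (List.mem_replicate.2 ⟨hdpos.ne', rfl⟩)
  · exact three_mem_F _ _ _ _ _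
  · intro c hc
    exact (good_F hC hA hc).2.2
  · rw [hbr, hbij]
  · exact Cong.symm (Cong.trans hcong (cong_two d _))

end Crest.Agent.R267.P4Fin_780
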