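import Mathlib
import Crest.Agent.R267.P4Herm_780

/-!
# S0407, package P4: global hermitian lattices (helper780)

`Λ` is a commutative ring with involution, free of finite rank over `ℤ`; a hermitian lattice is an
`HForm Λ M` with `M` free of finite rank over `ℤ`.  `IsomOver A`: isometry after `A ⊗[ℤ] -`.
`HI I H`: the hermitian lattice `H(I) ⊥ H` for a lattice `I ⊆ K = ℚ ⊗ Λ`.
Frozen Props: `GLOB` (P4.9), `JZ` (P4.10).
-/

set_option autoImplicit false

open scoped TensorProduct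

namespace Crest.Agent.R267.P4Glob_780

open Crest.Agent.R267.P4Herm_780

section

variable {Λ M N : Type} [CommRing Λ] [StarRing Λ] [AddCommGroup M] [Module Λ M]
  [AddCommGroup N] [Module Λ N]

/-- a hermitian form as a `ℤ`-bilinear map. -/
def toBilin (H : HForm Λ M) : M →ₗ[ℤ] M →ₗ[ℤ] Λ :=
  LinearMap.mk₂ ℤ H.h H.add_left
    (fun n x y => by
      have := H.smul_left (n : Λ) x y
      rw [star_intCast] at this
      simpa [Int.cast_smul_eq_zsmul, zsmul_eq_mul] using this)
    H.add_right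
    (fun n x y => by
      have := H.smul_right (n : Λ) x y
      simpa [Int.cast_smul_eq_zsmul, zsmul_eq_mul] using this)

@[simp] theorem toBilin_apply (H : HForm Λ M) (x y : M) : toBilin H x y = H.h x y := rfl

/-- isometry over `A`: an `A`-linear and `Λ`-linear isomorphism `A ⊗ M ≃ A ⊗ N` which respects the
`A`-bilinear extensions `A ⊗ M → A ⊗ M → A ⊗ Λ` of the forms. -/
def IsomOver (A : Type) [CommRing A] (H : HForm Λ M) (H' : HForm Λ N) : Prop :=
  ∃ g : (A ⊗[ℤ] M) ≃ₗ[A] (A ⊗[ℤ] N),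
    (∀ (z : Λ) (x : A ⊗[ℤ] M),
      g ((((Module.toAddMonoidEnd Λ M) z).toIntLinearMap.baseChange A) x) =
        (((Module.toAddMonoidEnd Λ N) z).toIntLinearMap.baseChange A) (g x)) ∧
    ∀ x y, (LinearMap.BilinMap.baseChange A (toBilin H')) (g x) (g y) =
      (LinearMap.BilinMap.baseChange A (toBilin H)) x y

end

section

variable {Λ : Type} [CommRing Λ] [StarRing Λ] (K : Type) [CommRing K] [StarRing K] [Algebra Λ K]

/-- the hermitian dual `I^# = {y | star x * y ∈ Λ for all x ∈ I}`. -/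
def dualI (I : Submodule Λ K) (hs : ∀ z : Λ, star (algebraMap Λ K z) = algebraMap Λ K (star z)) :
    Submodule Λ K where
  carrier := {y | ∀ x ∈ I, star x * y ∈ (algebraMap Λ K).range}
  add_mem' := by
    intro a b ha hb x hx
    rw [mul_add]; exact add_mem (ha x hx) (hb x hx)
  zero_mem' := by intro x _; rw [mul_zero]; exact zero_mem _
  smul_mem' := by
    intro c y hy x hx
    obtain ⟨z, hz⟩ := hy x hx
    exact ⟨c * z, by rw [map_mul, hz, Algebra.smul_def]; ring⟩

end

/-- data of a "number algebra": `K = ℚ ⊗ Λ` with compatible involution. -/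
structure Frac (Λ K : Type) [CommRing Λ] [StarRing Λ] [CommRing K] [StarRing K] [Algebra Λ K] :
    Prop where
  loc : IsLocalization (Algebra.algebraMapSubmonoid Λ (nonZeroDivisors ℤ)) K
  inj : Function.Injective (algebraMap Λ K)
  star : ∀ z : Λ, star (algebraMap Λ K z) = algebraMap Λ K (star z)

/-- `HI`: an isometry from the hermitian lattice `H'` onto `H(I) ⊥ H`, expressed without
subtypes: `α : M' → K`, `β : M' → K`, `γ : M' → N` linear, jointly injective, with image
`I × I^# × N`, and `h'(x,y) = star(α x) β y + star(β x) α y + h(γ x, γ y)` in `K`. -/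
def IsHI {Λ K M' N : Type} [CommRing Λ] [StarRing Λ] [CommRing K] [StarRing K] [Algebra Λ K]
    [AddCommGroup M'] [Module Λ M'] [AddCommGroup N] [Module Λ N]
    (hF : Frac Λ K) (I : Submodule Λ K) (H : HForm Λ N) (H' : HForm Λ M') : Prop :=
  ∃ (α β : M' →ₗ[Λ] K) (γ : M' →ₗ[Λ] N),
    (∀ x, α x ∈ I) ∧ (∀ x, β x ∈ dualI K I hF.star) ∧
    (∀ a ∈ I, ∀ b ∈ dualI K I hF.star, ∀ n : N, ∃! x : M', α x = a ∧ β x = b ∧ γ x = n) ∧
    (∀ x y, algebraMap Λ K (H'.h x y) =
      star (α x) * β y + star (β x) * α y + algebraMap Λ K (H.h (γ x) (γ y)))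

/-- full lattices in `K`. -/
def FullLat {Λ K : Type} [CommRing Λ] [CommRing K] [Algebra Λ K] (I : Submodule Λ K) : Prop :=
  I.FG ∧ ∃ n : ℤ, n ≠ 0 ∧ ∀ z : Λ, algebraMap Λ K (n * z) ∈ I

/-- P4.9. If the unimodular hermitian lattice `H'` is isometric to `H(Λ) ⊥ H` over `ℚ` and over
every `ℤ_p`, then it is isometric to `H(I) ⊥ H` for a full lattice `I` in `K`. -/
def GLOB : Prop :=
  ∀ (Λ K : Type) [CommRing Λ] [StarRing Λ] [CommRing K] [StarRing K] [Algebra Λ K]
    [Module.Free ℤ Λ] [Module.Finite ℤ Λ] [IsReduced Λ] (hF : Frac Λ K), Good Λ →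
    ∀ (N M' : Type) [AddCommGroup N] [Module Λ N] [AddCommGroup M'] [Module Λ M']
      [Module.Free ℤ N] [Module.Finite ℤ N] [Module.Free ℤ M'] [Module.Finite ℤ M']
      (H : HForm Λ N) (H' : HForm Λ M'), H.Unimodular → H'.Unimodular →
      IsomOver ℚ H.hyp H' → (∀ (p : ℕ) [Fact p.Prime], IsomOver ℤ_[p] H.hyp H') →
      ∃ I : Submodule Λ K, FullLat I ∧ IsHI hF I H H'

/-- P4.10. Jordan-Zassenhaus in rank one: a bound `n` such that among `n + 1` full lattices two
are homothetic by a unit of `K`. -/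
def JZ : Prop :=
  ∀ (Λ K : Type) [CommRing Λ] [StarRing Λ] [CommRing K] [StarRing K] [Algebra Λ K]
    [Module.Free ℤ Λ] [Module.Finite ℤ Λ] [IsReduced Λ], Frac Λ K →
    ∃ n : ℕ, ∃ cl : Submodule Λ K → Fin (n + 1), ∀ I J : Submodule Λ K, FullLat I → FullLat J →
      cl I = cl J → ∃ a : Kˣ, ∀ x : K, x ∈ I ↔ (a : K) * x ∈ J

/-- two lattices of the form `H(I) ⊥ H`, `H(J) ⊥ H` with `J = a I` are isometric. -/
theorem isom_of_IsHI {Λ K M₁ M₂ N : Type} [CommRing Λ] [StarRing Λ] [CommRing K] [StarRing K]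
    [Algebra Λ K] [AddCommGroup M₁] [Module Λ M₁] [AddCommGroup M₂] [Module Λ M₂]
    [AddCommGroup N] [Module Λ N] {hF : Frac Λ K} {I J : Submodule Λ K} {H : HForm Λ N}
    {H₁ : HForm Λ M₁} {H₂ : HForm Λ M₂} (h₁ : IsHI hF I H H₁) (h₂ : IsHI hF J H H₂)
    (a : Kˣ) (ha : ∀ x : K, x ∈ I ↔ (a : K) * x ∈ J) : HForm.Isom H₁ H₂ := by
  obtain ⟨α, β, γ, hα, hβ, hu, hh⟩ := h₁
  obtain ⟨α', β', γ', hα', hβ', hu', hh'⟩ := h₂
  -- the dual of `aI` is `star(a)⁻¹ I^#`
  have hd : ∀ y, y ∈ dualI K I hF.star ↔ star ((a⁻¹ : Kˣ) : K) * y ∈ dualI K J hF.star := by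
    intro y
    constructor
    · intro hy x hx
      have h1 : ((a⁻¹ : Kˣ) : K) * x ∈ I := by
        rw [ha, ← mul_assoc]; simpa using hx
      have h2 := hy _ h1
      have h3 : star x * (star ((a⁻¹ : Kˣ) : K) * y) = star (((a⁻¹ : Kˣ) : K) * x) * y := by
        rw [star_mul']; ring
      rw [h3]; exact h2
    · intro hy x hx
      have h1 : (a : K) * x ∈ J := (ha x).1 hx
      have h2 := hy _ h1
      have h4 : star (a : K) * star ((a⁻¹ : Kˣ) : K) = 1 := by rw [← star_mul']; simp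
      have h3 : star ((a : K) * x) * (star ((a⁻¹ : Kˣ) : K) * y) = star x * y := by
        rw [star_mul']
        calc star (a : K) * star x * (star ((a⁻¹ : Kˣ) : K) * y)
            = (star (a : K) * star ((a⁻¹ : Kˣ) : K)) * (star x * y) := by ring
          _ = star x * y := by rw [h4, one_mul]
      rw [h3] at h2; exact h2
  have hex : ∀ x : M₁, ∃! x' : M₂, α' x' = (a : K) * α x ∧
      β' x' = star ((a⁻¹ : Kˣ) : K) * β x ∧ γ' x' = γ x := fun x =>
    hu' _ ((ha _).1 (hα x)) _ ((hd _).1 (hβ x)) _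
  choose f hf hf' using fun x => (hex x)
  have hinj' : ∀ x y : M₂, α' x = α' y → β' x = β' y → γ' x = γ' y → x = y := by
    intro x y e1 e2 e3
    obtain ⟨w, -, hw⟩ := hu' _ (hα' y) _ (hβ' y) (γ' y)
    rw [hw x ⟨e1, e2, e3⟩, hw y ⟨rfl, rfl, rfl⟩]
  have hinj : ∀ x y : M₁, α x = α y → β x = β y → γ x = γ y → x = y := by
    intro x y e1 e2 e3
    obtain ⟨w, -, hw⟩ := hu _ (hα y) _ (hβ y) (γ y)
    rw [hw x ⟨e1, e2, e3⟩, hw y ⟨rfl, rfl, rfl⟩]
  let F : M₁ →ₗ[Λ] M₂ :=
    { toFun := f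
      map_add' := by
        intro x y
        apply hinj'
        · rw [map_add, (hf _).1, (hf _).1, (hf _).1, map_add]; ring
        · rw [map_add, (hf _).2.1, (hf _).2.1, (hf _).2.1, map_add]; ring
        · rw [map_add, (hf _).2.2, (hf _).2.2, (hf _).2.2, map_add]
      map_smul' := by
        intro c x
        apply hinj'
        · simp only [RingHom.id_apply, map_smul, (hf _).1, Algebra.smul_def]; ring
        · simp only [RingHom.id_apply, map_smul, (hf _).2.1, Algebra.smul_def]; ring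
        · simp only [RingHom.id_apply, map_smul, (hf _).2.2] }
  have hFinj : Function.Injective F := by
    intro x y hxy
    have hxy' : f x = f y := hxy
    have e1 : (a : K) * α x = (a : K) * α y := by rw [← (hf x).1, ← (hf y).1, hxy']
    have e2 : star ((a⁻¹ : Kˣ) : K) * β x = star ((a⁻¹ : Kˣ) : K) * β y := by
      rw [← (hf x).2.1, ← (hf y).2.1, hxy']
    have e3 : γ x = γ y := by rw [← (hf x).2.2, ← (hf y).2.2, hxy']
    have h4 : star (a : K) * star ((a⁻¹ : Kˣ) : K) = 1 := by rw [← star_mul']; simp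
    refine hinj x y (a.isUnit.mul_left_cancel e1) ?_ e3
    have := congrArg (fun t => star (a : K) * t) e2
    simpa only [← mul_assoc, h4, one_mul] using this
  have hFsurj : Function.Surjective F := by
    intro y
    have h1 : ((a⁻¹ : Kˣ) : K) * α' y ∈ I := by
      rw [ha, ← mul_assoc]; simpa using hα' y
    have h4 : star ((a⁻¹ : Kˣ) : K) * star (a : K) = 1 := by rw [← star_mul']; simp
    have h2 : star (a : K) * β' y ∈ dualI K I hF.star := by
      rw [hd, ← mul_assoc, h4, one_mul]; exact hβ' y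
    obtain ⟨x, ⟨e1, e2, e3⟩, -⟩ := hu _ h1 _ h2 (γ' y)
    refine ⟨x, ?_⟩
    apply hinj'
    · change α' (f x) = _
      rw [(hf x).1, e1, ← mul_assoc]; simp
    · change β' (f x) = _
      rw [(hf x).2.1, e2, ← mul_assoc, h4, one_mul]
    · change γ' (f x) = _
      rw [(hf x).2.2, e3]
  refine ⟨LinearEquiv.ofBijective F ⟨hFinj, hFsurj⟩, ?_⟩
  intro x y
  apply hF.inj
  change algebraMap Λ K (H₂.h (f x) (f y)) = _
  rw [hh', hh, (hf x).1, (hf x).2.1, (hf x).2.2, (hf y).1, (hf y).2.1, (hf y).2.2, star_mul',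
    star_mul', star_star]
  have h4 : star (a : K) * star ((a⁻¹ : Kˣ) : K) = 1 := by rw [← star_mul']; simp
  have h5 : ((a⁻¹ : Kˣ) : K) * (a : K) = 1 := by simp
  linear_combination (star (α x) * β y) * h4 + (star (β x) * α y) * h5

end Crest.Agent.R267.P4Glob_780
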