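import Mathlib

/-!
# Row 267 (helper769): real sign patterns of `g` in the hub step (helper222 #2918 (2), (3))

Own terms `x y z w`, couplings `a = A x^(3/5) (y z)^(1/5)`, `b = B x^(1/5) (y z)^(2/5)`,
deletions `u v t` (pairs `xy xz yz`), `T` (triple `xyz`), `s1 s2 s3` (pairs `xw yw zw`); all are
magnitudes, already divided by the degrees.  `P Q R` are the phases of `x y z` seen by the
couplings in units of `π` (mod `10`; even `=` lobe `P / 2`, `9` = the gap `J`), `o.` are the own
signs.  THEOREM `main`: at a bad point with all phases real, everything vanishes, or `x` is in `J`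
with own sign `+` and `A ^ 2 ≤ 4 B`, or the triple deletion is on and `B ^ 3 ≤ 27 A`.
-/

set_option autoImplicit false

namespace Crest.Agent.R267.PatG_769

/-! ### the staircases at integers -/

def h5 (t : ℤ) : ℤ := 2 * (t / 10) + min (t % 10) 2
def h4 (t : ℤ) : ℤ := 4 * (t / 8) + min (t % 8) 4
def h2 (t : ℤ) : ℤ := 2 * (t / 4) + min (t % 4) 2

def Th (P Q : ℤ) : ℤ := Q + h5 (P - Q)
/-- phase of the coupling `b` -/
def be (P Q R : ℤ) : ℤ := Th P Q + h4 (Th P R - Th P Q)
/-- phase of the coupling `a` -/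
def al (P Q R : ℤ) : ℤ := be P Q R + h2 (P - be P Q R)

theorem h5_add (t k : ℤ) : h5 (t + 10 * k) = h5 t + 2 * k := by
  unfold h5; omega
theorem h4_add (t k : ℤ) : h4 (t + 8 * k) = h4 t + 4 * k := by
  unfold h4; omega
theorem h2_add (t k : ℤ) : h2 (t + 4 * k) = h2 t + 2 * k := by
  unfold h2; omega

theorem Th_add (P Q k l : ℤ) : Th (P + 10 * k) (Q + 10 * l) = Th P Q + 2 * k + 8 * l := by
  unfold Th
  rw [show P + 10 * k - (Q + 10 * l) = (P - Q) + 10 * (k - l) by ring, h5_add]; ring

theorem be_add (P Q R k l m : ℤ) :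
    be (P + 10 * k) (Q + 10 * l) (R + 10 * m) = be P Q R + 2 * k + 4 * l + 4 * m := by
  unfold be
  rw [Th_add, Th_add, show Th P R + 2 * k + 8 * m - (Th P Q + 2 * k + 8 * l)
    = (Th P R - Th P Q) + 8 * (m - l) by ring, h4_add]; ring

theorem al_add (P Q R k l m : ℤ) :
    al (P + 10 * k) (Q + 10 * l) (R + 10 * m) = al P Q R + 6 * k + 2 * l + 2 * m := by
  unfold al
  rw [be_add, show P + 10 * k - (be P Q R + 2 * k + 4 * l + 4 * m)
    = (P - be P Q R) + 4 * (2 * k - l - m) by ring, h2_add]; ring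

/-- even phases are positive -/
def ev (n : ℤ) : Bool := n % 2 == 0

/-- the windows labels next to a phase: lobes `0 .. 4`, `5 = J` -/
def adj (P : ℤ) (o : Bool) : List ℤ :=
  if P % 10 = 9 then (if o then [5] else [4, 5, 0])
  else if P % 10 % 2 = 0 then [P % 10 / 2] else [(P % 10 - 1) / 2, (P % 10 + 1) / 2]

def may (S : List ℤ) (P : ℤ) (o : Bool) : Bool := (adj P o).any fun l => S.contains l
def must (S : List ℤ) (P : ℤ) (o : Bool) : Bool := (adj P o).all fun l => S.contains l

/-- own signs: `(-1) ^ P` off `J` -/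
def own (P : ℤ) (o : Bool) : Bool := P % 10 == 9 || o == (P % 10 % 2 == 0)

/-- possible position for the deletions `xy`, `xz` -/
def mayX (P : ℤ) (o : Bool) (Q : ℤ) (o' : Bool) : Bool := may [5] P o && may [1, 3, 4, 5] Q o'
def mustX (P : ℤ) (o : Bool) (Q : ℤ) (o' : Bool) : Bool := must [5] P o && must [1, 3, 4, 5] Q o'
/-- possible position for the deletion `yz` -/
def mayY (Q : ℤ) (o : Bool) (R : ℤ) (o' : Bool) : Bool :=
  (may [5] Q o && may [3, 4, 5] R o') || (may [3, 4, 5] Q o && may [5] R o')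
def mustY (Q : ℤ) (o : Bool) (R : ℤ) (o' : Bool) : Bool :=
  (must [5] Q o && must [3, 4, 5] R o') || (must [3, 4, 5] Q o && must [5] R o')
/-- possible position for the deletion `xyz` -/
def mayT (P : ℤ) (o : Bool) (Q : ℤ) (o' : Bool) (R : ℤ) (o'' : Bool) : Bool :=
  may [3, 4] P o && ((may [5] Q o' && may [2] R o'') || (may [2] Q o' && may [5] R o''))
def mustT (P : ℤ) (o : Bool) (Q : ℤ) (o' : Bool) (R : ℤ) (o'' : Bool) : Bool :=
  must [3, 4] P o && ((must [5] Q o' && must [2] R o'') || (must [2] Q o' && must [5] R o''))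

/-- everything used about the tables -/
def tab (P Q R : ℤ) (ox oy oz : Bool) : Bool :=
  let e := ev (al P Q R)
  let f := ev (be P Q R)
  let jx := may [5] P ox
  let jy := may [5] Q oy
  let jz := may [5] R oz
  let T := mayT P ox Q oy R oz
  let u := mayX P ox Q oy
  let v := mayX P ox R oz
  let t := mayY Q oy R oz
  -- own plus: `may → must`
  (!(ox && oy && u) || mustX P ox Q oy) &&
  (!(ox && oz && v) || mustX P ox R oz) &&
  (!(oy && oz && t) || mustY Q oy R oz) &&
  (!(ox && oy && oz && T) || mustT P ox Q oy R oz) &&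
  -- (-,-)
  (e || f || !(ox && oy && oz) || (u || v || t || T)) &&
  -- (+,+)
  (!(e && f) || ((ox && !u && !v && !T && !jx) || (oy && !u && !t && !T && !jy) ||
    (oz && !v && !t && !T && !jz))) &&
  -- (+,-)
  (!(e && !f) || (ox && !u && !v && !jx && (T || !(oy && oz) || t) &&
    (!T || !(oy && oz) || (!t && !(jy && jz))))) &&
  -- (-,+)
  (!(!e && f) || (!ox && ((oy && !t && !jy) || (oz && !t && !jz))) ||
    (ox && P % 10 == 9 && ((oy && u && !t && !T && !jy) || (oz && v && !t && !T && !jz))))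

theorem tab_fin : ∀ P Q R : Fin 10, ∀ ox oy oz : Bool,
    (own (P : ℕ) ox && own (Q : ℕ) oy && own (R : ℕ) oz) = true →
      tab (P : ℕ) (Q : ℕ) (R : ℕ) ox oy oz = true := by
  decide +kernel


theorem own_emod (P : ℤ) (o : Bool) : own (P % 10) o = own P o := by
  unfold own; rw [Int.emod_emod]
theorem adj_emod (P : ℤ) (o : Bool) : adj (P % 10) o = adj P o := by
  unfold adj; rw [Int.emod_emod]
theorem may_emod (S : List ℤ) (P : ℤ) (o : Bool) : may S (P % 10) o = may S P o := by
  unfold may; rw [adj_emod]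
theorem must_emod (S : List ℤ) (P : ℤ) (o : Bool) : must S (P % 10) o = must S P o := by
  unfold must; rw [adj_emod]

theorem ev_be_emod (P Q R : ℤ) : ev (be (P % 10) (Q % 10) (R % 10)) = ev (be P Q R) := by
  have h := be_add (P % 10) (Q % 10) (R % 10) (P / 10) (Q / 10) (R / 10)
  rw [Int.emod_add_mul_ediv, Int.emod_add_mul_ediv, Int.emod_add_mul_ediv] at h
  unfold ev
  rw [h, show be (P % 10) (Q % 10) (R % 10) + 2 * (P / 10) + 4 * (Q / 10) + 4 * (R / 10)
    = be (P % 10) (Q % 10) (R % 10) + (P / 10 + 2 * (Q / 10) + 2 * (R / 10)) * 2 by ring,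
    Int.add_mul_emod_self_right]

theorem ev_al_emod (P Q R : ℤ) : ev (al (P % 10) (Q % 10) (R % 10)) = ev (al P Q R) := by
  have h := al_add (P % 10) (Q % 10) (R % 10) (P / 10) (Q / 10) (R / 10)
  rw [Int.emod_add_mul_ediv, Int.emod_add_mul_ediv, Int.emod_add_mul_ediv] at h
  unfold ev
  rw [h, show al (P % 10) (Q % 10) (R % 10) + 6 * (P / 10) + 2 * (Q / 10) + 2 * (R / 10)
    = al (P % 10) (Q % 10) (R % 10) + (3 * (P / 10) + (Q / 10) + (R / 10)) * 2 by ring,
    Int.add_mul_emod_self_right]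

theorem tab_emod (P Q R : ℤ) (ox oy oz : Bool) :
    tab (P % 10) (Q % 10) (R % 10) ox oy oz = tab P Q R ox oy oz := by
  unfold tab mayX mustX mayY mustY mayT mustT
  simp only [ev_be_emod, ev_al_emod, may_emod, must_emod, Int.emod_emod]

theorem exists_fin (P : ℤ) : ∃ n : Fin 10, ((n : ℕ) : ℤ) = P % 10 := by
  have h0 : 0 ≤ P % 10 := Int.emod_nonneg _ (by norm_num)
  have h1 : P % 10 < 10 := Int.emod_lt_of_pos _ (by norm_num)
  refine ⟨⟨(P % 10).toNat, by omega⟩, ?_⟩
  show (((P % 10).toNat : ℕ) : ℤ) = P % 10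
  omega

theorem tab_true (P Q R : ℤ) (ox oy oz : Bool)
    (h : (own P ox && own Q oy && own R oz) = true) : tab P Q R ox oy oz = true := by
  obtain ⟨p, hp⟩ := exists_fin P
  obtain ⟨q, hq⟩ := exists_fin Q
  obtain ⟨r, hr⟩ := exists_fin R
  rw [← tab_emod, ← hp, ← hq, ← hr]
  refine tab_fin p q r ox oy oz ?_
  rw [hp, hq, hr, own_emod, own_emod, own_emod]
  exact h

/-! ### the system -/

/-- real sign -/
def sg (o : Bool) : ℝ := if o then 1 else -1

/-- bad point with all phases real; `c2 = C₂ ^ 2`, `c3 = C₃ ^ 3`; ROBUST form (constant `k`), so that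
it also covers almost real phases -/
structure Sys (k c2 c3 A B : ℝ) (P Q R : ℤ) (ox oy oz ow : Bool)
    (x y z w a b u v t T s1 s2 s3 : ℝ) : Prop where
  x0 : 0 ≤ x
  y0 : 0 ≤ y
  z0 : 0 ≤ z
  w0 : 0 ≤ w
  a0 : 0 ≤ a
  b0 : 0 ≤ b
  u0 : 0 ≤ u
  v0 : 0 ≤ v
  t0 : 0 ≤ t
  T0 : 0 ≤ T
  s10 : 0 ≤ s1
  s20 : 0 ≤ s2
  s30 : 0 ≤ s3
  id1 : x * b * A ^ 2 ≤ k * (B * a ^ 2)
  id2 : B ^ 3 * (a * y * z) ≤ k * (A * b ^ 3)
  ab_zero : x * y * z = 0 → a = 0 ∧ b = 0
  zA : A = 0 → a = 0
  zB : B = 0 → b = 0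
  za : a = 0 → A = 0 ∨ x * y * z = 0
  zb : b = 0 → B = 0 ∨ x * y * z = 0
  eqx : sg ox * x + (3 * (sg (ev (al P Q R)) * a) + sg (ev (be P Q R)) * b) / 5
    = (u + v + s1) / 2 + T / 3
  eqy : sg oy * y + (sg (ev (al P Q R)) * a + 2 * (sg (ev (be P Q R)) * b)) / 5
    = (u + t + s2) / 2 + T / 3
  eqz : sg oz * z + (sg (ev (al P Q R)) * a + 2 * (sg (ev (be P Q R)) * b)) / 5
    = (v + t + s3) / 2 + T / 3
  eqw : sg ow * w = (s1 + s2 + s3) / 2
  offu : mayX P ox Q oy = false → u = 0
  offv : mayX P ox R oz = false → v = 0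
  offt : mayY Q oy R oz = false → t = 0
  offT : mayT P ox Q oy R oz = false → T = 0
  off1 : may [5] P ox = false → s1 = 0
  off2 : may [5] Q oy = false → s2 = 0
  off3 : may [5] R oz = false → s3 = 0
  onu : mustX P ox Q oy = true → c2 * (x * y) ≤ u ^ 2
  onv : mustX P ox R oz = true → c2 * (x * z) ≤ v ^ 2
  ont : mustY Q oy R oz = true → c2 * (y * z) ≤ t ^ 2
  onT : mustT P ox Q oy R oz = true → c3 * (x * y * z) ≤ T ^ 3
  on1 : ox = true → ow = true → 0 < s1 → c2 * (x * w) ≤ s1 ^ 2
  on2 : oy = true → ow = true → 0 < s2 → c2 * (y * w) ≤ s2 ^ 2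
  on3 : oz = true → ow = true → 0 < s3 → c2 * (z * w) ≤ s3 ^ 2


/-- a pair deletion cannot be carried by its two variables -/
theorem pair_zero {c x y u : ℝ} (hc : 4 < c) (hx : u / 2 ≤ x) (hy : u / 2 ≤ y) (hu : 0 ≤ u)
    (h : c * (x * y) ≤ u ^ 2) : u = 0 ∧ x * y = 0 := by
  have h1 : u / 2 * (u / 2) ≤ x * y := mul_le_mul hx hy (by linarith) (by linarith)
  have h2 : 0 ≤ x * y := mul_nonneg (by linarith) (by linarith)
  have h3 : (c - 4) * (x * y) ≤ 0 := by nlinarith
  have h4 : x * y ≤ 0 := by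
    by_contra h5
    push Not at h5
    have := mul_pos (by linarith : 0 < c - 4) h5
    linarith
  have h5 : x * y = 0 := le_antisymm h4 h2
  refine ⟨?_, h5⟩
  rw [h5] at h1
  nlinarith

theorem triple_zero {c x y z T : ℝ} (hc : 27 < c) (hx : T / 3 ≤ x) (hy : T / 3 ≤ y)
    (hz : T / 3 ≤ z) (hT : 0 ≤ T) (h : c * (x * y * z) ≤ T ^ 3) : T = 0 ∧ x * y * z = 0 := by
  have h1 : T / 3 * (T / 3) ≤ x * y := mul_le_mul hx hy (by linarith) (by linarith)
  have h1' : T / 3 * (T / 3) * (T / 3) ≤ x * y * z :=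
    mul_le_mul h1 hz (by linarith) (mul_nonneg (by linarith) (by linarith))
  have h2 : 0 ≤ x * y * z := mul_nonneg (mul_nonneg (by linarith) (by linarith)) (by linarith)
  have h3 : (c - 27) * (x * y * z) ≤ 0 := by nlinarith
  have h4 : x * y * z ≤ 0 := by
    by_contra h5
    push Not at h5
    have := mul_pos (by linarith : 0 < c - 27) h5
    linarith
  have h5 : x * y * z = 0 := le_antisymm h4 h2
  refine ⟨?_, h5⟩
  rw [h5] at h1'
  have h6 : T ^ 3 ≤ 0 := by nlinarith
  have h7 : T ^ 3 = 0 := le_antisymm h6 (by positivity)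
  exact pow_eq_zero_iff (by norm_num) |>.1 h7

/-- the triple deletion lives off `J_x` -/
theorem mustT_J {P Q R : ℤ} {ox oy oz : Bool} (hP : P % 10 = 9) :
    mustT P ox Q oy R oz = false := by
  have h : must [3, 4] P ox = false := by
    unfold must adj
    rw [if_pos hP]
    cases ox <;> decide
  unfold mustT
  rw [h, Bool.false_and]

namespace Sys

variable {k c2 c3 A B : ℝ} {P Q R : ℤ} {ox oy oz ow : Bool}
  {x y z w a b u v t T s1 s2 s3 : ℝ}
  (S : Sys k c2 c3 A B P Q R ox oy oz ow x y z w a b u v t T s1 s2 s3)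

include S

/-- without couplings everything vanishes -/
theorem zero (hc2 : 4 < c2) (hc3 : 27 < c3)
    (ho : (own P ox && own Q oy && own R oz) = true) (ha : a = 0) (hb : b = 0) :
    x = 0 ∧ y = 0 ∧ z = 0 ∧ w = 0 := by
  have ht := tab_true P Q R ox oy oz ho
  obtain ⟨hx0, hy0, hz0, hw0, ha0, hb0, hu0, hv0, ht0, hT0, hs10, hs20, hs30, hid1, hid2, hz, hzA, hzB,
    hza, hzb, ex, ey, ez, ew, offu, offv, offt, offT, off1, off2, off3, onu, onv, ont, onT,
    on1, on2, on3⟩ := S
  rw [ha, hb] at ex ey ez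
  simp only [mul_zero, add_zero, zero_div] at ex ey ez
  -- an own minus variable carries nothing
  have hm : ∀ {o : Bool} {r β : ℝ}, 0 ≤ r → sg o * r = β → 0 < β → o = true ∧ β ≤ r := by
    intro o r β hr h hβ
    cases o with
    | false => simp [sg] at h; linarith
    | true => simp [sg] at h; exact ⟨rfl, h.ge⟩
  have hT : T = 0 := by
    by_contra hT
    have hT' : 0 < T := lt_of_le_of_ne hT0 (Ne.symm hT)
    obtain ⟨h1, h1'⟩ := hm hx0 ex (by linarith)
    obtain ⟨h2, h2'⟩ := hm hy0 ey (by linarith)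
    obtain ⟨h3, h3'⟩ := hm hz0 ez (by linarith)
    have h4 : mayT P ox Q oy R oz = true := by
      by_contra h; exact hT (offT (by simpa using h))
    have h5 : mustT P ox Q oy R oz = true := by
      simp only [tab, h1, h2, h3, Bool.and_eq_true, Bool.or_eq_true, Bool.not_eq_true'] at ht h4 ⊢
      have := ht.1.1.1.1.2
      simpa [h4] using this
    exact hT (triple_zero hc3 (by linarith) (by linarith) (by linarith) hT0 (onT h5)).1
  have hu : u = 0 := by
    by_contra hT
    have hT' : 0 < u := lt_of_le_of_ne hu0 (Ne.symm hT)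
    obtain ⟨h1, h1'⟩ := hm hx0 ex (by linarith)
    obtain ⟨h2, h2'⟩ := hm hy0 ey (by linarith)
    have h4 : mayX P ox Q oy = true := by
      by_contra h; exact hT (offu (by simpa using h))
    have h5 : mustX P ox Q oy = true := by
      simp only [tab, h1, h2, Bool.and_eq_true, Bool.or_eq_true, Bool.not_eq_true'] at ht h4 ⊢
      have := ht.1.1.1.1.1.1.1
      simpa [h4] using this
    exact hT (pair_zero hc2 (by linarith) (by linarith) hu0 (onu h5)).1
  have hv : v = 0 := by
    by_contra hT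
    have hT' : 0 < v := lt_of_le_of_ne hv0 (Ne.symm hT)
    obtain ⟨h1, h1'⟩ := hm hx0 ex (by linarith)
    obtain ⟨h2, h2'⟩ := hm hz0 ez (by linarith)
    have h4 : mayX P ox R oz = true := by
      by_contra h; exact hT (offv (by simpa using h))
    have h5 : mustX P ox R oz = true := by
      simp only [tab, h1, h2, Bool.and_eq_true, Bool.or_eq_true, Bool.not_eq_true'] at ht h4 ⊢
      have := ht.1.1.1.1.1.1.2
      simpa [h4] using this
    exact hT (pair_zero hc2 (by linarith) (by linarith) hv0 (onv h5)).1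
  have ht' : t = 0 := by
    by_contra hT
    have hT' : 0 < t := lt_of_le_of_ne ht0 (Ne.symm hT)
    obtain ⟨h1, h1'⟩ := hm hy0 ey (by linarith)
    obtain ⟨h2, h2'⟩ := hm hz0 ez (by linarith)
    have h4 : mayY Q oy R oz = true := by
      by_contra h; exact hT (offt (by simpa using h))
    have h5 : mustY Q oy R oz = true := by
      simp only [tab, h1, h2, Bool.and_eq_true, Bool.or_eq_true, Bool.not_eq_true'] at ht h4 ⊢
      have := ht.1.1.1.1.1.2
      simpa [h4] using this
    exact hT (pair_zero hc2 (by linarith) (by linarith) ht0 (ont h5)).1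
  have h1 : s1 = 0 := by
    by_contra hT
    have hT' : 0 < s1 := lt_of_le_of_ne hs10 (Ne.symm hT)
    obtain ⟨h1, h1'⟩ := hm hx0 ex (by linarith)
    obtain ⟨h2, h2'⟩ := hm hw0 ew (by linarith)
    exact hT (pair_zero hc2 (by linarith) (by linarith) hs10 (on1 h1 h2 hT')).1
  have h2 : s2 = 0 := by
    by_contra hT
    have hT' : 0 < s2 := lt_of_le_of_ne hs20 (Ne.symm hT)
    obtain ⟨h1, h1'⟩ := hm hy0 ey (by linarith)
    obtain ⟨h2, h2'⟩ := hm hw0 ew (by linarith)
    exact hT (pair_zero hc2 (by linarith) (by linarith) hs20 (on2 h1 h2 hT')).1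
  have h3 : s3 = 0 := by
    by_contra hT
    have hT' : 0 < s3 := lt_of_le_of_ne hs30 (Ne.symm hT)
    obtain ⟨h1, h1'⟩ := hm hz0 ez (by linarith)
    obtain ⟨h2, h2'⟩ := hm hw0 ew (by linarith)
    exact hT (pair_zero hc2 (by linarith) (by linarith) hs30 (on3 h1 h2 hT')).1
  rw [hT, hu, hv, h1] at ex
  rw [hT, hu, ht', h2] at ey
  rw [hT, hv, ht', h3] at ez
  rw [h1, h2, h3] at ew
  have hz : ∀ {o : Bool} {r β : ℝ}, sg o * r = β → β = 0 → r = 0 := by
    intro o r β h hβ
    rw [hβ] at h
    cases o with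
    | false => simpa [sg] using h
    | true => simpa [sg] using h
  exact ⟨hz ex (by norm_num), hz ey (by norm_num), hz ez (by norm_num), hz ew (by norm_num)⟩


omit S in
theorem tab_may (ht : tab P Q R ox oy oz = true) :
    (ox = true → oy = true → mayX P ox Q oy = true → mustX P ox Q oy = true) ∧
    (ox = true → oz = true → mayX P ox R oz = true → mustX P ox R oz = true) ∧
    (oy = true → oz = true → mayY Q oy R oz = true → mustY Q oy R oz = true) ∧
    (ox = true → oy = true → oz = true → mayT P ox Q oy R oz = true →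
      mustT P ox Q oy R oz = true) := by
  simp only [tab, Bool.and_eq_true, Bool.or_eq_true, Bool.not_eq_true', Bool.and_eq_false_iff]
    at ht
  obtain ⟨⟨⟨⟨⟨⟨⟨h1, h2⟩, h3⟩, h4⟩, _⟩, _⟩, _⟩, _⟩ := ht
  refine ⟨fun a b c => ?_, fun a b c => ?_, fun a b c => ?_, fun a b c d => ?_⟩
  · rcases h1 with ((h | h) | h) | h
    · rw [a] at h; cases h
    · rw [b] at h; cases h
    · rw [c] at h; cases h
    · exact h
  · rcases h2 with ((h | h) | h) | h
    · rw [a] at h; cases h
    · rw [b] at h; cases h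
    · rw [c] at h; cases h
    · exact h
  · rcases h3 with ((h | h) | h) | h
    · rw [a] at h; cases h
    · rw [b] at h; cases h
    · rw [c] at h; cases h
    · exact h
  · rcases h4 with (((h | h) | h) | h) | h
    · rw [a] at h; cases h
    · rw [b] at h; cases h
    · rw [c] at h; cases h
    · rw [d] at h; cases h
    · exact h

/-- case `(-,-)` -/
theorem case_mm (hc2 : 4 < c2) (hc3 : 27 < c3)
    (ho : (own P ox && own Q oy && own R oz) = true)
    (he : ev (al P Q R) = false) (hf : ev (be P Q R) = false) : a = 0 ∧ b = 0 := by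
  have ht := tab_true P Q R ox oy oz ho
  obtain ⟨m1, m2, m3, m4⟩ := tab_may ht
  have S' := S
  obtain ⟨hx0, hy0, hz0, hw0, ha0, hb0, hu0, hv0, ht0, hT0, hs10, hs20, hs30, hid1, hid2, hz, hzA, hzB,
    hza, hzb, ex, ey, ez, ew, offu, offv, offt, offT, off1, off2, off3, onu, onv, ont, onT,
    on1, on2, on3⟩ := S
  rw [he, hf] at ex ey ez
  simp only [sg, Bool.false_eq_true, if_false] at ex ey ez
  cases hox : ox with
  | false => rw [hox] at ex; simp only [Bool.false_eq_true, if_false] at ex; constructor <;> linarith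
  | true =>
  cases hoy : oy with
  | false => rw [hoy] at ey; simp only [Bool.false_eq_true, if_false] at ey; constructor <;> linarith
  | true =>
  cases hoz : oz with
  | false => rw [hoz] at ez; simp only [Bool.false_eq_true, if_false] at ez; constructor <;> linarith
  | true =>
  rw [hox] at ex
  rw [hoy] at ey
  rw [hoz] at ez
  simp only [if_true] at ex ey ez
  have h5 : mayX P ox Q oy = true ∨ mayX P ox R oz = true ∨ mayY Q oy R oz = true ∨
      mayT P ox Q oy R oz = true := by
    simp only [tab, Bool.and_eq_true, Bool.or_eq_true, Bool.not_eq_true', Bool.and_eq_false_iff]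
      at ht
    have h6 := ht.1.1.1.2
    rw [he, hf] at h6
    rw [hox, hoy, hoz] at h6 ⊢
    simpa [or_assoc] using h6
  apply S'.ab_zero
  rcases h5 with h5 | h5 | h5 | h5
  · have := (pair_zero hc2 (by linarith) (by linarith) hu0 (onu (m1 hox hoy h5))).2
    rw [this, zero_mul]
  · have := (pair_zero hc2 (by linarith) (by linarith) hv0 (onv (m2 hox hoz h5))).2
    rw [show x * y * z = x * z * y by ring, this, zero_mul]
  · have := (pair_zero hc2 (by linarith) (by linarith) ht0 (ont (m3 hoy hoz h5))).2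
    rw [show x * y * z = y * z * x by ring, this, zero_mul]
  · exact (triple_zero hc3 (by linarith) (by linarith) (by linarith) hT0
      (onT (m4 hox hoy hoz h5))).2

/-- case `(+,+)` -/
theorem case_pp (ho : (own P ox && own Q oy && own R oz) = true)
    (he : ev (al P Q R) = true) (hf : ev (be P Q R) = true) : a = 0 ∧ b = 0 := by
  have ht := tab_true P Q R ox oy oz ho
  obtain ⟨hx0, hy0, hz0, hw0, ha0, hb0, hu0, hv0, ht0, hT0, hs10, hs20, hs30, hid1, hid2, hz, hzA, hzB,
    hza, hzb, ex, ey, ez, ew, offu, offv, offt, offT, off1, off2, off3, onu, onv, ont, onT,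
    on1, on2, on3⟩ := S
  rw [he, hf] at ex ey ez
  simp only [tab, Bool.and_eq_true, Bool.or_eq_true, Bool.not_eq_true', Bool.and_eq_false_iff]
      at ht
  have h6 := ht.1.1.2
  rw [he, hf] at h6
  rcases h6 with (h | h) | ((h | h) | h)
  · simp at h
  · simp at h
  · obtain ⟨⟨⟨⟨h1, h2⟩, h3⟩, h4⟩, h5⟩ := h
    rw [h1, offu h2, offv h3, offT h4, off1 h5] at ex
    simp only [sg, if_true] at ex
    constructor <;> linarith
  · obtain ⟨⟨⟨⟨h1, h2⟩, h3⟩, h4⟩, h5⟩ := h
    rw [h1, offu h2, offt h3, offT h4, off2 h5] at ey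
    simp only [sg, if_true] at ey
    constructor <;> linarith
  · obtain ⟨⟨⟨⟨h1, h2⟩, h3⟩, h4⟩, h5⟩ := h
    rw [h1, offv h2, offt h3, offT h4, off3 h5] at ez
    simp only [sg, if_true] at ez
    constructor <;> linarith

/-- case `(+,-)` -/
theorem case_pm (hk : 0 ≤ k) (hc2 : 4 < c2) (hc3 : 27 < c3) (hA : 0 ≤ A) (hB : 0 ≤ B)
    (ho : (own P ox && own Q oy && own R oz) = true)
    (he : ev (al P Q R) = true) (hf : ev (be P Q R) = false) :
    (a = 0 ∧ b = 0) ∨ (mustT P ox Q oy R oz = true ∧ 0 < A ∧ B ^ 3 ≤ 27 * k * A) := by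
  have ht := tab_true P Q R ox oy oz ho
  obtain ⟨m1, m2, m3, m4⟩ := tab_may ht
  have S' := S
  obtain ⟨hx0, hy0, hz0, hw0, ha0, hb0, hu0, hv0, ht0, hT0, hs10, hs20, hs30, hid1, hid2, hz, hzA, hzB,
    hza, hzb, ex, ey, ez, ew, offu, offv, offt, offT, off1, off2, off3, onu, onv, ont, onT,
    on1, on2, on3⟩ := S
  rw [he, hf] at ex ey ez
  simp only [sg, Bool.false_eq_true, if_false, if_true] at ex ey ez ew
  simp only [tab, Bool.and_eq_true, Bool.or_eq_true, Bool.not_eq_true', Bool.and_eq_false_iff]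
      at ht
  have h6 := ht.1.2
  rw [he, hf] at h6
  have h7 : (((ox = true ∧ mayX P ox Q oy = false) ∧ mayX P ox R oz = false) ∧
      may [5] P ox = false) ∧
      ((mayT P ox Q oy R oz = true ∨ oy = false ∨ oz = false) ∨ mayY Q oy R oz = true) ∧
      ((mayT P ox Q oy R oz = false ∨ oy = false ∨ oz = false) ∨
        mayY Q oy R oz = false ∧ (may [5] Q oy = false ∨ may [5] R oz = false)) := by
    rcases h6 with (h | h) | h
    · simp at h
    · simp at h
    · exact ⟨h.1.1, h.1.2, h.2⟩
  obtain ⟨⟨⟨⟨hox, h1⟩, h2⟩, h3⟩, h4, h5⟩ := h7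
  have hu := offu h1
  have hv := offv h2
  have hs1 := off1 h3
  rw [hu, hv, hs1] at ex
  rw [hox] at ex
  simp only [if_true] at ex
  rw [hu] at ey
  rw [hv] at ez
  rw [hs1] at ew
  -- one own minus variable
  cases hoy : oy with
  | false =>
    rw [hoy] at ey; simp only [Bool.false_eq_true, if_false] at ey
    left; constructor <;> linarith
  | true =>
  cases hoz : oz with
  | false =>
    rw [hoz] at ez; simp only [Bool.false_eq_true, if_false] at ez
    left; constructor <;> linarith
  | true =>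
  rw [hoy] at ey
  rw [hoz] at ez
  simp only [if_true] at ey ez
  cases hmT : mayT P ox Q oy R oz with
  | false =>
    left
    have hT := offT hmT
    have h8 : mayY Q oy R oz = true := by
      rcases h4 with (h | h | h) | h
      · rw [hmT] at h; cases h
      · rw [hoy] at h; cases h
      · rw [hoz] at h; cases h
      · exact h
    apply S'.ab_zero
    rw [hT] at ex ey ez
    have := (pair_zero hc2 (by linarith) (by linarith) ht0 (ont (m3 hoy hoz h8))).2
    rw [show x * y * z = y * z * x by ring, this, zero_mul]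
  | true =>
    have h8 : mayY Q oy R oz = false ∧ (may [5] Q oy = false ∨ may [5] R oz = false) := by
      rcases h5 with (h | h | h) | h
      · rw [hmT] at h; cases h
      · rw [hoy] at h; cases h
      · rw [hoz] at h; cases h
      · exact h
    have hmu := m4 hox hoy hoz hmT
    have ht' := offt h8.1
    rw [ht'] at ey ez
    by_cases hH : (3 * a - b) < 0
    · left
      apply S'.ab_zero
      exact (triple_zero hc3 (by linarith) (by linarith) (by linarith) hT0 (onT hmu)).2
    · push Not at hH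
      -- the w equation
      have hw : (s2 = 0 ∧ s3 = 0) ∨ (a = 0 ∧ b = 0) := by
        by_cases h9 : s2 = 0 ∧ s3 = 0
        · left; exact h9
        · right
          cases how : ow with
          | false =>
            rw [how] at ew
            simp only [Bool.false_eq_true, if_false] at ew
            exact absurd ⟨by linarith, by linarith⟩ h9
          | true =>
            rw [how] at ew
            simp only [if_true] at ew
            rcases h8.2 with h10 | h10
            · have h11 := off2 h10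
              have h12 : 0 < s3 := by
                rcases hs30.lt_or_eq with h | h
                · exact h
                · exact absurd ⟨h11, h.symm⟩ h9
              have h13 := on3 hoz how h12
              rw [h11] at ew
              have h14 : z ≤ w := by
                by_contra h
                push Not at h
                have hw' : 0 < w := by linarith
                have := mul_lt_mul_of_pos_right h hw'
                nlinarith [mul_pos (show 0 < c2 - 4 by linarith) (mul_pos (hw'.trans h) hw')]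
              constructor <;> linarith
            · have h11 := off3 h10
              have h12 : 0 < s2 := by
                rcases hs20.lt_or_eq with h | h
                · exact h
                · exact absurd ⟨h.symm, h11⟩ h9
              have h13 := on2 hoy how h12
              rw [h11] at ew
              have h14 : y ≤ w := by
                by_contra h
                push Not at h
                have hw' : 0 < w := by linarith
                have := mul_lt_mul_of_pos_right h hw'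
                nlinarith [mul_pos (show 0 < c2 - 4 by linarith) (mul_pos (hw'.trans h) hw')]
              constructor <;> linarith
      rcases hw with ⟨h9, h10⟩ | h
      · rw [h9] at ey
        rw [h10] at ez
        have hby : b ≤ 3 * y := by linarith
        have hbz : b ≤ 3 * z := by linarith
        have hba : b ≤ 3 * a := by linarith
        rcases hA.lt_or_eq with hA0 | hA0
        swap
        · left
          have h12 : a = 0 := hzA hA0.symm
          exact ⟨h12, by linarith⟩
        rcases hb0.lt_or_eq with hb | hb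
        · right
          refine ⟨by rw [hoy, hoz] at hmu; exact hmu, hA0, ?_⟩
          have h12 : b / 3 * (b / 3) ≤ a * y :=
            mul_le_mul (by linarith) (by linarith) (by positivity) (by linarith)
          have h13 : b / 3 * (b / 3) * (b / 3) ≤ a * y * z :=
            mul_le_mul h12 (by linarith) (by positivity) (by positivity)
          have h14 : B ^ 3 * (b / 3 * (b / 3) * (b / 3)) ≤ k * (A * b ^ 3) :=
            (mul_le_mul_of_nonneg_left h13 (by positivity)).trans hid2
          have h15 : B ^ 3 * b ^ 3 ≤ 27 * k * A * b ^ 3 := by nlinarith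
          exact le_of_mul_le_mul_right h15 (by positivity)
        · -- `b = 0`
          rcases hzb hb.symm with h | h
          · right
            refine ⟨by rw [hoy, hoz] at hmu; exact hmu, hA0, ?_⟩
            rw [h]
            have : 0 ≤ 27 * k * A := by positivity
            linarith
          · left
            exact hz h
      · left; exact h

/-- case `(-,+)` -/
theorem case_mp (hk : 0 ≤ k) (hc2 : 4 < c2) (hB : 0 ≤ B)
    (ho : (own P ox && own Q oy && own R oz) = true)
    (he : ev (al P Q R) = false) (hf : ev (be P Q R) = true) :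
    (a = 0 ∧ b = 0) ∨ (P % 10 = 9 ∧ ox = true ∧ 0 < B ∧ A ^ 2 ≤ 4 * k * B) := by
  have ht := tab_true P Q R ox oy oz ho
  obtain ⟨m1, m2, m3, m4⟩ := tab_may ht
  have S' := S
  obtain ⟨hx0, hy0, hz0, hw0, ha0, hb0, hu0, hv0, ht0, hT0, hs10, hs20, hs30, hid1, hid2, hz, hzA, hzB,
    hza, hzb, ex, ey, ez, ew, offu, offv, offt, offT, off1, off2, off3, onu, onv, ont, onT,
    on1, on2, on3⟩ := S
  rw [he, hf] at ex ey ez
  simp only [sg, Bool.false_eq_true, if_false, if_true] at ex ey ez ew
  simp only [tab, Bool.and_eq_true, Bool.or_eq_true, Bool.not_eq_true', Bool.and_eq_false_iff]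
      at ht
  have h6 := ht.2
  rw [he, hf] at h6
  rcases h6 with ((h | h) | ⟨hox, h⟩) | ⟨⟨hox, h9⟩, h⟩
  · simp at h
  · simp at h
  · -- `x` own minus
    left
    rw [hox] at ex
    simp only [Bool.false_eq_true, if_false] at ex
    rcases h with ⟨⟨h1, h2⟩, h3⟩ | ⟨⟨h1, h2⟩, h3⟩
    · rw [h1, offt h2, off2 h3] at ey
      simp only [if_true] at ey
      constructor <;> linarith
    · rw [h1, offt h2, off3 h3] at ez
      simp only [if_true] at ez
      constructor <;> linarith
  · -- `x` in `J`, own plus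
    have h9' : P % 10 = 9 := by simpa using h9
    have fin : a ≤ 2 * x → b ≥ a / 2 →
        (a = 0 ∧ b = 0) ∨ (P % 10 = 9 ∧ ox = true ∧ 0 < B ∧ A ^ 2 ≤ 4 * k * B) := by
      intro hax hba
      rcases hB.lt_or_eq with hB0 | hB0
      swap
      · left
        have h12 : b = 0 := hzB hB0.symm
        exact ⟨by linarith, h12⟩
      rcases ha0.lt_or_eq with ha | ha
      · right
        refine ⟨h9', hox, hB0, ?_⟩
        have h12 : a / 2 * (a / 2) ≤ x * b :=
          mul_le_mul (by linarith) hba (by positivity) hx0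
        have h13 : a / 2 * (a / 2) * A ^ 2 ≤ k * (B * a ^ 2) :=
          (mul_le_mul_of_nonneg_right h12 (by positivity)).trans hid1
        have h14 : A ^ 2 * a ^ 2 ≤ 4 * k * B * a ^ 2 := by nlinarith
        exact le_of_mul_le_mul_right h14 (by positivity)
      · rcases hza ha.symm with h | h
        · right
          refine ⟨h9', hox, hB0, ?_⟩
          rw [h]
          have : 0 ≤ 4 * k * B := by positivity
          linarith
        · left
          exact hz h
    rw [hox] at ex
    simp only [if_true] at ex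
    rcases h with ⟨⟨⟨⟨h1, h2⟩, h3⟩, h4⟩, h5⟩ | ⟨⟨⟨⟨h1, h2⟩, h3⟩, h4⟩, h5⟩
    · have hT := offT h4
      rw [h1, offt h3, off2 h5, hT] at ey
      rw [hT] at ex
      simp only [if_true] at ey
      by_cases hK : 2 * b - a < 0
      · left
        apply S'.ab_zero
        have := (pair_zero hc2 (by linarith) (by linarith) hu0 (onu (m1 hox h1 h2))).2
        rw [this, zero_mul]
      · push Not at hK
        exact fin (by linarith) (by linarith)
    · have hT := offT h4
      rw [h1, offt h3, off3 h5, hT] at ez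
      rw [hT] at ex
      simp only [if_true] at ez
      by_cases hK : 2 * b - a < 0
      · left
        apply S'.ab_zero
        have := (pair_zero hc2 (by linarith) (by linarith) hv0 (onv (m2 hox h1 h2))).2
        rw [show x * y * z = x * z * y by ring, this, zero_mul]
      · push Not at hK
        exact fin (by linarith) (by linarith)

/-- **no real bad point off the two bad regions** -/
theorem main (hk : 0 ≤ k) (hc2 : 4 < c2) (hc3 : 27 < c3) (hA : 0 ≤ A) (hB : 0 ≤ B)
    (ho : (own P ox && own Q oy && own R oz) = true) :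
    (x = 0 ∧ y = 0 ∧ z = 0 ∧ w = 0) ∨ (P % 10 = 9 ∧ ox = true ∧ 0 < B ∧ A ^ 2 ≤ 4 * k * B) ∨
      (mustT P ox Q oy R oz = true ∧ 0 < A ∧ B ^ 3 ≤ 27 * k * A) := by
  have hz : a = 0 ∧ b = 0 → (x = 0 ∧ y = 0 ∧ z = 0 ∧ w = 0) := fun h =>
    S.zero hc2 hc3 ho h.1 h.2
  cases he : ev (al P Q R) with
  | true =>
    cases hf : ev (be P Q R) with
    | true => exact Or.inl (hz (S.case_pp ho he hf))
    | false =>
      rcases S.case_pm hk hc2 hc3 hA hB ho he hf with h | h
      · exact Or.inl (hz h)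
      · exact Or.inr (Or.inr h)
  | false =>
    cases hf : ev (be P Q R) with
    | true =>
      rcases S.case_mp hk hc2 hB ho he hf with h | h
      · exact Or.inl (hz h)
      · exact Or.inr (Or.inl h)
    | false => exact Or.inl (hz (S.case_mm hc2 hc3 ho he hf))

/-- over `J_x` the path `(M, M) → (M, 0) → (0, 0)` is free of real bad points -/
theorem path_J {M : ℝ} (hk : 0 ≤ k) (hM : 4 * k < M) (hc2 : 4 < c2) (hc3 : 27 < c3)
    (hP : P % 10 = 9) (hAB : (A = M ∧ 0 ≤ B ∧ B ≤ M) ∨ (0 ≤ A ∧ B = 0))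
    (ho : (own P ox && own Q oy && own R oz) = true) :
    x = 0 ∧ y = 0 ∧ z = 0 ∧ w = 0 := by
  have hM0 : 0 < M := by linarith
  have hA : 0 ≤ A := by rcases hAB with h | h <;> linarith [h.1]
  have hB : 0 ≤ B := by rcases hAB with h | h <;> linarith [h.2]
  rcases S.main hk hc2 hc3 hA hB ho with h | ⟨_, _, h1, h2⟩ | ⟨h1, _⟩
  · exact h
  · rcases hAB with ⟨h3, h4, h5⟩ | ⟨h3, h4⟩
    · rw [h3] at h2
      have h6 : 4 * k * B ≤ 4 * k * M := mul_le_mul_of_nonneg_left h5 (by positivity)
      have h7 : 4 * k * M < M * M := mul_lt_mul_of_pos_right hM hM0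
      nlinarith
    · linarith
  · rw [mustT_J hP] at h1; cases h1

/-- elsewhere the path `(M, M) → (0, M) → (0, 0)` is free of real bad points -/
theorem path_off {M : ℝ} (hk : 0 ≤ k) (hM0 : 0 < M) (hM : 27 * k < M ^ 2) (hc2 : 4 < c2)
    (hc3 : 27 < c3) (hP : P % 10 ≠ 9 ∨ ox = false)
    (hAB : (0 ≤ A ∧ A ≤ M ∧ B = M) ∨ (A = 0 ∧ 0 ≤ B))
    (ho : (own P ox && own Q oy && own R oz) = true) :
    x = 0 ∧ y = 0 ∧ z = 0 ∧ w = 0 := by
  have hA : 0 ≤ A := by rcases hAB with h | h <;> linarith [h.1]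
  have hB : 0 ≤ B := by rcases hAB with h | h <;> linarith [h.2]
  rcases S.main hk hc2 hc3 hA hB ho with h | ⟨h1, h2, _⟩ | ⟨_, h1, h2⟩
  · exact h
  · rcases hP with h | h
    · exact absurd h1 h
    · rw [h2] at h; cases h
  · rcases hAB with ⟨h3, h4, h5⟩ | ⟨h3, h4⟩
    · rw [h5] at h2
      have h6 : 27 * k * A ≤ 27 * k * M := mul_le_mul_of_nonneg_left h4 (by positivity)
      have h7 : 27 * k * M < M ^ 2 * M := mul_lt_mul_of_pos_right hM hM0
      nlinarith
    · linarith

/-- where the own sign of `x` is not `+` over `J` and the triple deletion is off there is no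
condition at all -/
theorem free (hk : 0 ≤ k) (hc2 : 4 < c2) (hc3 : 27 < c3) (hA : 0 ≤ A) (hB : 0 ≤ B)
    (hP : P % 10 ≠ 9 ∨ ox = false) (hT : mustT P ox Q oy R oz = false)
    (ho : (own P ox && own Q oy && own R oz) = true) :
    x = 0 ∧ y = 0 ∧ z = 0 ∧ w = 0 := by
  rcases S.main hk hc2 hc3 hA hB ho with h | ⟨h1, h2, _⟩ | ⟨h1, _⟩
  · exact h
  · rcases hP with h | h
    · exact absurd h1 h
    · rw [h2] at h; cases h
  · rw [hT] at h1; cases h1

end Sys

/-! ### the monomial identities from `a = A x^(3/5) (y z)^(1/5)`, `b = B x^(1/5) (y z)^(2/5)` -/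

section mono

variable {A B x y z a b : ℝ}

theorem mono_id1 (hx : 0 ≤ x) (hB : 0 ≤ B) (hb : 0 ≤ b)
    (a5 : a ^ 5 = A ^ 5 * (x ^ 3 * y * z)) (b5 : b ^ 5 = B ^ 5 * (x * y ^ 2 * z ^ 2)) :
    x * b * A ^ 2 = B * a ^ 2 := by
  have h : (x * b * A ^ 2) ^ 5 = (B * a ^ 2) ^ 5 := by
    have h1 : (x * b * A ^ 2) ^ 5 = x ^ 5 * b ^ 5 * A ^ 10 := by ring
    have h2 : (B * a ^ 2) ^ 5 = B ^ 5 * (a ^ 5) ^ 2 := by ring
    rw [h1, h2, a5, b5]; ring
  exact (pow_left_inj₀ (mul_nonneg (mul_nonneg hx hb) (sq_nonneg A))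
    (mul_nonneg hB (sq_nonneg a)) (by norm_num)).1 h

theorem mono_id2 (hA : 0 ≤ A) (hB : 0 ≤ B) (ha : 0 ≤ a) (hb : 0 ≤ b) (hy : 0 ≤ y) (hz : 0 ≤ z)
    (a5 : a ^ 5 = A ^ 5 * (x ^ 3 * y * z)) (b5 : b ^ 5 = B ^ 5 * (x * y ^ 2 * z ^ 2)) :
    B ^ 3 * (a * y * z) = A * b ^ 3 := by
  have h : (B ^ 3 * (a * y * z)) ^ 5 = (A * b ^ 3) ^ 5 := by
    have h1 : (B ^ 3 * (a * y * z)) ^ 5 = B ^ 15 * (a ^ 5 * y ^ 5 * z ^ 5) := by ring
    have h2 : (A * b ^ 3) ^ 5 = A ^ 5 * (b ^ 5) ^ 3 := by ring
    rw [h1, h2, a5, b5]; ring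
  exact (pow_left_inj₀ (mul_nonneg (pow_nonneg hB 3) (mul_nonneg (mul_nonneg ha hy) hz))
    (mul_nonneg hA (pow_nonneg hb 3)) (by norm_num)).1 h

theorem mono_zero (a5 : a ^ 5 = A ^ 5 * (x ^ 3 * y * z))
    (b5 : b ^ 5 = B ^ 5 * (x * y ^ 2 * z ^ 2)) (h : x * y * z = 0) : a = 0 ∧ b = 0 := by
  constructor
  · have h1 : a ^ 5 = 0 := by
      rw [a5, show A ^ 5 * (x ^ 3 * y * z) = A ^ 5 * (x ^ 2 * (x * y * z)) by ring, h]; ring
    exact pow_eq_zero_iff (by norm_num) |>.1 h1
  · have h1 : b ^ 5 = 0 := by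
      rw [b5, show B ^ 5 * (x * y ^ 2 * z ^ 2) = B ^ 5 * (y * z * (x * y * z)) by ring, h]; ring
    exact pow_eq_zero_iff (by norm_num) |>.1 h1

theorem mono_za (a5 : a ^ 5 = A ^ 5 * (x ^ 3 * y * z)) (h : a = 0) :
    A = 0 ∨ x * y * z = 0 := by
  have h11 : A ^ 5 * (x ^ 3 * y * z) = 0 := by rw [← a5, h]; norm_num
  rcases mul_eq_zero.1 h11 with h | h
  · exact Or.inl (pow_eq_zero_iff (by norm_num) |>.1 h)
  · right
    have h12 : (x * y * z) ^ 3 = 0 := by
      rw [show (x * y * z) ^ 3 = y ^ 2 * z ^ 2 * (x ^ 3 * y * z) by ring, h, mul_zero]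
    exact pow_eq_zero_iff (by norm_num) |>.1 h12

theorem mono_zb (b5 : b ^ 5 = B ^ 5 * (x * y ^ 2 * z ^ 2)) (h : b = 0) :
    B = 0 ∨ x * y * z = 0 := by
  have h11 : B ^ 5 * (x * y ^ 2 * z ^ 2) = 0 := by rw [← b5, h]; norm_num
  rcases mul_eq_zero.1 h11 with h | h
  · exact Or.inl (pow_eq_zero_iff (by norm_num) |>.1 h)
  · right
    have h12 : (x * y * z) ^ 2 = 0 := by
      rw [show (x * y * z) ^ 2 = x * (x * y ^ 2 * z ^ 2) by ring, h, mul_zero]
    exact pow_eq_zero_iff (by norm_num) |>.1 h12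

end mono

/-! ### bad points on a non-real line

There no deletion is active and no active variable or coupling has phase `-1`. -/

theorem rot {x y z a b : ℝ} {ex ey ez ea eb : Bool} (hx : 0 < x) (hy : 0 < y) (hz : 0 < z)
    (ha : 0 ≤ a) (hb : 0 ≤ b)
    (eqx : sg ex * x + (3 * (sg ea * a) + sg eb * b) / 5 = 0)
    (eqy : sg ey * y + (sg ea * a + 2 * (sg eb * b)) / 5 = 0)
    (eqz : sg ez * z + (sg ea * a + 2 * (sg eb * b)) / 5 = 0)
    (hab : a = 0 ∨ ea = ex ∨ (ea = eb ∧ (eb = ex ∨ eb = ey ∨ eb = ez)))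
    (hbt : b = 0 ∨ eb = ex ∨ eb = ey ∨ eb = ez) : False := by
  have h1 : ey = ez := by
    cases ey <;> cases ez <;> simp [sg] at eqy eqz ⊢ <;> linarith
  subst h1
  cases ex <;> cases ey <;> cases ea <;> cases eb <;> simp [sg] at eqx eqy eqz hab hbt <;>
    linarith

end Crest.Agent.R267.PatG_769
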