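import Mathlib

/-!
# The planar peel homeomorphism (row 267, leaves PeelJ, Peel0 of LEMMA M)

Coordinates `(X, Y)` of the plane, quadrant `X, Y ≥ 0` (`X` = distance to the wall, `Y` = scaled
log-distance to the strand `j` resp. to the plate). `m = min X Y`, `y = max D (32 D)`, `D = X - Y`.
The homeomorphism keeps `m` and shifts `y`; it carries the strip along the bent curve
`Y = max 2 (32 X - 22)` (which ends at the wall `X = 0`) to the strip along the line
`Y = 32 X - 22` (which ends at `Y = 0`), exactly.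
-/

set_option autoImplicit false

namespace Crest.Agent.R267.PeelA_966

open Set

/-! ### piecewise linear homeomorphisms of the line with a plateau -/

/-- trapezoid function: zero outside `(A, B)`, one on `[p, q]`. -/
noncomputable def trap (A p q B t : ℝ) : ℝ :=
  max 0 (min 1 (min ((t - A) / (p - A)) ((B - t) / (B - q))))

/-- the piecewise linear homeomorphism of the line, identity outside `(A, B)`, translation by `d`
on `[p, q]`. -/
noncomputable def sh (A p q B d t : ℝ) : ℝ := t + d * trap A p q B t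

variable {A p q B d t : ℝ}

lemma trap_of_le (h1 : A < p) (h : t ≤ A) : trap A p q B t = 0 := by
  unfold trap
  apply max_eq_left
  apply ((min_le_right _ _).trans (min_le_left _ _)).trans
  exact div_nonpos_of_nonpos_of_nonneg (by linarith) (by linarith)

lemma trap_of_ge (h3 : q < B) (h : B ≤ t) : trap A p q B t = 0 := by
  unfold trap
  apply max_eq_left
  apply ((min_le_right _ _).trans (min_le_right _ _)).trans
  exact div_nonpos_of_nonpos_of_nonneg (by linarith) (by linarith)

lemma trap_left (h1 : A < p) (h2 : p ≤ q) (h3 : q < B) (h : A ≤ t) (h' : t ≤ p) :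
    trap A p q B t = (t - A) / (p - A) := by
  unfold trap
  have e1 : (t - A) / (p - A) ≤ 1 := by
    rw [div_le_one (by linarith)]; linarith
  have e2 : 1 ≤ (B - t) / (B - q) := by
    rw [one_le_div (by linarith)]; linarith
  rw [min_eq_left (e1.trans e2), min_eq_right e1, max_eq_right]
  exact div_nonneg (by linarith) (by linarith)

lemma trap_mid (h1 : A < p) (h3 : q < B) (h : p ≤ t) (h' : t ≤ q) :
    trap A p q B t = 1 := by
  unfold trap
  have e1 : 1 ≤ (t - A) / (p - A) := by
    rw [one_le_div (by linarith)]; linarith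
  have e2 : 1 ≤ (B - t) / (B - q) := by
    rw [one_le_div (by linarith)]; linarith
  rw [min_eq_left (le_min e1 e2), max_eq_right zero_le_one]

lemma trap_right (h1 : A < p) (h2 : p ≤ q) (h3 : q < B) (h : q ≤ t) (h' : t ≤ B) :
    trap A p q B t = (B - t) / (B - q) := by
  unfold trap
  have e1 : 1 ≤ (t - A) / (p - A) := by
    rw [one_le_div (by linarith)]; linarith
  have e2 : (B - t) / (B - q) ≤ 1 := by
    rw [div_le_one (by linarith)]; linarith
  rw [min_eq_right (e2.trans e1), min_eq_right e2, max_eq_right]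
  exact div_nonneg (by linarith) (by linarith)

lemma sh_of_le (h1 : A < p) (h : t ≤ A) : sh A p q B d t = t := by
  unfold sh; rw [trap_of_le h1 h]; ring

lemma sh_of_ge (h3 : q < B) (h : B ≤ t) : sh A p q B d t = t := by
  unfold sh; rw [trap_of_ge h3 h]; ring

lemma sh_mid (h1 : A < p) (h3 : q < B) (h : p ≤ t) (h' : t ≤ q) :
    sh A p q B d t = t + d := by
  unfold sh; rw [trap_mid h1 h3 h h']; ring

lemma sh_zero : sh A p q B 0 t = t := by unfold sh; ring

lemma sh_left (h1 : A < p) (h2 : p ≤ q) (h3 : q < B) (h : A ≤ t) (h' : t ≤ p) :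
    sh A p q B d t = A + (t - A) * ((p + d - A) / (p - A)) := by
  unfold sh; rw [trap_left h1 h2 h3 h h']
  field_simp [show p - A ≠ 0 by linarith]
  ring

lemma sh_right (h1 : A < p) (h2 : p ≤ q) (h3 : q < B) (h : q ≤ t) (h' : t ≤ B) :
    sh A p q B d t = B - (B - t) * ((B - (q + d)) / (B - q)) := by
  unfold sh; rw [trap_right h1 h2 h3 h h']
  field_simp [show B - q ≠ 0 by linarith]
  ring

/-- the inverse. -/
lemma sh_sh (h1 : A < p) (h2 : p ≤ q) (h3 : q < B) (h4 : A < p + d) (h5 : q + d < B) :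
    sh A (p + d) (q + d) B (-d) (sh A p q B d t) = t := by
  rcases le_total t A with h | h
  · rw [sh_of_le h1 h, sh_of_le h4 h]
  rcases le_total B t with h' | h'
  · rw [sh_of_ge h3 h', sh_of_ge h5 h']
  rcases le_total t p with k | k
  · rw [sh_left h1 h2 h3 h k]
    have e1 : 0 < (p + d - A) / (p - A) := div_pos (by linarith) (by linarith)
    have e2 : (t - A) * ((p + d - A) / (p - A)) ≤ p + d - A := by
      calc (t - A) * ((p + d - A) / (p - A)) ≤ (p - A) * ((p + d - A) / (p - A)) :=
            mul_le_mul_of_nonneg_right (by linarith) e1.le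
        _ = p + d - A := by field_simp [show p - A ≠ 0 by linarith]
    have e3 : 0 ≤ (t - A) * ((p + d - A) / (p - A)) := mul_nonneg (by linarith) e1.le
    rw [sh_left h4 (by linarith) h5 (by linarith) (by linarith)]
    have n1 : p - A ≠ 0 := by linarith
    have n2 : p + d - A ≠ 0 := by linarith
    have : p + d + -d - A = p - A := by ring
    rw [this]
    field_simp
    ring
  rcases le_total q t with k' | k'
  · rw [sh_right h1 h2 h3 k' h']
    have e1 : 0 < (B - (q + d)) / (B - q) := div_pos (by linarith) (by linarith)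
    have e2 : (B - t) * ((B - (q + d)) / (B - q)) ≤ B - (q + d) := by
      calc (B - t) * ((B - (q + d)) / (B - q)) ≤ (B - q) * ((B - (q + d)) / (B - q)) :=
            mul_le_mul_of_nonneg_right (by linarith) e1.le
        _ = B - (q + d) := by field_simp [show B - q ≠ 0 by linarith]
    have e3 : 0 ≤ (B - t) * ((B - (q + d)) / (B - q)) := mul_nonneg (by linarith) e1.le
    rw [sh_right h4 (by linarith) h5 (by linarith) (by linarith)]
    have n1 : B - q ≠ 0 := by linarith
    have n2 : B - (q + d) ≠ 0 := by linarith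
    have : B - (q + d + -d) = B - q := by ring
    rw [this]
    field_simp
    ring
  · rw [sh_mid h1 h3 k k', sh_mid h4 h5 (by linarith) (by linarith)]
    ring

lemma continuous_sh {X : Type*} [TopologicalSpace X] {A p q B d t : X → ℝ} (hA : Continuous A)
    (hp : Continuous p) (hq : Continuous q) (hB : Continuous B) (hd : Continuous d)
    (ht : Continuous t) (h1 : ∀ x, A x < p x) (h3 : ∀ x, q x < B x) :
    Continuous fun x => sh (A x) (p x) (q x) (B x) (d x) (t x) := by
  unfold sh trap
  refine ht.add (hd.mul (continuous_const.max (continuous_const.min (Continuous.min ?_ ?_))))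
  · exact (ht.sub hA).div (hp.sub hA) fun x => (sub_pos.2 (h1 x)).ne'
  · exact (hB.sub ht).div (hB.sub hq) fun x => (sub_pos.2 (h3 x)).ne'

/-! ### the coordinates `(m, y)` -/

/-- the coordinate `y`. -/
noncomputable def yc (z : ℝ × ℝ) : ℝ := max (z.1 - z.2) (32 * (z.1 - z.2))

/-- the coordinate `m`. -/
noncomputable def mc (z : ℝ × ℝ) : ℝ := min z.1 z.2

/-- from `(m, y)` to `(X, Y)`. -/
noncomputable def back (m y : ℝ) : ℝ × ℝ :=
  (m + max (min y (y / 32)) 0, m + max (-(min y (y / 32))) 0)

lemma back_mc_yc (z : ℝ × ℝ) : back (mc z) (yc z) = z := by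
  obtain ⟨X, Y⟩ := z
  unfold back mc yc
  rcases le_total X Y with h | h
  · have e1 : max (X - Y) (32 * (X - Y)) = X - Y := max_eq_left (by linarith)
    have e2 : min (X - Y) ((X - Y) / 32) = X - Y := min_eq_left (by linarith)
    simp only [e1, e2, min_eq_left h]
    rw [max_eq_right (by linarith), max_eq_left (by linarith)]
    ext <;> simp
  · have e1 : max (X - Y) (32 * (X - Y)) = 32 * (X - Y) := max_eq_right (by linarith)
    have e2 : min (32 * (X - Y)) (32 * (X - Y) / 32) = X - Y := by
      rw [min_eq_right (by linarith)]; ring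
    simp only [e1, e2, min_eq_right h]
    rw [max_eq_left (by linarith), max_eq_right (by linarith)]
    ext <;> simp

lemma mc_back (m y : ℝ) : mc (back m y) = m := by
  unfold mc back
  rcases le_total (min y (y / 32)) 0 with h | h
  · rw [max_eq_right h, max_eq_left (by linarith), min_eq_left (by linarith)]; ring
  · rw [max_eq_left h, max_eq_right (by linarith), min_eq_right (by linarith)]; ring

lemma yc_back (m y : ℝ) : yc (back m y) = y := by
  unfold yc back
  rcases le_total y 0 with h | h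
  · have e : min y (y / 32) = y := min_eq_left (by linarith)
    simp only [e]
    rw [max_eq_right h, max_eq_left (show 0 ≤ -y by linarith), max_eq_left (by linarith)]
    ring
  · have e : min y (y / 32) = y / 32 := min_eq_right (by linarith)
    simp only [e]
    rw [max_eq_left (show 0 ≤ y / 32 by linarith), max_eq_right (show -(y / 32) ≤ 0 by linarith),
      max_eq_right (by linarith)]
    ring

lemma continuous_yc : Continuous yc := by unfold yc; fun_prop

lemma continuous_mc : Continuous mc := by unfold mc; fun_prop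

lemma continuous_back : Continuous fun p : ℝ × ℝ => back p.1 p.2 := by unfold back; fun_prop

/-! ### the homeomorphism -/

/-- largest shift. -/
noncomputable def gmax (m : ℝ) : ℝ := 32 * max 0 (3 / 4 - m)

/-- actual shift: cut off for `m ≤ -1/8` and by `lam ∈ [0, 1]`. -/
noncomputable def gam (lam m : ℝ) : ℝ := max 0 (min 1 lam) * max 0 (min 1 (1 + 8 * m)) * gmax m

lemma gmax_nonneg (m : ℝ) : 0 ≤ gmax m := by unfold gmax; positivity

lemma gam_nonneg (lam m : ℝ) : 0 ≤ gam lam m := by
  unfold gam; have := gmax_nonneg m; positivity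

lemma gam_le (lam m : ℝ) : gam lam m ≤ gmax m := by
  unfold gam
  have h1 : max 0 (min 1 lam) ≤ 1 := max_le zero_le_one (min_le_left _ _)
  have h2 : max 0 (min 1 (1 + 8 * m)) ≤ 1 := max_le zero_le_one (min_le_left _ _)
  have h3 : 0 ≤ max 0 (min 1 lam) := le_max_left _ _
  have h4 : 0 ≤ max 0 (min 1 (1 + 8 * m)) := le_max_left _ _
  have h5 : max 0 (min 1 lam) * max 0 (min 1 (1 + 8 * m)) ≤ 1 := mul_le_one₀ h1 h4 h2
  calc _ ≤ 1 * gmax m := mul_le_mul_of_nonneg_right h5 (gmax_nonneg m)
    _ = gmax m := one_mul _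

lemma gam_zero (lam m : ℝ) (h : lam ≤ 0) : gam lam m = 0 := by
  unfold gam
  rw [min_eq_right (by linarith), max_eq_left h]; ring

lemma gam_of_ge (lam m : ℝ) (h : 3 / 4 ≤ m) : gam lam m = 0 := by
  unfold gam gmax
  rw [max_eq_left (show 3 / 4 - m ≤ 0 by linarith)]; ring

lemma gam_of_le (lam m : ℝ) (h : m ≤ -(1 / 8)) : gam lam m = 0 := by
  unfold gam
  rw [min_eq_right (show 1 + 8 * m ≤ 1 by linarith), max_eq_left (show 1 + 8 * m ≤ 0 by linarith)]
  ring

lemma gam_one (m : ℝ) (h : 0 ≤ m) (h' : m ≤ 3 / 4) : gam 1 m = 32 * (3 / 4 - m) := by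
  unfold gam gmax
  rw [min_self, max_eq_right zero_le_one, min_eq_left (show 1 ≤ 1 + 8 * m by linarith),
    max_eq_right zero_le_one, max_eq_right (show 0 ≤ 3 / 4 - m by linarith)]
  ring

lemma continuous_gmax : Continuous gmax := by unfold gmax; fun_prop

lemma continuous_gam : Continuous fun p : ℝ × ℝ => gam p.1 p.2 := by
  unfold gam
  have := continuous_gmax
  fun_prop

variable (w : ℝ)

/-- the shift of `y`. -/
noncomputable def fy (lam m y : ℝ) : ℝ :=
  sh (m - 2 - 2 * w) (m - 2 - w) (m - 2 + w) (m - 2 + gmax m + 2 * w) (gam lam m) y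

/-- the inverse shift of `y`. -/
noncomputable def gy (lam m y : ℝ) : ℝ :=
  sh (m - 2 - 2 * w) (m - 2 - w + gam lam m) (m - 2 + w + gam lam m) (m - 2 + gmax m + 2 * w)
    (-gam lam m) y

variable {w}

lemma gy_fy (hw : 0 < w) (lam m y : ℝ) : gy w lam m (fy w lam m y) = y := by
  unfold gy fy
  have h1 := gam_nonneg lam m
  have h2 := gam_le lam m
  exact sh_sh (by linarith) (by linarith) (by linarith) (by linarith) (by linarith)

lemma fy_gy (hw : 0 < w) (lam m y : ℝ) : fy w lam m (gy w lam m y) = y := by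
  unfold gy fy
  have h1 := gam_nonneg lam m
  have h2 := gam_le lam m
  have := sh_sh (A := m - 2 - 2 * w) (p := m - 2 - w + gam lam m) (q := m - 2 + w + gam lam m)
    (B := m - 2 + gmax m + 2 * w) (d := -gam lam m) (t := y)
    (by linarith) (by linarith) (by linarith) (by linarith) (by linarith)
  rw [show m - 2 - w + gam lam m + -gam lam m = m - 2 - w by ring,
    show m - 2 + w + gam lam m + -gam lam m = m - 2 + w by ring, neg_neg] at this
  exact this

lemma continuous_fy (hw : 0 < w) :
    Continuous fun p : ℝ × ℝ × ℝ => fy w p.1 p.2.1 p.2.2 := by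
  unfold fy
  have hg : Continuous fun p : ℝ × ℝ × ℝ => gam p.1 p.2.1 :=
    continuous_gam.comp (f := fun p : ℝ × ℝ × ℝ => (p.1, p.2.1)) (by fun_prop)
  have hm : Continuous fun p : ℝ × ℝ × ℝ => gmax p.2.1 :=
    continuous_gmax.comp (f := fun p : ℝ × ℝ × ℝ => p.2.1) (by fun_prop)
  refine continuous_sh ?_ ?_ ?_ ?_ hg ?_ ?_ ?_
  any_goals fun_prop
  · intro x; linarith
  · intro x
    have := gmax_nonneg x.2.1
    linarith

lemma continuous_gy (hw : 0 < w) :
    Continuous fun p : ℝ × ℝ × ℝ => gy w p.1 p.2.1 p.2.2 := by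
  unfold gy
  have hg : Continuous fun p : ℝ × ℝ × ℝ => gam p.1 p.2.1 :=
    continuous_gam.comp (f := fun p : ℝ × ℝ × ℝ => (p.1, p.2.1)) (by fun_prop)
  have hm : Continuous fun p : ℝ × ℝ × ℝ => gmax p.2.1 :=
    continuous_gmax.comp (f := fun p : ℝ × ℝ × ℝ => p.2.1) (by fun_prop)
  refine continuous_sh ?_ ?_ ?_ ?_ hg.neg ?_ ?_ ?_
  any_goals fun_prop
  · intro x
    have := gam_nonneg x.1 x.2.1
    linarith
  · intro x
    have := gam_le x.1 x.2.1
    linarith

variable (w)

/-- the planar homeomorphism. -/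
noncomputable def Phi (lam : ℝ) (z : ℝ × ℝ) : ℝ × ℝ := back (mc z) (fy w lam (mc z) (yc z))

/-- its inverse. -/
noncomputable def Psi (lam : ℝ) (z : ℝ × ℝ) : ℝ × ℝ := back (mc z) (gy w lam (mc z) (yc z))

variable {w}

lemma Psi_Phi (hw : 0 < w) (lam : ℝ) (z : ℝ × ℝ) : Psi w lam (Phi w lam z) = z := by
  unfold Psi Phi
  rw [mc_back, yc_back, gy_fy hw, back_mc_yc]

lemma Phi_Psi (hw : 0 < w) (lam : ℝ) (z : ℝ × ℝ) : Phi w lam (Psi w lam z) = z := by
  unfold Psi Phi
  rw [mc_back, yc_back, fy_gy hw, back_mc_yc]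

lemma continuous_Phi (hw : 0 < w) : Continuous fun p : ℝ × ℝ × ℝ => Phi w p.1 p.2 := by
  unfold Phi
  have h1 : Continuous fun p : ℝ × ℝ × ℝ => mc p.2 := continuous_mc.comp continuous_snd
  have h2 : Continuous fun p : ℝ × ℝ × ℝ => yc p.2 := continuous_yc.comp continuous_snd
  exact continuous_back.comp (h1.prodMk
    ((continuous_fy hw).comp (continuous_fst.prodMk (h1.prodMk h2))))

lemma continuous_Psi (hw : 0 < w) : Continuous fun p : ℝ × ℝ × ℝ => Psi w p.1 p.2 := by
  unfold Psi
  have h1 : Continuous fun p : ℝ × ℝ × ℝ => mc p.2 := continuous_mc.comp continuous_snd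
  have h2 : Continuous fun p : ℝ × ℝ × ℝ => yc p.2 := continuous_yc.comp continuous_snd
  exact continuous_back.comp (h1.prodMk
    ((continuous_gy hw).comp (continuous_fst.prodMk (h1.prodMk h2))))

lemma mc_Phi (lam : ℝ) (z : ℝ × ℝ) : mc (Phi w lam z) = mc z := mc_back _ _

lemma mc_Psi (lam : ℝ) (z : ℝ × ℝ) : mc (Psi w lam z) = mc z := mc_back _ _

/-- outside the support. -/
def Out (w lam : ℝ) (z : ℝ × ℝ) : Prop :=
  lam ≤ 0 ∨ 3 / 4 ≤ z.1 ∨ 2 + 2 * w ≤ z.2 ∨ z.1 ≤ -(1 / 8) ∨ z.2 ≤ -(1 / 8)

lemma Phi_out (hw : 0 < w) (hw1 : w ≤ 1 / 8) {lam : ℝ} {z : ℝ × ℝ} (h : Out w lam z) :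
    Phi w lam z = z := by
  have key : fy w lam (mc z) (yc z) = yc z := by
    by_contra hne
    have g0 : gam lam (mc z) ≠ 0 := by
      intro h0
      apply hne
      unfold fy
      rw [h0, sh_zero]
    have h1 : ¬ lam ≤ 0 := fun h' => g0 (gam_zero _ _ h')
    have h2 : ¬ 3 / 4 ≤ mc z := fun h' => g0 (gam_of_ge _ _ h')
    have h3 : ¬ mc z ≤ -(1 / 8) := fun h' => g0 (gam_of_le _ _ h')
    have g1 := gmax_nonneg (mc z)
    have h4 : ¬ yc z ≤ mc z - 2 - 2 * w := fun h' => hne (by
      unfold fy; exact sh_of_le (by linarith) h')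
    have h5 : ¬ mc z - 2 + gmax (mc z) + 2 * w ≤ yc z := fun h' => hne (by
      unfold fy; exact sh_of_ge (by linarith) h')
    have g2 : gmax (mc z) = 32 * (3 / 4 - mc z) := by
      unfold gmax; rw [max_eq_right (by linarith)]
    rw [g2] at h5
    obtain ⟨X, Y⟩ := z
    simp only [mc, yc] at h2 h3 h4 h5
    simp only [Out] at h
    push Not at h1 h2 h3 h4 h5
    rcases le_total X Y with hXY | hXY
    · rw [min_eq_left hXY] at h2 h3 h4 h5
      rw [max_eq_left (show 32 * (X - Y) ≤ X - Y by linarith)] at h4 h5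
      rcases h with h | h | h | h | h <;> linarith
    · rw [min_eq_right hXY] at h2 h3 h4 h5
      rw [max_eq_right (show X - Y ≤ 32 * (X - Y) by linarith)] at h4 h5
      rcases h with h | h | h | h | h <;> linarith
  unfold Phi
  rw [key, back_mc_yc]

lemma Psi_out (hw : 0 < w) (hw1 : w ≤ 1 / 8) {lam : ℝ} {z : ℝ × ℝ} (h : Out w lam z) :
    Psi w lam z = z := by
  have := Psi_Phi hw lam z
  rwa [Phi_out hw hw1 h] at this

/-- the strip coordinate of the bent curve. -/
noncomputable def k1 (z : ℝ × ℝ) : ℝ := z.2 - max 2 (32 * z.1 - 22)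

/-- the strip coordinate of the line. -/
noncomputable def k2 (z : ℝ × ℝ) : ℝ := z.2 - (32 * z.1 - 22)

lemma yc_eq (z : ℝ × ℝ) : yc z = 22 - 31 * mc z - k2 z := by
  obtain ⟨X, Y⟩ := z
  unfold yc mc k2
  rcases le_total X Y with h | h
  · rw [max_eq_left (by simp only; linarith), min_eq_left h]; simp only; ring
  · rw [max_eq_right (by simp only; linarith), min_eq_right h]; simp only; ring

lemma k1_eq_k2 {z : ℝ × ℝ} (h : 3 / 4 ≤ mc z) : k1 z = k2 z := by
  unfold k1 k2
  have : 3 / 4 ≤ z.1 := h.trans (min_le_left _ _)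
  rw [max_eq_right (by linarith)]

lemma Phi_k1 (hw : 0 < w) (hw1 : w ≤ 1 / 8) {z : ℝ × ℝ} (h0 : 0 ≤ mc z) (h : |k1 z| ≤ w) :
    k2 (Phi w 1 z) = k1 z := by
  rcases le_total (3 / 4) (mc z) with h1 | h1
  · have : Phi w 1 z = z := Phi_out hw hw1 (Or.inr (Or.inl (h1.trans (min_le_left _ _))))
    rw [this, k1_eq_k2 h1]
  · have g := gam_one (mc z) h0 h1
    have gm : gmax (mc z) = 32 * (3 / 4 - mc z) := by
      unfold gmax; rw [max_eq_right (by linarith)]
    have e2 := yc_eq (Phi w 1 z)
    have e3 : yc (Phi w 1 z) = fy w 1 (mc z) (yc z) := yc_back _ _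
    rw [abs_le] at h
    -- `m = X`, `y = X - Y`
    rcases h1.lt_or_eq with h1' | h1'
    · have hX : z.1 ≤ z.2 := by
        by_contra hc
        push Not at hc
        have : mc z = z.2 := min_eq_right hc.le
        have k : 2 ≤ max 2 (32 * z.1 - 22) := le_max_left _ _
        unfold k1 at h
        linarith
      have hm : mc z = z.1 := min_eq_left hX
      have hk : k1 z = z.2 - 2 := by
        unfold k1; rw [max_eq_left (by rw [hm] at h1'; linarith)]
      have hy : yc z = z.1 - z.2 := by
        unfold yc; exact max_eq_left (by linarith)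
      have hf : fy w 1 (mc z) (yc z) = yc z + gam 1 (mc z) := by
        unfold fy
        refine sh_mid (by linarith) (by linarith) ?_ ?_
        · rw [hy, hm]; linarith
        · rw [hy, hm]; linarith
      rw [mc_Phi, e3, hf, g, hy, hm] at e2
      rw [hk]
      linarith
    · have : Phi w 1 z = z :=
        Phi_out hw hw1 (Or.inr (Or.inl (h1'.symm.le.trans (min_le_left _ _))))
      rw [this, k1_eq_k2 h1'.symm.le]

lemma Psi_k2 (hw : 0 < w) (hw1 : w ≤ 1 / 8) {z : ℝ × ℝ} (h0 : 0 ≤ mc z) (h : |k2 z| ≤ w) :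
    k1 (Psi w 1 z) = k2 z := by
  rcases le_total (3 / 4) (mc z) with h1 | h1
  · have : Psi w 1 z = z := Psi_out hw hw1 (Or.inr (Or.inl (h1.trans (min_le_left _ _))))
    rw [this, k1_eq_k2 h1]
  · have g := gam_one (mc z) h0 h1
    have gm : gmax (mc z) = 32 * (3 / 4 - mc z) := by
      unfold gmax; rw [max_eq_right (by linarith)]
    have e2 := yc_eq z
    rw [abs_le] at h
    have hg : gy w 1 (mc z) (yc z) = yc z - gam 1 (mc z) := by
      unfold gy
      rw [sh_mid (by linarith) (by linarith) (by linarith) (by linarith)]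
      ring
    have e4 : gy w 1 (mc z) (yc z) = mc z - 2 - k2 z := by rw [hg, g, e2]; ring
    unfold Psi
    rw [e4]
    unfold back k1
    have n1 : mc z - 2 - k2 z ≤ 0 := by linarith
    have e5 : min (mc z - 2 - k2 z) ((mc z - 2 - k2 z) / 32) = mc z - 2 - k2 z :=
      min_eq_left (by linarith)
    rw [e5, max_eq_right n1, max_eq_left (show 0 ≤ -(mc z - 2 - k2 z) by linarith)]
    simp only
    rw [max_eq_left (by linarith)]
    ring

/-- **strip lemma** -/
theorem strip (hw : 0 < w) (hw1 : w ≤ 1 / 8) {z : ℝ × ℝ} (h0 : 0 ≤ mc z)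
    (h : |k1 z| ≤ w ∨ |k2 (Phi w 1 z)| ≤ w) : k2 (Phi w 1 z) = k1 z := by
  rcases h with h | h
  · exact Phi_k1 hw hw1 h0 h
  · have := Psi_k2 hw hw1 (z := Phi w 1 z) (by rwa [mc_Phi]) h
    rw [Psi_Phi hw] at this
    exact this.symm

end Crest.Agent.R267.PeelA_966
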