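import Crest.Agent.R267.LM_808

/-!
# Polar lifts (row 267, leaves PeelJ, Peel0 of LEMMA M)

A compactly supported family of homeomorphisms of the plane `(s, t)` acts on `Bc × Vc`:
`s = u 1`, `t = log ‖v‖`, in a chart given by a frame field.
-/

set_option autoImplicit false

namespace Crest.Agent.R267.PeelB_966

open Set Metric
open scoped RealInnerProductSpace
open Crest.Agent.R267.GS_808 Crest.Agent.R267.NF_808
open Crest.Agent.R267

/-! ### `us` -/

section us

variable {n : ℕ}

@[simp] lemma us_one (u : Bc (n + 2)) (s : ℝ) : us u s 1 = s := by simp [us]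

@[simp] lemma us_us (u : Bc (n + 2)) (s s' : ℝ) : us (us u s) s' = us u s' := by simp [us]

@[simp] lemma us_self (u : Bc (n + 2)) : us u (u 1) = u := by simp [us]

lemma continuous_us {X : Type*} [TopologicalSpace X] {f : X → Bc (n + 2)} {g : X → ℝ}
    (hf : Continuous f) (hg : Continuous g) : Continuous fun x => us (f x) (g x) := by
  unfold us
  exact hf.update 1 hg

lemma norm_us_zero_le (u : Bc (n + 2)) : ‖us u 0‖ ≤ ‖u‖ := by
  rw [pi_norm_le_iff_of_nonneg (norm_nonneg _)]
  intro i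
  by_cases hi : i = 1
  · subst hi; simp
  · unfold us
    rw [Function.update_of_ne hi]
    exact norm_le_pi_norm u i

lemma norm_us_le_iff (u : Bc (n + 2)) {c : ℝ} (hc : 0 ≤ c) :
    ‖u‖ ≤ c ↔ ‖us u 0‖ ≤ c ∧ |u 1| ≤ c := by
  constructor
  · intro h
    refine ⟨(norm_us_zero_le u).trans h, ?_⟩
    have := norm_le_pi_norm u 1
    rw [Real.norm_eq_abs] at this
    linarith
  · rintro ⟨h1, h2⟩
    rw [pi_norm_le_iff_of_nonneg hc]
    intro i
    by_cases hi : i = 1
    · subst hi; rwa [Real.norm_eq_abs]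
    · have := norm_le_pi_norm (us u 0) i
      unfold us at this
      rw [Function.update_of_ne hi] at this
      exact this.trans h1

lemma norm_eq_max (u : Bc (n + 2)) : ‖u‖ = max ‖us u 0‖ |u 1| := by
  apply le_antisymm
  · rw [norm_us_le_iff u (le_max_of_le_left (norm_nonneg _))]
    exact ⟨le_max_left _ _, le_max_right _ _⟩
  · apply max_le (norm_us_zero_le u)
    have := norm_le_pi_norm u 1
    rwa [Real.norm_eq_abs] at this

/-- cut-off in the variables other than `s`. -/
noncomputable def cut (u : Bc (n + 2)) : ℝ := max 0 (min 1 (2 - ‖us u 0‖))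

@[simp] lemma cut_us (u : Bc (n + 2)) (s : ℝ) : cut (us u s) = cut u := by simp [cut]

lemma continuous_cut : Continuous (cut : Bc (n + 2) → ℝ) := by
  unfold cut
  have := continuous_us (n := n) (X := Bc (n + 2)) continuous_id (continuous_const (y := (0 : ℝ)))
  exact continuous_const.max (continuous_const.min (continuous_const.sub this.norm))

lemma cut_one {u : Bc (n + 2)} (h : ‖us u 0‖ ≤ 1) : cut u = 1 := by
  unfold cut
  rw [min_eq_left (by linarith), max_eq_right zero_le_one]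

lemma cut_zero {u : Bc (n + 2)} (h : 2 ≤ ‖us u 0‖) : cut u ≤ 0 := by
  unfold cut
  rw [min_eq_right (by linarith), max_eq_left (by linarith)]

end us

/-! ### compactly supported families of planar homeomorphisms -/

/-- a compactly supported family of homeomorphisms of the plane. -/
structure PlH where
  f : ℝ → ℝ × ℝ → ℝ × ℝ
  g : ℝ → ℝ × ℝ → ℝ × ℝ
  cf : Continuous fun p : ℝ × ℝ × ℝ => f p.1 p.2
  cg : Continuous fun p : ℝ × ℝ × ℝ => g p.1 p.2
  gf : ∀ l z, g l (f l z) = z
  fg : ∀ l z, f l (g l z) = z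
  t0 : ℝ
  t1 : ℝ
  S : ℝ
  out : ∀ l z, (l ≤ 0 ∨ z.2 ≤ t0 ∨ t1 ≤ z.2 ∨ S ≤ |z.1|) → f l z = z

/-- the inverse family. -/
def PlH.symm (P : PlH) : PlH where
  f := P.g
  g := P.f
  cf := P.cg
  cg := P.cf
  gf := P.fg
  fg := P.gf
  t0 := P.t0
  t1 := P.t1
  S := P.S
  out := fun l z h => by
    have := P.gf l z
    rwa [P.out l z h] at this

lemma PlH.ge (P : PlH) {l : ℝ} {z : ℝ × ℝ} (h : P.t0 ≤ z.2) : P.t0 ≤ (P.f l z).2 := by
  by_contra hc
  push Not at hc
  have h1 := P.out l (P.f l z) (Or.inr (Or.inl hc.le))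
  have h2 : P.f l z = z := by
    have := congrArg (P.g l) h1
    rwa [P.gf, P.gf] at this
  rw [h2] at hc
  linarith

section lift

variable {n : ℕ} {V : Type*} [NormedAddCommGroup V] [InnerProductSpace ℝ V]

/-- regularised log radius. -/
noncomputable def tau (t0 : ℝ) (v : V) : ℝ := Real.log (max ‖v‖ (Real.exp t0))

lemma tau_of_le {t0 : ℝ} {v : V} (h : ‖v‖ ≤ Real.exp t0) : tau t0 v = t0 := by
  unfold tau; rw [max_eq_right h, Real.log_exp]

lemma tau_of_ge {t0 : ℝ} {v : V} (h : Real.exp t0 ≤ ‖v‖) : tau t0 v = Real.log ‖v‖ := by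
  unfold tau; rw [max_eq_left h]

lemma le_tau (t0 : ℝ) (v : V) : t0 ≤ tau t0 v := by
  unfold tau
  calc t0 = Real.log (Real.exp t0) := (Real.log_exp _).symm
    _ ≤ _ := Real.log_le_log (Real.exp_pos _) (le_max_right _ _)

lemma continuous_tau (t0 : ℝ) : Continuous (tau t0 : V → ℝ) := by
  unfold tau
  refine Continuous.log (by fun_prop) fun x => ?_
  have := (Real.exp_pos t0).trans_le (le_max_right ‖x‖ (Real.exp t0))
  exact this.ne'

/-- the polar lift of `f`. -/
noncomputable def pf (P : PlH) (p : Bc (n + 2) × V) : Bc (n + 2) × V :=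
  (us p.1 (P.f (cut p.1) (p.1 1, tau P.t0 p.2)).1,
    Real.exp ((P.f (cut p.1) (p.1 1, tau P.t0 p.2)).2 - tau P.t0 p.2) • p.2)

lemma tau_pf (P : PlH) (p : Bc (n + 2) × V) :
    tau P.t0 (pf P p).2 = (P.f (cut p.1) (p.1 1, tau P.t0 p.2)).2 := by
  obtain ⟨u, v⟩ := p
  have hge := P.ge (l := cut u) (z := (u 1, tau P.t0 v)) (le_tau _ _)
  rcases le_total ‖v‖ (Real.exp P.t0) with h | h
  · have ht := tau_of_le h
    have ho := P.out (cut u) (u 1, tau P.t0 v) (Or.inr (Or.inl ht.le))
    unfold pf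
    simp only [ho, sub_self, Real.exp_zero, one_smul]
  · have ht := tau_of_ge h
    have hv : 0 < ‖v‖ := (Real.exp_pos _).trans_le h
    have hn : ‖(pf P (u, v)).2‖ = Real.exp (P.f (cut u) (u 1, tau P.t0 v)).2 := by
      unfold pf
      simp only
      rw [norm_smul, Real.norm_eq_abs, abs_of_pos (Real.exp_pos _), Real.exp_sub, ht,
        Real.exp_log hv]
      field_simp
    rw [tau_of_ge, hn, Real.log_exp]
    rw [hn]
    exact Real.exp_le_exp.2 hge

lemma pf_pf (P : PlH) (p : Bc (n + 2) × V) : pf P.symm (pf P p) = p := by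
  obtain ⟨u, v⟩ := p
  have ht : tau P.symm.t0 (pf P (u, v)).2 = (P.f (cut u) (u 1, tau P.t0 v)).2 := tau_pf P (u, v)
  have h1 : (pf P (u, v)).1 = us u (P.f (cut u) (u 1, tau P.t0 v)).1 := rfl
  have h2 : (pf P (u, v)).2 =
    Real.exp ((P.f (cut u) (u 1, tau P.t0 v)).2 - tau P.t0 v) • v := rfl
  have h3 : P.symm.f (cut (pf P (u, v)).1) ((pf P (u, v)).1 1, tau P.symm.t0 (pf P (u, v)).2) =
      (u 1, tau P.t0 v) := by
    rw [ht, h1, us_one, cut_us]
    exact P.gf _ _
  have e : ∀ q : Bc (n + 2) × V, pf P.symm q =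
    (us q.1 (P.symm.f (cut q.1) (q.1 1, tau P.symm.t0 q.2)).1,
      Real.exp ((P.symm.f (cut q.1) (q.1 1, tau P.symm.t0 q.2)).2 - tau P.symm.t0 q.2) • q.2) :=
    fun q => rfl
  rw [e, h3, ht, h1, h2, us_us, us_self, smul_smul, ← Real.exp_add]
  simp

lemma continuous_pf (P : PlH) : Continuous (pf P : Bc (n + 2) × V → Bc (n + 2) × V) := by
  have h1 : Continuous fun p : Bc (n + 2) × V => tau P.t0 p.2 :=
    (continuous_tau _).comp continuous_snd
  have h2 : Continuous fun p : Bc (n + 2) × V => P.f (cut p.1) (p.1 1, tau P.t0 p.2) :=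
    P.cf.comp ((continuous_cut.comp continuous_fst).prodMk
      (((continuous_apply (1 : Fin (n + 2))).comp continuous_fst).prodMk h1))
  unfold pf
  refine (continuous_us continuous_fst (continuous_fst.comp h2)).prodMk ?_
  exact (Real.continuous_exp.comp ((continuous_snd.comp h2).sub h1)).smul continuous_snd

/-- the polar lift as a homeomorphism. -/
noncomputable def pfH (P : PlH) : Bc (n + 2) × V ≃ₜ Bc (n + 2) × V where
  toFun := pf P
  invFun := pf P.symm
  left_inv := pf_pf P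
  right_inv := pf_pf P.symm
  continuous_toFun := continuous_pf P
  continuous_invFun := continuous_pf P.symm

lemma pf_out (P : PlH) {u : Bc (n + 2)} {v : V}
    (h : P.f (cut u) (u 1, tau P.t0 v) = (u 1, tau P.t0 v)) : pf P (u, v) = (u, v) := by
  unfold pf
  simp only [h, sub_self, Real.exp_zero, one_smul, us_self]

lemma pf_far (P : PlH) {u : Bc (n + 2)} {v : V} (h : max 2 P.S < ‖u‖ ∨ Real.exp P.t1 < ‖v‖) :
    pf P (u, v) = (u, v) := by
  apply pf_out
  apply P.out
  rcases h with h | h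
  · rw [norm_eq_max] at h
    rcases le_total ‖us u 0‖ |u 1| with h' | h'
    · rw [max_eq_right h'] at h
      exact Or.inr (Or.inr (Or.inr ((le_max_right _ _).trans h.le)))
    · rw [max_eq_left h'] at h
      exact Or.inl (cut_zero ((le_max_left _ _).trans h.le))
  · refine Or.inr (Or.inr (Or.inl ?_))
    show P.t1 ≤ tau P.t0 v
    unfold tau
    calc P.t1 = Real.log (Real.exp P.t1) := (Real.log_exp _).symm
      _ ≤ _ := Real.log_le_log (Real.exp_pos _) (h.le.trans (le_max_left _ _))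

/-! ### frames -/

/-- a frame field. -/
structure Fra (n : ℕ) (V : Type*) [NormedAddCommGroup V] [InnerProductSpace ℝ V] where
  R : Bc (n + 2) → V ≃ₗᵢ[ℝ] V
  c : Continuous fun p : Bc (n + 2) × V => R p.1 p.2
  c' : Continuous fun p : Bc (n + 2) × V => (R p.1).symm p.2

/-- the trivial frame field. -/
def Fra.one (n : ℕ) (V : Type*) [NormedAddCommGroup V] [InnerProductSpace ℝ V] : Fra n V where
  R _ := LinearIsometryEquiv.refl ℝ _
  c := continuous_snd
  c' := continuous_snd

/-- the chart. -/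
def Fra.H (F : Fra n V) : Bc (n + 2) × V ≃ₜ Bc (n + 2) × V where
  toFun p := (p.1, F.R p.1 p.2)
  invFun p := (p.1, (F.R p.1).symm p.2)
  left_inv p := by simp
  right_inv p := by simp
  continuous_toFun := continuous_fst.prodMk F.c
  continuous_invFun := continuous_fst.prodMk F.c'

/-- the polar lift in the chart. -/
noncomputable def GH (P : PlH) (F : Fra n V) : Bc (n + 2) × V ≃ₜ Bc (n + 2) × V :=
  (F.H.symm.trans (pfH P)).trans F.H

lemma GH_apply (P : PlH) (F : Fra n V) (u : Bc (n + 2)) (v : V) :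
    GH P F (u, v) = (us u (P.f (cut u) (u 1, tau P.t0 v)).1,
      F.R (us u (P.f (cut u) (u 1, tau P.t0 v)).1)
        (Real.exp ((P.f (cut u) (u 1, tau P.t0 v)).2 - tau P.t0 v) • (F.R u).symm v)) := by
  have ht : tau P.t0 ((F.R u).symm v) = tau P.t0 v := by
    unfold tau; rw [LinearIsometryEquiv.norm_map]
  show F.H (pf P (u, (F.R u).symm v)) = _
  unfold pf
  simp only [ht]
  rfl

lemma GH_out (P : PlH) (F : Fra n V) {u : Bc (n + 2)} {v : V}
    (h : P.f (cut u) (u 1, tau P.t0 v) = (u 1, tau P.t0 v)) : GH P F (u, v) = (u, v) := by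
  rw [GH_apply]
  simp only [h, sub_self, Real.exp_zero, one_smul, us_self]
  simp

lemma GH_compact [ProperSpace V] (P : PlH) (F : Fra n V) :
    ∃ C : Set (Bc (n + 2) × V), IsCompact C ∧ ∀ p ∉ C, GH P F p = p := by
  refine ⟨closedBall 0 (max 2 P.S) ×ˢ closedBall 0 (Real.exp P.t1),
    (isCompact_closedBall _ _).prod (isCompact_closedBall _ _), ?_⟩
  rintro ⟨u, v⟩ hp
  rw [mem_prod, mem_closedBall_zero_iff, mem_closedBall_zero_iff, not_and_or, not_le, not_le] at hp
  have hv : ‖(F.R u).symm v‖ = ‖v‖ := LinearIsometryEquiv.norm_map _ _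
  have h : pf P (u, (F.R u).symm v) = (u, (F.R u).symm v) := pf_far P (by rw [hv]; exact hp)
  show F.H (pf P (u, (F.R u).symm v)) = _
  rw [h]
  show (u, F.R u ((F.R u).symm v)) = _
  simp

/-- the log radius of the image. -/
lemma log_GH (P : PlH) (F : Fra n V) {u : Bc (n + 2)} {v : V} (h : Real.exp P.t0 ≤ ‖v‖) :
    Real.log ‖(GH P F (u, v)).2‖ = (P.f (cut u) (u 1, Real.log ‖v‖)).2 ∧
      0 < ‖(GH P F (u, v)).2‖ := by
  have hv : 0 < ‖v‖ := (Real.exp_pos _).trans_le h
  have hn : ‖(GH P F (u, v)).2‖ = Real.exp (P.f (cut u) (u 1, Real.log ‖v‖)).2 := by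
    rw [GH_apply, tau_of_ge h]
    simp only
    rw [LinearIsometryEquiv.norm_map, norm_smul, LinearIsometryEquiv.norm_map, Real.norm_eq_abs,
      abs_of_pos (Real.exp_pos _), Real.exp_sub, Real.exp_log hv]
    field_simp
  rw [hn, Real.log_exp]
  exact ⟨rfl, Real.exp_pos _⟩

end lift

end Crest.Agent.R267.PeelB_966
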