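import Crest.Agent.R267.PeelA_966
import Crest.Agent.R267.PeelB_966

/-!
# PeelJ and Peel0 of LM_808 (row 267, LEMMA M)
-/

set_option autoImplicit false

namespace Crest.Agent.R267.PeelC_966

open Set Metric
open scoped RealInnerProductSpace
open Crest.Agent.R267.GS_808 Crest.Agent.R267.DraftB_808 Crest.Agent.R267.NF_808
open Crest.Agent.R267.LM_808
open Crest.Agent.R267 Crest.Agent.R267.PeelA_966 Crest.Agent.R267.PeelB_966

/-! ### quadrant coordinates -/

/-- `σ = 1`, `a = log r`: near the strand `j`; `σ = -1`, `a = log R`: near the plate. -/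
def zc (σ C a : ℝ) (z : ℝ × ℝ) : ℝ × ℝ := (1 - σ * z.1, σ * C * (z.2 - a))

/-- the inverse. -/
noncomputable def zi (σ C a : ℝ) (x : ℝ × ℝ) : ℝ × ℝ := (σ * (1 - x.1), a + σ * x.2 / C)

lemma zi_zc {σ C a : ℝ} (hσ : σ * σ = 1) (hC : C ≠ 0) (z : ℝ × ℝ) : zi σ C a (zc σ C a z) = z := by
  unfold zi zc
  ext
  · simp only; linear_combination z.1 * hσ
  · simp only
    field_simp
    linear_combination (z.2 - a) * hσ

lemma zc_zi {σ C a : ℝ} (hσ : σ * σ = 1) (hC : C ≠ 0) (z : ℝ × ℝ) : zc σ C a (zi σ C a z) = z := by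
  unfold zi zc
  ext
  · simp only; linear_combination (-1 + z.1) * hσ
  · simp only
    field_simp
    linear_combination z.2 * hσ

lemma continuous_zc (σ C a : ℝ) : Continuous (zc σ C a) := by unfold zc; fun_prop

lemma continuous_zi (σ C a : ℝ) : Continuous (zi σ C a) := by unfold zi; fun_prop

/-- the planar family. -/
noncomputable def mkP (σ C a w t0 t1 : ℝ) (hσ : σ * σ = 1) (hC : C ≠ 0) (hw : 0 < w)
    (hw1 : w ≤ 1 / 8) (h0 : ∀ t ≤ t0, 2 + 2 * w ≤ σ * C * (t - a) ∨ σ * C * (t - a) ≤ -(1 / 8))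
    (h1 : ∀ t ≥ t1, 2 + 2 * w ≤ σ * C * (t - a) ∨ σ * C * (t - a) ≤ -(1 / 8)) : PlH where
  f l z := zi σ C a (Phi w l (zc σ C a z))
  g l z := zi σ C a (Psi w l (zc σ C a z))
  cf := (continuous_zi σ C a).comp ((continuous_Phi hw).comp
    (continuous_fst.prodMk ((continuous_zc σ C a).comp continuous_snd)))
  cg := (continuous_zi σ C a).comp ((continuous_Psi hw).comp
    (continuous_fst.prodMk ((continuous_zc σ C a).comp continuous_snd)))
  gf l z := by rw [zc_zi hσ hC, Psi_Phi hw, zi_zc hσ hC]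
  fg l z := by rw [zc_zi hσ hC, Phi_Psi hw, zi_zc hσ hC]
  t0 := t0
  t1 := t1
  S := 9 / 8
  out := by
    intro l z h
    have hσ' : σ = 1 ∨ σ = -1 := by
      have : (σ - 1) * (σ + 1) = 0 := by linear_combination hσ
      rcases mul_eq_zero.1 this with h | h
      · left; linarith
      · right; linarith
    have key : Out w l (zc σ C a z) := by
      unfold Out zc
      rcases h with h | h | h | h
      · exact Or.inl h
      · rcases h0 _ h with k | k
        · exact Or.inr (Or.inr (Or.inl k))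
        · exact Or.inr (Or.inr (Or.inr (Or.inr k)))
      · rcases h1 _ h with k | k
        · exact Or.inr (Or.inr (Or.inl k))
        · exact Or.inr (Or.inr (Or.inr (Or.inr k)))
      · rcases le_abs.1 h with k | k
        · rcases hσ' with rfl | rfl
          · refine Or.inr (Or.inr (Or.inr (Or.inl ?_))); simp only; linarith
          · refine Or.inr (Or.inl ?_); simp only; linarith
        · rcases hσ' with rfl | rfl
          · refine Or.inr (Or.inl ?_); simp only; linarith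
          · refine Or.inr (Or.inr (Or.inr (Or.inl ?_))); simp only; linarith
    show zi σ C a (Phi w l (zc σ C a z)) = z
    rw [Phi_out hw hw1 key, zi_zc hσ hC]

/-! ### generalities on polar lifts -/

section polar

variable {n : ℕ} {V : Type*} [NormedAddCommGroup V] [InnerProductSpace ℝ V]

lemma GH_zero (P : PlH) (F : Fra n V) (u : Bc (n + 2)) : GH P F (u, 0) = (u, 0) := by
  apply GH_out
  apply P.out
  right; left
  show tau P.t0 (0 : V) ≤ P.t0
  rw [tau_of_le]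
  rw [norm_zero]; exact (Real.exp_pos _).le

/-- the polar lift for `v ≠ 0`. -/
lemma GH_apply' (P : PlH) (F : Fra n V) (u : Bc (n + 2)) {v : V} (hv : v ≠ 0) :
    GH P F (u, v) = (us u (P.f (cut u) (u 1, Real.log ‖v‖)).1,
      F.R (us u (P.f (cut u) (u 1, Real.log ‖v‖)).1)
        (Real.exp ((P.f (cut u) (u 1, Real.log ‖v‖)).2 - Real.log ‖v‖) • (F.R u).symm v)) := by
  rcases le_total (Real.exp P.t0) ‖v‖ with h | h
  · rw [GH_apply, tau_of_ge h]
  · have hv' : 0 < ‖v‖ := norm_pos_iff.2 hv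
    have e1 : P.f (cut u) (u 1, Real.log ‖v‖) = (u 1, Real.log ‖v‖) := by
      apply P.out
      right; left
      show Real.log ‖v‖ ≤ P.t0
      calc Real.log ‖v‖ ≤ Real.log (Real.exp P.t0) := Real.log_le_log hv' h
        _ = P.t0 := Real.log_exp _
    rw [GH_out]
    · simp [e1]
    · apply P.out
      right; left
      show tau P.t0 v ≤ P.t0
      rw [tau_of_le h]

lemma GH_out' (P : PlH) (F : Fra n V) {u : Bc (n + 2)} {v : V} (hv : v ≠ 0)
    (h : P.f (cut u) (u 1, Real.log ‖v‖) = (u 1, Real.log ‖v‖)) : GH P F (u, v) = (u, v) := by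
  rw [GH_apply' P F u hv, h]
  simp

lemma norm_GH (P : PlH) (F : Fra n V) {u : Bc (n + 2)} {v : V} (hv : v ≠ 0) :
    ‖(GH P F (u, v)).2‖ = Real.exp (P.f (cut u) (u 1, Real.log ‖v‖)).2 := by
  have hv' : 0 < ‖v‖ := norm_pos_iff.2 hv
  rw [GH_apply' P F u hv]
  simp only
  rw [LinearIsometryEquiv.norm_map, norm_smul, LinearIsometryEquiv.norm_map, Real.norm_eq_abs,
    abs_of_pos (Real.exp_pos _), Real.exp_sub, Real.exp_log hv']
  field_simp

end polar

/-! ### the strand conditions -/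

variable {n m : ℕ} {i j : Fin m}

lemma sa_le_one (q : Rad) : sa q ≤ 1 := by
  unfold sa
  rw [Real.sqrt_le_iff]
  constructor
  · norm_num
  · nlinarith [sq_nonneg q.eps]

lemma sa_gt {D : NFD n m i j} {q : Rad} (hP : Par D q) : 999 / 1000 < sa q := by
  unfold sa
  apply Real.lt_sqrt_of_sq_lt
  have h1 := hP.eps_pos
  have h2 := hP.eps_lt
  nlinarith

/-- the strand is thin. -/
lemma thin {D : NFD n m i j} {q : Rad} (hP : Par D q) {k : ℝ} (hk : 1 / 10 ≤ |k|)
    {v w : Vc (n + 2)} (hv : v ≠ 0) (hw : ‖w‖ = 1) : ⟪v, w⟫ < sa q * Real.cosh k * ‖v‖ := by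
  have hv' : 0 < ‖v‖ := norm_pos_iff.2 hv
  have h1 : ⟪v, w⟫ ≤ ‖v‖ := by
    have := real_inner_le_norm v w
    rwa [hw, mul_one] at this
  have h2 : 1 + (1 / 10) ^ 2 / 4 ≤ Real.cosh k := by
    have h3 : Real.cosh (1 / 10) ≤ Real.cosh k := by
      rw [Real.cosh_le_cosh, abs_of_pos (by norm_num : (0 : ℝ) < 1 / 10)]
      exact hk
    have h4 : 1 + (1 / 10 : ℝ) ^ 2 / 4 ≤ Real.cosh (1 / 10) := by
      rw [Real.cosh_eq]
      have e1 := Real.quadratic_le_exp_of_nonneg (show (0 : ℝ) ≤ 1 / 10 by norm_num)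
      have e2 := Real.add_one_le_exp (-(1 / 10 : ℝ))
      linarith
    linarith
  have h3 := sa_gt hP
  have h5 : 1 < sa q * Real.cosh k := by nlinarith
  nlinarith

lemma norm_hc : ‖hc (n + 1)‖ = 1 := by
  unfold hc
  rw [EuclideanSpace.norm_single, norm_one]

lemma inner_ec_hc : ⟪ec (n + 2), hc (n + 1)⟫ = 0 := by
  unfold ec hc
  rw [EuclideanSpace.inner_single_left]
  simp [Fin.ext_iff]

lemma fr_nonneg (D : NFD n m i j) {u : Bc (n + 2)} (h : 0 ≤ u 1) : fr D u = D.F.Rf u := if_pos h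

lemma fr_neg (D : NFD n m i j) {u : Bc (n + 2)} (h : u 1 < 0) :
    fr D u = LinearIsometryEquiv.refl ℝ _ := if_neg (not_le.2 h)

lemma fr_eq (D : NFD n m i j) (u : Bc (n + 2)) : fr D u = D.F.Rf (us u (max 0 (u 1))) := by
  rcases le_or_gt 0 (u 1) with h | h
  · rw [fr_nonneg D h, max_eq_right h, us_self]
  · rw [fr_neg D h, max_eq_left h.le, D.mid_F _ (by simp)]

lemma fr_wall (D : NFD n m i j) {u : Bc (n + 2)} (h : 1 ≤ ‖u‖) : fr D u (ec (n + 2)) = ec (n + 2) := by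
  rcases le_or_gt 0 (u 1) with h' | h'
  · rw [fr_nonneg D h', D.F.wall u h]
  · rw [fr_neg D h']; rfl

/-- the frame field. -/
noncomputable def frF (D : NFD n m i j) : Fra n (Vc (n + 2)) where
  R := fr D
  c := by
    have : (fun p : Bc (n + 2) × Vc (n + 2) => fr D p.1 p.2) =
        fun p => D.F.Rf (us p.1 (max 0 (p.1 1))) p.2 := by
      funext p; rw [fr_eq]
    rw [this]
    exact D.F.c_Rf.comp ((continuous_us continuous_fst (continuous_const.max
      ((continuous_apply (1 : Fin (n + 2))).comp continuous_fst))).prodMk continuous_snd)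
  c' := by
    have : (fun p : Bc (n + 2) × Vc (n + 2) => (fr D p.1).symm p.2) =
        fun p => (D.F.Rf (us p.1 (max 0 (p.1 1)))).symm p.2 := by
      funext p; rw [fr_eq]
    rw [this]
    exact D.F.c_Rf'.comp ((continuous_us continuous_fst (continuous_const.max
      ((continuous_apply (1 : Fin (n + 2))).comp continuous_fst))).prodMk continuous_snd)

lemma restAt_us {u : Bc (n + 2)} {s : ℝ} (h : 1 ≤ |s|) : RestAt (us u s) :=
  Or.inr ⟨1, by simp, by rwa [us_one]⟩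

lemma w1_eq (D : NFD n m i j) {u : Bc (n + 2)} (h : 1 ≤ |16 * u 1 - 1|) :
    w1 D u = fr D u (hc (n + 1)) := by
  unfold w1; rw [D.P.rest_om _ (restAt_us h)]

lemma M1_eq (D : NFD n m i j) {u : Bc (n + 2)} (h : 1 ≤ |16 * u 1 - 1|) :
    M1 D u = fr D u (ec (n + 2)) := by
  unfold M1; rw [D.P.rest_M _ (restAt_us h)]

lemma norm_w1 (D : NFD n m i j) (u : Bc (n + 2)) : ‖w1 D u‖ = 1 := by
  unfold w1; rw [LinearIsometryEquiv.norm_map, D.P.n_om]

lemma inD_false {D : NFD n m i j} {q : Rad} (hP : Par D q) {ell : ℝ → ℝ} {u : Bc (n + 2)}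
    {v : Vc (n + 2)} (hv : v ≠ 0) (hk : 1 / 10 ≤ |Real.log ‖v‖ - ell (u 1)|) :
    ¬ inD D q ell (u, v) := not_lt.2 (thin hP hk hv (norm_w1 D u)).le

lemma onD_false {D : NFD n m i j} {q : Rad} (hP : Par D q) {ell : ℝ → ℝ} {u : Bc (n + 2)}
    {v : Vc (n + 2)} (hv : v ≠ 0) (hk : 1 / 10 ≤ |Real.log ‖v‖ - ell (u 1)|) :
    ¬ onD D q ell (u, v) := fun h => (thin hP hk hv (norm_w1 D u)).ne' h.1

lemma KE_iff {D : NFD n m i j} {q : Rad} {ell ell' : ℝ → ℝ} {p : Bc (n + 2) × Vc (n + 2)}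
    (h1 : inD D q ell p ↔ inD D q ell' p) (h2 : onD D q ell p ↔ onD D q ell' p) :
    p ∈ KE D q ell ↔ p ∈ KE D q ell' := by
  unfold KE
  simp only [mem_ofPred_eq]
  rw [h1, h2]

lemma KE_congr {D : NFD n m i j} {q : Rad} {ell ell' : ℝ → ℝ} {p : Bc (n + 2) × Vc (n + 2)}
    (h : ell (p.1 1) = ell' (p.1 1)) : p ∈ KE D q ell ↔ p ∈ KE D q ell' := by
  apply KE_iff
  · unfold inD; rw [h]
  · unfold onD; rw [h]

lemma KE_off {D : NFD n m i j} {q : Rad} (hP : Par D q) {ell ell' : ℝ → ℝ} {u : Bc (n + 2)}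
    {v : Vc (n + 2)} (hv : v ≠ 0) (hk : 1 / 10 ≤ |Real.log ‖v‖ - ell (u 1)|)
    (hk' : 1 / 10 ≤ |Real.log ‖v‖ - ell' (u 1)|) : (u, v) ∈ KE D q ell ↔ (u, v) ∈ KE D q ell' :=
  KE_iff (iff_of_false (inD_false hP hv hk) (inD_false hP hv hk'))
    (iff_of_false (onD_false hP hv hk) (onD_false hP hv hk'))

lemma KE_zero {D : NFD n m i j} {q : Rad} (hP : Par D q) (ell : ℝ → ℝ) (u : Bc (n + 2)) :
    (u, (0 : Vc (n + 2))) ∉ KE D q ell := by
  have h1 := hP.r_pos
  have h2 := hP.R_pos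
  have h3 := hP.r_lt
  rintro (h | h | h | ⟨k, h⟩ | h)
  · have := h.2.2.1
    simp only [norm_zero] at this
    linarith
  · have := h.2.2.1
    simp only [norm_zero] at this
    linarith
  · have := h.2.1
    simp only [norm_zero] at this
    linarith
  · have h4 := h.2.2.2.1
    have h5 := D.far k u h.2.1
    simp only [zero_sub, norm_neg] at h4
    linarith
  · have := h.2.1
    simp only [norm_zero] at this
    linarith

/-- inside the disc, normalised. -/
def In (q : Rad) (k : ℝ) (w : Vc (n + 2)) : Prop := sa q * Real.cosh k * ‖w‖ < ⟪w, hc (n + 1)⟫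

/-- boundary of the disc, normalised. -/
def On (q : Rad) (k : ℝ) (w : Vc (n + 2)) : Prop :=
  sa q * Real.cosh k * ‖w‖ = ⟪w, hc (n + 1)⟫ ∧ ⟪ec (n + 2), w⟫ = 0

/-- the normalised link in the quadrant. -/
def CC (q : Rad) (N M k : ℝ) (w : Vc (n + 2)) : Prop :=
  N ≤ 1 ∧ 0 ≤ M ∧ ((⟪ec (n + 2), w⟫ = 0 ∧ ¬ In q k w ∧ (N = 1 ∨ M = 0)) ∨ On q k w)

lemma In_smul (q : Rad) (k : ℝ) (w : Vc (n + 2)) {c : ℝ} (hc' : 0 < c) :
    In q k (c • w) ↔ In q k w := by
  unfold In
  rw [norm_smul, inner_smul_left, Real.norm_eq_abs, abs_of_pos hc',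
    show sa q * Real.cosh k * (c * ‖w‖) = c * (sa q * Real.cosh k * ‖w‖) by ring]
  exact mul_lt_mul_iff_right₀ hc'

lemma e_smul (w : Vc (n + 2)) {c : ℝ} (hc' : 0 < c) :
    ⟪ec (n + 2), c • w⟫ = 0 ↔ ⟪ec (n + 2), w⟫ = 0 := by
  rw [inner_smul_right, mul_eq_zero, or_iff_right hc'.ne']

lemma On_smul (q : Rad) (k : ℝ) (w : Vc (n + 2)) {c : ℝ} (hc' : 0 < c) :
    On q k (c • w) ↔ On q k w := by
  unfold On
  rw [e_smul w hc', norm_smul, inner_smul_left, Real.norm_eq_abs, abs_of_pos hc',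
    show sa q * Real.cosh k * (c * ‖w‖) = c * (sa q * Real.cosh k * ‖w‖) by ring]
  refine and_congr_left fun _ => ?_
  exact mul_right_inj' hc'.ne'

lemma CC_trans {D : NFD n m i j} {q : Rad} (hP : Par D q) {N M k k' : ℝ} {w : Vc (n + 2)}
    (hw : w ≠ 0) {c : ℝ} (hc' : 0 < c)
    (h : N ≤ 1 → 0 ≤ M → k' = k ∨ (1 / 10 ≤ |k| ∧ 1 / 10 ≤ |k'|)) :
    CC q N M k w ↔ CC q N M k' (c • w) := by
  unfold CC
  refine and_congr_right fun h1 => and_congr_right fun h2 => ?_
  rw [e_smul w hc', In_smul q k' w hc', On_smul q k' w hc']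
  rcases h h1 h2 with rfl | ⟨h3, h4⟩
  · rfl
  · have a1 := (thin hP h3 hw norm_hc)
    have a2 := (thin hP h4 hw norm_hc)
    have b1 : ¬ In q k w := not_lt.2 a1.le
    have b2 : ¬ In q k' w := not_lt.2 a2.le
    have b3 : ¬ On q k w := fun h => a1.ne' h.1
    have b4 : ¬ On q k' w := fun h => a2.ne' h.1
    simp only [b1, b2, b3, b4]

end Crest.Agent.R267.PeelC_966
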