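import Mathlib
import Crest.Agent.R267.PlStart_484
import Crest.Agent.R267.NSDefs_966

/-!
# S0406, planar arms: entry of path A in the letters of `NSDefs_966` (helper484)

`entry_NS` : the official arm is joined to `PA b v ((S.pathA (S.Mr a r) (NS.Mvr a r)).h u0 W 0)`.
-/

set_option autoImplicit false
set_option linter.unusedSectionVars false

noncomputable section

open Set Filter Topology
open scoped Real
open Crest.Agent.R267.NdR_484 Crest.Agent.R267.NdQ_484 Crest.Agent.R267.NdS_484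
open Crest.Agent.R267.NdP_484 Crest.Agent.R267.NdY_484 Crest.Agent.R267.PolArm_484
open Crest.Agent.R267.PlStart_484 Crest.Agent.R267.NCut_88 Crest.Agent.R267.NSDefs_966
open Crest.Agent.R267.Calc_957
open Crest.Agent.R267.T3aDefs_957 (st)

namespace Crest.Agent.R267.PlEntry_484

theorem e_eq (x : ℝ) : e (x / (2 * π)) = cis x := by
  unfold e cis
  congr 1
  push_cast
  have : (π : ℂ) ≠ 0 := by exact_mod_cast Real.pi_ne_zero
  field_simp

theorem ca_of_le {u0 u : ℝ} (h0 : 0 < u0) (h : u ≤ u0 / 2) : ca u0 u = 0 := by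
  unfold ca
  refine st_of_le ?_
  rw [sub_nonpos, div_le_one h0]
  linarith

theorem ca_of_ge {u0 u : ℝ} (h0 : 0 < u0) (h : u0 ≤ u) : ca u0 u = 1 := by
  unfold ca
  refine st_of_ge ?_
  have : (2 : ℝ) ≤ 2 * u / u0 := by rw [le_div_iff₀ h0]; linarith
  linarith

theorem cb_of_le {W u : ℝ} (h0 : 0 < W) (h : u ≤ W) : cb W u = 1 := by
  unfold cb
  rw [st_of_le, sub_zero]
  rw [sub_nonpos, div_le_one h0]
  exact h

theorem cb_of_ge {W u : ℝ} (h0 : 0 < W) (h : 2 * W ≤ u) : cb W u = 0 := by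
  unfold cb
  rw [st_of_ge, sub_self]
  have : (2 : ℝ) ≤ u / W := by rw [le_div_iff₀ h0]; linarith
  linarith

theorem cb_nonneg (W u : ℝ) : 0 ≤ cb W u := sub_nonneg.2 (st_le_one _)

theorem cb_le_one (W u : ℝ) : cb W u ≤ 1 := by
  unfold cb
  linarith [st_nonneg (u / W - 1)]

theorem contDiff_ca (u0 : ℝ) : ContDiff ℝ 2 (ca u0) := by
  unfold ca
  exact contDiff_st.comp (((contDiff_const.mul contDiff_id).div_const _).sub contDiff_const)

theorem contDiff_cb (W : ℝ) : ContDiff ℝ 2 (cb W) := by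
  unfold cb
  exact contDiff_const.sub (contDiff_st.comp ((contDiff_id.div_const _).sub contDiff_const))

variable {m : ℕ} (S : NS m)

/-- linear phases. -/
def ps (s : Fin (m + 2)) (θ ω : ℝ) : ℝ := S.i s * θ + S.j s * ω

/-- excesses. -/
def Xs (a : ℕ) (s : Fin (m + 2)) : ℕ := a * S.i s + S.j s - 15

variable {S}

theorem dat (hS : S.Ok) {a : ℕ} {T : Finset (ℕ × ℕ)}
    (hT : T = (Finset.univ.erase 0).image fun s => (S.i s, S.j s)) :
    Dat a T S.i S.j (Xs S a) (0 : Fin (m + 2)) (Fin.last (m + 1)) := by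
  refine ⟨hT, fun s t _ _ h => ?_, hS.i0, hS.j0, fun s => rfl, ?_, hS.j1, fun s hs => ?_,
    fun s hs => ?_⟩
  · exact hS.hj.injective (Prod.ext_iff.1 h).2
  · exact (Fin.last_pos).ne'
  · have h1 : s < Fin.last (m + 1) := lt_of_le_of_ne (Fin.le_last s) hs
    have h2 := hS.hj h1
    rw [hS.j1] at h2
    exact h2
  · have h1 : 0 < s := Fin.pos_of_ne_zero hs
    have h2 := hS.hj h1
    rw [hS.j0] at h2
    omega

/-- the raw sum of all terms in the letters of `NSDefs_966`, `0 < u`. -/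
theorem mid_eq (hS : S.Ok) (a : ℕ) (r : ℝ) (θ u ω : ℝ) (hu : 0 < u) :
    Fz r (Xs S a) S.j (ps S) (θ, u, ω) = ((u ^ 15 : ℝ) : ℂ) * cis (15 * ω) +
      Pz r (Xs S a) (ps S) (Fin.last (m + 1)) θ +
      (S.pathA (S.Mr a r) (NS.Mvr a r)).mid 0 (S.n * θ / (2 * π), Real.log u, 15 * ω / (2 * π)) := by
  have hn : (S.n : ℝ) ≠ 0 := by
    have := hS.hn
    positivity
  have hterm : ∀ s : Fin m, (((S.pathA (S.Mr a r) (NS.Mvr a r)).c s
      (0, S.n * θ / (2 * π), 15 * ω / (2 * π)) *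
      Real.exp ((S.pathA (S.Mr a r) (NS.Mvr a r)).E s * Real.log u) : ℝ) : ℂ) *
        e ((S.pathA (S.Mr a r) (NS.Mvr a r)).ψ s (0, S.n * θ / (2 * π), 15 * ω / (2 * π))) =
      ((r ^ Xs S a (NS.ix s) * u ^ S.j (NS.ix s) : ℝ) : ℂ) * cis (ps S (NS.ix s) θ ω) := by
    intro s
    have h1 : Real.exp ((S.j (NS.ix s) : ℝ) * Real.log u) = u ^ S.j (NS.ix s) := by
      rw [mul_comm, Real.exp_mul, Real.exp_log hu, Real.rpow_natCast]
    have h2 : (S.pathA (S.Mr a r) (NS.Mvr a r)).ψ s (0, S.n * θ / (2 * π), 15 * ω / (2 * π)) =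
        ps S (NS.ix s) θ ω / (2 * π) := by
      show (1 - (0 : ℝ)) * (S.i (NS.ix s) * (S.n * θ / (2 * π)) / S.n +
        S.j (NS.ix s) * (15 * ω / (2 * π)) / 15) + 0 * _ = _
      unfold ps
      field_simp
      ring
    rw [h2, e_eq]
    show ((S.Mr a r s * Real.exp ((S.j (NS.ix s) : ℝ) * Real.log u) : ℝ) : ℂ) * _ = _
    rw [h1]
    rfl
  have hmid : (S.pathA (S.Mr a r) (NS.Mvr a r)).mid 0
      (S.n * θ / (2 * π), Real.log u, 15 * ω / (2 * π)) =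
      ∑ s : Fin m, ((r ^ Xs S a (NS.ix s) * u ^ S.j (NS.ix s) : ℝ) : ℂ) *
        cis (ps S (NS.ix s) θ ω) := by
    unfold PD.mid
    exact Finset.sum_congr rfl fun s _ => hterm s
  rw [hmid]
  unfold Fz
  simp only
  rw [Fin.sum_univ_succ, Fin.sum_univ_castSucc]
  have hX0 : Xs S a 0 = 0 := by
    unfold Xs
    rw [hS.i0, hS.j0]
    simp
  have h0 : ps S 0 θ ω = 15 * ω := by
    unfold ps
    rw [hS.i0, hS.j0]
    push_cast
    ring
  have hl : (Fin.last m).succ = Fin.last (m + 1) := Fin.succ_last m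
  have hjl : S.j (Fin.last (m + 1)) = 0 := hS.j1
  have hpl : ps S (Fin.last (m + 1)) θ ω = ps S (Fin.last (m + 1)) θ 0 := by
    unfold ps
    rw [hjl]
    simp
  rw [hX0, h0, hS.j0, hl, hjl, hpl]
  unfold Pz NS.ix
  simp only [pow_zero, one_mul, mul_one]
  ring

/-- the start function of path A for `0 < u`. -/
theorem h_eq (hS : S.Ok) (a : ℕ) (r u0 W : ℝ) (θ u ω : ℝ) (hu : 0 < u) :
    (S.pathA (S.Mr a r) (NS.Mvr a r)).h u0 W 0 (θ, u, ω) =
      (ca u0 u : ℂ) * (((u ^ 15 : ℝ) : ℂ) * cis (15 * ω)) +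
      (cb W u : ℂ) * (Pz r (Xs S a) (ps S) (Fin.last (m + 1)) θ +
        (ca u0 u : ℂ) * (Fz r (Xs S a) S.j (ps S) (θ, u, ω) -
          ((u ^ 15 : ℝ) : ℂ) * cis (15 * ω) - Pz r (Xs S a) (ps S) (Fin.last (m + 1)) θ)) := by
  have hn : (S.n : ℝ) ≠ 0 := by
    have := hS.hn
    positivity
  have h1 := mid_eq hS a r θ u ω hu
  have h2 : cb W u * (S.pathA (S.Mr a r) (NS.Mvr a r)).q (0, 15 * ω / (2 * π)) +
      (1 - cb W u) * (15 * ω / (2 * π)) = 15 * ω / (2 * π) := by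
    show cb W u * ((1 - (0 : ℝ)) * (15 * ω / (2 * π)) + 0 * _) + _ = _
    ring
  have h3 : (S.pathA (S.Mr a r) (NS.Mvr a r)).p (0, S.n * θ / (2 * π)) = 15 * θ / (2 * π) := by
    show (1 - (0 : ℝ)) * (15 * (S.n * θ / (2 * π)) / S.n) + 0 * _ = _
    field_simp
    ring
  have h4 : Pz r (Xs S a) (ps S) (Fin.last (m + 1)) θ =
      ((NS.Mvr a r : ℝ) : ℂ) * cis (15 * θ) := by
    unfold Pz ps Xs NS.Mvr
    rw [hS.i1, hS.j1, mul_comm a 15]
    congr 2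
    push_cast
    ring
  unfold PD.h
  simp only
  rw [h2, e_eq]
  show _ + (cb W u : ℂ) * (((NS.Mvr a r : ℝ) : ℂ) *
    e ((S.pathA (S.Mr a r) (NS.Mvr a r)).p (0, S.n * θ / (2 * π))) +
      (ca u0 u : ℂ) * (S.pathA (S.Mr a r) (NS.Mvr a r)).mid 0
        (S.n * θ / (2 * π), Real.log u, 15 * ω / (2 * π))) = _
  rw [h3, e_eq, ← h4, h1]
  push_cast
  ring

/-- near `u = 0`. -/
theorem h_in (hS : S.Ok) (a : ℕ) (r : ℝ) {u0 W : ℝ} (h0 : 0 < u0) (hW : u0 ≤ W) (θ u ω : ℝ)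
    (hu : u ≤ u0 / 2) :
    (S.pathA (S.Mr a r) (NS.Mvr a r)).h u0 W 0 (θ, u, ω) =
      Pz r (Xs S a) (ps S) (Fin.last (m + 1)) θ := by
  have hn : (S.n : ℝ) ≠ 0 := by
    have := hS.hn
    positivity
  have h3 : (S.pathA (S.Mr a r) (NS.Mvr a r)).p (0, S.n * θ / (2 * π)) = 15 * θ / (2 * π) := by
    show (1 - (0 : ℝ)) * (15 * (S.n * θ / (2 * π)) / S.n) + 0 * _ = _
    field_simp
    ring
  have h4 : Pz r (Xs S a) (ps S) (Fin.last (m + 1)) θ =
      ((NS.Mvr a r : ℝ) : ℂ) * cis (15 * θ) := by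
    unfold Pz ps Xs NS.Mvr
    rw [hS.i1, hS.j1, mul_comm a 15]
    congr 2
    push_cast
    ring
  unfold PD.h
  simp only
  rw [ca_of_le h0 hu, cb_of_le (h0.trans_le hW) (by linarith)]
  show _ + ((1 : ℝ) : ℂ) * (((NS.Mvr a r : ℝ) : ℂ) *
    e ((S.pathA (S.Mr a r) (NS.Mvr a r)).p (0, S.n * θ / (2 * π))) + _) = _
  rw [h3, e_eq, ← h4]
  simp

theorem Fz_per1 (a : ℕ) (r θ u ω : ℝ) : Fz r (Xs S a) S.j (ps S) (θ + 2 * π, u, ω) =
    Fz r (Xs S a) S.j (ps S) (θ, u, ω) := by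
  unfold Fz
  refine Finset.sum_congr rfl fun s _ => ?_
  have := cis_add_two_pi_mul (ps S s θ ω) (S.i s)
  simp only
  rw [← this]
  congr 2
  unfold ps
  push_cast
  ring

theorem Fz_per2 (a : ℕ) (r θ u ω : ℝ) : Fz r (Xs S a) S.j (ps S) (θ, u, ω + 2 * π) =
    Fz r (Xs S a) S.j (ps S) (θ, u, ω) := by
  unfold Fz
  refine Finset.sum_congr rfl fun s _ => ?_
  have := cis_add_two_pi_mul (ps S s θ ω) (S.j s)
  simp only
  rw [← this]
  congr 2
  unfold ps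
  push_cast
  ring

theorem Pz_per (a : ℕ) (r θ : ℝ) (l : Fin (m + 2)) :
    Pz r (Xs S a) (ps S) l (θ + 2 * π) = Pz r (Xs S a) (ps S) l θ := by
  unfold Pz
  have := cis_add_two_pi_mul (ps S l θ 0) (S.i l)
  rw [← this]
  congr 2
  unfold ps
  push_cast
  ring

theorem cutF_h (hS : S.Ok) (a : ℕ) {r u0 W : ℝ} (h0 : 0 < u0) (hW : u0 ≤ W) :
    CutF u0 W (Fz r (Xs S a) S.j (ps S)) (Pz r (Xs S a) (ps S) (Fin.last (m + 1)))
      ((S.pathA (S.Mr a r) (NS.Mvr a r)).h u0 W 0) := by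
  have hWp : 0 < W := h0.trans_le hW
  have hc15 : ∀ ω : ℝ, cis (15 * (ω + 2 * π)) = cis (15 * ω) := by
    intro ω
    have := cis_add_two_pi_mul (15 * ω) 15
    rw [← this]
    congr 1
    push_cast
    ring
  refine ⟨?_, fun θ u ω hu => ?_, fun θ u ω hu => ?_, fun θ u ω _ hu => h_in hS a r h0 hW θ u ω hu,
    fun θ u ω hu0 hu => ?_, fun θ u ω h1 h2 => ?_, fun θ u ω hu => ?_, fun θ u ω hu => ?_⟩
  · have hψs : ∀ s, ContDiff ℝ 2 fun q : ℝ × ℝ => ps S s q.1 q.2 := by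
      intro s
      unfold ps
      fun_prop
    have hPs : ContDiff ℝ 2 (Pz r (Xs S a) (ps S) (Fin.last (m + 1))) := by
      unfold Pz
      have : ContDiff ℝ 2 fun θ : ℝ => ps S (Fin.last (m + 1)) θ 0 :=
        (hψs _).comp (contDiff_id.prodMk contDiff_const)
      exact contDiff_const.mul (contDiff_cis.comp this)
    have hu : ContDiff ℝ 2 fun q : ℝ × ℝ × ℝ => q.2.1 := contDiff_fst.comp contDiff_snd
    have hω : ContDiff ℝ 2 fun q : ℝ × ℝ × ℝ => q.2.2 := contDiff_snd.comp contDiff_snd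
    have hca : ContDiff ℝ 2 fun q : ℝ × ℝ × ℝ => ((ca u0 q.2.1 : ℝ) : ℂ) :=
      Complex.ofRealCLM.contDiff.comp ((contDiff_ca u0).comp hu)
    have hcb : ContDiff ℝ 2 fun q : ℝ × ℝ × ℝ => ((cb W q.2.1 : ℝ) : ℂ) :=
      Complex.ofRealCLM.contDiff.comp ((contDiff_cb W).comp hu)
    have h15 : ContDiff ℝ 2 fun q : ℝ × ℝ × ℝ =>
        ((q.2.1 ^ 15 : ℝ) : ℂ) * cis (15 * q.2.2) :=
      (Complex.ofRealCLM.contDiff.comp (hu.pow 15)).mul
        (contDiff_cis.comp (contDiff_const.mul hω))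
    have hP : ContDiff ℝ 2 fun q : ℝ × ℝ × ℝ =>
        Pz r (Xs S a) (ps S) (Fin.last (m + 1)) q.1 := hPs.comp contDiff_fst
    have hF := contDiff_Fz (X := Xs S a) (J := S.j) hψs r
    have htot := (hca.mul h15).add (hcb.mul (hP.add (hca.mul ((hF.sub h15).sub hP))))
    refine htot.contDiffOn.congr fun q hq => ?_
    exact h_eq hS a r u0 W q.1 q.2.1 q.2.2 hq
  · rw [h_eq hS a r u0 W _ u ω hu, h_eq hS a r u0 W _ u ω hu, Fz_per1, Pz_per]
  · rw [h_eq hS a r u0 W _ u _ hu, h_eq hS a r u0 W _ u ω hu, Fz_per2, hc15]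
  · rcases hu0.eq_or_lt with h | h
    · refine ⟨0, le_rfl, zero_le_one, ?_⟩
      rw [h_in hS a r h0 hW θ u ω (by rw [← h]; exact (half_pos h0).le)]
      simp
    · refine ⟨ca u0 u, st_nonneg _, st_le_one _, ?_⟩
      rw [h_eq hS a r u0 W _ u ω h, cb_of_le hWp (hu.trans hW)]
      push_cast
      ring
  · rw [h_eq hS a r u0 W _ u ω (h0.trans h1), cb_of_le hWp h2.le, ca_of_ge h0 h1.le]
    push_cast
    ring
  · refine ⟨cb W u, cb_nonneg _ _, cb_le_one _ _, ?_⟩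
    rw [h_eq hS a r u0 W _ u ω (h0.trans_le hu), ca_of_ge h0 hu]
    push_cast
    ring
  · have h1 : u0 ≤ u := by linarith
    rw [h_eq hS a r u0 W _ u ω (h0.trans_le h1), ca_of_ge h0 h1, cb_of_ge hWp hu]
    push_cast
    ring

variable {b : Bool} {v : Fin 3} {T : Finset (ℕ × ℕ)}

/-- **the entry of path A** in the letters of `NSDefs_966`. -/
theorem entry_NS (hS : S.Ok) (hT : T = (Finset.univ.erase 0).image fun s => (S.i s, S.j s))
    (hd : ArmDat (aw b v) T (fun _ => 1)) :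
    ∃ r1 : ℝ, 0 < r1 ∧ ∃ W0 : ℝ, 1 ≤ W0 ∧ ∃ W1 : ℝ, 0 < W1 ∧ ∀ r, 0 < r → r ≤ r1 →
      ∃ u1 : ℝ, 0 < u1 ∧ u1 < W1 ∧ ∀ u0, 0 < u0 → u0 ≤ u1 → ∀ W ≥ W1, ∀ W' ≥ W0,
        AStep b v (Ac (aw b v) T (fun _ => 1) W' r)
          (PA b v ((S.pathA (S.Mr (aw b v) r) (NS.Mvr (aw b v) r)).h u0 W 0)) := by
  obtain ⟨r1, hr1, W0, hW0, b0, hb0, H⟩ := entry_gen (b := b) (v := v) (dat hS hT) hd
    (ψ := ps S) (fun s θ ω => rfl)
  refine ⟨r1, hr1, W0, hW0, b0, hb0, fun r hr hrr => ?_⟩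
  obtain ⟨a0, ha0, hab, K⟩ := H r hr hrr
  exact ⟨a0, ha0, hab, fun u0 h0 hu W hW W' hW' => K u0 h0 hu W hW W' hW' _
    (cutF_h hS (aw b v) h0 (by linarith))⟩

end Crest.Agent.R267.PlEntry_484
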