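import Mathlib

/-!
# Row 267 (helper943): polar library, part 1: `C²` at the coordinate hyperplanes

`contDiffOn_hom`: `f : E × Y → F`, `C²` on `{0}ᶜ ×ˢ U` (`U` open, `E`, `Y` finite dimensional),
`f (r • x, y) = r ^ e • f (x, y)` for `0 < r`, `x ≠ 0`, `y ∈ U`, with `2 < e`, `f (0, y) = 0`:
then `f` is `C²` on `univ ×ˢ U`.
-/

set_option autoImplicit false
set_option linter.unusedSectionVars false

noncomputable section

open Set Filter Topology Metric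
open scoped NNReal ContDiff

namespace Crest.Agent.R267.PolC2_943

variable {E Y F : Type*} [NormedAddCommGroup E] [NormedSpace ℝ E]
  [NormedAddCommGroup Y] [NormedSpace ℝ Y]
  [NormedAddCommGroup F] [NormedSpace ℝ F]

theorem isOpen_dom {U : Set Y} (hU : IsOpen U) : IsOpen (({0}ᶜ : Set E) ×ˢ U) :=
  isOpen_compl_singleton.prod hU

/-- flat points have derivative zero -/
theorem hasFDerivAt_flat {F' : Type*} [NormedAddCommGroup F'] [NormedSpace ℝ F']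
    {K : E × Y → F'} {y : Y} {ε κ C : ℝ} (hε : 0 < ε) (hκ : 0 < κ)
    (hK0 : ∀ s ∈ ball y ε, K (0, s) = 0)
    (hK : ∀ s ∈ ball y ε, ∀ x : E, x ≠ 0 → ‖x‖ ≤ 1 → ‖K (x, s)‖ ≤ C * ‖x‖ ^ (1 + κ)) :
    HasFDerivAt K (0 : E × Y →L[ℝ] F') ((0 : E), y) := by
  rw [hasFDerivAt_iff_isLittleO_nhds_zero]
  have h2 : ∀ᶠ p : E × Y in 𝓝 0, ((0 : E), y) + p ∈ ball (0 : E) 1 ×ˢ ball y ε := by
    have h3 : ContinuousAt (fun p : E × Y => ((0 : E), y) + p) 0 := by fun_prop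
    refine h3.eventually (IsOpen.mem_nhds (isOpen_ball.prod isOpen_ball) ?_)
    show ((0 : E), y) + 0 ∈ ball (0 : E) 1 ×ˢ ball y ε
    rw [add_zero]
    exact ⟨mem_ball_self one_pos, mem_ball_self hε⟩
  rw [Asymptotics.isLittleO_iff]
  intro c hc
  have h3 : ∀ᶠ p : E × Y in 𝓝 0, C * ‖p.1‖ ^ κ < c := by
    have h4 : ContinuousAt (fun p : E × Y => C * ‖p.1‖ ^ κ) 0 :=
      ContinuousAt.mul continuousAt_const
        ((continuous_fst.norm.continuousAt).rpow_const (Or.inr hκ.le))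
    refine h4.eventually (gt_mem_nhds ?_)
    show C * ‖((0 : E × Y)).1‖ ^ κ < c
    rw [Prod.fst_zero, norm_zero, Real.zero_rpow hκ.ne', mul_zero]
    exact hc
  filter_upwards [h2, h3] with p hp hp3
  have e : ((0 : E), y) + p = (p.1, y + p.2) := by
    refine Prod.ext ?_ rfl
    show 0 + p.1 = p.1
    rw [zero_add]
  rw [e] at hp
  have hs' : y + p.2 ∈ ball y ε := hp.2
  have hp2 : ‖p.1‖ ≤ 1 := by
    have := hp.1
    rw [mem_ball_zero_iff] at this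
    exact this.le
  rw [hK0 y (mem_ball_self hε), sub_zero, show (0 : E × Y →L[ℝ] F') p = 0 from rfl,
    sub_zero, e]
  by_cases hx : p.1 = 0
  · rw [hx, hK0 _ hs', norm_zero]
    positivity
  · have hxp : 0 < ‖p.1‖ := norm_pos_iff.2 hx
    calc ‖K (p.1, y + p.2)‖ ≤ C * ‖p.1‖ ^ (1 + κ) := hK _ hs' _ hx hp2
      _ = C * ‖p.1‖ ^ κ * ‖p.1‖ := by rw [Real.rpow_add hxp, Real.rpow_one]; ring
      _ ≤ c * ‖p.1‖ := mul_le_mul_of_nonneg_right hp3.le hxp.le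
      _ ≤ c * ‖p‖ := mul_le_mul_of_nonneg_left (norm_fst_le p) hc.le

/-- the dilation of the first factor -/
def dil (r : ℝ) : E × Y →L[ℝ] E × Y :=
  (r • ContinuousLinearMap.fst ℝ E Y).prod (ContinuousLinearMap.snd ℝ E Y)

theorem dil_apply (r : ℝ) (p : E × Y) : dil r p = (r • p.1, p.2) := rfl

theorem dil_norm {r : ℝ} (hr : 1 ≤ r) : ‖(dil r : E × Y →L[ℝ] E × Y)‖ ≤ r := by
  refine ContinuousLinearMap.opNorm_le_bound _ (by linarith) fun p => ?_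
  rw [dil_apply, Prod.norm_def, Prod.norm_def]
  show max ‖r • p.1‖ ‖p.2‖ ≤ r * max ‖p.1‖ ‖p.2‖
  rw [norm_smul, Real.norm_of_nonneg (by linarith : (0:ℝ) ≤ r)]
  refine max_le (mul_le_mul_of_nonneg_left (le_max_left _ _) (by linarith)) ?_
  calc ‖p.2‖ ≤ 1 * max ‖p.1‖ ‖p.2‖ := by rw [one_mul]; exact le_max_right _ _
    _ ≤ r * max ‖p.1‖ ‖p.2‖ := mul_le_mul_of_nonneg_right hr (le_max_of_le_left (norm_nonneg _))

theorem dil_comp_dil {r : ℝ} (hr : r ≠ 0) (p : E × Y) : dil r (dil r⁻¹ p) = p := by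
  rw [dil_apply, dil_apply]
  show (r • r⁻¹ • p.1, p.2) = p
  rw [smul_inv_smul₀ hr]

section twist

variable {F' : Type*} [NormedAddCommGroup F'] [NormedSpace ℝ F']

/-- derivative of a function with `K (r x, y) = A (K (x, y))` -/
theorem fderiv_twist {K : E × Y → F'} {U : Set Y} (hU : IsOpen U)
    (hK : DifferentiableOn ℝ K (({0}ᶜ : Set E) ×ˢ U)) (A : F' →L[ℝ] F') {r : ℝ} (hr : 0 < r)
    (hh : ∀ x : E, x ≠ 0 → ∀ y ∈ U, K (r • x, y) = A (K (x, y)))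
    {x : E} (hx : x ≠ 0) {y : Y} (hy : y ∈ U) :
    fderiv ℝ K (r • x, y) = (A.comp (fderiv ℝ K (x, y))).comp (dil r⁻¹) := by
  have hop := isOpen_dom (E := E) hU
  have hrx : r • x ≠ 0 := smul_ne_zero hr.ne' hx
  have hmem : ((x, y) : E × Y) ∈ ({0}ᶜ : Set E) ×ˢ U := ⟨hx, hy⟩
  have hmem' : ((r • x, y) : E × Y) ∈ ({0}ᶜ : Set E) ×ˢ U := ⟨hrx, hy⟩
  have h1 : HasFDerivAt K (fderiv ℝ K (x, y)) (x, y) :=
    ((hK _ hmem).differentiableAt (hop.mem_nhds hmem)).hasFDerivAt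
  have h2 : HasFDerivAt (fun p : E × Y => A (K (dil r⁻¹ p)))
      ((A.comp (fderiv ℝ K (x, y))).comp (dil r⁻¹)) (r • x, y) := by
    have h3 : dil r⁻¹ ((r • x, y) : E × Y) = (x, y) := by
      rw [dil_apply]
      show (r⁻¹ • r • x, y) = (x, y)
      rw [inv_smul_smul₀ hr.ne']
    have h4 : HasFDerivAt K (fderiv ℝ K (x, y)) (dil r⁻¹ ((r • x, y) : E × Y)) := by
      rw [h3]; exact h1
    exact A.hasFDerivAt.comp _ (h4.comp _ (dil r⁻¹ : E × Y →L[ℝ] E × Y).hasFDerivAt)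
  have h5 : (fun p : E × Y => A (K (dil r⁻¹ p))) =ᶠ[𝓝 (r • x, y)] K := by
    filter_upwards [hop.mem_nhds hmem'] with p hp
    have h6 := hh (r⁻¹ • p.1) (smul_ne_zero (inv_ne_zero hr.ne') hp.1) p.2 hp.2
    rw [smul_inv_smul₀ hr.ne'] at h6
    rw [dil_apply]
    exact h6.symm
  exact (h2.congr_of_eventuallyEq h5.symm).fderiv

/-- a continuous function is bounded on `sphere × small ball` -/
theorem exists_bound [FiniteDimensional ℝ E] [FiniteDimensional ℝ Y] {K : E × Y → F'} {U : Set Y}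
    (hK : ContinuousOn K (({0}ᶜ : Set E) ×ˢ U)) {y : Y} {ε : ℝ} (hε : closedBall y ε ⊆ U) :
    ∃ C : ℝ, 0 ≤ C ∧ ∀ s ∈ closedBall y ε, ∀ x : E, ‖x‖ = 1 → ‖K (x, s)‖ ≤ C := by
  have : ProperSpace E := FiniteDimensional.proper ℝ E
  have : ProperSpace Y := FiniteDimensional.proper ℝ Y
  have hc : IsCompact (sphere (0 : E) 1 ×ˢ closedBall y ε) :=
    (isCompact_sphere _ _).prod (isCompact_closedBall _ _)
  have hsub : sphere (0 : E) 1 ×ˢ closedBall y ε ⊆ ({0}ᶜ : Set E) ×ˢ U := by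
    rintro ⟨x, s⟩ ⟨hx, hs⟩
    refine ⟨?_, hε hs⟩
    rintro rfl
    simp at hx
  obtain ⟨C, hC⟩ := hc.exists_bound_of_continuousOn (hK.mono hsub)
  refine ⟨max C 0, le_max_right _ _, fun s hs x hx => (hC (x, s) ⟨?_, hs⟩).trans (le_max_left _ _)⟩
  rw [mem_sphere_zero_iff_norm]
  exact hx

end twist

section hom

variable {f : E × Y → F} {U : Set Y} {e : ℝ}

theorem norm_comp_dil {F' : Type*} [NormedAddCommGroup F'] [NormedSpace ℝ F']
    (L : E × Y →L[ℝ] F') {r : ℝ} (hr : 0 < r) (hr1 : r ≤ 1) :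
    ‖L.comp (dil r⁻¹)‖ ≤ ‖L‖ * r⁻¹ :=
  (L.opNorm_comp_le _).trans (mul_le_mul_of_nonneg_left (dil_norm ((one_le_inv₀ hr).2 hr1))
    (norm_nonneg _))

/-- **homogeneous of degree `> 2` in the first variable implies `C²`** -/
theorem contDiffOn_hom [FiniteDimensional ℝ E] [FiniteDimensional ℝ Y] (hU : IsOpen U)
    (he : 2 < e) (hC : ContDiffOn ℝ 2 f (({0}ᶜ : Set E) ×ˢ U))
    (hh : ∀ r : ℝ, 0 < r → ∀ x : E, x ≠ 0 → ∀ y ∈ U, f (r • x, y) = r ^ e • f (x, y))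
    (h0 : ∀ y ∈ U, f (0, y) = 0) :
    ContDiffOn ℝ 2 f ((univ : Set E) ×ˢ U) := by
  have hop : IsOpen ((univ : Set E) ×ˢ U) := isOpen_univ.prod hU
  have hop' := isOpen_dom (E := E) hU
  have hCd : ∀ q ∈ ({0}ᶜ : Set E) ×ˢ U, ContDiffAt ℝ 2 f q := fun q hq =>
    (hC _ hq).contDiffAt (hop'.mem_nhds hq)
  have hCf : ∀ q ∈ ({0}ᶜ : Set E) ×ˢ U, ContDiffAt ℝ 1 (fderiv ℝ f) q := fun q hq =>
    (hCd q hq).fderiv_right (m := 1) (by norm_num)
  have hCg : ∀ q ∈ ({0}ᶜ : Set E) ×ˢ U, ContDiffAt ℝ 0 (fderiv ℝ (fderiv ℝ f)) q := fun q hq =>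
    (hCf q hq).fderiv_right (m := 0) (by norm_num)
  have hdf : DifferentiableOn ℝ f (({0}ᶜ : Set E) ×ˢ U) := hC.differentiableOn (by norm_num)
  have hdg : DifferentiableOn ℝ (fderiv ℝ f) (({0}ᶜ : Set E) ×ˢ U) := fun q hq =>
    ((hCf q hq).differentiableAt (by norm_num)).differentiableWithinAt
  -- the twists
  let A : ℝ → F →L[ℝ] F := fun r => r ^ e • ContinuousLinearMap.id ℝ F
  have hA : ∀ r : ℝ, 0 < r → ∀ x : E, x ≠ 0 → ∀ y ∈ U,
      fderiv ℝ f (r • x, y) = ((A r).comp (fderiv ℝ f (x, y))).comp (dil r⁻¹) :=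
    fun r hr x hx y hy => fderiv_twist hU hdf (A r) hr (fun x hx y hy => hh r hr x hx y hy) hx hy
  let Φ : ℝ → (E × Y →L[ℝ] F) →L[ℝ] (E × Y →L[ℝ] F) := fun r =>
    (ContinuousLinearMap.compL ℝ (E × Y) (E × Y) F).flip (dil r⁻¹) ∘L
      (ContinuousLinearMap.compL ℝ (E × Y) F F (A r))
  have hΦ : ∀ r L, Φ r L = ((A r).comp L).comp (dil r⁻¹) := fun r L => rfl
  have hA2 : ∀ r : ℝ, 0 < r → ∀ x : E, x ≠ 0 → ∀ y ∈ U,
      fderiv ℝ (fderiv ℝ f) (r • x, y) =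
        ((Φ r).comp (fderiv ℝ (fderiv ℝ f) (x, y))).comp (dil r⁻¹) :=
    fun r hr x hx y hy => fderiv_twist hU hdg (Φ r) hr (fun x hx y hy => hA r hr x hx y hy) hx hy
  have nA : ∀ r : ℝ, 0 < r → ∀ L : E × Y →L[ℝ] F, ‖(A r).comp L‖ = r ^ e * ‖L‖ := by
    intro r hr L
    have : (A r).comp L = r ^ e • L := by
      ext p <;> simp [A]
    rw [this, norm_smul, Real.norm_of_nonneg (Real.rpow_nonneg hr.le _)]
  have nΦ : ∀ r : ℝ, 0 < r → r ≤ 1 → ‖Φ r‖ ≤ r ^ e * r⁻¹ := by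
    intro r hr hr1
    refine ContinuousLinearMap.opNorm_le_bound _ (by positivity) fun L => ?_
    rw [hΦ]
    calc ‖((A r).comp L).comp (dil r⁻¹)‖ ≤ ‖(A r).comp L‖ * r⁻¹ := norm_comp_dil _ hr hr1
      _ = r ^ e * r⁻¹ * ‖L‖ := by rw [nA r hr]; ring
  -- bounds near a flat point
  have hb : ∀ y ∈ U, ∃ ε : ℝ, 0 < ε ∧ ball y ε ⊆ U ∧ ∃ C : ℝ, 0 ≤ C ∧
      ∀ s ∈ ball y ε, ∀ x : E, x ≠ 0 → ‖x‖ ≤ 1 → ‖f (x, s)‖ ≤ C * ‖x‖ ^ (1 + (1 + (e - 2))) ∧
        ‖fderiv ℝ f (x, s)‖ ≤ C * ‖x‖ ^ (1 + (e - 2)) ∧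
        ‖fderiv ℝ (fderiv ℝ f) (x, s)‖ ≤ C * ‖x‖ ^ (e - 2) := by
    intro y hy
    obtain ⟨ε0, hε0, hb0⟩ := Metric.isOpen_iff.1 hU y hy
    have hcb : closedBall y (ε0 / 2) ⊆ U := (closedBall_subset_ball (by linarith)).trans hb0
    obtain ⟨C0, hC0, h0b⟩ := exists_bound (K := f) (hC.continuousOn) hcb
    obtain ⟨C1, hC1, h1b⟩ := exists_bound (K := fderiv ℝ f)
      (fun q hq => (hCf q hq).continuousAt.continuousWithinAt) hcb
    obtain ⟨C2, hC2, h2b⟩ := exists_bound (K := fderiv ℝ (fderiv ℝ f))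
      (fun q hq => (hCg q hq).continuousAt.continuousWithinAt) hcb
    refine ⟨ε0 / 2, by linarith, ball_subset_closedBall.trans hcb, max C0 (max C1 C2),
      le_max_of_le_left hC0, fun s hs x hx hx1 => ?_⟩
    have hs' : s ∈ closedBall y (ε0 / 2) := ball_subset_closedBall hs
    have hsU : s ∈ U := hcb hs'
    have hr : 0 < ‖x‖ := norm_pos_iff.2 hx
    obtain ⟨x', hx'1, hx'⟩ : ∃ x' : E, ‖x'‖ = 1 ∧ x = ‖x‖ • x' :=
      ⟨‖x‖⁻¹ • x, by rw [norm_smul, norm_inv, norm_norm, inv_mul_cancel₀ hr.ne'],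
        by rw [smul_inv_smul₀ hr.ne']⟩
    have hx'0 : x' ≠ 0 := by
      rintro rfl
      simp at hx'1
    have e0 := hh ‖x‖ hr x' hx'0 s hsU
    have e1 := hA ‖x‖ hr x' hx'0 s hsU
    have e2 := hA2 ‖x‖ hr x' hx'0 s hsU
    rw [← hx'] at e0 e1 e2
    have p1 : ‖x‖ ^ (1 + (1 + (e - 2))) = ‖x‖ ^ e := by congr 1; ring
    have p2 : ‖x‖ ^ (1 + (e - 2)) = ‖x‖ ^ e * ‖x‖⁻¹ := by
      rw [← Real.rpow_neg_one, ← Real.rpow_add hr]; congr 1; ring
    have p3 : ‖x‖ ^ (e - 2) = ‖x‖ ^ e * ‖x‖⁻¹ * ‖x‖⁻¹ := by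
      rw [← Real.rpow_neg_one, ← Real.rpow_add hr, ← Real.rpow_add hr]; congr 1; ring
    refine ⟨?_, ?_, ?_⟩
    · rw [e0, norm_smul, Real.norm_of_nonneg (Real.rpow_nonneg hr.le _), p1, mul_comm]
      exact mul_le_mul_of_nonneg_right ((h0b s hs' x' hx'1).trans (le_max_left _ _))
        (Real.rpow_nonneg hr.le _)
    · rw [e1, p2]
      calc _ ≤ ‖(A ‖x‖).comp (fderiv ℝ f (x', s))‖ * ‖x‖⁻¹ := norm_comp_dil _ hr hx1
        _ = ‖fderiv ℝ f (x', s)‖ * (‖x‖ ^ e * ‖x‖⁻¹) := by rw [nA _ hr]; ring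
        _ ≤ _ := mul_le_mul_of_nonneg_right
          ((h1b s hs' x' hx'1).trans ((le_max_left _ _).trans (le_max_right _ _))) (by positivity)
    · rw [e2, p3]
      calc _ ≤ ‖(Φ ‖x‖).comp (fderiv ℝ (fderiv ℝ f) (x', s))‖ * ‖x‖⁻¹ :=
            norm_comp_dil _ hr hx1
        _ ≤ ‖Φ ‖x‖‖ * ‖fderiv ℝ (fderiv ℝ f) (x', s)‖ * ‖x‖⁻¹ :=
          mul_le_mul_of_nonneg_right (ContinuousLinearMap.opNorm_comp_le _ _) (by positivity)
        _ ≤ (‖x‖ ^ e * ‖x‖⁻¹) * (max C0 (max C1 C2)) * ‖x‖⁻¹ := by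
          refine mul_le_mul_of_nonneg_right (mul_le_mul (nΦ _ hr hx1)
            ((h2b s hs' x' hx'1).trans ((le_max_right _ _).trans (le_max_right _ _)))
            (by positivity) (by positivity)) (by positivity)
        _ = _ := by ring
  have hκ : 0 < e - 2 := by linarith
  have hf0 : ∀ y ∈ U, HasFDerivAt f (0 : E × Y →L[ℝ] F) ((0 : E), y) := by
    intro y hy
    obtain ⟨ε, hε, hsub, C, hC0, h⟩ := hb y hy
    exact hasFDerivAt_flat hε (by linarith : 0 < 1 + (e - 2)) (fun s hs => h0 s (hsub hs))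
      fun s hs x hx hx1 => (h s hs x hx hx1).1
  have hg0 : ∀ y ∈ U, HasFDerivAt (fderiv ℝ f) (0 : E × Y →L[ℝ] (E × Y →L[ℝ] F)) ((0 : E), y) := by
    intro y hy
    obtain ⟨ε, hε, hsub, C, hC0, h⟩ := hb y hy
    exact hasFDerivAt_flat hε hκ (fun s hs => (hf0 s (hsub hs)).fderiv)
      fun s hs x hx hx1 => (h s hs x hx hx1).2.1
  have e2 : (2 : WithTop ℕ∞) = 1 + 1 := by norm_num
  rw [e2, contDiffOn_succ_iff_fderiv_of_isOpen hop]
  refine ⟨fun p hp => ?_, by simp, ?_⟩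
  · by_cases hx : p.1 = 0
    · have : p = ((0 : E), p.2) := Prod.ext hx rfl
      rw [this]
      exact (hf0 p.2 hp.2).differentiableAt.differentiableWithinAt
    · exact ((hCd p ⟨hx, hp.2⟩).differentiableAt (by norm_num)).differentiableWithinAt
  · have e1 : (1 : WithTop ℕ∞) = 0 + 1 := by norm_num
    rw [e1, contDiffOn_succ_iff_fderiv_of_isOpen hop]
    refine ⟨fun p hp => ?_, by simp, ?_⟩
    · by_cases hx : p.1 = 0
      · have : p = ((0 : E), p.2) := Prod.ext hx rfl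
        rw [this]
        exact (hg0 p.2 hp.2).differentiableAt.differentiableWithinAt
      · exact ((hCf p ⟨hx, hp.2⟩).differentiableAt (by norm_num)).differentiableWithinAt
    · rw [contDiffOn_zero]
      intro p hp
      by_cases hx : p.1 = 0
      · have hpe : p = ((0 : E), p.2) := Prod.ext hx rfl
        refine ContinuousAt.continuousWithinAt ?_
        obtain ⟨ε, hε, hsub, C, hC0, h⟩ := hb p.2 hp.2
        rw [ContinuousAt, hpe, (hg0 p.2 hp.2).fderiv]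
        rw [tendsto_zero_iff_norm_tendsto_zero]
        have h3 : Tendsto (fun q : E × Y => C * ‖q.1‖ ^ (e - 2)) (𝓝 ((0 : E), p.2)) (𝓝 0) := by
          have h4 : ContinuousAt (fun q : E × Y => C * ‖q.1‖ ^ (e - 2)) ((0 : E), p.2) :=
            ContinuousAt.mul continuousAt_const
              ((continuous_fst.norm.continuousAt).rpow_const (Or.inr hκ.le))
          have h5 : C * ‖(((0 : E), p.2) : E × Y).1‖ ^ (e - 2) = 0 := by
            show C * ‖(0 : E)‖ ^ (e - 2) = 0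
            rw [norm_zero, Real.zero_rpow hκ.ne', mul_zero]
          rw [ContinuousAt, h5] at h4
          exact h4
        have hn : ∀ᶠ q : E × Y in 𝓝 ((0 : E), p.2), q ∈ ball (0 : E) 1 ×ˢ ball p.2 ε :=
          (isOpen_ball.prod isOpen_ball).mem_nhds ⟨mem_ball_self one_pos, mem_ball_self hε⟩
        refine squeeze_zero' (Eventually.of_forall fun _ => norm_nonneg _) ?_ h3
        filter_upwards [hn] with q hq
        by_cases hqx : q.1 = 0
        · have : q = ((0 : E), q.2) := Prod.ext hqx rfl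
          rw [this, (hg0 q.2 (hsub hq.2)).fderiv, norm_zero]
          positivity
        · have hq2 : ‖q.1‖ ≤ 1 := by
            have := hq.1
            rw [mem_ball_zero_iff] at this
            exact this.le
          exact (h q.2 hq.2 q.1 hqx hq2).2.2
      · exact ((hCg p ⟨hx, hp.2⟩).continuousAt).continuousWithinAt

end hom

end Crest.Agent.R267.PolC2_943
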