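import Crest.Agent.R267.Pow_951

/-!
# Row 267 (helper951): functions with parameters, homogeneous of fixed degree `e > 2`, are `C²`
at the origin

`contDiffOn_of_homY`: `T` open in a finite-dimensional space `Y` of parameters, `H : Y × E → F` of
class `C²` on `T × {0}ᶜ`, `H (y, r x) = r ^ e H (y, x)` for `0 < r`, `2 < e`; then `H` is `C²` on
`T × E`.
-/

set_option autoImplicit false
set_option linter.unusedSectionVars false

noncomputable section

open Set Filter Topology Metric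
open scoped NNReal ContDiff

namespace Crest.Agent.R267.PowY_951

variable {Y E F : Type*} [NormedAddCommGroup Y] [NormedSpace ℝ Y]
  [NormedAddCommGroup E] [NormedSpace ℝ E] [NormedAddCommGroup F] [NormedSpace ℝ F]

theorem hasFDerivAt_flat {F' : Type*} [NormedAddCommGroup F'] [NormedSpace ℝ F']
    {K : Y × E → F'} {t : Y} {ε κ C : ℝ} (hε : 0 < ε) (hκ : 0 < κ) (hC0 : 0 ≤ C)
    (hK0 : ∀ s ∈ closedBall t ε, K (s, 0) = 0)
    (hK : ∀ s ∈ closedBall t ε, ∀ x : E, x ≠ 0 → ‖x‖ ≤ 1 → ‖K (s, x)‖ ≤ C * ‖x‖ ^ (1 + κ)) :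
    HasFDerivAt K (0 : Y × E →L[ℝ] F') (t, (0 : E)) := by
  rw [hasFDerivAt_iff_isLittleO_nhds_zero]
  have h2 : ∀ᶠ p : Y × E in 𝓝 0, (t, (0 : E)) + p ∈ ball t ε ×ˢ ball (0 : E) 1 := by
    have h3 : ContinuousAt (fun p : Y × E => (t, (0 : E)) + p) 0 := by fun_prop
    refine h3.eventually (IsOpen.mem_nhds (isOpen_ball.prod isOpen_ball) ?_)
    show (t, (0 : E)) + 0 ∈ ball t ε ×ˢ ball (0 : E) 1
    rw [add_zero]
    exact ⟨mem_ball_self hε, mem_ball_self one_pos⟩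
  rw [Asymptotics.isLittleO_iff]
  intro c hc
  have h3 : ∀ᶠ p : Y × E in 𝓝 0, C * ‖p.2‖ ^ κ < c := by
    have h4 : ContinuousAt (fun p : Y × E => C * ‖p.2‖ ^ κ) 0 :=
      ContinuousAt.mul continuousAt_const
        ((continuous_snd.norm.continuousAt).rpow_const (Or.inr hκ.le))
    refine h4.eventually (gt_mem_nhds ?_)
    show C * ‖((0 : Y × E)).2‖ ^ κ < c
    rw [Prod.snd_zero, norm_zero, Real.zero_rpow hκ.ne', mul_zero]
    exact hc
  filter_upwards [h2, h3] with p hp hp3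
  have e : (t, (0 : E)) + p = (t + p.1, p.2) := by
    refine Prod.ext rfl ?_
    show 0 + p.2 = p.2
    rw [zero_add]
  rw [e] at hp
  have hs' : t + p.1 ∈ closedBall t ε := ball_subset_closedBall hp.1
  have hp2 : ‖p.2‖ ≤ 1 := by
    have := hp.2
    rw [mem_ball_zero_iff] at this
    exact this.le
  rw [hK0 t (mem_closedBall_self hε.le), sub_zero, show (0 : Y × E →L[ℝ] F') p = 0 from rfl,
    sub_zero, e]
  by_cases hx : p.2 = 0
  · rw [hx, hK0 _ hs', norm_zero]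
    positivity
  · have hxp : 0 < ‖p.2‖ := norm_pos_iff.2 hx
    calc ‖K (t + p.1, p.2)‖ ≤ C * ‖p.2‖ ^ (1 + κ) := hK _ hs' _ hx hp2
      _ = C * ‖p.2‖ ^ κ * ‖p.2‖ := by rw [Real.rpow_add hxp, Real.rpow_one]; ring
      _ ≤ c * ‖p.2‖ := mul_le_mul_of_nonneg_right hp3.le hxp.le
      _ ≤ c * ‖p‖ := mul_le_mul_of_nonneg_left (norm_snd_le p) hc.le

/-- flat points -/
theorem contDiffOn_of_flat {T : Set Y} (hT : IsOpen T) {H : Y × E → F}
    (hC : ContDiffOn ℝ 2 H (T ×ˢ {0}ᶜ)) (h0 : ∀ t ∈ T, H (t, 0) = 0)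
    (hb : ∀ t ∈ T, ∃ ε : ℝ, 0 < ε ∧ ∃ κ : ℝ, 0 < κ ∧ ∃ C : ℝ, 0 ≤ C ∧ closedBall t ε ⊆ T ∧
      ∀ s ∈ closedBall t ε, ∀ x : E, x ≠ 0 → ‖x‖ ≤ 1 → ‖H (s, x)‖ ≤ C * ‖x‖ ^ (2 + κ) ∧
        ‖fderiv ℝ H (s, x)‖ ≤ C * ‖x‖ ^ (1 + κ) ∧
        ‖fderiv ℝ (fderiv ℝ H) (s, x)‖ ≤ C * ‖x‖ ^ κ) :
    ContDiffOn ℝ 2 H (T ×ˢ univ) := by
  have hop : IsOpen (T ×ˢ (univ : Set E)) := hT.prod isOpen_univ
  have hop' : IsOpen (T ×ˢ ({0}ᶜ : Set E)) := hT.prod isOpen_compl_singleton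
  have hCd : ∀ q ∈ T ×ˢ ({0}ᶜ : Set E), ContDiffAt ℝ 2 H q := fun q hq =>
    (hC _ hq).contDiffAt (hop'.mem_nhds hq)
  have hCf : ∀ q ∈ T ×ˢ ({0}ᶜ : Set E), ContDiffAt ℝ 1 (fderiv ℝ H) q := fun q hq =>
    (hCd q hq).fderiv_right (m := 1) (by norm_num)
  have hH0 : ∀ t ∈ T, HasFDerivAt H (0 : Y × E →L[ℝ] F) (t, (0 : E)) := by
    intro t ht
    obtain ⟨ε, hε, κ, hκ, C, hC0, hcb, h⟩ := hb t ht
    refine hasFDerivAt_flat hε (by positivity : 0 < 1 + κ) hC0 (fun s hs => h0 s (hcb hs))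
      fun s hs x hx hx1 => ?_
    have := (h s hs x hx hx1).1
    have e : 1 + (1 + κ) = 2 + κ := by ring
    rwa [e]
  have hG0 : ∀ t ∈ T, HasFDerivAt (fderiv ℝ H) (0 : Y × E →L[ℝ] (Y × E →L[ℝ] F)) (t, (0 : E)) := by
    intro t ht
    obtain ⟨ε, hε, κ, hκ, C, hC0, hcb, h⟩ := hb t ht
    exact hasFDerivAt_flat hε hκ hC0 (fun s hs => (hH0 s (hcb hs)).fderiv)
      fun s hs x hx hx1 => (h s hs x hx hx1).2.1
  have e2 : (2 : WithTop ℕ∞) = 1 + 1 := by norm_num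
  rw [e2, contDiffOn_succ_iff_fderiv_of_isOpen hop]
  refine ⟨fun p hp => ?_, by simp, ?_⟩
  · by_cases hx : p.2 = 0
    · have : p = (p.1, (0 : E)) := Prod.ext rfl hx
      rw [this]
      exact (hH0 p.1 hp.1).differentiableAt.differentiableWithinAt
    · exact ((hCd p ⟨hp.1, hx⟩).differentiableAt (by norm_num)).differentiableWithinAt
  · have e1 : (1 : WithTop ℕ∞) = 0 + 1 := by norm_num
    rw [e1, contDiffOn_succ_iff_fderiv_of_isOpen hop]
    refine ⟨fun p hp => ?_, by simp, ?_⟩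
    · by_cases hx : p.2 = 0
      · have : p = (p.1, (0 : E)) := Prod.ext rfl hx
        rw [this]
        exact (hG0 p.1 hp.1).differentiableAt.differentiableWithinAt
      · exact ((hCf p ⟨hp.1, hx⟩).differentiableAt (by norm_num)).differentiableWithinAt
    · rw [contDiffOn_zero]
      intro p hp
      by_cases hx : p.2 = 0
      · have hpe : p = (p.1, (0 : E)) := Prod.ext rfl hx
        refine ContinuousAt.continuousWithinAt ?_
        obtain ⟨ε, hε, κ, hκ, C, hC0, hcb, h⟩ := hb p.1 hp.1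
        rw [ContinuousAt, hpe, (hG0 p.1 hp.1).fderiv]
        rw [tendsto_zero_iff_norm_tendsto_zero]
        have h3 : Tendsto (fun q : Y × E => C * ‖q.2‖ ^ κ) (𝓝 (p.1, (0 : E))) (𝓝 0) := by
          have h4 : ContinuousAt (fun q : Y × E => C * ‖q.2‖ ^ κ) (p.1, (0 : E)) :=
            ContinuousAt.mul continuousAt_const
              ((continuous_snd.norm.continuousAt).rpow_const (Or.inr hκ.le))
          have h5 : C * ‖((p.1, (0 : E)) : Y × E).2‖ ^ κ = 0 := by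
            show C * ‖(0 : E)‖ ^ κ = 0
            rw [norm_zero, Real.zero_rpow hκ.ne', mul_zero]
          rw [ContinuousAt, h5] at h4
          exact h4
        have hn : ∀ᶠ q : Y × E in 𝓝 (p.1, (0 : E)), q ∈ ball p.1 ε ×ˢ ball (0 : E) 1 :=
          (isOpen_ball.prod isOpen_ball).mem_nhds ⟨mem_ball_self hε, mem_ball_self one_pos⟩
        refine squeeze_zero' (Eventually.of_forall fun _ => norm_nonneg _) ?_ h3
        filter_upwards [hn] with q hq
        have hq1 : q.1 ∈ closedBall p.1 ε := ball_subset_closedBall hq.1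
        by_cases hqx : q.2 = 0
        · have : q = (q.1, (0 : E)) := Prod.ext rfl hqx
          rw [this, (hG0 q.1 (hcb hq1)).fderiv, norm_zero]
          positivity
        · have hq2 : ‖q.2‖ ≤ 1 := by
            have := hq.2
            rw [mem_ball_zero_iff] at this
            exact this.le
          exact (h q.1 hq1 q.2 hqx hq2).2.2
      · have h1 := hCf p ⟨hp.1, hx⟩
        exact (h1.fderiv_right (m := 0) (by norm_num)).continuousAt.continuousWithinAt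



/-! ### scaling -/

/-- scaling of the second factor -/
def dl (r : ℝ) : Y × E →L[ℝ] Y × E :=
  (ContinuousLinearMap.fst ℝ Y E).prod (r • ContinuousLinearMap.snd ℝ Y E)

theorem dl_apply (r : ℝ) (p : Y × E) : dl r p = (p.1, r • p.2) := rfl

theorem dl_inv {r : ℝ} (hr : r ≠ 0) (p : Y × E) : dl r (dl r⁻¹ p) = p := by
  rw [dl_apply, dl_apply, smul_smul, mul_inv_cancel₀ hr, one_smul]

theorem norm_dl_inv_le {r : ℝ} (hr : 0 < r) (hr1 : r ≤ 1) :
    ‖(dl r⁻¹ : Y × E →L[ℝ] Y × E)‖ ≤ r⁻¹ := by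
  have h1 : 1 ≤ r⁻¹ := (one_le_inv₀ hr).2 hr1
  refine ContinuousLinearMap.opNorm_le_bound _ (inv_nonneg.2 hr.le) fun p => ?_
  rw [dl_apply, Prod.norm_def]
  refine max_le ?_ ?_
  · calc ‖p.1‖ ≤ ‖p‖ := norm_fst_le p
      _ ≤ r⁻¹ * ‖p‖ := le_mul_of_one_le_left (norm_nonneg _) h1
  · show ‖r⁻¹ • p.2‖ ≤ _
    rw [norm_smul, Real.norm_of_nonneg (inv_nonneg.2 hr.le)]
    exact mul_le_mul_of_nonneg_left (norm_snd_le p) (inv_nonneg.2 hr.le)

/-- a differentiable function which is transformed by a linear map under the scaling -/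
theorem fderiv_scale {X : Type*} [NormedAddCommGroup X] [NormedSpace ℝ X] {T : Set Y}
    (hT : IsOpen T) {G : Y × E → X} {A : X →L[ℝ] X} {r : ℝ} (hr : 0 < r)
    (hd : ∀ p ∈ T ×ˢ ({0}ᶜ : Set E), DifferentiableAt ℝ G p)
    (hom : ∀ p ∈ T ×ˢ ({0}ᶜ : Set E), G (dl r p) = A (G p))
    {p : Y × E} (hp : p ∈ T ×ˢ ({0}ᶜ : Set E)) :
    fderiv ℝ G (dl r p) = (A.comp (fderiv ℝ G p)).comp (dl r⁻¹) := by
  have hop : IsOpen (T ×ˢ ({0}ᶜ : Set E)) := hT.prod isOpen_compl_singleton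
  have hp' : dl r p ∈ T ×ˢ ({0}ᶜ : Set E) := ⟨hp.1, smul_ne_zero hr.ne' hp.2⟩
  have h1 : HasFDerivAt (fun q => G (dl r q)) ((fderiv ℝ G (dl r p)).comp (dl r)) p :=
    (hd _ hp').hasFDerivAt.comp p (dl (Y := Y) (E := E) r).hasFDerivAt
  have h2 : HasFDerivAt (fun q => G (dl r q)) (A.comp (fderiv ℝ G p)) p := by
    refine (A.hasFDerivAt.comp p (hd _ hp).hasFDerivAt).congr_of_eventuallyEq ?_
    filter_upwards [hop.mem_nhds hp] with q hq
    exact hom q hq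
  have h3 := h1.unique h2
  refine ContinuousLinearMap.ext fun v => ?_
  have h4 := congrArg (fun B : Y × E →L[ℝ] X => B (dl r⁻¹ v)) h3
  simp only [ContinuousLinearMap.comp_apply, dl_inv hr.ne'] at h4
  rw [h4]
  rfl

/-- the action on derivatives: `B ↦ c • B ∘ dl r⁻¹` -/
def Ar (X : Type*) [NormedAddCommGroup X] [NormedSpace ℝ X] (c r : ℝ) :
    (Y × E →L[ℝ] X) →L[ℝ] (Y × E →L[ℝ] X) :=
  LinearMap.mkContinuous
    { toFun := fun B => c • B.comp (dl r⁻¹)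
      map_add' := fun B B' => by
        refine ContinuousLinearMap.ext fun v => ?_
        simp
      map_smul' := fun s B => by
        refine ContinuousLinearMap.ext fun v => ?_
        exact smul_comm c s (B (dl r⁻¹ v)) }
    (|c| * ‖(dl r⁻¹ : Y × E →L[ℝ] Y × E)‖) (fun B => by
      show ‖c • B.comp (dl r⁻¹)‖ ≤ _
      refine ContinuousLinearMap.opNorm_le_bound _ (by positivity) fun v => ?_
      show ‖c • B (dl r⁻¹ v)‖ ≤ _
      rw [norm_smul, Real.norm_eq_abs]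
      calc |c| * ‖B (dl r⁻¹ v)‖ ≤ |c| * (‖B‖ * (‖(dl r⁻¹ : Y × E →L[ℝ] Y × E)‖ * ‖v‖)) :=
            mul_le_mul_of_nonneg_left ((B.le_opNorm _).trans
              (mul_le_mul_of_nonneg_left (ContinuousLinearMap.le_opNorm _ _) (norm_nonneg _)))
              (abs_nonneg _)
        _ = |c| * ‖(dl r⁻¹ : Y × E →L[ℝ] Y × E)‖ * ‖B‖ * ‖v‖ := by ring)

theorem Ar_apply {X : Type*} [NormedAddCommGroup X] [NormedSpace ℝ X] (c r : ℝ)
    (B : Y × E →L[ℝ] X) : Ar X c r B = c • B.comp (dl r⁻¹) := rfl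

theorem norm_Ar_le {X : Type*} [NormedAddCommGroup X] [NormedSpace ℝ X] {c r : ℝ} (hc : 0 ≤ c)
    (hr : 0 < r) (hr1 : r ≤ 1) : ‖(Ar X c r : (Y × E →L[ℝ] X) →L[ℝ] _)‖ ≤ c * r⁻¹ := by
  refine (LinearMap.mkContinuous_norm_le _ (by positivity) _).trans ?_
  rw [abs_of_nonneg hc]
  exact mul_le_mul_of_nonneg_left (norm_dl_inv_le hr hr1) hc

/-- **fixed degree `> 2` with parameters: `C²` at the origin** -/
theorem contDiffOn_of_homY [FiniteDimensional ℝ Y] [FiniteDimensional ℝ E] {T : Set Y}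
    (hT : IsOpen T) {e : ℝ} (he : 2 < e) {H : Y × E → F} (hC : ContDiffOn ℝ 2 H (T ×ˢ {0}ᶜ))
    (h0 : ∀ t ∈ T, H (t, 0) = 0)
    (hom : ∀ t ∈ T, ∀ r : ℝ, 0 < r → ∀ x, H (t, r • x) = (r ^ e) • H (t, x)) :
    ContDiffOn ℝ 2 H (T ×ˢ univ) := by
  have : ProperSpace E := FiniteDimensional.proper_real E
  have : ProperSpace Y := FiniteDimensional.proper_real Y
  have hop : IsOpen (T ×ˢ ({0}ᶜ : Set E)) := hT.prod isOpen_compl_singleton
  refine contDiffOn_of_flat hT hC h0 fun t ht => ?_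
  obtain ⟨ε', hε', hball⟩ := Metric.isOpen_iff.1 hT t ht
  have hε : 0 < ε' / 2 := half_pos hε'
  have hcb : closedBall t (ε' / 2) ⊆ T :=
    Subset.trans (closedBall_subset_ball (half_lt_self hε')) hball
  set Q : Set (Y × E) := closedBall t (ε' / 2) ×ˢ sphere (0 : E) 1 with hQ
  have hQc : IsCompact Q := (isCompact_closedBall _ _).prod (isCompact_sphere _ _)
  have hQs : Q ⊆ T ×ˢ ({0}ᶜ : Set E) := by
    intro p hp
    refine ⟨hcb hp.1, fun h0 => ?_⟩
    have h1 : ‖p.2‖ = 1 := by simpa using hp.2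
    have h0' : p.2 = 0 := h0
    rw [h0', norm_zero] at h1
    exact zero_ne_one h1
  have hCd : ∀ q ∈ T ×ˢ ({0}ᶜ : Set E), ContDiffAt ℝ 2 H q := fun q hq =>
    (hC _ hq).contDiffAt (hop.mem_nhds hq)
  have hCf : ∀ q ∈ T ×ˢ ({0}ᶜ : Set E), ContDiffAt ℝ 1 (fderiv ℝ H) q := fun q hq =>
    (hCd q hq).fderiv_right (m := 1) (by norm_num)
  obtain ⟨M₀, hM₀⟩ := hQc.exists_bound_of_continuousOn (f := H)
    fun p hp => (hCd p (hQs hp)).continuousAt.continuousWithinAt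
  obtain ⟨M₁, hM₁⟩ := hQc.exists_bound_of_continuousOn (f := fderiv ℝ H)
    fun p hp => (hCf p (hQs hp)).continuousAt.continuousWithinAt
  obtain ⟨M₂, hM₂⟩ := hQc.exists_bound_of_continuousOn (f := fderiv ℝ (fderiv ℝ H))
    fun p hp => ((hCf p (hQs hp)).fderiv_right (m := 0) (by norm_num)).continuousAt.continuousWithinAt
  set C : ℝ := max 0 (max M₀ (max M₁ M₂)) with hCdef
  have hC0 : 0 ≤ C := le_max_left _ _
  have b0 : M₀ ≤ C := (le_max_left _ _).trans (le_max_right _ _)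
  have b1 : M₁ ≤ C := (le_max_left _ _).trans ((le_max_right _ _).trans (le_max_right _ _))
  have b2 : M₂ ≤ C := (le_max_right _ _).trans ((le_max_right _ _).trans (le_max_right _ _))
  refine ⟨ε' / 2, hε, e - 2, by linarith, C, hC0, hcb, fun s hs x hx hx1 => ?_⟩
  have hn : 0 < ‖x‖ := norm_pos_iff.2 hx
  have hp : (s, ‖x‖⁻¹ • x) ∈ Q := ⟨hs, by
    rw [mem_sphere_zero_iff_norm, norm_smul, norm_inv, norm_norm, inv_mul_cancel₀ hn.ne']⟩
  have hback : dl ‖x‖ (s, ‖x‖⁻¹ • x) = (s, x) := by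
    rw [dl_apply, smul_smul, mul_inv_cancel₀ hn.ne', one_smul]
  have hre : 0 ≤ ‖x‖ ^ e := (Real.rpow_pos_of_pos hn _).le
  have hd1 : ∀ p ∈ T ×ˢ ({0}ᶜ : Set E), DifferentiableAt ℝ H p := fun p hp =>
    (hCd p hp).differentiableAt (by norm_num)
  have hd2 : ∀ p ∈ T ×ˢ ({0}ᶜ : Set E), DifferentiableAt ℝ (fderiv ℝ H) p := fun p hp =>
    (hCf p hp).differentiableAt (by norm_num)
  have hs1 : ∀ p ∈ T ×ˢ ({0}ᶜ : Set E),
      H (dl ‖x‖ p) = ((‖x‖ ^ e) • ContinuousLinearMap.id ℝ F) (H p) := fun p hp =>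
    hom p.1 hp.1 ‖x‖ hn p.2
  have hs2 : ∀ p ∈ T ×ˢ ({0}ᶜ : Set E),
      fderiv ℝ H (dl ‖x‖ p) = Ar F (‖x‖ ^ e) ‖x‖ (fderiv ℝ H p) := fun p hp => by
    rw [fderiv_scale hT hn hd1 hs1 hp, Ar_apply]
    refine ContinuousLinearMap.ext fun v => ?_
    simp
  have e2 : ‖x‖ ^ (2 + (e - 2)) = ‖x‖ ^ e := by congr 1; ring
  have e1 : ‖x‖ ^ (1 + (e - 2)) = ‖x‖ ^ e * ‖x‖⁻¹ := by
    rw [← Real.rpow_neg_one, ← Real.rpow_add hn]; congr 1; ring
  have e0 : ‖x‖ ^ (e - 2) = ‖x‖ ^ e * ‖x‖⁻¹ * ‖x‖⁻¹ := by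
    rw [← Real.rpow_neg_one, ← Real.rpow_add hn, ← Real.rpow_add hn]; congr 1; ring
  refine ⟨?_, ?_, ?_⟩
  · have h1 := hs1 _ (hQs hp)
    rw [hback] at h1
    rw [h1, e2]
    show ‖(‖x‖ ^ e) • H (s, ‖x‖⁻¹ • x)‖ ≤ _
    rw [norm_smul, Real.norm_of_nonneg hre, mul_comm]
    exact mul_le_mul_of_nonneg_right ((hM₀ _ hp).trans b0) hre
  · have h1 := hs2 _ (hQs hp)
    rw [hback] at h1
    rw [h1, e1]
    calc ‖Ar F (‖x‖ ^ e) ‖x‖ (fderiv ℝ H (s, ‖x‖⁻¹ • x))‖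
        ≤ (‖x‖ ^ e * ‖x‖⁻¹) * C := (ContinuousLinearMap.le_opNorm _ _).trans
          (mul_le_mul (norm_Ar_le hre hn hx1) ((hM₁ _ hp).trans b1) (norm_nonneg _) (by positivity))
      _ = C * (‖x‖ ^ e * ‖x‖⁻¹) := by ring
  · have h1 := fderiv_scale hT hn hd2 hs2 (hQs hp)
    rw [hback] at h1
    rw [h1, e0]
    have h2 : ‖((Ar F (‖x‖ ^ e) ‖x‖).comp (fderiv ℝ (fderiv ℝ H) (s, ‖x‖⁻¹ • x))).comp
        (dl ‖x‖⁻¹)‖ ≤ (‖x‖ ^ e * ‖x‖⁻¹) * C * ‖x‖⁻¹ := by
      refine (ContinuousLinearMap.opNorm_comp_le _ _).trans ?_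
      refine mul_le_mul ?_ (norm_dl_inv_le hn hx1) (norm_nonneg _) (by positivity)
      refine (ContinuousLinearMap.opNorm_comp_le _ _).trans ?_
      exact mul_le_mul (norm_Ar_le hre hn hx1) ((hM₂ _ hp).trans b2) (norm_nonneg _)
        (by positivity)
    calc _ ≤ (‖x‖ ^ e * ‖x‖⁻¹) * C * ‖x‖⁻¹ := h2
      _ = C * (‖x‖ ^ e * ‖x‖⁻¹ * ‖x‖⁻¹) := by ring

/-! ### several variables -/

section Multi

variable {ι : Type*} [Fintype ι] [DecidableEq ι]

theorem contDiff_upd (i : ι) {n : WithTop ℕ∞} :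
    ContDiff ℝ n (fun q : (Y × (ι → ℂ)) × ℂ => (q.1.1, Function.update q.1.2 i q.2)) := by
  refine (contDiff_fst.comp contDiff_fst).prodMk ?_
  rw [contDiff_pi]
  intro j
  by_cases hj : j = i
  · subst hj
    simp only [Function.update_self]
    exact contDiff_snd
  · simp only [Function.update_of_ne hj]
    exact (contDiff_apply ℝ ℂ j).comp (contDiff_snd.comp contDiff_fst)

/-- **separately homogeneous functions**: `H` is `C²` where `z i ≠ 0` for all `i ∈ s`, homogeneous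
of degree `e i > 2` in every `z i`, `i ∈ s`; then `H` is `C²` everywhere. -/
theorem contDiffOn_multi [FiniteDimensional ℝ Y] {T : Set Y} (hT : IsOpen T)
    {H : Y × (ι → ℂ) → F} {e : ι → ℝ} (s : Finset ι) (he : ∀ i ∈ s, 2 < e i)
    (hC : ContDiffOn ℝ 2 H {p | p.1 ∈ T ∧ ∀ i ∈ s, p.2 i ≠ 0})
    (h0 : ∀ t ∈ T, ∀ z : ι → ℂ, ∀ i ∈ s, z i = 0 → H (t, z) = 0)
    (hom : ∀ t ∈ T, ∀ z : ι → ℂ, ∀ i ∈ s, ∀ r : ℝ, 0 < r →
      H (t, Function.update z i ((r : ℂ) * z i)) = (r ^ (e i)) • H (t, z)) :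
    ContDiffOn ℝ 2 H (T ×ˢ univ) := by
  induction s using Finset.induction_on with
  | empty =>
    refine hC.mono fun p hp => ⟨hp.1, fun i hi => ?_⟩
    simp at hi
  | insert i s hi ih =>
    refine ih (fun j hj => he j (Finset.mem_insert_of_mem hj)) ?_
      (fun t ht z j hj => h0 t ht z j (Finset.mem_insert_of_mem hj))
      fun t ht z j hj => hom t ht z j (Finset.mem_insert_of_mem hj)
    -- the set of parameters
    set U : Set (Y × (ι → ℂ)) := {p | p.1 ∈ T ∧ ∀ j ∈ s, p.2 j ≠ 0} with hU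
    have hUo : IsOpen U := by
      have : U = (Prod.fst ⁻¹' T) ∩ ⋂ j ∈ s, {p : Y × (ι → ℂ) | p.2 j ≠ 0} := by
        ext p
        simp [hU]
      rw [this]
      refine (hT.preimage continuous_fst).inter (isOpen_biInter_finset fun j _ => ?_)
      exact isOpen_ne_fun ((continuous_apply j).comp continuous_snd) continuous_const
    set K : (Y × (ι → ℂ)) × ℂ → F := fun q => H (q.1.1, Function.update q.1.2 i q.2) with hK
    have hKC : ContDiffOn ℝ 2 K (U ×ˢ {0}ᶜ) := by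
      refine hC.comp (contDiff_upd i).contDiffOn fun q hq => ⟨hq.1.1, fun j hj => ?_⟩
      rcases Finset.mem_insert.1 hj with rfl | hj'
      · show Function.update q.1.2 j q.2 j ≠ 0
        rw [Function.update_self]
        exact hq.2
      · show Function.update q.1.2 i q.2 j ≠ 0
        have hji : j ≠ i := by
          rintro rfl
          exact hi hj'
        rw [Function.update_of_ne hji]
        exact hq.1.2 j hj'
    have hK2 : ContDiffOn ℝ 2 K (U ×ˢ univ) := by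
      refine contDiffOn_of_homY hUo (he i (Finset.mem_insert_self _ _)) hKC (fun q hq => ?_)
        fun q hq r hr w => ?_
      · exact h0 q.1 hq.1 _ i (Finset.mem_insert_self _ _) (Function.update_self ..)
      · show H (q.1, Function.update q.2 i (r • w)) = _ • H (q.1, Function.update q.2 i w)
        rw [← hom q.1 hq.1 (Function.update q.2 i w) i (Finset.mem_insert_self _ _) r hr,
          Function.update_idem, Function.update_self, Complex.real_smul]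
    have h1 : ContDiff ℝ 2 (fun p : Y × (ι → ℂ) => (p, p.2 i)) :=
      contDiff_id.prodMk ((contDiff_apply ℝ ℂ i).comp contDiff_snd)
    refine (hK2.comp (s := U) h1.contDiffOn fun p hp => ⟨hp, mem_univ _⟩).congr fun p hp => ?_
    show H p = H (p.1, Function.update p.2 i (p.2 i))
    rw [Function.update_eq_self]

end Multi

end Crest.Agent.R267.PowY_951
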