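import Crest.Agent.R267.LemLF_951

/-!
# Row 267 (helper322): profiles are free (957, post 2379 (2))

`profF Y N R P src tgt g h z = ∑ Y(x_i)² P_i(z_i) - ∑_e Y(x_s) Y(x_t) g_e(z_s) h_e(z_t)`, where
`x_i = N_i(z_i) / R(z)`, `N_i` planar gauges (degree 1), `R` total gauge (degree 1), `P_i` planar
functions of degree `1`, `g_e, h_e` planar functions of degree `1/2`.

`prof_surj`: for every nondecreasing profile `Y` the regularity of `profF` at points with
`0 ≤ Re` follows from the conditions of LEMMA L.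
-/

set_option autoImplicit false
set_option linter.unusedSectionVars false

noncomputable section

open Finset Filter Topology
open Crest.Agent.R267.LemL_951

namespace Crest.Agent.R267.Prof_322

theorem exists_rho {ι V : Type*} [Fintype ι] [AddCommGroup V] [Module ℝ V]
    (L : V →ₗ[ℝ] ℂ) (E : ι → V) (m n : ι → ℝ) (T : ι → ℂ) (hm : ∀ k, 1 ≤ m k)
    (hn : ∀ k, 0 ≤ n k) (hs : ∑ k, n k = 1)
    (hE : ∀ j, L (E j) = m j • T j - n j • ∑ k, (m k - 1) • T k) :
    (∃ w, L w = ∑ k, (m k - 1) • T k) ∧ ∃ ρ : ι → V, ∀ j, L (ρ j) = T j := by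
  set S : ℂ := ∑ k, (m k - 1) • T k with hS
  set κ : ℝ := ∑ k, n k / m k with hκ
  have hm0 : ∀ k, 0 < m k := fun k => lt_of_lt_of_le one_pos (hm k)
  have hκ0 : 0 < κ := by
    have h1 : ∀ k, 0 ≤ n k / m k := fun k => div_nonneg (hn k) (hm0 k).le
    rcases (sum_nonneg fun k (_ : k ∈ univ) => h1 k).lt_or_eq with h | h
    · exact h
    · exfalso
      have h2 := (sum_eq_zero_iff_of_nonneg fun k _ => h1 k).1 h.symm
      have h3 : ∀ k, n k = 0 := fun k => by
        have := h2 k (mem_univ k)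
        rcases div_eq_zero_iff.1 this with h | h
        · exact h
        · exact absurd h (hm0 k).ne'
      simp [h3] at hs
  have hw : L (κ⁻¹ • ∑ j, ((m j - 1) / m j) • E j) = S := by
    rw [map_smul, map_sum]
    have h1 : ∑ j, L (((m j - 1) / m j) • E j) = κ • S := by
      have h2 : ∀ j, L (((m j - 1) / m j) • E j) = (m j - 1) • T j - (n j - n j / m j) • S := by
        intro j
        rw [map_smul, hE, smul_sub, smul_smul, smul_smul]
        have h3 : (m j - 1) / m j * m j = m j - 1 := div_mul_cancel₀ _ (hm0 j).ne'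
        have h4 : (m j - 1) / m j * n j = n j - n j / m j := by
          have := (hm0 j).ne'
          field_simp
        rw [h3, h4]
      simp only [h2, sum_sub_distrib, ← sum_smul]
      rw [hs, ← hκ, ← hS, sub_smul, one_smul]
      abel
    rw [h1, smul_smul, inv_mul_cancel₀ hκ0.ne', one_smul]
  refine ⟨⟨_, hw⟩, fun j => (m j)⁻¹ • (E j + n j • (κ⁻¹ • ∑ j, ((m j - 1) / m j) • E j)),
    fun j => ?_⟩
  rw [map_smul, map_add, map_smul, hw, hE, sub_add_cancel, smul_smul,
    inv_mul_cancel₀ (hm0 j).ne', one_smul]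

section Line

variable {ι : Type*} [Fintype ι] [DecidableEq ι]

theorem hasDerivAt_line (z : ι → ℂ) (y : ι → ℂ) :
    HasDerivAt (fun s : ℝ => z + s • y) y 0 := by
  simpa using ((hasDerivAt_id (0 : ℝ)).smul_const y).const_add z

theorem hasDerivAt_coord {F : Type*} [NormedAddCommGroup F] [NormedSpace ℝ F] {φ : ℂ → F}
    {z : ι → ℂ} {k j : ι} {v : ℂ} (h : k = j → DifferentiableAt ℝ φ (z j)) :
    HasDerivAt (fun s : ℝ => φ ((z + s • (Pi.single j v : ι → ℂ)) k))
      (if k = j then fderiv ℝ φ (z j) v else 0) 0 := by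
  by_cases hk : k = j
  · rw [if_pos hk]
    subst hk
    have h1 : HasDerivAt (fun s : ℝ => (z + s • (Pi.single k v : ι → ℂ)) k) v 0 := by
      have := (hasDerivAt_pi.1 (hasDerivAt_line z (Pi.single k v : ι → ℂ))) k
      simpa using this
    have h2 : HasFDerivAt φ (fderiv ℝ φ (z k)) ((z + (0 : ℝ) • (Pi.single k v : ι → ℂ)) k) := by
      rw [zero_smul, add_zero]
      exact (h rfl).hasFDerivAt
    exact h2.comp_hasDerivAt (0 : ℝ) h1
  · rw [if_neg hk]
    have h1 : (fun s : ℝ => φ ((z + s • (Pi.single j v : ι → ℂ)) k)) = fun _ => φ (z k) := by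
      funext s
      congr 1
      simp [Pi.single_eq_of_ne hk]
    rw [h1]
    exact hasDerivAt_const _ _

end Line

section Fun

variable {ι ε : Type*} [Fintype ι] [DecidableEq ι] [Fintype ε]

/-- the relative size of the `i`-th variable -/
def xr (N : ι → ℂ → ℝ) (R : (ι → ℂ) → ℝ) (z : ι → ℂ) (i : ι) : ℝ := N i (z i) / R z

/-- sum of planar functions with real product couplings, with profile `Y` -/
def profF (Y : ℝ → ℝ) (N : ι → ℂ → ℝ) (R : (ι → ℂ) → ℝ) (P : ι → ℂ → ℂ) (src tgt : ε → ι)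
    (g h : ε → ℂ → ℝ) (z : ι → ℂ) : ℂ :=
  ∑ i, (Y (xr N R z i) ^ 2) • P i (z i) -
    ((∑ e, Y (xr N R z (src e)) * Y (xr N R z (tgt e)) * (g e (z (src e)) * h e (z (tgt e))) : ℝ) :
      ℂ)

variable {Y : ℝ → ℝ} {N : ι → ℂ → ℝ} {R : (ι → ℂ) → ℝ} {P : ι → ℂ → ℂ} {src tgt : ε → ι}
  {g h : ε → ℂ → ℝ} {z : ι → ℂ}

/-- derivative of the relative size along `v` in the `j`-th variable -/
def xd (N : ι → ℂ → ℝ) (R : (ι → ℂ) → ℝ) (z : ι → ℂ) (j : ι) (v : ℂ) (k : ι) : ℝ :=
  (if k = j then fderiv ℝ (N j) (z j) v / R z else 0) -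
    fderiv ℝ R z (Pi.single j v) / R z * xr N R z k

theorem hasDerivAt_xr (hR : R z ≠ 0) (hRd : DifferentiableAt ℝ R z) {j : ι}
    (hN : DifferentiableAt ℝ (N j) (z j)) (v : ℂ) (k : ι) :
    HasDerivAt (fun s : ℝ => xr N R (z + s • (Pi.single j v : ι → ℂ)) k) (xd N R z j v k) 0 := by
  have h1 : HasDerivAt (fun s : ℝ => N k ((z + s • (Pi.single j v : ι → ℂ)) k))
      (if k = j then fderiv ℝ (N k) (z j) v else 0) 0 :=
    hasDerivAt_coord (φ := N k) fun h => by rw [h]; exact hN
  have h2 : HasDerivAt (fun s : ℝ => R (z + s • (Pi.single j v : ι → ℂ)))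
      (fderiv ℝ R z (Pi.single j v)) 0 := by
    have h3 : HasFDerivAt R (fderiv ℝ R z) (z + (0 : ℝ) • (Pi.single j v : ι → ℂ)) := by
      rw [zero_smul, add_zero]; exact hRd.hasFDerivAt
    exact h3.comp_hasDerivAt (0 : ℝ) (hasDerivAt_line z _)
  have h3 := h1.fun_div h2 (by rw [zero_smul, add_zero]; exact hR)
  refine h3.congr_deriv ?_
  rw [zero_smul, add_zero]
  unfold xd xr
  by_cases hk : k = j
  · subst hk
    rw [if_pos rfl, if_pos rfl]
    field_simp
  · rw [if_neg hk, if_neg hk]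
    field_simp
    ring

/-- derivative of `profF` along `v` in the `j`-th variable -/
theorem hasDerivAt_profF (hR : R z ≠ 0) (hRd : DifferentiableAt ℝ R z) {j : ι}
    (hN : DifferentiableAt ℝ (N j) (z j)) (hP : DifferentiableAt ℝ (P j) (z j))
    (hg : ∀ e, src e = j → DifferentiableAt ℝ (g e) (z j))
    (hh : ∀ e, tgt e = j → DifferentiableAt ℝ (h e) (z j))
    (hY : ∀ k, DifferentiableAt ℝ Y (xr N R z k)) (v : ℂ) :
    HasDerivAt (fun s : ℝ => profF Y N R P src tgt g h (z + s • (Pi.single j v : ι → ℂ)))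
      ((∑ k, ((2 * Y (xr N R z k) * (deriv Y (xr N R z k) * xd N R z j v k)) • P k (z k) +
          (Y (xr N R z k) ^ 2) • (if k = j then fderiv ℝ (P k) (z j) v else 0))) -
        ((∑ e, ((deriv Y (xr N R z (src e)) * xd N R z j v (src e) * Y (xr N R z (tgt e)) +
            Y (xr N R z (src e)) * (deriv Y (xr N R z (tgt e)) * xd N R z j v (tgt e))) *
              (g e (z (src e)) * h e (z (tgt e))) +
          Y (xr N R z (src e)) * Y (xr N R z (tgt e)) *
            ((if src e = j then fderiv ℝ (g e) (z j) v else 0) * h e (z (tgt e)) +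
              g e (z (src e)) * (if tgt e = j then fderiv ℝ (h e) (z j) v else 0))) : ℝ) : ℂ)) 0 := by
  have hx := fun k => hasDerivAt_xr hR hRd hN v k
  have hYk : ∀ k, HasDerivAt (fun s : ℝ => Y (xr N R (z + s • (Pi.single j v : ι → ℂ)) k))
      (deriv Y (xr N R z k) * xd N R z j v k) 0 := by
    intro k
    have h1 : HasDerivAt Y (deriv Y (xr N R z k))
        (xr N R (z + (0 : ℝ) • (Pi.single j v : ι → ℂ)) k) := by
      rw [zero_smul, add_zero]; exact (hY k).hasDerivAt
    exact h1.comp (0 : ℝ) (hx k)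
  have hz0 : z + (0 : ℝ) • (Pi.single j v : ι → ℂ) = z := by rw [zero_smul, add_zero]
  have hA : ∀ k, HasDerivAt (fun s : ℝ => (Y (xr N R (z + s • (Pi.single j v : ι → ℂ)) k) ^ 2) •
      P k ((z + s • (Pi.single j v : ι → ℂ)) k))
      ((2 * Y (xr N R z k) * (deriv Y (xr N R z k) * xd N R z j v k)) • P k (z k) +
          (Y (xr N R z k) ^ 2) • (if k = j then fderiv ℝ (P k) (z j) v else 0)) 0 := by
    intro k
    have h1 := (hYk k).fun_pow 2
    have h2 : HasDerivAt (fun s : ℝ => P k ((z + s • (Pi.single j v : ι → ℂ)) k))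
        (if k = j then fderiv ℝ (P k) (z j) v else 0) 0 :=
      hasDerivAt_coord (φ := P k) fun h => by rw [h]; exact hP
    have h3 := h1.fun_smul h2
    rw [hz0] at h3
    refine h3.congr_deriv ?_
    rw [add_comm]
    congr 2
    ring
  have hB : ∀ e, HasDerivAt (fun s : ℝ => Y (xr N R (z + s • (Pi.single j v : ι → ℂ)) (src e)) *
      Y (xr N R (z + s • (Pi.single j v : ι → ℂ)) (tgt e)) *
      (g e ((z + s • (Pi.single j v : ι → ℂ)) (src e)) *
        h e ((z + s • (Pi.single j v : ι → ℂ)) (tgt e))))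
      ((deriv Y (xr N R z (src e)) * xd N R z j v (src e) * Y (xr N R z (tgt e)) +
            Y (xr N R z (src e)) * (deriv Y (xr N R z (tgt e)) * xd N R z j v (tgt e))) *
              (g e (z (src e)) * h e (z (tgt e))) +
          Y (xr N R z (src e)) * Y (xr N R z (tgt e)) *
            ((if src e = j then fderiv ℝ (g e) (z j) v else 0) * h e (z (tgt e)) +
              g e (z (src e)) * (if tgt e = j then fderiv ℝ (h e) (z j) v else 0))) 0 := by
    intro e
    have h1 := (hYk (src e)).fun_mul (hYk (tgt e))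
    have h2 : HasDerivAt (fun s : ℝ => g e ((z + s • (Pi.single j v : ι → ℂ)) (src e)))
        (if src e = j then fderiv ℝ (g e) (z j) v else 0) 0 :=
      hasDerivAt_coord (φ := g e) fun h => hg e h
    have h3 : HasDerivAt (fun s : ℝ => h e ((z + s • (Pi.single j v : ι → ℂ)) (tgt e)))
        (if tgt e = j then fderiv ℝ (h e) (z j) v else 0) 0 :=
      hasDerivAt_coord (φ := h e) fun h => hh e h
    have h4 := h1.fun_mul (h2.fun_mul h3)
    rw [hz0] at h4
    exact h4
  have h1 := HasDerivAt.fun_sum fun k (_ : k ∈ univ) => hA k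
  have h2 := (HasDerivAt.fun_sum fun e (_ : e ∈ univ) => hB e).ofReal_comp
  exact h1.fun_sub h2

/-- the logarithmic slope of the profile (squared) -/
def slope (Y : ℝ → ℝ) (x : ℝ) : ℝ := if Y x = 0 then 1 else 1 + 2 * (x * deriv Y x) / Y x

theorem slope_mul (hY0 : ∀ x, Y x = 0 → deriv Y x = 0) (x : ℝ) :
    (slope Y x - 1) * Y x = 2 * (x * deriv Y x) := by
  unfold slope
  by_cases h : Y x = 0
  · rw [if_pos h, hY0 x h, h]; ring
  · rw [if_neg h, add_sub_cancel_left, div_mul_cancel₀ _ h]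

theorem one_le_slope (hYn : ∀ x, 0 ≤ Y x) (hYd : ∀ x, 0 ≤ deriv Y x) {x : ℝ} (hx : 0 ≤ x) :
    1 ≤ slope Y x := by
  unfold slope
  split_ifs with h
  · exact le_rfl
  · have := div_nonneg (mul_nonneg zero_le_two (mul_nonneg hx (hYd x))) (hYn x)
    linarith

/-- the terms at a point -/
def Qt (Y : ℝ → ℝ) (N : ι → ℂ → ℝ) (R : (ι → ℂ) → ℝ) (P : ι → ℂ → ℂ) (z : ι → ℂ) (k : ι) : ℂ :=
  (Y (xr N R z k) ^ 2) • P k (z k)

/-- the couplings at a point -/
def Bt (Y : ℝ → ℝ) (N : ι → ℂ → ℝ) (R : (ι → ℂ) → ℝ) (src tgt : ε → ι) (g h : ε → ℂ → ℝ)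
    (z : ι → ℂ) (e : ε) : ℝ :=
  Y (xr N R z (src e)) * Y (xr N R z (tgt e)) * (g e (z (src e)) * h e (z (tgt e)))

/-- half of the sum of the couplings at the variable `k` -/
def bt (Y : ℝ → ℝ) (N : ι → ℂ → ℝ) (R : (ι → ℂ) → ℝ) (src tgt : ε → ι) (g h : ε → ℂ → ℝ)
    (z : ι → ℂ) (k : ι) : ℝ :=
  ∑ e, ((if src e = k then 1 / 2 else 0) + if tgt e = k then 1 / 2 else 0) *
    Bt Y N R src tgt g h z e

theorem sum_bt : ∑ k, bt Y N R src tgt g h z k = ∑ e, Bt Y N R src tgt g h z e := by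
  unfold bt
  rw [sum_comm]
  refine sum_congr rfl fun e _ => ?_
  rw [← sum_mul, sum_add_distrib, sum_ite_eq, sum_ite_eq, if_pos (mem_univ _),
    if_pos (mem_univ _)]
  ring

/-- the sum `∑ (m_k - 1) T_k` -/
theorem sum_slope (hY0 : ∀ x, Y x = 0 → deriv Y x = 0) :
    ∑ k, (slope Y (xr N R z k) - 1) • (Qt Y N R P z k - (bt Y N R src tgt g h z k : ℂ)) =
      ∑ k, (2 * Y (xr N R z k) * (deriv Y (xr N R z k) * xr N R z k)) • P k (z k) -
        ((∑ e, (deriv Y (xr N R z (src e)) * xr N R z (src e) * Y (xr N R z (tgt e)) +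
          Y (xr N R z (src e)) * (deriv Y (xr N R z (tgt e)) * xr N R z (tgt e))) *
            (g e (z (src e)) * h e (z (tgt e))) : ℝ) : ℂ) := by
  simp only [smul_sub, sum_sub_distrib]
  congr 1
  · refine sum_congr rfl fun k _ => ?_
    unfold Qt
    rw [smul_smul]
    congr 1
    have := slope_mul hY0 (xr N R z k)
    calc (slope Y (xr N R z k) - 1) * Y (xr N R z k) ^ 2
        = ((slope Y (xr N R z k) - 1) * Y (xr N R z k)) * Y (xr N R z k) := by ring
      _ = _ := by rw [this]; ring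
  · have h1 : ∀ k, (slope Y (xr N R z k) - 1) • ((bt Y N R src tgt g h z k : ℝ) : ℂ) =
        (((slope Y (xr N R z k) - 1) * bt Y N R src tgt g h z k : ℝ) : ℂ) := by
      intro k
      rw [Complex.real_smul, Complex.ofReal_mul]
    simp only [h1]
    rw [← Complex.ofReal_sum]
    congr 1
    unfold bt
    simp only [mul_sum]
    rw [sum_comm]
    refine sum_congr rfl fun e _ => ?_
    have h2 : ∑ k, (slope Y (xr N R z k) - 1) *
        (((if src e = k then (1 : ℝ) / 2 else 0) + if tgt e = k then 1 / 2 else 0) *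
          Bt Y N R src tgt g h z e) =
        ((slope Y (xr N R z (src e)) - 1) * (1 / 2) +
          (slope Y (xr N R z (tgt e)) - 1) * (1 / 2)) * Bt Y N R src tgt g h z e := by
      have h3 : ∀ k, (slope Y (xr N R z k) - 1) *
          (((if src e = k then (1 : ℝ) / 2 else 0) + if tgt e = k then 1 / 2 else 0) *
            Bt Y N R src tgt g h z e) =
          (if src e = k then (slope Y (xr N R z k) - 1) * (1 / 2) * Bt Y N R src tgt g h z e else 0)
          + if tgt e = k then (slope Y (xr N R z k) - 1) * (1 / 2) * Bt Y N R src tgt g h z e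
            else 0 := by
        intro k
        split_ifs <;> ring
      simp only [h3, sum_add_distrib, sum_ite_eq, mem_univ, if_true]
      ring
    rw [h2]
    unfold Bt
    have e1 := slope_mul hY0 (xr N R z (src e))
    have e2 := slope_mul hY0 (xr N R z (tgt e))
    linear_combination (1 / 2) * Y (xr N R z (tgt e)) * (g e (z (src e)) * h e (z (tgt e))) * e1 +
      (1 / 2) * Y (xr N R z (src e)) * (g e (z (src e)) * h e (z (tgt e))) * e2

/-- derivative of `profF` in a direction of the `j`-th variable, regrouped -/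
theorem fderiv_profF_single (hR : R z ≠ 0) (hRd : DifferentiableAt ℝ R z) {j : ι}
    (hN : DifferentiableAt ℝ (N j) (z j)) (hP : DifferentiableAt ℝ (P j) (z j))
    (hg : ∀ e, src e = j → DifferentiableAt ℝ (g e) (z j))
    (hh : ∀ e, tgt e = j → DifferentiableAt ℝ (h e) (z j))
    (hY : ∀ k, DifferentiableAt ℝ Y (xr N R z k)) (hY0 : ∀ x, Y x = 0 → deriv Y x = 0)
    (hF : DifferentiableAt ℝ (profF Y N R P src tgt g h) z) (v : ℂ) :
    fderiv ℝ (profF Y N R P src tgt g h) z (Pi.single j v) =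
      (Y (xr N R z j) ^ 2) • fderiv ℝ (P j) (z j) v +
      (2 * Y (xr N R z j) * (deriv Y (xr N R z j) * (fderiv ℝ (N j) (z j) v / R z))) • P j (z j) -
      ((∑ e, (((if src e = j then deriv Y (xr N R z j) * (fderiv ℝ (N j) (z j) v / R z) *
            Y (xr N R z (tgt e)) else 0) +
          (if tgt e = j then Y (xr N R z (src e)) * (deriv Y (xr N R z j) *
            (fderiv ℝ (N j) (z j) v / R z)) else 0)) * (g e (z (src e)) * h e (z (tgt e))) +
          Y (xr N R z (src e)) * Y (xr N R z (tgt e)) *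
            ((if src e = j then fderiv ℝ (g e) (z j) v else 0) * h e (z (tgt e)) +
              g e (z (src e)) * (if tgt e = j then fderiv ℝ (h e) (z j) v else 0))) : ℝ) : ℂ) -
      (fderiv ℝ R z (Pi.single j v) / R z) •
        ∑ k, (slope Y (xr N R z k) - 1) • (Qt Y N R P z k - (bt Y N R src tgt g h z k : ℂ)) := by
  have h1 := hasDerivAt_profF (P := P) (src := src) (tgt := tgt) (g := g) (h := h) hR hRd hN hP
    hg hh hY v
  have h2 : HasDerivAt (fun s : ℝ => profF Y N R P src tgt g h (z + s • (Pi.single j v : ι → ℂ)))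
      (fderiv ℝ (profF Y N R P src tgt g h) z (Pi.single j v)) 0 := by
    have h3 : HasFDerivAt (profF Y N R P src tgt g h) (fderiv ℝ (profF Y N R P src tgt g h) z)
        (z + (0 : ℝ) • (Pi.single j v : ι → ℂ)) := by
      rw [zero_smul, add_zero]; exact hF.hasFDerivAt
    exact h3.comp_hasDerivAt (0 : ℝ) (hasDerivAt_line z _)
  rw [h2.unique h1, sum_slope hY0]
  set a : ℝ := fderiv ℝ (N j) (z j) v / R z with ha
  set r : ℝ := fderiv ℝ R z (Pi.single j v) / R z with hr
  have hxd : ∀ k, xd N R z j v k = (if k = j then a else 0) - r * xr N R z k := fun k => rfl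
  have e1 : ∑ k, ((2 * Y (xr N R z k) * (deriv Y (xr N R z k) * xd N R z j v k)) • P k (z k) +
          (Y (xr N R z k) ^ 2) • (if k = j then fderiv ℝ (P k) (z j) v else 0)) =
      (2 * Y (xr N R z j) * (deriv Y (xr N R z j) * a)) • P j (z j) +
      (Y (xr N R z j) ^ 2) • fderiv ℝ (P j) (z j) v -
      r • ∑ k, (2 * Y (xr N R z k) * (deriv Y (xr N R z k) * xr N R z k)) • P k (z k) := by
    have h3 : ∀ k, (2 * Y (xr N R z k) * (deriv Y (xr N R z k) * xd N R z j v k)) • P k (z k) +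
          (Y (xr N R z k) ^ 2) • (if k = j then fderiv ℝ (P k) (z j) v else 0) =
        (if k = j then (2 * Y (xr N R z k) * (deriv Y (xr N R z k) * a)) • P k (z k) else 0) +
        (if k = j then (Y (xr N R z k) ^ 2) • fderiv ℝ (P k) (z j) v else 0) -
        r • ((2 * Y (xr N R z k) * (deriv Y (xr N R z k) * xr N R z k)) • P k (z k)) := by
      intro k
      rw [hxd, smul_smul]
      by_cases hk : k = j
      · rw [if_pos hk, if_pos hk, if_pos hk, if_pos hk, add_sub_right_comm, ← sub_smul]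
        congr 2
        ring
      · rw [if_neg hk, if_neg hk, if_neg hk, if_neg hk, smul_zero, add_zero, zero_add, zero_sub,
          zero_sub, ← neg_smul]
        congr 1
        ring
    simp only [h3, sum_sub_distrib, sum_add_distrib, sum_ite_eq', mem_univ, if_true, smul_sum]
  have e2 : ∑ e, ((deriv Y (xr N R z (src e)) * xd N R z j v (src e) * Y (xr N R z (tgt e)) +
            Y (xr N R z (src e)) * (deriv Y (xr N R z (tgt e)) * xd N R z j v (tgt e))) *
              (g e (z (src e)) * h e (z (tgt e))) +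
          Y (xr N R z (src e)) * Y (xr N R z (tgt e)) *
            ((if src e = j then fderiv ℝ (g e) (z j) v else 0) * h e (z (tgt e)) +
              g e (z (src e)) * (if tgt e = j then fderiv ℝ (h e) (z j) v else 0))) =
      ∑ e, (((if src e = j then deriv Y (xr N R z j) * a *
            Y (xr N R z (tgt e)) else 0) +
          (if tgt e = j then Y (xr N R z (src e)) * (deriv Y (xr N R z j) *
            a) else 0)) * (g e (z (src e)) * h e (z (tgt e))) +
          Y (xr N R z (src e)) * Y (xr N R z (tgt e)) *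
            ((if src e = j then fderiv ℝ (g e) (z j) v else 0) * h e (z (tgt e)) +
              g e (z (src e)) * (if tgt e = j then fderiv ℝ (h e) (z j) v else 0))) -
      r * ∑ e, (deriv Y (xr N R z (src e)) * xr N R z (src e) * Y (xr N R z (tgt e)) +
          Y (xr N R z (src e)) * (deriv Y (xr N R z (tgt e)) * xr N R z (tgt e))) *
            (g e (z (src e)) * h e (z (tgt e))) := by
    rw [mul_sum, ← sum_sub_distrib]
    refine sum_congr rfl fun e _ => ?_
    rw [hxd, hxd]
    by_cases h3 : src e = j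
    · by_cases h4 : tgt e = j
      · simp only [h3, h4, if_true]; ring
      · simp only [h3, if_true, if_neg h4]; ring
    · by_cases h4 : tgt e = j
      · simp only [h4, if_true, if_neg h3]; ring
      · simp only [if_neg h3, if_neg h4]; ring
  rw [e1, e2, Complex.ofReal_sub, Complex.ofReal_mul, smul_sub, ← Complex.real_smul (x := r)]
  abel

/-- the radial direction -/
theorem fderiv_profF_radial (hR : R z ≠ 0) (hRd : DifferentiableAt ℝ R z) {j : ι}
    (hN : DifferentiableAt ℝ (N j) (z j)) (hP : DifferentiableAt ℝ (P j) (z j))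
    (hg : ∀ e, src e = j → DifferentiableAt ℝ (g e) (z j))
    (hh : ∀ e, tgt e = j → DifferentiableAt ℝ (h e) (z j))
    (hY : ∀ k, DifferentiableAt ℝ Y (xr N R z k)) (hY0 : ∀ x, Y x = 0 → deriv Y x = 0)
    (hF : DifferentiableAt ℝ (profF Y N R P src tgt g h) z)
    (eN : fderiv ℝ (N j) (z j) (z j) = N j (z j)) (eP : fderiv ℝ (P j) (z j) (z j) = P j (z j))
    (eg : ∀ e, src e = j → fderiv ℝ (g e) (z j) (z j) = 1 / 2 * g e (z j))
    (eh : ∀ e, tgt e = j → fderiv ℝ (h e) (z j) (z j) = 1 / 2 * h e (z j)) :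
    fderiv ℝ (profF Y N R P src tgt g h) z (Pi.single j (z j)) =
      (slope Y (xr N R z j)) • (Qt Y N R P z j - (bt Y N R src tgt g h z j : ℂ)) -
      (fderiv ℝ R z (Pi.single j (z j)) / R z) •
        ∑ k, (slope Y (xr N R z k) - 1) • (Qt Y N R P z k - (bt Y N R src tgt g h z k : ℂ)) := by
  rw [fderiv_profF_single hR hRd hN hP hg hh hY hY0 hF, eN, eP]
  congr 1
  have hx : N j (z j) / R z = xr N R z j := rfl
  have hs := slope_mul hY0 (xr N R z j)
  rw [hx, smul_sub]
  congr 1
  · unfold Qt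
    rw [← add_smul, smul_smul]
    congr 1
    linear_combination (-Y (xr N R z j)) * hs
  · rw [Complex.real_smul, ← Complex.ofReal_mul]
    congr 1
    unfold bt
    rw [mul_sum]
    refine sum_congr rfl fun e _ => ?_
    unfold Bt
    by_cases h3 : src e = j
    · by_cases h4 : tgt e = j
      · have e1 := eg e h3
        have e2 := eh e h4
        simp only [h3, h4, if_true]
        rw [e1, e2]
        linear_combination (-(Y (xr N R z j)) * (g e (z j) * h e (z j))) * hs
      · have e1 := eg e h3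
        simp only [h3, if_true, if_neg h4]
        rw [e1]
        linear_combination (-(1 / 2) * (Y (xr N R z (tgt e))) * (g e (z j) * h e (z (tgt e)))) * hs
    · by_cases h4 : tgt e = j
      · have e2 := eh e h4
        simp only [h4, if_true, if_neg h3]
        rw [e2]
        linear_combination (-(1 / 2) * (Y (xr N R z (src e))) * (g e (z (src e)) * h e (z j))) * hs
      · simp only [if_neg h3, if_neg h4]; ring

/-- a direction along which the gauge and the couplings are constant -/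
theorem fderiv_profF_tangent (hR : R z ≠ 0) (hRd : DifferentiableAt ℝ R z) {j : ι}
    (hN : DifferentiableAt ℝ (N j) (z j)) (hP : DifferentiableAt ℝ (P j) (z j))
    (hg : ∀ e, src e = j → DifferentiableAt ℝ (g e) (z j))
    (hh : ∀ e, tgt e = j → DifferentiableAt ℝ (h e) (z j))
    (hY : ∀ k, DifferentiableAt ℝ Y (xr N R z k)) (hY0 : ∀ x, Y x = 0 → deriv Y x = 0)
    (hF : DifferentiableAt ℝ (profF Y N R P src tgt g h) z) {v : ℂ}
    (eN : fderiv ℝ (N j) (z j) v = 0)
    (eg : ∀ e, src e = j → fderiv ℝ (g e) (z j) v = 0)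
    (eh : ∀ e, tgt e = j → fderiv ℝ (h e) (z j) v = 0) :
    fderiv ℝ (profF Y N R P src tgt g h) z (Pi.single j v) =
      (Y (xr N R z j) ^ 2) • fderiv ℝ (P j) (z j) v -
      (fderiv ℝ R z (Pi.single j v) / R z) •
        ∑ k, (slope Y (xr N R z k) - 1) • (Qt Y N R P z k - (bt Y N R src tgt g h z k : ℂ)) := by
  rw [fderiv_profF_single hR hRd hN hP hg hh hY hY0 hF, eN]
  have h1 : ∑ e, (((if src e = j then deriv Y (xr N R z j) * (0 / R z) *
            Y (xr N R z (tgt e)) else 0) +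
          (if tgt e = j then Y (xr N R z (src e)) * (deriv Y (xr N R z j) *
            (0 / R z)) else 0)) * (g e (z (src e)) * h e (z (tgt e))) +
          Y (xr N R z (src e)) * Y (xr N R z (tgt e)) *
            ((if src e = j then fderiv ℝ (g e) (z j) v else 0) * h e (z (tgt e)) +
              g e (z (src e)) * (if tgt e = j then fderiv ℝ (h e) (z j) v else 0))) = 0 := by
    refine sum_eq_zero fun e _ => ?_
    by_cases h3 : src e = j
    · by_cases h4 : tgt e = j
      · simp only [h3, h4, if_true]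
        rw [eg e h3, eh e h4]; ring
      · simp only [h3, if_true, if_neg h4]
        rw [eg e h3]; ring
    · by_cases h4 : tgt e = j
      · simp only [h4, if_true, if_neg h3]
        rw [eh e h4]; ring
      · simp only [if_neg h3, if_neg h4]; ring
  rw [h1, zero_div, mul_zero, mul_zero, zero_smul, add_zero, Complex.ofReal_zero, sub_zero]

theorem Good.smul {a Q : ℂ} (h : Good a Q) {c d : ℝ} (hc : c ≠ 0) (hd : 0 < d) :
    Good (c • a) (d • Q) := by
  intro u hu h0 h1 h2
  rw [Complex.real_smul, rf_real_mul] at h1 h2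
  rw [Complex.real_smul, jf_real_mul]
  have h3 := h u hu h0 ((mul_eq_zero.1 h1).resolve_left hc)
    (nonneg_of_mul_nonneg_right h2 hd)
  have : u.im * (d * jf u Q) = d * (u.im * jf u Q) := by ring
  rw [this]
  exact mul_nonneg hd.le h3

/-- the condition on one variable for functions with profile: (a) the couplings vanish to first
order at `x` and `P` is a submersion, (b) `Re < 0`, (c) there is a direction tangent to the level
of the gauge along which the couplings are constant and `P` turns. -/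
def CondP (N : ι → ℂ → ℝ) (P : ι → ℂ → ℂ) (src tgt : ε → ι) (g h : ε → ℂ → ℝ) (i : ι)
    (x : ℂ) : Prop :=
  (∃ v, fderiv ℝ (N i) x v = 0 ∧ (∀ e, src e = i → g e x = 0 ∧ fderiv ℝ (g e) x v = 0) ∧
    (∀ e, tgt e = i → h e x = 0 ∧ fderiv ℝ (h e) x v = 0) ∧
    ∀ b : ℂ, ∃ s t : ℝ, s • P i x + t • fderiv ℝ (P i) x v = b) ∨
  (P i x).re < 0 ∨
  (P i x ≠ 0 ∧ ∃ v, fderiv ℝ (N i) x v = 0 ∧ (∀ e, src e = i → fderiv ℝ (g e) x v = 0) ∧
    (∀ e, tgt e = i → fderiv ℝ (h e) x v = 0) ∧ Good2 (fderiv ℝ (P i) x v) (P i x))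

/-- **PROFILES ARE FREE** (957). -/
theorem prof_surj (hR : 0 < R z) (hRd : DifferentiableAt ℝ R z)
    (hRn : ∀ j, 0 ≤ fderiv ℝ R z (Pi.single j (z j)))
    (hRE : ∑ j, fderiv ℝ R z (Pi.single j (z j)) = R z)
    (hYd : Differentiable ℝ Y) (hYn : ∀ x, 0 ≤ Y x) (hYm : ∀ x, 0 ≤ deriv Y x)
    (hY00 : Y 0 = 0) (hY0 : ∀ x, Y x = 0 → deriv Y x = 0)
    (hNn : ∀ i x, 0 ≤ N i x) (hN0 : ∀ i, N i 0 = 0)
    (hN : ∀ i x, x ≠ 0 → DifferentiableAt ℝ (N i) x) (hNE : ∀ i x, x ≠ 0 →
      fderiv ℝ (N i) x x = N i x)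
    (hP : ∀ i x, x ≠ 0 → DifferentiableAt ℝ (P i) x) (hPE : ∀ i x, x ≠ 0 →
      fderiv ℝ (P i) x x = P i x)
    (hg : ∀ e x, x ≠ 0 → DifferentiableAt ℝ (g e) x) (hgE : ∀ e x, x ≠ 0 →
      fderiv ℝ (g e) x x = 1 / 2 * g e x)
    (hh : ∀ e x, x ≠ 0 → DifferentiableAt ℝ (h e) x) (hhE : ∀ e x, x ≠ 0 →
      fderiv ℝ (h e) x x = 1 / 2 * h e x)
    (hg0 : ∀ e x, 0 ≤ g e x) (hh0 : ∀ e x, 0 ≤ h e x)
    (hF : DifferentiableAt ℝ (profF Y N R P src tgt g h) z)
    (hcase : ∀ i, z i ≠ 0 → Y (xr N R z i) ≠ 0 → CondP N P src tgt g h i (z i))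
    (hne : ∃ i, Y (xr N R z i) ≠ 0)
    (hNC : (∀ i, (Qt Y N R P z i).re = bt Y N R src tgt g h z i) →
      (∀ i, z i ≠ 0 → Y (xr N R z i) ≠ 0 → 0 < (P i (z i)).re ∧ (P i (z i)).im = 0) → False)
    (hre : 0 ≤ (profF Y N R P src tgt g h z).re) :
    Function.Surjective (fderiv ℝ (profF Y N R P src tgt g h) z) := by
  set L := fderiv ℝ (profF Y N R P src tgt g h) z with hL
  set T : ι → ℂ := fun k => Qt Y N R P z k - (bt Y N R src tgt g h z k : ℂ) with hT
  have hYx : ∀ k, DifferentiableAt ℝ Y (xr N R z k) := fun k => hYd _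
  have hx0 : ∀ k, 0 ≤ xr N R z k := fun k => div_nonneg (hNn k _) hR.le
  have hYz : ∀ k, z k = 0 → Y (xr N R z k) = 0 := by
    intro k hk
    have : xr N R z k = 0 := by unfold xr; rw [hk, hN0, zero_div]
    rw [this, hY00]
  have hQ0 : ∀ k, Y (xr N R z k) = 0 → Qt Y N R P z k = 0 := by
    intro k hk; unfold Qt; rw [hk]; simp
  have hB0 : ∀ e, 0 ≤ Bt Y N R src tgt g h z e := fun e =>
    mul_nonneg (mul_nonneg (hYn _) (hYn _)) (mul_nonneg (hg0 _ _) (hh0 _ _))
  have hb0 : ∀ k, 0 ≤ bt Y N R src tgt g h z k := fun k =>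
    sum_nonneg fun e _ => mul_nonneg (by split_ifs <;> norm_num) (hB0 e)
  have hbz : ∀ k, Y (xr N R z k) = 0 → bt Y N R src tgt g h z k = 0 := by
    intro k hk
    refine sum_eq_zero fun e _ => ?_
    unfold Bt
    by_cases h3 : src e = k
    · rw [h3, hk]; ring
    · by_cases h4 : tgt e = k
      · rw [h4, hk]; ring
      · rw [if_neg h3, if_neg h4]; ring
  have hrad : ∀ j, L (Pi.single j (z j)) = (slope Y (xr N R z j)) • T j -
      (fderiv ℝ R z (Pi.single j (z j)) / R z) • ∑ k, (slope Y (xr N R z k) - 1) • T k := by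
    intro j
    by_cases hj : z j = 0
    · have h1 : (Pi.single j (z j) : ι → ℂ) = 0 := by rw [hj, Pi.single_zero]
      have h2 : T j = 0 := by
        rw [hT]
        show Qt Y N R P z j - (bt Y N R src tgt g h z j : ℂ) = 0
        rw [hQ0 j (hYz j hj), hbz j (hYz j hj)]
        simp
      rw [h1, h2, map_zero, map_zero]
      simp
    · exact fderiv_profF_radial hR.ne' hRd (hN j _ hj) (hP j _ hj) (fun e _ => hg e _ hj)
        (fun e _ => hh e _ hj) hYx hY0 hF (hNE j _ hj) (hPE j _ hj) (fun e _ => hgE e _ hj)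
        fun e _ => hhE e _ hj
  obtain ⟨⟨w, hw⟩, ρ, hρ⟩ := exists_rho (L : (ι → ℂ) →ₗ[ℝ] ℂ) (fun j => Pi.single j (z j))
    (fun k => slope Y (xr N R z k)) (fun j => fderiv ℝ R z (Pi.single j (z j)) / R z) T
    (fun k => one_le_slope hYn hYm (hx0 k)) (fun k => div_nonneg (hRn k) hR.le)
    (by rw [← sum_div, hRE, div_self hR.ne']) hrad
  have hw' : L w = ∑ k, (slope Y (xr N R z k) - 1) • T k := hw
  have hρ' : ∀ j, L (ρ j) = T j := hρ
  -- tangent directions
  have htan : ∀ j v, z j ≠ 0 → fderiv ℝ (N j) (z j) v = 0 →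
      (∀ e, src e = j → fderiv ℝ (g e) (z j) v = 0) →
      (∀ e, tgt e = j → fderiv ℝ (h e) (z j) v = 0) →
      L ((Pi.single j v : ι → ℂ) + (fderiv ℝ R z (Pi.single j v) / R z) • w) =
        (Y (xr N R z j) ^ 2) • fderiv ℝ (P j) (z j) v := by
    intro j v hj h1 h2 h3
    rw [map_add, map_smul, hw', hL, fderiv_profF_tangent hR.ne' hRd (hN j _ hj) (hP j _ hj)
      (fun e _ => hg e _ hj) (fun e _ => hh e _ hj) hYx hY0 hF h1 h2 h3, sub_add_cancel]
  by_cases ha : ∃ i, z i ≠ 0 ∧ Y (xr N R z i) ≠ 0 ∧ ∃ v, fderiv ℝ (N i) (z i) v = 0 ∧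
      (∀ e, src e = i → g e (z i) = 0 ∧ fderiv ℝ (g e) (z i) v = 0) ∧
      (∀ e, tgt e = i → h e (z i) = 0 ∧ fderiv ℝ (h e) (z i) v = 0) ∧
      ∀ b : ℂ, ∃ s t : ℝ, s • P i (z i) + t • fderiv ℝ (P i) (z i) v = b
  · obtain ⟨i, hi, hYi, v, h1, h2, h3, h4⟩ := ha
    intro b
    have hb : bt Y N R src tgt g h z i = 0 := by
      refine sum_eq_zero fun e _ => ?_
      unfold Bt
      by_cases h5 : src e = i
      · rw [h5, (h2 e h5).1]; ring
      · by_cases h6 : tgt e = i
        · rw [h6, (h3 e h6).1]; ring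
        · rw [if_neg h5, if_neg h6]; ring
    have hY2 : Y (xr N R z i) ^ 2 ≠ 0 := pow_ne_zero 2 hYi
    obtain ⟨s, t, hst⟩ := h4 ((Y (xr N R z i) ^ 2)⁻¹ • b)
    refine ⟨s • ρ i + t • ((Pi.single i v : ι → ℂ) +
      (fderiv ℝ R z (Pi.single i v) / R z) • w), ?_⟩
    rw [map_add, map_smul, map_smul, hρ', htan i v hi h1 (fun e he => (h2 e he).2)
      fun e he => (h3 e he).2]
    show s • (Qt Y N R P z i - (bt Y N R src tgt g h z i : ℂ)) + _ = b
    rw [hb, Complex.ofReal_zero, sub_zero]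
    unfold Qt
    rw [smul_comm s, smul_comm t, ← smul_add, hst, smul_smul, mul_inv_cancel₀ hY2, one_smul]
  · push Not at ha
    have hang : ∀ i, ∃ α : ι → ℂ, z i ≠ 0 → Y (xr N R z i) ≠ 0 → ¬ (P i (z i)).re < 0 →
        P i (z i) ≠ 0 ∧ ∃ a, L α = (Y (xr N R z i) ^ 2) • a ∧ Good2 a (P i (z i)) := by
      intro i
      by_cases hi : z i ≠ 0 ∧ Y (xr N R z i) ≠ 0 ∧ ¬ (P i (z i)).re < 0
      · rcases hcase i hi.1 hi.2.1 with ⟨v, h1, h2, h3, h4⟩ | h1 | ⟨h0, v, h1, h2, h3, h4⟩
        · obtain ⟨b, hb⟩ := ha i hi.1 hi.2.1 v h1 h2 h3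
          exact absurd (h4 b) (by push Not; exact hb)
        · exact absurd h1 hi.2.2
        · exact ⟨_, fun _ _ _ => ⟨h0, _, htan i v hi.1 h1 h2 h3, h4⟩⟩
      · exact ⟨0, fun h1 h2 h3 => absurd ⟨h1, h2, h3⟩ hi⟩
    choose α hα using hang
    have hPne : ∀ i, z i ≠ 0 → Y (xr N R z i) ≠ 0 → P i (z i) ≠ 0 := by
      intro i h1 h2
      by_cases h3 : (P i (z i)).re < 0
      · intro h4; rw [h4] at h3; simp at h3
      · exact (hα i h1 h2 h3).1
    have hreQ : ∀ i, (Qt Y N R P z i).re = Y (xr N R z i) ^ 2 * (P i (z i)).re := by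
      intro i; unfold Qt; rw [Complex.real_smul, Complex.re_ofReal_mul]
    refine lemG (L : (ι → ℂ) →ₗ[ℝ] ℂ) ρ α (fun _ => 1) (fun _ => one_pos)
      (Qt Y N R P z) (bt Y N R src tgt g h z) hb0 (fun i => ?_) (fun i => ?_) ?_
      (fun h1 h2 h3 => ?_) ?_
    · show L (ρ i) = _
      rw [hρ', Complex.ofReal_one, one_mul]
    · by_cases hY1 : Y (xr N R z i) = 0
      · exact Or.inl (hQ0 i hY1)
      · have hzi : z i ≠ 0 := fun h0 => hY1 (hYz i h0)
        right
        have hpos : 0 < Y (xr N R z i) ^ 2 := by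
          have := lt_of_le_of_ne (hYn (xr N R z i)) (Ne.symm hY1)
          positivity
        by_cases hneg : (P i (z i)).re < 0
        · refine good_of_neg ?_
          rw [hreQ]
          exact mul_neg_of_pos_of_neg hpos hneg
        · obtain ⟨-, a, ha1, ha2⟩ := hα i hzi hY1 hneg
          show Good (L (α i)) _
          rw [ha1]
          exact Good.smul ha2.1 hpos.ne' hpos
    · obtain ⟨i, hi⟩ := hne
      have hzi : z i ≠ 0 := fun h0 => hi (hYz i h0)
      refine ⟨i, ?_⟩
      unfold Qt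
      exact smul_ne_zero (pow_ne_zero 2 hi) (hPne i hzi hi)
    · refine hNC (fun i => by have := h1 i; rwa [one_mul] at this) fun i hzi hY1 => ?_
      have hpos : 0 < Y (xr N R z i) ^ 2 := by
        have := lt_of_le_of_ne (hYn (xr N R z i)) (Ne.symm hY1)
        positivity
      have hnn : ¬ (P i (z i)).re < 0 := by
        intro h4
        apply h3 i
        rw [hreQ]
        exact mul_neg_of_pos_of_neg hpos h4
      obtain ⟨h5, a, ha1, ha2⟩ := hα i hzi hY1 hnn
      have h6 : a.re = 0 := by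
        have h7 := h2 i
        have h8 : ((L : (ι → ℂ) →ₗ[ℝ] ℂ) (α i)) = (Y (xr N R z i) ^ 2) • a := ha1
        rw [h8, Complex.real_smul, Complex.re_ofReal_mul] at h7
        exact (mul_eq_zero.1 h7).resolve_left hpos.ne'
      have h7 := ha2.2 h6
      refine ⟨lt_of_le_of_ne (not_lt.1 hnn) fun h8 => h5 (Complex.ext h8.symm h7), h7⟩
    · have h1 : (profF Y N R P src tgt g h z).re =
          ∑ i, (Qt Y N R P z i).re - ∑ i, bt Y N R src tgt g h z i := by
        unfold profF
        rw [Complex.sub_re, Complex.re_sum, Complex.ofReal_re, sum_bt]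
        rfl
      simp only [div_one]
      rw [← h1]
      exact hre

end Fun

end Crest.Agent.R267.Prof_322
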