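import Crest.Agent.R267.R4_996
import Crest.Agent.R267.Calc4N_867

/-!
# Row 267, T3aN: fact R4 for the signed lobed function (over the centre the page is radial around
the rays of the letters)
-/

set_option autoImplicit false

noncomputable section

namespace Crest.Agent.R267.R4N_867

open Set Filter Topology Finset
open Crest.Agent.R267.T3aDefs_957 (LD st Af Bf pg NN chi)
open Crest.Agent.R267.T3aNDefs_88
open Crest.Agent.R267.Calc_957 (Afd Bfd std st_of_le st_of_ge Af_of_le)
open Crest.Agent.R267.CalcN_88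
open Crest.Agent.R267.Calc4N_867 (tw tw_K tw_K1 tw_xr tw_ch tw_Mx M_le_Mx hh la Be_eq hh_nonneg)
open Crest.Agent.R267.TLine_996 (SA SB ln ln_re ln_im ln_zero hasDerivAt_line SA_nonneg SB_nonneg
  chi_of_ge)
open Crest.Agent.R267.K1_996 (exists_im far_of_region1 xr_region1 dOk exists_dOk re_sq_le)
open Crest.Agent.R267.R4_996 (Af_le_one abs_lt_two_of_Af near_facts sum_re_le xr_cen)

/-! ### planar facts -/

lemma pvN_re_le {ga : ℝ} (e : ℕ → ℝ) (M : ℕ) (τ : ℝ) : (pvN ga e M τ).re ≤ ga := by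
  rcases casesN_tau M τ with h | ⟨l, hl, h⟩ | h
  · rw [pvN_low (by linarith)]
    simp
  · rw [pvN_cell hl h]
    have := Af_le_one (τ - sgN l)
    simp
    linarith
  · rw [pvN_high (by linarith)]
    simp

/-- if the real part is not too negative then the point is near a ray. -/
lemma near_of_re {ga : ℝ} {e : ℕ → ℝ} {M : ℕ} {τ : ℝ} (h : -(1 - ga) < (pvN ga e M τ).re) :
    ∃ l < M, |τ - sgN l| < 2 := by
  rcases casesN_tau M τ with h1 | ⟨l, hl, h1⟩ | h1
  · rw [pvN_low (by linarith)] at h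
    simp at h
  · rw [pvN_cell hl h1] at h
    refine ⟨l, hl, abs_lt_two_of_Af ?_⟩
    have : -(1 - ga) < -(1 - ga) + Af (τ - sgN l) := by simpa using h
    linarith
  · rw [pvN_high (by linarith)] at h
    simp at h

lemma plN_re_le {ga : ℝ} (e : ℕ → ℝ) (M : ℕ) {w : ℂ} (h : 0 < w.re) :
    (plN ga e M w).re ≤ ga * w.re := by
  rw [plN_of_pos h, Complex.re_ofReal_mul, mul_comm ga]
  exact mul_le_mul_of_nonneg_left (pvN_re_le _ _ _) h.le

/-- derivative of `plN` along the fibre. -/
lemma hasDerivAt_plN {N : ℕ} (ga : ℝ) (e : ℕ → ℝ) (M : ℕ) {z : Fin N → ℂ} (Y : Fin N → ℝ)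
    {i : Fin N} (hi : z i ≠ 0) :
    HasDerivAt (fun h => plN ga e M (ln z Y h i)) (Y i * pbN e M (z i)) 0 := by
  have h1 : HasFDerivAt (plN ga e M) (Complex.reCLM.smulRight (paN ga e M (z i)) +
      Complex.imCLM.smulRight (pbN e M (z i))) (ln z Y 0 i) := by
    rw [ln_zero]; exact hasFDerivAt_plN ga e M hi
  have h2 : HasDerivAt (fun h : ℝ => ln z Y h i) ((Y i : ℂ) * Complex.I) 0 := by
    have e1 : (fun h : ℝ => ln z Y h i) = fun h : ℝ => z i + ((h : ℝ) : ℂ) * ((Y i : ℂ) *
        Complex.I) := by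
      funext h
      rw [TLine_996.ln_apply]
      push_cast
      ring
    rw [e1]
    have := (Complex.ofRealCLM.hasDerivAt (x := (0 : ℝ))).mul_const ((Y i : ℂ) * Complex.I)
    simpa using this.const_add (z i)
  refine (h1.comp_hasDerivAt (0 : ℝ) h2).congr_deriv ?_
  simp

section space

variable {N : ℕ} (D : SD N)

lemma G_re (cB ga d : ℝ) (z : Fin N → ℂ) :
    (D.G cB ga d z).re = ∑ j, D.ch d z j * (plN ga (D.sn j) (D.M j) (z j)).re -
      cB * ga * ∑ e, D.Be d e z := by
  unfold SD.G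
  rw [Complex.sub_re, Complex.re_sum, Complex.ofReal_re]
  congr 1
  exact sum_congr rfl fun j _ => Complex.re_ofReal_mul _ _

lemma G_im (cB ga d : ℝ) (z : Fin N → ℂ) :
    (D.G cB ga d z).im = ∑ j, D.ch d z j * (plN ga (D.sn j) (D.M j) (z j)).im := by
  unfold SD.G
  rw [Complex.sub_im, Complex.im_sum, Complex.ofReal_im, sub_zero]
  exact sum_congr rfl fun j _ => Complex.im_ofReal_mul _ _

lemma Be_nonneg (d : ℝ) (e : Fin D.nb) (z : Fin N → ℂ) : 0 ≤ D.Be d e z := by
  rw [Be_eq]
  exact mul_nonneg (hh_nonneg D d z e) (prod_nonneg fun j _ => winN_nonneg _ _ _)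

/-- bounds on `ga`, `cB`. -/
def gOk (cB ga : ℝ) : Prop := 2 * (N : ℝ) ^ 3 < cB ∧ 0 < ga ∧ ga * (2 * N ^ 2 + 2) < 1

/-- one very negative variable makes `Re G` negative. -/
lemma re_neg_of {cB ga d : ℝ} (hg : gOk (N := N) cB ga) {z : Fin N → ℂ} (hC : LD.Cen z)
    {j : Fin N} (hch : D.ch d z j = 1)
    (hj : (plN ga (D.sn j) (D.M j) (z j)).re ≤ -(1 - ga) * (z j).re) :
    (D.G cB ga d z).re < 0 := by
  obtain ⟨hg1, hg2, hg3⟩ := hg
  have hN : (1 : ℝ) ≤ N := by exact_mod_cast Fin.pos j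
  rw [G_re]
  have hcB : 0 < cB := by
    have : (0 : ℝ) ≤ N ^ 3 := by positivity
    linarith
  have h6 : 0 ≤ cB * ga * ∑ e, D.Be d e z :=
    mul_nonneg (by positivity) (sum_nonneg fun e _ => Be_nonneg D d e z)
  have h7 : ∑ i, D.ch d z i * (plN ga (D.sn i) (D.M i) (z i)).re ≤
      -(1 - ga) * (z j).re + ∑ i ∈ univ.erase j, ga * (z i).re := by
    rw [← add_sum_erase _ _ (Finset.mem_univ j), hch, one_mul]
    refine add_le_add hj (sum_le_sum fun i _ => ?_)
    have h8 := (hC i).1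
    have h9 : 0 ≤ D.ch d z i := by
      rw [← tw_ch]; exact TLine_996.ch_nonneg (tw D) d z i
    have h10 : D.ch d z i ≤ 1 := by
      rw [← tw_ch]; exact TLine_996.ch_le_one (tw D) d z i
    have h11 := plN_re_le (ga := ga) (D.sn i) (D.M i) h8
    have h12 : 0 < ga * (z i).re := by positivity
    calc D.ch d z i * (plN ga (D.sn i) (D.M i) (z i)).re ≤ D.ch d z i * (ga * (z i).re) := by gcongr
      _ ≤ 1 * (ga * (z i).re) := by gcongr
      _ = ga * (z i).re := one_mul _
  have h8 : ∑ i ∈ univ.erase j, ga * (z i).re = ga * (∑ i, (z i).re) - ga * (z j).re := by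
    rw [mul_sum, ← add_sum_erase _ _ (Finset.mem_univ j)]
    ring
  have h9 := sum_re_le hC
  have h10 : √(SA z) ≤ 2 * N * (z j).re := (hC j).2
  have h11 := (hC j).1
  have h12 : ga * ∑ i, (z i).re ≤ ga * (2 * N ^ 2 * (z j).re) := by
    refine mul_le_mul_of_nonneg_left (h9.trans ?_) hg2.le
    calc (N : ℝ) * √(SA z) ≤ N * (2 * N * (z j).re) := by gcongr
      _ = 2 * N ^ 2 * (z j).re := by ring
  have h13 : -(1 - ga) * (z j).re + (ga * (2 * N ^ 2 * (z j).re) - ga * (z j).re) < 0 := by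
    have : (ga * (2 * N ^ 2 + 2) - 1) * (z j).re < 0 :=
      mul_neg_of_neg_of_pos (by linarith) h11
    nlinarith
  linarith

lemma region1_absurd {cB ga d : ℝ} (hg : gOk (N := N) cB ga) (hd : 0 < d) (hdk : dOk (tw D) d)
    {z : Fin N → ℂ} (hz : z ≠ 0) (hC : LD.Cen z) (hN : 0 < N) (h2 : D.K1 ^ 2 * SA z < SB z)
    (hre : 0 ≤ (D.G cB ga d z).re) : False := by
  rw [← tw_K1] at h2
  obtain ⟨j, hj⟩ := exists_im z hN
  have hfar := far_of_region1 (tw D) h2 hj
  have hx := xr_region1 (tw D) hd hdk.2.1 hz h2 hj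
  have hch : D.ch d z j = 1 := by
    rw [← tw_ch]; exact chi_of_ge hd hx
  refine absurd (re_neg_of D hg hC hch ?_) (not_lt.2 hre)
  have h3 : (16 * (D.M j : ℝ) + 1) * (z j).re ≤ |(z j).im| := by
    have h4 : (8 * ((2 * D.M j : ℕ) : ℝ) + 1) * |(z j).re| ≤ |(z j).im| := hfar
    rw [abs_of_pos (hC j).1] at h4
    push_cast at h4
    linarith
  rw [plN_of_far (Or.inl h3)]
  have := (hC j).1
  simp
  nlinarith

theorem r4 (hS : D.Smooth) : D.R4Prop := by
  obtain ⟨d0, hd0, hdk⟩ := exists_dOk (tw D)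
  have hN0 : (0 : ℝ) ≤ N := Nat.cast_nonneg _
  have h1 : LD.Ev fun c g d => gOk (N := N) c g ∧ 0 < d ∧ dOk (tw D) d ∧ d * (8 * N + 1) < 1 := by
    refine ⟨2 * N ^ 3 + 1, by positivity, fun c hc => ⟨1 / (2 * N ^ 2 + 3), by positivity,
      fun g hg hg' => ⟨min d0 (1 / (8 * N + 2)), lt_min hd0 (by positivity), fun d h h' =>
        ⟨⟨by linarith, hg, ?_⟩, h, hdk d h (h'.trans (min_le_left _ _)), ?_⟩⟩⟩⟩
    · rw [le_div_iff₀ (by positivity)] at hg'
      nlinarith
    · have := h'.trans (min_le_right _ _)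
      rw [le_div_iff₀ (by positivity)] at this
      nlinarith
  refine (hS.and h1).mono fun c g d hc0 _ _ ⟨hs, hg, hd, hdo, hd8⟩ z hz hC him hre => ?_
  have hN : 0 < N := by
    by_contra h0
    have h0' : N = 0 := by omega
    subst h0'
    exact hz (Subsingleton.elim _ _)
  have hN1 : (1 : ℝ) ≤ N := by exact_mod_cast hN
  have hG : DifferentiableAt ℝ (D.G c g d) z :=
    (hs.contDiffAt (isOpen_compl_singleton.mem_nhds hz)).differentiableAt (by norm_num)
  rcases lt_or_ge (D.K1 ^ 2 * SA z) (SB z) with h2 | h2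
  · exact (region1_absurd D hg hd hdo hz hC hN h2 hre).elim
  have hz0 : ∀ j, z j ≠ 0 := fun j h0 => by
    have := (hC j).1
    rw [h0] at this
    simp at this
  -- all variables are fully active
  have hxr : ∀ j, 2 * d < (tw D).xr z j := by
    intro j
    rw [← tw_K1] at h2
    refine lt_of_lt_of_le ?_ (xr_cen (tw D) hz hC h2 j)
    rw [lt_div_iff₀ (by positivity)]
    nlinarith
  have hch : ∀ j, D.ch d z j = 1 := fun j => by
    rw [← tw_ch]; exact chi_of_ge hd (hxr j).le
  -- the letters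
  have hk : ∀ j, ∃ l < D.M j, |(z j).im / (z j).re - sgN l| < 2 := by
    intro j
    refine near_of_re (ga := g) (e := D.sn j) ?_
    by_contra h3
    have h4 : (plN g (D.sn j) (D.M j) (z j)).re ≤ -(1 - g) * (z j).re := by
      rw [plN_of_pos (hC j).1, Complex.re_ofReal_mul, mul_comm]
      exact mul_le_mul_of_nonneg_right (not_lt.1 h3) (hC j).1.le
    exact absurd (re_neg_of D hg hC (hch j) h4) (not_lt.2 hre)
  choose k hkM hkn using hk
  set v : Fin N → ℝ := fun j => (z j).im / (z j).re - sgN (k j) with hv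
  set ε : Fin N → ℝ := fun j => D.sn j (k j) with hε
  have hε1 : ∀ j, ε j * ε j = 1 := by
    intro j
    rw [hε]
    simp only [SD.sn]
    split_ifs <;> norm_num
  have hvj : ∀ j, |v j| < 2 := hkn
  have him' : ∀ j, (z j).im - sgN (k j) * (z j).re = (z j).re * v j := by
    intro j
    have := (hC j).1.ne'
    rw [hv]
    field_simp
  have hpl : ∀ j, plN g (D.sn j) (D.M j) (z j) = ((z j).re : ℂ) *
      (((-(1 - g) + Af (v j) : ℝ) : ℂ) + Complex.I * ((ε j * Bf (v j) : ℝ) : ℂ)) := by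
    intro j
    rw [plN_of_pos (hC j).1, pvN_cell (hkM j) (by have := hvj j; linarith),
      (yc_in (by have := hvj j; linarith)).1]
  have hplt : ∀ j, pbN (D.sn j) (D.M j) (z j) =
      ((Afd (v j) : ℝ) : ℂ) + Complex.I * ((ε j * Bfd (v j) : ℝ) : ℂ) := by
    intro j
    unfold pbN
    rw [if_pos (hC j).1, pvdN_cell (hkM j) (by have := hvj j; linarith),
      (yc_in (by have := hvj j; linarith)).2]
  -- no deletion
  have hLet : D.Let k := by
    refine ⟨hkM, fun e => ?_⟩
    by_contra hdel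
    push Not at hdel
    have hw : ∏ j ∈ (D.bx e).S, winN ((D.bx e).lo j) ((D.bx e).hi j) ((z j).im / (z j).re) = 1 :=
      prod_eq_one fun j hj => by
        rw [(winN_cell (by have := hvj j; exact this.le.trans (by norm_num))).1,
          if_pos (hdel j hj)]
    have hR : ∀ j, D.R d z j = (z j).re := by
      intro j
      unfold SD.R
      rw [hch j, one_mul, max_eq_right (hC j).1.le]
    have hA : 0 < √(SA z) := by
      obtain ⟨j⟩ : Nonempty (Fin N) := ⟨⟨0, hN⟩⟩
      have := Real.le_sqrt_of_sq_le (re_sq_le z j)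
      have := (hC j).1
      linarith
    have hcard : (((D.bx e).S.card : ℕ) : ℝ) ≤ N := by
      have := card_le_univ (D.bx e).S
      rw [Fintype.card_fin] at this
      exact_mod_cast this
    have hBe : √(SA z) / (2 * N ^ 2) ≤ D.Be d e z := by
      unfold SD.Be
      rw [hw, mul_one, Calc4N_867.Hm_eq (fun j _ => by rw [hR]; exact (hC j).1)]
      have hsum : ∑ j ∈ (D.bx e).S, 1 / D.R d z j ≤ N * (2 * N / √(SA z)) := by
        calc ∑ j ∈ (D.bx e).S, 1 / D.R d z j ≤ ∑ _j ∈ (D.bx e).S, 2 * N / √(SA z) := by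
              refine sum_le_sum fun j _ => ?_
              rw [hR, div_le_div_iff₀ (hC j).1 hA, one_mul]
              exact (hC j).2
          _ = ((D.bx e).S.card : ℝ) * (2 * N / √(SA z)) := by
              rw [sum_const, nsmul_eq_mul]
          _ ≤ _ := by gcongr
      have hpos : 0 < ∑ j ∈ (D.bx e).S, 1 / D.R d z j :=
        sum_pos (fun j _ => by rw [hR]; exact one_div_pos.2 (hC j).1) (Calc4N_867.S_nonempty D e)
      calc √(SA z) / (2 * N ^ 2) = 1 / (N * (2 * N / √(SA z))) := by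
            field_simp
        _ ≤ _ := one_div_le_one_div_of_le hpos hsum
    have hsum : √(SA z) / (2 * N ^ 2) ≤ ∑ e, D.Be d e z :=
      hBe.trans (single_le_sum (f := fun e => D.Be d e z) (fun e _ => Be_nonneg D d e z)
        (Finset.mem_univ e))
    have hneg : (D.G c g d z).re < 0 := by
      rw [G_re]
      have h6 : ∑ j, D.ch d z j * (plN g (D.sn j) (D.M j) (z j)).re ≤ g * (N * √(SA z)) := by
        calc ∑ j, D.ch d z j * (plN g (D.sn j) (D.M j) (z j)).re ≤ ∑ j, g * (z j).re := by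
              refine sum_le_sum fun j _ => ?_
              rw [hch j, one_mul]
              exact plN_re_le _ _ (hC j).1
          _ = g * ∑ j, (z j).re := by rw [mul_sum]
          _ ≤ _ := mul_le_mul_of_nonneg_left (sum_re_le hC) hg.2.1.le
      have h7 : c * g * (√(SA z) / (2 * N ^ 2)) ≤ c * g * ∑ e, D.Be d e z := by
        have := hg.2.1
        have h8 := hg.1
        have h9 : (0 : ℝ) ≤ N ^ 3 := by positivity
        have h10 : 0 ≤ c * g := mul_nonneg (by linarith) this.le
        gcongr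
      have h8 : g * (N * √(SA z)) < c * g * (√(SA z) / (2 * N ^ 2)) := by
        have e1 : c * g * (√(SA z) / (2 * N ^ 2)) = g * √(SA z) * (c / (2 * N ^ 2)) := by ring
        rw [e1]
        have e2 : (N : ℝ) < c / (2 * N ^ 2) := by
          rw [lt_div_iff₀ (by positivity)]
          have := hg.1
          nlinarith
        have e3 : 0 < g * √(SA z) := mul_pos hg.2.1 hA
        nlinarith
      linarith
    exact absurd hneg (not_lt.2 hre)
  -- the vector
  set Y : Fin N → ℝ := fun j => (z j).re * (Bf (v j) / Bfd (v j)) with hY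
  have hBe0 : ∀ w : Fin N → ℂ, (∀ j, |(w j).im / (w j).re - sgN (k j)| < 2) →
      ∑ e, D.Be d e w = 0 := by
    intro w hw
    refine sum_eq_zero fun e _ => ?_
    obtain ⟨j, hj, h6⟩ := hLet.2 e
    unfold SD.Be
    have h7 : ∏ j ∈ (D.bx e).S, winN ((D.bx e).lo j) ((D.bx e).hi j) ((w j).im / (w j).re) = 0 :=
      prod_eq_zero hj (by rw [(winN_cell ((hw j).le.trans (by norm_num))).1, if_neg h6])
    rw [h7, mul_zero]
  have hfd : fderiv ℝ (D.G c g d) z (LD.vt Y) =
      ∑ j, (Y j : ℂ) * pbN (D.sn j) (D.M j) (z j) := by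
    have e1 := hasDerivAt_line hG Y
    have e2 : HasDerivAt (fun h => ∑ j, plN g (D.sn j) (D.M j) (ln z Y h j))
        (∑ j, (Y j : ℂ) * pbN (D.sn j) (D.M j) (z j)) 0 :=
      HasDerivAt.fun_sum fun j _ => hasDerivAt_plN g (D.sn j) (D.M j) Y (hz0 j)
    refine e1.unique (e2.congr_of_eventuallyEq ?_)
    have e3 : ∀ᶠ h in 𝓝 (0 : ℝ), ∀ j, 2 * d ≤ (tw D).xr (ln z Y h) j := by
      rw [eventually_all]
      intro j
      have := (TLine_996.hasDerivAt_xr (tw D) hz Y (hz0 j)).continuousAt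
      have h3 : 2 * d < (tw D).xr (ln z Y 0) j := by rw [ln_zero]; exact hxr j
      filter_upwards [this.eventually (lt_mem_nhds h3)] with h hh using hh.le
    have e4 : ∀ᶠ h in 𝓝 (0 : ℝ), ∀ j, |(ln z Y h j).im / (ln z Y h j).re - sgN (k j)| < 2 := by
      rw [eventually_all]
      intro j
      have hcont : Continuous fun h : ℝ => |(ln z Y h j).im / (ln z Y h j).re - sgN (k j)| := by
        simp only [ln_re, ln_im]
        fun_prop
      refine hcont.continuousAt.eventually (gt_mem_nhds ?_)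
      show |(ln z Y 0 j).im / (ln z Y 0 j).re - sgN (k j)| < 2
      rw [ln_zero]
      exact hkn j
    filter_upwards [e3, e4] with h h3 h4
    unfold SD.G
    rw [hBe0 _ h4]
    simp only [mul_zero, Complex.ofReal_zero, sub_zero]
    refine sum_congr rfl fun j _ => ?_
    have h5 : D.ch d (ln z Y h) j = 1 := by
      rw [← tw_ch]; exact chi_of_ge hd (h3 j)
    rw [h5]
    simp
  have hGz : D.G c g d z = ∑ j, plN g (D.sn j) (D.M j) (z j) := by
    unfold SD.G
    rw [hBe0 z hkn]
    simp only [mul_zero, Complex.ofReal_zero, sub_zero]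
    refine sum_congr rfl fun j _ => ?_
    rw [hch j]
    simp
  have hImG : ∑ j, (z j).re * (ε j * Bf (v j)) = 0 := by
    have := him
    rw [hGz, Complex.im_sum] at this
    rw [← this]
    refine sum_congr rfl fun j _ => ?_
    rw [hpl j, Complex.im_ofReal_mul]
    simp
  have hre1 : ∀ j, ((Y j : ℂ) * pbN (D.sn j) (D.M j) (z j)).re =
      (z j).re * (Bf (v j) * Afd (v j) / Bfd (v j)) := by
    intro j
    rw [Complex.re_ofReal_mul, hplt j, hY]
    simp
    ring
  have him1 : ∀ j, ((Y j : ℂ) * pbN (D.sn j) (D.M j) (z j)).im =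
      (z j).re * (ε j * Bf (v j)) := by
    intro j
    rw [Complex.im_ofReal_mul, hplt j, hY]
    have := (near_facts (hvj j)).1.ne'
    simp
    field_simp
  have hneg : ∀ j, (z j).re * (Bf (v j) * Afd (v j) / Bfd (v j)) ≤ 0 := by
    intro j
    obtain ⟨a, b, -, -⟩ := near_facts (hvj j)
    exact mul_nonpos_of_nonneg_of_nonpos (hC j).1.le (div_nonpos_of_nonpos_of_nonneg b a.le)
  refine ⟨k, Y, hLet, ?_, ?_, ?_, ?_, ?_⟩
  · rw [hfd, Complex.im_sum, sum_congr rfl fun j _ => him1 j, hImG]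
  · rw [hfd, Complex.re_sum, sum_congr rfl fun j _ => hre1 j]
    exact sum_nonpos fun j _ => hneg j
  · intro h0
    rw [hfd, Complex.re_sum, sum_congr rfl fun j _ => hre1 j]
    by_contra h3
    have h4 : ∑ j, (z j).re * (Bf (v j) * Afd (v j) / Bfd (v j)) = 0 :=
      le_antisymm (sum_nonpos fun j _ => hneg j) (not_lt.1 h3)
    rw [sum_eq_zero_iff_of_nonpos fun j _ => hneg j] at h4
    have h5 : ∀ j, |v j| ≤ 1 := by
      intro j
      by_contra h6
      obtain ⟨a, -, b, -⟩ := near_facts (hvj j)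
      have h7 := h4 j (Finset.mem_univ j)
      have h8 : (z j).re * (Bf (v j) * Afd (v j) / Bfd (v j)) < 0 :=
        mul_neg_of_pos_of_neg (hC j).1 (div_neg_of_neg_of_pos (b (not_le.1 h6)) a)
      linarith
    have h6 : 0 < (D.G c g d z).re := by
      rw [hGz, Complex.re_sum]
      have : Nonempty (Fin N) := ⟨⟨0, hN⟩⟩
      refine sum_pos (fun j _ => ?_) Finset.univ_nonempty
      rw [hpl j, Complex.re_ofReal_mul, Af_of_le (h5 j)]
      have := (hC j).1
      have := hg.2.1
      simp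
      positivity
    rw [h0] at h6
    simp at h6
  · intro j
    obtain ⟨-, -, -, a⟩ := near_facts (hvj j)
    rw [him' j, hY]
    have h3 := (hC j).1
    calc ((z j).re * v j) ^ 2 = (z j).re ^ 2 * v j ^ 2 := by ring
      _ ≤ (z j).re ^ 2 * (Bf (v j) / Bfd (v j) * v j) := by gcongr
      _ = _ := by ring
  · intro j
    rw [him' j, abs_mul, abs_of_pos (hC j).1]
    have h3 := (hC j).1
    have h4 := hvj j
    nlinarith

end space

end Crest.Agent.R267.R4N_867
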