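import Crest.Agent.R267.AgN_996
import Crest.Agent.R267.R4_996

/-!
# Row 267, T3aN: fact R4 of the signed lobed function
-/

set_option autoImplicit false

noncomputable section

namespace Crest.Agent.R267.R4N_996

open Set Filter Topology Finset
open Crest.Agent.R267.T3aDefs_957 (st Af Bf NN pg LD)
open Crest.Agent.R267.T3aNDefs_88 Crest.Agent.R267.Calc_957 Crest.Agent.R267.CalcN_88
open Crest.Agent.R267.TLine_996 (SA SB NN_pos NN_eq gq_of_le SA_nonneg chi_of_ge chid_of_ge
  le_gq)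
open Crest.Agent.R267.K1_996 (re_sq_le im_sq_le exists_im)
open Crest.Agent.R267.R4_996 (abs_lt_two_of_Af near_facts sum_re_le)
open Crest.Agent.R267.CLine_996 (lc lc_re lc_im lc_zero hasDerivAt_lc continuous_lc)
open Crest.Agent.R267.AbsG_996 Crest.Agent.R267.AbsG_996.AG Crest.Agent.R267.AbsK_996
open Crest.Agent.R267.AgN_996

variable {N : ℕ}

/-! ### abstract facts over the centre -/

section abs

variable {A : AG N}

/-- one very negative fully active variable makes `Re G` negative. -/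
lemma re_neg_of (hA : A.Ok) (hg : A.ga * (2 * N ^ 2 + 2) < 1) {d : ℝ} {z : Fin N → ℂ}
    (hC : LD.Cen z) {j : Fin N} (hch : A.ch d z j = 1)
    (hj : (A.P j (z j)).re ≤ -(1 - A.ga) * (z j).re) : (A.G d z).re < 0 := by
  have hN : (1 : ℝ) ≤ N := by exact_mod_cast Fin.pos j
  have g0 := hA.ga0
  rw [AG.G_re]
  have h6 := hA.B0 z
  have h7 : ∑ i, A.ch d z i * (A.P i (z i)).re ≤
      -(1 - A.ga) * (z j).re + ∑ i ∈ univ.erase j, A.ga * (z i).re := by
    rw [← add_sum_erase _ _ (Finset.mem_univ j), hch, one_mul]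
    refine add_le_add hj (sum_le_sum fun i _ => ?_)
    have h8 := (hC i).1
    have h9 := A.ch_nonneg d z i
    have h10 := A.ch_le_one d z i
    have h11 := hA.re_le i (z i) h8
    have h12 : 0 < A.ga * (z i).re := by positivity
    calc A.ch d z i * (A.P i (z i)).re ≤ A.ch d z i * (A.ga * (z i).re) := by gcongr
      _ ≤ 1 * (A.ga * (z i).re) := by gcongr
      _ = A.ga * (z i).re := one_mul _
  have h8 : ∑ i ∈ univ.erase j, A.ga * (z i).re = A.ga * (∑ i, (z i).re) - A.ga * (z j).re := by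
    rw [mul_sum, ← add_sum_erase _ _ (Finset.mem_univ j)]
    ring
  have h9 := sum_re_le hC
  have h10 : √(SA z) ≤ 2 * N * (z j).re := (hC j).2
  have h11 := (hC j).1
  have h12 : A.ga * ∑ i, (z i).re ≤ A.ga * (2 * N ^ 2 * (z j).re) := by
    refine mul_le_mul_of_nonneg_left (h9.trans ?_) g0.le
    calc (N : ℝ) * √(SA z) ≤ N * (2 * N * (z j).re) := by gcongr
      _ = 2 * N ^ 2 * (z j).re := by ring
  have h13 : -(1 - A.ga) * (z j).re + (A.ga * (2 * N ^ 2 * (z j).re) - A.ga * (z j).re) < 0 := by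
    have : (A.ga * (2 * N ^ 2 + 2) - 1) * (z j).re < 0 :=
      mul_neg_of_neg_of_pos (by linarith) h11
    nlinarith
  linarith

lemma region1_absurd (hA : A.Ok) (hg : A.ga * (2 * N ^ 2 + 2) < 1) {d : ℝ} (hd : 0 < d)
    (hd1 : 1600 * N * (A.K ^ 2 + 1) * d ^ 2 ≤ 1) {z : Fin N → ℂ} (hz : z ≠ 0)
    (hC : LD.Cen z) (hN : 0 < N) (h2 : A.K1 ^ 2 * SA z < SB z) (hre : 0 ≤ (A.G d z).re) :
    False := by
  obtain ⟨j, hj⟩ := exists_im z hN
  have hfar := far_of_region1 hA h2 hj
  have hx := xr_region1 hA hd hd1 hz h2 hj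
  have hch : A.ch d z j = 1 := chi_of_ge hd hx
  have hs := (hC j).1
  rw [abs_of_pos hs] at hfar
  refine absurd (re_neg_of hA hg hC hch ?_) (not_lt.2 hre)
  rw [hA.far j (z j) hfar]
  simp
  linarith

lemma xr_cen {z : Fin N → ℂ} (hz : z ≠ 0) (hC : LD.Cen z) (h2 : SB z ≤ A.K1 ^ 2 * SA z)
    (j : Fin N) : 1 / (2 * N) ≤ A.xr z j := by
  have hN : (1 : ℝ) ≤ N := by exact_mod_cast Fin.pos j
  have h1 : NN A.K1 z = √(SA z) := by rw [NN_eq, gq_of_le h2]
  have h3 := NN_pos A.K1 hz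
  unfold AG.xr
  rw [div_le_div_iff₀ (by positivity) h3, one_mul, h1]
  have h4 : (z j).re ≤ pg A.K (z j) := Real.le_sqrt_of_sq_le le_gq
  have h5 : √(SA z) ≤ 2 * N * (z j).re := (hC j).2
  nlinarith

/-- derivative along `y` at a point where all variables are fully active and the coupling
vanishes nearby. -/
lemma fderiv_active (hA : A.Ok) {d : ℝ} (hd : 0 < d) {z : Fin N → ℂ} (hz : z ≠ 0)
    (hG : DifferentiableAt ℝ (A.G d) z) (y : Fin N → ℂ) (hx : ∀ j, 2 * d ≤ A.xr z j)
    (hB : ∀ᶠ h in 𝓝 (0 : ℝ), A.B (lc z y h) = 0) :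
    fderiv ℝ (A.G d) z y = ∑ i, fderiv ℝ (A.P i) (z i) (y i) := by
  have hb : HasDerivAt (fun h => A.B (lc z y h)) 0 0 :=
    (hasDerivAt_const (0 : ℝ) (0 : ℝ)).congr_of_eventuallyEq hB
  rw [fderiv_G hA hd hz hG y hb, Complex.ofReal_zero, sub_zero]
  refine sum_congr rfl fun i _ => ?_
  unfold AG.tmD
  rw [chid_of_ge hd (hx i), AG.ch, chi_of_ge hd (hx i)]
  simp

end abs

/-! ### planar facts -/

lemma near_of_reN {ga : ℝ} {e : ℕ → ℝ} {M : ℕ} {τ : ℝ} (h : -(1 - ga) < (pvN ga e M τ).re) :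
    ∃ l < M, |τ - sgN l| < 2 := by
  rcases casesN_tau M τ with h1 | ⟨l, hl, h1⟩ | h1
  · rw [pvN_low (by linarith)] at h
    simp at h
  · rw [pvN_cell hl h1] at h
    refine ⟨l, hl, abs_lt_two_of_Af ?_⟩
    have : -(1 - ga) < -(1 - ga) + Af (τ - sgN l) := by simpa using h
    linarith
  · rw [pvN_high (by linarith)] at h
    simp at h

/-- bounds on `cB`, `ga`. -/
def gOk (N : ℕ) (cB ga : ℝ) : Prop := 2 * (N : ℝ) ^ 3 < cB ∧ 0 < ga ∧ ga * (2 * N ^ 2 + 2) < 1

/-- a coupling of a deleted letter is large. -/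
lemma Be_large (D : SD N) {d : ℝ} {z : Fin N → ℂ} (hC : LD.Cen z) (hch : ∀ j, D.ch d z j = 1)
    {k : Fin N → ℕ} (hkn : ∀ j, |(z j).im / (z j).re - sgN (k j)| < 2) {e : Fin D.nb}
    (he : ∀ j ∈ (D.bx e).S, (D.bx e).lo j ≤ k j ∧ k j < (D.bx e).hi j) :
    √(SA z) / (2 * N ^ 2) ≤ D.Be d e z := by
  have hne : (D.bx e).S.Nonempty := by
    rw [← card_pos]
    have := D.h2 e
    omega
  obtain ⟨j0, hj0⟩ := hne
  have hN : (1 : ℝ) ≤ N := by exact_mod_cast Fin.pos j0
  have hw : ∏ j ∈ (D.bx e).S, winN ((D.bx e).lo j) ((D.bx e).hi j) ((z j).im / (z j).re) = 1 := by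
    refine prod_eq_one fun j hj => ?_
    rw [(winN_cell (by have := hkn j; linarith)).1, if_pos (he j hj)]
  have hR : ∀ j, D.R d z j = (z j).re := by
    intro j
    unfold SD.R
    rw [hch j, one_mul, max_eq_right (hC j).1.le]
  have hpos : ∀ j ∈ (D.bx e).S, 0 < D.R d z j := fun j _ => by rw [hR]; exact (hC j).1
  unfold SD.Be
  rw [hw, mul_one, Hm_of_pos hpos]
  have hA : 0 < √(SA z) := by
    have := Real.le_sqrt_of_sq_le (re_sq_le z j0)
    have := (hC j0).1
    linarith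
  have h1 : ∑ j ∈ (D.bx e).S, 1 / D.R d z j ≤ N * (2 * N / √(SA z)) := by
    calc ∑ j ∈ (D.bx e).S, 1 / D.R d z j ≤ ∑ _j ∈ (D.bx e).S, 2 * N / √(SA z) := by
          refine sum_le_sum fun j _ => ?_
          rw [hR, div_le_div_iff₀ (hC j).1 hA, one_mul]
          exact (hC j).2
      _ = (D.bx e).S.card * (2 * N / √(SA z)) := by rw [sum_const, nsmul_eq_mul]
      _ ≤ N * (2 * N / √(SA z)) := by
          gcongr
          exact (card_le_univ _).trans (by simp)
  have h2 : 0 < ∑ j ∈ (D.bx e).S, 1 / D.R d z j :=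
    sum_pos (fun j hj => one_div_pos.2 (hpos j hj)) ⟨j0, hj0⟩
  calc √(SA z) / (2 * N ^ 2) = 1 / (N * (2 * N / √(SA z))) := by
        field_simp
    _ ≤ _ := one_div_le_one_div_of_le h2 h1

/-- couplings vanish near a letter. -/
lemma Be_letter (D : SD N) (d : ℝ) {z : Fin N → ℂ} {k : Fin N → ℕ}
    (hkn : ∀ j, |(z j).im / (z j).re - sgN (k j)| < 2) (hk : D.Let k) (e : Fin D.nb) :
    D.Be d e z = 0 := by
  obtain ⟨j, hj, hj1⟩ := hk.2 e
  have h3 : winN ((D.bx e).lo j) ((D.bx e).hi j) ((z j).im / (z j).re) = 0 := by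
    rw [(winN_cell (by have := hkn j; linarith)).1, if_neg hj1]
  unfold SD.Be
  rw [prod_eq_zero hj h3, mul_zero]

/-- **R4 of the signed function.** -/
theorem r4N (D : SD N) (hS : D.Smooth) : D.R4Prop := by
  obtain ⟨d0, hd0, hdk⟩ := exists_dOk1 (N := N) D.K1 (16 * D.Mx + 1)
  have hN0 : (0 : ℝ) ≤ N := Nat.cast_nonneg _
  have h1 : LD.Ev fun c g d => gOk N c g ∧ g < 1 ∧ 0 < d ∧ d ≤ d0 ∧ d * (8 * N + 1) < 1 := by
    refine ⟨2 * N ^ 3 + 1, by positivity, fun c hc => ⟨1 / (2 * N ^ 2 + 3), by positivity,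
      fun g hg hg' => ⟨min d0 (1 / (8 * N + 2)), lt_min hd0 (by positivity), fun d h h' =>
        ⟨⟨by linarith, hg, ?_⟩, ?_, h, h'.trans (min_le_left _ _), ?_⟩⟩⟩⟩
    · rw [le_div_iff₀ (by positivity)] at hg'
      nlinarith
    · rw [le_div_iff₀ (by positivity)] at hg'
      have : 0 ≤ g * (2 * (N : ℝ) ^ 2) := by positivity
      linarith
    · have := h'.trans (min_le_right _ _)
      rw [le_div_iff₀ (by positivity)] at this
      nlinarith
  refine (hS.and h1).mono fun c g d hc0 _ _ ⟨hs, hg, hg1, hd, hdd, hd8⟩ z hz hC him hre => ?_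
  have hN : 0 < N := by
    by_contra h0
    have h0' : N = 0 := by omega
    subst h0'
    exact hz (Subsingleton.elim _ _)
  have hN1 : (1 : ℝ) ≤ N := by exact_mod_cast hN
  set A := agN D c g d with hAdef
  have hok : A.Ok := agN_ok D d hc0.le hg.2.1 hg1
  obtain ⟨k1, k2, k3⟩ := hdk d hd hdd A hok rfl rfl
  have hG : DifferentiableAt ℝ (A.G d) z :=
    (hs.contDiffAt (isOpen_compl_singleton.mem_nhds hz)).differentiableAt (by norm_num)
  have hre' : 0 ≤ (A.G d z).re := hre
  have him' : (A.G d z).im = 0 := him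
  have hga : A.ga * (2 * N ^ 2 + 2) < 1 := hg.2.2
  rcases lt_or_ge (A.K1 ^ 2 * SA z) (SB z) with h2 | h2
  · exact (region1_absurd hok hga hd k1 hz hC hN h2 hre').elim
  -- all variables are fully active
  have hxr : ∀ j, 2 * d ≤ A.xr z j := by
    intro j
    refine le_trans ?_ (xr_cen hz hC h2 j)
    rw [le_div_iff₀ (by positivity)]
    nlinarith
  have hch : ∀ j, A.ch d z j = 1 := fun j => chi_of_ge hd (hxr j)
  have hP : ∀ j, A.P j = plN g (D.sn j) (D.M j) := fun _ => rfl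
  -- the letters
  have hk : ∀ j, ∃ l < D.M j, |(z j).im / (z j).re - sgN l| < 2 := by
    intro j
    refine near_of_reN (ga := g) (e := D.sn j) ?_
    by_contra h3
    have h4 : (A.P j (z j)).re ≤ -(1 - A.ga) * (z j).re := by
      rw [hP, plN_of_pos (hC j).1, Complex.re_ofReal_mul, mul_comm]
      exact mul_le_mul_of_nonneg_right (not_lt.1 h3) (hC j).1.le
    exact absurd (re_neg_of hok hga hC (hch j) h4) (not_lt.2 hre')
  choose k hkM hkn using hk
  set v : Fin N → ℝ := fun j => (z j).im / (z j).re - sgN (k j) with hv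
  have hvj : ∀ j, |v j| < 2 := hkn
  have hzv : ∀ j, (z j).im - sgN (k j) * (z j).re = (z j).re * v j := by
    intro j
    have := (hC j).1.ne'
    rw [hv]
    field_simp
  have hlobe : ∀ j, (A.P j (z j)).re = (z j).re * (-(1 - g) + Af (v j)) ∧
      (A.P j (z j)).im = (z j).re * (D.sn j (k j) * Bf (v j)) ∧
      (fderiv ℝ (A.P j) (z j) Complex.I).re = Afd (v j) ∧
      (fderiv ℝ (A.P j) (z j) Complex.I).im = D.sn j (k j) * Bfd (v j) := by
    intro j
    have hzj : z j ≠ 0 := fun h0 => by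
      have := (hC j).1
      rw [h0] at this
      simp at this
    obtain ⟨a1, a2, a3, a4⟩ := pvN_lobe (ga := g) (e := D.sn j) (hkM j)
      (τ := (z j).im / (z j).re) (by have := hvj j; linarith)
    have e1 : fderiv ℝ (A.P j) (z j) Complex.I = pvdN (D.sn j) (D.M j) ((z j).im / (z j).re) := by
      rw [hP, (hasFDerivAt_plN g (D.sn j) (D.M j) hzj).fderiv]
      simp [pbN, (hC j).1]
    rw [e1, hP, plN_of_pos (hC j).1, Complex.re_ofReal_mul, Complex.im_ofReal_mul, a1, a2, a3, a4]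
    exact ⟨rfl, rfl, rfl, rfl⟩
  -- no deletion
  have hLet : D.Let k := by
    refine ⟨hkM, fun e => ?_⟩
    by_contra hdel
    push Not at hdel
    have hBe : √(SA z) / (2 * N ^ 2) ≤ D.Be d e z := Be_large D hC hch hkn hdel
    have hsum : √(SA z) / (2 * N ^ 2) ≤ ∑ e, D.Be d e z :=
      hBe.trans (single_le_sum (f := fun e => D.Be d e z) (fun e _ => Be_nonneg D d e z)
        (Finset.mem_univ e))
    have hA0 : 0 < √(SA z) := by
      have j0 : Fin N := ⟨0, hN⟩
      have := Real.le_sqrt_of_sq_le (re_sq_le z j0)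
      have := (hC j0).1
      linarith
    have hneg : (A.G d z).re < 0 := by
      rw [AG.G_re]
      have h6 : ∑ j, A.ch d z j * (A.P j (z j)).re ≤ g * (N * √(SA z)) := by
        calc ∑ j, A.ch d z j * (A.P j (z j)).re ≤ ∑ j, g * (z j).re := by
              refine sum_le_sum fun j _ => ?_
              rw [hch j, one_mul]
              exact hok.re_le j (z j) (hC j).1
          _ = g * ∑ j, (z j).re := by rw [mul_sum]
          _ ≤ _ := mul_le_mul_of_nonneg_left (sum_re_le hC) hg.2.1.le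
      have h7 : c * g * (√(SA z) / (2 * N ^ 2)) ≤ A.B z := by
        show _ ≤ c * g * ∑ e, D.Be d e z
        have := hg.2.1
        gcongr
      have h8 : g * (N * √(SA z)) < c * g * (√(SA z) / (2 * N ^ 2)) := by
        have e1 : c * g * (√(SA z) / (2 * N ^ 2)) = g * √(SA z) * (c / (2 * N ^ 2)) := by ring
        rw [e1]
        have e2 : (N : ℝ) < c / (2 * N ^ 2) := by
          rw [lt_div_iff₀ (by positivity)]
          have := hg.1
          nlinarith
        have e3 : 0 < g * √(SA z) := mul_pos hg.2.1 hA0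
        nlinarith
      linarith
    exact absurd hneg (not_lt.2 hre')
  have hB0 : A.B z = 0 := by
    show c * g * ∑ e, D.Be d e z = 0
    rw [sum_eq_zero fun e _ => Be_letter D d hkn hLet e, mul_zero]
  -- the vector
  set Y : Fin N → ℝ := fun j => (z j).re * (Bf (v j) / Bfd (v j)) with hY
  have hfd : fderiv ℝ (A.G d) z (LD.vt Y) =
      ∑ j, (Y j : ℂ) * fderiv ℝ (A.P j) (z j) Complex.I := by
    rw [fderiv_active hok hd hz hG (LD.vt Y) hxr ?_]
    · refine sum_congr rfl fun j _ => ?_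
      have e1 : (LD.vt Y : Fin N → ℂ) j = (Y j) • Complex.I := by
        simp [LD.vt, mul_comm]
      rw [e1, map_smul, Complex.real_smul]
    · have e4 : ∀ᶠ h in 𝓝 (0 : ℝ), ∀ j,
          |(lc z (LD.vt Y) h j).im / (lc z (LD.vt Y) h j).re - sgN (k j)| < 2 := by
        rw [eventually_all]
        intro j
        have hre0 : ∀ h : ℝ, (lc z (LD.vt Y) h j).re = (z j).re := by
          intro h
          rw [lc_re]
          simp [LD.vt]
        have hcont : Continuous fun h : ℝ =>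
            |(lc z (LD.vt Y) h j).im / (lc z (LD.vt Y) h j).re - sgN (k j)| := by
          simp only [hre0, lc_im]
          fun_prop
        refine hcont.continuousAt.eventually (gt_mem_nhds ?_)
        show |(lc z (LD.vt Y) 0 j).im / (lc z (LD.vt Y) 0 j).re - sgN (k j)| < 2
        rw [lc_zero]
        exact hkn j
      filter_upwards [e4] with h h4
      show c * g * ∑ e, D.Be d e (lc z (LD.vt Y) h) = 0
      rw [sum_eq_zero fun e _ => Be_letter D d h4 hLet e, mul_zero]
  have hImG : ∑ j, (z j).re * (D.sn j (k j) * Bf (v j)) = 0 := by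
    rw [AG.G_im] at him'
    rw [← him']
    refine sum_congr rfl fun j _ => ?_
    rw [hch j, one_mul, (hlobe j).2.1]
  have hre1 : ∀ j, ((Y j : ℂ) * fderiv ℝ (A.P j) (z j) Complex.I).re =
      (z j).re * (Bf (v j) * Afd (v j) / Bfd (v j)) := by
    intro j
    rw [Complex.re_ofReal_mul, (hlobe j).2.2.1, hY]
    ring
  have him1 : ∀ j, ((Y j : ℂ) * fderiv ℝ (A.P j) (z j) Complex.I).im =
      (z j).re * (D.sn j (k j) * Bf (v j)) := by
    intro j
    rw [Complex.im_ofReal_mul, (hlobe j).2.2.2, hY]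
    have := (near_facts (hvj j)).1.ne'
    field_simp
  have hneg : ∀ j, (z j).re * (Bf (v j) * Afd (v j) / Bfd (v j)) ≤ 0 := by
    intro j
    obtain ⟨a, b, -, -⟩ := near_facts (hvj j)
    exact mul_nonpos_of_nonneg_of_nonpos (hC j).1.le (div_nonpos_of_nonpos_of_nonneg b a.le)
  have hfd' : fderiv ℝ (D.G c g d) z (LD.vt Y) =
      ∑ j, (Y j : ℂ) * fderiv ℝ (A.P j) (z j) Complex.I := hfd
  refine ⟨k, Y, hLet, ?_, ?_, ?_, ?_, ?_⟩
  · rw [hfd', Complex.im_sum, sum_congr rfl fun j _ => him1 j, hImG]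
  · rw [hfd', Complex.re_sum, sum_congr rfl fun j _ => hre1 j]
    exact sum_nonpos fun j _ => hneg j
  · intro h0
    rw [hfd', Complex.re_sum, sum_congr rfl fun j _ => hre1 j]
    by_contra h3
    have h4 : ∑ j, (z j).re * (Bf (v j) * Afd (v j) / Bfd (v j)) = 0 :=
      le_antisymm (sum_nonpos fun j _ => hneg j) (not_lt.1 h3)
    rw [sum_eq_zero_iff_of_nonpos fun j _ => hneg j] at h4
    have h5 : ∀ j, |v j| ≤ 1 := by
      intro j
      by_contra h6
      obtain ⟨a, -, b, -⟩ := near_facts (hvj j)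
      have h7 := h4 j (Finset.mem_univ j)
      have h8 : (z j).re * (Bf (v j) * Afd (v j) / Bfd (v j)) < 0 :=
        mul_neg_of_pos_of_neg (hC j).1 (div_neg_of_neg_of_pos (b (not_le.1 h6)) a)
      linarith
    have h6 : 0 < (A.G d z).re := by
      rw [AG.G_re, hB0, sub_zero]
      have : Nonempty (Fin N) := ⟨⟨0, hN⟩⟩
      refine sum_pos (fun j _ => ?_) Finset.univ_nonempty
      rw [hch j, one_mul, (hlobe j).1, Af_of_le (h5 j)]
      have h7 := (hC j).1
      have h8 := hg.2.1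
      have h9 : -(1 - g) + 1 = g := by ring
      rw [h9]
      positivity
    have h7 : A.G d z = 0 := h0
    rw [h7] at h6
    simp at h6
  · intro j
    obtain ⟨-, -, -, a⟩ := near_facts (hvj j)
    rw [hzv j, hY]
    have h3 := (hC j).1
    calc ((z j).re * v j) ^ 2 = (z j).re ^ 2 * v j ^ 2 := by ring
      _ ≤ (z j).re ^ 2 * (Bf (v j) / Bfd (v j) * v j) := by gcongr
      _ = _ := by ring
  · intro j
    rw [hzv j, abs_mul, abs_of_pos (hC j).1, mul_comm]
    exact mul_lt_mul_of_pos_right (hvj j) (hC j).1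

end Crest.Agent.R267.R4N_996
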