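import Crest.Agent.R267.LobeDefs_407

/-!
# Row 267 (helper951): REDUCTION and CORE for the functions of `LobeDefs_407`
-/

set_option autoImplicit false

noncomputable section

open Finset
open Crest.Agent.R267.Ang_739 Crest.Agent.R267.Hm_951 Crest.Agent.R267.LemL_951
open Crest.Agent.R267.LobeDefs_407

namespace Crest.Agent.R267.RedG_951

variable {n : ℕ}

/-! ### derivatives of `GF` -/

theorem hasFDerivAt_GF {Q : Fin (n + 1) → ℂ → ℂ} {g h : Fin n → ℂ → ℂ} {z : Fin (n + 1) → ℂ}
    (hQ : ∀ i, DifferentiableAt ℝ (Q i) (z i))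
    (hg : ∀ e : Fin n, DifferentiableAt ℝ (g e) (z e.castSucc))
    (hh : ∀ e : Fin n, DifferentiableAt ℝ (h e) (z e.succ)) :
    HasFDerivAt (GF Q g h)
      (∑ i, (fderiv ℝ (Q i) (z i)).comp (ContinuousLinearMap.proj (R := ℝ) (φ := fun _ => ℂ) i) -
        ∑ e : Fin n, (g e (z e.castSucc) • (fderiv ℝ (h e) (z e.succ)).comp
            (ContinuousLinearMap.proj (R := ℝ) (φ := fun _ => ℂ) e.succ) +
          h e (z e.succ) • (fderiv ℝ (g e) (z e.castSucc)).comp
            (ContinuousLinearMap.proj (R := ℝ) (φ := fun _ => ℂ) e.castSucc))) z := by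
  have hpr : ∀ i : Fin (n + 1), HasFDerivAt (fun z : Fin (n + 1) → ℂ => z i)
      (ContinuousLinearMap.proj (R := ℝ) (φ := fun _ => ℂ) i) z := fun i => hasFDerivAt_apply i z
  have h1 : HasFDerivAt (fun z : Fin (n + 1) → ℂ => ∑ i, Q i (z i))
      (∑ i, (fderiv ℝ (Q i) (z i)).comp (ContinuousLinearMap.proj (R := ℝ) (φ := fun _ => ℂ) i))
      z := HasFDerivAt.fun_sum fun i _ => (hQ i).hasFDerivAt.comp z (hpr i)
  have h2 := HasFDerivAt.fun_sum (u := (univ : Finset (Fin n)))
    (A := fun e (z : Fin (n + 1) → ℂ) => g e (z e.castSucc) * h e (z e.succ)) (x := z)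
    fun e _ => ((hg e).hasFDerivAt.comp z (hpr e.castSucc)).fun_mul
      ((hh e).hasFDerivAt.comp z (hpr e.succ))
  exact h1.sub h2

theorem fderiv_GF_single {Q : Fin (n + 1) → ℂ → ℂ} {g h : Fin n → ℂ → ℂ} {z : Fin (n + 1) → ℂ}
    (hQ : ∀ i, DifferentiableAt ℝ (Q i) (z i))
    (hg : ∀ e : Fin n, DifferentiableAt ℝ (g e) (z e.castSucc))
    (hh : ∀ e : Fin n, DifferentiableAt ℝ (h e) (z e.succ)) (i : Fin (n + 1)) (v : ℂ) :
    fderiv ℝ (GF Q g h) z (Pi.single i v) = fderiv ℝ (Q i) (z i) v -
      ∑ e : Fin n, (g e (z e.castSucc) * (if e.succ = i then fderiv ℝ (h e) (z i) v else 0) +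
        h e (z e.succ) * (if e.castSucc = i then fderiv ℝ (g e) (z i) v else 0)) := by
  rw [(hasFDerivAt_GF hQ hg hh).fderiv]
  simp only [_root_.sub_apply, _root_.sum_apply, ContinuousLinearMap.comp_apply,
    _root_.add_apply, _root_.smul_apply, ContinuousLinearMap.proj_apply, smul_eq_mul]
  have h1 : ∀ (j : Fin (n + 1)) (T : ℂ →L[ℝ] ℂ), T (Pi.single (M := fun _ => ℂ) i v j) =
      if j = i then T v else 0 := by
    intro j T
    by_cases hj : j = i
    · subst hj; rw [if_pos rfl, Pi.single_eq_same]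
    · rw [if_neg hj, Pi.single_eq_of_ne hj, map_zero]
  congr 1
  · simp only [h1]
    rw [Finset.sum_ite_eq' univ i, if_pos (mem_univ i)]
  · refine sum_congr rfl fun e _ => ?_
    rw [h1, h1]
    congr 2
    · by_cases h : e.succ = i
      · rw [if_pos h, if_pos h, h]
      · rw [if_neg h, if_neg h]
    · by_cases h : e.castSucc = i
      · rw [if_pos h, if_pos h, h]
      · rw [if_neg h, if_neg h]

theorem surj_of_single {L : (Fin (n + 1) → ℂ) →L[ℝ] ℂ} (i : Fin (n + 1)) {κ : ℂ} (hκ : κ ≠ 0)
    (h : ∀ v, L (Pi.single i v) = κ * v) : Function.Surjective L := fun b =>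
  ⟨Pi.single i (b / κ), by rw [h, mul_div_cancel₀ b hκ]⟩

/-- comparison with a function which does not depend on the variables above `j`. -/
theorem surj_transfer {L M : (Fin (n + 1) → ℂ) →L[ℝ] ℂ} {j : ℕ}
    (h1 : ∀ i : Fin (n + 1), j < (i : ℕ) → ∀ w, M (Pi.single i w) = 0)
    (h2 : ∀ i : Fin (n + 1), (i : ℕ) ≤ j → ∀ w, L (Pi.single i w) = M (Pi.single i w))
    (hM : Function.Surjective M) : Function.Surjective L := by
  intro b
  obtain ⟨v, rfl⟩ := hM b
  refine ⟨∑ i : Fin (n + 1), if (i : ℕ) ≤ j then Pi.single i (v i) else 0, ?_⟩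
  have hv : v = ∑ i : Fin (n + 1), Pi.single i (v i) := by
    funext k
    rw [Finset.sum_apply, Finset.sum_pi_single]
    simp
  conv_rhs => rw [hv]
  rw [map_sum, map_sum]
  refine sum_congr rfl fun i _ => ?_
  by_cases hi : (i : ℕ) ≤ j
  · rw [if_pos hi, h2 i hi]
  · rw [if_neg hi, map_zero, h1 i (not_le.1 hi)]

/-! ### the tail -/

/-- polynomial couplings `z_e z_{e+1}^{a (e+1)}` for `e ≥ k`, no pieces above `k`. -/
structure Tail (a : Fin (n + 1) → ℕ) (k : ℕ) (Q : Fin (n + 1) → ℂ → ℂ) (g h : Fin n → ℂ → ℂ) :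
    Prop where
  Q0 : ∀ i : Fin (n + 1), k < (i : ℕ) → Q i = 0
  g0 : ∀ e : Fin n, k ≤ (e : ℕ) → g e = id
  h0 : ∀ e : Fin n, k ≤ (e : ℕ) → h e = fun z => z ^ a e.succ

theorem fderiv_pow_apply (b : ℕ) (y v : ℂ) :
    fderiv ℝ (fun z : ℂ => z ^ b) y v = b * y ^ (b - 1) * v := by
  have h : HasFDerivAt (fun z : ℂ => z ^ b) _ y := (hasFDerivAt_id (𝕜 := ℝ) y).pow b
  rw [h.fderiv]
  simp [nsmul_eq_mul]

theorem fderiv_id_apply' (y v : ℂ) : fderiv ℝ (id : ℂ → ℂ) y v = v := by
  rw [fderiv_id]; rfl

variable {a : Fin (n + 1) → ℕ} {k : ℕ} {Q : Fin (n + 1) → ℂ → ℂ} {g h : Fin n → ℂ → ℂ}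
  {z : Fin (n + 1) → ℂ}

/-- the derivative in a tail variable -/
theorem Tail.fderiv_succ (T : Tail a k Q g h)
    (hQ : ∀ i, DifferentiableAt ℝ (Q i) (z i))
    (hg : ∀ e : Fin n, DifferentiableAt ℝ (g e) (z e.castSucc))
    (hh : ∀ e : Fin n, DifferentiableAt ℝ (h e) (z e.succ)) (e : Fin n) (he : k ≤ (e : ℕ)) (v : ℂ) :
    fderiv ℝ (GF Q g h) z (Pi.single e.succ v) =
      -(z e.castSucc * (a e.succ * z e.succ ^ (a e.succ - 1)) +
        ∑ f : Fin n, if f.castSucc = e.succ then z f.succ ^ a f.succ else 0) * v := by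
  rw [fderiv_GF_single hQ hg hh, T.Q0 e.succ (by rw [Fin.val_succ]; omega)]
  have h1 : fderiv ℝ (0 : ℂ → ℂ) (z e.succ) v = 0 := by
    rw [show (0 : ℂ → ℂ) = fun _ => 0 from rfl, fderiv_fun_const]; rfl
  rw [h1, sum_add_distrib]
  have h2 : ∑ f : Fin n, g f (z f.castSucc) *
      (if f.succ = e.succ then fderiv ℝ (h f) (z e.succ) v else 0) =
      z e.castSucc * (a e.succ * z e.succ ^ (a e.succ - 1)) * v := by
    rw [Finset.sum_eq_single e]
    · rw [if_pos rfl, T.g0 e he, T.h0 e he, fderiv_pow_apply]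
      simp only [id]
      ring
    · intro f _ hf
      rw [if_neg (fun h => hf (Fin.succ_injective _ h)), mul_zero]
    · intro h; exact absurd (mem_univ e) h
  have h3 : ∑ f : Fin n, h f (z f.succ) *
      (if f.castSucc = e.succ then fderiv ℝ (g f) (z e.succ) v else 0) =
      (∑ f : Fin n, if f.castSucc = e.succ then z f.succ ^ a f.succ else 0) * v := by
    rw [sum_mul]
    refine sum_congr rfl fun f _ => ?_
    by_cases hf : f.castSucc = e.succ
    · have hkf : k ≤ (f : ℕ) := by
        have : (f.castSucc : ℕ) = (e.succ : ℕ) := congrArg Fin.val hf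
        rw [Fin.val_castSucc, Fin.val_succ] at this
        omega
      rw [if_pos hf, if_pos hf, T.g0 f hkf, T.h0 f hkf, fderiv_id_apply']
    · rw [if_neg hf, if_neg hf, mul_zero, zero_mul]
  rw [h2, h3]
  ring

theorem Tail.alt (T : Tail a k Q g h) (ha : ∀ i, 2 ≤ a i)
    (hQ : ∀ i, DifferentiableAt ℝ (Q i) (z i))
    (hg : ∀ e : Fin n, DifferentiableAt ℝ (g e) (z e.castSucc))
    (hh : ∀ e : Fin n, DifferentiableAt ℝ (h e) (z e.succ))
    (hns : ¬ Function.Surjective (fderiv ℝ (GF Q g h) z)) :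
    ∀ (m : ℕ) (e : Fin n), n = (e : ℕ) + 1 + m → k ≤ (e : ℕ) →
      (∀ i : Fin (n + 1), (e : ℕ) < (i : ℕ) → z i = 0) ∨ (z e.castSucc = 0 ∧ z e.succ ≠ 0) := by
  have key : ∀ (e : Fin n), k ≤ (e : ℕ) → z e.castSucc * (a e.succ * z e.succ ^ (a e.succ - 1)) +
        (∑ f : Fin n, if f.castSucc = e.succ then z f.succ ^ a f.succ else 0) = 0 := by
    intro e he
    by_contra hne
    exact hns (surj_of_single e.succ (neg_ne_zero.2 hne) fun v => T.fderiv_succ hQ hg hh e he v)
  intro m
  induction m with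
  | zero =>
    intro e hm hk
    have h1 := key e hk
    have h2 : (∑ f : Fin n, if f.castSucc = e.succ then z f.succ ^ a f.succ else 0) = 0 := by
      refine sum_eq_zero fun f _ => if_neg fun hf => ?_
      have : (f.castSucc : ℕ) = (e.succ : ℕ) := congrArg Fin.val hf
      rw [Fin.val_castSucc, Fin.val_succ] at this
      omega
    rw [h2, add_zero] at h1
    by_cases h0 : z e.succ = 0
    · left
      intro i hi
      have : i = e.succ := Fin.ext (by rw [Fin.val_succ]; omega)
      rw [this, h0]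
    · right
      refine ⟨?_, h0⟩
      refine (mul_eq_zero.1 h1).resolve_right (mul_ne_zero ?_ (pow_ne_zero _ h0))
      have := ha e.succ
      exact_mod_cast (by omega : a e.succ ≠ 0)
  | succ m ih =>
    intro e hm hk
    have he1 : (e : ℕ) + 1 < n := by omega
    set f : Fin n := ⟨(e : ℕ) + 1, he1⟩ with hf
    have hfe : f.castSucc = e.succ := Fin.ext (by rw [Fin.val_castSucc, Fin.val_succ])
    have h1 := key e hk
    have h2 : (∑ f : Fin n, if f.castSucc = e.succ then z f.succ ^ a f.succ else 0) =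
        z f.succ ^ a f.succ := by
      rw [Finset.sum_eq_single f]
      · rw [if_pos hfe]
      · intro f' _ hf'
        refine if_neg fun h => hf' ?_
        exact Fin.castSucc_injective _ (h.trans hfe.symm)
      · intro h; exact absurd (mem_univ f) h
    rw [h2] at h1
    rcases ih f (by simp only [hf]; omega) (by simp only [hf]; omega) with h3 | ⟨h3, h4⟩
    · have h5 : z f.succ = 0 := h3 f.succ (by rw [Fin.val_succ]; omega)
      rw [h5, zero_pow (by have := ha f.succ; omega), add_zero] at h1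
      by_cases h0 : z e.succ = 0
      · left
        intro i hi
        by_cases hi2 : (i : ℕ) = (e : ℕ) + 1
        · have : i = e.succ := Fin.ext (by rw [Fin.val_succ]; omega)
          rw [this, h0]
        · exact h3 i (by simp only [hf]; omega)
      · right
        refine ⟨?_, h0⟩
        refine (mul_eq_zero.1 h1).resolve_right (mul_ne_zero ?_ (pow_ne_zero _ h0))
        have := ha e.succ
        exact_mod_cast (by omega : a e.succ ≠ 0)
    · rw [hfe] at h3
      rw [h3, zero_pow (by have := ha e.succ; omega), mul_zero, mul_zero, zero_add] at h1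
      exact absurd (pow_eq_zero_iff (by have := ha f.succ; omega) |>.1 h1) h4

/-- **the tail vanishes at non-regular points.** -/
theorem Tail.zero (T : Tail a k Q g h) (ha : ∀ i, 2 ≤ a i)
    (hQ : ∀ i, DifferentiableAt ℝ (Q i) (z i))
    (hg : ∀ e : Fin n, DifferentiableAt ℝ (g e) (z e.castSucc))
    (hh : ∀ e : Fin n, DifferentiableAt ℝ (h e) (z e.succ))
    (hQk : ∀ i : Fin (n + 1), (i : ℕ) = k → z i = 0 → fderiv ℝ (Q i) 0 = 0)
    (hhk : ∀ e : Fin n, (e : ℕ) + 1 = k → z e.succ = 0 → fderiv ℝ (h e) 0 = 0)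
    (hns : ¬ Function.Surjective (fderiv ℝ (GF Q g h) z)) (i : Fin (n + 1)) (hi : k < (i : ℕ)) :
    z i = 0 := by
  have hkn : k < n := by have := i.isLt; omega
  have hi2 := i.isLt
  rcases T.alt ha hQ hg hh hns (n - k - 1) ⟨k, hkn⟩ (by simp only; omega) le_rfl with h1 | ⟨h1, h2⟩
  · exact h1 i hi
  · exfalso
    set e : Fin n := ⟨k, hkn⟩ with he
    refine hns (surj_of_single e.castSucc (neg_ne_zero.2 (pow_ne_zero (a e.succ) h2)) fun v => ?_)
    rw [fderiv_GF_single hQ hg hh, h1, hQk e.castSucc rfl h1, sum_add_distrib]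
    have h3 : ∑ f : Fin n, g f (z f.castSucc) *
      (if f.succ = e.castSucc then fderiv ℝ (h f) 0 v else 0) = 0 := by
      refine sum_eq_zero fun f _ => ?_
      by_cases hf : f.succ = e.castSucc
      · have hfk : (f : ℕ) + 1 = k := by
          have : (f.succ : ℕ) = (e.castSucc : ℕ) := congrArg Fin.val hf
          rw [Fin.val_castSucc, Fin.val_succ] at this
          exact this
        rw [if_pos hf, hhk f hfk (by rw [hf, h1])]
        simp
      · rw [if_neg hf, mul_zero]
    have h4 : ∑ f : Fin n, h f (z f.succ) *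
      (if f.castSucc = e.castSucc then fderiv ℝ (g f) 0 v else 0) = z e.succ ^ a e.succ * v := by
      rw [Finset.sum_eq_single e]
      · rw [if_pos rfl, T.g0 e le_rfl, T.h0 e le_rfl, fderiv_id_apply']
      · intro f _ hf
        rw [if_neg (fun h => hf (Fin.castSucc_injective _ h)), mul_zero]
      · intro h; exact absurd (mem_univ e) h
    rw [h3, h4]
    simp

/-! ### the part below `j` -/

/-- the part below `j`, with the planar piece `R` at `j`. -/
def low (Q : Fin (n + 1) → ℂ → ℂ) (g h : Fin n → ℂ → ℂ) (j : ℕ) (R : ℂ → ℂ) :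
    (Fin (n + 1) → ℂ) → ℂ :=
  GF (fun i => if (i : ℕ) < j then Q i else if (i : ℕ) = j then R else 0)
    (fun e => if (e : ℕ) < j then g e else 0) (fun e => if (e : ℕ) < j then h e else 0)

section Low

variable {j : ℕ} {R : ℂ → ℂ} {z' : Fin (n + 1) → ℂ}

theorem fderiv_zero_apply' (y v : ℂ) : fderiv ℝ (0 : ℂ → ℂ) y v = 0 := by
  rw [show (0 : ℂ → ℂ) = fun _ => 0 from rfl, fderiv_fun_const]; rfl

theorem differentiableAt_zero' (y : ℂ) : DifferentiableAt ℝ (0 : ℂ → ℂ) y := by
  rw [show (0 : ℂ → ℂ) = fun _ => 0 from rfl]; exact differentiableAt_const 0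

/-- differentiability of the pieces -/
structure Df (Q : Fin (n + 1) → ℂ → ℂ) (g h : Fin n → ℂ → ℂ) : Prop where
  Q : ∀ i, Differentiable ℝ (Q i)
  g : ∀ e, Differentiable ℝ (g e)
  h : ∀ e, Differentiable ℝ (h e)

theorem low_single (hd : Df Q g h) (hR : Differentiable ℝ R) (i : Fin (n + 1)) (v : ℂ) :
    fderiv ℝ (low Q g h j R) z' (Pi.single i v) =
      fderiv ℝ (if (i : ℕ) < j then Q i else if (i : ℕ) = j then R else 0) (z' i) v -
      ∑ e : Fin n, ((if (e : ℕ) < j then g e else 0) (z' e.castSucc) *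
          (if e.succ = i then fderiv ℝ (if (e : ℕ) < j then h e else 0) (z' i) v else 0) +
        (if (e : ℕ) < j then h e else 0) (z' e.succ) *
          (if e.castSucc = i then fderiv ℝ (if (e : ℕ) < j then g e else 0) (z' i) v else 0)) := by
  refine fderiv_GF_single (fun i => ?_) (fun e => ?_) (fun e => ?_) i v
  · show DifferentiableAt ℝ (if (i : ℕ) < j then Q i else if (i : ℕ) = j then R else 0) (z' i)
    split_ifs
    · exact hd.Q i _
    · exact hR _
    · exact differentiableAt_zero' _
  · show DifferentiableAt ℝ (if (e : ℕ) < j then g e else 0) (z' e.castSucc)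
    split_ifs
    · exact hd.g e _
    · exact differentiableAt_zero' _
  · show DifferentiableAt ℝ (if (e : ℕ) < j then h e else 0) (z' e.succ)
    split_ifs
    · exact hd.h e _
    · exact differentiableAt_zero' _

theorem low_above (hd : Df Q g h) (hR : Differentiable ℝ R) (i : Fin (n + 1)) (hi : j < (i : ℕ))
    (v : ℂ) : fderiv ℝ (low Q g h j R) z' (Pi.single i v) = 0 := by
  rw [low_single hd hR, if_neg (by omega), if_neg (by omega), fderiv_zero_apply', zero_sub,
    neg_eq_zero]
  refine sum_eq_zero fun e _ => ?_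
  by_cases he : (e : ℕ) < j
  · have h1 : ¬ e.succ = i := fun h => by
      have := congrArg Fin.val h
      rw [Fin.val_succ] at this
      omega
    have h2 : ¬ e.castSucc = i := fun h => by
      have := congrArg Fin.val h
      rw [Fin.val_castSucc] at this
      omega
    rw [if_neg h1, if_neg h2, mul_zero, mul_zero, add_zero]
  · rw [if_neg he, if_neg he]
    simp

/-- the terms of the coupling sums agree below `j` -/
theorem low_term (hz : ∀ i : Fin (n + 1), (i : ℕ) ≤ j → z' i = z i) (i : Fin (n + 1))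
    (hi : (i : ℕ) ≤ j) (e : Fin n) (v : ℂ) :
    (g e (z e.castSucc) * (if e.succ = i then fderiv ℝ (h e) (z i) v else 0) +
        h e (z e.succ) * (if e.castSucc = i then fderiv ℝ (g e) (z i) v else 0)) =
    ((if (e : ℕ) < j then g e else 0) (z' e.castSucc) *
          (if e.succ = i then fderiv ℝ (if (e : ℕ) < j then h e else 0) (z' i) v else 0) +
        (if (e : ℕ) < j then h e else 0) (z' e.succ) *
          (if e.castSucc = i then fderiv ℝ (if (e : ℕ) < j then g e else 0) (z' i) v else 0)) +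
      if (e : ℕ) = j ∧ (i : ℕ) = j then h e (z e.succ) * fderiv ℝ (g e) (z i) v else 0 := by
  by_cases he : (e : ℕ) < j
  · rw [if_pos he, if_pos he, if_neg (show ¬ ((e : ℕ) = j ∧ (i : ℕ) = j) by omega), add_zero,
      hz e.castSucc (by rw [Fin.val_castSucc]; omega), hz e.succ (by rw [Fin.val_succ]; omega),
      hz i hi]
  · have h1 : ¬ e.succ = i := fun h => by
      have := congrArg Fin.val h
      rw [Fin.val_succ] at this
      omega
    rw [if_neg he, if_neg he, if_neg h1]
    by_cases h2 : e.castSucc = i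
    · have h3 : (i : ℕ) = e := by rw [← h2, Fin.val_castSucc]
      rw [if_pos h2, if_pos (show (e : ℕ) = j ∧ (i : ℕ) = j by omega)]
      simp [h1]
    · have h3 : ¬ ((e : ℕ) = j ∧ (i : ℕ) = j) := fun h => h2 (Fin.ext (by
        rw [Fin.val_castSucc]; omega))
      rw [if_neg h2, if_neg h3]
      simp [h1, h2]

theorem low_below (hd : Df Q g h) (hR : Differentiable ℝ R)
    (hz : ∀ i : Fin (n + 1), (i : ℕ) ≤ j → z' i = z i) (i : Fin (n + 1)) (hi : (i : ℕ) < j)
    (v : ℂ) : fderiv ℝ (GF Q g h) z (Pi.single i v) =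
      fderiv ℝ (low Q g h j R) z' (Pi.single i v) := by
  rw [low_single hd hR, fderiv_GF_single (fun i => hd.Q i _) (fun e => hd.g e _)
    (fun e => hd.h e _), if_pos hi, hz i hi.le]
  congr 1
  refine sum_congr rfl fun e _ => ?_
  rw [low_term hz i hi.le e v, if_neg (show ¬ ((e : ℕ) = j ∧ (i : ℕ) = j) by omega), add_zero,
    hz i hi.le]

theorem low_at (hd : Df Q g h) (hR : Differentiable ℝ R)
    (hz : ∀ i : Fin (n + 1), (i : ℕ) ≤ j → z' i = z i) (i : Fin (n + 1)) (hi : (i : ℕ) = j)
    (v : ℂ) : fderiv ℝ (GF Q g h) z (Pi.single i v) =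
      fderiv ℝ (low Q g h j R) z' (Pi.single i v) + (fderiv ℝ (Q i) (z i) v -
        fderiv ℝ R (z i) v - ∑ e : Fin n, if (e : ℕ) = j then
          h e (z e.succ) * fderiv ℝ (g e) (z i) v else 0) := by
  rw [low_single hd hR, fderiv_GF_single (fun i => hd.Q i _) (fun e => hd.g e _)
    (fun e => hd.h e _), if_neg (by omega), if_pos hi, hz i hi.le]
  rw [sum_congr rfl fun e _ => low_term (g := g) (h := h) hz i hi.le e v, sum_add_distrib]
  have h1 : ∀ e : Fin n, (if (e : ℕ) = j ∧ (i : ℕ) = j then h e (z e.succ) *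
      fderiv ℝ (g e) (z i) v else 0) = if (e : ℕ) = j then
          h e (z e.succ) * fderiv ℝ (g e) (z i) v else 0 := fun e => by
    by_cases he : (e : ℕ) = j
    · rw [if_pos ⟨he, hi⟩, if_pos he]
    · rw [if_neg he, if_neg (fun h => he h.1)]
  rw [sum_congr rfl fun e _ => h1 e, hz i hi.le]
  ring

theorem low_value (hz : ∀ i : Fin (n + 1), (i : ℕ) ≤ j → z' i = z i) :
    GF Q g h z = low Q g h j R z' + (∑ i : Fin (n + 1), (if (i : ℕ) = j then Q i (z i) - R (z i)
      else if j < (i : ℕ) then Q i (z i) else 0) -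
      ∑ e : Fin n, if j ≤ (e : ℕ) then g e (z e.castSucc) * h e (z e.succ) else 0) := by
  have h1 : ∀ i : Fin (n + 1), Q i (z i) =
      (if (i : ℕ) < j then Q i else if (i : ℕ) = j then R else 0) (z' i) +
      (if (i : ℕ) = j then Q i (z i) - R (z i) else if j < (i : ℕ) then Q i (z i) else 0) := by
    intro i
    by_cases hi : (i : ℕ) < j
    · rw [if_pos hi, if_neg (by omega), if_neg (by omega), add_zero, hz i hi.le]
    · by_cases hi2 : (i : ℕ) = j
      · rw [if_neg hi, if_pos hi2, if_pos hi2, hz i hi2.le]; ring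
      · rw [if_neg hi, if_neg hi2, if_neg hi2, if_pos (by omega), Pi.zero_apply, zero_add]
  have h2 : ∀ e : Fin n, g e (z e.castSucc) * h e (z e.succ) =
      (if (e : ℕ) < j then g e else 0) (z' e.castSucc) * (if (e : ℕ) < j then h e else 0)
        (z' e.succ) + (if j ≤ (e : ℕ) then g e (z e.castSucc) * h e (z e.succ) else 0) := by
    intro e
    by_cases he : (e : ℕ) < j
    · rw [if_pos he, if_pos he, if_neg (show ¬ j ≤ (e : ℕ) by omega), add_zero,
        hz e.castSucc (by rw [Fin.val_castSucc]; omega), hz e.succ (by rw [Fin.val_succ]; omega)]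
    · rw [if_neg he, if_pos (show j ≤ (e : ℕ) by omega), Pi.zero_apply, zero_mul, zero_add]
  unfold low GF
  rw [sum_congr rfl fun i _ => h1 i, sum_congr rfl fun e _ => h2 e, sum_add_distrib,
    sum_add_distrib]
  ring

/-- regularity of the part below `j` with the piece `R` at `j` -/
def LowReg (Q : Fin (n + 1) → ℂ → ℂ) (g h : Fin n → ℂ → ℂ) (j : ℕ) (R : ℂ → ℂ) : Prop :=
  ∀ z' : Fin (n + 1) → ℂ, z' ≠ 0 → (∀ i : Fin (n + 1), j < (i : ℕ) → z' i = 0) →
    0 ≤ (low Q g h j R z').re → Function.Surjective (fderiv ℝ (low Q g h j R) z')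

/-- **REDUCTION, polynomial tail after `j`.** -/
theorem Tail.reg {j : Fin (n + 1)} (T : Tail a j Q g h) (ha : ∀ i, 2 ≤ a i) (hd : Df Q g h)
    (hQk : fderiv ℝ (Q j) 0 = 0) (hhk : ∀ e : Fin n, (e : ℕ) + 1 = j → fderiv ℝ (h e) 0 = 0)
    (hlow : LowReg Q g h j (Q j)) (hz : z ≠ 0) (hre : 0 ≤ (GF Q g h z).re) :
    Function.Surjective (fderiv ℝ (GF Q g h) z) := by
  by_contra hns
  have hz0 : ∀ i : Fin (n + 1), (j : ℕ) < (i : ℕ) → z i = 0 := fun i hi =>
    T.zero ha (fun i => hd.Q i _) (fun e => hd.g e _) (fun e => hd.h e _)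
      (fun i hi _ => by rw [show i = j from Fin.ext hi]; exact hQk) (fun e he _ => hhk e he) hns i hi
  have hv : GF Q g h z = low Q g h j (Q j) z := by
    rw [low_value (R := Q j) (z' := z) (j := j) (fun _ _ => rfl)]
    rw [sum_eq_zero, sum_eq_zero, sub_zero, add_zero]
    · intro e _
      by_cases he : (j : ℕ) ≤ (e : ℕ)
      · rw [if_pos he, T.h0 e he]
        show _ * z e.succ ^ a e.succ = 0
        rw [hz0 e.succ (by rw [Fin.val_succ]; omega), zero_pow (by have := ha e.succ; omega),
          mul_zero]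
      · rw [if_neg he]
    · intro i _
      by_cases hi : (i : ℕ) = j
      · rw [if_pos hi, show i = j from Fin.ext hi, sub_self]
      · rw [if_neg hi]
        by_cases hi2 : (j : ℕ) < i
        · rw [if_pos hi2, T.Q0 i hi2, Pi.zero_apply]
        · rw [if_neg hi2]
  refine hns (surj_transfer (j := j) (fun i hi w => low_above (z' := z) hd (hd.Q j) i hi w)
    (fun i hi w => ?_) (hlow z hz hz0 (by rw [← hv]; exact hre)))
  rcases hi.lt_or_eq with hi | hi
  · exact low_below hd (hd.Q j) (fun _ _ => rfl) i hi w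
  · rw [low_at hd (hd.Q j) (fun _ _ => rfl) i hi w, show i = j from Fin.ext hi, sub_self,
      sum_eq_zero, sub_zero, add_zero]
    intro e _
    by_cases he : (e : ℕ) = j
    · rw [if_pos he, T.h0 e he.ge]
      show z e.succ ^ a e.succ * _ = 0
      rw [hz0 e.succ (by rw [Fin.val_succ]; omega), zero_pow (by have := ha e.succ; omega),
        zero_mul]
    · rw [if_neg he]

/-- the constant of the critical value -/
def KV (b : ℕ) (c : ℂ) : ℂ := (1 / (b + 1 : ℂ)) * (b / ((b + 1) * c)) ^ b

/-- **REDUCTION, step `e`** : `y = z e.succ`, piece `c y^(b+1)`, coupling `η x * y^b`. -/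
theorem Tail.mid_reg {e : Fin n} (T : Tail a ((e : ℕ) + 1) Q g h) (ha : ∀ i, 2 ≤ a i)
    (hd : Df Q g h) {c : ℂ} (hc : c ≠ 0) {η : ℂ → ℂ} {b : ℕ} (hb : 2 ≤ b) (hη0 : η 0 = 0)
    (hY : Q e.succ = fun y => c * y ^ (b + 1)) (hge : g e = η) (hhe : h e = fun y => y ^ b)
    (hA : LowReg Q g h e (Q e.castSucc))
    (hV : LowReg Q g h e (fun x => Q e.castSucc x - KV b c * η x ^ (b + 1)))
    (hz : z ≠ 0) (hre : 0 ≤ (GF Q g h z).re) :
    Function.Surjective (fderiv ℝ (GF Q g h) z) := by
  by_contra hns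
  have hηd : Differentiable ℝ η := hge ▸ hd.g e
  have hz0 : ∀ i : Fin (n + 1), (e : ℕ) + 1 < (i : ℕ) → z i = 0 := fun i hi => by
    refine T.zero ha (fun i => hd.Q i _) (fun e => hd.g e _) (fun e => hd.h e _)
      (fun i hi _ => ?_) (fun f hf _ => ?_) hns i hi
    · rw [show i = e.succ from Fin.ext (by rw [Fin.val_succ]; exact hi), hY]
      refine ContinuousLinearMap.ext fun v => ?_
      have h1 : DifferentiableAt ℝ (fun y : ℂ => y ^ (b + 1)) 0 := by fun_prop
      rw [fderiv_const_mul h1]
      simp [fderiv_pow_apply]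
      right
      omega
    · rw [show f = e from Fin.ext (by omega), hhe]
      refine ContinuousLinearMap.ext fun v => ?_
      rw [fderiv_pow_apply, zero_pow (by omega)]
      simp
  set x := z e.castSucc with hx
  set y := z e.succ with hy
  have hb0 : (b : ℂ) ≠ 0 := by exact_mod_cast (by omega : b ≠ 0)
  have hb1 : ((b : ℂ) + 1) ≠ 0 := by exact_mod_cast (by omega : b + 1 ≠ 0)
  -- the derivative in `y`
  have hyd : ∀ w : ℂ, fderiv ℝ (GF Q g h) z (Pi.single e.succ w) =
      y ^ (b - 1) * (c * (b + 1) * y - b * η x) * w := by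
    intro w
    rw [fderiv_GF_single (fun i => hd.Q i _) (fun e => hd.g e _) (fun e => hd.h e _),
      sum_add_distrib]
    have h1 : ∑ f : Fin n, g f (z f.castSucc) *
        (if f.succ = e.succ then fderiv ℝ (h f) (z e.succ) w else 0) =
        η x * (b * y ^ (b - 1)) * w := by
      rw [Finset.sum_eq_single e]
      · rw [if_pos rfl, hge, hhe, fderiv_pow_apply]; ring
      · intro f _ hf
        rw [if_neg (fun h => hf (Fin.succ_injective _ h)), mul_zero]
      · intro h; exact absurd (mem_univ e) h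
    have h2 : ∑ f : Fin n, h f (z f.succ) *
        (if f.castSucc = e.succ then fderiv ℝ (g f) (z e.succ) w else 0) = 0 := by
      refine sum_eq_zero fun f _ => ?_
      by_cases hf : f.castSucc = e.succ
      · have hf1 : (f : ℕ) = (e : ℕ) + 1 := by
          have := congrArg Fin.val hf
          rwa [Fin.val_castSucc, Fin.val_succ] at this
        rw [T.h0 f hf1.ge]
        show z f.succ ^ a f.succ * _ = 0
        rw [hz0 f.succ (by rw [Fin.val_succ]; omega), zero_pow (by have := ha f.succ; omega),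
          zero_mul]
      · rw [if_neg hf, mul_zero]
    have h3 : fderiv ℝ (Q e.succ) (z e.succ) w = c * ((b + 1) * y ^ b) * w := by
      rw [hY]
      have h1 : DifferentiableAt ℝ (fun y : ℂ => y ^ (b + 1)) (z e.succ) := by fun_prop
      rw [fderiv_const_mul h1]
      simp only [_root_.smul_apply, fderiv_pow_apply, smul_eq_mul]
      push_cast
      rw [← hy]
      ring
    rw [h1, h2, h3]
    obtain ⟨b', rfl⟩ : ∃ b', b = b' + 1 := ⟨b - 1, by omega⟩
    rw [Nat.add_sub_cancel, pow_succ y b']
    ring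
  have hcrit : y ^ (b - 1) * (c * (b + 1) * y - b * η x) = 0 := by
    by_contra hne
    exact hns (surj_of_single e.succ hne hyd)
  -- the value
  have hval : ∀ (R : ℂ → ℂ) (z' : Fin (n + 1) → ℂ), (∀ i : Fin (n + 1), (i : ℕ) ≤ e → z' i = z i) →
      GF Q g h z = low Q g h e R z' + (Q e.castSucc x - R x + c * y ^ (b + 1) - η x * y ^ b) := by
    intro R z' hz'
    rw [low_value (R := R) hz']
    have h1 : ∑ i : Fin (n + 1), (if (i : ℕ) = e then Q i (z i) - R (z i)
        else if (e : ℕ) < (i : ℕ) then Q i (z i) else 0) =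
        Q e.castSucc x - R x + c * y ^ (b + 1) := by
      have h2 : ∀ i : Fin (n + 1), (if (i : ℕ) = e then Q i (z i) - R (z i)
        else if (e : ℕ) < (i : ℕ) then Q i (z i) else 0) =
          (if i = e.castSucc then Q e.castSucc x - R x else 0) +
          (if i = e.succ then c * y ^ (b + 1) else 0) := by
        intro i
        by_cases h1 : i = e.castSucc
        · have h3 : ¬ i = e.succ := fun h => by
            have := congrArg Fin.val (h1.symm.trans h)
            rw [Fin.val_castSucc, Fin.val_succ] at this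
            omega
          rw [if_pos h1, if_neg h3, h1, if_pos (Fin.val_castSucc e), add_zero]
        · have h4 : ¬ (i : ℕ) = e := fun h => h1 (Fin.ext (by rw [Fin.val_castSucc]; exact h))
          rw [if_neg h1, if_neg h4]
          by_cases h5 : i = e.succ
          · rw [if_pos h5, h5, if_pos (by rw [Fin.val_succ]; omega), hY, zero_add]
          · rw [if_neg h5, zero_add]
            by_cases h6 : (e : ℕ) < i
            · have h7 : ¬ (i : ℕ) = e + 1 := fun h => h5 (Fin.ext (by rw [Fin.val_succ]; exact h))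
              rw [if_pos h6, T.Q0 i (by omega), Pi.zero_apply]
            · rw [if_neg h6]
      rw [sum_congr rfl fun i _ => h2 i, sum_add_distrib, Finset.sum_ite_eq' univ,
        Finset.sum_ite_eq' univ, if_pos (mem_univ _), if_pos (mem_univ _)]
    have h2 : (∑ f : Fin n, if (e : ℕ) ≤ (f : ℕ) then g f (z f.castSucc) * h f (z f.succ) else 0) =
        η x * y ^ b := by
      rw [Finset.sum_eq_single e]
      · rw [if_pos le_rfl, hge, hhe]
      · intro f _ hf
        by_cases hf2 : (e : ℕ) ≤ f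
        · have hf3 : (f : ℕ) ≠ e := fun h => hf (Fin.ext h)
          rw [if_pos hf2, T.h0 f (by omega)]
          show _ * z f.succ ^ a f.succ = 0
          rw [hz0 f.succ (by rw [Fin.val_succ]; omega), zero_pow (by have := ha f.succ; omega),
            mul_zero]
        · rw [if_neg hf2]
      · intro h; exact absurd (mem_univ e) h
    rw [h1, h2]
  -- the derivative in the direction of `x`
  have hsum : ∀ w : ℂ, (∑ f : Fin n, if (f : ℕ) = e then
      h f (z f.succ) * fderiv ℝ (g f) (z e.castSucc) w else 0) = y ^ b * fderiv ℝ η x w := by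
    intro w
    rw [Finset.sum_eq_single e]
    · rw [if_pos rfl, hge, hhe]
    · intro f _ hf
      rw [if_neg (fun h => hf (Fin.ext h))]
    · intro h; exact absurd (mem_univ e) h
  rcases mul_eq_zero.1 hcrit with hy0 | hy1
  · have hy0 : y = 0 := eq_zero_of_pow_eq_zero hy0
    have hz1 : ∀ i : Fin (n + 1), (e : ℕ) < (i : ℕ) → z i = 0 := by
      intro i hi
      by_cases h : (i : ℕ) = (e : ℕ) + 1
      · rw [show i = e.succ from Fin.ext (by rw [Fin.val_succ]; exact h)]
        exact hy0
      · exact hz0 i (by omega)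
    have hv := hval (Q e.castSucc) z (fun _ _ => rfl)
    rw [hy0, zero_pow (by omega), zero_pow (by omega), mul_zero, mul_zero, sub_self, sub_zero,
      add_zero, add_zero] at hv
    refine hns (surj_transfer (j := e) (fun i hi w =>
      low_above (z' := z) hd (hd.Q e.castSucc) i hi w) (fun i hi w => ?_)
      (hA z hz hz1 (by rw [← hv]; exact hre)))
    rcases hi.lt_or_eq with hi | hi
    · exact low_below hd (hd.Q e.castSucc) (fun _ _ => rfl) i hi w
    · rw [low_at hd (hd.Q e.castSucc) (fun _ _ => rfl) i hi w,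
        show i = e.castSucc from Fin.ext hi, hsum, hy0, zero_pow (by omega)]
      ring
  · have hηy : η x = c * (b + 1) * y / b := by
      field_simp
      linear_combination -hy1
    have hyη : y = b / ((b + 1) * c) * η x := by
      rw [hηy]; field_simp
    have hKy : KV b c * ((b + 1) * η x ^ b) = y ^ b := by
      unfold KV
      rw [hyη, mul_pow]
      field_simp
    have hRd : Differentiable ℝ (fun x => Q e.castSucc x - KV b c * η x ^ (b + 1)) :=
      (hd.Q _).sub ((hηd.pow _).const_mul _)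
    set R : ℂ → ℂ := fun x => Q e.castSucc x - KV b c * η x ^ (b + 1) with hR
    by_cases hx0 : x = 0 ∧ y = 0
    · -- then the other variables below are not all zero; still `y = 0`
      have hy0 := hx0.2
      have hz1 : ∀ i : Fin (n + 1), (e : ℕ) < (i : ℕ) → z i = 0 := by
        intro i hi
        by_cases h : (i : ℕ) = (e : ℕ) + 1
        · rw [show i = e.succ from Fin.ext (by rw [Fin.val_succ]; exact h)]
          exact hy0
        · exact hz0 i (by omega)
      have hv := hval (Q e.castSucc) z (fun _ _ => rfl)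
      rw [hy0, zero_pow (by omega), zero_pow (by omega), mul_zero, mul_zero, sub_self, sub_zero,
        add_zero, add_zero] at hv
      refine hns (surj_transfer (j := e) (fun i hi w =>
        low_above (z' := z) hd (hd.Q e.castSucc) i hi w) (fun i hi w => ?_)
        (hA z hz hz1 (by rw [← hv]; exact hre)))
      rcases hi.lt_or_eq with hi | hi
      · exact low_below hd (hd.Q e.castSucc) (fun _ _ => rfl) i hi w
      · rw [low_at hd (hd.Q e.castSucc) (fun _ _ => rfl) i hi w,
          show i = e.castSucc from Fin.ext hi, hsum, hy0, zero_pow (by omega)]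
        ring
    · set z' : Fin (n + 1) → ℂ := fun i => if (i : ℕ) ≤ e then z i else 0 with hz'
      have hz'1 : ∀ i : Fin (n + 1), (i : ℕ) ≤ e → z' i = z i := fun i hi => by
        rw [hz']; exact if_pos hi
      have hz'0 : ∀ i : Fin (n + 1), (e : ℕ) < (i : ℕ) → z' i = 0 := fun i hi => by
        rw [hz']; exact if_neg (not_le.2 hi)
      have hz'n : z' ≠ 0 := by
        intro h0
        have h1 : x = 0 := by
          rw [hx, ← hz'1 e.castSucc (by rw [Fin.val_castSucc]), h0]; rfl
        refine hx0 ⟨h1, ?_⟩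
        rw [hyη, h1, hη0, mul_zero]
      have hv := hval R z' hz'1
      have hv2 : Q e.castSucc x - R x + c * y ^ (b + 1) - η x * y ^ b = 0 := by
        simp only [hR]
        have h1 : KV b c * η x ^ (b + 1) = y ^ b * η x / (b + 1) := by
          rw [pow_succ, ← hKy]; field_simp
        rw [sub_sub_cancel, h1, pow_succ]
        rw [hηy]
        field_simp
        ring
      rw [hv2, add_zero] at hv
      refine hns (surj_transfer (j := e) (fun i hi w =>
        low_above (z' := z') hd hRd i hi w) (fun i hi w => ?_)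
        (hV z' hz'n hz'0 (by rw [← hv]; exact hre)))
      rcases hi.lt_or_eq with hi | hi
      · exact low_below hd hRd hz'1 i hi w
      · rw [low_at hd hRd hz'1 i hi w, show i = e.castSucc from Fin.ext hi, hsum]
        have h1 : fderiv ℝ R (z e.castSucc) w = fderiv ℝ (Q e.castSucc) (z e.castSucc) w -
            KV b c * ((b + 1) * η x ^ b) * fderiv ℝ η x w := by
          have h2 : HasFDerivAt R _ (z e.castSucc) := (hd.Q e.castSucc _).hasFDerivAt.fun_sub
            (((hηd (z e.castSucc)).hasFDerivAt.pow (b + 1)).const_mul (KV b c))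
          rw [h2.fderiv]
          simp only [_root_.sub_apply, _root_.smul_apply, smul_eq_mul, nsmul_eq_mul,
            Nat.add_sub_cancel]
          push_cast
          rw [← hx]
          ring
        rw [h1, hKy]
        ring

end Low

end Crest.Agent.R267.RedG_951
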