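import Crest.Agent.R267.LobeDefs_407
import Crest.Agent.R267.HmE_951

/-!
# Row 267 (helper326): kit for S1 of T3b (LobeDefs_407)

* `contDiff_pol`, `Q_contDiff`, `g_contDiff`, `h_contDiff`: smoothness of the pieces;
* `g_I`, `h_I`: flatness along `i z`; values at the positive points (`lev_at`, `nc_unit`);
* `hasFDerivAt_GF`.
-/

set_option autoImplicit false
set_option linter.unusedSectionVars false

noncomputable section

open Set Filter Topology Metric
open scoped ContDiff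
open Crest.Agent.R267.Ang_739 Crest.Agent.R267.Hm_951
open Crest.Agent.R267.Sys_808 Crest.Agent.R267.LobeDefs_407 Crest.Agent.R267.Pow_951
open Crest.Agent.R267.Cone_808
open Crest.Agent.R267.LemL_951 (PH Good Good2 lobB prodB Cond chain_reg good2_of_rot nc_of_unit
  hasFDerivAt_lobB hasFDerivAt_prodB)

namespace Crest.Agent.R267.S1_326

/-! ### polar functions -/

section Pol

variable {F : Type*} [NormedAddCommGroup F] [NormedSpace ℝ F]

theorem contDiff_pol {D : ℝ} (hD : 2 < D) {q : ℝ → F} (hq : ContDiff ℝ 2 q) (hper : Per q) :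
    ContDiff ℝ 2 (pol D q) := by
  have h1 : ContDiffOn ℝ 2 (polF (fun _ => D) fun p : ℝ × ℝ => q p.2) (univ ×ˢ {0}ᶜ) :=
    contDiffOn_polF (fun _ => hper) isOpen_univ contDiffOn_const
      (hq.comp contDiff_snd).contDiffOn
  have h2 : ContDiffOn ℝ 2 (polF (fun _ => D) fun p : ℝ × ℝ => q p.2) (univ ×ˢ univ) := by
    refine contDiffOn_of_hom isOpen_univ (contDiffOn_const (c := D)) (fun _ _ => hD) h1
      (fun t _ => ?_) fun t _ r hr z => ?_
    · exact pol_zero (by linarith) q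
    · have := pol_hom D q r hr z
      rw [← Complex.real_smul] at this
      exact this
  have h3 : ContDiff ℝ 2 (fun z : ℂ => ((0 : ℝ), z)) := contDiff_const.prodMk contDiff_id
  exact contDiffOn_univ.1 (h2.comp h3.contDiffOn fun z _ => ⟨mem_univ _, mem_univ _⟩)

theorem fderiv_pol_zero {D : ℝ} (hD : 2 < D) {q : ℝ → F} (hq : ContDiff ℝ 2 q) (hper : Per q) :
    fderiv ℝ (pol D q) 0 = 0 := by
  have hd : DifferentiableAt ℝ (pol D q) 0 :=
    (contDiff_pol hD hq hper).contDiffAt.differentiableAt (by norm_num)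
  refine ContinuousLinearMap.ext fun v => ?_
  -- the derivative at `0` along `v`: `pol (r v) = r ^ D pol v`
  have h1 : HasDerivAt (fun r : ℝ => pol D q (r • v)) (fderiv ℝ (pol D q) 0 v) 0 := by
    have h2 : HasDerivAt (fun r : ℝ => r • v) v 0 := by
      simpa using (hasDerivAt_id (0 : ℝ)).smul_const v
    have h3 : HasFDerivAt (pol D q) (fderiv ℝ (pol D q) 0) ((0 : ℝ) • v) := by
      rw [zero_smul]; exact hd.hasFDerivAt
    exact h3.comp_hasDerivAt (0 : ℝ) h2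
  have h4 : HasDerivWithinAt (fun r : ℝ => pol D q (r • v)) (fderiv ℝ (pol D q) 0 v) (Ioi 0) 0 :=
    h1.hasDerivWithinAt
  have h5 : HasDerivWithinAt (fun r : ℝ => (r ^ D) • pol D q v) (0 : F) (Ioi 0) 0 := by
    have h6 : HasDerivAt (fun r : ℝ => r ^ D) (D * (0 : ℝ) ^ (D - 1)) 0 :=
      Real.hasDerivAt_rpow_const (Or.inr (by linarith))
    have h7 := (h6.smul_const (pol D q v)).hasDerivWithinAt (s := Ioi 0)
    rwa [Real.zero_rpow (by linarith), mul_zero, zero_smul] at h7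
  have h8 : HasDerivWithinAt (fun r : ℝ => (r ^ D) • pol D q v) (fderiv ℝ (pol D q) 0 v)
      (Ioi 0) 0 := by
    refine h4.congr_of_eventuallyEq ?_ ?_
    · filter_upwards [self_mem_nhdsWithin] with r hr
      have := pol_hom D q r hr v
      rw [Complex.real_smul, this]
    · simp [pol_zero (show D ≠ 0 by linarith), Real.zero_rpow (show D ≠ 0 by linarith)]
  exact (uniqueDiffWithinAt_Ioi (0 : ℝ)).eq_deriv _ h8 h5

end Pol

/-! ### phases and levels -/

theorem pha_hd {d : ℕ} {φ : ℝ → ℝ} (h : Pha d φ) (x : ℝ) : HasDerivAt φ (deriv φ x) x :=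
  (h.smooth.contDiffAt.differentiableAt (by norm_num)).hasDerivAt

theorem lev_hd {d : ℕ} {l : ℝ → ℝ} (h : Lev d l) (x : ℝ) : HasDerivAt l (deriv l x) x :=
  (h.smooth.contDiffAt.differentiableAt (by norm_num)).hasDerivAt

theorem comp_per {d : ℕ} {φ l : ℝ → ℝ} (hφ : Deg d φ) (hl : Lev d l) : Per fun x => l (φ x) := by
  intro x
  show l (φ (x + 2 * Real.pi)) = l (φ x)
  rw [hφ x, hl.per]

theorem comp_hd {d : ℕ} {φ l : ℝ → ℝ} (hφ : Pha d φ) (hl : Lev d l) (x : ℝ) :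
    HasDerivAt (fun x => l (φ x)) (deriv l (φ x) * deriv φ x) x :=
  (lev_hd hl (φ x)).comp x (pha_hd hφ x)

theorem comp_smooth {d : ℕ} {φ l : ℝ → ℝ} (hφ : Pha d φ) (hl : Lev d l) :
    ContDiff ℝ 2 fun x => l (φ x) := hl.smooth.comp hφ.smooth

theorem lev_per_nat {d : ℕ} {l : ℝ → ℝ} (h : Lev d l) (x : ℝ) (k : ℕ) :
    l (x + 2 * Real.pi * d * k) = l x := by
  induction k with
  | zero => simp
  | succ k ih =>
    rw [← ih, ← h.per (x + 2 * Real.pi * d * k)]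
    congr 1
    push_cast
    ring

theorem lev_per_int {d : ℕ} {l : ℝ → ℝ} (h : Lev d l) (x : ℝ) (k : ℤ) :
    l (x + 2 * Real.pi * d * k) = l x := by
  obtain ⟨m, rfl | rfl⟩ := k.eq_nat_or_neg
  · exact_mod_cast lev_per_nat h x m
  · rw [← lev_per_nat h _ m]
    congr 1
    push_cast
    ring

/-- the value at the centre of a lobe -/
theorem lev_at {d : ℕ} (hd : 0 < d) {l : ℝ → ℝ} (h : Lev d l) (m : ℤ) :
    ∃ k < d, l (2 * Real.pi * m) = l (2 * Real.pi * (k + 1)) := by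
  have hd' : (0 : ℤ) < d := by exact_mod_cast hd
  have h1 : 0 ≤ (m - 1) % (d : ℤ) := Int.emod_nonneg _ hd'.ne'
  have h2 : (m - 1) % (d : ℤ) < d := Int.emod_lt_of_pos _ hd'
  refine ⟨((m - 1) % (d : ℤ)).toNat, by omega, ?_⟩
  have h3 : ((((m - 1) % (d : ℤ)).toNat : ℕ) : ℝ) = (((m - 1) % (d : ℤ) : ℤ) : ℝ) := by
    have : ((((m - 1) % (d : ℤ)).toNat : ℕ) : ℤ) = (m - 1) % (d : ℤ) := Int.toNat_of_nonneg h1
    exact_mod_cast this
  rw [h3, ← lev_per_int h (2 * Real.pi * ((((m - 1) % (d : ℤ) : ℤ) : ℝ) + 1)) ((m - 1) / (d : ℤ))]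
  congr 1
  have h4 : (((m - 1) % (d : ℤ) : ℤ) : ℝ) + d * (((m - 1) / (d : ℤ) : ℤ) : ℝ) = m - 1 := by
    have := Int.emod_add_mul_ediv (m - 1) (d : ℤ)
    exact_mod_cast this
  have h5 : 2 * Real.pi * ((((m - 1) % (d : ℤ) : ℤ) : ℝ) + 1) + 2 * Real.pi * d *
      (((m - 1) / (d : ℤ) : ℤ) : ℝ) = 2 * Real.pi * ((((m - 1) % (d : ℤ) : ℤ) : ℝ) +
        d * (((m - 1) / (d : ℤ) : ℤ) : ℝ) + 1) := by ring
  rw [h5, h4]
  ring

/-! ### the pieces of lobe data -/

theorem cis_re (x : ℝ) : (cis x).re = Real.cos x := Complex.exp_ofReal_mul_I_re x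

theorem cis_im (x : ℝ) : (cis x).im = Real.sin x := Complex.exp_ofReal_mul_I_im x

theorem pc_re (D eps : ℝ) (φ : ℝ → ℝ) (z : ℂ) :
    (pc D eps φ z).re = ‖z‖ ^ D * (eps * Real.cos (φ (Complex.arg z))) := by
  simp only [pc, pol, Complex.real_smul, Complex.re_ofReal_mul, cis_re]

theorem pc_im (D eps : ℝ) (φ : ℝ → ℝ) (z : ℂ) :
    (pc D eps φ z).im = ‖z‖ ^ D * (eps * Real.sin (φ (Complex.arg z))) := by
  simp only [pc, pol, Complex.real_smul, Complex.im_ofReal_mul, cis_im]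

section Data

variable {n : ℕ} {a : Fin (n + 1) → ℕ} {j : ℕ} {X : LD n}

theorem Q_contDiff (h : X.Ok a j) {i : Fin (n + 1)} (hi : (i : ℕ) ≤ j) :
    ContDiff ℝ 2 (X.Q i) := by
  refine contDiff_pol (h.hD i hi) ?_ ((h.hph i hi).deg.per _)
  exact contDiff_const.mul (contDiff_cis.comp (h.hph i hi).smooth)

theorem g_contDiff (h : X.Ok a j) {e : Fin n} (he : (e : ℕ) < j) : ContDiff ℝ 2 (X.g e) := by
  have hc : ((e.castSucc : Fin (n + 1)) : ℕ) ≤ j := by simpa using he.le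
  exact contDiff_const.mul (contDiff_pol (h.hp e he) (comp_smooth (h.hph _ hc) (h.hlam e he))
    (comp_per (h.hph _ hc).deg (h.hlam e he)))

theorem h_contDiff (h : X.Ok a j) {e : Fin n} (he : (e : ℕ) < j) : ContDiff ℝ 2 (X.h e) := by
  have hc : ((e.succ : Fin (n + 1)) : ℕ) ≤ j := by simpa using he
  exact contDiff_pol (h.hm e he) (comp_smooth (h.hph _ hc) (h.hbet e he))
    (comp_per (h.hph _ hc).deg (h.hbet e he))

theorem Q_diff (h : X.Ok a j) {i : Fin (n + 1)} (hi : (i : ℕ) ≤ j) (z : ℂ) :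
    DifferentiableAt ℝ (X.Q i) z := (Q_contDiff h hi).contDiffAt.differentiableAt (by norm_num)

theorem g_diff (h : X.Ok a j) {e : Fin n} (he : (e : ℕ) < j) (z : ℂ) :
    DifferentiableAt ℝ (X.g e) z := (g_contDiff h he).contDiffAt.differentiableAt (by norm_num)

theorem h_diff (h : X.Ok a j) {e : Fin n} (he : (e : ℕ) < j) (z : ℂ) :
    DifferentiableAt ℝ (X.h e) z := (h_contDiff h he).contDiffAt.differentiableAt (by norm_num)

theorem Q_PH (X : LD n) (i : Fin (n + 1)) : PH (X.D i) (X.Q i) := fun r hr z => pc_hom _ _ _ r hr z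

theorem g_PH (X : LD n) (e : Fin n) : PH (X.p e) (X.g e) := fun r hr z => by
  show X.c e * pol (X.p e) (fun x => X.lam e (X.ph e.castSucc x)) ((r : ℂ) * z) =
    r ^ X.p e * (X.c e * pol (X.p e) (fun x => X.lam e (X.ph e.castSucc x)) z)
  rw [pol_hom _ _ r hr z, smul_eq_mul]
  ring

theorem h_PH (X : LD n) (e : Fin n) : PH (X.m e) (X.h e) := fun r hr z => pol_hom _ _ r hr z

theorem g_nonneg (h : X.Ok a j) {e : Fin n} (he : (e : ℕ) < j) (z : ℂ) : 0 ≤ X.g e z := by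
  refine mul_nonneg (h.hc e he).le ?_
  exact mul_nonneg (Real.rpow_nonneg (norm_nonneg _) _) ((h.hlam e he).nn _)

theorem h_nonneg (h : X.Ok a j) {e : Fin n} (he : (e : ℕ) < j) (z : ℂ) : 0 ≤ X.h e z :=
  mul_nonneg (Real.rpow_nonneg (norm_nonneg _) _) ((h.hbet e he).nn _)

/-- flatness of `g` along `i z` -/
theorem g_I (h : X.Ok a j) {e : Fin n} (he : (e : ℕ) < j) {z : ℂ} (hz : z ≠ 0)
    (hc : 0 ≤ Real.cos (X.ph e.castSucc (Complex.arg z))) :
    fderiv ℝ (X.g e) z (Complex.I * z) = 0 := by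
  have hj : ((e.castSucc : Fin (n + 1)) : ℕ) ≤ j := by simpa using he.le
  have hφ := h.hph _ hj
  have hl := h.hlam e he
  have h1 : HasDerivAt (fun x => X.lam e (X.ph e.castSucc x)) 0 (Complex.arg z) := by
    have := comp_hd hφ hl (Complex.arg z)
    rwa [hl.flat _ hc, zero_mul] at this
  have h2 := hasFDerivAt_pol (X.p e) (comp_per hφ.deg hl) hz h1
  have h3 : HasFDerivAt (X.g e) _ z := h2.const_mul (X.c e)
  rw [h3.fderiv]
  simp [drad_I hz]

/-- flatness of `h` along `i z` -/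
theorem h_I (h : X.Ok a j) {e : Fin n} (he : (e : ℕ) < j) {z : ℂ} (hz : z ≠ 0)
    (hc : 0 ≤ Real.cos (X.ph e.succ (Complex.arg z))) :
    fderiv ℝ (X.h e) z (Complex.I * z) = 0 := by
  have hj : ((e.succ : Fin (n + 1)) : ℕ) ≤ j := by simpa using he
  have hφ := h.hph _ hj
  have hl := h.hbet e he
  have h1 : HasDerivAt (fun x => X.bet e (X.ph e.succ x)) 0 (Complex.arg z) := by
    have := comp_hd hφ hl (Complex.arg z)
    rwa [hl.flat _ hc, zero_mul] at this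
  have h2 : HasFDerivAt (X.h e) _ z := hasFDerivAt_pol (X.m e) (comp_per hφ.deg hl) hz h1
  rw [h2.fderiv]
  simp [drad_I hz]

theorem Q_I (h : X.Ok a j) {i : Fin (n + 1)} (hi : (i : ℕ) ≤ j) {z : ℂ} (hz : z ≠ 0) :
    fderiv ℝ (X.Q i) z (Complex.I * z) =
      ((deriv (X.ph i) (Complex.arg z) : ℝ) : ℂ) * (Complex.I * X.Q i z) :=
  fderiv_pc_I (h.hph i hi).deg hz (pha_hd (h.hph i hi) _)

theorem Q_ne (h : X.Ok a j) {i : Fin (n + 1)} (hi : (i : ℕ) ≤ j) {z : ℂ} (hz : z ≠ 0) :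
    X.Q i z ≠ 0 := pc_ne (h.hep i hi) _ hz

theorem Q_re (X : LD n) (i : Fin (n + 1)) (z : ℂ) :
    (X.Q i z).re = ‖z‖ ^ X.D i * (X.ep i * Real.cos (X.ph i (Complex.arg z))) := pc_re _ _ _ _

theorem Q_im (X : LD n) (i : Fin (n + 1)) (z : ℂ) :
    (X.Q i z).im = ‖z‖ ^ X.D i * (X.ep i * Real.sin (X.ph i (Complex.arg z))) := pc_im _ _ _ _

theorem rpow_pos' {z : ℂ} (hz : z ≠ 0) (D : ℝ) : 0 < ‖z‖ ^ D :=
  Real.rpow_pos_of_pos (norm_pos_iff.2 hz) _

/-- `cos ≥ 0` from `Re Q ≥ 0` -/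
theorem cos_nonneg (h : X.Ok a j) {i : Fin (n + 1)} (hi : (i : ℕ) ≤ j) {z : ℂ} (hz : z ≠ 0)
    (hre : 0 ≤ (X.Q i z).re) : 0 ≤ Real.cos (X.ph i (Complex.arg z)) := by
  rw [Q_re] at hre
  have h1 := (mul_nonneg_iff_of_pos_left (rpow_pos' hz (X.D i))).1 hre
  exact (mul_nonneg_iff_of_pos_left (h.hep i hi)).1 h1

/-- positive points: the phase is a multiple of `2 π` -/
theorem phase_int (h : X.Ok a j) {i : Fin (n + 1)} (hi : (i : ℕ) ≤ j) {z : ℂ} (hz : z ≠ 0)
    (hre : 0 < (X.Q i z).re) (him : (X.Q i z).im = 0) :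
    ∃ m : ℤ, X.ph i (Complex.arg z) = 2 * Real.pi * m := by
  rw [Q_re] at hre
  rw [Q_im] at him
  have h1 : 0 < Real.cos (X.ph i (Complex.arg z)) :=
    (mul_pos_iff_of_pos_left (h.hep i hi)).1
      ((mul_pos_iff_of_pos_left (rpow_pos' hz (X.D i))).1 hre)
  have h2 : Real.sin (X.ph i (Complex.arg z)) = 0 := by
    have := (mul_eq_zero.1 him).resolve_left (rpow_pos' hz (X.D i)).ne'
    exact (mul_eq_zero.1 this).resolve_left (h.hep i hi).ne'
  have h3 : Real.cos (X.ph i (Complex.arg z)) = 1 := by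
    have := Real.sin_sq_add_cos_sq (X.ph i (Complex.arg z))
    rw [h2] at this
    nlinarith
  obtain ⟨m, hm⟩ := (Real.cos_eq_one_iff _).1 h3
  exact ⟨m, by rw [← hm]; ring⟩

theorem dg_pos (ha : Exps a) (i : Fin (n + 1)) : 0 < dg a i := by
  unfold dg
  have := ha.two i
  split_ifs <;> omega

/-- value of `lam` at a positive point: `0` or `1` -/
theorem lam_at (ha : Exps a) (h : X.Ok a j) {e : Fin n} (he : (e : ℕ) < j) {z : ℂ} (hz : z ≠ 0)
    (hre : 0 < (X.Q e.castSucc z).re) (him : (X.Q e.castSucc z).im = 0) :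
    X.lam e (X.ph e.castSucc (Complex.arg z)) = 0 ∨
      X.lam e (X.ph e.castSucc (Complex.arg z)) = 1 := by
  have hj : ((e.castSucc : Fin (n + 1)) : ℕ) ≤ j := by simpa using he.le
  obtain ⟨m, hm⟩ := phase_int h hj hz hre him
  obtain ⟨k, hk, hk2⟩ := lev_at (dg_pos ha _) (h.hlam e he) m
  rw [hm, hk2, h.lam1 e he k hk _ (by rw [sub_self, abs_zero]; positivity)]
  split_ifs
  · exact Or.inr rfl
  · exact Or.inl rfl

theorem bet_at (ha : Exps a) (h : X.Ok a j) {e : Fin n} (he : (e : ℕ) < j) {z : ℂ} (hz : z ≠ 0)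
    (hre : 0 < (X.Q e.succ z).re) (him : (X.Q e.succ z).im = 0) :
    X.bet e (X.ph e.succ (Complex.arg z)) = 0 ∨
      X.bet e (X.ph e.succ (Complex.arg z)) = 1 := by
  have hj : ((e.succ : Fin (n + 1)) : ℕ) ≤ j := by simpa using he
  obtain ⟨m, hm⟩ := phase_int h hj hz hre him
  obtain ⟨k, hk, hk2⟩ := lev_at (dg_pos ha _) (h.hbet e he) m
  rw [hm, hk2, h.bet1 e he k hk _ (by rw [sub_self, abs_zero]; positivity)]
  split_ifs
  · exact Or.inr rfl
  · exact Or.inl rfl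

/-- **(NC)** for a coupling of Ok data -/
theorem nc_std (ha : Exps a) (h : X.Ok a j) {e : Fin n} (he : (e : ℕ) < j) {x y : ℂ}
    (hx : x ≠ 0) (hy : y ≠ 0) (hB : 0 < X.g e x * X.h e y)
    (h1 : X.p e * (X.g e x * X.h e y) ≤ X.D e.castSucc * (X.Q e.castSucc x).re)
    (h2 : X.D e.succ * (X.Q e.succ y).re = X.m e * (X.g e x * X.h e y))
    (hx1 : 0 < (X.Q e.castSucc x).re) (hx2 : (X.Q e.castSucc x).im = 0)
    (hy1 : 0 < (X.Q e.succ y).re) (hy2 : (X.Q e.succ y).im = 0) : False := by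
  have hjx : ((e.castSucc : Fin (n + 1)) : ℕ) ≤ j := by simpa using he.le
  have hjy : ((e.succ : Fin (n + 1)) : ℕ) ≤ j := by simpa using he
  have hDx := h.hD _ hjx
  have hDy := h.hD _ hjy
  have hp := h.hp e he
  have hm := h.hm e he
  refine nc_of_unit (P := X.Q e.castSucc) (P' := X.Q e.succ) (g := X.g e) (h := X.h e)
    (show 0 < X.D e.castSucc by linarith) (show 0 < X.D e.succ by linarith)
    (show 0 < X.p e by linarith) (show 0 < X.m e by linarith) (h.sum e he) (Q_PH X _) (Q_PH X _)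
    (g_PH X e) (h_PH X e) hx hy ?_ hB h1 h2
  rintro x' y' hx' hy' ⟨r, hr, rfl⟩ ⟨s, hs, rfl⟩ hB'
  have nx : ‖X.Q e.castSucc x'‖ = X.ep e.castSucc := by
    show ‖pc _ _ _ x'‖ = _
    rw [norm_pc (h.hep _ hjx).le, hx', Real.one_rpow, mul_one]
  have ny : ‖X.Q e.succ y'‖ = X.ep e.succ := by
    show ‖pc _ _ _ y'‖ = _
    rw [norm_pc (h.hep _ hjy).le, hy', Real.one_rpow, mul_one]
  have gx : X.g e x' = X.c e * X.lam e (X.ph e.castSucc (Complex.arg x')) := by
    show X.c e * pol _ _ _ = _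
    rw [pol, hx', Real.one_rpow, one_smul]
  have hy3 : X.h e y' = X.bet e (X.ph e.succ (Complex.arg y')) := by
    show pol _ _ _ = _
    rw [pol, hy', Real.one_rpow, one_smul]
  rw [nx, ny, gx, hy3]
  rw [gx, hy3] at hB'
  have l1 : X.lam e (X.ph e.castSucc (Complex.arg x')) = 1 := by
    rcases lam_at ha h he hx hx1 hx2 with h3 | h3
    · rw [Complex.arg_real_mul _ hr] at h3
      rw [h3] at hB'; simp at hB'
    · rwa [Complex.arg_real_mul _ hr] at h3
  have b1 : X.bet e (X.ph e.succ (Complex.arg y')) = 1 := by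
    rcases bet_at ha h he hy hy1 hy2 with h3 | h3
    · rw [Complex.arg_real_mul _ hs] at h3
      rw [h3] at hB'; simp at hB'
    · rwa [Complex.arg_real_mul _ hs] at h3
  rw [l1, b1]
  have := h.nc e he
  simpa using this

end Data

/-! ### the derivative of `GF` -/

theorem hasFDerivAt_GF {n : ℕ} {Q : Fin (n + 1) → ℂ → ℂ} {g h : Fin n → ℂ → ℂ}
    {z : Fin (n + 1) → ℂ} (hQ : ∀ i, DifferentiableAt ℝ (Q i) (z i))
    (hg : ∀ e : Fin n, DifferentiableAt ℝ (g e) (z e.castSucc))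
    (hh : ∀ e : Fin n, DifferentiableAt ℝ (h e) (z e.succ)) :
    HasFDerivAt (GF Q g h)
      (∑ i, (fderiv ℝ (Q i) (z i)).comp (ContinuousLinearMap.proj (R := ℝ) (φ := fun _ => ℂ) i) -
        ∑ e : Fin n, (g e (z e.castSucc) • (fderiv ℝ (h e) (z e.succ)).comp
            (ContinuousLinearMap.proj (R := ℝ) (φ := fun _ => ℂ) e.succ) +
          h e (z e.succ) • (fderiv ℝ (g e) (z e.castSucc)).comp
            (ContinuousLinearMap.proj (R := ℝ) (φ := fun _ => ℂ) e.castSucc))) z := by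
  have hpr : ∀ i : Fin (n + 1), HasFDerivAt (fun z : Fin (n + 1) → ℂ => z i)
      (ContinuousLinearMap.proj (R := ℝ) (φ := fun _ => ℂ) i) z := fun i => hasFDerivAt_apply i z
  have h1 : HasFDerivAt (fun z : Fin (n + 1) → ℂ => ∑ i, Q i (z i))
      (∑ i, (fderiv ℝ (Q i) (z i)).comp (ContinuousLinearMap.proj (R := ℝ) (φ := fun _ => ℂ) i))
      z := HasFDerivAt.fun_sum fun i _ => (hQ i).hasFDerivAt.comp z (hpr i)
  have h2 : HasFDerivAt (fun z : Fin (n + 1) → ℂ => ∑ e : Fin n,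
      g e (z e.castSucc) * h e (z e.succ))
      (∑ e : Fin n, (g e (z e.castSucc) • (fderiv ℝ (h e) (z e.succ)).comp
            (ContinuousLinearMap.proj (R := ℝ) (φ := fun _ => ℂ) e.succ) +
          h e (z e.succ) • (fderiv ℝ (g e) (z e.castSucc)).comp
            (ContinuousLinearMap.proj (R := ℝ) (φ := fun _ => ℂ) e.castSucc))) z :=
    HasFDerivAt.fun_sum fun e _ => ((hg e).hasFDerivAt.comp z (hpr e.castSucc)).fun_mul
      ((hh e).hasFDerivAt.comp z (hpr e.succ))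
  exact h1.sub h2

theorem fderiv_GF {n : ℕ} {Q : Fin (n + 1) → ℂ → ℂ} {g h : Fin n → ℂ → ℂ}
    {z : Fin (n + 1) → ℂ} (hQ : ∀ i, DifferentiableAt ℝ (Q i) (z i))
    (hg : ∀ e : Fin n, DifferentiableAt ℝ (g e) (z e.castSucc))
    (hh : ∀ e : Fin n, DifferentiableAt ℝ (h e) (z e.succ)) (v : Fin (n + 1) → ℂ) :
    fderiv ℝ (GF Q g h) z v = ∑ i, fderiv ℝ (Q i) (z i) (v i) -
      ∑ e : Fin n, (g e (z e.castSucc) * fderiv ℝ (h e) (z e.succ) (v e.succ) +
        h e (z e.succ) * fderiv ℝ (g e) (z e.castSucc) (v e.castSucc)) := by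
  rw [(hasFDerivAt_GF hQ hg hh).fderiv]
  simp only [_root_.sub_apply, _root_.sum_apply, ContinuousLinearMap.comp_apply, _root_.add_apply,
    _root_.smul_apply, ContinuousLinearMap.proj_apply, smul_eq_mul]

end Crest.Agent.R267.S1_326
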