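import Crest.Agent.R267.S1Kit_326

/-!
# Row 267 (helper326): S1 of T3b (LobeDefs_407), the reduced function

`s1 : Exps a → S1P a e`.  Path `F (t, z) = st z + t y^d`, `d = a (j+1) + 1`, `y = z (j+1)`,
`x = z j`.  At a non regular point the variables after `y` vanish and `y = 0` or `t d y = a x`; then
the derivative is the one of the lobed function of state `j` with the piece `Q_j - K x^d`,
`K = 0` or `K > 2 ε_j` (`redreg`, by `chain_reg` of LemLF_951).
-/

set_option autoImplicit false
set_option linter.unusedSectionVars false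
set_option maxHeartbeats 400000

noncomputable section

open Set Filter Topology Metric
open scoped ContDiff
open Crest.Agent.R267.Ang_739 Crest.Agent.R267.Hm_951
open Crest.Agent.R267.Sys_808 Crest.Agent.R267.LobeDefs_407 Crest.Agent.R267.Pow_951
open Crest.Agent.R267.Cone_808
open Crest.Agent.R267.LemL_951 (PH Good Good2 lobB prodB Cond chain_reg good2_of_rot nc_of_unit
  hasFDerivAt_lobB hasFDerivAt_prodB)

namespace Crest.Agent.R267.S1_326

variable {n : ℕ} {a : Fin (n + 1) → ℕ}

/-! ### the reduced function -/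

/-- pieces: `Q_j - K x^d` at `j`, nothing above -/
def VP (X : LD n) (j : ℕ) (K : ℝ) (d : ℕ) (i : Fin (n + 1)) : ℂ → ℂ :=
  if (i : ℕ) < j then X.Q i else if (i : ℕ) = j then fun x => X.Q i x - (K : ℂ) * x ^ d else 0

/-- degrees -/
def VD (X : LD n) (j : ℕ) (i : Fin (n + 1)) : ℝ := if (i : ℕ) ≤ j then X.D i else 1

/-- couplings -/
def Vg (X : LD n) (j : ℕ) (e : Fin n) : ℂ → ℝ := if (e : ℕ) < j then X.g e else 0

/-- couplings -/
def Vh (X : LD n) (j : ℕ) (e : Fin n) : ℂ → ℝ := if (e : ℕ) < j then X.h e else 0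

/-- degrees of the couplings -/
def Vp (X : LD n) (j : ℕ) (e : Fin n) : ℝ := if (e : ℕ) < j then X.p e else VD X j e.castSucc / 2

/-- degrees of the couplings -/
def Vm (X : LD n) (j : ℕ) (e : Fin n) : ℝ := if (e : ℕ) < j then X.m e else VD X j e.succ / 2

theorem pow_polar (z : ℂ) (d : ℕ) :
    z ^ d = ((‖z‖ ^ (d : ℝ) : ℝ) : ℂ) * cis (d * Complex.arg z) := by
  conv_lhs => rw [← Complex.norm_mul_exp_arg_mul_I z]
  rw [mul_pow, ← Complex.exp_nat_mul, Real.rpow_natCast, Complex.ofReal_pow, cis]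
  congr 2
  push_cast
  ring

theorem hasFDerivAt_pow' (z : ℂ) (d : ℕ) (c v : ℂ) :
    fderiv ℝ (fun x : ℂ => c * x ^ d) z v = c * (d * z ^ (d - 1) * v) := by
  have h1 : HasDerivAt (fun x : ℂ => c * x ^ d) (c * (d * z ^ (d - 1))) z :=
    (hasDerivAt_pow d z).const_mul c
  rw [h1.complexToReal_fderiv.fderiv]
  simp
  ring

theorem cis_add_two_pi_int (x : ℝ) (m : ℤ) : cis (x + Real.pi + 2 * Real.pi * m) = -cis x := by
  rw [cis_per]
  unfold cis
  push_cast
  rw [add_mul, Complex.exp_add, Complex.exp_pi_mul_I]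
  ring

section Red

variable {e : Fin n} {X : LD n}

theorem three_lt (ha : Exps a) (i : Fin (n + 1)) : (3 : ℝ) ≤ ((a i + 1 : ℕ) : ℝ) := by
  have := ha.two i
  have : 3 ≤ a i + 1 := by omega
  exact_mod_cast this

/-- outside the window -/
theorem al_out (ha : Exps a) (hX : X.Al a e (a e.succ + 1) 1) {z : ℂ}
    (h : Real.pi / (3 * ((a e.succ + 1 : ℕ) : ℝ)) < |Complex.arg z|) :
    (∃ m : ℤ, X.ph e.castSucc =ᶠ[𝓝 (Complex.arg z)] fun x =>
      ((a e.succ + 1 : ℕ) : ℝ) * x + Real.pi + 2 * Real.pi * m) ∧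
    ∃ ξ : ℝ, Real.pi / (3 * ((a e.succ + 1 : ℕ) : ℝ)) < ξ ∧
      ξ < 2 * Real.pi - Real.pi / (3 * ((a e.succ + 1 : ℕ) : ℝ)) ∧
      ∃ k : ℕ, X.ph e.castSucc (Complex.arg z) + 2 * Real.pi * dg a e.castSucc * k =
        ((a e.succ + 1 : ℕ) : ℝ) * ξ + Real.pi := by
  have hj : ((e.castSucc : Fin (n + 1)) : ℕ) = e := by simp
  have hd := three_lt ha e.succ
  set d : ℝ := ((a e.succ + 1 : ℕ) : ℝ) with hdd
  have hph := hX.ph e.castSucc hj
  have hdeg := (hX.ok.hph e.castSucc hj.le).deg
  have hpi := Real.pi_pos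
  have hw : 0 < Real.pi / (3 * d) := by positivity
  have hw2 : Real.pi / (3 * d) < Real.pi := by
    rw [div_lt_iff₀ (by positivity)]
    nlinarith
  have h1 := Complex.neg_pi_lt_arg z
  have h2 := Complex.arg_le_pi z
  set A := Complex.arg z with hA
  rcases le_or_gt 0 A with h0 | h0
  · rw [abs_of_nonneg h0] at h
    refine ⟨⟨0, ?_⟩, A, h, by linarith, 0, ?_⟩
    · filter_upwards [Ioo_mem_nhds h (show A < 2 * Real.pi - Real.pi / (3 * d) by linarith)]
        with x hx
      rw [hph x hx.1.le hx.2.le, Int.cast_zero, mul_zero, add_zero]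
    · rw [hph A h.le (by linarith), Nat.cast_zero, mul_zero, add_zero]
  · rw [abs_of_neg h0] at h
    refine ⟨⟨(a e.succ + 1 : ℕ) - dg a e.castSucc, ?_⟩, A + 2 * Real.pi, by linarith, by linarith,
      1, ?_⟩
    · filter_upwards [Ioo_mem_nhds (show -Real.pi < A from h1)
        (show A < -(Real.pi / (3 * d)) by linarith)] with x hx
      have h3 := hph (x + 2 * Real.pi) (by linarith [hx.1]) (by linarith [hx.2])
      rw [hdeg] at h3
      have h4 : X.ph e.castSucc x = d * (x + 2 * Real.pi) + Real.pi -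
          2 * Real.pi * (dg a e.castSucc : ℝ) := by linarith
      rw [h4]
      push_cast
      rw [hdd]
      push_cast
      ring
    · have h3 := hph (A + 2 * Real.pi) (by linarith) (by linarith)
      rw [hdeg] at h3
      rw [← h3]
      simp

/-- outside the window `Q_j = - ε |z|^d e^{i d ξ}` -/
theorem Q_out (ha : Exps a) (hX : X.Al a e (a e.succ + 1) 1) {z : ℂ}
    (h : Real.pi / (3 * ((a e.succ + 1 : ℕ) : ℝ)) < |Complex.arg z|) :
    (X.ep e.castSucc : ℂ) * z ^ (a e.succ + 1) = -X.Q e.castSucc z := by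
  have hj : ((e.castSucc : Fin (n + 1)) : ℕ) = e := by simp
  obtain ⟨⟨m, hm⟩, -⟩ := al_out ha hX h
  have h1 : X.Q e.castSucc z = ((‖z‖ ^ X.D e.castSucc : ℝ) : ℂ) *
      ((X.ep e.castSucc : ℂ) * cis (X.ph e.castSucc (Complex.arg z))) := by
    show pc _ _ _ z = _
    rw [pc, pol, Complex.real_smul]
  rw [h1, hm.self_of_nhds, cis_add_two_pi_int, pow_polar, hX.deg e.castSucc hj, mul_one]
  ring

theorem deriv_out (ha : Exps a) (hX : X.Al a e (a e.succ + 1) 1) {z : ℂ}
    (h : Real.pi / (3 * ((a e.succ + 1 : ℕ) : ℝ)) < |Complex.arg z|) :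
    deriv (X.ph e.castSucc) (Complex.arg z) = ((a e.succ + 1 : ℕ) : ℝ) := by
  obtain ⟨⟨m, hm⟩, -⟩ := al_out ha hX h
  rw [hm.deriv_eq]
  have h1 : HasDerivAt (fun x : ℝ => ((a e.succ + 1 : ℕ) : ℝ) * x + Real.pi + 2 * Real.pi * m)
      (((a e.succ + 1 : ℕ) : ℝ) * 1) (Complex.arg z) :=
    (((hasDerivAt_id _).const_mul _).add_const _).add_const _
  rw [h1.deriv, mul_one]

/-- the level function of the coupling before `j` vanishes at the positive points outside the
window -/
theorem bet_out (ha : Exps a) (hX : X.Al a e (a e.succ + 1) 1) {f : Fin n}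
    (hf : f.succ = e.castSucc) {z : ℂ} (hz : z ≠ 0)
    (h : Real.pi / (3 * ((a e.succ + 1 : ℕ) : ℝ)) < |Complex.arg z|)
    (hre : 0 < (X.Q e.castSucc z).re) (him : (X.Q e.castSucc z).im = 0) :
    X.bet f (X.ph f.succ (Complex.arg z)) = 0 := by
  have hj : ((e.castSucc : Fin (n + 1)) : ℕ) = e := by simp
  have hfj : (f : ℕ) < e := by
    have : ((f.succ : Fin (n + 1)) : ℕ) = e := by rw [hf, hj]
    simp at this
    omega
  have hbet := hX.ok.hbet f hfj
  have hb1 := hX.ok.bet1 f hfj
  rw [hf] at hbet hb1 ⊢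
  obtain ⟨m, hm⟩ := phase_int hX.ok hj.le hz hre him
  obtain ⟨-, ξ, h1, h2, k, hk⟩ := al_out ha hX h
  have hd := three_lt ha e.succ
  set d : ℝ := ((a e.succ + 1 : ℕ) : ℝ) with hdd
  have hpi := Real.pi_pos
  -- `2 π M = d ξ + π`
  set M : ℤ := m + dg a e.castSucc * k with hM
  have h3 : 2 * Real.pi * (M : ℝ) = d * ξ + Real.pi := by
    rw [← hk, hm, hM]
    push_cast
    ring
  have h4 : Real.pi / 3 < d * ξ := by
    have := mul_lt_mul_of_pos_left h1 (show 0 < d by linarith)
    have h5 : d * (Real.pi / (3 * d)) = Real.pi / 3 := by field_simp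
    linarith
  have h5 : d * ξ < 2 * Real.pi * d - Real.pi / 3 := by
    have := mul_lt_mul_of_pos_left h2 (show 0 < d by linarith)
    have h6 : d * (2 * Real.pi - Real.pi / (3 * d)) = 2 * Real.pi * d - Real.pi / 3 := by
      field_simp
    linarith
  have h6 : (0 : ℝ) < M := by
    by_contra h7
    push Not at h7
    have := mul_nonneg (show 0 ≤ 2 * Real.pi by linarith) (neg_nonneg.2 h7)
    linarith
  have h7 : (M : ℝ) < d + 1 := by
    by_contra h8
    push Not at h8
    have := mul_le_mul_of_nonneg_left h8 (show 0 ≤ 2 * Real.pi by linarith)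
    linarith
  have h6' : 0 < M := by exact_mod_cast h6
  have h7' : M < ((a e.succ + 1 : ℕ) : ℤ) + 1 := by
    have : (M : ℝ) < (((a e.succ + 1 : ℕ) : ℤ) + 1 : ℤ) := by
      push_cast
      rw [hdd] at h7
      push_cast at h7
      exact h7
    exact_mod_cast this
  -- `d < dg`
  have hdg : dg a e.castSucc = a e.castSucc + 1 := by
    unfold dg
    rw [if_neg]
    intro h0
    rw [h0] at hf
    exact Fin.succ_ne_zero _ hf
  have hlt : a e.succ < a e.castSucc := ha.anti Fin.castSucc_lt_succ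
  have h8 : X.ph e.castSucc (Complex.arg z) = 2 * Real.pi * ((M - 1).toNat + 1) +
      2 * Real.pi * dg a e.castSucc * ((-(k : ℤ) : ℤ) : ℝ) := by
    have h9 : (((M - 1).toNat : ℕ) : ℝ) = (M : ℝ) - 1 := by
      have : (((M - 1).toNat : ℕ) : ℤ) = M - 1 := Int.toNat_of_nonneg (by omega)
      exact_mod_cast this
    rw [h9, hm, hM]
    push_cast
    ring
  rw [h8, lev_per_int hbet, hb1 (M - 1).toNat (by omega) _ (by rw [sub_self, abs_zero]; positivity),
    if_neg (by omega)]

/-- inside the window `Re V < 0` -/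
theorem V_in (ha : Exps a) (hX : X.Al a e (a e.succ + 1) 1) {K : ℝ}
    (hK : 2 * X.ep e.castSucc < K) {z : ℂ} (hz : z ≠ 0)
    (h : |Complex.arg z| ≤ Real.pi / (3 * ((a e.succ + 1 : ℕ) : ℝ))) :
    (X.Q e.castSucc z - (K : ℂ) * z ^ (a e.succ + 1)).re < 0 := by
  have hj : ((e.castSucc : Fin (n + 1)) : ℕ) = e := by simp
  have hd := three_lt ha e.succ
  have hep := hX.ok.hep e.castSucc hj.le
  rw [pow_polar, Complex.sub_re, Q_re, Complex.re_ofReal_mul, Complex.re_ofReal_mul, cis_re,
    hX.deg e.castSucc hj, mul_one]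
  set d : ℝ := ((a e.succ + 1 : ℕ) : ℝ) with hdd
  have h1 : 1 / 2 ≤ Real.cos (d * Complex.arg z) := by
    rw [← Real.cos_abs, ← Real.cos_pi_div_three]
    refine Real.cos_le_cos_of_nonneg_of_le_pi (abs_nonneg _) (by linarith [Real.pi_pos]) ?_
    rw [abs_mul, abs_of_nonneg (show 0 ≤ d by linarith)]
    have h2 : d * (Real.pi / (3 * d)) = Real.pi / 3 := by field_simp
    rw [← h2]
    exact mul_le_mul_of_nonneg_left h (by linarith)
  have h2 := rpow_pos' hz d
  have h3 := Real.cos_le_one (X.ph e.castSucc (Complex.arg z))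
  have h4 : X.ep e.castSucc * Real.cos (X.ph e.castSucc (Complex.arg z)) ≤ X.ep e.castSucc := by
    nlinarith
  have h5 : K * (1 / 2) ≤ K * Real.cos (d * Complex.arg z) :=
    mul_le_mul_of_nonneg_left h1 (by linarith)
  have h6 : X.ep e.castSucc * Real.cos (X.ph e.castSucc (Complex.arg z)) -
      K * Real.cos (d * Complex.arg z) < 0 := by linarith
  have h7 := mul_neg_of_pos_of_neg h2 h6
  linarith

/-- outside the window `V` is a positive multiple of `Q_j` -/
theorem V_out (ha : Exps a) (hX : X.Al a e (a e.succ + 1) 1) (K : ℝ) {z : ℂ}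
    (h : Real.pi / (3 * ((a e.succ + 1 : ℕ) : ℝ)) < |Complex.arg z|) :
    X.Q e.castSucc z - (K : ℂ) * z ^ (a e.succ + 1) =
      ((1 + K / X.ep e.castSucc : ℝ) : ℂ) * X.Q e.castSucc z := by
  have hj : ((e.castSucc : Fin (n + 1)) : ℕ) = e := by simp
  have hep := hX.ok.hep e.castSucc hj.le
  have h1 := Q_out ha hX h
  have h2 : (X.ep e.castSucc : ℂ) ≠ 0 := by exact_mod_cast hep.ne'
  have h3 : z ^ (a e.succ + 1) = -(X.Q e.castSucc z) / (X.ep e.castSucc : ℂ) := by
    rw [← h1]
    field_simp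
  rw [h3]
  push_cast
  field_simp
  ring

theorem V_I (ha : Exps a) (hX : X.Al a e (a e.succ + 1) 1) (K : ℝ) {z : ℂ} (hz : z ≠ 0)
    (h : Real.pi / (3 * ((a e.succ + 1 : ℕ) : ℝ)) < |Complex.arg z|) :
    fderiv ℝ (fun x => X.Q e.castSucc x - (K : ℂ) * x ^ (a e.succ + 1)) z (Complex.I * z) =
      (((a e.succ + 1 : ℕ) : ℝ) : ℂ) * (Complex.I *
        (X.Q e.castSucc z - (K : ℂ) * z ^ (a e.succ + 1))) := by
  have hj : ((e.castSucc : Fin (n + 1)) : ℕ) = e := by simp
  have h1 := (Q_diff hX.ok hj.le z).hasFDerivAt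
  have h2 : HasFDerivAt (fun x : ℂ => (K : ℂ) * x ^ (a e.succ + 1)) _ z :=
    (DifferentiableAt.hasFDerivAt (𝕜 := ℝ) (by fun_prop))
  rw [(h1.fun_sub h2).fderiv, _root_.sub_apply, Q_I hX.ok hj.le hz, deriv_out ha hX h,
    hasFDerivAt_pow']
  have h3 : z ^ (a e.succ + 1) = z ^ (a e.succ) * z := pow_succ _ _
  rw [h3, Nat.add_sub_cancel]
  push_cast
  ring

end Red

/-! ### regularity of the reduced function -/

section RedReg

variable {e : Fin n} {X : LD n}

theorem VP_zero (X : LD n) (e : Fin n) (d : ℕ) : VP X e 0 d e.castSucc = X.Q e.castSucc := by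
  unfold VP
  rw [if_neg (by simp), if_pos (by simp)]
  funext x
  simp

theorem VP_at (X : LD n) (e : Fin n) (K : ℝ) (d : ℕ) :
    VP X e K d e.castSucc = fun x => X.Q e.castSucc x - (K : ℂ) * x ^ d := by
  unfold VP
  rw [if_neg (by simp), if_pos (by simp)]

theorem VP_lt (X : LD n) (K : ℝ) (d : ℕ) {j : ℕ} {i : Fin (n + 1)} (h : (i : ℕ) < j) :
    VP X j K d i = X.Q i := if_pos h

theorem VP_gt (X : LD n) (K : ℝ) (d : ℕ) {j : ℕ} {i : Fin (n + 1)} (h : j < (i : ℕ)) :
    VP X j K d i = 0 := by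
  unfold VP
  rw [if_neg (by omega), if_neg (by omega)]

theorem VP_diff (hX : X.Al a e (a e.succ + 1) 1) (K : ℝ) (i : Fin (n + 1)) (z : ℂ) :
    DifferentiableAt ℝ (VP X e K (a e.succ + 1) i) z := by
  rcases lt_trichotomy (i : ℕ) e with h | h | h
  · rw [VP_lt X K _ h]
    exact Q_diff hX.ok h.le z
  · have hi : i = e.castSucc := Fin.ext (by simpa using h)
    subst hi
    rw [VP_at]
    exact (Q_diff hX.ok h.le z).sub (by fun_prop)
  · rw [VP_gt X K _ h]
    exact differentiableAt_const _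

theorem Vg_diff (hX : X.Al a e (a e.succ + 1) 1) (f : Fin n) (z : ℂ) :
    DifferentiableAt ℝ (Vg X e f) z := by
  unfold Vg
  split_ifs with h
  · exact g_diff hX.ok h z
  · exact differentiableAt_const _

theorem Vh_diff (hX : X.Al a e (a e.succ + 1) 1) (f : Fin n) (z : ℂ) :
    DifferentiableAt ℝ (Vh X e f) z := by
  unfold Vh
  split_ifs with h
  · exact h_diff hX.ok h z
  · exact differentiableAt_const _

theorem PH_zero {F : Type*} [AddCommGroup F] [Module ℝ F] (D : ℝ) : PH D (0 : ℂ → F) :=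
  fun _ _ _ => (smul_zero _).symm

theorem VD_pos (hX : X.Ok a e) (i : Fin (n + 1)) : 0 < VD X e i := by
  unfold VD
  split_ifs with h
  · have := hX.hD i h
    linarith
  · exact one_pos

theorem VP_PH (hX : X.Al a e (a e.succ + 1) 1) (K : ℝ) (i : Fin (n + 1)) :
    PH (VD X e i) (VP X e K (a e.succ + 1) i) := by
  rcases lt_trichotomy (i : ℕ) e with h | h | h
  · rw [VP_lt X K _ h, VD, if_pos h.le]
    exact Q_PH X i
  · have hi : i = e.castSucc := Fin.ext (by simpa using h)
    subst hi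
    rw [VP_at, VD, if_pos h.le]
    intro r hr z
    have h1 := Q_PH X e.castSucc r hr z
    have h2 : r ^ X.D e.castSucc = r ^ (a e.succ + 1) := by
      rw [hX.deg _ h, mul_one, Real.rpow_natCast]
    show X.Q e.castSucc ((r : ℂ) * z) - (K : ℂ) * ((r : ℂ) * z) ^ (a e.succ + 1) =
      r ^ X.D e.castSucc • (X.Q e.castSucc z - (K : ℂ) * z ^ (a e.succ + 1))
    rw [h1, smul_sub, h2, mul_pow]
    congr 1
    rw [Complex.real_smul]
    push_cast
    ring
  · rw [VP_gt X K _ h]
    exact PH_zero _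

theorem V_ne (ha : Exps a) (hX : X.Al a e (a e.succ + 1) 1) {K : ℝ}
    (hK : K = 0 ∨ 2 * X.ep e.castSucc < K) {z : ℂ} (hz : z ≠ 0) :
    X.Q e.castSucc z - (K : ℂ) * z ^ (a e.succ + 1) ≠ 0 ∧
      ((X.Q e.castSucc z - (K : ℂ) * z ^ (a e.succ + 1)).re < 0 ∨
        (0 ≤ Real.cos (X.ph e.castSucc (Complex.arg z)) ∧
          Good2 (fderiv ℝ (fun x => X.Q e.castSucc x - (K : ℂ) * x ^ (a e.succ + 1)) z
            (Complex.I * z)) (X.Q e.castSucc z - (K : ℂ) * z ^ (a e.succ + 1)))) := by
  have hj : ((e.castSucc : Fin (n + 1)) : ℕ) = e := by simp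
  have hep := hX.ok.hep e.castSucc hj.le
  have hQ := Q_ne hX.ok hj.le hz
  rcases hK with rfl | hK
  · have h1 : ∀ x : ℂ, X.Q e.castSucc x - ((0 : ℝ) : ℂ) * x ^ (a e.succ + 1) = X.Q e.castSucc x := by
      intro x; simp
    simp only [h1]
    refine ⟨hQ, ?_⟩
    rcases lt_or_ge (X.Q e.castSucc z).re 0 with h2 | h2
    · exact Or.inl h2
    · refine Or.inr ⟨cos_nonneg hX.ok hj.le hz h2, ?_⟩
      rw [Q_I hX.ok hj.le hz]
      exact good2_of_rot ((hX.ok.hph _ hj.le).pos _).ne'
  · rcases le_or_gt |Complex.arg z| (Real.pi / (3 * ((a e.succ + 1 : ℕ) : ℝ))) with h | h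
    · have h1 := V_in ha hX hK hz h
      refine ⟨fun h2 => ?_, Or.inl h1⟩
      rw [h2] at h1
      simp at h1
    · have h1 := V_out ha hX K h
      have hc : 0 < 1 + K / X.ep e.castSucc := by
        have : 0 < K := by linarith
        positivity
      refine ⟨?_, ?_⟩
      · rw [h1]
        exact mul_ne_zero (by exact_mod_cast hc.ne') hQ
      · rcases lt_or_ge (X.Q e.castSucc z).re 0 with h2 | h2
        · left
          rw [h1, Complex.re_ofReal_mul]
          exact mul_neg_of_pos_of_neg hc h2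
        · refine Or.inr ⟨cos_nonneg hX.ok hj.le hz h2, ?_⟩
          rw [V_I ha hX K hz h]
          exact good2_of_rot (by have := three_lt ha e.succ; positivity)

/-- at a positive real value of `V` the coupling before `j` vanishes or `V = Q_j` -/
theorem V_real (ha : Exps a) (hX : X.Al a e (a e.succ + 1) 1) {K : ℝ}
    (hK : 2 * X.ep e.castSucc < K) {f : Fin n} (hf : f.succ = e.castSucc) {z : ℂ} (hz : z ≠ 0)
    (hre : 0 < (X.Q e.castSucc z - (K : ℂ) * z ^ (a e.succ + 1)).re)
    (him : (X.Q e.castSucc z - (K : ℂ) * z ^ (a e.succ + 1)).im = 0) : X.h f z = 0 := by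
  have hj : ((e.castSucc : Fin (n + 1)) : ℕ) = e := by simp
  have hep := hX.ok.hep e.castSucc hj.le
  rcases le_or_gt |Complex.arg z| (Real.pi / (3 * ((a e.succ + 1 : ℕ) : ℝ))) with h | h
  · exact absurd (V_in ha hX hK hz h) (not_lt.2 hre.le)
  · have h1 := V_out ha hX K h
    have hc : 0 < 1 + K / X.ep e.castSucc := by
      have : 0 < K := by linarith
      positivity
    rw [h1, Complex.re_ofReal_mul] at hre
    rw [h1, Complex.im_ofReal_mul] at him
    have h2 := bet_out ha hX hf hz h ((mul_pos_iff_of_pos_left hc).1 hre)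
      ((mul_eq_zero.1 him).resolve_left hc.ne')
    show ‖z‖ ^ X.m f * X.bet f (X.ph f.succ (Complex.arg z)) = 0
    rw [h2, mul_zero]

theorem redreg (ha : Exps a) (hX : X.Al a e (a e.succ + 1) 1) {K : ℝ}
    (hK : K = 0 ∨ 2 * X.ep e.castSucc < K) {z : Fin (n + 1) → ℂ} (hz : z ≠ 0)
    (hz0 : ∀ i : Fin (n + 1), (e : ℕ) < i → z i = 0)
    (hre : 0 ≤ (lobB (VP X e K (a e.succ + 1))
      (prodB Fin.castSucc Fin.succ (Vg X e) (Vh X e)) z).re) :
    Function.Surjective (fderiv ℝ (lobB (VP X e K (a e.succ + 1))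
      (prodB Fin.castSucc Fin.succ (Vg X e) (Vh X e))) z) := by
  have hj : ((e.castSucc : Fin (n + 1)) : ℕ) = e := by simp
  have hok := hX.ok
  have hVD := VD_pos hok
  refine chain_reg (D := VD X e) (p := Vp X e) (m := Vm X e) hVD (fun f => ?_) (fun f => ?_)
    (fun f => ?_) (VP_PH hX K) (fun f => ?_) (fun f => ?_) (fun i => VP_diff hX K i _)
    (fun f => Vg_diff hX f _) (fun f => Vh_diff hX f _) (fun f x => ?_) (fun f x => ?_)
    (fun i hi => ?_) hz ?_ hre
  · unfold Vp
    split_ifs with h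
    · have := hok.hp f h
      linarith
    · exact half_pos (hVD _)
  · unfold Vm
    split_ifs with h
    · have := hok.hm f h
      linarith
    · exact half_pos (hVD _)
  · unfold Vp Vm
    by_cases h : (f : ℕ) < e
    · rw [if_pos h, if_pos h, VD, VD, if_pos (by simpa using h.le), if_pos (by simpa using h)]
      exact hok.sum f h
    · rw [if_neg h, if_neg h]
      have h1 := (hVD f.castSucc).ne'
      have h2 := (hVD f.succ).ne'
      field_simp
      norm_num
  · unfold Vp Vg
    split_ifs with h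
    · exact g_PH X f
    · exact PH_zero _
  · unfold Vm Vh
    split_ifs with h
    · exact h_PH X f
    · exact PH_zero _
  · unfold Vg
    split_ifs with h
    · exact g_nonneg hok h x
    · exact le_rfl
  · unfold Vh
    split_ifs with h
    · exact h_nonneg hok h x
    · exact le_rfl
  · -- the condition on one variable
    right
    rcases lt_trichotomy (i : ℕ) e with h | h | h
    · rw [VP_lt X K _ h]
      refine ⟨Q_ne hok h.le hi, ?_⟩
      rcases lt_or_ge (X.Q i (z i)).re 0 with h2 | h2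
      · exact Or.inl h2
      · have hc := cos_nonneg hok h.le hi h2
        refine Or.inr ⟨Complex.I * z i, fun f hf => ?_, fun f hf => ?_, ?_⟩
        · subst hf
          have hf' : (f : ℕ) < e := by simpa using h
          unfold Vg
          rw [if_pos hf']
          exact g_I hok hf' hi hc
        · subst hf
          have hf' : (f : ℕ) < e := by simp at h; omega
          unfold Vh
          rw [if_pos hf']
          exact h_I hok hf' hi hc
        · rw [Q_I hok h.le hi]
          exact good2_of_rot ((hok.hph _ h.le).pos _).ne'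
    · have hie : i = e.castSucc := Fin.ext (by simpa using h)
      subst hie
      rw [VP_at]
      obtain ⟨h1, h2⟩ := V_ne ha hX hK hi
      refine ⟨h1, ?_⟩
      rcases h2 with h2 | ⟨hc, h3⟩
      · exact Or.inl h2
      · refine Or.inr ⟨Complex.I * z e.castSucc, fun f hf => ?_, fun f hf => ?_, h3⟩
        · have hf' : f = e := Fin.castSucc_injective _ hf
          subst hf'
          unfold Vg
          rw [if_neg (lt_irrefl _)]
          simp
        · have hf' : (f : ℕ) < e := by
            have := congrArg (fun i : Fin (n + 1) => (i : ℕ)) hf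
            simp at this
            omega
          unfold Vh
          rw [if_pos hf']
          rw [← hf] at hi hc ⊢
          exact h_I hok hf' hi hc
    · exact absurd (hz0 i h) hi
  · -- the numerical condition
    intro f hx hy hB h1 h2 hx1 hx2 hy1 hy2
    have hf : (f : ℕ) < e := by
      by_contra h
      exact hy (hz0 _ (by simp; omega))
    have hfc : ((f.castSucc : Fin (n + 1)) : ℕ) < e := by simpa using hf
    have eg : Vg X e f = X.g f := if_pos hf
    have eh : Vh X e f = X.h f := if_pos hf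
    have ep : Vp X e f = X.p f := if_pos hf
    have em : Vm X e f = X.m f := if_pos hf
    have eD : VD X e f.castSucc = X.D f.castSucc := if_pos hfc.le
    have eD' : VD X e f.succ = X.D f.succ := if_pos (by simpa using hf)
    rw [eg, eh] at hB h1 h2
    rw [VP_lt X K _ hfc] at h1 hx1 hx2
    rw [ep, eD] at h1
    rw [em, eD'] at h2
    rcases lt_or_ge ((f.succ : Fin (n + 1)) : ℕ) e with h | h
    · rw [VP_lt X K _ h] at h2 hy1 hy2
      exact nc_std ha hok hf hx hy hB h1 h2 hx1 hx2 hy1 hy2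
    · have hfe : f.succ = e.castSucc := Fin.ext (by simp at h ⊢; omega)
      rcases hK with rfl | hK
      · have h3 : VP X e 0 (a e.succ + 1) f.succ = X.Q f.succ := by rw [hfe, VP_zero]
        rw [h3] at h2 hy1 hy2
        exact nc_std ha hok hf hx hy hB h1 h2 hx1 hx2 hy1 hy2
      · rw [hfe, VP_at] at hy1 hy2
        rw [hfe] at hB hy
        have h3 := V_real ha hX hK hfe hy hy1 hy2
        rw [h3, mul_zero] at hB
        exact lt_irrefl _ hB

end RedReg

end Crest.Agent.R267.S1_326
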