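import Crest.Agent.R267.S1Red_326
import Crest.Agent.R267.S2_843

/-!
# Row 267 (helper326): S1 of T3b (LobeDefs_407): turn on `c y^d`

`s1 : Exps a → S1P a e`.  Path `F (t, z) = st z + t y^d`, `d = a (j+1) + 1`, `y = z (j+1)`,
`x = z j`.  At a non regular point the variables after `y` vanish and `y = 0` or `t d y = a x`; then
the derivative is the one of the lobed function of state `j` with the piece `Q_j - K x^d`,
`K = 0` or `K > 2 ε_j` (`redreg` of S1Red_326).
-/

set_option autoImplicit false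
set_option linter.unusedSectionVars false
set_option maxHeartbeats 400000

noncomputable section

open Set Filter Topology Metric
open scoped ContDiff
open Crest.Agent.R267.Ang_739 Crest.Agent.R267.Hm_951
open Crest.Agent.R267.Sys_808 Crest.Agent.R267.LobeDefs_407 Crest.Agent.R267.Pow_951
open Crest.Agent.R267.Cone_808
open Crest.Agent.R267.LemL_951 (PH Good Good2 lobB prodB Cond chain_reg good2_of_rot nc_of_unit
  hasFDerivAt_lobB hasFDerivAt_prodB)

namespace Crest.Agent.R267.S1_326

variable {n : ℕ} {a : Fin (n + 1) → ℕ}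

/-- pieces of the path -/
def PQ (X : LD n) (a : Fin (n + 1) → ℕ) (e : Fin n) (t : ℝ) (i : Fin (n + 1)) : ℂ → ℂ :=
  if (i : ℕ) ≤ e then X.Q i else if (i : ℕ) = (e : ℕ) + 1 then
    (fun y => (t : ℂ) * y ^ (a e.succ + 1)) else 0

/-- couplings of the path -/
def Pg (X : LD n) (e : Fin n) (f : Fin n) : ℂ → ℂ :=
  if (f : ℕ) < e then (fun z => (X.g f z : ℂ)) else if (f : ℕ) = e then id else id

/-- couplings of the path -/
def Ph (X : LD n) (a : Fin (n + 1) → ℕ) (e : Fin n) (f : Fin n) : ℂ → ℂ :=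
  if (f : ℕ) < e then (fun z => (X.h f z : ℂ)) else if (f : ℕ) = e then
    (fun y => y ^ a e.succ) else fun z => z ^ a f.succ

/-- the path -/
def PF (X : LD n) (a : Fin (n + 1) → ℕ) (e : Fin n) (t : ℝ) : (Fin (n + 1) → ℂ) → ℂ :=
  GF (PQ X a e t) (Pg X e) (Ph X a e)

theorem PF_mid (X : LD n) (a : Fin (n + 1) → ℕ) (e : Fin n) (t : ℝ) :
    X.mid a e (fun y => (t : ℂ) * y ^ (a e.succ + 1)) id (fun y => y ^ a e.succ) =
      PF X a e t := rfl

section

variable {X : LD n} {e : Fin n} {t : ℝ} {z : Fin (n + 1) → ℂ}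

theorem PQ_le (X : LD n) (a : Fin (n + 1) → ℕ) (t : ℝ) {i : Fin (n + 1)} (h : (i : ℕ) ≤ e) :
    PQ X a e t i = X.Q i := if_pos h

theorem PQ_succ (X : LD n) (a : Fin (n + 1) → ℕ) (e : Fin n) (t : ℝ) :
    PQ X a e t e.succ = fun y => (t : ℂ) * y ^ (a e.succ + 1) := by
  unfold PQ
  rw [if_neg (by simp), if_pos (by simp)]

theorem PQ_gt (X : LD n) (a : Fin (n + 1) → ℕ) (t : ℝ) {i : Fin (n + 1)}
    (h : (e : ℕ) + 2 ≤ (i : ℕ)) : PQ X a e t i = 0 := by
  unfold PQ
  rw [if_neg (by omega), if_neg (by omega)]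

theorem Pg_lt (X : LD n) {f : Fin n} (h : (f : ℕ) < e) :
    Pg X e f = fun z => (X.g f z : ℂ) := if_pos h

theorem Pg_ge (X : LD n) {f : Fin n} (h : (e : ℕ) ≤ f) : Pg X e f = id := by
  unfold Pg
  rw [if_neg (by omega)]
  split_ifs <;> rfl

theorem Ph_lt (X : LD n) (a : Fin (n + 1) → ℕ) {f : Fin n} (h : (f : ℕ) < e) :
    Ph X a e f = fun z => (X.h f z : ℂ) := if_pos h

theorem Ph_ge (X : LD n) (a : Fin (n + 1) → ℕ) {f : Fin n} (h : (e : ℕ) ≤ f) :
    Ph X a e f = fun z => z ^ a f.succ := by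
  unfold Ph
  rw [if_neg (by omega)]
  split_ifs with h1
  · rw [Fin.ext h1]
  · rfl

theorem i_cases (e : Fin n) (i : Fin (n + 1)) :
    (i : ℕ) ≤ e ∨ i = e.succ ∨ (e : ℕ) + 2 ≤ i := by
  rcases lt_trichotomy (i : ℕ) ((e : ℕ) + 1) with h | h | h
  · exact Or.inl (by omega)
  · exact Or.inr (Or.inl (Fin.ext (by simpa using h)))
  · exact Or.inr (Or.inr (by omega))

theorem PQ_diff (hX : X.Ok a e) (t : ℝ) (i : Fin (n + 1)) (z : ℂ) :
    DifferentiableAt ℝ (PQ X a e t i) z := by
  rcases i_cases e i with h | h | h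
  · rw [PQ_le X a t h]
    exact Q_diff hX h z
  · rw [h, PQ_succ]
    fun_prop
  · rw [PQ_gt X a t h]
    exact differentiableAt_const _

theorem ofReal_fderiv {g : ℂ → ℝ} {z : ℂ} (hg : DifferentiableAt ℝ g z) :
    HasFDerivAt (fun z => (g z : ℂ)) (Complex.ofRealCLM.comp (fderiv ℝ g z)) z :=
  Complex.ofRealCLM.hasFDerivAt.comp z hg.hasFDerivAt

theorem Pg_diff (hX : X.Ok a e) (f : Fin n) (z : ℂ) : DifferentiableAt ℝ (Pg X e f) z := by
  rcases lt_or_ge (f : ℕ) e with h | h
  · rw [Pg_lt X h]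
    exact (ofReal_fderiv (g_diff hX h z)).differentiableAt
  · rw [Pg_ge X h]
    exact differentiableAt_id

theorem Ph_diff (hX : X.Ok a e) (f : Fin n) (z : ℂ) : DifferentiableAt ℝ (Ph X a e f) z := by
  rcases lt_or_ge (f : ℕ) e with h | h
  · rw [Ph_lt X a h]
    exact (ofReal_fderiv (h_diff hX h z)).differentiableAt
  · rw [Ph_ge X a h]
    fun_prop

theorem fderiv_PF (hX : X.Ok a e) (t : ℝ) (z v : Fin (n + 1) → ℂ) :
    fderiv ℝ (PF X a e t) z v = ∑ i, fderiv ℝ (PQ X a e t i) (z i) (v i) -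
      ∑ f : Fin n, (Pg X e f (z f.castSucc) * fderiv ℝ (Ph X a e f) (z f.succ) (v f.succ) +
        Ph X a e f (z f.succ) * fderiv ℝ (Pg X e f) (z f.castSucc) (v f.castSucc)) :=
  fderiv_GF (fun i => PQ_diff hX t i _) (fun f => Pg_diff hX f _) (fun f => Ph_diff hX f _) v

theorem fderiv_PF_single (hX : X.Ok a e) (t : ℝ) (z : Fin (n + 1) → ℂ) (i : Fin (n + 1)) (w : ℂ) :
    fderiv ℝ (PF X a e t) z (Pi.single i w) = fderiv ℝ (PQ X a e t i) (z i) w -
      ∑ f : Fin n, ((if f.succ = i then
          Pg X e f (z f.castSucc) * fderiv ℝ (Ph X a e f) (z i) w else 0) +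
        if f.castSucc = i then Ph X a e f (z f.succ) * fderiv ℝ (Pg X e f) (z i) w else 0) := by
  rw [fderiv_PF hX]
  have h1 : ∀ (j : Fin (n + 1)) (T : ℂ →L[ℝ] ℂ), T (Pi.single (M := fun _ => ℂ) i w j) =
      if j = i then T w else 0 := by
    intro j T
    by_cases hj : j = i
    · subst hj; rw [if_pos rfl, Pi.single_eq_same]
    · rw [if_neg hj, Pi.single_eq_of_ne hj, map_zero]
  simp only [h1]
  congr 1
  · rw [Finset.sum_ite_eq' Finset.univ i]
    simp
  · refine Finset.sum_congr rfl fun f _ => ?_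
    congr 1
    · split_ifs with h2
      · rw [h2]
      · rw [mul_zero]
    · split_ifs with h2
      · rw [h2]
      · rw [mul_zero]

/-! ### the variables after `x` -/

/-- derivative along the variable `f.succ` -/
def kap (a : Fin (n + 1) → ℕ) (e : Fin n) (t : ℝ) (z : Fin (n + 1) → ℂ) (f : Fin n) : ℂ :=
  (if f = e then (t : ℂ) * (((a e.succ + 1 : ℕ) : ℂ) * z e.succ ^ a e.succ) else 0) -
    (z f.castSucc * ((a f.succ : ℂ) * z f.succ ^ (a f.succ - 1)) +
    ∑ f' : Fin n, if f'.castSucc = f.succ then z f'.succ ^ a f'.succ else 0)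

theorem fderiv_pow' (z : ℂ) (d : ℕ) (v : ℂ) :
    fderiv ℝ (fun x : ℂ => x ^ d) z v = d * z ^ (d - 1) * v := by
  have h1 := hasFDerivAt_pow' z d 1 v
  simp only [one_mul] at h1
  exact h1

theorem fderiv_tail (hX : X.Ok a e) (t : ℝ) (z : Fin (n + 1) → ℂ) {f : Fin n} (hf : (e : ℕ) ≤ f)
    (w : ℂ) : fderiv ℝ (PF X a e t) z (Pi.single f.succ w) = kap a e t z f * w := by
  rw [fderiv_PF_single hX]
  have h1 : fderiv ℝ (PQ X a e t f.succ) (z f.succ) w =
      (if f = e then (t : ℂ) * (((a e.succ + 1 : ℕ) : ℂ) * z e.succ ^ a e.succ) else 0) * w := by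
    split_ifs with h
    · subst h
      rw [PQ_succ, hasFDerivAt_pow', Nat.add_sub_cancel]
      ring
    · have : (e : ℕ) + 2 ≤ (f.succ : Fin (n + 1)) := by
        have : (f : ℕ) ≠ e := fun h' => h (Fin.ext h')
        simp
        omega
      rw [PQ_gt X a t this]
      simp
  have h2 : ∑ f' : Fin n, ((if f'.succ = f.succ then
          Pg X e f' (z f'.castSucc) * fderiv ℝ (Ph X a e f') (z f.succ) w else 0) +
        if f'.castSucc = f.succ then Ph X a e f' (z f'.succ) * fderiv ℝ (Pg X e f') (z f.succ) w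
          else 0) = (z f.castSucc * ((a f.succ : ℂ) * z f.succ ^ (a f.succ - 1)) +
    ∑ f' : Fin n, if f'.castSucc = f.succ then z f'.succ ^ a f'.succ else 0) * w := by
    rw [Finset.sum_add_distrib, add_mul, Finset.sum_mul]
    congr 1
    · rw [Finset.sum_eq_single f]
      · rw [if_pos rfl, Pg_ge X hf, Ph_ge X a hf, fderiv_pow', id]
        ring
      · intro f' _ hf'
        rw [if_neg fun h => hf' (Fin.succ_injective _ h)]
      · intro h; exact absurd (Finset.mem_univ _) h
    · refine Finset.sum_congr rfl fun f' _ => ?_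
      split_ifs with h
      · have hf' : (e : ℕ) ≤ f' := by
          have := congrArg (fun i : Fin (n + 1) => (i : ℕ)) h
          simp at this
          omega
        rw [Pg_ge X hf', Ph_ge X a hf', fderiv_id]
        rfl
      · rw [zero_mul]
  rw [h1, h2, kap]
  ring

theorem tail_zero (ha : Exps a) (hk : ∀ f : Fin n, (e : ℕ) ≤ f → kap a e t z f = 0) :
    ∀ (k : ℕ) (i : Fin (n + 1)), (i : ℕ) + k = n → (e : ℕ) + 2 ≤ i → z i = 0 := by
  intro k
  induction k using Nat.strong_induction_on with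
  | _ k ih =>
    intro i hik hei
    have hi0 : i ≠ 0 := by
      rintro rfl
      simp at hei
    obtain ⟨f, rfl⟩ := Fin.exists_succ_eq.2 hi0
    by_contra hz
    rw [Fin.val_succ] at hik hei
    have h1 := hk f (by omega)
    rw [kap, if_neg (by rintro rfl; omega), Finset.sum_eq_zero, add_zero, zero_sub,
      neg_eq_zero] at h1
    swap
    · intro f' _
      split_ifs with h
      · have h3 := congrArg (fun i : Fin (n + 1) => (i : ℕ)) h
        simp at h3
        have h4 := f'.2
        rw [ih (k - 1) (by omega) f'.succ (by simp; omega) (by simp; omega),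
          zero_pow (by have := ha.two f'.succ; omega)]
      · rfl
    have h2 : z f.castSucc = 0 := by
      refine (mul_eq_zero.1 h1).resolve_right (mul_ne_zero ?_ (pow_ne_zero _ hz))
      have := ha.two f.succ
      exact_mod_cast (by omega : a f.succ ≠ 0)
    have hf0 : f.castSucc ≠ 0 := by
      intro h
      have h3 := congrArg (fun i : Fin (n + 1) => (i : ℕ)) h
      simp at h3
      omega
    obtain ⟨g, hg⟩ := Fin.exists_succ_eq.2 hf0
    have hgv : (g : ℕ) + 1 = f := by
      have h3 := congrArg (fun i : Fin (n + 1) => (i : ℕ)) hg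
      simpa using h3
    have h3 := hk g (by omega)
    have h4 : (if g = e then (t : ℂ) * (((a e.succ + 1 : ℕ) : ℂ) * z e.succ ^ a e.succ) else 0) =
        0 := by
      split_ifs with h
      · rw [← h, hg, h2, zero_pow (by have := ha.two f.castSucc; omega), mul_zero, mul_zero]
      · rfl
    rw [kap, h4, hg, h2, zero_pow (by have := ha.two f.castSucc; omega), mul_zero, mul_zero,
      zero_add, Finset.sum_eq_single f, if_pos rfl, zero_sub, neg_eq_zero] at h3
    · exact hz (pow_eq_zero_iff (by have := ha.two f.succ; omega) |>.1 h3)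
    · intro f' _ hf'
      rw [if_neg fun h => hf' (Fin.castSucc_injective _ h)]
    · intro h; exact absurd (Finset.mem_univ _) h

theorem tail_zero' (ha : Exps a) (hk : ∀ f : Fin n, (e : ℕ) ≤ f → kap a e t z f = 0)
    {i : Fin (n + 1)} (hi : (e : ℕ) + 2 ≤ i) : z i = 0 :=
  tail_zero ha hk (n - i) i (by have := i.2; omega) hi

theorem y_case (ha : Exps a) (hk : ∀ f : Fin n, (e : ℕ) ≤ f → kap a e t z f = 0) :
    z e.succ = 0 ∨ (t : ℂ) * (((a e.succ + 1 : ℕ) : ℂ) * z e.succ) = (a e.succ : ℂ) * z e.castSucc := by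
  have h1 := hk e le_rfl
  rw [kap, if_pos rfl, Finset.sum_eq_zero, add_zero] at h1
  swap
  · intro f' _
    split_ifs with h
    · have h3 := congrArg (fun i : Fin (n + 1) => (i : ℕ)) h
      simp at h3
      rw [tail_zero' ha hk (by simp; omega : (e : ℕ) + 2 ≤ ((f'.succ : Fin (n + 1)) : ℕ)),
        zero_pow (by have := ha.two f'.succ; omega)]
    · rfl
  have h2 : z e.succ ^ a e.succ = z e.succ ^ (a e.succ - 1) * z e.succ := by
    rw [← pow_succ]
    congr 1
    have := ha.two e.succ
    omega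
  rw [h2] at h1
  have h3 : z e.succ ^ (a e.succ - 1) * ((t : ℂ) * (((a e.succ + 1 : ℕ) : ℂ) * z e.succ) -
      (a e.succ : ℂ) * z e.castSucc) = 0 := by
    linear_combination h1
  rcases mul_eq_zero.1 h3 with h4 | h4
  · exact Or.inl (pow_eq_zero_iff (by have := ha.two e.succ; omega) |>.1 h4)
  · exact Or.inr (sub_eq_zero.1 h4)

/-! ### transfer to the reduced function -/

/-- the first variables -/
def cutz (e : Fin n) (z : Fin (n + 1) → ℂ) (i : Fin (n + 1)) : ℂ := if (i : ℕ) ≤ e then z i else 0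

theorem cut_le {i : Fin (n + 1)} (h : (i : ℕ) ≤ e) : cutz e z i = z i := if_pos h

theorem cut_gt {i : Fin (n + 1)} (h : (e : ℕ) < i) : cutz e z i = 0 := if_neg (not_le.2 h)

theorem f_cases (e f : Fin n) : (f : ℕ) < e ∨ f = e ∨ (e : ℕ) < f := by
  rcases lt_trichotomy (f : ℕ) e with h | h | h
  · exact Or.inl h
  · exact Or.inr (Or.inl (Fin.ext h))
  · exact Or.inr (Or.inr h)

theorem transfer_val (ha : Exps a) (hX : X.Al a e (a e.succ + 1) 1) {K : ℝ}
    (hz : ∀ i : Fin (n + 1), (e : ℕ) + 2 ≤ i → z i = 0)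
    (hK : (t : ℂ) * z e.succ ^ (a e.succ + 1) - z e.castSucc * z e.succ ^ a e.succ =
      -((K : ℂ) * z e.castSucc ^ (a e.succ + 1))) :
    PF X a e t z = lobB (VP X e K (a e.succ + 1))
      (prodB Fin.castSucc Fin.succ (Vg X e) (Vh X e)) (cutz e z) := by
  have hA : ∀ i, PQ X a e t i (z i) = VP X e K (a e.succ + 1) i (cutz e z i) +
      ((if i = e.castSucc then (K : ℂ) * z e.castSucc ^ (a e.succ + 1) else 0) +
        (if i = e.succ then (t : ℂ) * z e.succ ^ (a e.succ + 1) else 0)) := by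
    intro i
    rcases i_cases e i with h | h | h
    · have h0 : i ≠ e.succ := by rintro rfl; simp at h
      rw [PQ_le X a t h, cut_le h, if_neg h0, add_zero]
      rcases h.lt_or_eq with h1 | h1
      · rw [VP_lt X K _ h1, if_neg (by rintro rfl; simp at h1), add_zero]
      · have h2 : i = e.castSucc := Fin.ext (by simpa using h1)
        subst h2
        rw [VP_at, if_pos rfl]
        ring
    · subst h
      rw [PQ_succ, VP_gt X K _ (by simp), if_neg (Fin.castSucc_lt_succ).ne', if_pos rfl]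
      simp
    · rw [PQ_gt X a t h, VP_gt X K _ (by omega), if_neg (by rintro rfl; simp at h),
        if_neg (by rintro rfl; simp at h)]
      simp
  have hB : ∀ f : Fin n, Pg X e f (z f.castSucc) * Ph X a e f (z f.succ) =
      ((Vg X e f (cutz e z f.castSucc) * Vh X e f (cutz e z f.succ) : ℝ) : ℂ) +
        (if f = e then z e.castSucc * z e.succ ^ a e.succ else 0) := by
    intro f
    rcases f_cases e f with h | h | h
    · rw [Pg_lt X h, Ph_lt X a h, Vg, Vh, if_pos h, if_pos h, cut_le (by simpa using h.le),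
        cut_le (by simpa using h), if_neg (by rintro rfl; exact lt_irrefl _ h)]
      push_cast
      ring
    · subst h
      rw [Pg_ge X le_rfl, Ph_ge X a le_rfl, Vg, Vh, if_neg (lt_irrefl _), if_pos rfl]
      simp
    · rw [Pg_ge X h.le, Ph_ge X a h.le, Vg, Vh, if_neg (by omega), if_neg (by omega),
        if_neg (by rintro rfl; exact lt_irrefl _ h)]
      have h2 : a f.succ ≠ 0 := by have := ha.two f.succ; omega
      show z f.castSucc * z f.succ ^ a f.succ = _
      rw [hz f.succ (by simp; omega), zero_pow h2]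
      simp
  unfold PF GF lobB prodB
  simp only [hA, hB, Finset.sum_add_distrib, Finset.sum_ite_eq', Finset.mem_univ, if_true]
  rw [Complex.ofReal_sum]
  linear_combination hK

theorem transfer_der (hX : X.Al a e (a e.succ + 1) 1) {K : ℝ}
    (hK : z e.succ ^ a e.succ = (K : ℂ) * (((a e.succ + 1 : ℕ) : ℂ) * z e.castSucc ^ a e.succ))
    (v : Fin (n + 1) → ℂ) :
    fderiv ℝ (PF X a e t) z (cutz e v) = fderiv ℝ (lobB (VP X e K (a e.succ + 1))
      (prodB Fin.castSucc Fin.succ (Vg X e) (Vh X e))) (cutz e z) v := by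
  have hok := hX.ok
  have hA : ∀ i, fderiv ℝ (PQ X a e t i) (z i) (cutz e v i) =
      fderiv ℝ (VP X e K (a e.succ + 1) i) (cutz e z i) (v i) +
      (if i = e.castSucc then z e.succ ^ a e.succ * v e.castSucc else 0) := by
    intro i
    rcases i_cases e i with h | h | h
    · rw [PQ_le X a t h, cut_le h, cut_le h]
      rcases h.lt_or_eq with h1 | h1
      · rw [VP_lt X K _ h1, if_neg (by rintro rfl; simp at h1), add_zero]
      · have h2 : i = e.castSucc := Fin.ext (by simpa using h1)
        subst h2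
        have h3 := (Q_diff hok h (z e.castSucc)).hasFDerivAt
        have h4 : HasFDerivAt (fun x : ℂ => (K : ℂ) * x ^ (a e.succ + 1)) _ (z e.castSucc) :=
          (DifferentiableAt.hasFDerivAt (𝕜 := ℝ) (by fun_prop))
        rw [VP_at, if_pos rfl, (h3.fun_sub h4).fderiv, _root_.sub_apply, hasFDerivAt_pow',
          Nat.add_sub_cancel, hK]
        ring
    · subst h
      rw [cut_gt (by simp), VP_gt X K _ (by simp), if_neg (Fin.castSucc_lt_succ).ne']
      simp
    · rw [cut_gt (by omega), VP_gt X K _ (by omega), if_neg (by rintro rfl; simp at h)]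
      simp
  have hB : ∀ f : Fin n, (Pg X e f (z f.castSucc) *
        fderiv ℝ (Ph X a e f) (z f.succ) (cutz e v f.succ) +
        Ph X a e f (z f.succ) * fderiv ℝ (Pg X e f) (z f.castSucc) (cutz e v f.castSucc)) =
      ((Vg X e f (cutz e z f.castSucc) * fderiv ℝ (Vh X e f) (cutz e z f.succ) (v f.succ) +
        Vh X e f (cutz e z f.succ) * fderiv ℝ (Vg X e f) (cutz e z f.castSucc) (v f.castSucc) :
          ℝ) : ℂ) + (if f = e then z e.succ ^ a e.succ * v e.castSucc else 0) := by
    intro f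
    rcases f_cases e f with h | h | h
    · have h1 : ((f.castSucc : Fin (n + 1)) : ℕ) ≤ e := by simpa using h.le
      have h2 : ((f.succ : Fin (n + 1)) : ℕ) ≤ e := by simpa using h
      rw [Pg_lt X h, Ph_lt X a h, Vg, Vh, if_pos h, if_pos h, cut_le h1, cut_le h2, cut_le h1,
        cut_le h2, if_neg (by rintro rfl; exact lt_irrefl _ h),
        (ofReal_fderiv (g_diff hok h _)).fderiv, (ofReal_fderiv (h_diff hok h _)).fderiv]
      simp only [ContinuousLinearMap.comp_apply, Complex.ofRealCLM_apply]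
      push_cast
      ring
    · subst h
      rw [Pg_ge X le_rfl, Ph_ge X a le_rfl, Vg, Vh, if_neg (lt_irrefl _), if_pos rfl,
        cut_gt (i := f.succ) (by simp), cut_le (i := f.castSucc) (z := v) (by simp), fderiv_id]
      simp
    · rw [Pg_ge X h.le, Ph_ge X a h.le, Vg, Vh, if_neg (by omega), if_neg (by omega),
        if_neg (by rintro rfl; exact lt_irrefl _ h), cut_gt (i := f.succ) (by simp; omega),
        cut_gt (i := f.castSucc) (z := v) (by simpa using h)]
      simp
  have h1 := (hasFDerivAt_lobB (P := VP X e K (a e.succ + 1))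
    (B := prodB Fin.castSucc Fin.succ (Vg X e) (Vh X e)) (z := cutz e z)
    (fun i => VP_diff hX K i _)
    (hasFDerivAt_prodB (fun f => Vg_diff hX f _) (fun f => Vh_diff hX f _)).differentiableAt).fderiv
  have h2 := (hasFDerivAt_prodB (src := Fin.castSucc) (tgt := Fin.succ) (z := cutz e z)
    (fun f => Vg_diff hX f _) (fun f => Vh_diff hX f _)).fderiv
  rw [h1, h2, fderiv_PF hok]
  simp only [_root_.sub_apply, _root_.sum_apply, ContinuousLinearMap.comp_apply, _root_.add_apply,
    _root_.smul_apply, ContinuousLinearMap.proj_apply, smul_eq_mul, Complex.ofRealCLM_apply]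
  simp only [hA, hB, Finset.sum_add_distrib (f := fun i => fderiv ℝ (VP X e K (a e.succ + 1) i)
    (cutz e z i) (v i)), Finset.sum_ite_eq', Finset.mem_univ, if_true]
  rw [Complex.ofReal_sum, Finset.sum_add_distrib, Finset.sum_ite_eq', if_pos (Finset.mem_univ _)]
  ring

/-! ### regularity of the path -/

/-- the case `y = 0` or `t > 0` -/
theorem reg_aux (ha : Exps a) (hX : X.Al a e (a e.succ + 1) 1) (hz : z ≠ 0)
    (hre : 0 ≤ (PF X a e t z).re) (hz0 : ∀ i : Fin (n + 1), (e : ℕ) + 2 ≤ i → z i = 0)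
    (hxy : z e.castSucc = 0 → z e.succ = 0) {K : ℝ} (hK : K = 0 ∨ 2 * X.ep e.castSucc < K)
    (h1 : (t : ℂ) * z e.succ ^ (a e.succ + 1) - z e.castSucc * z e.succ ^ a e.succ =
      -((K : ℂ) * z e.castSucc ^ (a e.succ + 1)))
    (h2 : z e.succ ^ a e.succ = (K : ℂ) * (((a e.succ + 1 : ℕ) : ℂ) * z e.castSucc ^ a e.succ)) :
    Function.Surjective (fderiv ℝ (PF X a e t) z) := by
  have hval := transfer_val ha hX hz0 h1
  have hcz : cutz e z ≠ 0 := by
    intro h0
    apply hz
    have h3 : ∀ i : Fin (n + 1), (i : ℕ) ≤ e → z i = 0 := fun i hi => by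
      rw [← cut_le (z := z) hi, h0]; rfl
    funext i
    rcases i_cases e i with h | h | h
    · exact h3 i h
    · rw [h]
      exact hxy (h3 _ (by simp))
    · exact hz0 i h
  have hred := redreg ha hX hK hcz (fun i hi => cut_gt hi) (by rw [← hval]; exact hre)
  intro b
  obtain ⟨v, hv⟩ := hred b
  exact ⟨cutz e v, by rw [transfer_der hX h2, hv]⟩

theorem fderiv_ofReal_zero {g : ℂ → ℝ} (hg : DifferentiableAt ℝ g 0) (h0 : fderiv ℝ g 0 = 0)
    (w : ℂ) : fderiv ℝ (fun z => (g z : ℂ)) 0 w = 0 := by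
  rw [(ofReal_fderiv hg).fderiv, h0]
  simp

/-- the case `t = 0`, `x = 0`, `y ≠ 0` -/
theorem reg_zero (hX : X.Ok a e) (t : ℝ) (hx : z e.castSucc = 0) (hy : z e.succ ≠ 0) :
    Function.Surjective (fderiv ℝ (PF X a e t) z) := by
  have h1 : ∀ w, fderiv ℝ (PF X a e t) z (Pi.single e.castSucc w) = -(z e.succ ^ a e.succ * w) := by
    intro w
    have hj : ((e.castSucc : Fin (n + 1)) : ℕ) ≤ e := by simp
    rw [fderiv_PF_single hX, PQ_le X a t hj, hx]
    have h2 : fderiv ℝ (X.Q e.castSucc) 0 = 0 :=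
      fderiv_pol_zero (hX.hD _ hj) (contDiff_const.mul (contDiff_cis.comp (hX.hph _ hj).smooth))
        ((hX.hph _ hj).deg.per _)
    rw [h2, Finset.sum_eq_single e]
    · rw [if_neg (Fin.castSucc_lt_succ).ne', if_pos rfl, Pg_ge X le_rfl, Ph_ge X a le_rfl,
        fderiv_id]
      simp
    · intro f _ hf
      rw [if_neg (show ¬ f.castSucc = e.castSucc from fun h => hf (Fin.castSucc_injective _ h)),
        add_zero]
      split_ifs with h3
      · have hf' : (f : ℕ) < e := by
          have h4 := congrArg (fun i : Fin (n + 1) => (i : ℕ)) h3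
          simp at h4
          omega
        have hfs : ((f.succ : Fin (n + 1)) : ℕ) ≤ e := by simpa using hf'
        rw [Ph_lt X a hf', fderiv_ofReal_zero (h_diff hX hf' 0), mul_zero]
        exact fderiv_pol_zero (hX.hm f hf') (comp_smooth (hX.hph _ hfs) (hX.hbet f hf'))
          (comp_per (hX.hph _ hfs).deg (hX.hbet f hf'))
      · rfl
    · intro h; exact absurd (Finset.mem_univ _) h
  intro b
  have h3 := pow_ne_zero (a e.succ) hy
  refine ⟨Pi.single e.castSucc (-(b / z e.succ ^ a e.succ)), ?_⟩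
  rw [h1]
  field_simp

theorem PF_reg (ha : Exps a) (hX : X.Al a e (a e.succ + 1) 1) (ht : t ∈ Icc (0 : ℝ) 1)
    (hz : z ≠ 0) (hre : 0 ≤ (PF X a e t z).re) :
    Function.Surjective (fderiv ℝ (PF X a e t) z) := by
  by_contra hns
  have hok := hX.ok
  have hk : ∀ f : Fin n, (e : ℕ) ≤ f → kap a e t z f = 0 := by
    intro f hf
    by_contra h
    refine hns fun b => ⟨Pi.single f.succ (b / kap a e t z f), ?_⟩
    rw [fderiv_tail hok t z hf]
    field_simp
  have hz0 : ∀ i : Fin (n + 1), (e : ℕ) + 2 ≤ i → z i = 0 := fun i hi => tail_zero' ha hk hi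
  have hA2 := ha.two e.succ
  by_cases hy : z e.succ = 0
  · refine hns (reg_aux ha hX hz hre hz0 (fun _ => hy) (K := 0) (Or.inl rfl) ?_ ?_)
    · rw [hy, zero_pow (by omega), zero_pow (by omega)]
      simp
    · rw [hy, zero_pow (by omega)]
      simp
  · have h1 := (y_case ha hk).resolve_left hy
    rcases ht.1.eq_or_lt with h0 | h0
    · -- `t = 0`
      rw [← h0, Complex.ofReal_zero, zero_mul] at h1
      have h2 : (a e.succ : ℂ) ≠ 0 := by exact_mod_cast (by omega : a e.succ ≠ 0)
      have h3 : z e.castSucc = 0 := (mul_eq_zero.1 h1.symm).resolve_left h2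
      exact hns (reg_zero hok t h3 hy)
    · -- `t > 0`
      have hA : (0 : ℝ) < a e.succ := by exact_mod_cast (by omega : 0 < a e.succ)
      have hd : (0 : ℝ) < ((a e.succ + 1 : ℕ) : ℝ) := by positivity
      set A : ℝ := ((a e.succ : ℕ) : ℝ) with hAd
      set d : ℝ := ((a e.succ + 1 : ℕ) : ℝ) with hdd
      have hdA : d = A + 1 := by rw [hdd, hAd]; push_cast; ring
      set q : ℝ := A / (t * d) with hq
      have htd : 0 < t * d := mul_pos h0 hd
      have hyx : z e.succ = (q : ℂ) * z e.castSucc := by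
        have h2 : ((t * d : ℝ) : ℂ) ≠ 0 := by exact_mod_cast htd.ne'
        have h3 : ((t * d : ℝ) : ℂ) * z e.succ = (A : ℂ) * z e.castSucc := by
          rw [hAd, hdd]
          push_cast
          rw [← h1]
          push_cast
          ring
        rw [hq, Complex.ofReal_div, div_mul_eq_mul_div, eq_div_iff h2, ← h3]
        ring
      have hqt : (t : ℂ) * (q : ℂ) - 1 = -(1 / (d : ℂ)) := by
        have h2 : t * q - 1 = -(1 / d) := by
          rw [hq]
          field_simp
          rw [hdA]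
          ring
        exact_mod_cast congrArg (fun x : ℝ => (x : ℂ)) h2
      have hdc : ((a e.succ + 1 : ℕ) : ℂ) = (d : ℂ) := by
        rw [hdd]
        push_cast
        ring
      have hdc0 : (d : ℂ) ≠ 0 := by exact_mod_cast hd.ne'
      refine hns (reg_aux ha hX hz hre hz0 (fun hx => by rw [hyx, hx, mul_zero])
        (K := 1 / d * q ^ a e.succ) (Or.inr ?_) ?_ ?_)
      · have h2 := hX.ep e.castSucc (by simp)
        rw [Nat.add_sub_cancel, ← hdd, show d - 1 = A by rw [hdA]; ring] at h2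
        refine h2.trans_le ?_
        refine mul_le_mul_of_nonneg_left ?_ (by positivity)
        refine pow_le_pow_left₀ (by positivity) ?_ _
        rw [hq]
        refine div_le_div_of_nonneg_left hA.le htd ?_
        nlinarith [ht.2]
      · rw [hyx]
        push_cast
        rw [mul_pow, mul_pow, pow_succ, pow_succ]
        linear_combination ((q : ℂ) ^ a e.succ * z e.castSucc ^ a e.succ * z e.castSucc) * hqt
      · rw [hyx, hdc]
        push_cast
        rw [mul_pow]
        field_simp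

end

/-! ### the step -/

theorem PF_smooth {X : LD n} {e : Fin n} (hX : X.Ok a e) :
    ContDiff ℝ 2 fun p : ℝ × (Fin (n + 1) → ℂ) => PF X a e p.1 p.2 := by
  have hc : ∀ i : Fin (n + 1), ContDiff ℝ 2 fun p : ℝ × (Fin (n + 1) → ℂ) => p.2 i := fun i => by
    fun_prop
  have ht : ContDiff ℝ 2 fun p : ℝ × (Fin (n + 1) → ℂ) => (p.1 : ℂ) :=
    Complex.ofRealCLM.contDiff.comp contDiff_fst
  unfold PF GF
  refine ContDiff.sub (ContDiff.sum fun i _ => ?_) (ContDiff.sum fun f _ => ContDiff.mul ?_ ?_)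
  · rcases i_cases e i with h | h | h
    · have h1 : (fun p : ℝ × (Fin (n + 1) → ℂ) => PQ X a e p.1 i (p.2 i)) =
          fun p => X.Q i (p.2 i) := funext fun p => by rw [PQ_le X a _ h]
      rw [h1]
      exact (Q_contDiff hX h).comp (hc i)
    · subst h
      have h1 : (fun p : ℝ × (Fin (n + 1) → ℂ) => PQ X a e p.1 e.succ (p.2 e.succ)) =
          fun p => (p.1 : ℂ) * (p.2 e.succ) ^ (a e.succ + 1) := funext fun p => by rw [PQ_succ]
      rw [h1]
      exact ht.mul ((hc _).pow _)
    · have h1 : (fun p : ℝ × (Fin (n + 1) → ℂ) => PQ X a e p.1 i (p.2 i)) =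
          fun p => 0 := funext fun p => by rw [PQ_gt X a _ h]; rfl
      rw [h1]
      exact contDiff_const
  · rcases lt_or_ge (f : ℕ) e with h | h
    · rw [Pg_lt X h]
      exact Complex.ofRealCLM.contDiff.comp ((g_contDiff hX h).comp (hc _))
    · rw [Pg_ge X h]
      exact hc _
  · rcases lt_or_ge (f : ℕ) e with h | h
    · rw [Ph_lt X a h]
      exact Complex.ofRealCLM.contDiff.comp ((h_contDiff hX h).comp (hc _))
    · rw [Ph_ge X a h]
      exact (hc _).pow _

theorem PF_wh (ha : Exps a) {X : LD n} {e : Fin n} (hX : X.Al a e (a e.succ + 1) 1) (t : ℝ) :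
    ∃ w : Fin (n + 1) → ℝ, (∀ i, 0 < w i) ∧ WH w (PF X a e t) := by
  have hA : (2 : ℝ) ≤ a e.succ := by exact_mod_cast ha.two e.succ
  obtain ⟨w, hw, -, -, hwh⟩ := S2_843.wh_mid (a := a) (X := X) (e := e) ha.two hX.ok
    (Y := fun y => (t : ℂ) * y ^ (a e.succ + 1)) (η := id) (H := fun y => y ^ a e.succ)
    (wy := 1 / ((a e.succ : ℝ) + 1)) (by positivity)
    (by rw [div_lt_one (by positivity)]; linarith)
    (by
      intro s y
      show (t : ℂ) * ((Real.exp (s * (1 / ((a e.succ : ℝ) + 1))) : ℂ) * y) ^ (a e.succ + 1) =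
        Real.exp s • ((t : ℂ) * y ^ (a e.succ + 1))
      rw [mul_pow, ← Complex.ofReal_pow, ← Real.exp_nat_mul, Complex.real_smul]
      have h1 : ((a e.succ + 1 : ℕ) : ℝ) * (s * (1 / ((a e.succ : ℝ) + 1))) = s := by
        push_cast
        field_simp
      rw [h1]
      ring)
    (by
      intro s x y
      show ((Real.exp (s * (1 / X.D e.castSucc)) : ℂ) * x) *
        ((Real.exp (s * (1 / ((a e.succ : ℝ) + 1))) : ℂ) * y) ^ a e.succ =
        Real.exp s • (x * y ^ a e.succ)
      rw [hX.deg _ (by simp), mul_pow, ← Complex.ofReal_pow, ← Real.exp_nat_mul,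
        Complex.real_smul]
      have h4 : Real.exp (s * (1 / (((a e.succ + 1 : ℕ) : ℝ) * 1))) *
          Real.exp ((a e.succ : ℝ) * (s * (1 / ((a e.succ : ℝ) + 1)))) = Real.exp s := by
        rw [← Real.exp_add]
        congr 1
        push_cast
        field_simp
        ring
      rw [← h4]
      push_cast
      ring)
  exact ⟨w, hw, hwh⟩

/-- **S1** -/
theorem s1 (ha : Exps a) (e : Fin n) : S1P a e := by
  intro X hX
  have hp : HPath fun p : ℝ × (Fin (n + 1) → ℂ) => PF X a e p.1 p.2 :=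
    HPath.of_slices isOpen_univ (subset_univ _) (PF_smooth hX.ok).contDiffOn
      (fun t _ => PF_wh ha hX t) fun t ht z hz hre => PF_reg ha hX ht hz hre
  have h1 := hp.seq
  have e0 : (fun x => PF X a e 0 x) = X.st a e := by
    have hQ : PQ X a e 0 = fun i : Fin (n + 1) => if (i : ℕ) ≤ e then X.Q i else 0 := by
      funext i
      rcases i_cases e i with h | h | h
      · rw [PQ_le X a _ h, if_pos h]
      · subst h
        rw [PQ_succ, if_neg (by simp)]
        funext y
        simp
      · rw [PQ_gt X a _ h, if_neg (by omega)]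
    have hg : Pg X e = fun f : Fin n => if (f : ℕ) < e then (fun z => (X.g f z : ℂ)) else id := by
      funext f
      rcases lt_or_ge (f : ℕ) e with h | h
      · rw [Pg_lt X h, if_pos h]
      · rw [Pg_ge X h, if_neg (by omega)]
    have hh : Ph X a e = fun f : Fin n => if (f : ℕ) < e then (fun z => (X.h f z : ℂ)) else
        fun z => z ^ a f.succ := by
      funext f
      rcases lt_or_ge (f : ℕ) e with h | h
      · rw [Ph_lt X a h, if_pos h]
      · rw [Ph_ge X a h, if_neg (by omega)]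
    show PF X a e 0 = _
    unfold PF LD.st
    rw [hQ, hg, hh]
  have e1 : (fun x => PF X a e 1 x) =
      X.mid a e (fun y => y ^ (a e.succ + 1)) id fun y => y ^ a e.succ := by
    show PF X a e 1 = _
    rw [← PF_mid, Complex.ofReal_one]
    simp only [one_mul]
  rw [← e0, ← e1]
  exact h1

end Crest.Agent.R267.S1_326
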