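import Crest.Agent.R267.S3_82
import Crest.Agent.R267.RedP_951

/-!
# Row 267 (helper82): step S3 of T3b (`S3P`), unconditional
-/

set_option autoImplicit false

namespace Crest.Agent.R267.S3Fin_82

open Crest.Agent.R267.LobeDefs_407

/-- **STEP S3** -/
theorem s3P {n : ℕ} {a : Fin (n + 1) → ℕ} (ha : Exps a) (e : Fin n) : S3P a e :=
  S3_82.s3_of_red ha e (Crest.Agent.R267.RedP_951.redP ha.two e)

end Crest.Agent.R267.S3Fin_82
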