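import Crest.Agent.R267.Gl2Fin_322
import Crest.Agent.R267.K2_996

/-!
# Row 267 (helper322): S0407 from `T3aP` alone
-/

set_option autoImplicit false

namespace Crest.Agent.R267.S407_322

open Crest.Agent.R267.T3aDefs_957 Crest.Agent.R267.GlueDefs_322

/-- **K2** for `N at least 3`, unconditional. -/
theorem k2 {N : ℕ} (hN : 3 ≤ N) (D : LD N) : D.K2Prop :=
  K2_996.k2 D hN (Smooth_957.smooth D)

/-- **GL2**, unconditional for `N at least 3`. -/
theorem gl2 {N : ℕ} (hN : 3 ≤ N) (D : LD N) : GL2P D := Gl2Fin_322.gl2 D (k2 hN D)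

/-- **S0407 from T3a alone** -/
theorem s0407 (h3 : ∀ n, 1 ≤ n → ∀ D : LD (n + 3), T3aP D) : Asm_808.S0407Stmt :=
  Gl2Fin_322.s0407 (fun n _ D => k2 (by omega) D) h3

end Crest.Agent.R267.S407_322
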