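import Crest.Agent.R267.S6D_95

/-! Certificate of `S0406`: rows 0 to 174 of `A_g * U = W`. -/

set_option autoImplicit false
set_option maxRecDepth 100000
set_option Elab.async false

namespace Crest.Agent.R267.S6A1_95

open Crest.Agent.R267.EngK_95 Crest.Agent.R267.S6C_95 Crest.Agent.R267.S6D_95

theorem c0 : lall aChk (List.range' 0 5) = true := by decide +kernel
theorem c5 : lall aChk (List.range' 5 5) = true := by decide +kernel
theorem c10 : lall aChk (List.range' 10 5) = true := by decide +kernel
theorem c15 : lall aChk (List.range' 15 5) = true := by decide +kernel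
theorem c20 : lall aChk (List.range' 20 5) = true := by decide +kernel
theorem c25 : lall aChk (List.range' 25 5) = true := by decide +kernel
theorem c30 : lall aChk (List.range' 30 5) = true := by decide +kernel
theorem c35 : lall aChk (List.range' 35 5) = true := by decide +kernel
theorem c40 : lall aChk (List.range' 40 5) = true := by decide +kernel
theorem c45 : lall aChk (List.range' 45 5) = true := by decide +kernel
theorem c50 : lall aChk (List.range' 50 5) = true := by decide +kernel
theorem c55 : lall aChk (List.range' 55 5) = true := by decide +kernel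
theorem c60 : lall aChk (List.range' 60 5) = true := by decide +kernel
theorem c65 : lall aChk (List.range' 65 5) = true := by decide +kernel
theorem c70 : lall aChk (List.range' 70 5) = true := by decide +kernel
theorem c75 : lall aChk (List.range' 75 5) = true := by decide +kernel
theorem c80 : lall aChk (List.range' 80 5) = true := by decide +kernel
theorem c85 : lall aChk (List.range' 85 5) = true := by decide +kernel
theorem c90 : lall aChk (List.range' 90 5) = true := by decide +kernel
theorem c95 : lall aChk (List.range' 95 5) = true := by decide +kernel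
theorem c100 : lall aChk (List.range' 100 5) = true := by decide +kernel
theorem c105 : lall aChk (List.range' 105 5) = true := by decide +kernel
theorem c110 : lall aChk (List.range' 110 5) = true := by decide +kernel
theorem c115 : lall aChk (List.range' 115 5) = true := by decide +kernel
theorem c120 : lall aChk (List.range' 120 5) = true := by decide +kernel
theorem c125 : lall aChk (List.range' 125 5) = true := by decide +kernel
theorem c130 : lall aChk (List.range' 130 5) = true := by decide +kernel
theorem c135 : lall aChk (List.range' 135 5) = true := by decide +kernel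
theorem c140 : lall aChk (List.range' 140 5) = true := by decide +kernel
theorem c145 : lall aChk (List.range' 145 5) = true := by decide +kernel
theorem c150 : lall aChk (List.range' 150 5) = true := by decide +kernel
theorem c155 : lall aChk (List.range' 155 5) = true := by decide +kernel
theorem c160 : lall aChk (List.range' 160 5) = true := by decide +kernel
theorem c165 : lall aChk (List.range' 165 5) = true := by decide +kernel
theorem c170 : lall aChk (List.range' 170 5) = true := by decide +kernel

theorem s0 : ∀ a, 0 ≤ a → a < 0 → aChk a = true := base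
theorem s5 : ∀ a, 0 ≤ a → a < 5 → aChk a = true := step s0 c0
theorem s10 : ∀ a, 0 ≤ a → a < 10 → aChk a = true := step s5 c5
theorem s15 : ∀ a, 0 ≤ a → a < 15 → aChk a = true := step s10 c10
theorem s20 : ∀ a, 0 ≤ a → a < 20 → aChk a = true := step s15 c15
theorem s25 : ∀ a, 0 ≤ a → a < 25 → aChk a = true := step s20 c20
theorem s30 : ∀ a, 0 ≤ a → a < 30 → aChk a = true := step s25 c25
theorem s35 : ∀ a, 0 ≤ a → a < 35 → aChk a = true := step s30 c30
theorem s40 : ∀ a, 0 ≤ a → a < 40 → aChk a = true := step s35 c35
theorem s45 : ∀ a, 0 ≤ a → a < 45 → aChk a = true := step s40 c40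
theorem s50 : ∀ a, 0 ≤ a → a < 50 → aChk a = true := step s45 c45
theorem s55 : ∀ a, 0 ≤ a → a < 55 → aChk a = true := step s50 c50
theorem s60 : ∀ a, 0 ≤ a → a < 60 → aChk a = true := step s55 c55
theorem s65 : ∀ a, 0 ≤ a → a < 65 → aChk a = true := step s60 c60
theorem s70 : ∀ a, 0 ≤ a → a < 70 → aChk a = true := step s65 c65
theorem s75 : ∀ a, 0 ≤ a → a < 75 → aChk a = true := step s70 c70
theorem s80 : ∀ a, 0 ≤ a → a < 80 → aChk a = true := step s75 c75
theorem s85 : ∀ a, 0 ≤ a → a < 85 → aChk a = true := step s80 c80
theorem s90 : ∀ a, 0 ≤ a → a < 90 → aChk a = true := step s85 c85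
theorem s95 : ∀ a, 0 ≤ a → a < 95 → aChk a = true := step s90 c90
theorem s100 : ∀ a, 0 ≤ a → a < 100 → aChk a = true := step s95 c95
theorem s105 : ∀ a, 0 ≤ a → a < 105 → aChk a = true := step s100 c100
theorem s110 : ∀ a, 0 ≤ a → a < 110 → aChk a = true := step s105 c105
theorem s115 : ∀ a, 0 ≤ a → a < 115 → aChk a = true := step s110 c110
theorem s120 : ∀ a, 0 ≤ a → a < 120 → aChk a = true := step s115 c115
theorem s125 : ∀ a, 0 ≤ a → a < 125 → aChk a = true := step s120 c120
theorem s130 : ∀ a, 0 ≤ a → a < 130 → aChk a = true := step s125 c125
theorem s135 : ∀ a, 0 ≤ a → a < 135 → aChk a = true := step s130 c130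
theorem s140 : ∀ a, 0 ≤ a → a < 140 → aChk a = true := step s135 c135
theorem s145 : ∀ a, 0 ≤ a → a < 145 → aChk a = true := step s140 c140
theorem s150 : ∀ a, 0 ≤ a → a < 150 → aChk a = true := step s145 c145
theorem s155 : ∀ a, 0 ≤ a → a < 155 → aChk a = true := step s150 c150
theorem s160 : ∀ a, 0 ≤ a → a < 160 → aChk a = true := step s155 c155
theorem s165 : ∀ a, 0 ≤ a → a < 165 → aChk a = true := step s160 c160
theorem s170 : ∀ a, 0 ≤ a → a < 170 → aChk a = true := step s165 c165
theorem s175 : ∀ a, 0 ≤ a → a < 175 → aChk a = true := step s170 c170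

theorem all : ∀ a, 0 ≤ a → a < 175 → aChk a = true := s175

end Crest.Agent.R267.S6A1_95
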