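import Crest.Agent.R267.S6D_95

/-! Certificate of `S0406`: rows 175 to 349 of `A_g * U = W`. -/

set_option autoImplicit false
set_option maxRecDepth 100000
set_option Elab.async false

namespace Crest.Agent.R267.S6A2_95

open Crest.Agent.R267.EngK_95 Crest.Agent.R267.S6C_95 Crest.Agent.R267.S6D_95

theorem c175 : lall aChk (List.range' 175 5) = true := by decide +kernel
theorem c180 : lall aChk (List.range' 180 5) = true := by decide +kernel
theorem c185 : lall aChk (List.range' 185 5) = true := by decide +kernel
theorem c190 : lall aChk (List.range' 190 5) = true := by decide +kernel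
theorem c195 : lall aChk (List.range' 195 5) = true := by decide +kernel
theorem c200 : lall aChk (List.range' 200 5) = true := by decide +kernel
theorem c205 : lall aChk (List.range' 205 5) = true := by decide +kernel
theorem c210 : lall aChk (List.range' 210 5) = true := by decide +kernel
theorem c215 : lall aChk (List.range' 215 5) = true := by decide +kernel
theorem c220 : lall aChk (List.range' 220 5) = true := by decide +kernel
theorem c225 : lall aChk (List.range' 225 5) = true := by decide +kernel
theorem c230 : lall aChk (List.range' 230 5) = true := by decide +kernel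
theorem c235 : lall aChk (List.range' 235 5) = true := by decide +kernel
theorem c240 : lall aChk (List.range' 240 5) = true := by decide +kernel
theorem c245 : lall aChk (List.range' 245 5) = true := by decide +kernel
theorem c250 : lall aChk (List.range' 250 5) = true := by decide +kernel
theorem c255 : lall aChk (List.range' 255 5) = true := by decide +kernel
theorem c260 : lall aChk (List.range' 260 5) = true := by decide +kernel
theorem c265 : lall aChk (List.range' 265 5) = true := by decide +kernel
theorem c270 : lall aChk (List.range' 270 5) = true := by decide +kernel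
theorem c275 : lall aChk (List.range' 275 5) = true := by decide +kernel
theorem c280 : lall aChk (List.range' 280 5) = true := by decide +kernel
theorem c285 : lall aChk (List.range' 285 5) = true := by decide +kernel
theorem c290 : lall aChk (List.range' 290 5) = true := by decide +kernel
theorem c295 : lall aChk (List.range' 295 5) = true := by decide +kernel
theorem c300 : lall aChk (List.range' 300 5) = true := by decide +kernel
theorem c305 : lall aChk (List.range' 305 5) = true := by decide +kernel
theorem c310 : lall aChk (List.range' 310 5) = true := by decide +kernel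
theorem c315 : lall aChk (List.range' 315 5) = true := by decide +kernel
theorem c320 : lall aChk (List.range' 320 5) = true := by decide +kernel
theorem c325 : lall aChk (List.range' 325 5) = true := by decide +kernel
theorem c330 : lall aChk (List.range' 330 5) = true := by decide +kernel
theorem c335 : lall aChk (List.range' 335 5) = true := by decide +kernel
theorem c340 : lall aChk (List.range' 340 5) = true := by decide +kernel
theorem c345 : lall aChk (List.range' 345 5) = true := by decide +kernel

theorem s175 : ∀ a, 175 ≤ a → a < 175 → aChk a = true := base
theorem s180 : ∀ a, 175 ≤ a → a < 180 → aChk a = true := step s175 c175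
theorem s185 : ∀ a, 175 ≤ a → a < 185 → aChk a = true := step s180 c180
theorem s190 : ∀ a, 175 ≤ a → a < 190 → aChk a = true := step s185 c185
theorem s195 : ∀ a, 175 ≤ a → a < 195 → aChk a = true := step s190 c190
theorem s200 : ∀ a, 175 ≤ a → a < 200 → aChk a = true := step s195 c195
theorem s205 : ∀ a, 175 ≤ a → a < 205 → aChk a = true := step s200 c200
theorem s210 : ∀ a, 175 ≤ a → a < 210 → aChk a = true := step s205 c205
theorem s215 : ∀ a, 175 ≤ a → a < 215 → aChk a = true := step s210 c210
theorem s220 : ∀ a, 175 ≤ a → a < 220 → aChk a = true := step s215 c215
theorem s225 : ∀ a, 175 ≤ a → a < 225 → aChk a = true := step s220 c220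
theorem s230 : ∀ a, 175 ≤ a → a < 230 → aChk a = true := step s225 c225
theorem s235 : ∀ a, 175 ≤ a → a < 235 → aChk a = true := step s230 c230
theorem s240 : ∀ a, 175 ≤ a → a < 240 → aChk a = true := step s235 c235
theorem s245 : ∀ a, 175 ≤ a → a < 245 → aChk a = true := step s240 c240
theorem s250 : ∀ a, 175 ≤ a → a < 250 → aChk a = true := step s245 c245
theorem s255 : ∀ a, 175 ≤ a → a < 255 → aChk a = true := step s250 c250
theorem s260 : ∀ a, 175 ≤ a → a < 260 → aChk a = true := step s255 c255
theorem s265 : ∀ a, 175 ≤ a → a < 265 → aChk a = true := step s260 c260
theorem s270 : ∀ a, 175 ≤ a → a < 270 → aChk a = true := step s265 c265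
theorem s275 : ∀ a, 175 ≤ a → a < 275 → aChk a = true := step s270 c270
theorem s280 : ∀ a, 175 ≤ a → a < 280 → aChk a = true := step s275 c275
theorem s285 : ∀ a, 175 ≤ a → a < 285 → aChk a = true := step s280 c280
theorem s290 : ∀ a, 175 ≤ a → a < 290 → aChk a = true := step s285 c285
theorem s295 : ∀ a, 175 ≤ a → a < 295 → aChk a = true := step s290 c290
theorem s300 : ∀ a, 175 ≤ a → a < 300 → aChk a = true := step s295 c295
theorem s305 : ∀ a, 175 ≤ a → a < 305 → aChk a = true := step s300 c300
theorem s310 : ∀ a, 175 ≤ a → a < 310 → aChk a = true := step s305 c305
theorem s315 : ∀ a, 175 ≤ a → a < 315 → aChk a = true := step s310 c310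
theorem s320 : ∀ a, 175 ≤ a → a < 320 → aChk a = true := step s315 c315
theorem s325 : ∀ a, 175 ≤ a → a < 325 → aChk a = true := step s320 c320
theorem s330 : ∀ a, 175 ≤ a → a < 330 → aChk a = true := step s325 c325
theorem s335 : ∀ a, 175 ≤ a → a < 335 → aChk a = true := step s330 c330
theorem s340 : ∀ a, 175 ≤ a → a < 340 → aChk a = true := step s335 c335
theorem s345 : ∀ a, 175 ≤ a → a < 345 → aChk a = true := step s340 c340
theorem s350 : ∀ a, 175 ≤ a → a < 350 → aChk a = true := step s345 c345

theorem all : ∀ a, 175 ≤ a → a < 350 → aChk a = true := s350

end Crest.Agent.R267.S6A2_95
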