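import Crest.Agent.R267.S6D_95

/-! Certificate of `S0406`: rows 525 to 699 of `A_g * U = W`. -/

set_option autoImplicit false
set_option maxRecDepth 100000
set_option Elab.async false

namespace Crest.Agent.R267.S6A4_95

open Crest.Agent.R267.EngK_95 Crest.Agent.R267.S6C_95 Crest.Agent.R267.S6D_95

theorem c525 : lall aChk (List.range' 525 5) = true := by decide +kernel
theorem c530 : lall aChk (List.range' 530 5) = true := by decide +kernel
theorem c535 : lall aChk (List.range' 535 5) = true := by decide +kernel
theorem c540 : lall aChk (List.range' 540 5) = true := by decide +kernel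
theorem c545 : lall aChk (List.range' 545 5) = true := by decide +kernel
theorem c550 : lall aChk (List.range' 550 5) = true := by decide +kernel
theorem c555 : lall aChk (List.range' 555 5) = true := by decide +kernel
theorem c560 : lall aChk (List.range' 560 5) = true := by decide +kernel
theorem c565 : lall aChk (List.range' 565 5) = true := by decide +kernel
theorem c570 : lall aChk (List.range' 570 5) = true := by decide +kernel
theorem c575 : lall aChk (List.range' 575 5) = true := by decide +kernel
theorem c580 : lall aChk (List.range' 580 5) = true := by decide +kernel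
theorem c585 : lall aChk (List.range' 585 5) = true := by decide +kernel
theorem c590 : lall aChk (List.range' 590 5) = true := by decide +kernel
theorem c595 : lall aChk (List.range' 595 5) = true := by decide +kernel
theorem c600 : lall aChk (List.range' 600 5) = true := by decide +kernel
theorem c605 : lall aChk (List.range' 605 5) = true := by decide +kernel
theorem c610 : lall aChk (List.range' 610 5) = true := by decide +kernel
theorem c615 : lall aChk (List.range' 615 5) = true := by decide +kernel
theorem c620 : lall aChk (List.range' 620 5) = true := by decide +kernel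
theorem c625 : lall aChk (List.range' 625 5) = true := by decide +kernel
theorem c630 : lall aChk (List.range' 630 5) = true := by decide +kernel
theorem c635 : lall aChk (List.range' 635 5) = true := by decide +kernel
theorem c640 : lall aChk (List.range' 640 5) = true := by decide +kernel
theorem c645 : lall aChk (List.range' 645 5) = true := by decide +kernel
theorem c650 : lall aChk (List.range' 650 5) = true := by decide +kernel
theorem c655 : lall aChk (List.range' 655 5) = true := by decide +kernel
theorem c660 : lall aChk (List.range' 660 5) = true := by decide +kernel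
theorem c665 : lall aChk (List.range' 665 5) = true := by decide +kernel
theorem c670 : lall aChk (List.range' 670 5) = true := by decide +kernel
theorem c675 : lall aChk (List.range' 675 5) = true := by decide +kernel
theorem c680 : lall aChk (List.range' 680 5) = true := by decide +kernel
theorem c685 : lall aChk (List.range' 685 5) = true := by decide +kernel
theorem c690 : lall aChk (List.range' 690 5) = true := by decide +kernel
theorem c695 : lall aChk (List.range' 695 5) = true := by decide +kernel

theorem s525 : ∀ a, 525 ≤ a → a < 525 → aChk a = true := base
theorem s530 : ∀ a, 525 ≤ a → a < 530 → aChk a = true := step s525 c525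
theorem s535 : ∀ a, 525 ≤ a → a < 535 → aChk a = true := step s530 c530
theorem s540 : ∀ a, 525 ≤ a → a < 540 → aChk a = true := step s535 c535
theorem s545 : ∀ a, 525 ≤ a → a < 545 → aChk a = true := step s540 c540
theorem s550 : ∀ a, 525 ≤ a → a < 550 → aChk a = true := step s545 c545
theorem s555 : ∀ a, 525 ≤ a → a < 555 → aChk a = true := step s550 c550
theorem s560 : ∀ a, 525 ≤ a → a < 560 → aChk a = true := step s555 c555
theorem s565 : ∀ a, 525 ≤ a → a < 565 → aChk a = true := step s560 c560
theorem s570 : ∀ a, 525 ≤ a → a < 570 → aChk a = true := step s565 c565
theorem s575 : ∀ a, 525 ≤ a → a < 575 → aChk a = true := step s570 c570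
theorem s580 : ∀ a, 525 ≤ a → a < 580 → aChk a = true := step s575 c575
theorem s585 : ∀ a, 525 ≤ a → a < 585 → aChk a = true := step s580 c580
theorem s590 : ∀ a, 525 ≤ a → a < 590 → aChk a = true := step s585 c585
theorem s595 : ∀ a, 525 ≤ a → a < 595 → aChk a = true := step s590 c590
theorem s600 : ∀ a, 525 ≤ a → a < 600 → aChk a = true := step s595 c595
theorem s605 : ∀ a, 525 ≤ a → a < 605 → aChk a = true := step s600 c600
theorem s610 : ∀ a, 525 ≤ a → a < 610 → aChk a = true := step s605 c605
theorem s615 : ∀ a, 525 ≤ a → a < 615 → aChk a = true := step s610 c610
theorem s620 : ∀ a, 525 ≤ a → a < 620 → aChk a = true := step s615 c615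
theorem s625 : ∀ a, 525 ≤ a → a < 625 → aChk a = true := step s620 c620
theorem s630 : ∀ a, 525 ≤ a → a < 630 → aChk a = true := step s625 c625
theorem s635 : ∀ a, 525 ≤ a → a < 635 → aChk a = true := step s630 c630
theorem s640 : ∀ a, 525 ≤ a → a < 640 → aChk a = true := step s635 c635
theorem s645 : ∀ a, 525 ≤ a → a < 645 → aChk a = true := step s640 c640
theorem s650 : ∀ a, 525 ≤ a → a < 650 → aChk a = true := step s645 c645
theorem s655 : ∀ a, 525 ≤ a → a < 655 → aChk a = true := step s650 c650
theorem s660 : ∀ a, 525 ≤ a → a < 660 → aChk a = true := step s655 c655
theorem s665 : ∀ a, 525 ≤ a → a < 665 → aChk a = true := step s660 c660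
theorem s670 : ∀ a, 525 ≤ a → a < 670 → aChk a = true := step s665 c665
theorem s675 : ∀ a, 525 ≤ a → a < 675 → aChk a = true := step s670 c670
theorem s680 : ∀ a, 525 ≤ a → a < 680 → aChk a = true := step s675 c675
theorem s685 : ∀ a, 525 ≤ a → a < 685 → aChk a = true := step s680 c680
theorem s690 : ∀ a, 525 ≤ a → a < 690 → aChk a = true := step s685 c685
theorem s695 : ∀ a, 525 ≤ a → a < 695 → aChk a = true := step s690 c690
theorem s700 : ∀ a, 525 ≤ a → a < 700 → aChk a = true := step s695 c695

theorem all : ∀ a, 525 ≤ a → a < 700 → aChk a = true := s700

end Crest.Agent.R267.S6A4_95
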