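import Crest.Agent.R267.S6D_95

/-! Certificate of `S0406`: rows 1400 to 1574 of `A_g * U = W`. -/

set_option autoImplicit false
set_option maxRecDepth 100000
set_option Elab.async false

namespace Crest.Agent.R267.S6A9_95

open Crest.Agent.R267.EngK_95 Crest.Agent.R267.S6C_95 Crest.Agent.R267.S6D_95

theorem c1400 : lall aChk (List.range' 1400 5) = true := by decide +kernel
theorem c1405 : lall aChk (List.range' 1405 5) = true := by decide +kernel
theorem c1410 : lall aChk (List.range' 1410 5) = true := by decide +kernel
theorem c1415 : lall aChk (List.range' 1415 5) = true := by decide +kernel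
theorem c1420 : lall aChk (List.range' 1420 5) = true := by decide +kernel
theorem c1425 : lall aChk (List.range' 1425 5) = true := by decide +kernel
theorem c1430 : lall aChk (List.range' 1430 5) = true := by decide +kernel
theorem c1435 : lall aChk (List.range' 1435 5) = true := by decide +kernel
theorem c1440 : lall aChk (List.range' 1440 5) = true := by decide +kernel
theorem c1445 : lall aChk (List.range' 1445 5) = true := by decide +kernel
theorem c1450 : lall aChk (List.range' 1450 5) = true := by decide +kernel
theorem c1455 : lall aChk (List.range' 1455 5) = true := by decide +kernel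
theorem c1460 : lall aChk (List.range' 1460 5) = true := by decide +kernel
theorem c1465 : lall aChk (List.range' 1465 5) = true := by decide +kernel
theorem c1470 : lall aChk (List.range' 1470 5) = true := by decide +kernel
theorem c1475 : lall aChk (List.range' 1475 5) = true := by decide +kernel
theorem c1480 : lall aChk (List.range' 1480 5) = true := by decide +kernel
theorem c1485 : lall aChk (List.range' 1485 5) = true := by decide +kernel
theorem c1490 : lall aChk (List.range' 1490 5) = true := by decide +kernel
theorem c1495 : lall aChk (List.range' 1495 5) = true := by decide +kernel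
theorem c1500 : lall aChk (List.range' 1500 5) = true := by decide +kernel
theorem c1505 : lall aChk (List.range' 1505 5) = true := by decide +kernel
theorem c1510 : lall aChk (List.range' 1510 5) = true := by decide +kernel
theorem c1515 : lall aChk (List.range' 1515 5) = true := by decide +kernel
theorem c1520 : lall aChk (List.range' 1520 5) = true := by decide +kernel
theorem c1525 : lall aChk (List.range' 1525 5) = true := by decide +kernel
theorem c1530 : lall aChk (List.range' 1530 5) = true := by decide +kernel
theorem c1535 : lall aChk (List.range' 1535 5) = true := by decide +kernel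
theorem c1540 : lall aChk (List.range' 1540 5) = true := by decide +kernel
theorem c1545 : lall aChk (List.range' 1545 5) = true := by decide +kernel
theorem c1550 : lall aChk (List.range' 1550 5) = true := by decide +kernel
theorem c1555 : lall aChk (List.range' 1555 5) = true := by decide +kernel
theorem c1560 : lall aChk (List.range' 1560 5) = true := by decide +kernel
theorem c1565 : lall aChk (List.range' 1565 5) = true := by decide +kernel
theorem c1570 : lall aChk (List.range' 1570 5) = true := by decide +kernel

theorem s1400 : ∀ a, 1400 ≤ a → a < 1400 → aChk a = true := base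
theorem s1405 : ∀ a, 1400 ≤ a → a < 1405 → aChk a = true := step s1400 c1400
theorem s1410 : ∀ a, 1400 ≤ a → a < 1410 → aChk a = true := step s1405 c1405
theorem s1415 : ∀ a, 1400 ≤ a → a < 1415 → aChk a = true := step s1410 c1410
theorem s1420 : ∀ a, 1400 ≤ a → a < 1420 → aChk a = true := step s1415 c1415
theorem s1425 : ∀ a, 1400 ≤ a → a < 1425 → aChk a = true := step s1420 c1420
theorem s1430 : ∀ a, 1400 ≤ a → a < 1430 → aChk a = true := step s1425 c1425
theorem s1435 : ∀ a, 1400 ≤ a → a < 1435 → aChk a = true := step s1430 c1430
theorem s1440 : ∀ a, 1400 ≤ a → a < 1440 → aChk a = true := step s1435 c1435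
theorem s1445 : ∀ a, 1400 ≤ a → a < 1445 → aChk a = true := step s1440 c1440
theorem s1450 : ∀ a, 1400 ≤ a → a < 1450 → aChk a = true := step s1445 c1445
theorem s1455 : ∀ a, 1400 ≤ a → a < 1455 → aChk a = true := step s1450 c1450
theorem s1460 : ∀ a, 1400 ≤ a → a < 1460 → aChk a = true := step s1455 c1455
theorem s1465 : ∀ a, 1400 ≤ a → a < 1465 → aChk a = true := step s1460 c1460
theorem s1470 : ∀ a, 1400 ≤ a → a < 1470 → aChk a = true := step s1465 c1465
theorem s1475 : ∀ a, 1400 ≤ a → a < 1475 → aChk a = true := step s1470 c1470
theorem s1480 : ∀ a, 1400 ≤ a → a < 1480 → aChk a = true := step s1475 c1475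
theorem s1485 : ∀ a, 1400 ≤ a → a < 1485 → aChk a = true := step s1480 c1480
theorem s1490 : ∀ a, 1400 ≤ a → a < 1490 → aChk a = true := step s1485 c1485
theorem s1495 : ∀ a, 1400 ≤ a → a < 1495 → aChk a = true := step s1490 c1490
theorem s1500 : ∀ a, 1400 ≤ a → a < 1500 → aChk a = true := step s1495 c1495
theorem s1505 : ∀ a, 1400 ≤ a → a < 1505 → aChk a = true := step s1500 c1500
theorem s1510 : ∀ a, 1400 ≤ a → a < 1510 → aChk a = true := step s1505 c1505
theorem s1515 : ∀ a, 1400 ≤ a → a < 1515 → aChk a = true := step s1510 c1510
theorem s1520 : ∀ a, 1400 ≤ a → a < 1520 → aChk a = true := step s1515 c1515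
theorem s1525 : ∀ a, 1400 ≤ a → a < 1525 → aChk a = true := step s1520 c1520
theorem s1530 : ∀ a, 1400 ≤ a → a < 1530 → aChk a = true := step s1525 c1525
theorem s1535 : ∀ a, 1400 ≤ a → a < 1535 → aChk a = true := step s1530 c1530
theorem s1540 : ∀ a, 1400 ≤ a → a < 1540 → aChk a = true := step s1535 c1535
theorem s1545 : ∀ a, 1400 ≤ a → a < 1545 → aChk a = true := step s1540 c1540
theorem s1550 : ∀ a, 1400 ≤ a → a < 1550 → aChk a = true := step s1545 c1545
theorem s1555 : ∀ a, 1400 ≤ a → a < 1555 → aChk a = true := step s1550 c1550
theorem s1560 : ∀ a, 1400 ≤ a → a < 1560 → aChk a = true := step s1555 c1555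
theorem s1565 : ∀ a, 1400 ≤ a → a < 1565 → aChk a = true := step s1560 c1560
theorem s1570 : ∀ a, 1400 ≤ a → a < 1570 → aChk a = true := step s1565 c1565
theorem s1575 : ∀ a, 1400 ≤ a → a < 1575 → aChk a = true := step s1570 c1570

theorem all : ∀ a, 1400 ≤ a → a < 1575 → aChk a = true := s1575

end Crest.Agent.R267.S6A9_95
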