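import Crest.Agent.R267.S6D_95

/-! Certificate of `S0406`: rows 1575 to 1749 of `Uᵀ * W = A_f`. -/

set_option autoImplicit false
set_option maxRecDepth 100000
set_option Elab.async false

namespace Crest.Agent.R267.S6B10_95

open Crest.Agent.R267.EngK_95 Crest.Agent.R267.S6C_95 Crest.Agent.R267.S6D_95

theorem c1575 : lall bChk (List.range' 1575 5) = true := by decide +kernel
theorem c1580 : lall bChk (List.range' 1580 5) = true := by decide +kernel
theorem c1585 : lall bChk (List.range' 1585 5) = true := by decide +kernel
theorem c1590 : lall bChk (List.range' 1590 5) = true := by decide +kernel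
theorem c1595 : lall bChk (List.range' 1595 5) = true := by decide +kernel
theorem c1600 : lall bChk (List.range' 1600 5) = true := by decide +kernel
theorem c1605 : lall bChk (List.range' 1605 5) = true := by decide +kernel
theorem c1610 : lall bChk (List.range' 1610 5) = true := by decide +kernel
theorem c1615 : lall bChk (List.range' 1615 5) = true := by decide +kernel
theorem c1620 : lall bChk (List.range' 1620 5) = true := by decide +kernel
theorem c1625 : lall bChk (List.range' 1625 5) = true := by decide +kernel
theorem c1630 : lall bChk (List.range' 1630 5) = true := by decide +kernel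
theorem c1635 : lall bChk (List.range' 1635 5) = true := by decide +kernel
theorem c1640 : lall bChk (List.range' 1640 5) = true := by decide +kernel
theorem c1645 : lall bChk (List.range' 1645 5) = true := by decide +kernel
theorem c1650 : lall bChk (List.range' 1650 5) = true := by decide +kernel
theorem c1655 : lall bChk (List.range' 1655 5) = true := by decide +kernel
theorem c1660 : lall bChk (List.range' 1660 5) = true := by decide +kernel
theorem c1665 : lall bChk (List.range' 1665 5) = true := by decide +kernel
theorem c1670 : lall bChk (List.range' 1670 5) = true := by decide +kernel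
theorem c1675 : lall bChk (List.range' 1675 5) = true := by decide +kernel
theorem c1680 : lall bChk (List.range' 1680 5) = true := by decide +kernel
theorem c1685 : lall bChk (List.range' 1685 5) = true := by decide +kernel
theorem c1690 : lall bChk (List.range' 1690 5) = true := by decide +kernel
theorem c1695 : lall bChk (List.range' 1695 5) = true := by decide +kernel
theorem c1700 : lall bChk (List.range' 1700 5) = true := by decide +kernel
theorem c1705 : lall bChk (List.range' 1705 5) = true := by decide +kernel
theorem c1710 : lall bChk (List.range' 1710 5) = true := by decide +kernel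
theorem c1715 : lall bChk (List.range' 1715 5) = true := by decide +kernel
theorem c1720 : lall bChk (List.range' 1720 5) = true := by decide +kernel
theorem c1725 : lall bChk (List.range' 1725 5) = true := by decide +kernel
theorem c1730 : lall bChk (List.range' 1730 5) = true := by decide +kernel
theorem c1735 : lall bChk (List.range' 1735 5) = true := by decide +kernel
theorem c1740 : lall bChk (List.range' 1740 5) = true := by decide +kernel
theorem c1745 : lall bChk (List.range' 1745 5) = true := by decide +kernel

theorem s1575 : ∀ a, 1575 ≤ a → a < 1575 → bChk a = true := base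
theorem s1580 : ∀ a, 1575 ≤ a → a < 1580 → bChk a = true := step s1575 c1575
theorem s1585 : ∀ a, 1575 ≤ a → a < 1585 → bChk a = true := step s1580 c1580
theorem s1590 : ∀ a, 1575 ≤ a → a < 1590 → bChk a = true := step s1585 c1585
theorem s1595 : ∀ a, 1575 ≤ a → a < 1595 → bChk a = true := step s1590 c1590
theorem s1600 : ∀ a, 1575 ≤ a → a < 1600 → bChk a = true := step s1595 c1595
theorem s1605 : ∀ a, 1575 ≤ a → a < 1605 → bChk a = true := step s1600 c1600
theorem s1610 : ∀ a, 1575 ≤ a → a < 1610 → bChk a = true := step s1605 c1605
theorem s1615 : ∀ a, 1575 ≤ a → a < 1615 → bChk a = true := step s1610 c1610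
theorem s1620 : ∀ a, 1575 ≤ a → a < 1620 → bChk a = true := step s1615 c1615
theorem s1625 : ∀ a, 1575 ≤ a → a < 1625 → bChk a = true := step s1620 c1620
theorem s1630 : ∀ a, 1575 ≤ a → a < 1630 → bChk a = true := step s1625 c1625
theorem s1635 : ∀ a, 1575 ≤ a → a < 1635 → bChk a = true := step s1630 c1630
theorem s1640 : ∀ a, 1575 ≤ a → a < 1640 → bChk a = true := step s1635 c1635
theorem s1645 : ∀ a, 1575 ≤ a → a < 1645 → bChk a = true := step s1640 c1640
theorem s1650 : ∀ a, 1575 ≤ a → a < 1650 → bChk a = true := step s1645 c1645
theorem s1655 : ∀ a, 1575 ≤ a → a < 1655 → bChk a = true := step s1650 c1650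
theorem s1660 : ∀ a, 1575 ≤ a → a < 1660 → bChk a = true := step s1655 c1655
theorem s1665 : ∀ a, 1575 ≤ a → a < 1665 → bChk a = true := step s1660 c1660
theorem s1670 : ∀ a, 1575 ≤ a → a < 1670 → bChk a = true := step s1665 c1665
theorem s1675 : ∀ a, 1575 ≤ a → a < 1675 → bChk a = true := step s1670 c1670
theorem s1680 : ∀ a, 1575 ≤ a → a < 1680 → bChk a = true := step s1675 c1675
theorem s1685 : ∀ a, 1575 ≤ a → a < 1685 → bChk a = true := step s1680 c1680
theorem s1690 : ∀ a, 1575 ≤ a → a < 1690 → bChk a = true := step s1685 c1685
theorem s1695 : ∀ a, 1575 ≤ a → a < 1695 → bChk a = true := step s1690 c1690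
theorem s1700 : ∀ a, 1575 ≤ a → a < 1700 → bChk a = true := step s1695 c1695
theorem s1705 : ∀ a, 1575 ≤ a → a < 1705 → bChk a = true := step s1700 c1700
theorem s1710 : ∀ a, 1575 ≤ a → a < 1710 → bChk a = true := step s1705 c1705
theorem s1715 : ∀ a, 1575 ≤ a → a < 1715 → bChk a = true := step s1710 c1710
theorem s1720 : ∀ a, 1575 ≤ a → a < 1720 → bChk a = true := step s1715 c1715
theorem s1725 : ∀ a, 1575 ≤ a → a < 1725 → bChk a = true := step s1720 c1720
theorem s1730 : ∀ a, 1575 ≤ a → a < 1730 → bChk a = true := step s1725 c1725
theorem s1735 : ∀ a, 1575 ≤ a → a < 1735 → bChk a = true := step s1730 c1730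
theorem s1740 : ∀ a, 1575 ≤ a → a < 1740 → bChk a = true := step s1735 c1735
theorem s1745 : ∀ a, 1575 ≤ a → a < 1745 → bChk a = true := step s1740 c1740
theorem s1750 : ∀ a, 1575 ≤ a → a < 1750 → bChk a = true := step s1745 c1745

theorem all : ∀ a, 1575 ≤ a → a < 1750 → bChk a = true := s1750

end Crest.Agent.R267.S6B10_95
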