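import Crest.Agent.R267.S6D_95

/-! Certificate of `S0406`: rows 1750 to 1924 of `Uᵀ * W = A_f`. -/

set_option autoImplicit false
set_option maxRecDepth 100000
set_option Elab.async false

namespace Crest.Agent.R267.S6B11_95

open Crest.Agent.R267.EngK_95 Crest.Agent.R267.S6C_95 Crest.Agent.R267.S6D_95

theorem c1750 : lall bChk (List.range' 1750 5) = true := by decide +kernel
theorem c1755 : lall bChk (List.range' 1755 5) = true := by decide +kernel
theorem c1760 : lall bChk (List.range' 1760 5) = true := by decide +kernel
theorem c1765 : lall bChk (List.range' 1765 5) = true := by decide +kernel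
theorem c1770 : lall bChk (List.range' 1770 5) = true := by decide +kernel
theorem c1775 : lall bChk (List.range' 1775 5) = true := by decide +kernel
theorem c1780 : lall bChk (List.range' 1780 5) = true := by decide +kernel
theorem c1785 : lall bChk (List.range' 1785 5) = true := by decide +kernel
theorem c1790 : lall bChk (List.range' 1790 5) = true := by decide +kernel
theorem c1795 : lall bChk (List.range' 1795 5) = true := by decide +kernel
theorem c1800 : lall bChk (List.range' 1800 5) = true := by decide +kernel
theorem c1805 : lall bChk (List.range' 1805 5) = true := by decide +kernel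
theorem c1810 : lall bChk (List.range' 1810 5) = true := by decide +kernel
theorem c1815 : lall bChk (List.range' 1815 5) = true := by decide +kernel
theorem c1820 : lall bChk (List.range' 1820 5) = true := by decide +kernel
theorem c1825 : lall bChk (List.range' 1825 5) = true := by decide +kernel
theorem c1830 : lall bChk (List.range' 1830 5) = true := by decide +kernel
theorem c1835 : lall bChk (List.range' 1835 5) = true := by decide +kernel
theorem c1840 : lall bChk (List.range' 1840 5) = true := by decide +kernel
theorem c1845 : lall bChk (List.range' 1845 5) = true := by decide +kernel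
theorem c1850 : lall bChk (List.range' 1850 5) = true := by decide +kernel
theorem c1855 : lall bChk (List.range' 1855 5) = true := by decide +kernel
theorem c1860 : lall bChk (List.range' 1860 5) = true := by decide +kernel
theorem c1865 : lall bChk (List.range' 1865 5) = true := by decide +kernel
theorem c1870 : lall bChk (List.range' 1870 5) = true := by decide +kernel
theorem c1875 : lall bChk (List.range' 1875 5) = true := by decide +kernel
theorem c1880 : lall bChk (List.range' 1880 5) = true := by decide +kernel
theorem c1885 : lall bChk (List.range' 1885 5) = true := by decide +kernel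
theorem c1890 : lall bChk (List.range' 1890 5) = true := by decide +kernel
theorem c1895 : lall bChk (List.range' 1895 5) = true := by decide +kernel
theorem c1900 : lall bChk (List.range' 1900 5) = true := by decide +kernel
theorem c1905 : lall bChk (List.range' 1905 5) = true := by decide +kernel
theorem c1910 : lall bChk (List.range' 1910 5) = true := by decide +kernel
theorem c1915 : lall bChk (List.range' 1915 5) = true := by decide +kernel
theorem c1920 : lall bChk (List.range' 1920 5) = true := by decide +kernel

theorem s1750 : ∀ a, 1750 ≤ a → a < 1750 → bChk a = true := base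
theorem s1755 : ∀ a, 1750 ≤ a → a < 1755 → bChk a = true := step s1750 c1750
theorem s1760 : ∀ a, 1750 ≤ a → a < 1760 → bChk a = true := step s1755 c1755
theorem s1765 : ∀ a, 1750 ≤ a → a < 1765 → bChk a = true := step s1760 c1760
theorem s1770 : ∀ a, 1750 ≤ a → a < 1770 → bChk a = true := step s1765 c1765
theorem s1775 : ∀ a, 1750 ≤ a → a < 1775 → bChk a = true := step s1770 c1770
theorem s1780 : ∀ a, 1750 ≤ a → a < 1780 → bChk a = true := step s1775 c1775
theorem s1785 : ∀ a, 1750 ≤ a → a < 1785 → bChk a = true := step s1780 c1780
theorem s1790 : ∀ a, 1750 ≤ a → a < 1790 → bChk a = true := step s1785 c1785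
theorem s1795 : ∀ a, 1750 ≤ a → a < 1795 → bChk a = true := step s1790 c1790
theorem s1800 : ∀ a, 1750 ≤ a → a < 1800 → bChk a = true := step s1795 c1795
theorem s1805 : ∀ a, 1750 ≤ a → a < 1805 → bChk a = true := step s1800 c1800
theorem s1810 : ∀ a, 1750 ≤ a → a < 1810 → bChk a = true := step s1805 c1805
theorem s1815 : ∀ a, 1750 ≤ a → a < 1815 → bChk a = true := step s1810 c1810
theorem s1820 : ∀ a, 1750 ≤ a → a < 1820 → bChk a = true := step s1815 c1815
theorem s1825 : ∀ a, 1750 ≤ a → a < 1825 → bChk a = true := step s1820 c1820
theorem s1830 : ∀ a, 1750 ≤ a → a < 1830 → bChk a = true := step s1825 c1825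
theorem s1835 : ∀ a, 1750 ≤ a → a < 1835 → bChk a = true := step s1830 c1830
theorem s1840 : ∀ a, 1750 ≤ a → a < 1840 → bChk a = true := step s1835 c1835
theorem s1845 : ∀ a, 1750 ≤ a → a < 1845 → bChk a = true := step s1840 c1840
theorem s1850 : ∀ a, 1750 ≤ a → a < 1850 → bChk a = true := step s1845 c1845
theorem s1855 : ∀ a, 1750 ≤ a → a < 1855 → bChk a = true := step s1850 c1850
theorem s1860 : ∀ a, 1750 ≤ a → a < 1860 → bChk a = true := step s1855 c1855
theorem s1865 : ∀ a, 1750 ≤ a → a < 1865 → bChk a = true := step s1860 c1860
theorem s1870 : ∀ a, 1750 ≤ a → a < 1870 → bChk a = true := step s1865 c1865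
theorem s1875 : ∀ a, 1750 ≤ a → a < 1875 → bChk a = true := step s1870 c1870
theorem s1880 : ∀ a, 1750 ≤ a → a < 1880 → bChk a = true := step s1875 c1875
theorem s1885 : ∀ a, 1750 ≤ a → a < 1885 → bChk a = true := step s1880 c1880
theorem s1890 : ∀ a, 1750 ≤ a → a < 1890 → bChk a = true := step s1885 c1885
theorem s1895 : ∀ a, 1750 ≤ a → a < 1895 → bChk a = true := step s1890 c1890
theorem s1900 : ∀ a, 1750 ≤ a → a < 1900 → bChk a = true := step s1895 c1895
theorem s1905 : ∀ a, 1750 ≤ a → a < 1905 → bChk a = true := step s1900 c1900
theorem s1910 : ∀ a, 1750 ≤ a → a < 1910 → bChk a = true := step s1905 c1905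
theorem s1915 : ∀ a, 1750 ≤ a → a < 1915 → bChk a = true := step s1910 c1910
theorem s1920 : ∀ a, 1750 ≤ a → a < 1920 → bChk a = true := step s1915 c1915
theorem s1925 : ∀ a, 1750 ≤ a → a < 1925 → bChk a = true := step s1920 c1920

theorem all : ∀ a, 1750 ≤ a → a < 1925 → bChk a = true := s1925

end Crest.Agent.R267.S6B11_95
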