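import Crest.Agent.R267.S6D_95

/-! Certificate of `S0406`: rows 1925 to 2048 of `Uᵀ * W = A_f`. -/

set_option autoImplicit false
set_option maxRecDepth 100000
set_option Elab.async false

namespace Crest.Agent.R267.S6B12_95

open Crest.Agent.R267.EngK_95 Crest.Agent.R267.S6C_95 Crest.Agent.R267.S6D_95

theorem c1925 : lall bChk (List.range' 1925 5) = true := by decide +kernel
theorem c1930 : lall bChk (List.range' 1930 5) = true := by decide +kernel
theorem c1935 : lall bChk (List.range' 1935 5) = true := by decide +kernel
theorem c1940 : lall bChk (List.range' 1940 5) = true := by decide +kernel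
theorem c1945 : lall bChk (List.range' 1945 5) = true := by decide +kernel
theorem c1950 : lall bChk (List.range' 1950 5) = true := by decide +kernel
theorem c1955 : lall bChk (List.range' 1955 5) = true := by decide +kernel
theorem c1960 : lall bChk (List.range' 1960 5) = true := by decide +kernel
theorem c1965 : lall bChk (List.range' 1965 5) = true := by decide +kernel
theorem c1970 : lall bChk (List.range' 1970 5) = true := by decide +kernel
theorem c1975 : lall bChk (List.range' 1975 5) = true := by decide +kernel
theorem c1980 : lall bChk (List.range' 1980 5) = true := by decide +kernel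
theorem c1985 : lall bChk (List.range' 1985 5) = true := by decide +kernel
theorem c1990 : lall bChk (List.range' 1990 5) = true := by decide +kernel
theorem c1995 : lall bChk (List.range' 1995 5) = true := by decide +kernel
theorem c2000 : lall bChk (List.range' 2000 5) = true := by decide +kernel
theorem c2005 : lall bChk (List.range' 2005 5) = true := by decide +kernel
theorem c2010 : lall bChk (List.range' 2010 5) = true := by decide +kernel
theorem c2015 : lall bChk (List.range' 2015 5) = true := by decide +kernel
theorem c2020 : lall bChk (List.range' 2020 5) = true := by decide +kernel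
theorem c2025 : lall bChk (List.range' 2025 5) = true := by decide +kernel
theorem c2030 : lall bChk (List.range' 2030 5) = true := by decide +kernel
theorem c2035 : lall bChk (List.range' 2035 5) = true := by decide +kernel
theorem c2040 : lall bChk (List.range' 2040 5) = true := by decide +kernel
theorem c2045 : lall bChk (List.range' 2045 4) = true := by decide +kernel

theorem s1925 : ∀ a, 1925 ≤ a → a < 1925 → bChk a = true := base
theorem s1930 : ∀ a, 1925 ≤ a → a < 1930 → bChk a = true := step s1925 c1925
theorem s1935 : ∀ a, 1925 ≤ a → a < 1935 → bChk a = true := step s1930 c1930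
theorem s1940 : ∀ a, 1925 ≤ a → a < 1940 → bChk a = true := step s1935 c1935
theorem s1945 : ∀ a, 1925 ≤ a → a < 1945 → bChk a = true := step s1940 c1940
theorem s1950 : ∀ a, 1925 ≤ a → a < 1950 → bChk a = true := step s1945 c1945
theorem s1955 : ∀ a, 1925 ≤ a → a < 1955 → bChk a = true := step s1950 c1950
theorem s1960 : ∀ a, 1925 ≤ a → a < 1960 → bChk a = true := step s1955 c1955
theorem s1965 : ∀ a, 1925 ≤ a → a < 1965 → bChk a = true := step s1960 c1960
theorem s1970 : ∀ a, 1925 ≤ a → a < 1970 → bChk a = true := step s1965 c1965
theorem s1975 : ∀ a, 1925 ≤ a → a < 1975 → bChk a = true := step s1970 c1970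
theorem s1980 : ∀ a, 1925 ≤ a → a < 1980 → bChk a = true := step s1975 c1975
theorem s1985 : ∀ a, 1925 ≤ a → a < 1985 → bChk a = true := step s1980 c1980
theorem s1990 : ∀ a, 1925 ≤ a → a < 1990 → bChk a = true := step s1985 c1985
theorem s1995 : ∀ a, 1925 ≤ a → a < 1995 → bChk a = true := step s1990 c1990
theorem s2000 : ∀ a, 1925 ≤ a → a < 2000 → bChk a = true := step s1995 c1995
theorem s2005 : ∀ a, 1925 ≤ a → a < 2005 → bChk a = true := step s2000 c2000
theorem s2010 : ∀ a, 1925 ≤ a → a < 2010 → bChk a = true := step s2005 c2005
theorem s2015 : ∀ a, 1925 ≤ a → a < 2015 → bChk a = true := step s2010 c2010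
theorem s2020 : ∀ a, 1925 ≤ a → a < 2020 → bChk a = true := step s2015 c2015
theorem s2025 : ∀ a, 1925 ≤ a → a < 2025 → bChk a = true := step s2020 c2020
theorem s2030 : ∀ a, 1925 ≤ a → a < 2030 → bChk a = true := step s2025 c2025
theorem s2035 : ∀ a, 1925 ≤ a → a < 2035 → bChk a = true := step s2030 c2030
theorem s2040 : ∀ a, 1925 ≤ a → a < 2040 → bChk a = true := step s2035 c2035
theorem s2045 : ∀ a, 1925 ≤ a → a < 2045 → bChk a = true := step s2040 c2040
theorem s2049 : ∀ a, 1925 ≤ a → a < 2049 → bChk a = true := step s2045 c2045

theorem all : ∀ a, 1925 ≤ a → a < 2049 → bChk a = true := s2049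

end Crest.Agent.R267.S6B12_95
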