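import Crest.Agent.R267.S6D_95

/-! Certificate of `S0406`: rows 350 to 524 of `Uᵀ * W = A_f`. -/

set_option autoImplicit false
set_option maxRecDepth 100000
set_option Elab.async false

namespace Crest.Agent.R267.S6B3_95

open Crest.Agent.R267.EngK_95 Crest.Agent.R267.S6C_95 Crest.Agent.R267.S6D_95

theorem c350 : lall bChk (List.range' 350 5) = true := by decide +kernel
theorem c355 : lall bChk (List.range' 355 5) = true := by decide +kernel
theorem c360 : lall bChk (List.range' 360 5) = true := by decide +kernel
theorem c365 : lall bChk (List.range' 365 5) = true := by decide +kernel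
theorem c370 : lall bChk (List.range' 370 5) = true := by decide +kernel
theorem c375 : lall bChk (List.range' 375 5) = true := by decide +kernel
theorem c380 : lall bChk (List.range' 380 5) = true := by decide +kernel
theorem c385 : lall bChk (List.range' 385 5) = true := by decide +kernel
theorem c390 : lall bChk (List.range' 390 5) = true := by decide +kernel
theorem c395 : lall bChk (List.range' 395 5) = true := by decide +kernel
theorem c400 : lall bChk (List.range' 400 5) = true := by decide +kernel
theorem c405 : lall bChk (List.range' 405 5) = true := by decide +kernel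
theorem c410 : lall bChk (List.range' 410 5) = true := by decide +kernel
theorem c415 : lall bChk (List.range' 415 5) = true := by decide +kernel
theorem c420 : lall bChk (List.range' 420 5) = true := by decide +kernel
theorem c425 : lall bChk (List.range' 425 5) = true := by decide +kernel
theorem c430 : lall bChk (List.range' 430 5) = true := by decide +kernel
theorem c435 : lall bChk (List.range' 435 5) = true := by decide +kernel
theorem c440 : lall bChk (List.range' 440 5) = true := by decide +kernel
theorem c445 : lall bChk (List.range' 445 5) = true := by decide +kernel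
theorem c450 : lall bChk (List.range' 450 5) = true := by decide +kernel
theorem c455 : lall bChk (List.range' 455 5) = true := by decide +kernel
theorem c460 : lall bChk (List.range' 460 5) = true := by decide +kernel
theorem c465 : lall bChk (List.range' 465 5) = true := by decide +kernel
theorem c470 : lall bChk (List.range' 470 5) = true := by decide +kernel
theorem c475 : lall bChk (List.range' 475 5) = true := by decide +kernel
theorem c480 : lall bChk (List.range' 480 5) = true := by decide +kernel
theorem c485 : lall bChk (List.range' 485 5) = true := by decide +kernel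
theorem c490 : lall bChk (List.range' 490 5) = true := by decide +kernel
theorem c495 : lall bChk (List.range' 495 5) = true := by decide +kernel
theorem c500 : lall bChk (List.range' 500 5) = true := by decide +kernel
theorem c505 : lall bChk (List.range' 505 5) = true := by decide +kernel
theorem c510 : lall bChk (List.range' 510 5) = true := by decide +kernel
theorem c515 : lall bChk (List.range' 515 5) = true := by decide +kernel
theorem c520 : lall bChk (List.range' 520 5) = true := by decide +kernel

theorem s350 : ∀ a, 350 ≤ a → a < 350 → bChk a = true := base
theorem s355 : ∀ a, 350 ≤ a → a < 355 → bChk a = true := step s350 c350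
theorem s360 : ∀ a, 350 ≤ a → a < 360 → bChk a = true := step s355 c355
theorem s365 : ∀ a, 350 ≤ a → a < 365 → bChk a = true := step s360 c360
theorem s370 : ∀ a, 350 ≤ a → a < 370 → bChk a = true := step s365 c365
theorem s375 : ∀ a, 350 ≤ a → a < 375 → bChk a = true := step s370 c370
theorem s380 : ∀ a, 350 ≤ a → a < 380 → bChk a = true := step s375 c375
theorem s385 : ∀ a, 350 ≤ a → a < 385 → bChk a = true := step s380 c380
theorem s390 : ∀ a, 350 ≤ a → a < 390 → bChk a = true := step s385 c385
theorem s395 : ∀ a, 350 ≤ a → a < 395 → bChk a = true := step s390 c390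
theorem s400 : ∀ a, 350 ≤ a → a < 400 → bChk a = true := step s395 c395
theorem s405 : ∀ a, 350 ≤ a → a < 405 → bChk a = true := step s400 c400
theorem s410 : ∀ a, 350 ≤ a → a < 410 → bChk a = true := step s405 c405
theorem s415 : ∀ a, 350 ≤ a → a < 415 → bChk a = true := step s410 c410
theorem s420 : ∀ a, 350 ≤ a → a < 420 → bChk a = true := step s415 c415
theorem s425 : ∀ a, 350 ≤ a → a < 425 → bChk a = true := step s420 c420
theorem s430 : ∀ a, 350 ≤ a → a < 430 → bChk a = true := step s425 c425
theorem s435 : ∀ a, 350 ≤ a → a < 435 → bChk a = true := step s430 c430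
theorem s440 : ∀ a, 350 ≤ a → a < 440 → bChk a = true := step s435 c435
theorem s445 : ∀ a, 350 ≤ a → a < 445 → bChk a = true := step s440 c440
theorem s450 : ∀ a, 350 ≤ a → a < 450 → bChk a = true := step s445 c445
theorem s455 : ∀ a, 350 ≤ a → a < 455 → bChk a = true := step s450 c450
theorem s460 : ∀ a, 350 ≤ a → a < 460 → bChk a = true := step s455 c455
theorem s465 : ∀ a, 350 ≤ a → a < 465 → bChk a = true := step s460 c460
theorem s470 : ∀ a, 350 ≤ a → a < 470 → bChk a = true := step s465 c465
theorem s475 : ∀ a, 350 ≤ a → a < 475 → bChk a = true := step s470 c470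
theorem s480 : ∀ a, 350 ≤ a → a < 480 → bChk a = true := step s475 c475
theorem s485 : ∀ a, 350 ≤ a → a < 485 → bChk a = true := step s480 c480
theorem s490 : ∀ a, 350 ≤ a → a < 490 → bChk a = true := step s485 c485
theorem s495 : ∀ a, 350 ≤ a → a < 495 → bChk a = true := step s490 c490
theorem s500 : ∀ a, 350 ≤ a → a < 500 → bChk a = true := step s495 c495
theorem s505 : ∀ a, 350 ≤ a → a < 505 → bChk a = true := step s500 c500
theorem s510 : ∀ a, 350 ≤ a → a < 510 → bChk a = true := step s505 c505
theorem s515 : ∀ a, 350 ≤ a → a < 515 → bChk a = true := step s510 c510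
theorem s520 : ∀ a, 350 ≤ a → a < 520 → bChk a = true := step s515 c515
theorem s525 : ∀ a, 350 ≤ a → a < 525 → bChk a = true := step s520 c520

theorem all : ∀ a, 350 ≤ a → a < 525 → bChk a = true := s525

end Crest.Agent.R267.S6B3_95
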