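import Crest.Agent.R267.S6D_95

/-! Certificate of `S0406`: rows 700 to 874 of `Uᵀ * W = A_f`. -/

set_option autoImplicit false
set_option maxRecDepth 100000
set_option Elab.async false

namespace Crest.Agent.R267.S6B5_95

open Crest.Agent.R267.EngK_95 Crest.Agent.R267.S6C_95 Crest.Agent.R267.S6D_95

theorem c700 : lall bChk (List.range' 700 5) = true := by decide +kernel
theorem c705 : lall bChk (List.range' 705 5) = true := by decide +kernel
theorem c710 : lall bChk (List.range' 710 5) = true := by decide +kernel
theorem c715 : lall bChk (List.range' 715 5) = true := by decide +kernel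
theorem c720 : lall bChk (List.range' 720 5) = true := by decide +kernel
theorem c725 : lall bChk (List.range' 725 5) = true := by decide +kernel
theorem c730 : lall bChk (List.range' 730 5) = true := by decide +kernel
theorem c735 : lall bChk (List.range' 735 5) = true := by decide +kernel
theorem c740 : lall bChk (List.range' 740 5) = true := by decide +kernel
theorem c745 : lall bChk (List.range' 745 5) = true := by decide +kernel
theorem c750 : lall bChk (List.range' 750 5) = true := by decide +kernel
theorem c755 : lall bChk (List.range' 755 5) = true := by decide +kernel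
theorem c760 : lall bChk (List.range' 760 5) = true := by decide +kernel
theorem c765 : lall bChk (List.range' 765 5) = true := by decide +kernel
theorem c770 : lall bChk (List.range' 770 5) = true := by decide +kernel
theorem c775 : lall bChk (List.range' 775 5) = true := by decide +kernel
theorem c780 : lall bChk (List.range' 780 5) = true := by decide +kernel
theorem c785 : lall bChk (List.range' 785 5) = true := by decide +kernel
theorem c790 : lall bChk (List.range' 790 5) = true := by decide +kernel
theorem c795 : lall bChk (List.range' 795 5) = true := by decide +kernel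
theorem c800 : lall bChk (List.range' 800 5) = true := by decide +kernel
theorem c805 : lall bChk (List.range' 805 5) = true := by decide +kernel
theorem c810 : lall bChk (List.range' 810 5) = true := by decide +kernel
theorem c815 : lall bChk (List.range' 815 5) = true := by decide +kernel
theorem c820 : lall bChk (List.range' 820 5) = true := by decide +kernel
theorem c825 : lall bChk (List.range' 825 5) = true := by decide +kernel
theorem c830 : lall bChk (List.range' 830 5) = true := by decide +kernel
theorem c835 : lall bChk (List.range' 835 5) = true := by decide +kernel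
theorem c840 : lall bChk (List.range' 840 5) = true := by decide +kernel
theorem c845 : lall bChk (List.range' 845 5) = true := by decide +kernel
theorem c850 : lall bChk (List.range' 850 5) = true := by decide +kernel
theorem c855 : lall bChk (List.range' 855 5) = true := by decide +kernel
theorem c860 : lall bChk (List.range' 860 5) = true := by decide +kernel
theorem c865 : lall bChk (List.range' 865 5) = true := by decide +kernel
theorem c870 : lall bChk (List.range' 870 5) = true := by decide +kernel

theorem s700 : ∀ a, 700 ≤ a → a < 700 → bChk a = true := base
theorem s705 : ∀ a, 700 ≤ a → a < 705 → bChk a = true := step s700 c700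
theorem s710 : ∀ a, 700 ≤ a → a < 710 → bChk a = true := step s705 c705
theorem s715 : ∀ a, 700 ≤ a → a < 715 → bChk a = true := step s710 c710
theorem s720 : ∀ a, 700 ≤ a → a < 720 → bChk a = true := step s715 c715
theorem s725 : ∀ a, 700 ≤ a → a < 725 → bChk a = true := step s720 c720
theorem s730 : ∀ a, 700 ≤ a → a < 730 → bChk a = true := step s725 c725
theorem s735 : ∀ a, 700 ≤ a → a < 735 → bChk a = true := step s730 c730
theorem s740 : ∀ a, 700 ≤ a → a < 740 → bChk a = true := step s735 c735
theorem s745 : ∀ a, 700 ≤ a → a < 745 → bChk a = true := step s740 c740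
theorem s750 : ∀ a, 700 ≤ a → a < 750 → bChk a = true := step s745 c745
theorem s755 : ∀ a, 700 ≤ a → a < 755 → bChk a = true := step s750 c750
theorem s760 : ∀ a, 700 ≤ a → a < 760 → bChk a = true := step s755 c755
theorem s765 : ∀ a, 700 ≤ a → a < 765 → bChk a = true := step s760 c760
theorem s770 : ∀ a, 700 ≤ a → a < 770 → bChk a = true := step s765 c765
theorem s775 : ∀ a, 700 ≤ a → a < 775 → bChk a = true := step s770 c770
theorem s780 : ∀ a, 700 ≤ a → a < 780 → bChk a = true := step s775 c775
theorem s785 : ∀ a, 700 ≤ a → a < 785 → bChk a = true := step s780 c780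
theorem s790 : ∀ a, 700 ≤ a → a < 790 → bChk a = true := step s785 c785
theorem s795 : ∀ a, 700 ≤ a → a < 795 → bChk a = true := step s790 c790
theorem s800 : ∀ a, 700 ≤ a → a < 800 → bChk a = true := step s795 c795
theorem s805 : ∀ a, 700 ≤ a → a < 805 → bChk a = true := step s800 c800
theorem s810 : ∀ a, 700 ≤ a → a < 810 → bChk a = true := step s805 c805
theorem s815 : ∀ a, 700 ≤ a → a < 815 → bChk a = true := step s810 c810
theorem s820 : ∀ a, 700 ≤ a → a < 820 → bChk a = true := step s815 c815
theorem s825 : ∀ a, 700 ≤ a → a < 825 → bChk a = true := step s820 c820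
theorem s830 : ∀ a, 700 ≤ a → a < 830 → bChk a = true := step s825 c825
theorem s835 : ∀ a, 700 ≤ a → a < 835 → bChk a = true := step s830 c830
theorem s840 : ∀ a, 700 ≤ a → a < 840 → bChk a = true := step s835 c835
theorem s845 : ∀ a, 700 ≤ a → a < 845 → bChk a = true := step s840 c840
theorem s850 : ∀ a, 700 ≤ a → a < 850 → bChk a = true := step s845 c845
theorem s855 : ∀ a, 700 ≤ a → a < 855 → bChk a = true := step s850 c850
theorem s860 : ∀ a, 700 ≤ a → a < 860 → bChk a = true := step s855 c855
theorem s865 : ∀ a, 700 ≤ a → a < 865 → bChk a = true := step s860 c860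
theorem s870 : ∀ a, 700 ≤ a → a < 870 → bChk a = true := step s865 c865
theorem s875 : ∀ a, 700 ≤ a → a < 875 → bChk a = true := step s870 c870

theorem all : ∀ a, 700 ≤ a → a < 875 → bChk a = true := s875

end Crest.Agent.R267.S6B5_95
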