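import Crest.Agent.R267.S6D_95

/-! Certificate of `S0406`: rows 875 to 1049 of `Uᵀ * W = A_f`. -/

set_option autoImplicit false
set_option maxRecDepth 100000
set_option Elab.async false

namespace Crest.Agent.R267.S6B6_95

open Crest.Agent.R267.EngK_95 Crest.Agent.R267.S6C_95 Crest.Agent.R267.S6D_95

theorem c875 : lall bChk (List.range' 875 5) = true := by decide +kernel
theorem c880 : lall bChk (List.range' 880 5) = true := by decide +kernel
theorem c885 : lall bChk (List.range' 885 5) = true := by decide +kernel
theorem c890 : lall bChk (List.range' 890 5) = true := by decide +kernel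
theorem c895 : lall bChk (List.range' 895 5) = true := by decide +kernel
theorem c900 : lall bChk (List.range' 900 5) = true := by decide +kernel
theorem c905 : lall bChk (List.range' 905 5) = true := by decide +kernel
theorem c910 : lall bChk (List.range' 910 5) = true := by decide +kernel
theorem c915 : lall bChk (List.range' 915 5) = true := by decide +kernel
theorem c920 : lall bChk (List.range' 920 5) = true := by decide +kernel
theorem c925 : lall bChk (List.range' 925 5) = true := by decide +kernel
theorem c930 : lall bChk (List.range' 930 5) = true := by decide +kernel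
theorem c935 : lall bChk (List.range' 935 5) = true := by decide +kernel
theorem c940 : lall bChk (List.range' 940 5) = true := by decide +kernel
theorem c945 : lall bChk (List.range' 945 5) = true := by decide +kernel
theorem c950 : lall bChk (List.range' 950 5) = true := by decide +kernel
theorem c955 : lall bChk (List.range' 955 5) = true := by decide +kernel
theorem c960 : lall bChk (List.range' 960 5) = true := by decide +kernel
theorem c965 : lall bChk (List.range' 965 5) = true := by decide +kernel
theorem c970 : lall bChk (List.range' 970 5) = true := by decide +kernel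
theorem c975 : lall bChk (List.range' 975 5) = true := by decide +kernel
theorem c980 : lall bChk (List.range' 980 5) = true := by decide +kernel
theorem c985 : lall bChk (List.range' 985 5) = true := by decide +kernel
theorem c990 : lall bChk (List.range' 990 5) = true := by decide +kernel
theorem c995 : lall bChk (List.range' 995 5) = true := by decide +kernel
theorem c1000 : lall bChk (List.range' 1000 5) = true := by decide +kernel
theorem c1005 : lall bChk (List.range' 1005 5) = true := by decide +kernel
theorem c1010 : lall bChk (List.range' 1010 5) = true := by decide +kernel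
theorem c1015 : lall bChk (List.range' 1015 5) = true := by decide +kernel
theorem c1020 : lall bChk (List.range' 1020 5) = true := by decide +kernel
theorem c1025 : lall bChk (List.range' 1025 5) = true := by decide +kernel
theorem c1030 : lall bChk (List.range' 1030 5) = true := by decide +kernel
theorem c1035 : lall bChk (List.range' 1035 5) = true := by decide +kernel
theorem c1040 : lall bChk (List.range' 1040 5) = true := by decide +kernel
theorem c1045 : lall bChk (List.range' 1045 5) = true := by decide +kernel

theorem s875 : ∀ a, 875 ≤ a → a < 875 → bChk a = true := base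
theorem s880 : ∀ a, 875 ≤ a → a < 880 → bChk a = true := step s875 c875
theorem s885 : ∀ a, 875 ≤ a → a < 885 → bChk a = true := step s880 c880
theorem s890 : ∀ a, 875 ≤ a → a < 890 → bChk a = true := step s885 c885
theorem s895 : ∀ a, 875 ≤ a → a < 895 → bChk a = true := step s890 c890
theorem s900 : ∀ a, 875 ≤ a → a < 900 → bChk a = true := step s895 c895
theorem s905 : ∀ a, 875 ≤ a → a < 905 → bChk a = true := step s900 c900
theorem s910 : ∀ a, 875 ≤ a → a < 910 → bChk a = true := step s905 c905
theorem s915 : ∀ a, 875 ≤ a → a < 915 → bChk a = true := step s910 c910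
theorem s920 : ∀ a, 875 ≤ a → a < 920 → bChk a = true := step s915 c915
theorem s925 : ∀ a, 875 ≤ a → a < 925 → bChk a = true := step s920 c920
theorem s930 : ∀ a, 875 ≤ a → a < 930 → bChk a = true := step s925 c925
theorem s935 : ∀ a, 875 ≤ a → a < 935 → bChk a = true := step s930 c930
theorem s940 : ∀ a, 875 ≤ a → a < 940 → bChk a = true := step s935 c935
theorem s945 : ∀ a, 875 ≤ a → a < 945 → bChk a = true := step s940 c940
theorem s950 : ∀ a, 875 ≤ a → a < 950 → bChk a = true := step s945 c945
theorem s955 : ∀ a, 875 ≤ a → a < 955 → bChk a = true := step s950 c950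
theorem s960 : ∀ a, 875 ≤ a → a < 960 → bChk a = true := step s955 c955
theorem s965 : ∀ a, 875 ≤ a → a < 965 → bChk a = true := step s960 c960
theorem s970 : ∀ a, 875 ≤ a → a < 970 → bChk a = true := step s965 c965
theorem s975 : ∀ a, 875 ≤ a → a < 975 → bChk a = true := step s970 c970
theorem s980 : ∀ a, 875 ≤ a → a < 980 → bChk a = true := step s975 c975
theorem s985 : ∀ a, 875 ≤ a → a < 985 → bChk a = true := step s980 c980
theorem s990 : ∀ a, 875 ≤ a → a < 990 → bChk a = true := step s985 c985
theorem s995 : ∀ a, 875 ≤ a → a < 995 → bChk a = true := step s990 c990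
theorem s1000 : ∀ a, 875 ≤ a → a < 1000 → bChk a = true := step s995 c995
theorem s1005 : ∀ a, 875 ≤ a → a < 1005 → bChk a = true := step s1000 c1000
theorem s1010 : ∀ a, 875 ≤ a → a < 1010 → bChk a = true := step s1005 c1005
theorem s1015 : ∀ a, 875 ≤ a → a < 1015 → bChk a = true := step s1010 c1010
theorem s1020 : ∀ a, 875 ≤ a → a < 1020 → bChk a = true := step s1015 c1015
theorem s1025 : ∀ a, 875 ≤ a → a < 1025 → bChk a = true := step s1020 c1020
theorem s1030 : ∀ a, 875 ≤ a → a < 1030 → bChk a = true := step s1025 c1025
theorem s1035 : ∀ a, 875 ≤ a → a < 1035 → bChk a = true := step s1030 c1030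
theorem s1040 : ∀ a, 875 ≤ a → a < 1040 → bChk a = true := step s1035 c1035
theorem s1045 : ∀ a, 875 ≤ a → a < 1045 → bChk a = true := step s1040 c1040
theorem s1050 : ∀ a, 875 ≤ a → a < 1050 → bChk a = true := step s1045 c1045

theorem all : ∀ a, 875 ≤ a → a < 1050 → bChk a = true := s1050

end Crest.Agent.R267.S6B6_95
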