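import Crest.Agent.R267.S6D_95

/-! Certificate of `S0406`: rows 1050 to 1224 of `Uᵀ * W = A_f`. -/

set_option autoImplicit false
set_option maxRecDepth 100000
set_option Elab.async false

namespace Crest.Agent.R267.S6B7_95

open Crest.Agent.R267.EngK_95 Crest.Agent.R267.S6C_95 Crest.Agent.R267.S6D_95

theorem c1050 : lall bChk (List.range' 1050 5) = true := by decide +kernel
theorem c1055 : lall bChk (List.range' 1055 5) = true := by decide +kernel
theorem c1060 : lall bChk (List.range' 1060 5) = true := by decide +kernel
theorem c1065 : lall bChk (List.range' 1065 5) = true := by decide +kernel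
theorem c1070 : lall bChk (List.range' 1070 5) = true := by decide +kernel
theorem c1075 : lall bChk (List.range' 1075 5) = true := by decide +kernel
theorem c1080 : lall bChk (List.range' 1080 5) = true := by decide +kernel
theorem c1085 : lall bChk (List.range' 1085 5) = true := by decide +kernel
theorem c1090 : lall bChk (List.range' 1090 5) = true := by decide +kernel
theorem c1095 : lall bChk (List.range' 1095 5) = true := by decide +kernel
theorem c1100 : lall bChk (List.range' 1100 5) = true := by decide +kernel
theorem c1105 : lall bChk (List.range' 1105 5) = true := by decide +kernel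
theorem c1110 : lall bChk (List.range' 1110 5) = true := by decide +kernel
theorem c1115 : lall bChk (List.range' 1115 5) = true := by decide +kernel
theorem c1120 : lall bChk (List.range' 1120 5) = true := by decide +kernel
theorem c1125 : lall bChk (List.range' 1125 5) = true := by decide +kernel
theorem c1130 : lall bChk (List.range' 1130 5) = true := by decide +kernel
theorem c1135 : lall bChk (List.range' 1135 5) = true := by decide +kernel
theorem c1140 : lall bChk (List.range' 1140 5) = true := by decide +kernel
theorem c1145 : lall bChk (List.range' 1145 5) = true := by decide +kernel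
theorem c1150 : lall bChk (List.range' 1150 5) = true := by decide +kernel
theorem c1155 : lall bChk (List.range' 1155 5) = true := by decide +kernel
theorem c1160 : lall bChk (List.range' 1160 5) = true := by decide +kernel
theorem c1165 : lall bChk (List.range' 1165 5) = true := by decide +kernel
theorem c1170 : lall bChk (List.range' 1170 5) = true := by decide +kernel
theorem c1175 : lall bChk (List.range' 1175 5) = true := by decide +kernel
theorem c1180 : lall bChk (List.range' 1180 5) = true := by decide +kernel
theorem c1185 : lall bChk (List.range' 1185 5) = true := by decide +kernel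
theorem c1190 : lall bChk (List.range' 1190 5) = true := by decide +kernel
theorem c1195 : lall bChk (List.range' 1195 5) = true := by decide +kernel
theorem c1200 : lall bChk (List.range' 1200 5) = true := by decide +kernel
theorem c1205 : lall bChk (List.range' 1205 5) = true := by decide +kernel
theorem c1210 : lall bChk (List.range' 1210 5) = true := by decide +kernel
theorem c1215 : lall bChk (List.range' 1215 5) = true := by decide +kernel
theorem c1220 : lall bChk (List.range' 1220 5) = true := by decide +kernel

theorem s1050 : ∀ a, 1050 ≤ a → a < 1050 → bChk a = true := base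
theorem s1055 : ∀ a, 1050 ≤ a → a < 1055 → bChk a = true := step s1050 c1050
theorem s1060 : ∀ a, 1050 ≤ a → a < 1060 → bChk a = true := step s1055 c1055
theorem s1065 : ∀ a, 1050 ≤ a → a < 1065 → bChk a = true := step s1060 c1060
theorem s1070 : ∀ a, 1050 ≤ a → a < 1070 → bChk a = true := step s1065 c1065
theorem s1075 : ∀ a, 1050 ≤ a → a < 1075 → bChk a = true := step s1070 c1070
theorem s1080 : ∀ a, 1050 ≤ a → a < 1080 → bChk a = true := step s1075 c1075
theorem s1085 : ∀ a, 1050 ≤ a → a < 1085 → bChk a = true := step s1080 c1080
theorem s1090 : ∀ a, 1050 ≤ a → a < 1090 → bChk a = true := step s1085 c1085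
theorem s1095 : ∀ a, 1050 ≤ a → a < 1095 → bChk a = true := step s1090 c1090
theorem s1100 : ∀ a, 1050 ≤ a → a < 1100 → bChk a = true := step s1095 c1095
theorem s1105 : ∀ a, 1050 ≤ a → a < 1105 → bChk a = true := step s1100 c1100
theorem s1110 : ∀ a, 1050 ≤ a → a < 1110 → bChk a = true := step s1105 c1105
theorem s1115 : ∀ a, 1050 ≤ a → a < 1115 → bChk a = true := step s1110 c1110
theorem s1120 : ∀ a, 1050 ≤ a → a < 1120 → bChk a = true := step s1115 c1115
theorem s1125 : ∀ a, 1050 ≤ a → a < 1125 → bChk a = true := step s1120 c1120
theorem s1130 : ∀ a, 1050 ≤ a → a < 1130 → bChk a = true := step s1125 c1125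
theorem s1135 : ∀ a, 1050 ≤ a → a < 1135 → bChk a = true := step s1130 c1130
theorem s1140 : ∀ a, 1050 ≤ a → a < 1140 → bChk a = true := step s1135 c1135
theorem s1145 : ∀ a, 1050 ≤ a → a < 1145 → bChk a = true := step s1140 c1140
theorem s1150 : ∀ a, 1050 ≤ a → a < 1150 → bChk a = true := step s1145 c1145
theorem s1155 : ∀ a, 1050 ≤ a → a < 1155 → bChk a = true := step s1150 c1150
theorem s1160 : ∀ a, 1050 ≤ a → a < 1160 → bChk a = true := step s1155 c1155
theorem s1165 : ∀ a, 1050 ≤ a → a < 1165 → bChk a = true := step s1160 c1160
theorem s1170 : ∀ a, 1050 ≤ a → a < 1170 → bChk a = true := step s1165 c1165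
theorem s1175 : ∀ a, 1050 ≤ a → a < 1175 → bChk a = true := step s1170 c1170
theorem s1180 : ∀ a, 1050 ≤ a → a < 1180 → bChk a = true := step s1175 c1175
theorem s1185 : ∀ a, 1050 ≤ a → a < 1185 → bChk a = true := step s1180 c1180
theorem s1190 : ∀ a, 1050 ≤ a → a < 1190 → bChk a = true := step s1185 c1185
theorem s1195 : ∀ a, 1050 ≤ a → a < 1195 → bChk a = true := step s1190 c1190
theorem s1200 : ∀ a, 1050 ≤ a → a < 1200 → bChk a = true := step s1195 c1195
theorem s1205 : ∀ a, 1050 ≤ a → a < 1205 → bChk a = true := step s1200 c1200
theorem s1210 : ∀ a, 1050 ≤ a → a < 1210 → bChk a = true := step s1205 c1205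
theorem s1215 : ∀ a, 1050 ≤ a → a < 1215 → bChk a = true := step s1210 c1210
theorem s1220 : ∀ a, 1050 ≤ a → a < 1220 → bChk a = true := step s1215 c1215
theorem s1225 : ∀ a, 1050 ≤ a → a < 1225 → bChk a = true := step s1220 c1220

theorem all : ∀ a, 1050 ≤ a → a < 1225 → bChk a = true := s1225

end Crest.Agent.R267.S6B7_95
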