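import Crest.Agent.R267.S6D_95

/-! Certificate of `S0406`: rows 1225 to 1399 of `Uᵀ * W = A_f`. -/

set_option autoImplicit false
set_option maxRecDepth 100000
set_option Elab.async false

namespace Crest.Agent.R267.S6B8_95

open Crest.Agent.R267.EngK_95 Crest.Agent.R267.S6C_95 Crest.Agent.R267.S6D_95

theorem c1225 : lall bChk (List.range' 1225 5) = true := by decide +kernel
theorem c1230 : lall bChk (List.range' 1230 5) = true := by decide +kernel
theorem c1235 : lall bChk (List.range' 1235 5) = true := by decide +kernel
theorem c1240 : lall bChk (List.range' 1240 5) = true := by decide +kernel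
theorem c1245 : lall bChk (List.range' 1245 5) = true := by decide +kernel
theorem c1250 : lall bChk (List.range' 1250 5) = true := by decide +kernel
theorem c1255 : lall bChk (List.range' 1255 5) = true := by decide +kernel
theorem c1260 : lall bChk (List.range' 1260 5) = true := by decide +kernel
theorem c1265 : lall bChk (List.range' 1265 5) = true := by decide +kernel
theorem c1270 : lall bChk (List.range' 1270 5) = true := by decide +kernel
theorem c1275 : lall bChk (List.range' 1275 5) = true := by decide +kernel
theorem c1280 : lall bChk (List.range' 1280 5) = true := by decide +kernel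
theorem c1285 : lall bChk (List.range' 1285 5) = true := by decide +kernel
theorem c1290 : lall bChk (List.range' 1290 5) = true := by decide +kernel
theorem c1295 : lall bChk (List.range' 1295 5) = true := by decide +kernel
theorem c1300 : lall bChk (List.range' 1300 5) = true := by decide +kernel
theorem c1305 : lall bChk (List.range' 1305 5) = true := by decide +kernel
theorem c1310 : lall bChk (List.range' 1310 5) = true := by decide +kernel
theorem c1315 : lall bChk (List.range' 1315 5) = true := by decide +kernel
theorem c1320 : lall bChk (List.range' 1320 5) = true := by decide +kernel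
theorem c1325 : lall bChk (List.range' 1325 5) = true := by decide +kernel
theorem c1330 : lall bChk (List.range' 1330 5) = true := by decide +kernel
theorem c1335 : lall bChk (List.range' 1335 5) = true := by decide +kernel
theorem c1340 : lall bChk (List.range' 1340 5) = true := by decide +kernel
theorem c1345 : lall bChk (List.range' 1345 5) = true := by decide +kernel
theorem c1350 : lall bChk (List.range' 1350 5) = true := by decide +kernel
theorem c1355 : lall bChk (List.range' 1355 5) = true := by decide +kernel
theorem c1360 : lall bChk (List.range' 1360 5) = true := by decide +kernel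
theorem c1365 : lall bChk (List.range' 1365 5) = true := by decide +kernel
theorem c1370 : lall bChk (List.range' 1370 5) = true := by decide +kernel
theorem c1375 : lall bChk (List.range' 1375 5) = true := by decide +kernel
theorem c1380 : lall bChk (List.range' 1380 5) = true := by decide +kernel
theorem c1385 : lall bChk (List.range' 1385 5) = true := by decide +kernel
theorem c1390 : lall bChk (List.range' 1390 5) = true := by decide +kernel
theorem c1395 : lall bChk (List.range' 1395 5) = true := by decide +kernel

theorem s1225 : ∀ a, 1225 ≤ a → a < 1225 → bChk a = true := base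
theorem s1230 : ∀ a, 1225 ≤ a → a < 1230 → bChk a = true := step s1225 c1225
theorem s1235 : ∀ a, 1225 ≤ a → a < 1235 → bChk a = true := step s1230 c1230
theorem s1240 : ∀ a, 1225 ≤ a → a < 1240 → bChk a = true := step s1235 c1235
theorem s1245 : ∀ a, 1225 ≤ a → a < 1245 → bChk a = true := step s1240 c1240
theorem s1250 : ∀ a, 1225 ≤ a → a < 1250 → bChk a = true := step s1245 c1245
theorem s1255 : ∀ a, 1225 ≤ a → a < 1255 → bChk a = true := step s1250 c1250
theorem s1260 : ∀ a, 1225 ≤ a → a < 1260 → bChk a = true := step s1255 c1255
theorem s1265 : ∀ a, 1225 ≤ a → a < 1265 → bChk a = true := step s1260 c1260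
theorem s1270 : ∀ a, 1225 ≤ a → a < 1270 → bChk a = true := step s1265 c1265
theorem s1275 : ∀ a, 1225 ≤ a → a < 1275 → bChk a = true := step s1270 c1270
theorem s1280 : ∀ a, 1225 ≤ a → a < 1280 → bChk a = true := step s1275 c1275
theorem s1285 : ∀ a, 1225 ≤ a → a < 1285 → bChk a = true := step s1280 c1280
theorem s1290 : ∀ a, 1225 ≤ a → a < 1290 → bChk a = true := step s1285 c1285
theorem s1295 : ∀ a, 1225 ≤ a → a < 1295 → bChk a = true := step s1290 c1290
theorem s1300 : ∀ a, 1225 ≤ a → a < 1300 → bChk a = true := step s1295 c1295
theorem s1305 : ∀ a, 1225 ≤ a → a < 1305 → bChk a = true := step s1300 c1300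
theorem s1310 : ∀ a, 1225 ≤ a → a < 1310 → bChk a = true := step s1305 c1305
theorem s1315 : ∀ a, 1225 ≤ a → a < 1315 → bChk a = true := step s1310 c1310
theorem s1320 : ∀ a, 1225 ≤ a → a < 1320 → bChk a = true := step s1315 c1315
theorem s1325 : ∀ a, 1225 ≤ a → a < 1325 → bChk a = true := step s1320 c1320
theorem s1330 : ∀ a, 1225 ≤ a → a < 1330 → bChk a = true := step s1325 c1325
theorem s1335 : ∀ a, 1225 ≤ a → a < 1335 → bChk a = true := step s1330 c1330
theorem s1340 : ∀ a, 1225 ≤ a → a < 1340 → bChk a = true := step s1335 c1335
theorem s1345 : ∀ a, 1225 ≤ a → a < 1345 → bChk a = true := step s1340 c1340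
theorem s1350 : ∀ a, 1225 ≤ a → a < 1350 → bChk a = true := step s1345 c1345
theorem s1355 : ∀ a, 1225 ≤ a → a < 1355 → bChk a = true := step s1350 c1350
theorem s1360 : ∀ a, 1225 ≤ a → a < 1360 → bChk a = true := step s1355 c1355
theorem s1365 : ∀ a, 1225 ≤ a → a < 1365 → bChk a = true := step s1360 c1360
theorem s1370 : ∀ a, 1225 ≤ a → a < 1370 → bChk a = true := step s1365 c1365
theorem s1375 : ∀ a, 1225 ≤ a → a < 1375 → bChk a = true := step s1370 c1370
theorem s1380 : ∀ a, 1225 ≤ a → a < 1380 → bChk a = true := step s1375 c1375
theorem s1385 : ∀ a, 1225 ≤ a → a < 1385 → bChk a = true := step s1380 c1380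
theorem s1390 : ∀ a, 1225 ≤ a → a < 1390 → bChk a = true := step s1385 c1385
theorem s1395 : ∀ a, 1225 ≤ a → a < 1395 → bChk a = true := step s1390 c1390
theorem s1400 : ∀ a, 1225 ≤ a → a < 1400 → bChk a = true := step s1395 c1395

theorem all : ∀ a, 1225 ≤ a → a < 1400 → bChk a = true := s1400

end Crest.Agent.R267.S6B8_95
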