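import Crest.Agent.R267.S6W_95

/-! Certificate of `S0406`: the checks. -/

set_option autoImplicit false

namespace Crest.Agent.R267.S6C_95

open Crest.Agent.R267 Crest.Agent.R267.EngK_95 Crest.Agent.R267.EngB_95 Crest.Agent.R267.EngC_95
  Crest.Agent.R267.EngN_95

def P : BPar where
  n := 2049
  s := 3
  nb := 683
  K := 30
  k := 8
  m := 9
  h := 128
  H := 256
  CB := 1000000

/-- append with an explicit recursor. -/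
noncomputable def app (l l' : List ℕ) : List ℕ :=
  @List.rec ℕ (fun _ => List ℕ) l' (fun a _ ih => a :: ih) l

theorem app_eq (l l' : List ℕ) : app l l' = l ++ l' := by
  induction l with
  | nil => rfl
  | cons a l ih => rw [List.cons_append, ← ih]; rfl

noncomputable def ub : List ℕ := app S6U1_95.u (app S6U2_95.u (app S6U3_95.u S6U4_95.u))

/-- level descriptions of `f`. -/
def dsF : List LD :=
  [⟨2, 14, 11, 14⟩, ⟨3, 14, 9, 14⟩, ⟨4, 14, 9, 14⟩, ⟨5, 6, 9, 14⟩, ⟨6, 6, 9, 14⟩, ⟨7, 6, 9, 14⟩,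
   ⟨8, 2, 9, 14⟩, ⟨9, 2, 9, 14⟩, ⟨10, 2, 9, 14⟩, ⟨11, 2, 7, 14⟩, ⟨12, 1, 4, 14⟩, ⟨13, 0, 4, 14⟩,
   ⟨14, 0, 4, 14⟩, ⟨15, 0, 4, 14⟩]

/-- level descriptions of `g`. -/
def dsG : List LD :=
  [⟨2, 11, 14, 14⟩, ⟨3, 10, 14, 14⟩, ⟨4, 6, 14, 14⟩, ⟨5, 6, 14, 14⟩, ⟨6, 6, 10, 14⟩,
   ⟨7, 6, 10, 14⟩, ⟨8, 3, 10, 14⟩, ⟨9, 3, 9, 14⟩, ⟨10, 3, 9, 14⟩, ⟨11, 3, 1, 14⟩, ⟨12, 3, 1, 14⟩,
   ⟨13, 3, 0, 14⟩, ⟨14, 3, 0, 14⟩, ⟨15, 3, 0, 14⟩]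

/-- check of row `a` of `A_g * U = W`. -/
noncomputable def aChk (a : ℕ) : Bool :=
  aRow P S6W_95.shs ub S6W_95.TU (nth 0 S6W_95.w (Nat.div a 3)) (Nat.mod a 3)
    (rowN 30 dsG (nth default S6W_95.rdG a))

/-- check of row `i` of `Uᵀ * W = A_f`. -/
noncomputable def bChk (i : ℕ) : Bool :=
  bRow P ub S6W_95.w S6W_95.TW i (rowN 180 dsF (nth default S6W_95.rdF i))

end Crest.Agent.R267.S6C_95
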