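import Crest.Agent.R267.S6C_95

/-! Certificate of `S0406`: block checks, lists of row data, chunk lemmas. -/

set_option autoImplicit false
set_option maxRecDepth 100000

namespace Crest.Agent.R267.S6D_95

open Crest.Agent.R267 Crest.Agent.R267.EngK_95 Crest.Agent.R267.EngB_95 Crest.Agent.R267.EngC_95
  Crest.Agent.R267.EngN_95 Crest.Agent.R267.S6C_95 NL_330

theorem P_ok : P.ok = true := by decide +kernel

theorem gu1 : lall (gbB 30 3 2049 8) S6U1_95.u = true := by decide +kernel
theorem gu2 : lall (gbB 30 3 2049 8) S6U2_95.u = true := by decide +kernel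
theorem gu3 : lall (gbB 30 3 2049 8) S6U3_95.u = true := by decide +kernel
theorem gu4 : lall (gbB 30 3 2049 8) S6U4_95.u = true := by decide +kernel
theorem gw : lall (gbB 30 3 2049 9) S6W_95.w = true := by decide +kernel

theorem lu1 : S6U1_95.u.length = 171 := by decide +kernel
theorem lu2 : S6U2_95.u.length = 171 := by decide +kernel
theorem lu3 : S6U3_95.u.length = 171 := by decide +kernel
theorem lu4 : S6U4_95.u.length = 170 := by decide +kernel
theorem lw : S6W_95.w.length = 683 := by decide +kernel

theorem TU_eq : Nat.beq S6W_95.TU (total 30 3 2049 ub) = true := by decide +kernel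
theorem TW_eq : Nat.beq S6W_95.TW (total 30 3 2049 S6W_95.w) = true := by decide +kernel

theorem shs_eq : S6W_95.shs = (List.range 683).map (fun β => 30 * 3 * β) := by decide +kernel

theorem rdF_eq : S6W_95.rdF = (idx NLb_330.rowsF 15).map (rd coreF) := by decide +kernel
theorem rdG_eq : S6W_95.rdG = (idx NLb_330.rowsG 15).map (rd coreG) := by decide +kernel

theorem dsF_ok : ∀ d ∈ dsF, LDok NLb_330.rowsF d := by decide +kernel
theorem dsG_ok : ∀ d ∈ dsG, LDok NLb_330.rowsG d := by decide +kernel
theorem dsF_k : dsF.map LD.k = List.range' 2 (15 - 1) := by decide +kernel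
theorem dsG_k : dsG.map LD.k = List.range' 2 (15 - 1) := by decide +kernel

/-- chain of chunks. -/
theorem step {f : ℕ → Bool} {lo m c : ℕ} (h : ∀ a, lo ≤ a → a < m → f a = true)
    (hc : lall f (List.range' m c) = true) : ∀ a, lo ≤ a → a < m + c → f a = true := by
  intro a h1 h2
  by_cases h3 : a < m
  · exact h a h1 h3
  · rw [lall_eq] at hc
    exact hc a (by rw [List.mem_range'_1]; omega)

theorem base {f : ℕ → Bool} {lo : ℕ} : ∀ a, lo ≤ a → a < lo → f a = true := by
  intro a h1 h2
  omega

end Crest.Agent.R267.S6D_95
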