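import Crest.Agent.R267.S6D_95

/-! Certificate of `S0406`: assembly, given the row checks. -/

set_option autoImplicit false
set_option maxRecDepth 100000

namespace Crest.Agent.R267.S6E_95

open Finset Matrix
open Crest.Agent.R267 Crest.Agent.R267.Eng_95 Crest.Agent.R267.EngK_95 Crest.Agent.R267.EngB_95
  Crest.Agent.R267.EngC_95 Crest.Agent.R267.EngN_95 Crest.Agent.R267.S6C_95
  Crest.Agent.R267.S6D_95 NL_330

theorem LP_bd : ∀ a b, 0 ≤ LP a b ∧ LP a b ≤ 1 := by decide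

theorem F_bd : (∀ a b, -1 ≤ coreF.D a b ∧ coreF.D a b ≤ 5) ∧
    ∀ b, -1 ≤ - ∑ c, LP b c * coreF.g c ∧ - ∑ c, LP b c * coreF.g c ≤ 5 := by decide

theorem G_bd : (∀ a b, -1 ≤ coreG.D a b ∧ coreG.D a b ≤ 5) ∧
    ∀ b, -1 ≤ - ∑ c, LP b c * coreG.g c ∧ - ∑ c, LP b c * coreG.g c ≤ 5 := by decide

theorem L0_bd {C : Core} (h : (∀ a b, -1 ≤ C.D a b ∧ C.D a b ≤ 5) ∧
    ∀ b, -1 ≤ - ∑ c, LP b c * C.g c ∧ - ∑ c, LP b c * C.g c ≤ 5) (u v : Lt) :
    -1 ≤ L0 C u v ∧ L0 C u v ≤ 5 := by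
  have key : ∀ z : ℤ, (0 ≤ z ∧ z ≤ 1) → (-1 ≤ z ∧ z ≤ 5) ∧ (-1 ≤ -z ∧ -z ≤ 5) := by
    intro z hz
    omega
  cases u <;> cases v <;> simp only [L0]
  case O.O a b => exact h.1 a b
  case X.O i b => exact h.2 b
  all_goals try split_ifs
  all_goals first
    | exact (key _ (LP_bd _ _)).1
    | exact (key _ (LP_bd _ _)).2
    | (constructor <;> norm_num)

theorem ent_bd {C : Core} (h : (∀ a b, -1 ≤ C.D a b ∧ C.D a b ≤ 5) ∧
    ∀ b, -1 ≤ - ∑ c, LP b c * C.g c ∧ - ∑ c, LP b c * C.g c ≤ 5) (x y : ℕ × Lt) :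
    -1 ≤ ent C x y ∧ ent C x y ≤ 5 := by
  unfold ent
  split_ifs
  · exact L0_bd h _ _
  · constructor <;> norm_num

/-- positions. -/
def d0 : ℕ × Lt := (0, .X 0)

def al (C : Core) (l : List (ℕ × Lt)) (a b : ℕ) : ℕ :=
  (ent C (l.getD a d0) (l.getD b d0) + 1).toNat

theorem al_lt {C : Core} (h : (∀ a b, -1 ≤ C.D a b ∧ C.D a b ≤ 5) ∧
    ∀ b, -1 ≤ - ∑ c, LP b c * C.g c ∧ - ∑ c, LP b c * C.g c ≤ 5) (l : List (ℕ × Lt)) (a b : ℕ) :
    al C l a b < 2 ^ 8 := by
  unfold al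
  have := ent_bd h (l.getD a d0) (l.getD b d0)
  omega

theorem getD_get {l : List (ℕ × Lt)} {n : ℕ} (h : l.length = n) (i : Fin n) :
    l.get (i.cast h.symm) = l.getD i d0 := by
  subst h
  simp [List.getD_eq_getElem?_getD]

theorem pos_al {C : Core} (hC : (∀ a b, -1 ≤ C.D a b ∧ C.D a b ≤ 5) ∧
    ∀ b, -1 ≤ - ∑ c, LP b c * C.g c ∧ - ∑ c, LP b c * C.g c ≤ 5) (R : Rows) (d m : ℕ)
    (h : (idx R d).length = m) (i j : Fin m) :
    pos C R d m h i j = (al C (idx R d) i j : ℤ) - 1 := by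
  unfold pos al
  rw [getD_get h, getD_get h]
  have := ent_bd hC ((idx R d).getD i d0) ((idx R d).getD j d0)
  omega

theorem row_eq {C : Core} {R : Rows} {n Q : ℕ} (hQ : 0 < Q) {ds : List LD} {rds : List RD}
    (hds : ∀ d ∈ ds, LDok R d) (hk : ds.map LD.k = List.range' 2 (15 - 1))
    (hn : (idx R 15).length = n) (hr : rds = (idx R 15).map (rd C)) {a : ℕ} (ha : a < n) :
    rowN Q ds (nth default rds a) = pk Q n (al C (idx R 15) a) := by
  have e1 : nth default rds a = rd C ((idx R 15).getD a d0) := by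
    rw [nth_eq, hr, List.getD_eq_getElem?_getD, List.getD_eq_getElem?_getD, List.getElem?_map,
      List.getElem?_eq_getElem (by omega)]
    rfl
  rw [e1, rowN_eq C R 15 Q hQ ds hds hk n hn]
  · rfl
  · rw [List.getD_eq_getElem?_getD, List.getElem?_eq_getElem (by omega), Option.getD_some]
    exact List.getElem_mem _

theorem good_list {K s n m : ℕ} {l : List ℕ} (hK : 0 < K) (hs : 0 < s) (hm : m ≤ K)
    (h : lall (gbB K s n m) l = true) : ∀ b ∈ l, GB K s n m b := by
  rw [lall_eq] at h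
  exact fun b hb => gb_of hK hs hm (h b hb)

theorem getD_mem {l : List ℕ} {n : ℕ} (hl : l.length = n) {b : ℕ} (hb : b < n) :
    l.getD b 0 ∈ l := by
  rw [List.getD_eq_getElem?_getD, List.getElem?_eq_getElem (by omega), Option.getD_some]
  exact List.getElem_mem _

theorem ub_len : ub.length = 683 := by
  unfold ub
  simp only [app_eq, List.length_append, lu1, lu2, lu3, lu4]

theorem ub_good : ∀ b ∈ ub, GB 30 3 2049 8 b := by
  intro b hb
  unfold ub at hb
  simp only [app_eq, List.mem_append] at hb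
  rcases hb with h | h | h | h
  · exact good_list (by norm_num) (by norm_num) (by norm_num) gu1 b h
  · exact good_list (by norm_num) (by norm_num) (by norm_num) gu2 b h
  · exact good_list (by norm_num) (by norm_num) (by norm_num) gu3 b h
  · exact good_list (by norm_num) (by norm_num) (by norm_num) gu4 b h

theorem hgU : ∀ β < P.nb, GB P.K P.s P.n P.k (ub.getD β 0) := by
  intro β hβ
  have hβ' : β < 683 := hβ
  have h := ub_good _ (getD_mem ub_len hβ')
  exact h

theorem hgW : ∀ β < P.nb, GB P.K P.s P.n P.m (S6W_95.w.getD β 0) := by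
  intro β hβ
  have hβ' : β < 683 := hβ
  have h := good_list (by norm_num) (by norm_num) (by norm_num) gw _ (getD_mem lw hβ')
  exact h

theorem hrA : ∀ a < P.n, rowN 30 dsG (nth default S6W_95.rdG a)
    = pk P.K P.n (al coreG (idx NLb_330.rowsG 15) a) := by
  intro a ha
  have ha' : a < 2049 := ha
  have h := row_eq (Q := 30) (by norm_num) dsG_ok dsG_k NLb_330.length_idxG rdG_eq ha'
  exact h

theorem hrB : ∀ a < P.n, rowN 180 dsF (nth default S6W_95.rdF a)
    = pk (P.K * (2 * P.s)) P.n (al coreF (idx NLb_330.rowsF 15) a) := by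
  intro a ha
  have ha' : a < 2049 := ha
  have h := row_eq (Q := 180) (by norm_num) dsF_ok dsF_k NLb_330.length_idxF rdF_eq ha'
  have e : P.K * (2 * P.s) = 180 := by norm_num [P]
  rw [e]
  exact h

theorem hAA (hA : ∀ a, a < 2049 → aChk a = true) : ∀ β < P.nb, ∀ r < P.s,
    aRow P S6W_95.shs ub S6W_95.TU (S6W_95.w.getD β 0) r
      (rowN 30 dsG (nth default S6W_95.rdG (P.s * β + r))) = true := by
  intro β hβ r hr
  have hβ' : β < 683 := hβ
  have hr' : r < 3 := hr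
  have h1 := hA (3 * β + r) (by omega)
  unfold aChk at h1
  have e1 : Nat.div (3 * β + r) 3 = β := by
    change (3 * β + r) / 3 = β
    omega
  have e2 : Nat.mod (3 * β + r) 3 = r := by
    change (3 * β + r) % 3 = r
    omega
  rw [e1, e2, nth_eq] at h1
  exact h1

theorem hTU : S6W_95.TU = total P.K P.s P.n ub := by
  have h := Nat.eq_of_beq_eq_true TU_eq
  have e : total P.K P.s P.n ub = total 30 3 2049 ub := rfl
  rw [e]
  exact h

theorem hTW : S6W_95.TW = total P.K P.s P.n S6W_95.w := by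
  have h := Nat.eq_of_beq_eq_true TW_eq
  have e : total P.K P.s P.n S6W_95.w = total 30 3 2049 S6W_95.w := rfl
  rw [e]
  exact h

/-- the assembly. -/
theorem cert_of (hA : ∀ a, a < 2049 → aChk a = true) (hB : ∀ a, a < 2049 → bChk a = true) :
    ∃ U : Matrix (Fin 2049) (Fin 2049) ℤ, Uᵀ * NLb_330.pAg * U = NLb_330.pAf := by
  have h := main_blocks (BPar.ok_iff P_ok) (shs := S6W_95.shs) (ubs := ub) (wbs := S6W_95.w)
    (TU := S6W_95.TU) (TW := S6W_95.TW)
    (rA := fun a => rowN 30 dsG (nth default S6W_95.rdG a))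
    (rB := fun a => rowN 180 dsF (nth default S6W_95.rdF a))
    (α := al coreG (idx NLb_330.rowsG 15)) (η := al coreF (idx NLb_330.rowsF 15))
    ub_len lw shs_eq hgU hgW
    hTU hTW
    (fun a _ b _ => al_lt G_bd _ a b) (fun a _ b _ => al_lt F_bd _ a b)
    hrA hrB (hAA hA)
    (fun i hi => hB i hi)
    NLb_330.pAg NLb_330.pAf
    (fun i j => pos_al G_bd _ _ _ _ i j) (fun i j => pos_al F_bd _ _ _ _ i j)
  exact ⟨_, h⟩

end Crest.Agent.R267.S6E_95
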