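import Crest.Agent.R267.S6E_95
import Crest.Agent.R267.S6A1_95
import Crest.Agent.R267.S6A2_95
import Crest.Agent.R267.S6A3_95
import Crest.Agent.R267.S6A4_95
import Crest.Agent.R267.S6A5_95
import Crest.Agent.R267.S6A6_95
import Crest.Agent.R267.S6A7_95
import Crest.Agent.R267.S6A8_95
import Crest.Agent.R267.S6A9_95
import Crest.Agent.R267.S6A10_95
import Crest.Agent.R267.S6A11_95
import Crest.Agent.R267.S6A12_95
import Crest.Agent.R267.S6B1_95
import Crest.Agent.R267.S6B2_95
import Crest.Agent.R267.S6B3_95
import Crest.Agent.R267.S6B4_95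
import Crest.Agent.R267.S6B5_95
import Crest.Agent.R267.S6B6_95
import Crest.Agent.R267.S6B7_95
import Crest.Agent.R267.S6B8_95
import Crest.Agent.R267.S6B9_95
import Crest.Agent.R267.S6B10_95
import Crest.Agent.R267.S6B11_95
import Crest.Agent.R267.S6B12_95

/-! **The certificate of `S0406`**: the official Seifert matrices of the pair with `μ = 2049` are
congruent over `ℤ` (matrix `U` found by helper9; checked in the kernel). -/

set_option autoImplicit false

namespace Crest.Agent.R267.S6F_95

open Matrix
open Crest.Agent.R267 Crest.Agent.R267.S6C_95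

theorem hA : ∀ a, a < 2049 → aChk a = true := by
  intro a ha
  by_cases h1 : a < 175
  · exact S6A1_95.all a (by omega) h1
  by_cases h2 : a < 350
  · exact S6A2_95.all a (by omega) h2
  by_cases h3 : a < 525
  · exact S6A3_95.all a (by omega) h3
  by_cases h4 : a < 700
  · exact S6A4_95.all a (by omega) h4
  by_cases h5 : a < 875
  · exact S6A5_95.all a (by omega) h5
  by_cases h6 : a < 1050
  · exact S6A6_95.all a (by omega) h6
  by_cases h7 : a < 1225
  · exact S6A7_95.all a (by omega) h7
  by_cases h8 : a < 1400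
  · exact S6A8_95.all a (by omega) h8
  by_cases h9 : a < 1575
  · exact S6A9_95.all a (by omega) h9
  by_cases h10 : a < 1750
  · exact S6A10_95.all a (by omega) h10
  by_cases h11 : a < 1925
  · exact S6A11_95.all a (by omega) h11
  exact S6A12_95.all a (by omega) ha

theorem hB : ∀ a, a < 2049 → bChk a = true := by
  intro a ha
  by_cases h1 : a < 175
  · exact S6B1_95.all a (by omega) h1
  by_cases h2 : a < 350
  · exact S6B2_95.all a (by omega) h2
  by_cases h3 : a < 525
  · exact S6B3_95.all a (by omega) h3
  by_cases h4 : a < 700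
  · exact S6B4_95.all a (by omega) h4
  by_cases h5 : a < 875
  · exact S6B5_95.all a (by omega) h5
  by_cases h6 : a < 1050
  · exact S6B6_95.all a (by omega) h6
  by_cases h7 : a < 1225
  · exact S6B7_95.all a (by omega) h7
  by_cases h8 : a < 1400
  · exact S6B8_95.all a (by omega) h8
  by_cases h9 : a < 1575
  · exact S6B9_95.all a (by omega) h9
  by_cases h10 : a < 1750
  · exact S6B10_95.all a (by omega) h10
  by_cases h11 : a < 1925
  · exact S6B11_95.all a (by omega) h11
  exact S6B12_95.all a (by omega) ha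

/-- **certificate**: `Uᵀ * A_g * U = A_f`. -/
theorem cert : ∃ U : Matrix (Fin 2049) (Fin 2049) ℤ, Uᵀ * NLb_330.pAg * U = NLb_330.pAf :=
  S6E_95.cert_of hA hB

open Crest.Agent.R267.P4Defs_780 in
theorem cong : Cong ℤ NLb_330.Ag NLb_330.Af := by
  obtain ⟨U, h⟩ := cert
  exact NLb_330.cong_of_pos' U h

/-- unit form (for `ClassGProp`). -/
theorem unit : ∃ u : (Matrix (Fin 2049) (Fin 2049) ℤ)ˣ,
    NLb_330.pAg = u.val.transpose * NLb_330.pAf * u.val := by
  obtain ⟨U, h⟩ := cert
  exact NLb_330.unit_of_pos' U h

end Crest.Agent.R267.S6F_95
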