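import Crest.Agent.R267.S6U1_95
import Crest.Agent.R267.S6U2_95
import Crest.Agent.R267.S6U3_95
import Crest.Agent.R267.S6U4_95

/-! Data for the certificate of `S0406`: blocks of `A_g * U`, total rows, row data. -/

set_option autoImplicit false

namespace Crest.Agent.R267.S6W_95
open Crest.Agent.R267.EngG_95 Crest.Agent.R267

noncomputable def w : List Nat := by
  emit_wblocks 30 3 2049 128 256 0 683 S6U1_95.u S6U2_95.u S6U3_95.u S6U4_95.u
noncomputable def TU : Nat := by emit_total 30 3 2049 S6U1_95.u S6U2_95.u S6U3_95.u S6U4_95.u
noncomputable def TW : Nat := by emit_total 30 3 2049 w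
noncomputable def shs : List Nat := by emit_mult 90 683
noncomputable def rdF : List EngN_95.RD := by emit_rdF
noncomputable def rdG : List EngN_95.RD := by emit_rdG

end Crest.Agent.R267.S6W_95
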