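import Crest.Agent.R267.SFDefs_330

/-!
# Bounding boxes for the letters (row 267, package P3.6)
-/

set_option autoImplicit false

namespace Crest.Agent.R267.SFBox_330

open SFLift_330 SFDefs_330

theorem ble_false {i n : ℕ} (h : n < i) : Nat.ble i n = false := by
  rw [← Bool.not_eq_true]
  intro h'
  exact absurd (Nat.le_of_ble_eq_true h') (Nat.not_le.2 h)

theorem beq_false {i n : ℕ} (h : n < i) : Nat.beq i n = false := by
  rw [← Bool.not_eq_true]
  intro h'
  exact absurd (Nat.eq_of_beq_eq_true h') (Nat.ne_of_gt h)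

theorem rayXF_bd {i : ℕ} (h : 2 ≤ rayXF i) : i < 19 := by
  by_contra hi
  have e : ∀ n, n ≤ 18 → Nat.ble i n = false := fun n hn => ble_false (by omega)
  rw [rayXF, e 2 (by omega), e 4 (by omega), e 5 (by omega), e 6 (by omega), e 10 (by omega),
    e 18 (by omega)] at h
  exact absurd h (by decide)

theorem rayYF_bd {i : ℕ} (h : 2 ≤ rayYF i) : i < 22 := by
  by_contra hi
  have e : ∀ n, n ≤ 21 → Nat.ble i n = false := fun n hn => ble_false (by omega)
  rw [rayYF, e 9 (by omega), e 14 (by omega), e 17 (by omega), e 19 (by omega),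
    e 21 (by omega)] at h
  exact absurd h (by decide)

theorem rayZF_bd {i : ℕ} (h : 2 ≤ rayZF i) : i < 15 := by
  by_contra hi
  have e : ∀ n, n ≤ 14 → Nat.ble i n = false := fun n hn => ble_false (by omega)
  rw [rayZF, e 9 (by omega), e 14 (by omega)] at h
  exact absurd h (by decide)

theorem rayXG_bd {i : ℕ} (h : 2 ≤ rayXG i) : i < 16 := by
  by_contra hi
  have e : ∀ n, n ≤ 15 → Nat.ble i n = false := fun n hn => ble_false (by omega)
  rw [rayXG, e 4 (by omega), e 7 (by omega), e 10 (by omega), e 14 (by omega),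
    e 15 (by omega)] at h
  exact absurd h (by decide)

theorem rayYG_bd {i : ℕ} (h : 2 ≤ rayYG i) : i < 25 := by
  by_contra hi
  have e : ∀ n, n ≤ 24 → Nat.ble i n = false := fun n hn => ble_false (by omega)
  rw [rayYG, e 4 (by omega), e 10 (by omega), e 11 (by omega), e 19 (by omega),
    e 20 (by omega), e 24 (by omega)] at h
  exact absurd h (by decide)

theorem rayZG_bd {i : ℕ} (h : 2 ≤ rayZG i) : i < 15 := by
  by_contra hi
  have e : ∀ n, n ≤ 14 → Nat.ble i n = false := fun n hn => ble_false (by omega)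
  rw [rayZG, e 4 (by omega), e 14 (by omega)] at h
  exact absurd h (by decide)

theorem hubF_bd {i j k : ℕ} (h : hubF i j k = true) : i ≤ 2 ∧ j ≤ 9 ∧ k ≤ 9 := by
  simp only [hubF, Bool.and_eq_true, Bool.or_eq_true, Nat.beq_eq, Nat.ble_eq] at h
  omega

theorem hubG_bd {i j k : ℕ} (h : hubG i j k = true) : i ≤ 4 ∧ j ≤ 4 ∧ k ≤ 4 := by
  simp only [hubG, Bool.and_eq_true, Nat.ble_eq] at h
  omega

theorem cellF_bd {i k : ℕ} (h : hasCellF i k = true) : i ≤ 2 ∧ k ≤ 4 := by
  simp only [hasCellF, Bool.and_eq_true, Bool.or_eq_true, Nat.beq_eq, Nat.ble_eq] at h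
  omega

theorem cellG_bd {i k : ℕ} (h : hasCellG i k = true) : i ≤ 4 ∧ k ≤ 2 := by
  simp only [hasCellG, Bool.and_eq_true, Bool.or_eq_true, Nat.beq_eq, Nat.ble_eq] at h
  omega

theorem wsF_bd {u : ℕ × ℕ × ℕ} (h : 2 ≤ wsF u) : u.1 < 19 ∧ u.2.1 < 22 ∧ u.2.2 < 15 := by
  unfold wsF at h
  cases h1 : hubF u.1 u.2.1 u.2.2
  · rw [h1, cond_false] at h
    cases h2 : (Nat.beq u.2.1 3 && Nat.beq u.2.2 3)
    · rw [h2, cond_false] at h
      cases h3 : hasCellF u.1 u.2.2
      · rw [h3, cond_false] at h
        cases h4 : hasCellF u.1 u.2.1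
        · rw [h4, cond_false] at h
          exact absurd h (by decide)
        · rw [h4, cond_true] at h
          have a := cellF_bd h4
          have b := rayZF_bd h
          omega
      · rw [h3, cond_true] at h
        have a := cellF_bd h3
        have b := rayYF_bd h
        omega
    · rw [h2, cond_true] at h
      have b := rayXF_bd h
      rw [Bool.and_eq_true, Nat.beq_eq, Nat.beq_eq] at h2
      omega
  · have := hubF_bd h1
    omega

theorem wsG_bd {u : ℕ × ℕ × ℕ} (h : 2 ≤ wsG u) : u.1 < 16 ∧ u.2.1 < 25 ∧ u.2.2 < 15 := by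
  unfold wsG at h
  cases h1 : hubG u.1 u.2.1 u.2.2
  · rw [h1, cond_false] at h
    cases h2 : (Nat.beq u.2.1 2 && Nat.beq u.2.2 2)
    · rw [h2, cond_false] at h
      cases h3 : hasCellG u.1 u.2.2
      · rw [h3, cond_false] at h
        cases h4 : hasCellG u.1 u.2.1
        · rw [h4, cond_false] at h
          exact absurd h (by decide)
        · rw [h4, cond_true] at h
          have a := cellG_bd h4
          have b := rayZG_bd h
          omega
      · rw [h3, cond_true] at h
        have a := cellG_bd h3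
        have b := rayYG_bd h
        omega
    · rw [h2, cond_true] at h
      have b := rayXG_bd h
      rw [Bool.and_eq_true, Nat.beq_eq, Nat.beq_eq] at h2
      omega
  · have := hubG_bd h1
    omega

/-- all letters of a table of weights lie in the box `9 × 6 × 15`. -/
theorem wtC_bd {u : ℕ × ℕ × ℕ} (h : 2 ≤ wtC u) : u.1 < 9 ∧ u.2.1 < 6 ∧ u.2.2 < 15 := by
  unfold wtC at h
  cases h1 : (Nat.beq u.1 0 || Nat.beq u.1 1)
  · rw [h1, cond_false] at h
    cases h2 : Nat.beq u.1 4
    · rw [h2, cond_false] at h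
      cases h3 : (Nat.beq u.1 5 || Nat.beq u.1 7)
      · rw [h3, cond_false] at h
        cases h4 : (Nat.beq u.1 6 || Nat.beq u.1 8)
        · rw [h4, cond_false] at h
          exact absurd h (by decide)
        · rw [h4, cond_true] at h
          cases h5 : (Nat.ble u.2.1 5 && Nat.ble 1 u.2.2 && Nat.ble u.2.2 5)
          · rw [h5] at h; exact absurd h (by decide)
          · simp only [Bool.and_eq_true, Bool.or_eq_true, Nat.beq_eq, Nat.ble_eq] at h4 h5
            omega
      · rw [h3, cond_true] at h
        cases h5 : (Nat.beq u.2.1 0 && Nat.ble 1 u.2.2 && Nat.ble u.2.2 2)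
        · rw [h5] at h; exact absurd h (by decide)
        · simp only [Bool.and_eq_true, Bool.or_eq_true, Nat.beq_eq, Nat.ble_eq] at h3 h5
          omega
    · rw [h2, cond_true] at h
      cases h5 : (Nat.ble u.2.1 5 && Nat.ble 1 u.2.2 && Nat.ble u.2.2 14)
      · rw [h5] at h; exact absurd h (by decide)
      · simp only [Bool.and_eq_true, Nat.beq_eq, Nat.ble_eq] at h2 h5
        omega
  · rw [h1, cond_true] at h
    cases h5 : (Nat.ble u.2.1 5 && Nat.beq u.2.2 0)
    · rw [h5] at h; exact absurd h (by decide)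
    · simp only [Bool.and_eq_true, Bool.or_eq_true, Nat.beq_eq, Nat.ble_eq] at h1 h5
      omega

theorem wtF_bd {u : ℕ × ℕ × ℕ} (h : 2 ≤ wtF u) : u.1 < 9 ∧ u.2.1 < 6 ∧ u.2.2 < 15 := by
  unfold wtF at h
  cases h1 : Nat.beq u.1 2
  · rw [h1, cond_false] at h
    cases h2 : Nat.beq u.1 3
    · rw [h2, cond_false] at h
      exact wtC_bd h
    · rw [h2, cond_true] at h
      cases h5 : (Nat.ble u.2.1 5 && Nat.ble 1 u.2.2)
      · rw [h5, cond_false] at h; exact absurd h (by decide)
      · rw [h5, cond_true] at h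
        have : u.2.2 < 15 := by
          by_contra hi
          have e : ∀ n, n ≤ 14 → Nat.ble u.2.2 n = false := fun n hn => ble_false (by omega)
          rw [e 4 (by omega), e 7 (by omega), e 9 (by omega), e 11 (by omega)] at h
          exact absurd h (by decide)
        simp only [Bool.and_eq_true, Nat.beq_eq, Nat.ble_eq] at h2 h5
        omega
  · rw [h1, cond_true] at h
    cases h5 : (Nat.beq u.2.1 0 && Nat.ble 1 u.2.2)
    · rw [h5, cond_false] at h; exact absurd h (by decide)
    · rw [h5, cond_true] at h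
      have : u.2.2 < 15 := by
        by_contra hi
        have e : ∀ n, n ≤ 14 → Nat.ble u.2.2 n = false := fun n hn => ble_false (by omega)
        rw [e 1 (by omega), e 2 (by omega), e 6 (by omega), e 14 (by omega)] at h
        exact absurd h (by decide)
      simp only [Bool.and_eq_true, Nat.beq_eq, Nat.ble_eq] at h1 h5
      omega

theorem wtG_bd {u : ℕ × ℕ × ℕ} (h : 2 ≤ wtG u) : u.1 < 9 ∧ u.2.1 < 6 ∧ u.2.2 < 15 := by
  unfold wtG at h
  cases h1 : Nat.beq u.1 2
  · rw [h1, cond_false] at h
    cases h2 : Nat.beq u.1 3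
    · rw [h2, cond_false] at h
      exact wtC_bd h
    · rw [h2, cond_true] at h
      cases h5 : (Nat.ble u.2.1 5 && Nat.ble 1 u.2.2)
      · rw [h5, cond_false] at h; exact absurd h (by decide)
      · rw [h5, cond_true] at h
        have : u.2.2 < 15 := by
          by_contra hi
          have e : ∀ n, n ≤ 14 → Nat.ble u.2.2 n = false := fun n hn => ble_false (by omega)
          rw [e 1 (by omega), e 9 (by omega), e 10 (by omega), e 14 (by omega)] at h
          exact absurd h (by decide)
        simp only [Bool.and_eq_true, Nat.beq_eq, Nat.ble_eq] at h2 h5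
        omega
  · rw [h1, cond_true] at h
    cases h5 : (Nat.beq u.2.1 0 && Nat.ble 1 u.2.2)
    · rw [h5, cond_false] at h; exact absurd h (by decide)
    · rw [h5, cond_true] at h
      have : u.2.2 < 15 := by
        by_contra hi
        have e : ∀ n, n ≤ 14 → Nat.ble u.2.2 n = false := fun n hn => ble_false (by omega)
        rw [e 3 (by omega), e 6 (by omega), e 10 (by omega), e 11 (by omega)] at h
        exact absurd h (by decide)
      simp only [Bool.and_eq_true, Nat.beq_eq, Nat.ble_eq] at h1 h5
      omega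

/-- bounded quantifier. -/
noncomputable def ballR (n : ℕ) (p : ℕ → Bool) : Bool :=
  Nat.rec true (fun k ih => cond (p k) ih false) n

theorem ballR_elim {n : ℕ} {p : ℕ → Bool} (h : ballR n p = true) {k : ℕ} (hk : k < n) :
    p k = true := by
  induction n with
  | zero => omega
  | succ n ih =>
    have e : ballR (n + 1) p = cond (p n) (ballR n p) false := rfl
    rw [e] at h
    cases hp : p n
    · rw [hp] at h; exact absurd h Bool.false_ne_true
    · rw [hp, cond_true] at h
      rcases Nat.lt_succ_iff_lt_or_eq.1 hk with h1 | h1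
      · exact ih h h1
      · rw [h1]; exact hp

/-- every letter of weight at least two in the box is in the table. -/
noncomputable def boxR (a b c : ℕ) (ws : T → ℕ) (tab : Tab) : Bool :=
  ballR a fun i => ballR b fun j => ballR c fun k =>
    cond (Nat.ble 2 (ws (i, j, k))) (memR tab (i, j, k)) true

theorem boxR_elim {a b c : ℕ} {ws : T → ℕ} {tab : Tab} (h : boxR a b c ws tab = true)
    {u : T} (hb : u.1 < a ∧ u.2.1 < b ∧ u.2.2 < c) (hu : 2 ≤ ws u) : memR tab u = true := by
  obtain ⟨i, j, k⟩ := u
  have h1 := ballR_elim (ballR_elim (ballR_elim h hb.1) hb.2.1) hb.2.2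
  have h2 : Nat.ble 2 (ws (i, j, k)) = true := Nat.ble_eq_true_of_le hu
  rw [h2, cond_true] at h1
  exact h1

end Crest.Agent.R267.SFBox_330
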