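import Crest.Agent.R267.SFDataF_330
import Crest.Agent.R267.SFBox_330

set_option autoImplicit false
set_option maxRecDepth 100000

namespace Crest.Agent.R267.SFChkF_330

open SFLift_330 SFDefs_330 SFDataF_330 SFBox_330

theorem inv0 : invR tab dtab0 = true := by decide +kernel

theorem inv1 : invR tab dtab1 = true := by decide +kernel

theorem inv2 : invR tab dtab2 = true := by decide +kernel

theorem inv3 : invR tab dtab3 = true := by decide +kernel

theorem inv4 : invR tab dtab4 = true := by decide +kernel

theorem inv5 : invR tab dtab5 = true := by decide +kernel

theorem inv6 : invR tab dtab6 = true := by decide +kernel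

theorem inv7 : invR tab dtab7 = true := by decide +kernel

theorem dinv0 : invR dtab tab0 = true := by decide +kernel

theorem dinv1 : invR dtab tab1 = true := by decide +kernel

theorem dinv2 : invR dtab tab2 = true := by decide +kernel

theorem dinv3 : invR dtab tab3 = true := by decide +kernel

theorem dinv4 : invR dtab tab4 = true := by decide +kernel

theorem dinv5 : invR dtab tab5 = true := by decide +kernel

theorem dinv6 : invR dtab tab6 = true := by decide +kernel

theorem dinv7 : invR dtab tab7 = true := by decide +kernel

theorem flag : flagR wsF wtF tab = true := by decide +kernel

theorem dflag : flagR wtF wsF dtab = true := by decide +kernel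

theorem boxT : boxR 9 6 15 wtF tab = true := by decide +kernel

theorem boxS : boxR 19 22 15 wsF dtab = true := by decide +kernel

end Crest.Agent.R267.SFChkF_330
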