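import Crest.Agent.R267.SFDataF_330
import Crest.Agent.R267.SFBox_330

set_option autoImplicit false
set_option maxRecDepth 100000

namespace Crest.Agent.R267.SFChkF_330

open SFLift_330 SFDefs_330 SFDataF_330 SFBox_330

theorem form0 : formR (sF 3 5 10 15) (tF DnF wvF 0 4) tab0 dtab = true := by decide +kernel

theorem form1 : formR (sF 3 5 10 15) (tF DnF wvF 0 4) tab1 dtab = true := by decide +kernel

theorem form2 : formR (sF 3 5 10 15) (tF DnF wvF 0 4) tab2 dtab = true := by decide +kernel

theorem form3 : formR (sF 3 5 10 15) (tF DnF wvF 0 4) tab3 dtab = true := by decide +kernel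

end Crest.Agent.R267.SFChkF_330
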