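import Crest.Agent.R267.SFChkGa_330
import Crest.Agent.R267.SFChkGb_330
import Crest.Agent.R267.SFChkGc_330

set_option autoImplicit false

namespace Crest.Agent.R267.SFChkG_330

open SFLift_330 SFDefs_330 SFDataG_330 SFBox_330 P4Defs_780

theorem form : formR (sF 6 8 6 11) (tF DnG wvG 3 0) tab dtab = true :=
  allR_cat form0 (allR_cat form1 (allR_cat form2 (allR_cat form3 (allR_cat form4 (allR_cat form5 (allR_cat form6 (form7)))))))

theorem inv : invR tab dtab = true :=
  allR_cat inv0 (allR_cat inv1 (allR_cat inv2 (allR_cat inv3 (allR_cat inv4 (allR_cat inv5 (allR_cat inv6 (inv7)))))))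

theorem dinv : invR dtab tab = true :=
  allR_cat dinv0 (allR_cat dinv1 (allR_cat dinv2 (allR_cat dinv3 (allR_cat dinv4 (allR_cat dinv5 (allR_cat dinv6 (dinv7)))))))

/-- one-level signed S-form of `g`. -/
def MS : Fm T where
  ws := wsG
  F := sF 6 8 6 11

/-- one-level target form of `g`. -/
def MT : Fm T where
  ws := wtG
  F := tF DnG wvG 3 0

/-- **the signed S-form is congruent to the target form**. -/
theorem cong {I I' : Type} [Fintype I] [DecidableEq I] [Fintype I'] [DecidableEq I']
    {lab : I → ℕ × T} {lab' : I' → ℕ × T} (h : IsLab MS lab) (h' : IsLab MT lab') :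
    Cong ℤ (Mat MS lab) (Mat MT lab') :=
  lift_cong_tab MS MT h h' tab dtab (fun _ hy => boxR_elim boxT (wtG_bd hy) hy)
    (fun _ hx => boxR_elim boxS (wsG_bd hx) hx) flag dflag form inv dinv

end Crest.Agent.R267.SFChkG_330
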