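import Crest.Agent.R267.SFDefs_330

set_option autoImplicit false

namespace Crest.Agent.R267.SFDataG_330

open SFLift_330 SFDefs_330

noncomputable def tab0 : Tab := [
((nat_lit 0,nat_lit 0,nat_lit 0),[((nat_lit 1,nat_lit 1,nat_lit 1),Int.ofNat (nat_lit 1)),((nat_lit 1,nat_lit 1,nat_lit 3),Int.negSucc (nat_lit 0)),((nat_lit 1,nat_lit 3,nat_lit 1),Int.negSucc (nat_lit 0)),((nat_lit 3,nat_lit 2,nat_lit 2),Int.negSucc (nat_lit 0)),((nat_lit 3,nat_lit 3,nat_lit 3),Int.ofNat (nat_lit 1))]),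
((nat_lit 0,nat_lit 1,nat_lit 0),[((nat_lit 2,nat_lit 1,nat_lit 1),Int.ofNat (nat_lit 1)),((nat_lit 2,nat_lit 1,nat_lit 4),Int.negSucc (nat_lit 0)),((nat_lit 2,nat_lit 3,nat_lit 3),Int.negSucc (nat_lit 0)),((nat_lit 2,nat_lit 4,nat_lit 1),Int.negSucc (nat_lit 0)),((nat_lit 2,nat_lit 4,nat_lit 4),Int.ofNat (nat_lit 1)),((nat_lit 3,nat_lit 2,nat_lit 2),Int.negSucc (nat_lit 0)),((nat_lit 3,nat_lit 3,nat_lit 3),Int.ofNat (nat_lit 1)),((nat_lit 4,nat_lit 1,nat_lit 3),Int.negSucc (nat_lit 0)),((nat_lit 4,nat_lit 1,nat_lit 4),Int.ofNat (nat_lit 1)),((nat_lit 4,nat_lit 3,nat_lit 1),Int.negSucc (nat_lit 0)),((nat_lit 4,nat_lit 3,nat_lit 3),Int.ofNat (nat_lit 1)),((nat_lit 4,nat_lit 4,nat_lit 1),Int.ofNat (nat_lit 1)),((nat_lit 4,nat_lit 4,nat_lit 4),Int.negSucc (nat_lit 0))]),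
((nat_lit 0,nat_lit 2,nat_lit 0),[((nat_lit 3,nat_lit 1,nat_lit 1),Int.ofNat (nat_lit 1)),((nat_lit 3,nat_lit 1,nat_lit 4),Int.negSucc (nat_lit 0)),((nat_lit 3,nat_lit 2,nat_lit 2),Int.negSucc (nat_lit 0)),((nat_lit 3,nat_lit 4,nat_lit 1),Int.negSucc (nat_lit 0)),((nat_lit 3,nat_lit 4,nat_lit 4),Int.ofNat (nat_lit 1)),((nat_lit 4,nat_lit 1,nat_lit 3),Int.negSucc (nat_lit 0)),((nat_lit 4,nat_lit 1,nat_lit 4),Int.ofNat (nat_lit 1)),((nat_lit 4,nat_lit 3,nat_lit 1),Int.negSucc (nat_lit 0)),((nat_lit 4,nat_lit 3,nat_lit 3),Int.ofNat (nat_lit 1)),((nat_lit 4,nat_lit 4,nat_lit 1),Int.ofNat (nat_lit 1)),((nat_lit 4,nat_lit 4,nat_lit 4),Int.negSucc (nat_lit 0))]),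
((nat_lit 0,nat_lit 3,nat_lit 0),[((nat_lit 4,nat_lit 1,nat_lit 1),Int.ofNat (nat_lit 1)),((nat_lit 4,nat_lit 1,nat_lit 3),Int.negSucc (nat_lit 0)),((nat_lit 4,nat_lit 2,nat_lit 2),Int.negSucc (nat_lit 0)),((nat_lit 4,nat_lit 3,nat_lit 1),Int.negSucc (nat_lit 0)),((nat_lit 4,nat_lit 3,nat_lit 3),Int.ofNat (nat_lit 1))]),
((nat_lit 0,nat_lit 4,nat_lit 0),[((nat_lit 1,nat_lit 2,nat_lit 2),Int.ofNat (nat_lit 1)),((nat_lit 1,nat_lit 2,nat_lit 4),Int.negSucc (nat_lit 0)),((nat_lit 1,nat_lit 3,nat_lit 3),Int.negSucc (nat_lit 0)),((nat_lit 1,nat_lit 4,nat_lit 2),Int.negSucc (nat_lit 0)),((nat_lit 1,nat_lit 4,nat_lit 4),Int.ofNat (nat_lit 1)),((nat_lit 3,nat_lit 2,nat_lit 2),Int.negSucc (nat_lit 0)),((nat_lit 3,nat_lit 3,nat_lit 3),Int.ofNat (nat_lit 1))]),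
((nat_lit 0,nat_lit 5,nat_lit 0),[((nat_lit 2,nat_lit 2,nat_lit 2),Int.ofNat (nat_lit 1)),((nat_lit 2,nat_lit 2,nat_lit 4),Int.negSucc (nat_lit 0)),((nat_lit 2,nat_lit 3,nat_lit 3),Int.negSucc (nat_lit 0)),((nat_lit 2,nat_lit 4,nat_lit 2),Int.negSucc (nat_lit 0)),((nat_lit 2,nat_lit 4,nat_lit 4),Int.ofNat (nat_lit 1)),((nat_lit 3,nat_lit 2,nat_lit 2),Int.negSucc (nat_lit 0)),((nat_lit 3,nat_lit 3,nat_lit 3),Int.ofNat (nat_lit 1))]),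
((nat_lit 1,nat_lit 0,nat_lit 0),[((nat_lit 1,nat_lit 1,nat_lit 1),Int.negSucc (nat_lit 1)),((nat_lit 1,nat_lit 1,nat_lit 3),Int.ofNat (nat_lit 1)),((nat_lit 1,nat_lit 3,nat_lit 1),Int.ofNat (nat_lit 1)),((nat_lit 2,nat_lit 1,nat_lit 1),Int.negSucc (nat_lit 0)),((nat_lit 2,nat_lit 1,nat_lit 4),Int.ofNat (nat_lit 1)),((nat_lit 2,nat_lit 3,nat_lit 3),Int.ofNat (nat_lit 1)),((nat_lit 2,nat_lit 4,nat_lit 1),Int.ofNat (nat_lit 1)),((nat_lit 2,nat_lit 4,nat_lit 4),Int.negSucc (nat_lit 0)),((nat_lit 3,nat_lit 2,nat_lit 2),Int.ofNat (nat_lit 2)),((nat_lit 3,nat_lit 3,nat_lit 3),Int.negSucc (nat_lit 1)),((nat_lit 4,nat_lit 1,nat_lit 1),Int.ofNat (nat_lit 1)),((nat_lit 4,nat_lit 1,nat_lit 4),Int.negSucc (nat_lit 0)),((nat_lit 4,nat_lit 2,nat_lit 2),Int.negSucc (nat_lit 0)),((nat_lit 4,nat_lit 4,nat_lit 1),Int.negSucc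 (nat_lit 0)),((nat_lit 4,nat_lit 4,nat_lit 4),Int.ofNat (nat_lit 1))]),
((nat_lit 1,nat_lit 1,nat_lit 0),[((nat_lit 1,nat_lit 2,nat_lit 2),Int.negSucc (nat_lit 1)),((nat_lit 1,nat_lit 2,nat_lit 4),Int.ofNat (nat_lit 2)),((nat_lit 1,nat_lit 3,nat_lit 3),Int.ofNat (nat_lit 2)),((nat_lit 1,nat_lit 4,nat_lit 2),Int.ofNat (nat_lit 2)),((nat_lit 1,nat_lit 4,nat_lit 4),Int.negSucc (nat_lit 1)),((nat_lit 2,nat_lit 1,nat_lit 1),Int.negSucc (nat_lit 0)),((nat_lit 3,nat_lit 1,nat_lit 1),Int.negSucc (nat_lit 1)),((nat_lit 3,nat_lit 1,nat_lit 4),Int.ofNat (nat_lit 2)),((nat_lit 3,nat_lit 2,nat_lit 2),Int.ofNat (nat_lit 4)),((nat_lit 3,nat_lit 3,nat_lit 3),Int.negSucc (nat_lit 1)),((nat_lit 3,nat_lit 4,nat_lit 1),Int.ofNat (nat_lit 2)),((nat_lit 3,nat_lit 4,nat_lit 4),Int.negSucc (nat_lit 1)),((nat_lit 4,nat_lit 1,nat_lit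 1),Int.ofNat (nat_lit 2)),((nat_lit 4,nat_lit 1,nat_lit 4),Int.negSucc (nat_lit 1)),((nat_lit 4,nat_lit 2,nat_lit 2),Int.negSucc (nat_lit 1)),((nat_lit 4,nat_lit 4,nat_lit 1),Int.negSucc (nat_lit 1)),((nat_lit 4,nat_lit 4,nat_lit 4),Int.ofNat (nat_lit 2))]),
((nat_lit 1,nat_lit 2,nat_lit 0),[((nat_lit 1,nat_lit 1,nat_lit 1),Int.ofNat (nat_lit 1)),((nat_lit 1,nat_lit 1,nat_lit 3),Int.negSucc (nat_lit 0)),((nat_lit 1,nat_lit 2,nat_lit 2),Int.negSucc (nat_lit 0)),((nat_lit 1,nat_lit 2,nat_lit 4),Int.ofNat (nat_lit 1)),((nat_lit 1,nat_lit 3,nat_lit 1),Int.negSucc (nat_lit 0)),((nat_lit 1,nat_lit 3,nat_lit 3),Int.ofNat (nat_lit 1)),((nat_lit 1,nat_lit 4,nat_lit 2),Int.ofNat (nat_lit 1)),((nat_lit 1,nat_lit 4,nat_lit 4),Int.negSucc (nat_lit 0)),((nat_lit 2,nat_lit 1,nat_lit 1),Int.negSucc (nat_lit 0)),((nat_lit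 2,nat_lit 1,nat_lit 4),Int.ofNat (nat_lit 1)),((nat_lit 2,nat_lit 2,nat_lit 2),Int.negSucc (nat_lit 0)),((nat_lit 2,nat_lit 2,nat_lit 4),Int.ofNat (nat_lit 1)),((nat_lit 2,nat_lit 3,nat_lit 3),Int.ofNat (nat_lit 2)),((nat_lit 2,nat_lit 4,nat_lit 1),Int.ofNat (nat_lit 1)),((nat_lit 2,nat_lit 4,nat_lit 2),Int.ofNat (nat_lit 1)),((nat_lit 2,nat_lit 4,nat_lit 4),Int.negSucc (nat_lit 1)),((nat_lit 3,nat_lit 1,nat_lit 4),Int.negSucc (nat_lit 0)),((nat_lit 3,nat_lit 2,nat_lit 2),Int.ofNat (nat_lit 2)),((nat_lit 3,nat_lit 3,nat_lit 3),Int.negSucc (nat_lit 1)),((nat_lit 3,nat_lit 4,nat_lit 1),Int.negSucc (nat_lit 0)),((nat_lit 3,nat_lit 4,nat_lit 4),Int.ofNat (nat_lit 1))]),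
((nat_lit 1,nat_lit 3,nat_lit 0),[((nat_lit 1,nat_lit 1,nat_lit 1),Int.ofNat (nat_lit 1)),((nat_lit 1,nat_lit 1,nat_lit 3),Int.negSucc (nat_lit 0)),((nat_lit 1,nat_lit 3,nat_lit 1),Int.negSucc (nat_lit 0)),((nat_lit 2,nat_lit 1,nat_lit 1),Int.ofNat (nat_lit 1)),((nat_lit 2,nat_lit 1,nat_lit 4),Int.negSucc (nat_lit 0)),((nat_lit 2,nat_lit 2,nat_lit 2),Int.negSucc (nat_lit 1)),((nat_lit 2,nat_lit 2,nat_lit 4),Int.ofNat (nat_lit 2)),((nat_lit 2,nat_lit 3,nat_lit 3),Int.ofNat (nat_lit 1)),((nat_lit 2,nat_lit 4,nat_lit 1),Int.negSucc (nat_lit 0)),((nat_lit 2,nat_lit 4,nat_lit 2),Int.ofNat (nat_lit 2)),((nat_lit 2,nat_lit 4,nat_lit 4),Int.negSucc (nat_lit 0)),((nat_lit 3,nat_lit 1,nat_lit 1),Int.negSucc (nat_lit 1)),((nat_lit 3,nat_lit 1,nat_lit 4),Int.ofNat (nat_lit 2)),((nat_lit 3,nat_lit 2,nat_lit 2),Int.ofNat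 (nat_lit 2)),((nat_lit 3,nat_lit 4,nat_lit 1),Int.ofNat (nat_lit 2)),((nat_lit 3,nat_lit 4,nat_lit 4),Int.negSucc (nat_lit 1)),((nat_lit 4,nat_lit 1,nat_lit 1),Int.ofNat (nat_lit 2)),((nat_lit 4,nat_lit 1,nat_lit 3),Int.negSucc (nat_lit 1)),((nat_lit 4,nat_lit 1,nat_lit 4),Int.negSucc (nat_lit 0)),((nat_lit 4,nat_lit 2,nat_lit 2),Int.negSucc (nat_lit 2)),((nat_lit 4,nat_lit 3,nat_lit 1),Int.negSucc (nat_lit 1)),((nat_lit 4,nat_lit 3,nat_lit 3),Int.ofNat (nat_lit 2)),((nat_lit 4,nat_lit 4,nat_lit 1),Int.negSucc (nat_lit 0)),((nat_lit 4,nat_lit 4,nat_lit 4),Int.ofNat (nat_lit 1))]),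
((nat_lit 1,nat_lit 4,nat_lit 0),[((nat_lit 1,nat_lit 2,nat_lit 2),Int.ofNat (nat_lit 1)),((nat_lit 1,nat_lit 2,nat_lit 4),Int.negSucc (nat_lit 1)),((nat_lit 1,nat_lit 3,nat_lit 3),Int.negSucc (nat_lit 0)),((nat_lit 1,nat_lit 4,nat_lit 2),Int.negSucc (nat_lit 1)),((nat_lit 1,nat_lit 4,nat_lit 4),Int.ofNat (nat_lit 2)),((nat_lit 2,nat_lit 1,nat_lit 1),Int.negSucc (nat_lit 1)),((nat_lit 2,nat_lit 1,nat_lit 4),Int.ofNat (nat_lit 2)),((nat_lit 2,nat_lit 3,nat_lit 3),Int.ofNat (nat_lit 2)),((nat_lit 2,nat_lit 4,nat_lit 1),Int.ofNat (nat_lit 2)),((nat_lit 2,nat_lit 4,nat_lit 4),Int.negSucc (nat_lit 1)),((nat_lit 3,nat_lit 2,nat_lit 2),Int.ofNat (nat_lit 1)),((nat_lit 3,nat_lit 3,nat_lit 3),Int.negSucc (nat_lit 0)),((nat_lit 4,nat_lit 1,nat_lit 3),Int.ofNat (nat_lit 2)),((nat_lit 4,nat_lit 1,nat_lit 4),Int.negSucc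 (nat_lit 1)),((nat_lit 4,nat_lit 3,nat_lit 1),Int.ofNat (nat_lit 2)),((nat_lit 4,nat_lit 3,nat_lit 3),Int.negSucc (nat_lit 1)),((nat_lit 4,nat_lit 4,nat_lit 1),Int.negSucc (nat_lit 1)),((nat_lit 4,nat_lit 4,nat_lit 4),Int.ofNat (nat_lit 2))]),
((nat_lit 1,nat_lit 5,nat_lit 0),[((nat_lit 2,nat_lit 2,nat_lit 2),Int.negSucc (nat_lit 0)),((nat_lit 3,nat_lit 1,nat_lit 1),Int.negSucc (nat_lit 1)),((nat_lit 3,nat_lit 1,nat_lit 4),Int.ofNat (nat_lit 2)),((nat_lit 3,nat_lit 2,nat_lit 2),Int.ofNat (nat_lit 2)),((nat_lit 3,nat_lit 4,nat_lit 1),Int.ofNat (nat_lit 2)),((nat_lit 3,nat_lit 4,nat_lit 4),Int.negSucc (nat_lit 1)),((nat_lit 4,nat_lit 1,nat_lit 3),Int.ofNat (nat_lit 2)),((nat_lit 4,nat_lit 1,nat_lit 4),Int.negSucc (nat_lit 1)),((nat_lit 4,nat_lit 3,nat_lit 1),Int.ofNat (nat_lit 2)),((nat_lit 4,nat_lit 3,nat_lit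 3),Int.negSucc (nat_lit 1)),((nat_lit 4,nat_lit 4,nat_lit 1),Int.negSucc (nat_lit 1)),((nat_lit 4,nat_lit 4,nat_lit 4),Int.ofNat (nat_lit 2))]),
((nat_lit 2,nat_lit 0,nat_lit 1),[((nat_lit 1,nat_lit 1,nat_lit 1),Int.ofNat (nat_lit 1)),((nat_lit 1,nat_lit 1,nat_lit 3),Int.negSucc (nat_lit 0)),((nat_lit 1,nat_lit 3,nat_lit 1),Int.negSucc (nat_lit 0)),((nat_lit 1,nat_lit 3,nat_lit 3),Int.ofNat (nat_lit 1))]),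
((nat_lit 2,nat_lit 0,nat_lit 2),[((nat_lit 1,nat_lit 1,nat_lit 1),Int.ofNat (nat_lit 1)),((nat_lit 1,nat_lit 1,nat_lit 3),Int.negSucc (nat_lit 0)),((nat_lit 1,nat_lit 2,nat_lit 2),Int.negSucc (nat_lit 0)),((nat_lit 1,nat_lit 2,nat_lit 4),Int.ofNat (nat_lit 1)),((nat_lit 1,nat_lit 3,nat_lit 1),Int.negSucc (nat_lit 0)),((nat_lit 1,nat_lit 3,nat_lit 3),Int.ofNat (nat_lit 1)),((nat_lit 1,nat_lit 4,nat_lit 2),Int.ofNat (nat_lit 1)),((nat_lit 1,nat_lit 4,nat_lit 4),Int.negSucc (nat_lit 0)),((nat_lit 2,nat_lit 2,nat_lit 2),Int.ofNat (nat_lit 1)),((nat_lit 2,nat_lit 2,nat_lit 4),Int.negSucc (nat_lit 0)),((nat_lit 2,nat_lit 4,nat_lit 2),Int.negSucc (nat_lit 0)),((nat_lit 2,nat_lit 4,nat_lit 4),Int.ofNat (nat_lit 1))]),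
((nat_lit 2,nat_lit 0,nat_lit 3),[((nat_lit 1,nat_lit 1,nat_lit 1),Int.ofNat (nat_lit 1)),((nat_lit 1,nat_lit 1,nat_lit 3),Int.negSucc (nat_lit 0)),((nat_lit 1,nat_lit 2,nat_lit 2),Int.negSucc (nat_lit 0)),((nat_lit 1,nat_lit 2,nat_lit 4),Int.ofNat (nat_lit 1)),((nat_lit 1,nat_lit 3,nat_lit 1),Int.negSucc (nat_lit 0)),((nat_lit 1,nat_lit 3,nat_lit 3),Int.ofNat (nat_lit 1)),((nat_lit 1,nat_lit 4,nat_lit 2),Int.ofNat (nat_lit 1)),((nat_lit 1,nat_lit 4,nat_lit 4),Int.negSucc (nat_lit 0)),((nat_lit 2,nat_lit 2,nat_lit 2),Int.ofNat (nat_lit 1)),((nat_lit 2,nat_lit 2,nat_lit 4),Int.negSucc (nat_lit 0)),((nat_lit 2,nat_lit 3,nat_lit 3),Int.negSucc (nat_lit 0)),((nat_lit 2,nat_lit 4,nat_lit 2),Int.negSucc (nat_lit 0)),((nat_lit 2,nat_lit 4,nat_lit 4),Int.ofNat (nat_lit 1)),((nat_lit 3,nat_lit 3,nat_lit 3),Int.ofNat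 (nat_lit 1))]),
((nat_lit 2,nat_lit 0,nat_lit 4),[((nat_lit 1,nat_lit 1,nat_lit 1),Int.ofNat (nat_lit 1)),((nat_lit 1,nat_lit 1,nat_lit 3),Int.negSucc (nat_lit 0)),((nat_lit 1,nat_lit 2,nat_lit 2),Int.negSucc (nat_lit 0)),((nat_lit 1,nat_lit 2,nat_lit 4),Int.ofNat (nat_lit 1)),((nat_lit 1,nat_lit 3,nat_lit 1),Int.negSucc (nat_lit 0)),((nat_lit 1,nat_lit 3,nat_lit 3),Int.ofNat (nat_lit 1)),((nat_lit 1,nat_lit 4,nat_lit 2),Int.ofNat (nat_lit 1)),((nat_lit 1,nat_lit 4,nat_lit 4),Int.negSucc (nat_lit 0)),((nat_lit 2,nat_lit 2,nat_lit 2),Int.ofNat (nat_lit 1)),((nat_lit 2,nat_lit 2,nat_lit 4),Int.negSucc (nat_lit 0)),((nat_lit 2,nat_lit 3,nat_lit 3),Int.negSucc (nat_lit 0)),((nat_lit 2,nat_lit 4,nat_lit 2),Int.negSucc (nat_lit 0)),((nat_lit 2,nat_lit 4,nat_lit 4),Int.ofNat (nat_lit 1)),((nat_lit 3,nat_lit 1,nat_lit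 1),Int.negSucc (nat_lit 0)),((nat_lit 3,nat_lit 1,nat_lit 4),Int.ofNat (nat_lit 1)),((nat_lit 3,nat_lit 3,nat_lit 3),Int.ofNat (nat_lit 1)),((nat_lit 3,nat_lit 4,nat_lit 1),Int.ofNat (nat_lit 1)),((nat_lit 3,nat_lit 4,nat_lit 4),Int.negSucc (nat_lit 0)),((nat_lit 4,nat_lit 1,nat_lit 1),Int.ofNat (nat_lit 1)),((nat_lit 4,nat_lit 1,nat_lit 4),Int.negSucc (nat_lit 0)),((nat_lit 4,nat_lit 2,nat_lit 2),Int.negSucc (nat_lit 0)),((nat_lit 4,nat_lit 4,nat_lit 1),Int.negSucc (nat_lit 0)),((nat_lit 4,nat_lit 4,nat_lit 4),Int.ofNat (nat_lit 1)),((nat_lit 8,nat_lit 2,nat_lit 2),Int.ofNat (nat_lit 1))]),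
((nat_lit 2,nat_lit 0,nat_lit 5),[((nat_lit 1,nat_lit 1,nat_lit 1),Int.ofNat (nat_lit 1)),((nat_lit 1,nat_lit 1,nat_lit 3),Int.negSucc (nat_lit 0)),((nat_lit 1,nat_lit 2,nat_lit 2),Int.negSucc (nat_lit 0)),((nat_lit 1,nat_lit 2,nat_lit 4),Int.ofNat (nat_lit 1)),((nat_lit 1,nat_lit 3,nat_lit 1),Int.negSucc (nat_lit 0)),((nat_lit 1,nat_lit 3,nat_lit 3),Int.ofNat (nat_lit 1)),((nat_lit 1,nat_lit 4,nat_lit 2),Int.ofNat (nat_lit 1)),((nat_lit 1,nat_lit 4,nat_lit 4),Int.negSucc (nat_lit 0)),((nat_lit 2,nat_lit 2,nat_lit 2),Int.ofNat (nat_lit 1)),((nat_lit 2,nat_lit 2,nat_lit 4),Int.negSucc (nat_lit 0)),((nat_lit 2,nat_lit 3,nat_lit 3),Int.negSucc (nat_lit 0)),((nat_lit 2,nat_lit 4,nat_lit 2),Int.negSucc (nat_lit 0)),((nat_lit 2,nat_lit 4,nat_lit 4),Int.ofNat (nat_lit 1)),((nat_lit 3,nat_lit 1,nat_lit 1),Int.negSucc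 (nat_lit 0)),((nat_lit 3,nat_lit 1,nat_lit 4),Int.ofNat (nat_lit 1)),((nat_lit 3,nat_lit 3,nat_lit 3),Int.ofNat (nat_lit 1)),((nat_lit 3,nat_lit 4,nat_lit 1),Int.ofNat (nat_lit 1)),((nat_lit 3,nat_lit 4,nat_lit 4),Int.negSucc (nat_lit 0)),((nat_lit 4,nat_lit 1,nat_lit 1),Int.ofNat (nat_lit 1)),((nat_lit 4,nat_lit 1,nat_lit 4),Int.negSucc (nat_lit 0)),((nat_lit 4,nat_lit 2,nat_lit 2),Int.negSucc (nat_lit 0)),((nat_lit 4,nat_lit 4,nat_lit 1),Int.negSucc (nat_lit 0)),((nat_lit 4,nat_lit 4,nat_lit 4),Int.ofNat (nat_lit 1)),((nat_lit 9,nat_lit 2,nat_lit 2),Int.ofNat (nat_lit 1))]),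
((nat_lit 2,nat_lit 0,nat_lit 6),[((nat_lit 1,nat_lit 1,nat_lit 1),Int.ofNat (nat_lit 1)),((nat_lit 1,nat_lit 1,nat_lit 3),Int.negSucc (nat_lit 0)),((nat_lit 1,nat_lit 2,nat_lit 2),Int.negSucc (nat_lit 0)),((nat_lit 1,nat_lit 2,nat_lit 4),Int.ofNat (nat_lit 1)),((nat_lit 1,nat_lit 3,nat_lit 1),Int.negSucc (nat_lit 0)),((nat_lit 1,nat_lit 3,nat_lit 3),Int.ofNat (nat_lit 1)),((nat_lit 1,nat_lit 4,nat_lit 2),Int.ofNat (nat_lit 1)),((nat_lit 1,nat_lit 4,nat_lit 4),Int.negSucc (nat_lit 0)),((nat_lit 2,nat_lit 2,nat_lit 2),Int.ofNat (nat_lit 1)),((nat_lit 2,nat_lit 2,nat_lit 4),Int.negSucc (nat_lit 0)),((nat_lit 2,nat_lit 3,nat_lit 3),Int.negSucc (nat_lit 0)),((nat_lit 2,nat_lit 4,nat_lit 2),Int.negSucc (nat_lit 0)),((nat_lit 2,nat_lit 4,nat_lit 4),Int.ofNat (nat_lit 1)),((nat_lit 3,nat_lit 1,nat_lit 1),Int.negSucc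 (nat_lit 0)),((nat_lit 3,nat_lit 1,nat_lit 4),Int.ofNat (nat_lit 1)),((nat_lit 3,nat_lit 3,nat_lit 3),Int.ofNat (nat_lit 1)),((nat_lit 3,nat_lit 4,nat_lit 1),Int.ofNat (nat_lit 1)),((nat_lit 3,nat_lit 4,nat_lit 4),Int.negSucc (nat_lit 0)),((nat_lit 4,nat_lit 1,nat_lit 1),Int.ofNat (nat_lit 1)),((nat_lit 4,nat_lit 1,nat_lit 4),Int.negSucc (nat_lit 0)),((nat_lit 4,nat_lit 2,nat_lit 2),Int.negSucc (nat_lit 0)),((nat_lit 4,nat_lit 4,nat_lit 1),Int.negSucc (nat_lit 0)),((nat_lit 4,nat_lit 4,nat_lit 4),Int.ofNat (nat_lit 1)),((nat_lit 10,nat_lit 2,nat_lit 2),Int.ofNat (nat_lit 1))]),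
((nat_lit 2,nat_lit 0,nat_lit 7),[((nat_lit 1,nat_lit 1,nat_lit 1),Int.ofNat (nat_lit 1)),((nat_lit 1,nat_lit 1,nat_lit 3),Int.negSucc (nat_lit 0)),((nat_lit 1,nat_lit 2,nat_lit 2),Int.negSucc (nat_lit 0)),((nat_lit 1,nat_lit 2,nat_lit 4),Int.ofNat (nat_lit 1)),((nat_lit 1,nat_lit 3,nat_lit 1),Int.negSucc (nat_lit 0)),((nat_lit 1,nat_lit 3,nat_lit 3),Int.ofNat (nat_lit 1)),((nat_lit 1,nat_lit 4,nat_lit 2),Int.ofNat (nat_lit 1)),((nat_lit 1,nat_lit 4,nat_lit 4),Int.negSucc (nat_lit 0)),((nat_lit 2,nat_lit 2,nat_lit 2),Int.ofNat (nat_lit 1)),((nat_lit 2,nat_lit 2,nat_lit 4),Int.negSucc (nat_lit 0)),((nat_lit 2,nat_lit 3,nat_lit 3),Int.negSucc (nat_lit 0)),((nat_lit 2,nat_lit 4,nat_lit 2),Int.negSucc (nat_lit 0)),((nat_lit 2,nat_lit 4,nat_lit 4),Int.ofNat (nat_lit 1)),((nat_lit 3,nat_lit 1,nat_lit 1),Int.negSucc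 (nat_lit 0)),((nat_lit 3,nat_lit 1,nat_lit 4),Int.ofNat (nat_lit 1)),((nat_lit 3,nat_lit 3,nat_lit 3),Int.ofNat (nat_lit 1)),((nat_lit 3,nat_lit 4,nat_lit 1),Int.ofNat (nat_lit 1)),((nat_lit 3,nat_lit 4,nat_lit 4),Int.negSucc (nat_lit 0)),((nat_lit 4,nat_lit 1,nat_lit 1),Int.ofNat (nat_lit 1)),((nat_lit 4,nat_lit 1,nat_lit 4),Int.negSucc (nat_lit 0)),((nat_lit 4,nat_lit 2,nat_lit 2),Int.negSucc (nat_lit 0)),((nat_lit 4,nat_lit 4,nat_lit 1),Int.negSucc (nat_lit 0)),((nat_lit 4,nat_lit 4,nat_lit 4),Int.ofNat (nat_lit 1)),((nat_lit 11,nat_lit 2,nat_lit 2),Int.ofNat (nat_lit 1))]),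
((nat_lit 2,nat_lit 0,nat_lit 8),[((nat_lit 1,nat_lit 1,nat_lit 1),Int.ofNat (nat_lit 1)),((nat_lit 1,nat_lit 1,nat_lit 3),Int.negSucc (nat_lit 0)),((nat_lit 1,nat_lit 2,nat_lit 2),Int.negSucc (nat_lit 0)),((nat_lit 1,nat_lit 2,nat_lit 4),Int.ofNat (nat_lit 1)),((nat_lit 1,nat_lit 3,nat_lit 1),Int.negSucc (nat_lit 0)),((nat_lit 1,nat_lit 3,nat_lit 3),Int.ofNat (nat_lit 1)),((nat_lit 1,nat_lit 4,nat_lit 2),Int.ofNat (nat_lit 1)),((nat_lit 1,nat_lit 4,nat_lit 4),Int.negSucc (nat_lit 0)),((nat_lit 2,nat_lit 2,nat_lit 2),Int.ofNat (nat_lit 1)),((nat_lit 2,nat_lit 2,nat_lit 4),Int.negSucc (nat_lit 0)),((nat_lit 2,nat_lit 3,nat_lit 3),Int.negSucc (nat_lit 0)),((nat_lit 2,nat_lit 4,nat_lit 2),Int.negSucc (nat_lit 0)),((nat_lit 2,nat_lit 4,nat_lit 4),Int.ofNat (nat_lit 1)),((nat_lit 3,nat_lit 1,nat_lit 1),Int.negSucc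 (nat_lit 0)),((nat_lit 3,nat_lit 1,nat_lit 4),Int.ofNat (nat_lit 1)),((nat_lit 3,nat_lit 3,nat_lit 3),Int.ofNat (nat_lit 1)),((nat_lit 3,nat_lit 4,nat_lit 1),Int.ofNat (nat_lit 1)),((nat_lit 3,nat_lit 4,nat_lit 4),Int.negSucc (nat_lit 0)),((nat_lit 4,nat_lit 1,nat_lit 1),Int.ofNat (nat_lit 1)),((nat_lit 4,nat_lit 1,nat_lit 4),Int.negSucc (nat_lit 0)),((nat_lit 4,nat_lit 2,nat_lit 2),Int.negSucc (nat_lit 0)),((nat_lit 4,nat_lit 4,nat_lit 1),Int.negSucc (nat_lit 0)),((nat_lit 4,nat_lit 4,nat_lit 4),Int.ofNat (nat_lit 1)),((nat_lit 12,nat_lit 2,nat_lit 2),Int.ofNat (nat_lit 1))]),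
((nat_lit 2,nat_lit 0,nat_lit 9),[((nat_lit 1,nat_lit 1,nat_lit 1),Int.ofNat (nat_lit 1)),((nat_lit 1,nat_lit 1,nat_lit 3),Int.negSucc (nat_lit 0)),((nat_lit 1,nat_lit 2,nat_lit 2),Int.negSucc (nat_lit 0)),((nat_lit 1,nat_lit 2,nat_lit 4),Int.ofNat (nat_lit 1)),((nat_lit 1,nat_lit 3,nat_lit 1),Int.negSucc (nat_lit 0)),((nat_lit 1,nat_lit 3,nat_lit 3),Int.ofNat (nat_lit 1)),((nat_lit 1,nat_lit 4,nat_lit 2),Int.ofNat (nat_lit 1)),((nat_lit 1,nat_lit 4,nat_lit 4),Int.negSucc (nat_lit 0)),((nat_lit 2,nat_lit 2,nat_lit 2),Int.ofNat (nat_lit 1)),((nat_lit 2,nat_lit 2,nat_lit 4),Int.negSucc (nat_lit 0)),((nat_lit 2,nat_lit 3,nat_lit 3),Int.negSucc (nat_lit 0)),((nat_lit 2,nat_lit 4,nat_lit 2),Int.negSucc (nat_lit 0)),((nat_lit 2,nat_lit 4,nat_lit 4),Int.ofNat (nat_lit 1)),((nat_lit 3,nat_lit 1,nat_lit 1),Int.negSucc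 (nat_lit 0)),((nat_lit 3,nat_lit 1,nat_lit 4),Int.ofNat (nat_lit 1)),((nat_lit 3,nat_lit 3,nat_lit 3),Int.ofNat (nat_lit 1)),((nat_lit 3,nat_lit 4,nat_lit 1),Int.ofNat (nat_lit 1)),((nat_lit 3,nat_lit 4,nat_lit 4),Int.negSucc (nat_lit 0)),((nat_lit 4,nat_lit 1,nat_lit 1),Int.ofNat (nat_lit 1)),((nat_lit 4,nat_lit 1,nat_lit 4),Int.negSucc (nat_lit 0)),((nat_lit 4,nat_lit 2,nat_lit 2),Int.negSucc (nat_lit 0)),((nat_lit 4,nat_lit 4,nat_lit 1),Int.negSucc (nat_lit 0)),((nat_lit 4,nat_lit 4,nat_lit 4),Int.ofNat (nat_lit 1)),((nat_lit 13,nat_lit 2,nat_lit 2),Int.ofNat (nat_lit 1))]),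
((nat_lit 2,nat_lit 0,nat_lit 10),[((nat_lit 1,nat_lit 1,nat_lit 1),Int.ofNat (nat_lit 1)),((nat_lit 1,nat_lit 1,nat_lit 3),Int.negSucc (nat_lit 0)),((nat_lit 1,nat_lit 2,nat_lit 2),Int.negSucc (nat_lit 0)),((nat_lit 1,nat_lit 2,nat_lit 4),Int.ofNat (nat_lit 1)),((nat_lit 1,nat_lit 3,nat_lit 1),Int.negSucc (nat_lit 0)),((nat_lit 1,nat_lit 3,nat_lit 3),Int.ofNat (nat_lit 1)),((nat_lit 1,nat_lit 4,nat_lit 2),Int.ofNat (nat_lit 1)),((nat_lit 1,nat_lit 4,nat_lit 4),Int.negSucc (nat_lit 0)),((nat_lit 2,nat_lit 2,nat_lit 2),Int.ofNat (nat_lit 1)),((nat_lit 2,nat_lit 2,nat_lit 4),Int.negSucc (nat_lit 0)),((nat_lit 2,nat_lit 3,nat_lit 3),Int.negSucc (nat_lit 0)),((nat_lit 2,nat_lit 4,nat_lit 2),Int.negSucc (nat_lit 0)),((nat_lit 2,nat_lit 4,nat_lit 4),Int.ofNat (nat_lit 1)),((nat_lit 3,nat_lit 1,nat_lit 1),Int.negSucc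 (nat_lit 0)),((nat_lit 3,nat_lit 1,nat_lit 4),Int.ofNat (nat_lit 1)),((nat_lit 3,nat_lit 3,nat_lit 3),Int.ofNat (nat_lit 1)),((nat_lit 3,nat_lit 4,nat_lit 1),Int.ofNat (nat_lit 1)),((nat_lit 3,nat_lit 4,nat_lit 4),Int.negSucc (nat_lit 0)),((nat_lit 4,nat_lit 1,nat_lit 1),Int.ofNat (nat_lit 1)),((nat_lit 4,nat_lit 1,nat_lit 4),Int.negSucc (nat_lit 0)),((nat_lit 4,nat_lit 2,nat_lit 2),Int.negSucc (nat_lit 0)),((nat_lit 4,nat_lit 4,nat_lit 1),Int.negSucc (nat_lit 0)),((nat_lit 4,nat_lit 4,nat_lit 4),Int.ofNat (nat_lit 1)),((nat_lit 14,nat_lit 2,nat_lit 2),Int.ofNat (nat_lit 1))]),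
((nat_lit 2,nat_lit 0,nat_lit 11),[((nat_lit 1,nat_lit 1,nat_lit 1),Int.ofNat (nat_lit 1)),((nat_lit 1,nat_lit 1,nat_lit 3),Int.negSucc (nat_lit 0)),((nat_lit 1,nat_lit 2,nat_lit 2),Int.negSucc (nat_lit 0)),((nat_lit 1,nat_lit 2,nat_lit 4),Int.ofNat (nat_lit 1)),((nat_lit 1,nat_lit 3,nat_lit 1),Int.negSucc (nat_lit 0)),((nat_lit 1,nat_lit 3,nat_lit 3),Int.ofNat (nat_lit 1)),((nat_lit 1,nat_lit 4,nat_lit 2),Int.ofNat (nat_lit 1)),((nat_lit 1,nat_lit 4,nat_lit 4),Int.negSucc (nat_lit 0)),((nat_lit 2,nat_lit 2,nat_lit 2),Int.ofNat (nat_lit 1)),((nat_lit 2,nat_lit 2,nat_lit 4),Int.negSucc (nat_lit 0)),((nat_lit 2,nat_lit 3,nat_lit 3),Int.negSucc (nat_lit 0)),((nat_lit 2,nat_lit 4,nat_lit 2),Int.negSucc (nat_lit 0)),((nat_lit 2,nat_lit 4,nat_lit 4),Int.ofNat (nat_lit 1)),((nat_lit 3,nat_lit 1,nat_lit 1),Int.negSucc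 (nat_lit 0)),((nat_lit 3,nat_lit 1,nat_lit 4),Int.ofNat (nat_lit 1)),((nat_lit 3,nat_lit 3,nat_lit 3),Int.ofNat (nat_lit 1)),((nat_lit 3,nat_lit 4,nat_lit 1),Int.ofNat (nat_lit 1)),((nat_lit 3,nat_lit 4,nat_lit 4),Int.negSucc (nat_lit 0)),((nat_lit 4,nat_lit 1,nat_lit 1),Int.ofNat (nat_lit 1)),((nat_lit 4,nat_lit 1,nat_lit 4),Int.negSucc (nat_lit 0)),((nat_lit 4,nat_lit 2,nat_lit 2),Int.negSucc (nat_lit 0)),((nat_lit 4,nat_lit 4,nat_lit 1),Int.negSucc (nat_lit 0)),((nat_lit 4,nat_lit 4,nat_lit 4),Int.ofNat (nat_lit 1)),((nat_lit 15,nat_lit 2,nat_lit 2),Int.ofNat (nat_lit 1))]),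
((nat_lit 3,nat_lit 0,nat_lit 1),[((nat_lit 1,nat_lit 1,nat_lit 1),Int.ofNat (nat_lit 1)),((nat_lit 1,nat_lit 1,nat_lit 3),Int.negSucc (nat_lit 0)),((nat_lit 1,nat_lit 3,nat_lit 1),Int.negSucc (nat_lit 0)),((nat_lit 3,nat_lit 2,nat_lit 2),Int.negSucc (nat_lit 0)),((nat_lit 3,nat_lit 3,nat_lit 3),Int.ofNat (nat_lit 1)),((nat_lit 1,nat_lit 11,nat_lit 1),Int.ofNat (nat_lit 1))]),
((nat_lit 3,nat_lit 1,nat_lit 1),[((nat_lit 2,nat_lit 1,nat_lit 1),Int.ofNat (nat_lit 1)),((nat_lit 2,nat_lit 1,nat_lit 4),Int.negSucc (nat_lit 0)),((nat_lit 2,nat_lit 3,nat_lit 3),Int.negSucc (nat_lit 0)),((nat_lit 2,nat_lit 4,nat_lit 1),Int.negSucc (nat_lit 0)),((nat_lit 2,nat_lit 4,nat_lit 4),Int.ofNat (nat_lit 1)),((nat_lit 3,nat_lit 2,nat_lit 2),Int.negSucc (nat_lit 0)),((nat_lit 3,nat_lit 3,nat_lit 3),Int.ofNat (nat_lit 1)),((nat_lit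 4,nat_lit 1,nat_lit 3),Int.negSucc (nat_lit 0)),((nat_lit 4,nat_lit 1,nat_lit 4),Int.ofNat (nat_lit 1)),((nat_lit 4,nat_lit 3,nat_lit 1),Int.negSucc (nat_lit 0)),((nat_lit 4,nat_lit 3,nat_lit 3),Int.ofNat (nat_lit 1)),((nat_lit 4,nat_lit 4,nat_lit 1),Int.ofNat (nat_lit 1)),((nat_lit 4,nat_lit 4,nat_lit 4),Int.negSucc (nat_lit 0)),((nat_lit 2,nat_lit 11,nat_lit 1),Int.ofNat (nat_lit 1))]),
((nat_lit 3,nat_lit 2,nat_lit 1),[((nat_lit 3,nat_lit 1,nat_lit 1),Int.ofNat (nat_lit 1)),((nat_lit 3,nat_lit 1,nat_lit 4),Int.negSucc (nat_lit 0)),((nat_lit 3,nat_lit 2,nat_lit 2),Int.negSucc (nat_lit 0)),((nat_lit 3,nat_lit 4,nat_lit 1),Int.negSucc (nat_lit 0)),((nat_lit 3,nat_lit 4,nat_lit 4),Int.ofNat (nat_lit 1)),((nat_lit 4,nat_lit 1,nat_lit 3),Int.negSucc (nat_lit 0)),((nat_lit 4,nat_lit 1,nat_lit 4),Int.ofNat (nat_lit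 1)),((nat_lit 4,nat_lit 3,nat_lit 1),Int.negSucc (nat_lit 0)),((nat_lit 4,nat_lit 3,nat_lit 3),Int.ofNat (nat_lit 1)),((nat_lit 4,nat_lit 4,nat_lit 1),Int.ofNat (nat_lit 1)),((nat_lit 4,nat_lit 4,nat_lit 4),Int.negSucc (nat_lit 0)),((nat_lit 3,nat_lit 11,nat_lit 1),Int.ofNat (nat_lit 1))]),
((nat_lit 3,nat_lit 3,nat_lit 1),[((nat_lit 4,nat_lit 1,nat_lit 1),Int.ofNat (nat_lit 1)),((nat_lit 4,nat_lit 1,nat_lit 3),Int.negSucc (nat_lit 0)),((nat_lit 4,nat_lit 2,nat_lit 2),Int.negSucc (nat_lit 0)),((nat_lit 4,nat_lit 3,nat_lit 1),Int.negSucc (nat_lit 0)),((nat_lit 4,nat_lit 3,nat_lit 3),Int.ofNat (nat_lit 1)),((nat_lit 4,nat_lit 11,nat_lit 1),Int.ofNat (nat_lit 1))]),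
((nat_lit 3,nat_lit 4,nat_lit 1),[((nat_lit 1,nat_lit 2,nat_lit 2),Int.ofNat (nat_lit 1)),((nat_lit 1,nat_lit 2,nat_lit 4),Int.negSucc (nat_lit 0)),((nat_lit 1,nat_lit 3,nat_lit 3),Int.negSucc (nat_lit 0)),((nat_lit 1,nat_lit 4,nat_lit 2),Int.negSucc (nat_lit 0)),((nat_lit 1,nat_lit 4,nat_lit 4),Int.ofNat (nat_lit 1)),((nat_lit 3,nat_lit 2,nat_lit 2),Int.negSucc (nat_lit 0)),((nat_lit 3,nat_lit 3,nat_lit 3),Int.ofNat (nat_lit 1)),((nat_lit 1,nat_lit 11,nat_lit 2),Int.ofNat (nat_lit 1))]),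
((nat_lit 3,nat_lit 5,nat_lit 1),[((nat_lit 2,nat_lit 2,nat_lit 2),Int.ofNat (nat_lit 1)),((nat_lit 2,nat_lit 2,nat_lit 4),Int.negSucc (nat_lit 0)),((nat_lit 2,nat_lit 3,nat_lit 3),Int.negSucc (nat_lit 0)),((nat_lit 2,nat_lit 4,nat_lit 2),Int.negSucc (nat_lit 0)),((nat_lit 2,nat_lit 4,nat_lit 4),Int.ofNat (nat_lit 1)),((nat_lit 3,nat_lit 2,nat_lit 2),Int.negSucc (nat_lit 0)),((nat_lit 3,nat_lit 3,nat_lit 3),Int.ofNat (nat_lit 1)),((nat_lit 2,nat_lit 11,nat_lit 2),Int.ofNat (nat_lit 1))]),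
((nat_lit 3,nat_lit 0,nat_lit 2),[((nat_lit 1,nat_lit 1,nat_lit 1),Int.ofNat (nat_lit 1)),((nat_lit 1,nat_lit 1,nat_lit 3),Int.negSucc (nat_lit 0)),((nat_lit 1,nat_lit 3,nat_lit 1),Int.negSucc (nat_lit 0)),((nat_lit 3,nat_lit 2,nat_lit 2),Int.negSucc (nat_lit 0)),((nat_lit 3,nat_lit 3,nat_lit 3),Int.ofNat (nat_lit 1)),((nat_lit 1,nat_lit 12,nat_lit 1),Int.ofNat (nat_lit 1))]),
((nat_lit 3,nat_lit 1,nat_lit 2),[((nat_lit 2,nat_lit 1,nat_lit 1),Int.ofNat (nat_lit 1)),((nat_lit 2,nat_lit 1,nat_lit 4),Int.negSucc (nat_lit 0)),((nat_lit 2,nat_lit 3,nat_lit 3),Int.negSucc (nat_lit 0)),((nat_lit 2,nat_lit 4,nat_lit 1),Int.negSucc (nat_lit 0)),((nat_lit 2,nat_lit 4,nat_lit 4),Int.ofNat (nat_lit 1)),((nat_lit 3,nat_lit 2,nat_lit 2),Int.negSucc (nat_lit 0)),((nat_lit 3,nat_lit 3,nat_lit 3),Int.ofNat (nat_lit 1)),((nat_lit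 4,nat_lit 1,nat_lit 3),Int.negSucc (nat_lit 0)),((nat_lit 4,nat_lit 1,nat_lit 4),Int.ofNat (nat_lit 1)),((nat_lit 4,nat_lit 3,nat_lit 1),Int.negSucc (nat_lit 0)),((nat_lit 4,nat_lit 3,nat_lit 3),Int.ofNat (nat_lit 1)),((nat_lit 4,nat_lit 4,nat_lit 1),Int.ofNat (nat_lit 1)),((nat_lit 4,nat_lit 4,nat_lit 4),Int.negSucc (nat_lit 0)),((nat_lit 2,nat_lit 12,nat_lit 1),Int.ofNat (nat_lit 1))]),
((nat_lit 3,nat_lit 2,nat_lit 2),[((nat_lit 3,nat_lit 1,nat_lit 1),Int.ofNat (nat_lit 1)),((nat_lit 3,nat_lit 1,nat_lit 4),Int.negSucc (nat_lit 0)),((nat_lit 3,nat_lit 2,nat_lit 2),Int.negSucc (nat_lit 0)),((nat_lit 3,nat_lit 4,nat_lit 1),Int.negSucc (nat_lit 0)),((nat_lit 3,nat_lit 4,nat_lit 4),Int.ofNat (nat_lit 1)),((nat_lit 4,nat_lit 1,nat_lit 3),Int.negSucc (nat_lit 0)),((nat_lit 4,nat_lit 1,nat_lit 4),Int.ofNat (nat_lit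 1)),((nat_lit 4,nat_lit 3,nat_lit 1),Int.negSucc (nat_lit 0)),((nat_lit 4,nat_lit 3,nat_lit 3),Int.ofNat (nat_lit 1)),((nat_lit 4,nat_lit 4,nat_lit 1),Int.ofNat (nat_lit 1)),((nat_lit 4,nat_lit 4,nat_lit 4),Int.negSucc (nat_lit 0)),((nat_lit 3,nat_lit 12,nat_lit 1),Int.ofNat (nat_lit 1))])]

noncomputable def tab1 : Tab := [
((nat_lit 3,nat_lit 3,nat_lit 2),[((nat_lit 4,nat_lit 1,nat_lit 1),Int.ofNat (nat_lit 1)),((nat_lit 4,nat_lit 1,nat_lit 3),Int.negSucc (nat_lit 0)),((nat_lit 4,nat_lit 2,nat_lit 2),Int.negSucc (nat_lit 0)),((nat_lit 4,nat_lit 3,nat_lit 1),Int.negSucc (nat_lit 0)),((nat_lit 4,nat_lit 3,nat_lit 3),Int.ofNat (nat_lit 1)),((nat_lit 4,nat_lit 12,nat_lit 1),Int.ofNat (nat_lit 1))]),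
((nat_lit 3,nat_lit 4,nat_lit 2),[((nat_lit 1,nat_lit 2,nat_lit 2),Int.ofNat (nat_lit 1)),((nat_lit 1,nat_lit 2,nat_lit 4),Int.negSucc (nat_lit 0)),((nat_lit 1,nat_lit 3,nat_lit 3),Int.negSucc (nat_lit 0)),((nat_lit 1,nat_lit 4,nat_lit 2),Int.negSucc (nat_lit 0)),((nat_lit 1,nat_lit 4,nat_lit 4),Int.ofNat (nat_lit 1)),((nat_lit 3,nat_lit 2,nat_lit 2),Int.negSucc (nat_lit 0)),((nat_lit 3,nat_lit 3,nat_lit 3),Int.ofNat (nat_lit 1)),((nat_lit 1,nat_lit 12,nat_lit 2),Int.ofNat (nat_lit 1))]),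
((nat_lit 3,nat_lit 5,nat_lit 2),[((nat_lit 2,nat_lit 2,nat_lit 2),Int.ofNat (nat_lit 1)),((nat_lit 2,nat_lit 2,nat_lit 4),Int.negSucc (nat_lit 0)),((nat_lit 2,nat_lit 3,nat_lit 3),Int.negSucc (nat_lit 0)),((nat_lit 2,nat_lit 4,nat_lit 2),Int.negSucc (nat_lit 0)),((nat_lit 2,nat_lit 4,nat_lit 4),Int.ofNat (nat_lit 1)),((nat_lit 3,nat_lit 2,nat_lit 2),Int.negSucc (nat_lit 0)),((nat_lit 3,nat_lit 3,nat_lit 3),Int.ofNat (nat_lit 1)),((nat_lit 2,nat_lit 12,nat_lit 2),Int.ofNat (nat_lit 1))]),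
((nat_lit 3,nat_lit 0,nat_lit 3),[((nat_lit 1,nat_lit 1,nat_lit 1),Int.ofNat (nat_lit 1)),((nat_lit 1,nat_lit 1,nat_lit 3),Int.negSucc (nat_lit 0)),((nat_lit 1,nat_lit 3,nat_lit 1),Int.negSucc (nat_lit 0)),((nat_lit 3,nat_lit 2,nat_lit 2),Int.negSucc (nat_lit 0)),((nat_lit 3,nat_lit 3,nat_lit 3),Int.ofNat (nat_lit 1)),((nat_lit 1,nat_lit 13,nat_lit 1),Int.ofNat (nat_lit 1))]),
((nat_lit 3,nat_lit 1,nat_lit 3),[((nat_lit 2,nat_lit 1,nat_lit 1),Int.ofNat (nat_lit 1)),((nat_lit 2,nat_lit 1,nat_lit 4),Int.negSucc (nat_lit 0)),((nat_lit 2,nat_lit 3,nat_lit 3),Int.negSucc (nat_lit 0)),((nat_lit 2,nat_lit 4,nat_lit 1),Int.negSucc (nat_lit 0)),((nat_lit 2,nat_lit 4,nat_lit 4),Int.ofNat (nat_lit 1)),((nat_lit 3,nat_lit 2,nat_lit 2),Int.negSucc (nat_lit 0)),((nat_lit 3,nat_lit 3,nat_lit 3),Int.ofNat (nat_lit 1)),((nat_lit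 4,nat_lit 1,nat_lit 3),Int.negSucc (nat_lit 0)),((nat_lit 4,nat_lit 1,nat_lit 4),Int.ofNat (nat_lit 1)),((nat_lit 4,nat_lit 3,nat_lit 1),Int.negSucc (nat_lit 0)),((nat_lit 4,nat_lit 3,nat_lit 3),Int.ofNat (nat_lit 1)),((nat_lit 4,nat_lit 4,nat_lit 1),Int.ofNat (nat_lit 1)),((nat_lit 4,nat_lit 4,nat_lit 4),Int.negSucc (nat_lit 0)),((nat_lit 2,nat_lit 13,nat_lit 1),Int.ofNat (nat_lit 1))]),
((nat_lit 3,nat_lit 2,nat_lit 3),[((nat_lit 3,nat_lit 1,nat_lit 1),Int.ofNat (nat_lit 1)),((nat_lit 3,nat_lit 1,nat_lit 4),Int.negSucc (nat_lit 0)),((nat_lit 3,nat_lit 2,nat_lit 2),Int.negSucc (nat_lit 0)),((nat_lit 3,nat_lit 4,nat_lit 1),Int.negSucc (nat_lit 0)),((nat_lit 3,nat_lit 4,nat_lit 4),Int.ofNat (nat_lit 1)),((nat_lit 4,nat_lit 1,nat_lit 3),Int.negSucc (nat_lit 0)),((nat_lit 4,nat_lit 1,nat_lit 4),Int.ofNat (nat_lit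 1)),((nat_lit 4,nat_lit 3,nat_lit 1),Int.negSucc (nat_lit 0)),((nat_lit 4,nat_lit 3,nat_lit 3),Int.ofNat (nat_lit 1)),((nat_lit 4,nat_lit 4,nat_lit 1),Int.ofNat (nat_lit 1)),((nat_lit 4,nat_lit 4,nat_lit 4),Int.negSucc (nat_lit 0)),((nat_lit 3,nat_lit 13,nat_lit 1),Int.ofNat (nat_lit 1))]),
((nat_lit 3,nat_lit 3,nat_lit 3),[((nat_lit 4,nat_lit 1,nat_lit 1),Int.ofNat (nat_lit 1)),((nat_lit 4,nat_lit 1,nat_lit 3),Int.negSucc (nat_lit 0)),((nat_lit 4,nat_lit 2,nat_lit 2),Int.negSucc (nat_lit 0)),((nat_lit 4,nat_lit 3,nat_lit 1),Int.negSucc (nat_lit 0)),((nat_lit 4,nat_lit 3,nat_lit 3),Int.ofNat (nat_lit 1)),((nat_lit 4,nat_lit 13,nat_lit 1),Int.ofNat (nat_lit 1))]),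
((nat_lit 3,nat_lit 4,nat_lit 3),[((nat_lit 1,nat_lit 2,nat_lit 2),Int.ofNat (nat_lit 1)),((nat_lit 1,nat_lit 2,nat_lit 4),Int.negSucc (nat_lit 0)),((nat_lit 1,nat_lit 3,nat_lit 3),Int.negSucc (nat_lit 0)),((nat_lit 1,nat_lit 4,nat_lit 2),Int.negSucc (nat_lit 0)),((nat_lit 1,nat_lit 4,nat_lit 4),Int.ofNat (nat_lit 1)),((nat_lit 3,nat_lit 2,nat_lit 2),Int.negSucc (nat_lit 0)),((nat_lit 3,nat_lit 3,nat_lit 3),Int.ofNat (nat_lit 1)),((nat_lit 1,nat_lit 13,nat_lit 2),Int.ofNat (nat_lit 1))]),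
((nat_lit 3,nat_lit 5,nat_lit 3),[((nat_lit 2,nat_lit 2,nat_lit 2),Int.ofNat (nat_lit 1)),((nat_lit 2,nat_lit 2,nat_lit 4),Int.negSucc (nat_lit 0)),((nat_lit 2,nat_lit 3,nat_lit 3),Int.negSucc (nat_lit 0)),((nat_lit 2,nat_lit 4,nat_lit 2),Int.negSucc (nat_lit 0)),((nat_lit 2,nat_lit 4,nat_lit 4),Int.ofNat (nat_lit 1)),((nat_lit 3,nat_lit 2,nat_lit 2),Int.negSucc (nat_lit 0)),((nat_lit 3,nat_lit 3,nat_lit 3),Int.ofNat (nat_lit 1)),((nat_lit 2,nat_lit 13,nat_lit 2),Int.ofNat (nat_lit 1))]),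
((nat_lit 3,nat_lit 0,nat_lit 4),[((nat_lit 1,nat_lit 1,nat_lit 1),Int.ofNat (nat_lit 1)),((nat_lit 1,nat_lit 1,nat_lit 3),Int.negSucc (nat_lit 0)),((nat_lit 1,nat_lit 3,nat_lit 1),Int.negSucc (nat_lit 0)),((nat_lit 3,nat_lit 2,nat_lit 2),Int.negSucc (nat_lit 0)),((nat_lit 3,nat_lit 3,nat_lit 3),Int.ofNat (nat_lit 1)),((nat_lit 1,nat_lit 14,nat_lit 1),Int.ofNat (nat_lit 1))]),
((nat_lit 3,nat_lit 1,nat_lit 4),[((nat_lit 2,nat_lit 1,nat_lit 1),Int.ofNat (nat_lit 1)),((nat_lit 2,nat_lit 1,nat_lit 4),Int.negSucc (nat_lit 0)),((nat_lit 2,nat_lit 3,nat_lit 3),Int.negSucc (nat_lit 0)),((nat_lit 2,nat_lit 4,nat_lit 1),Int.negSucc (nat_lit 0)),((nat_lit 2,nat_lit 4,nat_lit 4),Int.ofNat (nat_lit 1)),((nat_lit 3,nat_lit 2,nat_lit 2),Int.negSucc (nat_lit 0)),((nat_lit 3,nat_lit 3,nat_lit 3),Int.ofNat (nat_lit 1)),((nat_lit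 4,nat_lit 1,nat_lit 3),Int.negSucc (nat_lit 0)),((nat_lit 4,nat_lit 1,nat_lit 4),Int.ofNat (nat_lit 1)),((nat_lit 4,nat_lit 3,nat_lit 1),Int.negSucc (nat_lit 0)),((nat_lit 4,nat_lit 3,nat_lit 3),Int.ofNat (nat_lit 1)),((nat_lit 4,nat_lit 4,nat_lit 1),Int.ofNat (nat_lit 1)),((nat_lit 4,nat_lit 4,nat_lit 4),Int.negSucc (nat_lit 0)),((nat_lit 2,nat_lit 14,nat_lit 1),Int.ofNat (nat_lit 1))]),
((nat_lit 3,nat_lit 2,nat_lit 4),[((nat_lit 3,nat_lit 1,nat_lit 1),Int.ofNat (nat_lit 1)),((nat_lit 3,nat_lit 1,nat_lit 4),Int.negSucc (nat_lit 0)),((nat_lit 3,nat_lit 2,nat_lit 2),Int.negSucc (nat_lit 0)),((nat_lit 3,nat_lit 4,nat_lit 1),Int.negSucc (nat_lit 0)),((nat_lit 3,nat_lit 4,nat_lit 4),Int.ofNat (nat_lit 1)),((nat_lit 4,nat_lit 1,nat_lit 3),Int.negSucc (nat_lit 0)),((nat_lit 4,nat_lit 1,nat_lit 4),Int.ofNat (nat_lit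 1)),((nat_lit 4,nat_lit 3,nat_lit 1),Int.negSucc (nat_lit 0)),((nat_lit 4,nat_lit 3,nat_lit 3),Int.ofNat (nat_lit 1)),((nat_lit 4,nat_lit 4,nat_lit 1),Int.ofNat (nat_lit 1)),((nat_lit 4,nat_lit 4,nat_lit 4),Int.negSucc (nat_lit 0)),((nat_lit 3,nat_lit 14,nat_lit 1),Int.ofNat (nat_lit 1))]),
((nat_lit 3,nat_lit 3,nat_lit 4),[((nat_lit 4,nat_lit 1,nat_lit 1),Int.ofNat (nat_lit 1)),((nat_lit 4,nat_lit 1,nat_lit 3),Int.negSucc (nat_lit 0)),((nat_lit 4,nat_lit 2,nat_lit 2),Int.negSucc (nat_lit 0)),((nat_lit 4,nat_lit 3,nat_lit 1),Int.negSucc (nat_lit 0)),((nat_lit 4,nat_lit 3,nat_lit 3),Int.ofNat (nat_lit 1)),((nat_lit 4,nat_lit 14,nat_lit 1),Int.ofNat (nat_lit 1))]),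
((nat_lit 3,nat_lit 4,nat_lit 4),[((nat_lit 1,nat_lit 2,nat_lit 2),Int.ofNat (nat_lit 1)),((nat_lit 1,nat_lit 2,nat_lit 4),Int.negSucc (nat_lit 0)),((nat_lit 1,nat_lit 3,nat_lit 3),Int.negSucc (nat_lit 0)),((nat_lit 1,nat_lit 4,nat_lit 2),Int.negSucc (nat_lit 0)),((nat_lit 1,nat_lit 4,nat_lit 4),Int.ofNat (nat_lit 1)),((nat_lit 3,nat_lit 2,nat_lit 2),Int.negSucc (nat_lit 0)),((nat_lit 3,nat_lit 3,nat_lit 3),Int.ofNat (nat_lit 1)),((nat_lit 1,nat_lit 14,nat_lit 2),Int.ofNat (nat_lit 1))]),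
((nat_lit 3,nat_lit 5,nat_lit 4),[((nat_lit 2,nat_lit 2,nat_lit 2),Int.ofNat (nat_lit 1)),((nat_lit 2,nat_lit 2,nat_lit 4),Int.negSucc (nat_lit 0)),((nat_lit 2,nat_lit 3,nat_lit 3),Int.negSucc (nat_lit 0)),((nat_lit 2,nat_lit 4,nat_lit 2),Int.negSucc (nat_lit 0)),((nat_lit 2,nat_lit 4,nat_lit 4),Int.ofNat (nat_lit 1)),((nat_lit 3,nat_lit 2,nat_lit 2),Int.negSucc (nat_lit 0)),((nat_lit 3,nat_lit 3,nat_lit 3),Int.ofNat (nat_lit 1)),((nat_lit 2,nat_lit 14,nat_lit 2),Int.ofNat (nat_lit 1))]),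
((nat_lit 3,nat_lit 0,nat_lit 5),[((nat_lit 1,nat_lit 1,nat_lit 1),Int.ofNat (nat_lit 1)),((nat_lit 1,nat_lit 1,nat_lit 3),Int.negSucc (nat_lit 0)),((nat_lit 1,nat_lit 3,nat_lit 1),Int.negSucc (nat_lit 0)),((nat_lit 3,nat_lit 2,nat_lit 2),Int.negSucc (nat_lit 0)),((nat_lit 3,nat_lit 3,nat_lit 3),Int.ofNat (nat_lit 1)),((nat_lit 1,nat_lit 15,nat_lit 1),Int.ofNat (nat_lit 1))]),
((nat_lit 3,nat_lit 1,nat_lit 5),[((nat_lit 2,nat_lit 1,nat_lit 1),Int.ofNat (nat_lit 1)),((nat_lit 2,nat_lit 1,nat_lit 4),Int.negSucc (nat_lit 0)),((nat_lit 2,nat_lit 3,nat_lit 3),Int.negSucc (nat_lit 0)),((nat_lit 2,nat_lit 4,nat_lit 1),Int.negSucc (nat_lit 0)),((nat_lit 2,nat_lit 4,nat_lit 4),Int.ofNat (nat_lit 1)),((nat_lit 3,nat_lit 2,nat_lit 2),Int.negSucc (nat_lit 0)),((nat_lit 3,nat_lit 3,nat_lit 3),Int.ofNat (nat_lit 1)),((nat_lit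 4,nat_lit 1,nat_lit 3),Int.negSucc (nat_lit 0)),((nat_lit 4,nat_lit 1,nat_lit 4),Int.ofNat (nat_lit 1)),((nat_lit 4,nat_lit 3,nat_lit 1),Int.negSucc (nat_lit 0)),((nat_lit 4,nat_lit 3,nat_lit 3),Int.ofNat (nat_lit 1)),((nat_lit 4,nat_lit 4,nat_lit 1),Int.ofNat (nat_lit 1)),((nat_lit 4,nat_lit 4,nat_lit 4),Int.negSucc (nat_lit 0)),((nat_lit 2,nat_lit 15,nat_lit 1),Int.ofNat (nat_lit 1))]),
((nat_lit 3,nat_lit 2,nat_lit 5),[((nat_lit 3,nat_lit 1,nat_lit 1),Int.ofNat (nat_lit 1)),((nat_lit 3,nat_lit 1,nat_lit 4),Int.negSucc (nat_lit 0)),((nat_lit 3,nat_lit 2,nat_lit 2),Int.negSucc (nat_lit 0)),((nat_lit 3,nat_lit 4,nat_lit 1),Int.negSucc (nat_lit 0)),((nat_lit 3,nat_lit 4,nat_lit 4),Int.ofNat (nat_lit 1)),((nat_lit 4,nat_lit 1,nat_lit 3),Int.negSucc (nat_lit 0)),((nat_lit 4,nat_lit 1,nat_lit 4),Int.ofNat (nat_lit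 1)),((nat_lit 4,nat_lit 3,nat_lit 1),Int.negSucc (nat_lit 0)),((nat_lit 4,nat_lit 3,nat_lit 3),Int.ofNat (nat_lit 1)),((nat_lit 4,nat_lit 4,nat_lit 1),Int.ofNat (nat_lit 1)),((nat_lit 4,nat_lit 4,nat_lit 4),Int.negSucc (nat_lit 0)),((nat_lit 3,nat_lit 15,nat_lit 1),Int.ofNat (nat_lit 1))]),
((nat_lit 3,nat_lit 3,nat_lit 5),[((nat_lit 4,nat_lit 1,nat_lit 1),Int.ofNat (nat_lit 1)),((nat_lit 4,nat_lit 1,nat_lit 3),Int.negSucc (nat_lit 0)),((nat_lit 4,nat_lit 2,nat_lit 2),Int.negSucc (nat_lit 0)),((nat_lit 4,nat_lit 3,nat_lit 1),Int.negSucc (nat_lit 0)),((nat_lit 4,nat_lit 3,nat_lit 3),Int.ofNat (nat_lit 1)),((nat_lit 4,nat_lit 15,nat_lit 1),Int.ofNat (nat_lit 1))]),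
((nat_lit 3,nat_lit 4,nat_lit 5),[((nat_lit 1,nat_lit 2,nat_lit 2),Int.ofNat (nat_lit 1)),((nat_lit 1,nat_lit 2,nat_lit 4),Int.negSucc (nat_lit 0)),((nat_lit 1,nat_lit 3,nat_lit 3),Int.negSucc (nat_lit 0)),((nat_lit 1,nat_lit 4,nat_lit 2),Int.negSucc (nat_lit 0)),((nat_lit 1,nat_lit 4,nat_lit 4),Int.ofNat (nat_lit 1)),((nat_lit 3,nat_lit 2,nat_lit 2),Int.negSucc (nat_lit 0)),((nat_lit 3,nat_lit 3,nat_lit 3),Int.ofNat (nat_lit 1)),((nat_lit 1,nat_lit 15,nat_lit 2),Int.ofNat (nat_lit 1))]),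
((nat_lit 3,nat_lit 5,nat_lit 5),[((nat_lit 2,nat_lit 2,nat_lit 2),Int.ofNat (nat_lit 1)),((nat_lit 2,nat_lit 2,nat_lit 4),Int.negSucc (nat_lit 0)),((nat_lit 2,nat_lit 3,nat_lit 3),Int.negSucc (nat_lit 0)),((nat_lit 2,nat_lit 4,nat_lit 2),Int.negSucc (nat_lit 0)),((nat_lit 2,nat_lit 4,nat_lit 4),Int.ofNat (nat_lit 1)),((nat_lit 3,nat_lit 2,nat_lit 2),Int.negSucc (nat_lit 0)),((nat_lit 3,nat_lit 3,nat_lit 3),Int.ofNat (nat_lit 1)),((nat_lit 2,nat_lit 15,nat_lit 2),Int.ofNat (nat_lit 1))]),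
((nat_lit 3,nat_lit 0,nat_lit 6),[((nat_lit 1,nat_lit 1,nat_lit 1),Int.ofNat (nat_lit 1)),((nat_lit 1,nat_lit 1,nat_lit 3),Int.negSucc (nat_lit 0)),((nat_lit 1,nat_lit 3,nat_lit 1),Int.negSucc (nat_lit 0)),((nat_lit 3,nat_lit 2,nat_lit 2),Int.negSucc (nat_lit 0)),((nat_lit 3,nat_lit 3,nat_lit 3),Int.ofNat (nat_lit 1)),((nat_lit 1,nat_lit 16,nat_lit 1),Int.ofNat (nat_lit 1))]),
((nat_lit 3,nat_lit 1,nat_lit 6),[((nat_lit 2,nat_lit 1,nat_lit 1),Int.ofNat (nat_lit 1)),((nat_lit 2,nat_lit 1,nat_lit 4),Int.negSucc (nat_lit 0)),((nat_lit 2,nat_lit 3,nat_lit 3),Int.negSucc (nat_lit 0)),((nat_lit 2,nat_lit 4,nat_lit 1),Int.negSucc (nat_lit 0)),((nat_lit 2,nat_lit 4,nat_lit 4),Int.ofNat (nat_lit 1)),((nat_lit 3,nat_lit 2,nat_lit 2),Int.negSucc (nat_lit 0)),((nat_lit 3,nat_lit 3,nat_lit 3),Int.ofNat (nat_lit 1)),((nat_lit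 4,nat_lit 1,nat_lit 3),Int.negSucc (nat_lit 0)),((nat_lit 4,nat_lit 1,nat_lit 4),Int.ofNat (nat_lit 1)),((nat_lit 4,nat_lit 3,nat_lit 1),Int.negSucc (nat_lit 0)),((nat_lit 4,nat_lit 3,nat_lit 3),Int.ofNat (nat_lit 1)),((nat_lit 4,nat_lit 4,nat_lit 1),Int.ofNat (nat_lit 1)),((nat_lit 4,nat_lit 4,nat_lit 4),Int.negSucc (nat_lit 0)),((nat_lit 2,nat_lit 16,nat_lit 1),Int.ofNat (nat_lit 1))]),
((nat_lit 3,nat_lit 2,nat_lit 6),[((nat_lit 3,nat_lit 1,nat_lit 1),Int.ofNat (nat_lit 1)),((nat_lit 3,nat_lit 1,nat_lit 4),Int.negSucc (nat_lit 0)),((nat_lit 3,nat_lit 2,nat_lit 2),Int.negSucc (nat_lit 0)),((nat_lit 3,nat_lit 4,nat_lit 1),Int.negSucc (nat_lit 0)),((nat_lit 3,nat_lit 4,nat_lit 4),Int.ofNat (nat_lit 1)),((nat_lit 4,nat_lit 1,nat_lit 3),Int.negSucc (nat_lit 0)),((nat_lit 4,nat_lit 1,nat_lit 4),Int.ofNat (nat_lit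 1)),((nat_lit 4,nat_lit 3,nat_lit 1),Int.negSucc (nat_lit 0)),((nat_lit 4,nat_lit 3,nat_lit 3),Int.ofNat (nat_lit 1)),((nat_lit 4,nat_lit 4,nat_lit 1),Int.ofNat (nat_lit 1)),((nat_lit 4,nat_lit 4,nat_lit 4),Int.negSucc (nat_lit 0)),((nat_lit 3,nat_lit 16,nat_lit 1),Int.ofNat (nat_lit 1))]),
((nat_lit 3,nat_lit 3,nat_lit 6),[((nat_lit 4,nat_lit 1,nat_lit 1),Int.ofNat (nat_lit 1)),((nat_lit 4,nat_lit 1,nat_lit 3),Int.negSucc (nat_lit 0)),((nat_lit 4,nat_lit 2,nat_lit 2),Int.negSucc (nat_lit 0)),((nat_lit 4,nat_lit 3,nat_lit 1),Int.negSucc (nat_lit 0)),((nat_lit 4,nat_lit 3,nat_lit 3),Int.ofNat (nat_lit 1)),((nat_lit 4,nat_lit 16,nat_lit 1),Int.ofNat (nat_lit 1))]),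
((nat_lit 3,nat_lit 4,nat_lit 6),[((nat_lit 1,nat_lit 2,nat_lit 2),Int.ofNat (nat_lit 1)),((nat_lit 1,nat_lit 2,nat_lit 4),Int.negSucc (nat_lit 0)),((nat_lit 1,nat_lit 3,nat_lit 3),Int.negSucc (nat_lit 0)),((nat_lit 1,nat_lit 4,nat_lit 2),Int.negSucc (nat_lit 0)),((nat_lit 1,nat_lit 4,nat_lit 4),Int.ofNat (nat_lit 1)),((nat_lit 3,nat_lit 2,nat_lit 2),Int.negSucc (nat_lit 0)),((nat_lit 3,nat_lit 3,nat_lit 3),Int.ofNat (nat_lit 1)),((nat_lit 1,nat_lit 16,nat_lit 2),Int.ofNat (nat_lit 1))]),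
((nat_lit 3,nat_lit 5,nat_lit 6),[((nat_lit 2,nat_lit 2,nat_lit 2),Int.ofNat (nat_lit 1)),((nat_lit 2,nat_lit 2,nat_lit 4),Int.negSucc (nat_lit 0)),((nat_lit 2,nat_lit 3,nat_lit 3),Int.negSucc (nat_lit 0)),((nat_lit 2,nat_lit 4,nat_lit 2),Int.negSucc (nat_lit 0)),((nat_lit 2,nat_lit 4,nat_lit 4),Int.ofNat (nat_lit 1)),((nat_lit 3,nat_lit 2,nat_lit 2),Int.negSucc (nat_lit 0)),((nat_lit 3,nat_lit 3,nat_lit 3),Int.ofNat (nat_lit 1)),((nat_lit 2,nat_lit 16,nat_lit 2),Int.ofNat (nat_lit 1))]),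
((nat_lit 3,nat_lit 0,nat_lit 7),[((nat_lit 1,nat_lit 1,nat_lit 1),Int.ofNat (nat_lit 1)),((nat_lit 1,nat_lit 1,nat_lit 3),Int.negSucc (nat_lit 0)),((nat_lit 1,nat_lit 3,nat_lit 1),Int.negSucc (nat_lit 0)),((nat_lit 3,nat_lit 2,nat_lit 2),Int.negSucc (nat_lit 0)),((nat_lit 3,nat_lit 3,nat_lit 3),Int.ofNat (nat_lit 1)),((nat_lit 1,nat_lit 17,nat_lit 1),Int.ofNat (nat_lit 1))]),
((nat_lit 3,nat_lit 1,nat_lit 7),[((nat_lit 2,nat_lit 1,nat_lit 1),Int.ofNat (nat_lit 1)),((nat_lit 2,nat_lit 1,nat_lit 4),Int.negSucc (nat_lit 0)),((nat_lit 2,nat_lit 3,nat_lit 3),Int.negSucc (nat_lit 0)),((nat_lit 2,nat_lit 4,nat_lit 1),Int.negSucc (nat_lit 0)),((nat_lit 2,nat_lit 4,nat_lit 4),Int.ofNat (nat_lit 1)),((nat_lit 3,nat_lit 2,nat_lit 2),Int.negSucc (nat_lit 0)),((nat_lit 3,nat_lit 3,nat_lit 3),Int.ofNat (nat_lit 1)),((nat_lit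 4,nat_lit 1,nat_lit 3),Int.negSucc (nat_lit 0)),((nat_lit 4,nat_lit 1,nat_lit 4),Int.ofNat (nat_lit 1)),((nat_lit 4,nat_lit 3,nat_lit 1),Int.negSucc (nat_lit 0)),((nat_lit 4,nat_lit 3,nat_lit 3),Int.ofNat (nat_lit 1)),((nat_lit 4,nat_lit 4,nat_lit 1),Int.ofNat (nat_lit 1)),((nat_lit 4,nat_lit 4,nat_lit 4),Int.negSucc (nat_lit 0)),((nat_lit 2,nat_lit 17,nat_lit 1),Int.ofNat (nat_lit 1))]),
((nat_lit 3,nat_lit 2,nat_lit 7),[((nat_lit 3,nat_lit 1,nat_lit 1),Int.ofNat (nat_lit 1)),((nat_lit 3,nat_lit 1,nat_lit 4),Int.negSucc (nat_lit 0)),((nat_lit 3,nat_lit 2,nat_lit 2),Int.negSucc (nat_lit 0)),((nat_lit 3,nat_lit 4,nat_lit 1),Int.negSucc (nat_lit 0)),((nat_lit 3,nat_lit 4,nat_lit 4),Int.ofNat (nat_lit 1)),((nat_lit 4,nat_lit 1,nat_lit 3),Int.negSucc (nat_lit 0)),((nat_lit 4,nat_lit 1,nat_lit 4),Int.ofNat (nat_lit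 1)),((nat_lit 4,nat_lit 3,nat_lit 1),Int.negSucc (nat_lit 0)),((nat_lit 4,nat_lit 3,nat_lit 3),Int.ofNat (nat_lit 1)),((nat_lit 4,nat_lit 4,nat_lit 1),Int.ofNat (nat_lit 1)),((nat_lit 4,nat_lit 4,nat_lit 4),Int.negSucc (nat_lit 0)),((nat_lit 3,nat_lit 17,nat_lit 1),Int.ofNat (nat_lit 1))]),
((nat_lit 3,nat_lit 3,nat_lit 7),[((nat_lit 4,nat_lit 1,nat_lit 1),Int.ofNat (nat_lit 1)),((nat_lit 4,nat_lit 1,nat_lit 3),Int.negSucc (nat_lit 0)),((nat_lit 4,nat_lit 2,nat_lit 2),Int.negSucc (nat_lit 0)),((nat_lit 4,nat_lit 3,nat_lit 1),Int.negSucc (nat_lit 0)),((nat_lit 4,nat_lit 3,nat_lit 3),Int.ofNat (nat_lit 1)),((nat_lit 4,nat_lit 17,nat_lit 1),Int.ofNat (nat_lit 1))]),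
((nat_lit 3,nat_lit 4,nat_lit 7),[((nat_lit 1,nat_lit 2,nat_lit 2),Int.ofNat (nat_lit 1)),((nat_lit 1,nat_lit 2,nat_lit 4),Int.negSucc (nat_lit 0)),((nat_lit 1,nat_lit 3,nat_lit 3),Int.negSucc (nat_lit 0)),((nat_lit 1,nat_lit 4,nat_lit 2),Int.negSucc (nat_lit 0)),((nat_lit 1,nat_lit 4,nat_lit 4),Int.ofNat (nat_lit 1)),((nat_lit 3,nat_lit 2,nat_lit 2),Int.negSucc (nat_lit 0)),((nat_lit 3,nat_lit 3,nat_lit 3),Int.ofNat (nat_lit 1)),((nat_lit 1,nat_lit 17,nat_lit 2),Int.ofNat (nat_lit 1))])]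

noncomputable def tab2 : Tab := [
((nat_lit 3,nat_lit 5,nat_lit 7),[((nat_lit 2,nat_lit 2,nat_lit 2),Int.ofNat (nat_lit 1)),((nat_lit 2,nat_lit 2,nat_lit 4),Int.negSucc (nat_lit 0)),((nat_lit 2,nat_lit 3,nat_lit 3),Int.negSucc (nat_lit 0)),((nat_lit 2,nat_lit 4,nat_lit 2),Int.negSucc (nat_lit 0)),((nat_lit 2,nat_lit 4,nat_lit 4),Int.ofNat (nat_lit 1)),((nat_lit 3,nat_lit 2,nat_lit 2),Int.negSucc (nat_lit 0)),((nat_lit 3,nat_lit 3,nat_lit 3),Int.ofNat (nat_lit 1)),((nat_lit 2,nat_lit 17,nat_lit 2),Int.ofNat (nat_lit 1))]),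
((nat_lit 3,nat_lit 0,nat_lit 8),[((nat_lit 1,nat_lit 1,nat_lit 1),Int.ofNat (nat_lit 1)),((nat_lit 1,nat_lit 1,nat_lit 3),Int.negSucc (nat_lit 0)),((nat_lit 1,nat_lit 3,nat_lit 1),Int.negSucc (nat_lit 0)),((nat_lit 3,nat_lit 2,nat_lit 2),Int.negSucc (nat_lit 0)),((nat_lit 3,nat_lit 3,nat_lit 3),Int.ofNat (nat_lit 1)),((nat_lit 1,nat_lit 18,nat_lit 1),Int.ofNat (nat_lit 1))]),
((nat_lit 3,nat_lit 1,nat_lit 8),[((nat_lit 2,nat_lit 1,nat_lit 1),Int.ofNat (nat_lit 1)),((nat_lit 2,nat_lit 1,nat_lit 4),Int.negSucc (nat_lit 0)),((nat_lit 2,nat_lit 3,nat_lit 3),Int.negSucc (nat_lit 0)),((nat_lit 2,nat_lit 4,nat_lit 1),Int.negSucc (nat_lit 0)),((nat_lit 2,nat_lit 4,nat_lit 4),Int.ofNat (nat_lit 1)),((nat_lit 3,nat_lit 2,nat_lit 2),Int.negSucc (nat_lit 0)),((nat_lit 3,nat_lit 3,nat_lit 3),Int.ofNat (nat_lit 1)),((nat_lit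 4,nat_lit 1,nat_lit 3),Int.negSucc (nat_lit 0)),((nat_lit 4,nat_lit 1,nat_lit 4),Int.ofNat (nat_lit 1)),((nat_lit 4,nat_lit 3,nat_lit 1),Int.negSucc (nat_lit 0)),((nat_lit 4,nat_lit 3,nat_lit 3),Int.ofNat (nat_lit 1)),((nat_lit 4,nat_lit 4,nat_lit 1),Int.ofNat (nat_lit 1)),((nat_lit 4,nat_lit 4,nat_lit 4),Int.negSucc (nat_lit 0)),((nat_lit 2,nat_lit 18,nat_lit 1),Int.ofNat (nat_lit 1))]),
((nat_lit 3,nat_lit 2,nat_lit 8),[((nat_lit 3,nat_lit 1,nat_lit 1),Int.ofNat (nat_lit 1)),((nat_lit 3,nat_lit 1,nat_lit 4),Int.negSucc (nat_lit 0)),((nat_lit 3,nat_lit 2,nat_lit 2),Int.negSucc (nat_lit 0)),((nat_lit 3,nat_lit 4,nat_lit 1),Int.negSucc (nat_lit 0)),((nat_lit 3,nat_lit 4,nat_lit 4),Int.ofNat (nat_lit 1)),((nat_lit 4,nat_lit 1,nat_lit 3),Int.negSucc (nat_lit 0)),((nat_lit 4,nat_lit 1,nat_lit 4),Int.ofNat (nat_lit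 1)),((nat_lit 4,nat_lit 3,nat_lit 1),Int.negSucc (nat_lit 0)),((nat_lit 4,nat_lit 3,nat_lit 3),Int.ofNat (nat_lit 1)),((nat_lit 4,nat_lit 4,nat_lit 1),Int.ofNat (nat_lit 1)),((nat_lit 4,nat_lit 4,nat_lit 4),Int.negSucc (nat_lit 0)),((nat_lit 3,nat_lit 18,nat_lit 1),Int.ofNat (nat_lit 1))]),
((nat_lit 3,nat_lit 3,nat_lit 8),[((nat_lit 4,nat_lit 1,nat_lit 1),Int.ofNat (nat_lit 1)),((nat_lit 4,nat_lit 1,nat_lit 3),Int.negSucc (nat_lit 0)),((nat_lit 4,nat_lit 2,nat_lit 2),Int.negSucc (nat_lit 0)),((nat_lit 4,nat_lit 3,nat_lit 1),Int.negSucc (nat_lit 0)),((nat_lit 4,nat_lit 3,nat_lit 3),Int.ofNat (nat_lit 1)),((nat_lit 4,nat_lit 18,nat_lit 1),Int.ofNat (nat_lit 1))]),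
((nat_lit 3,nat_lit 4,nat_lit 8),[((nat_lit 1,nat_lit 2,nat_lit 2),Int.ofNat (nat_lit 1)),((nat_lit 1,nat_lit 2,nat_lit 4),Int.negSucc (nat_lit 0)),((nat_lit 1,nat_lit 3,nat_lit 3),Int.negSucc (nat_lit 0)),((nat_lit 1,nat_lit 4,nat_lit 2),Int.negSucc (nat_lit 0)),((nat_lit 1,nat_lit 4,nat_lit 4),Int.ofNat (nat_lit 1)),((nat_lit 3,nat_lit 2,nat_lit 2),Int.negSucc (nat_lit 0)),((nat_lit 3,nat_lit 3,nat_lit 3),Int.ofNat (nat_lit 1)),((nat_lit 1,nat_lit 18,nat_lit 2),Int.ofNat (nat_lit 1))]),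
((nat_lit 3,nat_lit 5,nat_lit 8),[((nat_lit 2,nat_lit 2,nat_lit 2),Int.ofNat (nat_lit 1)),((nat_lit 2,nat_lit 2,nat_lit 4),Int.negSucc (nat_lit 0)),((nat_lit 2,nat_lit 3,nat_lit 3),Int.negSucc (nat_lit 0)),((nat_lit 2,nat_lit 4,nat_lit 2),Int.negSucc (nat_lit 0)),((nat_lit 2,nat_lit 4,nat_lit 4),Int.ofNat (nat_lit 1)),((nat_lit 3,nat_lit 2,nat_lit 2),Int.negSucc (nat_lit 0)),((nat_lit 3,nat_lit 3,nat_lit 3),Int.ofNat (nat_lit 1)),((nat_lit 2,nat_lit 18,nat_lit 2),Int.ofNat (nat_lit 1))]),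
((nat_lit 3,nat_lit 0,nat_lit 9),[((nat_lit 1,nat_lit 1,nat_lit 1),Int.ofNat (nat_lit 1)),((nat_lit 1,nat_lit 1,nat_lit 3),Int.negSucc (nat_lit 0)),((nat_lit 1,nat_lit 3,nat_lit 1),Int.negSucc (nat_lit 0)),((nat_lit 3,nat_lit 2,nat_lit 2),Int.negSucc (nat_lit 0)),((nat_lit 3,nat_lit 3,nat_lit 3),Int.ofNat (nat_lit 1)),((nat_lit 1,nat_lit 19,nat_lit 1),Int.ofNat (nat_lit 1))]),
((nat_lit 3,nat_lit 1,nat_lit 9),[((nat_lit 2,nat_lit 1,nat_lit 1),Int.ofNat (nat_lit 1)),((nat_lit 2,nat_lit 1,nat_lit 4),Int.negSucc (nat_lit 0)),((nat_lit 2,nat_lit 3,nat_lit 3),Int.negSucc (nat_lit 0)),((nat_lit 2,nat_lit 4,nat_lit 1),Int.negSucc (nat_lit 0)),((nat_lit 2,nat_lit 4,nat_lit 4),Int.ofNat (nat_lit 1)),((nat_lit 3,nat_lit 2,nat_lit 2),Int.negSucc (nat_lit 0)),((nat_lit 3,nat_lit 3,nat_lit 3),Int.ofNat (nat_lit 1)),((nat_lit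 4,nat_lit 1,nat_lit 3),Int.negSucc (nat_lit 0)),((nat_lit 4,nat_lit 1,nat_lit 4),Int.ofNat (nat_lit 1)),((nat_lit 4,nat_lit 3,nat_lit 1),Int.negSucc (nat_lit 0)),((nat_lit 4,nat_lit 3,nat_lit 3),Int.ofNat (nat_lit 1)),((nat_lit 4,nat_lit 4,nat_lit 1),Int.ofNat (nat_lit 1)),((nat_lit 4,nat_lit 4,nat_lit 4),Int.negSucc (nat_lit 0)),((nat_lit 2,nat_lit 19,nat_lit 1),Int.ofNat (nat_lit 1))]),
((nat_lit 3,nat_lit 2,nat_lit 9),[((nat_lit 3,nat_lit 1,nat_lit 1),Int.ofNat (nat_lit 1)),((nat_lit 3,nat_lit 1,nat_lit 4),Int.negSucc (nat_lit 0)),((nat_lit 3,nat_lit 2,nat_lit 2),Int.negSucc (nat_lit 0)),((nat_lit 3,nat_lit 4,nat_lit 1),Int.negSucc (nat_lit 0)),((nat_lit 3,nat_lit 4,nat_lit 4),Int.ofNat (nat_lit 1)),((nat_lit 4,nat_lit 1,nat_lit 3),Int.negSucc (nat_lit 0)),((nat_lit 4,nat_lit 1,nat_lit 4),Int.ofNat (nat_lit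 1)),((nat_lit 4,nat_lit 3,nat_lit 1),Int.negSucc (nat_lit 0)),((nat_lit 4,nat_lit 3,nat_lit 3),Int.ofNat (nat_lit 1)),((nat_lit 4,nat_lit 4,nat_lit 1),Int.ofNat (nat_lit 1)),((nat_lit 4,nat_lit 4,nat_lit 4),Int.negSucc (nat_lit 0)),((nat_lit 3,nat_lit 19,nat_lit 1),Int.ofNat (nat_lit 1))]),
((nat_lit 3,nat_lit 3,nat_lit 9),[((nat_lit 4,nat_lit 1,nat_lit 1),Int.ofNat (nat_lit 1)),((nat_lit 4,nat_lit 1,nat_lit 3),Int.negSucc (nat_lit 0)),((nat_lit 4,nat_lit 2,nat_lit 2),Int.negSucc (nat_lit 0)),((nat_lit 4,nat_lit 3,nat_lit 1),Int.negSucc (nat_lit 0)),((nat_lit 4,nat_lit 3,nat_lit 3),Int.ofNat (nat_lit 1)),((nat_lit 4,nat_lit 19,nat_lit 1),Int.ofNat (nat_lit 1))]),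
((nat_lit 3,nat_lit 4,nat_lit 9),[((nat_lit 1,nat_lit 2,nat_lit 2),Int.ofNat (nat_lit 1)),((nat_lit 1,nat_lit 2,nat_lit 4),Int.negSucc (nat_lit 0)),((nat_lit 1,nat_lit 3,nat_lit 3),Int.negSucc (nat_lit 0)),((nat_lit 1,nat_lit 4,nat_lit 2),Int.negSucc (nat_lit 0)),((nat_lit 1,nat_lit 4,nat_lit 4),Int.ofNat (nat_lit 1)),((nat_lit 3,nat_lit 2,nat_lit 2),Int.negSucc (nat_lit 0)),((nat_lit 3,nat_lit 3,nat_lit 3),Int.ofNat (nat_lit 1)),((nat_lit 1,nat_lit 19,nat_lit 2),Int.ofNat (nat_lit 1))]),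
((nat_lit 3,nat_lit 5,nat_lit 9),[((nat_lit 2,nat_lit 2,nat_lit 2),Int.ofNat (nat_lit 1)),((nat_lit 2,nat_lit 2,nat_lit 4),Int.negSucc (nat_lit 0)),((nat_lit 2,nat_lit 3,nat_lit 3),Int.negSucc (nat_lit 0)),((nat_lit 2,nat_lit 4,nat_lit 2),Int.negSucc (nat_lit 0)),((nat_lit 2,nat_lit 4,nat_lit 4),Int.ofNat (nat_lit 1)),((nat_lit 3,nat_lit 2,nat_lit 2),Int.negSucc (nat_lit 0)),((nat_lit 3,nat_lit 3,nat_lit 3),Int.ofNat (nat_lit 1)),((nat_lit 2,nat_lit 19,nat_lit 2),Int.ofNat (nat_lit 1))]),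
((nat_lit 3,nat_lit 0,nat_lit 10),[((nat_lit 1,nat_lit 1,nat_lit 1),Int.ofNat (nat_lit 1)),((nat_lit 1,nat_lit 1,nat_lit 3),Int.negSucc (nat_lit 0)),((nat_lit 1,nat_lit 3,nat_lit 1),Int.negSucc (nat_lit 0)),((nat_lit 3,nat_lit 2,nat_lit 2),Int.negSucc (nat_lit 0)),((nat_lit 3,nat_lit 3,nat_lit 3),Int.ofNat (nat_lit 1)),((nat_lit 1,nat_lit 20,nat_lit 1),Int.ofNat (nat_lit 1))]),
((nat_lit 3,nat_lit 1,nat_lit 10),[((nat_lit 2,nat_lit 1,nat_lit 1),Int.ofNat (nat_lit 1)),((nat_lit 2,nat_lit 1,nat_lit 4),Int.negSucc (nat_lit 0)),((nat_lit 2,nat_lit 3,nat_lit 3),Int.negSucc (nat_lit 0)),((nat_lit 2,nat_lit 4,nat_lit 1),Int.negSucc (nat_lit 0)),((nat_lit 2,nat_lit 4,nat_lit 4),Int.ofNat (nat_lit 1)),((nat_lit 3,nat_lit 2,nat_lit 2),Int.negSucc (nat_lit 0)),((nat_lit 3,nat_lit 3,nat_lit 3),Int.ofNat (nat_lit 1)),((nat_lit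 4,nat_lit 1,nat_lit 3),Int.negSucc (nat_lit 0)),((nat_lit 4,nat_lit 1,nat_lit 4),Int.ofNat (nat_lit 1)),((nat_lit 4,nat_lit 3,nat_lit 1),Int.negSucc (nat_lit 0)),((nat_lit 4,nat_lit 3,nat_lit 3),Int.ofNat (nat_lit 1)),((nat_lit 4,nat_lit 4,nat_lit 1),Int.ofNat (nat_lit 1)),((nat_lit 4,nat_lit 4,nat_lit 4),Int.negSucc (nat_lit 0)),((nat_lit 2,nat_lit 20,nat_lit 1),Int.ofNat (nat_lit 1))]),
((nat_lit 3,nat_lit 2,nat_lit 10),[((nat_lit 3,nat_lit 1,nat_lit 1),Int.ofNat (nat_lit 1)),((nat_lit 3,nat_lit 1,nat_lit 4),Int.negSucc (nat_lit 0)),((nat_lit 3,nat_lit 2,nat_lit 2),Int.negSucc (nat_lit 0)),((nat_lit 3,nat_lit 4,nat_lit 1),Int.negSucc (nat_lit 0)),((nat_lit 3,nat_lit 4,nat_lit 4),Int.ofNat (nat_lit 1)),((nat_lit 4,nat_lit 1,nat_lit 3),Int.negSucc (nat_lit 0)),((nat_lit 4,nat_lit 1,nat_lit 4),Int.ofNat (nat_lit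 1)),((nat_lit 4,nat_lit 3,nat_lit 1),Int.negSucc (nat_lit 0)),((nat_lit 4,nat_lit 3,nat_lit 3),Int.ofNat (nat_lit 1)),((nat_lit 4,nat_lit 4,nat_lit 1),Int.ofNat (nat_lit 1)),((nat_lit 4,nat_lit 4,nat_lit 4),Int.negSucc (nat_lit 0)),((nat_lit 3,nat_lit 20,nat_lit 1),Int.ofNat (nat_lit 1))]),
((nat_lit 3,nat_lit 3,nat_lit 10),[((nat_lit 4,nat_lit 1,nat_lit 1),Int.ofNat (nat_lit 1)),((nat_lit 4,nat_lit 1,nat_lit 3),Int.negSucc (nat_lit 0)),((nat_lit 4,nat_lit 2,nat_lit 2),Int.negSucc (nat_lit 0)),((nat_lit 4,nat_lit 3,nat_lit 1),Int.negSucc (nat_lit 0)),((nat_lit 4,nat_lit 3,nat_lit 3),Int.ofNat (nat_lit 1)),((nat_lit 4,nat_lit 20,nat_lit 1),Int.ofNat (nat_lit 1))]),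
((nat_lit 3,nat_lit 4,nat_lit 10),[((nat_lit 1,nat_lit 2,nat_lit 2),Int.ofNat (nat_lit 1)),((nat_lit 1,nat_lit 2,nat_lit 4),Int.negSucc (nat_lit 0)),((nat_lit 1,nat_lit 3,nat_lit 3),Int.negSucc (nat_lit 0)),((nat_lit 1,nat_lit 4,nat_lit 2),Int.negSucc (nat_lit 0)),((nat_lit 1,nat_lit 4,nat_lit 4),Int.ofNat (nat_lit 1)),((nat_lit 3,nat_lit 2,nat_lit 2),Int.negSucc (nat_lit 0)),((nat_lit 3,nat_lit 3,nat_lit 3),Int.ofNat (nat_lit 1)),((nat_lit 1,nat_lit 20,nat_lit 2),Int.ofNat (nat_lit 1))]),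
((nat_lit 3,nat_lit 5,nat_lit 10),[((nat_lit 2,nat_lit 2,nat_lit 2),Int.ofNat (nat_lit 1)),((nat_lit 2,nat_lit 2,nat_lit 4),Int.negSucc (nat_lit 0)),((nat_lit 2,nat_lit 3,nat_lit 3),Int.negSucc (nat_lit 0)),((nat_lit 2,nat_lit 4,nat_lit 2),Int.negSucc (nat_lit 0)),((nat_lit 2,nat_lit 4,nat_lit 4),Int.ofNat (nat_lit 1)),((nat_lit 3,nat_lit 2,nat_lit 2),Int.negSucc (nat_lit 0)),((nat_lit 3,nat_lit 3,nat_lit 3),Int.ofNat (nat_lit 1)),((nat_lit 2,nat_lit 20,nat_lit 2),Int.ofNat (nat_lit 1))]),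
((nat_lit 3,nat_lit 0,nat_lit 11),[((nat_lit 1,nat_lit 1,nat_lit 1),Int.ofNat (nat_lit 1)),((nat_lit 1,nat_lit 1,nat_lit 3),Int.negSucc (nat_lit 0)),((nat_lit 1,nat_lit 3,nat_lit 1),Int.negSucc (nat_lit 0)),((nat_lit 3,nat_lit 2,nat_lit 2),Int.negSucc (nat_lit 0)),((nat_lit 3,nat_lit 3,nat_lit 3),Int.ofNat (nat_lit 1)),((nat_lit 1,nat_lit 21,nat_lit 1),Int.ofNat (nat_lit 1))]),
((nat_lit 3,nat_lit 1,nat_lit 11),[((nat_lit 2,nat_lit 1,nat_lit 1),Int.ofNat (nat_lit 1)),((nat_lit 2,nat_lit 1,nat_lit 4),Int.negSucc (nat_lit 0)),((nat_lit 2,nat_lit 3,nat_lit 3),Int.negSucc (nat_lit 0)),((nat_lit 2,nat_lit 4,nat_lit 1),Int.negSucc (nat_lit 0)),((nat_lit 2,nat_lit 4,nat_lit 4),Int.ofNat (nat_lit 1)),((nat_lit 3,nat_lit 2,nat_lit 2),Int.negSucc (nat_lit 0)),((nat_lit 3,nat_lit 3,nat_lit 3),Int.ofNat (nat_lit 1)),((nat_lit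 4,nat_lit 1,nat_lit 3),Int.negSucc (nat_lit 0)),((nat_lit 4,nat_lit 1,nat_lit 4),Int.ofNat (nat_lit 1)),((nat_lit 4,nat_lit 3,nat_lit 1),Int.negSucc (nat_lit 0)),((nat_lit 4,nat_lit 3,nat_lit 3),Int.ofNat (nat_lit 1)),((nat_lit 4,nat_lit 4,nat_lit 1),Int.ofNat (nat_lit 1)),((nat_lit 4,nat_lit 4,nat_lit 4),Int.negSucc (nat_lit 0)),((nat_lit 2,nat_lit 21,nat_lit 1),Int.ofNat (nat_lit 1))]),
((nat_lit 3,nat_lit 2,nat_lit 11),[((nat_lit 3,nat_lit 1,nat_lit 1),Int.ofNat (nat_lit 1)),((nat_lit 3,nat_lit 1,nat_lit 4),Int.negSucc (nat_lit 0)),((nat_lit 3,nat_lit 2,nat_lit 2),Int.negSucc (nat_lit 0)),((nat_lit 3,nat_lit 4,nat_lit 1),Int.negSucc (nat_lit 0)),((nat_lit 3,nat_lit 4,nat_lit 4),Int.ofNat (nat_lit 1)),((nat_lit 4,nat_lit 1,nat_lit 3),Int.negSucc (nat_lit 0)),((nat_lit 4,nat_lit 1,nat_lit 4),Int.ofNat (nat_lit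 1)),((nat_lit 4,nat_lit 3,nat_lit 1),Int.negSucc (nat_lit 0)),((nat_lit 4,nat_lit 3,nat_lit 3),Int.ofNat (nat_lit 1)),((nat_lit 4,nat_lit 4,nat_lit 1),Int.ofNat (nat_lit 1)),((nat_lit 4,nat_lit 4,nat_lit 4),Int.negSucc (nat_lit 0)),((nat_lit 3,nat_lit 21,nat_lit 1),Int.ofNat (nat_lit 1))]),
((nat_lit 3,nat_lit 3,nat_lit 11),[((nat_lit 4,nat_lit 1,nat_lit 1),Int.ofNat (nat_lit 1)),((nat_lit 4,nat_lit 1,nat_lit 3),Int.negSucc (nat_lit 0)),((nat_lit 4,nat_lit 2,nat_lit 2),Int.negSucc (nat_lit 0)),((nat_lit 4,nat_lit 3,nat_lit 1),Int.negSucc (nat_lit 0)),((nat_lit 4,nat_lit 3,nat_lit 3),Int.ofNat (nat_lit 1)),((nat_lit 4,nat_lit 21,nat_lit 1),Int.ofNat (nat_lit 1))]),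
((nat_lit 3,nat_lit 4,nat_lit 11),[((nat_lit 1,nat_lit 2,nat_lit 2),Int.ofNat (nat_lit 1)),((nat_lit 1,nat_lit 2,nat_lit 4),Int.negSucc (nat_lit 0)),((nat_lit 1,nat_lit 3,nat_lit 3),Int.negSucc (nat_lit 0)),((nat_lit 1,nat_lit 4,nat_lit 2),Int.negSucc (nat_lit 0)),((nat_lit 1,nat_lit 4,nat_lit 4),Int.ofNat (nat_lit 1)),((nat_lit 3,nat_lit 2,nat_lit 2),Int.negSucc (nat_lit 0)),((nat_lit 3,nat_lit 3,nat_lit 3),Int.ofNat (nat_lit 1)),((nat_lit 1,nat_lit 21,nat_lit 2),Int.ofNat (nat_lit 1))]),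
((nat_lit 3,nat_lit 5,nat_lit 11),[((nat_lit 2,nat_lit 2,nat_lit 2),Int.ofNat (nat_lit 1)),((nat_lit 2,nat_lit 2,nat_lit 4),Int.negSucc (nat_lit 0)),((nat_lit 2,nat_lit 3,nat_lit 3),Int.negSucc (nat_lit 0)),((nat_lit 2,nat_lit 4,nat_lit 2),Int.negSucc (nat_lit 0)),((nat_lit 2,nat_lit 4,nat_lit 4),Int.ofNat (nat_lit 1)),((nat_lit 3,nat_lit 2,nat_lit 2),Int.negSucc (nat_lit 0)),((nat_lit 3,nat_lit 3,nat_lit 3),Int.ofNat (nat_lit 1)),((nat_lit 2,nat_lit 21,nat_lit 2),Int.ofNat (nat_lit 1))]),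
((nat_lit 3,nat_lit 0,nat_lit 12),[((nat_lit 1,nat_lit 1,nat_lit 1),Int.ofNat (nat_lit 1)),((nat_lit 1,nat_lit 1,nat_lit 3),Int.negSucc (nat_lit 0)),((nat_lit 1,nat_lit 3,nat_lit 1),Int.negSucc (nat_lit 0)),((nat_lit 3,nat_lit 2,nat_lit 2),Int.negSucc (nat_lit 0)),((nat_lit 3,nat_lit 3,nat_lit 3),Int.ofNat (nat_lit 1)),((nat_lit 1,nat_lit 22,nat_lit 1),Int.ofNat (nat_lit 1))]),
((nat_lit 3,nat_lit 1,nat_lit 12),[((nat_lit 2,nat_lit 1,nat_lit 1),Int.ofNat (nat_lit 1)),((nat_lit 2,nat_lit 1,nat_lit 4),Int.negSucc (nat_lit 0)),((nat_lit 2,nat_lit 3,nat_lit 3),Int.negSucc (nat_lit 0)),((nat_lit 2,nat_lit 4,nat_lit 1),Int.negSucc (nat_lit 0)),((nat_lit 2,nat_lit 4,nat_lit 4),Int.ofNat (nat_lit 1)),((nat_lit 3,nat_lit 2,nat_lit 2),Int.negSucc (nat_lit 0)),((nat_lit 3,nat_lit 3,nat_lit 3),Int.ofNat (nat_lit 1)),((nat_lit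 4,nat_lit 1,nat_lit 3),Int.negSucc (nat_lit 0)),((nat_lit 4,nat_lit 1,nat_lit 4),Int.ofNat (nat_lit 1)),((nat_lit 4,nat_lit 3,nat_lit 1),Int.negSucc (nat_lit 0)),((nat_lit 4,nat_lit 3,nat_lit 3),Int.ofNat (nat_lit 1)),((nat_lit 4,nat_lit 4,nat_lit 1),Int.ofNat (nat_lit 1)),((nat_lit 4,nat_lit 4,nat_lit 4),Int.negSucc (nat_lit 0)),((nat_lit 2,nat_lit 22,nat_lit 1),Int.ofNat (nat_lit 1))]),
((nat_lit 3,nat_lit 2,nat_lit 12),[((nat_lit 3,nat_lit 1,nat_lit 1),Int.ofNat (nat_lit 1)),((nat_lit 3,nat_lit 1,nat_lit 4),Int.negSucc (nat_lit 0)),((nat_lit 3,nat_lit 2,nat_lit 2),Int.negSucc (nat_lit 0)),((nat_lit 3,nat_lit 4,nat_lit 1),Int.negSucc (nat_lit 0)),((nat_lit 3,nat_lit 4,nat_lit 4),Int.ofNat (nat_lit 1)),((nat_lit 4,nat_lit 1,nat_lit 3),Int.negSucc (nat_lit 0)),((nat_lit 4,nat_lit 1,nat_lit 4),Int.ofNat (nat_lit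 1)),((nat_lit 4,nat_lit 3,nat_lit 1),Int.negSucc (nat_lit 0)),((nat_lit 4,nat_lit 3,nat_lit 3),Int.ofNat (nat_lit 1)),((nat_lit 4,nat_lit 4,nat_lit 1),Int.ofNat (nat_lit 1)),((nat_lit 4,nat_lit 4,nat_lit 4),Int.negSucc (nat_lit 0)),((nat_lit 3,nat_lit 22,nat_lit 1),Int.ofNat (nat_lit 1))]),
((nat_lit 3,nat_lit 3,nat_lit 12),[((nat_lit 4,nat_lit 1,nat_lit 1),Int.ofNat (nat_lit 1)),((nat_lit 4,nat_lit 1,nat_lit 3),Int.negSucc (nat_lit 0)),((nat_lit 4,nat_lit 2,nat_lit 2),Int.negSucc (nat_lit 0)),((nat_lit 4,nat_lit 3,nat_lit 1),Int.negSucc (nat_lit 0)),((nat_lit 4,nat_lit 3,nat_lit 3),Int.ofNat (nat_lit 1)),((nat_lit 4,nat_lit 22,nat_lit 1),Int.ofNat (nat_lit 1))]),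
((nat_lit 3,nat_lit 4,nat_lit 12),[((nat_lit 1,nat_lit 2,nat_lit 2),Int.ofNat (nat_lit 1)),((nat_lit 1,nat_lit 2,nat_lit 4),Int.negSucc (nat_lit 0)),((nat_lit 1,nat_lit 3,nat_lit 3),Int.negSucc (nat_lit 0)),((nat_lit 1,nat_lit 4,nat_lit 2),Int.negSucc (nat_lit 0)),((nat_lit 1,nat_lit 4,nat_lit 4),Int.ofNat (nat_lit 1)),((nat_lit 3,nat_lit 2,nat_lit 2),Int.negSucc (nat_lit 0)),((nat_lit 3,nat_lit 3,nat_lit 3),Int.ofNat (nat_lit 1)),((nat_lit 1,nat_lit 22,nat_lit 2),Int.ofNat (nat_lit 1))]),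
((nat_lit 3,nat_lit 5,nat_lit 12),[((nat_lit 2,nat_lit 2,nat_lit 2),Int.ofNat (nat_lit 1)),((nat_lit 2,nat_lit 2,nat_lit 4),Int.negSucc (nat_lit 0)),((nat_lit 2,nat_lit 3,nat_lit 3),Int.negSucc (nat_lit 0)),((nat_lit 2,nat_lit 4,nat_lit 2),Int.negSucc (nat_lit 0)),((nat_lit 2,nat_lit 4,nat_lit 4),Int.ofNat (nat_lit 1)),((nat_lit 3,nat_lit 2,nat_lit 2),Int.negSucc (nat_lit 0)),((nat_lit 3,nat_lit 3,nat_lit 3),Int.ofNat (nat_lit 1)),((nat_lit 2,nat_lit 22,nat_lit 2),Int.ofNat (nat_lit 1))]),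
((nat_lit 3,nat_lit 0,nat_lit 13),[((nat_lit 1,nat_lit 1,nat_lit 1),Int.ofNat (nat_lit 1)),((nat_lit 1,nat_lit 1,nat_lit 3),Int.negSucc (nat_lit 0)),((nat_lit 1,nat_lit 3,nat_lit 1),Int.negSucc (nat_lit 0)),((nat_lit 3,nat_lit 2,nat_lit 2),Int.negSucc (nat_lit 0)),((nat_lit 3,nat_lit 3,nat_lit 3),Int.ofNat (nat_lit 1)),((nat_lit 1,nat_lit 23,nat_lit 1),Int.ofNat (nat_lit 1))])]

noncomputable def tab3 : Tab := [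
((nat_lit 3,nat_lit 1,nat_lit 13),[((nat_lit 2,nat_lit 1,nat_lit 1),Int.ofNat (nat_lit 1)),((nat_lit 2,nat_lit 1,nat_lit 4),Int.negSucc (nat_lit 0)),((nat_lit 2,nat_lit 3,nat_lit 3),Int.negSucc (nat_lit 0)),((nat_lit 2,nat_lit 4,nat_lit 1),Int.negSucc (nat_lit 0)),((nat_lit 2,nat_lit 4,nat_lit 4),Int.ofNat (nat_lit 1)),((nat_lit 3,nat_lit 2,nat_lit 2),Int.negSucc (nat_lit 0)),((nat_lit 3,nat_lit 3,nat_lit 3),Int.ofNat (nat_lit 1)),((nat_lit 4,nat_lit 1,nat_lit 3),Int.negSucc (nat_lit 0)),((nat_lit 4,nat_lit 1,nat_lit 4),Int.ofNat (nat_lit 1)),((nat_lit 4,nat_lit 3,nat_lit 1),Int.negSucc (nat_lit 0)),((nat_lit 4,nat_lit 3,nat_lit 3),Int.ofNat (nat_lit 1)),((nat_lit 4,nat_lit 4,nat_lit 1),Int.ofNat (nat_lit 1)),((nat_lit 4,nat_lit 4,nat_lit 4),Int.negSucc (nat_lit 0)),((nat_lit 2,nat_lit 23,nat_lit 1),Int.ofNat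 (nat_lit 1))]),
((nat_lit 3,nat_lit 2,nat_lit 13),[((nat_lit 3,nat_lit 1,nat_lit 1),Int.ofNat (nat_lit 1)),((nat_lit 3,nat_lit 1,nat_lit 4),Int.negSucc (nat_lit 0)),((nat_lit 3,nat_lit 2,nat_lit 2),Int.negSucc (nat_lit 0)),((nat_lit 3,nat_lit 4,nat_lit 1),Int.negSucc (nat_lit 0)),((nat_lit 3,nat_lit 4,nat_lit 4),Int.ofNat (nat_lit 1)),((nat_lit 4,nat_lit 1,nat_lit 3),Int.negSucc (nat_lit 0)),((nat_lit 4,nat_lit 1,nat_lit 4),Int.ofNat (nat_lit 1)),((nat_lit 4,nat_lit 3,nat_lit 1),Int.negSucc (nat_lit 0)),((nat_lit 4,nat_lit 3,nat_lit 3),Int.ofNat (nat_lit 1)),((nat_lit 4,nat_lit 4,nat_lit 1),Int.ofNat (nat_lit 1)),((nat_lit 4,nat_lit 4,nat_lit 4),Int.negSucc (nat_lit 0)),((nat_lit 3,nat_lit 23,nat_lit 1),Int.ofNat (nat_lit 1))]),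
((nat_lit 3,nat_lit 3,nat_lit 13),[((nat_lit 4,nat_lit 1,nat_lit 1),Int.ofNat (nat_lit 1)),((nat_lit 4,nat_lit 1,nat_lit 3),Int.negSucc (nat_lit 0)),((nat_lit 4,nat_lit 2,nat_lit 2),Int.negSucc (nat_lit 0)),((nat_lit 4,nat_lit 3,nat_lit 1),Int.negSucc (nat_lit 0)),((nat_lit 4,nat_lit 3,nat_lit 3),Int.ofNat (nat_lit 1)),((nat_lit 4,nat_lit 23,nat_lit 1),Int.ofNat (nat_lit 1))]),
((nat_lit 3,nat_lit 4,nat_lit 13),[((nat_lit 1,nat_lit 2,nat_lit 2),Int.ofNat (nat_lit 1)),((nat_lit 1,nat_lit 2,nat_lit 4),Int.negSucc (nat_lit 0)),((nat_lit 1,nat_lit 3,nat_lit 3),Int.negSucc (nat_lit 0)),((nat_lit 1,nat_lit 4,nat_lit 2),Int.negSucc (nat_lit 0)),((nat_lit 1,nat_lit 4,nat_lit 4),Int.ofNat (nat_lit 1)),((nat_lit 3,nat_lit 2,nat_lit 2),Int.negSucc (nat_lit 0)),((nat_lit 3,nat_lit 3,nat_lit 3),Int.ofNat (nat_lit 1)),((nat_lit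 1,nat_lit 23,nat_lit 2),Int.ofNat (nat_lit 1))]),
((nat_lit 3,nat_lit 5,nat_lit 13),[((nat_lit 2,nat_lit 2,nat_lit 2),Int.ofNat (nat_lit 1)),((nat_lit 2,nat_lit 2,nat_lit 4),Int.negSucc (nat_lit 0)),((nat_lit 2,nat_lit 3,nat_lit 3),Int.negSucc (nat_lit 0)),((nat_lit 2,nat_lit 4,nat_lit 2),Int.negSucc (nat_lit 0)),((nat_lit 2,nat_lit 4,nat_lit 4),Int.ofNat (nat_lit 1)),((nat_lit 3,nat_lit 2,nat_lit 2),Int.negSucc (nat_lit 0)),((nat_lit 3,nat_lit 3,nat_lit 3),Int.ofNat (nat_lit 1)),((nat_lit 2,nat_lit 23,nat_lit 2),Int.ofNat (nat_lit 1))]),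
((nat_lit 3,nat_lit 0,nat_lit 14),[((nat_lit 1,nat_lit 1,nat_lit 1),Int.ofNat (nat_lit 1)),((nat_lit 1,nat_lit 1,nat_lit 3),Int.negSucc (nat_lit 0)),((nat_lit 1,nat_lit 3,nat_lit 1),Int.negSucc (nat_lit 0)),((nat_lit 3,nat_lit 2,nat_lit 2),Int.negSucc (nat_lit 0)),((nat_lit 3,nat_lit 3,nat_lit 3),Int.ofNat (nat_lit 1)),((nat_lit 1,nat_lit 24,nat_lit 1),Int.ofNat (nat_lit 1))]),
((nat_lit 3,nat_lit 1,nat_lit 14),[((nat_lit 2,nat_lit 1,nat_lit 1),Int.ofNat (nat_lit 1)),((nat_lit 2,nat_lit 1,nat_lit 4),Int.negSucc (nat_lit 0)),((nat_lit 2,nat_lit 3,nat_lit 3),Int.negSucc (nat_lit 0)),((nat_lit 2,nat_lit 4,nat_lit 1),Int.negSucc (nat_lit 0)),((nat_lit 2,nat_lit 4,nat_lit 4),Int.ofNat (nat_lit 1)),((nat_lit 3,nat_lit 2,nat_lit 2),Int.negSucc (nat_lit 0)),((nat_lit 3,nat_lit 3,nat_lit 3),Int.ofNat (nat_lit 1)),((nat_lit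 4,nat_lit 1,nat_lit 3),Int.negSucc (nat_lit 0)),((nat_lit 4,nat_lit 1,nat_lit 4),Int.ofNat (nat_lit 1)),((nat_lit 4,nat_lit 3,nat_lit 1),Int.negSucc (nat_lit 0)),((nat_lit 4,nat_lit 3,nat_lit 3),Int.ofNat (nat_lit 1)),((nat_lit 4,nat_lit 4,nat_lit 1),Int.ofNat (nat_lit 1)),((nat_lit 4,nat_lit 4,nat_lit 4),Int.negSucc (nat_lit 0)),((nat_lit 2,nat_lit 24,nat_lit 1),Int.ofNat (nat_lit 1))]),
((nat_lit 3,nat_lit 2,nat_lit 14),[((nat_lit 3,nat_lit 1,nat_lit 1),Int.ofNat (nat_lit 1)),((nat_lit 3,nat_lit 1,nat_lit 4),Int.negSucc (nat_lit 0)),((nat_lit 3,nat_lit 2,nat_lit 2),Int.negSucc (nat_lit 0)),((nat_lit 3,nat_lit 4,nat_lit 1),Int.negSucc (nat_lit 0)),((nat_lit 3,nat_lit 4,nat_lit 4),Int.ofNat (nat_lit 1)),((nat_lit 4,nat_lit 1,nat_lit 3),Int.negSucc (nat_lit 0)),((nat_lit 4,nat_lit 1,nat_lit 4),Int.ofNat (nat_lit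 1)),((nat_lit 4,nat_lit 3,nat_lit 1),Int.negSucc (nat_lit 0)),((nat_lit 4,nat_lit 3,nat_lit 3),Int.ofNat (nat_lit 1)),((nat_lit 4,nat_lit 4,nat_lit 1),Int.ofNat (nat_lit 1)),((nat_lit 4,nat_lit 4,nat_lit 4),Int.negSucc (nat_lit 0)),((nat_lit 3,nat_lit 24,nat_lit 1),Int.ofNat (nat_lit 1))]),
((nat_lit 3,nat_lit 3,nat_lit 14),[((nat_lit 4,nat_lit 1,nat_lit 1),Int.ofNat (nat_lit 1)),((nat_lit 4,nat_lit 1,nat_lit 3),Int.negSucc (nat_lit 0)),((nat_lit 4,nat_lit 2,nat_lit 2),Int.negSucc (nat_lit 0)),((nat_lit 4,nat_lit 3,nat_lit 1),Int.negSucc (nat_lit 0)),((nat_lit 4,nat_lit 3,nat_lit 3),Int.ofNat (nat_lit 1)),((nat_lit 4,nat_lit 24,nat_lit 1),Int.ofNat (nat_lit 1))]),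
((nat_lit 3,nat_lit 4,nat_lit 14),[((nat_lit 1,nat_lit 2,nat_lit 2),Int.ofNat (nat_lit 1)),((nat_lit 1,nat_lit 2,nat_lit 4),Int.negSucc (nat_lit 0)),((nat_lit 1,nat_lit 3,nat_lit 3),Int.negSucc (nat_lit 0)),((nat_lit 1,nat_lit 4,nat_lit 2),Int.negSucc (nat_lit 0)),((nat_lit 1,nat_lit 4,nat_lit 4),Int.ofNat (nat_lit 1)),((nat_lit 3,nat_lit 2,nat_lit 2),Int.negSucc (nat_lit 0)),((nat_lit 3,nat_lit 3,nat_lit 3),Int.ofNat (nat_lit 1)),((nat_lit 1,nat_lit 24,nat_lit 2),Int.ofNat (nat_lit 1))]),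
((nat_lit 3,nat_lit 5,nat_lit 14),[((nat_lit 2,nat_lit 2,nat_lit 2),Int.ofNat (nat_lit 1)),((nat_lit 2,nat_lit 2,nat_lit 4),Int.negSucc (nat_lit 0)),((nat_lit 2,nat_lit 3,nat_lit 3),Int.negSucc (nat_lit 0)),((nat_lit 2,nat_lit 4,nat_lit 2),Int.negSucc (nat_lit 0)),((nat_lit 2,nat_lit 4,nat_lit 4),Int.ofNat (nat_lit 1)),((nat_lit 3,nat_lit 2,nat_lit 2),Int.negSucc (nat_lit 0)),((nat_lit 3,nat_lit 3,nat_lit 3),Int.ofNat (nat_lit 1)),((nat_lit 2,nat_lit 24,nat_lit 2),Int.ofNat (nat_lit 1))]),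
((nat_lit 4,nat_lit 0,nat_lit 1),[((nat_lit 1,nat_lit 1,nat_lit 1),Int.ofNat (nat_lit 1)),((nat_lit 1,nat_lit 3,nat_lit 1),Int.negSucc (nat_lit 0)),((nat_lit 3,nat_lit 2,nat_lit 1),Int.negSucc (nat_lit 0)),((nat_lit 3,nat_lit 3,nat_lit 1),Int.ofNat (nat_lit 1))]),
((nat_lit 4,nat_lit 1,nat_lit 1),[((nat_lit 2,nat_lit 1,nat_lit 1),Int.ofNat (nat_lit 1)),((nat_lit 2,nat_lit 3,nat_lit 1),Int.negSucc (nat_lit 0)),((nat_lit 3,nat_lit 2,nat_lit 1),Int.negSucc (nat_lit 0)),((nat_lit 3,nat_lit 3,nat_lit 1),Int.ofNat (nat_lit 1))]),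
((nat_lit 4,nat_lit 2,nat_lit 1),[((nat_lit 3,nat_lit 1,nat_lit 1),Int.ofNat (nat_lit 1)),((nat_lit 3,nat_lit 2,nat_lit 1),Int.negSucc (nat_lit 0))]),
((nat_lit 4,nat_lit 3,nat_lit 1),[((nat_lit 4,nat_lit 1,nat_lit 1),Int.ofNat (nat_lit 1)),((nat_lit 4,nat_lit 2,nat_lit 1),Int.negSucc (nat_lit 0))]),
((nat_lit 4,nat_lit 4,nat_lit 1),[((nat_lit 1,nat_lit 2,nat_lit 1),Int.ofNat (nat_lit 1)),((nat_lit 1,nat_lit 3,nat_lit 1),Int.negSucc (nat_lit 0)),((nat_lit 3,nat_lit 2,nat_lit 1),Int.negSucc (nat_lit 0)),((nat_lit 3,nat_lit 3,nat_lit 1),Int.ofNat (nat_lit 1))]),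
((nat_lit 4,nat_lit 5,nat_lit 1),[((nat_lit 2,nat_lit 2,nat_lit 1),Int.ofNat (nat_lit 1)),((nat_lit 2,nat_lit 3,nat_lit 1),Int.negSucc (nat_lit 0)),((nat_lit 3,nat_lit 2,nat_lit 1),Int.negSucc (nat_lit 0)),((nat_lit 3,nat_lit 3,nat_lit 1),Int.ofNat (nat_lit 1))]),
((nat_lit 4,nat_lit 0,nat_lit 2),[((nat_lit 1,nat_lit 1,nat_lit 1),Int.ofNat (nat_lit 1)),((nat_lit 1,nat_lit 3,nat_lit 1),Int.negSucc (nat_lit 0)),((nat_lit 3,nat_lit 2,nat_lit 2),Int.negSucc (nat_lit 0)),((nat_lit 3,nat_lit 3,nat_lit 2),Int.ofNat (nat_lit 1))]),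
((nat_lit 4,nat_lit 1,nat_lit 2),[((nat_lit 2,nat_lit 1,nat_lit 1),Int.ofNat (nat_lit 1)),((nat_lit 2,nat_lit 3,nat_lit 2),Int.negSucc (nat_lit 0)),((nat_lit 2,nat_lit 4,nat_lit 1),Int.negSucc (nat_lit 0)),((nat_lit 2,nat_lit 4,nat_lit 2),Int.ofNat (nat_lit 1)),((nat_lit 3,nat_lit 2,nat_lit 2),Int.negSucc (nat_lit 0)),((nat_lit 3,nat_lit 3,nat_lit 2),Int.ofNat (nat_lit 1)),((nat_lit 4,nat_lit 3,nat_lit 1),Int.negSucc (nat_lit 0)),((nat_lit 4,nat_lit 3,nat_lit 2),Int.ofNat (nat_lit 1)),((nat_lit 4,nat_lit 4,nat_lit 1),Int.ofNat (nat_lit 1)),((nat_lit 4,nat_lit 4,nat_lit 2),Int.negSucc (nat_lit 0))]),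
((nat_lit 4,nat_lit 2,nat_lit 2),[((nat_lit 3,nat_lit 1,nat_lit 1),Int.ofNat (nat_lit 1)),((nat_lit 3,nat_lit 2,nat_lit 2),Int.negSucc (nat_lit 0)),((nat_lit 3,nat_lit 4,nat_lit 1),Int.negSucc (nat_lit 0)),((nat_lit 3,nat_lit 4,nat_lit 2),Int.ofNat (nat_lit 1)),((nat_lit 4,nat_lit 3,nat_lit 1),Int.negSucc (nat_lit 0)),((nat_lit 4,nat_lit 3,nat_lit 2),Int.ofNat (nat_lit 1)),((nat_lit 4,nat_lit 4,nat_lit 1),Int.ofNat (nat_lit 1)),((nat_lit 4,nat_lit 4,nat_lit 2),Int.negSucc (nat_lit 0))]),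
((nat_lit 4,nat_lit 3,nat_lit 2),[((nat_lit 4,nat_lit 1,nat_lit 1),Int.ofNat (nat_lit 1)),((nat_lit 4,nat_lit 2,nat_lit 2),Int.negSucc (nat_lit 0)),((nat_lit 4,nat_lit 3,nat_lit 1),Int.negSucc (nat_lit 0)),((nat_lit 4,nat_lit 3,nat_lit 2),Int.ofNat (nat_lit 1))]),
((nat_lit 4,nat_lit 4,nat_lit 2),[((nat_lit 1,nat_lit 2,nat_lit 2),Int.ofNat (nat_lit 1)),((nat_lit 1,nat_lit 3,nat_lit 2),Int.negSucc (nat_lit 0)),((nat_lit 3,nat_lit 2,nat_lit 2),Int.negSucc (nat_lit 0)),((nat_lit 3,nat_lit 3,nat_lit 2),Int.ofNat (nat_lit 1))]),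
((nat_lit 4,nat_lit 5,nat_lit 2),[((nat_lit 2,nat_lit 2,nat_lit 2),Int.ofNat (nat_lit 1)),((nat_lit 2,nat_lit 3,nat_lit 2),Int.negSucc (nat_lit 0)),((nat_lit 3,nat_lit 2,nat_lit 2),Int.negSucc (nat_lit 0)),((nat_lit 3,nat_lit 3,nat_lit 2),Int.ofNat (nat_lit 1))]),
((nat_lit 4,nat_lit 0,nat_lit 3),[((nat_lit 1,nat_lit 1,nat_lit 1),Int.ofNat (nat_lit 1)),((nat_lit 1,nat_lit 3,nat_lit 1),Int.negSucc (nat_lit 0)),((nat_lit 3,nat_lit 2,nat_lit 2),Int.negSucc (nat_lit 0)),((nat_lit 3,nat_lit 3,nat_lit 3),Int.ofNat (nat_lit 1))]),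
((nat_lit 4,nat_lit 1,nat_lit 3),[((nat_lit 2,nat_lit 1,nat_lit 1),Int.ofNat (nat_lit 1)),((nat_lit 2,nat_lit 3,nat_lit 3),Int.negSucc (nat_lit 0)),((nat_lit 2,nat_lit 4,nat_lit 1),Int.negSucc (nat_lit 0)),((nat_lit 2,nat_lit 4,nat_lit 3),Int.ofNat (nat_lit 1)),((nat_lit 3,nat_lit 2,nat_lit 2),Int.negSucc (nat_lit 0)),((nat_lit 3,nat_lit 3,nat_lit 3),Int.ofNat (nat_lit 1)),((nat_lit 4,nat_lit 3,nat_lit 1),Int.negSucc (nat_lit 0)),((nat_lit 4,nat_lit 3,nat_lit 3),Int.ofNat (nat_lit 1)),((nat_lit 4,nat_lit 4,nat_lit 1),Int.ofNat (nat_lit 1)),((nat_lit 4,nat_lit 4,nat_lit 3),Int.negSucc (nat_lit 0))]),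
((nat_lit 4,nat_lit 2,nat_lit 3),[((nat_lit 3,nat_lit 1,nat_lit 1),Int.ofNat (nat_lit 1)),((nat_lit 3,nat_lit 2,nat_lit 2),Int.negSucc (nat_lit 0)),((nat_lit 3,nat_lit 4,nat_lit 1),Int.negSucc (nat_lit 0)),((nat_lit 3,nat_lit 4,nat_lit 3),Int.ofNat (nat_lit 1)),((nat_lit 4,nat_lit 3,nat_lit 1),Int.negSucc (nat_lit 0)),((nat_lit 4,nat_lit 3,nat_lit 3),Int.ofNat (nat_lit 1)),((nat_lit 4,nat_lit 4,nat_lit 1),Int.ofNat (nat_lit 1)),((nat_lit 4,nat_lit 4,nat_lit 3),Int.negSucc (nat_lit 0))]),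
((nat_lit 4,nat_lit 3,nat_lit 3),[((nat_lit 4,nat_lit 1,nat_lit 1),Int.ofNat (nat_lit 1)),((nat_lit 4,nat_lit 2,nat_lit 2),Int.negSucc (nat_lit 0)),((nat_lit 4,nat_lit 3,nat_lit 1),Int.negSucc (nat_lit 0)),((nat_lit 4,nat_lit 3,nat_lit 3),Int.ofNat (nat_lit 1))]),
((nat_lit 4,nat_lit 4,nat_lit 3),[((nat_lit 1,nat_lit 2,nat_lit 2),Int.ofNat (nat_lit 1)),((nat_lit 1,nat_lit 3,nat_lit 3),Int.negSucc (nat_lit 0)),((nat_lit 1,nat_lit 4,nat_lit 2),Int.negSucc (nat_lit 0)),((nat_lit 1,nat_lit 4,nat_lit 3),Int.ofNat (nat_lit 1)),((nat_lit 3,nat_lit 2,nat_lit 2),Int.negSucc (nat_lit 0)),((nat_lit 3,nat_lit 3,nat_lit 3),Int.ofNat (nat_lit 1))]),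
((nat_lit 4,nat_lit 5,nat_lit 3),[((nat_lit 2,nat_lit 2,nat_lit 2),Int.ofNat (nat_lit 1)),((nat_lit 2,nat_lit 3,nat_lit 3),Int.negSucc (nat_lit 0)),((nat_lit 2,nat_lit 4,nat_lit 2),Int.negSucc (nat_lit 0)),((nat_lit 2,nat_lit 4,nat_lit 3),Int.ofNat (nat_lit 1)),((nat_lit 3,nat_lit 2,nat_lit 2),Int.negSucc (nat_lit 0)),((nat_lit 3,nat_lit 3,nat_lit 3),Int.ofNat (nat_lit 1))]),
((nat_lit 4,nat_lit 0,nat_lit 4),[((nat_lit 1,nat_lit 1,nat_lit 1),Int.ofNat (nat_lit 1)),((nat_lit 1,nat_lit 1,nat_lit 3),Int.negSucc (nat_lit 0)),((nat_lit 1,nat_lit 1,nat_lit 4),Int.ofNat (nat_lit 1)),((nat_lit 1,nat_lit 3,nat_lit 1),Int.negSucc (nat_lit 0)),((nat_lit 3,nat_lit 2,nat_lit 2),Int.negSucc (nat_lit 0)),((nat_lit 3,nat_lit 3,nat_lit 3),Int.ofNat (nat_lit 1))]),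
((nat_lit 4,nat_lit 1,nat_lit 4),[((nat_lit 2,nat_lit 1,nat_lit 1),Int.ofNat (nat_lit 1)),((nat_lit 2,nat_lit 3,nat_lit 3),Int.negSucc (nat_lit 0)),((nat_lit 2,nat_lit 4,nat_lit 1),Int.negSucc (nat_lit 0)),((nat_lit 2,nat_lit 4,nat_lit 4),Int.ofNat (nat_lit 1)),((nat_lit 3,nat_lit 2,nat_lit 2),Int.negSucc (nat_lit 0)),((nat_lit 3,nat_lit 3,nat_lit 3),Int.ofNat (nat_lit 1)),((nat_lit 4,nat_lit 1,nat_lit 3),Int.negSucc (nat_lit 0)),((nat_lit 4,nat_lit 1,nat_lit 4),Int.ofNat (nat_lit 1)),((nat_lit 4,nat_lit 3,nat_lit 1),Int.negSucc (nat_lit 0)),((nat_lit 4,nat_lit 3,nat_lit 3),Int.ofNat (nat_lit 1)),((nat_lit 4,nat_lit 4,nat_lit 1),Int.ofNat (nat_lit 1)),((nat_lit 4,nat_lit 4,nat_lit 4),Int.negSucc (nat_lit 0))]),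
((nat_lit 4,nat_lit 2,nat_lit 4),[((nat_lit 3,nat_lit 1,nat_lit 1),Int.ofNat (nat_lit 1)),((nat_lit 3,nat_lit 2,nat_lit 2),Int.negSucc (nat_lit 0)),((nat_lit 3,nat_lit 4,nat_lit 1),Int.negSucc (nat_lit 0)),((nat_lit 3,nat_lit 4,nat_lit 4),Int.ofNat (nat_lit 1)),((nat_lit 4,nat_lit 1,nat_lit 3),Int.negSucc (nat_lit 0)),((nat_lit 4,nat_lit 1,nat_lit 4),Int.ofNat (nat_lit 1)),((nat_lit 4,nat_lit 3,nat_lit 1),Int.negSucc (nat_lit 0)),((nat_lit 4,nat_lit 3,nat_lit 3),Int.ofNat (nat_lit 1)),((nat_lit 4,nat_lit 4,nat_lit 1),Int.ofNat (nat_lit 1)),((nat_lit 4,nat_lit 4,nat_lit 4),Int.negSucc (nat_lit 0))])]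

noncomputable def tab4 : Tab := [
((nat_lit 4,nat_lit 3,nat_lit 4),[((nat_lit 4,nat_lit 1,nat_lit 1),Int.ofNat (nat_lit 1)),((nat_lit 4,nat_lit 1,nat_lit 3),Int.negSucc (nat_lit 0)),((nat_lit 4,nat_lit 1,nat_lit 4),Int.ofNat (nat_lit 1)),((nat_lit 4,nat_lit 2,nat_lit 2),Int.negSucc (nat_lit 0)),((nat_lit 4,nat_lit 3,nat_lit 1),Int.negSucc (nat_lit 0)),((nat_lit 4,nat_lit 3,nat_lit 3),Int.ofNat (nat_lit 1))]),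
((nat_lit 4,nat_lit 4,nat_lit 4),[((nat_lit 1,nat_lit 2,nat_lit 2),Int.ofNat (nat_lit 1)),((nat_lit 1,nat_lit 3,nat_lit 3),Int.negSucc (nat_lit 0)),((nat_lit 1,nat_lit 4,nat_lit 2),Int.negSucc (nat_lit 0)),((nat_lit 1,nat_lit 4,nat_lit 4),Int.ofNat (nat_lit 1)),((nat_lit 3,nat_lit 2,nat_lit 2),Int.negSucc (nat_lit 0)),((nat_lit 3,nat_lit 3,nat_lit 3),Int.ofNat (nat_lit 1))]),
((nat_lit 4,nat_lit 5,nat_lit 4),[((nat_lit 2,nat_lit 2,nat_lit 2),Int.ofNat (nat_lit 1)),((nat_lit 2,nat_lit 3,nat_lit 3),Int.negSucc (nat_lit 0)),((nat_lit 2,nat_lit 4,nat_lit 2),Int.negSucc (nat_lit 0)),((nat_lit 2,nat_lit 4,nat_lit 4),Int.ofNat (nat_lit 1)),((nat_lit 3,nat_lit 2,nat_lit 2),Int.negSucc (nat_lit 0)),((nat_lit 3,nat_lit 3,nat_lit 3),Int.ofNat (nat_lit 1))]),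
((nat_lit 4,nat_lit 0,nat_lit 5),[((nat_lit 1,nat_lit 1,nat_lit 1),Int.ofNat (nat_lit 1)),((nat_lit 1,nat_lit 1,nat_lit 3),Int.negSucc (nat_lit 0)),((nat_lit 1,nat_lit 3,nat_lit 1),Int.negSucc (nat_lit 0)),((nat_lit 3,nat_lit 2,nat_lit 2),Int.negSucc (nat_lit 0)),((nat_lit 3,nat_lit 3,nat_lit 3),Int.ofNat (nat_lit 1)),((nat_lit 1,nat_lit 1,nat_lit 5),Int.ofNat (nat_lit 1))]),
((nat_lit 4,nat_lit 1,nat_lit 5),[((nat_lit 2,nat_lit 1,nat_lit 1),Int.ofNat (nat_lit 1)),((nat_lit 2,nat_lit 1,nat_lit 4),Int.negSucc (nat_lit 0)),((nat_lit 2,nat_lit 3,nat_lit 3),Int.negSucc (nat_lit 0)),((nat_lit 2,nat_lit 4,nat_lit 1),Int.negSucc (nat_lit 0)),((nat_lit 2,nat_lit 4,nat_lit 4),Int.ofNat (nat_lit 1)),((nat_lit 3,nat_lit 2,nat_lit 2),Int.negSucc (nat_lit 0)),((nat_lit 3,nat_lit 3,nat_lit 3),Int.ofNat (nat_lit 1)),((nat_lit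 4,nat_lit 1,nat_lit 3),Int.negSucc (nat_lit 0)),((nat_lit 4,nat_lit 1,nat_lit 4),Int.ofNat (nat_lit 1)),((nat_lit 4,nat_lit 3,nat_lit 1),Int.negSucc (nat_lit 0)),((nat_lit 4,nat_lit 3,nat_lit 3),Int.ofNat (nat_lit 1)),((nat_lit 4,nat_lit 4,nat_lit 1),Int.ofNat (nat_lit 1)),((nat_lit 4,nat_lit 4,nat_lit 4),Int.negSucc (nat_lit 0)),((nat_lit 2,nat_lit 1,nat_lit 5),Int.ofNat (nat_lit 1))]),
((nat_lit 4,nat_lit 2,nat_lit 5),[((nat_lit 3,nat_lit 1,nat_lit 1),Int.ofNat (nat_lit 1)),((nat_lit 3,nat_lit 1,nat_lit 4),Int.negSucc (nat_lit 0)),((nat_lit 3,nat_lit 2,nat_lit 2),Int.negSucc (nat_lit 0)),((nat_lit 3,nat_lit 4,nat_lit 1),Int.negSucc (nat_lit 0)),((nat_lit 3,nat_lit 4,nat_lit 4),Int.ofNat (nat_lit 1)),((nat_lit 4,nat_lit 1,nat_lit 3),Int.negSucc (nat_lit 0)),((nat_lit 4,nat_lit 1,nat_lit 4),Int.ofNat (nat_lit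 1)),((nat_lit 4,nat_lit 3,nat_lit 1),Int.negSucc (nat_lit 0)),((nat_lit 4,nat_lit 3,nat_lit 3),Int.ofNat (nat_lit 1)),((nat_lit 4,nat_lit 4,nat_lit 1),Int.ofNat (nat_lit 1)),((nat_lit 4,nat_lit 4,nat_lit 4),Int.negSucc (nat_lit 0)),((nat_lit 3,nat_lit 1,nat_lit 5),Int.ofNat (nat_lit 1))]),
((nat_lit 4,nat_lit 3,nat_lit 5),[((nat_lit 4,nat_lit 1,nat_lit 1),Int.ofNat (nat_lit 1)),((nat_lit 4,nat_lit 1,nat_lit 3),Int.negSucc (nat_lit 0)),((nat_lit 4,nat_lit 2,nat_lit 2),Int.negSucc (nat_lit 0)),((nat_lit 4,nat_lit 3,nat_lit 1),Int.negSucc (nat_lit 0)),((nat_lit 4,nat_lit 3,nat_lit 3),Int.ofNat (nat_lit 1)),((nat_lit 4,nat_lit 1,nat_lit 5),Int.ofNat (nat_lit 1))]),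
((nat_lit 4,nat_lit 4,nat_lit 5),[((nat_lit 1,nat_lit 2,nat_lit 2),Int.ofNat (nat_lit 1)),((nat_lit 1,nat_lit 2,nat_lit 4),Int.negSucc (nat_lit 0)),((nat_lit 1,nat_lit 3,nat_lit 3),Int.negSucc (nat_lit 0)),((nat_lit 1,nat_lit 4,nat_lit 2),Int.negSucc (nat_lit 0)),((nat_lit 1,nat_lit 4,nat_lit 4),Int.ofNat (nat_lit 1)),((nat_lit 3,nat_lit 2,nat_lit 2),Int.negSucc (nat_lit 0)),((nat_lit 3,nat_lit 3,nat_lit 3),Int.ofNat (nat_lit 1)),((nat_lit 1,nat_lit 2,nat_lit 5),Int.ofNat (nat_lit 1))]),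
((nat_lit 4,nat_lit 5,nat_lit 5),[((nat_lit 2,nat_lit 2,nat_lit 2),Int.ofNat (nat_lit 1)),((nat_lit 2,nat_lit 2,nat_lit 4),Int.negSucc (nat_lit 0)),((nat_lit 2,nat_lit 3,nat_lit 3),Int.negSucc (nat_lit 0)),((nat_lit 2,nat_lit 4,nat_lit 2),Int.negSucc (nat_lit 0)),((nat_lit 2,nat_lit 4,nat_lit 4),Int.ofNat (nat_lit 1)),((nat_lit 3,nat_lit 2,nat_lit 2),Int.negSucc (nat_lit 0)),((nat_lit 3,nat_lit 3,nat_lit 3),Int.ofNat (nat_lit 1)),((nat_lit 2,nat_lit 2,nat_lit 5),Int.ofNat (nat_lit 1))]),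
((nat_lit 4,nat_lit 0,nat_lit 6),[((nat_lit 1,nat_lit 1,nat_lit 1),Int.ofNat (nat_lit 1)),((nat_lit 1,nat_lit 1,nat_lit 3),Int.negSucc (nat_lit 0)),((nat_lit 1,nat_lit 3,nat_lit 1),Int.negSucc (nat_lit 0)),((nat_lit 3,nat_lit 2,nat_lit 2),Int.negSucc (nat_lit 0)),((nat_lit 3,nat_lit 3,nat_lit 3),Int.ofNat (nat_lit 1)),((nat_lit 1,nat_lit 1,nat_lit 6),Int.ofNat (nat_lit 1))]),
((nat_lit 4,nat_lit 1,nat_lit 6),[((nat_lit 2,nat_lit 1,nat_lit 1),Int.ofNat (nat_lit 1)),((nat_lit 2,nat_lit 1,nat_lit 4),Int.negSucc (nat_lit 0)),((nat_lit 2,nat_lit 3,nat_lit 3),Int.negSucc (nat_lit 0)),((nat_lit 2,nat_lit 4,nat_lit 1),Int.negSucc (nat_lit 0)),((nat_lit 2,nat_lit 4,nat_lit 4),Int.ofNat (nat_lit 1)),((nat_lit 3,nat_lit 2,nat_lit 2),Int.negSucc (nat_lit 0)),((nat_lit 3,nat_lit 3,nat_lit 3),Int.ofNat (nat_lit 1)),((nat_lit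 4,nat_lit 1,nat_lit 3),Int.negSucc (nat_lit 0)),((nat_lit 4,nat_lit 1,nat_lit 4),Int.ofNat (nat_lit 1)),((nat_lit 4,nat_lit 3,nat_lit 1),Int.negSucc (nat_lit 0)),((nat_lit 4,nat_lit 3,nat_lit 3),Int.ofNat (nat_lit 1)),((nat_lit 4,nat_lit 4,nat_lit 1),Int.ofNat (nat_lit 1)),((nat_lit 4,nat_lit 4,nat_lit 4),Int.negSucc (nat_lit 0)),((nat_lit 2,nat_lit 1,nat_lit 6),Int.ofNat (nat_lit 1))]),
((nat_lit 4,nat_lit 2,nat_lit 6),[((nat_lit 3,nat_lit 1,nat_lit 1),Int.ofNat (nat_lit 1)),((nat_lit 3,nat_lit 1,nat_lit 4),Int.negSucc (nat_lit 0)),((nat_lit 3,nat_lit 2,nat_lit 2),Int.negSucc (nat_lit 0)),((nat_lit 3,nat_lit 4,nat_lit 1),Int.negSucc (nat_lit 0)),((nat_lit 3,nat_lit 4,nat_lit 4),Int.ofNat (nat_lit 1)),((nat_lit 4,nat_lit 1,nat_lit 3),Int.negSucc (nat_lit 0)),((nat_lit 4,nat_lit 1,nat_lit 4),Int.ofNat (nat_lit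 1)),((nat_lit 4,nat_lit 3,nat_lit 1),Int.negSucc (nat_lit 0)),((nat_lit 4,nat_lit 3,nat_lit 3),Int.ofNat (nat_lit 1)),((nat_lit 4,nat_lit 4,nat_lit 1),Int.ofNat (nat_lit 1)),((nat_lit 4,nat_lit 4,nat_lit 4),Int.negSucc (nat_lit 0)),((nat_lit 3,nat_lit 1,nat_lit 6),Int.ofNat (nat_lit 1))]),
((nat_lit 4,nat_lit 3,nat_lit 6),[((nat_lit 4,nat_lit 1,nat_lit 1),Int.ofNat (nat_lit 1)),((nat_lit 4,nat_lit 1,nat_lit 3),Int.negSucc (nat_lit 0)),((nat_lit 4,nat_lit 2,nat_lit 2),Int.negSucc (nat_lit 0)),((nat_lit 4,nat_lit 3,nat_lit 1),Int.negSucc (nat_lit 0)),((nat_lit 4,nat_lit 3,nat_lit 3),Int.ofNat (nat_lit 1)),((nat_lit 4,nat_lit 1,nat_lit 6),Int.ofNat (nat_lit 1))]),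
((nat_lit 4,nat_lit 4,nat_lit 6),[((nat_lit 1,nat_lit 2,nat_lit 2),Int.ofNat (nat_lit 1)),((nat_lit 1,nat_lit 2,nat_lit 4),Int.negSucc (nat_lit 0)),((nat_lit 1,nat_lit 3,nat_lit 3),Int.negSucc (nat_lit 0)),((nat_lit 1,nat_lit 4,nat_lit 2),Int.negSucc (nat_lit 0)),((nat_lit 1,nat_lit 4,nat_lit 4),Int.ofNat (nat_lit 1)),((nat_lit 3,nat_lit 2,nat_lit 2),Int.negSucc (nat_lit 0)),((nat_lit 3,nat_lit 3,nat_lit 3),Int.ofNat (nat_lit 1)),((nat_lit 1,nat_lit 2,nat_lit 6),Int.ofNat (nat_lit 1))]),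
((nat_lit 4,nat_lit 5,nat_lit 6),[((nat_lit 2,nat_lit 2,nat_lit 2),Int.ofNat (nat_lit 1)),((nat_lit 2,nat_lit 2,nat_lit 4),Int.negSucc (nat_lit 0)),((nat_lit 2,nat_lit 3,nat_lit 3),Int.negSucc (nat_lit 0)),((nat_lit 2,nat_lit 4,nat_lit 2),Int.negSucc (nat_lit 0)),((nat_lit 2,nat_lit 4,nat_lit 4),Int.ofNat (nat_lit 1)),((nat_lit 3,nat_lit 2,nat_lit 2),Int.negSucc (nat_lit 0)),((nat_lit 3,nat_lit 3,nat_lit 3),Int.ofNat (nat_lit 1)),((nat_lit 2,nat_lit 2,nat_lit 6),Int.ofNat (nat_lit 1))]),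
((nat_lit 4,nat_lit 0,nat_lit 7),[((nat_lit 1,nat_lit 1,nat_lit 1),Int.ofNat (nat_lit 1)),((nat_lit 1,nat_lit 1,nat_lit 3),Int.negSucc (nat_lit 0)),((nat_lit 1,nat_lit 3,nat_lit 1),Int.negSucc (nat_lit 0)),((nat_lit 3,nat_lit 2,nat_lit 2),Int.negSucc (nat_lit 0)),((nat_lit 3,nat_lit 3,nat_lit 3),Int.ofNat (nat_lit 1)),((nat_lit 1,nat_lit 1,nat_lit 7),Int.ofNat (nat_lit 1))]),
((nat_lit 4,nat_lit 1,nat_lit 7),[((nat_lit 2,nat_lit 1,nat_lit 1),Int.ofNat (nat_lit 1)),((nat_lit 2,nat_lit 1,nat_lit 4),Int.negSucc (nat_lit 0)),((nat_lit 2,nat_lit 3,nat_lit 3),Int.negSucc (nat_lit 0)),((nat_lit 2,nat_lit 4,nat_lit 1),Int.negSucc (nat_lit 0)),((nat_lit 2,nat_lit 4,nat_lit 4),Int.ofNat (nat_lit 1)),((nat_lit 3,nat_lit 2,nat_lit 2),Int.negSucc (nat_lit 0)),((nat_lit 3,nat_lit 3,nat_lit 3),Int.ofNat (nat_lit 1)),((nat_lit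 4,nat_lit 1,nat_lit 3),Int.negSucc (nat_lit 0)),((nat_lit 4,nat_lit 1,nat_lit 4),Int.ofNat (nat_lit 1)),((nat_lit 4,nat_lit 3,nat_lit 1),Int.negSucc (nat_lit 0)),((nat_lit 4,nat_lit 3,nat_lit 3),Int.ofNat (nat_lit 1)),((nat_lit 4,nat_lit 4,nat_lit 1),Int.ofNat (nat_lit 1)),((nat_lit 4,nat_lit 4,nat_lit 4),Int.negSucc (nat_lit 0)),((nat_lit 2,nat_lit 1,nat_lit 7),Int.ofNat (nat_lit 1))]),
((nat_lit 4,nat_lit 2,nat_lit 7),[((nat_lit 3,nat_lit 1,nat_lit 1),Int.ofNat (nat_lit 1)),((nat_lit 3,nat_lit 1,nat_lit 4),Int.negSucc (nat_lit 0)),((nat_lit 3,nat_lit 2,nat_lit 2),Int.negSucc (nat_lit 0)),((nat_lit 3,nat_lit 4,nat_lit 1),Int.negSucc (nat_lit 0)),((nat_lit 3,nat_lit 4,nat_lit 4),Int.ofNat (nat_lit 1)),((nat_lit 4,nat_lit 1,nat_lit 3),Int.negSucc (nat_lit 0)),((nat_lit 4,nat_lit 1,nat_lit 4),Int.ofNat (nat_lit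 1)),((nat_lit 4,nat_lit 3,nat_lit 1),Int.negSucc (nat_lit 0)),((nat_lit 4,nat_lit 3,nat_lit 3),Int.ofNat (nat_lit 1)),((nat_lit 4,nat_lit 4,nat_lit 1),Int.ofNat (nat_lit 1)),((nat_lit 4,nat_lit 4,nat_lit 4),Int.negSucc (nat_lit 0)),((nat_lit 3,nat_lit 1,nat_lit 7),Int.ofNat (nat_lit 1))]),
((nat_lit 4,nat_lit 3,nat_lit 7),[((nat_lit 4,nat_lit 1,nat_lit 1),Int.ofNat (nat_lit 1)),((nat_lit 4,nat_lit 1,nat_lit 3),Int.negSucc (nat_lit 0)),((nat_lit 4,nat_lit 2,nat_lit 2),Int.negSucc (nat_lit 0)),((nat_lit 4,nat_lit 3,nat_lit 1),Int.negSucc (nat_lit 0)),((nat_lit 4,nat_lit 3,nat_lit 3),Int.ofNat (nat_lit 1)),((nat_lit 4,nat_lit 1,nat_lit 7),Int.ofNat (nat_lit 1))]),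
((nat_lit 4,nat_lit 4,nat_lit 7),[((nat_lit 1,nat_lit 2,nat_lit 2),Int.ofNat (nat_lit 1)),((nat_lit 1,nat_lit 2,nat_lit 4),Int.negSucc (nat_lit 0)),((nat_lit 1,nat_lit 3,nat_lit 3),Int.negSucc (nat_lit 0)),((nat_lit 1,nat_lit 4,nat_lit 2),Int.negSucc (nat_lit 0)),((nat_lit 1,nat_lit 4,nat_lit 4),Int.ofNat (nat_lit 1)),((nat_lit 3,nat_lit 2,nat_lit 2),Int.negSucc (nat_lit 0)),((nat_lit 3,nat_lit 3,nat_lit 3),Int.ofNat (nat_lit 1)),((nat_lit 1,nat_lit 2,nat_lit 7),Int.ofNat (nat_lit 1))]),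
((nat_lit 4,nat_lit 5,nat_lit 7),[((nat_lit 2,nat_lit 2,nat_lit 2),Int.ofNat (nat_lit 1)),((nat_lit 2,nat_lit 2,nat_lit 4),Int.negSucc (nat_lit 0)),((nat_lit 2,nat_lit 3,nat_lit 3),Int.negSucc (nat_lit 0)),((nat_lit 2,nat_lit 4,nat_lit 2),Int.negSucc (nat_lit 0)),((nat_lit 2,nat_lit 4,nat_lit 4),Int.ofNat (nat_lit 1)),((nat_lit 3,nat_lit 2,nat_lit 2),Int.negSucc (nat_lit 0)),((nat_lit 3,nat_lit 3,nat_lit 3),Int.ofNat (nat_lit 1)),((nat_lit 2,nat_lit 2,nat_lit 7),Int.ofNat (nat_lit 1))]),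
((nat_lit 4,nat_lit 0,nat_lit 8),[((nat_lit 1,nat_lit 1,nat_lit 1),Int.ofNat (nat_lit 1)),((nat_lit 1,nat_lit 1,nat_lit 3),Int.negSucc (nat_lit 0)),((nat_lit 1,nat_lit 3,nat_lit 1),Int.negSucc (nat_lit 0)),((nat_lit 3,nat_lit 2,nat_lit 2),Int.negSucc (nat_lit 0)),((nat_lit 3,nat_lit 3,nat_lit 3),Int.ofNat (nat_lit 1)),((nat_lit 1,nat_lit 1,nat_lit 8),Int.ofNat (nat_lit 1))]),
((nat_lit 4,nat_lit 1,nat_lit 8),[((nat_lit 2,nat_lit 1,nat_lit 1),Int.ofNat (nat_lit 1)),((nat_lit 2,nat_lit 1,nat_lit 4),Int.negSucc (nat_lit 0)),((nat_lit 2,nat_lit 3,nat_lit 3),Int.negSucc (nat_lit 0)),((nat_lit 2,nat_lit 4,nat_lit 1),Int.negSucc (nat_lit 0)),((nat_lit 2,nat_lit 4,nat_lit 4),Int.ofNat (nat_lit 1)),((nat_lit 3,nat_lit 2,nat_lit 2),Int.negSucc (nat_lit 0)),((nat_lit 3,nat_lit 3,nat_lit 3),Int.ofNat (nat_lit 1)),((nat_lit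 4,nat_lit 1,nat_lit 3),Int.negSucc (nat_lit 0)),((nat_lit 4,nat_lit 1,nat_lit 4),Int.ofNat (nat_lit 1)),((nat_lit 4,nat_lit 3,nat_lit 1),Int.negSucc (nat_lit 0)),((nat_lit 4,nat_lit 3,nat_lit 3),Int.ofNat (nat_lit 1)),((nat_lit 4,nat_lit 4,nat_lit 1),Int.ofNat (nat_lit 1)),((nat_lit 4,nat_lit 4,nat_lit 4),Int.negSucc (nat_lit 0)),((nat_lit 2,nat_lit 1,nat_lit 8),Int.ofNat (nat_lit 1))]),
((nat_lit 4,nat_lit 2,nat_lit 8),[((nat_lit 3,nat_lit 1,nat_lit 1),Int.ofNat (nat_lit 1)),((nat_lit 3,nat_lit 1,nat_lit 4),Int.negSucc (nat_lit 0)),((nat_lit 3,nat_lit 2,nat_lit 2),Int.negSucc (nat_lit 0)),((nat_lit 3,nat_lit 4,nat_lit 1),Int.negSucc (nat_lit 0)),((nat_lit 3,nat_lit 4,nat_lit 4),Int.ofNat (nat_lit 1)),((nat_lit 4,nat_lit 1,nat_lit 3),Int.negSucc (nat_lit 0)),((nat_lit 4,nat_lit 1,nat_lit 4),Int.ofNat (nat_lit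 1)),((nat_lit 4,nat_lit 3,nat_lit 1),Int.negSucc (nat_lit 0)),((nat_lit 4,nat_lit 3,nat_lit 3),Int.ofNat (nat_lit 1)),((nat_lit 4,nat_lit 4,nat_lit 1),Int.ofNat (nat_lit 1)),((nat_lit 4,nat_lit 4,nat_lit 4),Int.negSucc (nat_lit 0)),((nat_lit 3,nat_lit 1,nat_lit 8),Int.ofNat (nat_lit 1))]),
((nat_lit 4,nat_lit 3,nat_lit 8),[((nat_lit 4,nat_lit 1,nat_lit 1),Int.ofNat (nat_lit 1)),((nat_lit 4,nat_lit 1,nat_lit 3),Int.negSucc (nat_lit 0)),((nat_lit 4,nat_lit 2,nat_lit 2),Int.negSucc (nat_lit 0)),((nat_lit 4,nat_lit 3,nat_lit 1),Int.negSucc (nat_lit 0)),((nat_lit 4,nat_lit 3,nat_lit 3),Int.ofNat (nat_lit 1)),((nat_lit 4,nat_lit 1,nat_lit 8),Int.ofNat (nat_lit 1))]),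
((nat_lit 4,nat_lit 4,nat_lit 8),[((nat_lit 1,nat_lit 2,nat_lit 2),Int.ofNat (nat_lit 1)),((nat_lit 1,nat_lit 2,nat_lit 4),Int.negSucc (nat_lit 0)),((nat_lit 1,nat_lit 3,nat_lit 3),Int.negSucc (nat_lit 0)),((nat_lit 1,nat_lit 4,nat_lit 2),Int.negSucc (nat_lit 0)),((nat_lit 1,nat_lit 4,nat_lit 4),Int.ofNat (nat_lit 1)),((nat_lit 3,nat_lit 2,nat_lit 2),Int.negSucc (nat_lit 0)),((nat_lit 3,nat_lit 3,nat_lit 3),Int.ofNat (nat_lit 1)),((nat_lit 1,nat_lit 2,nat_lit 8),Int.ofNat (nat_lit 1))]),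
((nat_lit 4,nat_lit 5,nat_lit 8),[((nat_lit 2,nat_lit 2,nat_lit 2),Int.ofNat (nat_lit 1)),((nat_lit 2,nat_lit 2,nat_lit 4),Int.negSucc (nat_lit 0)),((nat_lit 2,nat_lit 3,nat_lit 3),Int.negSucc (nat_lit 0)),((nat_lit 2,nat_lit 4,nat_lit 2),Int.negSucc (nat_lit 0)),((nat_lit 2,nat_lit 4,nat_lit 4),Int.ofNat (nat_lit 1)),((nat_lit 3,nat_lit 2,nat_lit 2),Int.negSucc (nat_lit 0)),((nat_lit 3,nat_lit 3,nat_lit 3),Int.ofNat (nat_lit 1)),((nat_lit 2,nat_lit 2,nat_lit 8),Int.ofNat (nat_lit 1))]),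
((nat_lit 4,nat_lit 0,nat_lit 9),[((nat_lit 1,nat_lit 1,nat_lit 1),Int.ofNat (nat_lit 1)),((nat_lit 1,nat_lit 1,nat_lit 3),Int.negSucc (nat_lit 0)),((nat_lit 1,nat_lit 3,nat_lit 1),Int.negSucc (nat_lit 0)),((nat_lit 3,nat_lit 2,nat_lit 2),Int.negSucc (nat_lit 0)),((nat_lit 3,nat_lit 3,nat_lit 3),Int.ofNat (nat_lit 1)),((nat_lit 1,nat_lit 1,nat_lit 9),Int.ofNat (nat_lit 1))]),
((nat_lit 4,nat_lit 1,nat_lit 9),[((nat_lit 2,nat_lit 1,nat_lit 1),Int.ofNat (nat_lit 1)),((nat_lit 2,nat_lit 1,nat_lit 4),Int.negSucc (nat_lit 0)),((nat_lit 2,nat_lit 3,nat_lit 3),Int.negSucc (nat_lit 0)),((nat_lit 2,nat_lit 4,nat_lit 1),Int.negSucc (nat_lit 0)),((nat_lit 2,nat_lit 4,nat_lit 4),Int.ofNat (nat_lit 1)),((nat_lit 3,nat_lit 2,nat_lit 2),Int.negSucc (nat_lit 0)),((nat_lit 3,nat_lit 3,nat_lit 3),Int.ofNat (nat_lit 1)),((nat_lit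 4,nat_lit 1,nat_lit 3),Int.negSucc (nat_lit 0)),((nat_lit 4,nat_lit 1,nat_lit 4),Int.ofNat (nat_lit 1)),((nat_lit 4,nat_lit 3,nat_lit 1),Int.negSucc (nat_lit 0)),((nat_lit 4,nat_lit 3,nat_lit 3),Int.ofNat (nat_lit 1)),((nat_lit 4,nat_lit 4,nat_lit 1),Int.ofNat (nat_lit 1)),((nat_lit 4,nat_lit 4,nat_lit 4),Int.negSucc (nat_lit 0)),((nat_lit 2,nat_lit 1,nat_lit 9),Int.ofNat (nat_lit 1))]),
((nat_lit 4,nat_lit 2,nat_lit 9),[((nat_lit 3,nat_lit 1,nat_lit 1),Int.ofNat (nat_lit 1)),((nat_lit 3,nat_lit 1,nat_lit 4),Int.negSucc (nat_lit 0)),((nat_lit 3,nat_lit 2,nat_lit 2),Int.negSucc (nat_lit 0)),((nat_lit 3,nat_lit 4,nat_lit 1),Int.negSucc (nat_lit 0)),((nat_lit 3,nat_lit 4,nat_lit 4),Int.ofNat (nat_lit 1)),((nat_lit 4,nat_lit 1,nat_lit 3),Int.negSucc (nat_lit 0)),((nat_lit 4,nat_lit 1,nat_lit 4),Int.ofNat (nat_lit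 1)),((nat_lit 4,nat_lit 3,nat_lit 1),Int.negSucc (nat_lit 0)),((nat_lit 4,nat_lit 3,nat_lit 3),Int.ofNat (nat_lit 1)),((nat_lit 4,nat_lit 4,nat_lit 1),Int.ofNat (nat_lit 1)),((nat_lit 4,nat_lit 4,nat_lit 4),Int.negSucc (nat_lit 0)),((nat_lit 3,nat_lit 1,nat_lit 9),Int.ofNat (nat_lit 1))]),
((nat_lit 4,nat_lit 3,nat_lit 9),[((nat_lit 4,nat_lit 1,nat_lit 1),Int.ofNat (nat_lit 1)),((nat_lit 4,nat_lit 1,nat_lit 3),Int.negSucc (nat_lit 0)),((nat_lit 4,nat_lit 2,nat_lit 2),Int.negSucc (nat_lit 0)),((nat_lit 4,nat_lit 3,nat_lit 1),Int.negSucc (nat_lit 0)),((nat_lit 4,nat_lit 3,nat_lit 3),Int.ofNat (nat_lit 1)),((nat_lit 4,nat_lit 1,nat_lit 9),Int.ofNat (nat_lit 1))]),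
((nat_lit 4,nat_lit 4,nat_lit 9),[((nat_lit 1,nat_lit 2,nat_lit 2),Int.ofNat (nat_lit 1)),((nat_lit 1,nat_lit 2,nat_lit 4),Int.negSucc (nat_lit 0)),((nat_lit 1,nat_lit 3,nat_lit 3),Int.negSucc (nat_lit 0)),((nat_lit 1,nat_lit 4,nat_lit 2),Int.negSucc (nat_lit 0)),((nat_lit 1,nat_lit 4,nat_lit 4),Int.ofNat (nat_lit 1)),((nat_lit 3,nat_lit 2,nat_lit 2),Int.negSucc (nat_lit 0)),((nat_lit 3,nat_lit 3,nat_lit 3),Int.ofNat (nat_lit 1)),((nat_lit 1,nat_lit 2,nat_lit 9),Int.ofNat (nat_lit 1))])]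

noncomputable def tab5 : Tab := [
((nat_lit 4,nat_lit 5,nat_lit 9),[((nat_lit 2,nat_lit 2,nat_lit 2),Int.ofNat (nat_lit 1)),((nat_lit 2,nat_lit 2,nat_lit 4),Int.negSucc (nat_lit 0)),((nat_lit 2,nat_lit 3,nat_lit 3),Int.negSucc (nat_lit 0)),((nat_lit 2,nat_lit 4,nat_lit 2),Int.negSucc (nat_lit 0)),((nat_lit 2,nat_lit 4,nat_lit 4),Int.ofNat (nat_lit 1)),((nat_lit 3,nat_lit 2,nat_lit 2),Int.negSucc (nat_lit 0)),((nat_lit 3,nat_lit 3,nat_lit 3),Int.ofNat (nat_lit 1)),((nat_lit 2,nat_lit 2,nat_lit 9),Int.ofNat (nat_lit 1))]),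
((nat_lit 4,nat_lit 0,nat_lit 10),[((nat_lit 1,nat_lit 1,nat_lit 1),Int.ofNat (nat_lit 1)),((nat_lit 1,nat_lit 1,nat_lit 3),Int.negSucc (nat_lit 0)),((nat_lit 1,nat_lit 3,nat_lit 1),Int.negSucc (nat_lit 0)),((nat_lit 3,nat_lit 2,nat_lit 2),Int.negSucc (nat_lit 0)),((nat_lit 3,nat_lit 3,nat_lit 3),Int.ofNat (nat_lit 1)),((nat_lit 1,nat_lit 1,nat_lit 10),Int.ofNat (nat_lit 1))]),
((nat_lit 4,nat_lit 1,nat_lit 10),[((nat_lit 2,nat_lit 1,nat_lit 1),Int.ofNat (nat_lit 1)),((nat_lit 2,nat_lit 1,nat_lit 4),Int.negSucc (nat_lit 0)),((nat_lit 2,nat_lit 3,nat_lit 3),Int.negSucc (nat_lit 0)),((nat_lit 2,nat_lit 4,nat_lit 1),Int.negSucc (nat_lit 0)),((nat_lit 2,nat_lit 4,nat_lit 4),Int.ofNat (nat_lit 1)),((nat_lit 3,nat_lit 2,nat_lit 2),Int.negSucc (nat_lit 0)),((nat_lit 3,nat_lit 3,nat_lit 3),Int.ofNat (nat_lit 1)),((nat_lit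 4,nat_lit 1,nat_lit 3),Int.negSucc (nat_lit 0)),((nat_lit 4,nat_lit 1,nat_lit 4),Int.ofNat (nat_lit 1)),((nat_lit 4,nat_lit 3,nat_lit 1),Int.negSucc (nat_lit 0)),((nat_lit 4,nat_lit 3,nat_lit 3),Int.ofNat (nat_lit 1)),((nat_lit 4,nat_lit 4,nat_lit 1),Int.ofNat (nat_lit 1)),((nat_lit 4,nat_lit 4,nat_lit 4),Int.negSucc (nat_lit 0)),((nat_lit 2,nat_lit 1,nat_lit 10),Int.ofNat (nat_lit 1))]),
((nat_lit 4,nat_lit 2,nat_lit 10),[((nat_lit 3,nat_lit 1,nat_lit 1),Int.ofNat (nat_lit 1)),((nat_lit 3,nat_lit 1,nat_lit 4),Int.negSucc (nat_lit 0)),((nat_lit 3,nat_lit 2,nat_lit 2),Int.negSucc (nat_lit 0)),((nat_lit 3,nat_lit 4,nat_lit 1),Int.negSucc (nat_lit 0)),((nat_lit 3,nat_lit 4,nat_lit 4),Int.ofNat (nat_lit 1)),((nat_lit 4,nat_lit 1,nat_lit 3),Int.negSucc (nat_lit 0)),((nat_lit 4,nat_lit 1,nat_lit 4),Int.ofNat (nat_lit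 1)),((nat_lit 4,nat_lit 3,nat_lit 1),Int.negSucc (nat_lit 0)),((nat_lit 4,nat_lit 3,nat_lit 3),Int.ofNat (nat_lit 1)),((nat_lit 4,nat_lit 4,nat_lit 1),Int.ofNat (nat_lit 1)),((nat_lit 4,nat_lit 4,nat_lit 4),Int.negSucc (nat_lit 0)),((nat_lit 3,nat_lit 1,nat_lit 10),Int.ofNat (nat_lit 1))]),
((nat_lit 4,nat_lit 3,nat_lit 10),[((nat_lit 4,nat_lit 1,nat_lit 1),Int.ofNat (nat_lit 1)),((nat_lit 4,nat_lit 1,nat_lit 3),Int.negSucc (nat_lit 0)),((nat_lit 4,nat_lit 2,nat_lit 2),Int.negSucc (nat_lit 0)),((nat_lit 4,nat_lit 3,nat_lit 1),Int.negSucc (nat_lit 0)),((nat_lit 4,nat_lit 3,nat_lit 3),Int.ofNat (nat_lit 1)),((nat_lit 4,nat_lit 1,nat_lit 10),Int.ofNat (nat_lit 1))]),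
((nat_lit 4,nat_lit 4,nat_lit 10),[((nat_lit 1,nat_lit 2,nat_lit 2),Int.ofNat (nat_lit 1)),((nat_lit 1,nat_lit 2,nat_lit 4),Int.negSucc (nat_lit 0)),((nat_lit 1,nat_lit 3,nat_lit 3),Int.negSucc (nat_lit 0)),((nat_lit 1,nat_lit 4,nat_lit 2),Int.negSucc (nat_lit 0)),((nat_lit 1,nat_lit 4,nat_lit 4),Int.ofNat (nat_lit 1)),((nat_lit 3,nat_lit 2,nat_lit 2),Int.negSucc (nat_lit 0)),((nat_lit 3,nat_lit 3,nat_lit 3),Int.ofNat (nat_lit 1)),((nat_lit 1,nat_lit 2,nat_lit 10),Int.ofNat (nat_lit 1))]),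
((nat_lit 4,nat_lit 5,nat_lit 10),[((nat_lit 2,nat_lit 2,nat_lit 2),Int.ofNat (nat_lit 1)),((nat_lit 2,nat_lit 2,nat_lit 4),Int.negSucc (nat_lit 0)),((nat_lit 2,nat_lit 3,nat_lit 3),Int.negSucc (nat_lit 0)),((nat_lit 2,nat_lit 4,nat_lit 2),Int.negSucc (nat_lit 0)),((nat_lit 2,nat_lit 4,nat_lit 4),Int.ofNat (nat_lit 1)),((nat_lit 3,nat_lit 2,nat_lit 2),Int.negSucc (nat_lit 0)),((nat_lit 3,nat_lit 3,nat_lit 3),Int.ofNat (nat_lit 1)),((nat_lit 2,nat_lit 2,nat_lit 10),Int.ofNat (nat_lit 1))]),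
((nat_lit 4,nat_lit 0,nat_lit 11),[((nat_lit 1,nat_lit 1,nat_lit 1),Int.ofNat (nat_lit 1)),((nat_lit 1,nat_lit 1,nat_lit 3),Int.negSucc (nat_lit 0)),((nat_lit 1,nat_lit 3,nat_lit 1),Int.negSucc (nat_lit 0)),((nat_lit 3,nat_lit 2,nat_lit 2),Int.negSucc (nat_lit 0)),((nat_lit 3,nat_lit 3,nat_lit 3),Int.ofNat (nat_lit 1)),((nat_lit 1,nat_lit 1,nat_lit 11),Int.ofNat (nat_lit 1))]),
((nat_lit 4,nat_lit 1,nat_lit 11),[((nat_lit 2,nat_lit 1,nat_lit 1),Int.ofNat (nat_lit 1)),((nat_lit 2,nat_lit 1,nat_lit 4),Int.negSucc (nat_lit 0)),((nat_lit 2,nat_lit 3,nat_lit 3),Int.negSucc (nat_lit 0)),((nat_lit 2,nat_lit 4,nat_lit 1),Int.negSucc (nat_lit 0)),((nat_lit 2,nat_lit 4,nat_lit 4),Int.ofNat (nat_lit 1)),((nat_lit 3,nat_lit 2,nat_lit 2),Int.negSucc (nat_lit 0)),((nat_lit 3,nat_lit 3,nat_lit 3),Int.ofNat (nat_lit 1)),((nat_lit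 4,nat_lit 1,nat_lit 3),Int.negSucc (nat_lit 0)),((nat_lit 4,nat_lit 1,nat_lit 4),Int.ofNat (nat_lit 1)),((nat_lit 4,nat_lit 3,nat_lit 1),Int.negSucc (nat_lit 0)),((nat_lit 4,nat_lit 3,nat_lit 3),Int.ofNat (nat_lit 1)),((nat_lit 4,nat_lit 4,nat_lit 1),Int.ofNat (nat_lit 1)),((nat_lit 4,nat_lit 4,nat_lit 4),Int.negSucc (nat_lit 0)),((nat_lit 2,nat_lit 1,nat_lit 11),Int.ofNat (nat_lit 1))]),
((nat_lit 4,nat_lit 2,nat_lit 11),[((nat_lit 3,nat_lit 1,nat_lit 1),Int.ofNat (nat_lit 1)),((nat_lit 3,nat_lit 1,nat_lit 4),Int.negSucc (nat_lit 0)),((nat_lit 3,nat_lit 2,nat_lit 2),Int.negSucc (nat_lit 0)),((nat_lit 3,nat_lit 4,nat_lit 1),Int.negSucc (nat_lit 0)),((nat_lit 3,nat_lit 4,nat_lit 4),Int.ofNat (nat_lit 1)),((nat_lit 4,nat_lit 1,nat_lit 3),Int.negSucc (nat_lit 0)),((nat_lit 4,nat_lit 1,nat_lit 4),Int.ofNat (nat_lit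 1)),((nat_lit 4,nat_lit 3,nat_lit 1),Int.negSucc (nat_lit 0)),((nat_lit 4,nat_lit 3,nat_lit 3),Int.ofNat (nat_lit 1)),((nat_lit 4,nat_lit 4,nat_lit 1),Int.ofNat (nat_lit 1)),((nat_lit 4,nat_lit 4,nat_lit 4),Int.negSucc (nat_lit 0)),((nat_lit 3,nat_lit 1,nat_lit 11),Int.ofNat (nat_lit 1))]),
((nat_lit 4,nat_lit 3,nat_lit 11),[((nat_lit 4,nat_lit 1,nat_lit 1),Int.ofNat (nat_lit 1)),((nat_lit 4,nat_lit 1,nat_lit 3),Int.negSucc (nat_lit 0)),((nat_lit 4,nat_lit 2,nat_lit 2),Int.negSucc (nat_lit 0)),((nat_lit 4,nat_lit 3,nat_lit 1),Int.negSucc (nat_lit 0)),((nat_lit 4,nat_lit 3,nat_lit 3),Int.ofNat (nat_lit 1)),((nat_lit 4,nat_lit 1,nat_lit 11),Int.ofNat (nat_lit 1))]),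
((nat_lit 4,nat_lit 4,nat_lit 11),[((nat_lit 1,nat_lit 2,nat_lit 2),Int.ofNat (nat_lit 1)),((nat_lit 1,nat_lit 2,nat_lit 4),Int.negSucc (nat_lit 0)),((nat_lit 1,nat_lit 3,nat_lit 3),Int.negSucc (nat_lit 0)),((nat_lit 1,nat_lit 4,nat_lit 2),Int.negSucc (nat_lit 0)),((nat_lit 1,nat_lit 4,nat_lit 4),Int.ofNat (nat_lit 1)),((nat_lit 3,nat_lit 2,nat_lit 2),Int.negSucc (nat_lit 0)),((nat_lit 3,nat_lit 3,nat_lit 3),Int.ofNat (nat_lit 1)),((nat_lit 1,nat_lit 2,nat_lit 11),Int.ofNat (nat_lit 1))]),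
((nat_lit 4,nat_lit 5,nat_lit 11),[((nat_lit 2,nat_lit 2,nat_lit 2),Int.ofNat (nat_lit 1)),((nat_lit 2,nat_lit 2,nat_lit 4),Int.negSucc (nat_lit 0)),((nat_lit 2,nat_lit 3,nat_lit 3),Int.negSucc (nat_lit 0)),((nat_lit 2,nat_lit 4,nat_lit 2),Int.negSucc (nat_lit 0)),((nat_lit 2,nat_lit 4,nat_lit 4),Int.ofNat (nat_lit 1)),((nat_lit 3,nat_lit 2,nat_lit 2),Int.negSucc (nat_lit 0)),((nat_lit 3,nat_lit 3,nat_lit 3),Int.ofNat (nat_lit 1)),((nat_lit 2,nat_lit 2,nat_lit 11),Int.ofNat (nat_lit 1))]),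
((nat_lit 4,nat_lit 0,nat_lit 12),[((nat_lit 1,nat_lit 1,nat_lit 1),Int.ofNat (nat_lit 1)),((nat_lit 1,nat_lit 1,nat_lit 3),Int.negSucc (nat_lit 0)),((nat_lit 1,nat_lit 3,nat_lit 1),Int.negSucc (nat_lit 0)),((nat_lit 3,nat_lit 2,nat_lit 2),Int.negSucc (nat_lit 0)),((nat_lit 3,nat_lit 3,nat_lit 3),Int.ofNat (nat_lit 1)),((nat_lit 1,nat_lit 1,nat_lit 12),Int.ofNat (nat_lit 1))]),
((nat_lit 4,nat_lit 1,nat_lit 12),[((nat_lit 2,nat_lit 1,nat_lit 1),Int.ofNat (nat_lit 1)),((nat_lit 2,nat_lit 1,nat_lit 4),Int.negSucc (nat_lit 0)),((nat_lit 2,nat_lit 3,nat_lit 3),Int.negSucc (nat_lit 0)),((nat_lit 2,nat_lit 4,nat_lit 1),Int.negSucc (nat_lit 0)),((nat_lit 2,nat_lit 4,nat_lit 4),Int.ofNat (nat_lit 1)),((nat_lit 3,nat_lit 2,nat_lit 2),Int.negSucc (nat_lit 0)),((nat_lit 3,nat_lit 3,nat_lit 3),Int.ofNat (nat_lit 1)),((nat_lit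 4,nat_lit 1,nat_lit 3),Int.negSucc (nat_lit 0)),((nat_lit 4,nat_lit 1,nat_lit 4),Int.ofNat (nat_lit 1)),((nat_lit 4,nat_lit 3,nat_lit 1),Int.negSucc (nat_lit 0)),((nat_lit 4,nat_lit 3,nat_lit 3),Int.ofNat (nat_lit 1)),((nat_lit 4,nat_lit 4,nat_lit 1),Int.ofNat (nat_lit 1)),((nat_lit 4,nat_lit 4,nat_lit 4),Int.negSucc (nat_lit 0)),((nat_lit 2,nat_lit 1,nat_lit 12),Int.ofNat (nat_lit 1))]),
((nat_lit 4,nat_lit 2,nat_lit 12),[((nat_lit 3,nat_lit 1,nat_lit 1),Int.ofNat (nat_lit 1)),((nat_lit 3,nat_lit 1,nat_lit 4),Int.negSucc (nat_lit 0)),((nat_lit 3,nat_lit 2,nat_lit 2),Int.negSucc (nat_lit 0)),((nat_lit 3,nat_lit 4,nat_lit 1),Int.negSucc (nat_lit 0)),((nat_lit 3,nat_lit 4,nat_lit 4),Int.ofNat (nat_lit 1)),((nat_lit 4,nat_lit 1,nat_lit 3),Int.negSucc (nat_lit 0)),((nat_lit 4,nat_lit 1,nat_lit 4),Int.ofNat (nat_lit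 1)),((nat_lit 4,nat_lit 3,nat_lit 1),Int.negSucc (nat_lit 0)),((nat_lit 4,nat_lit 3,nat_lit 3),Int.ofNat (nat_lit 1)),((nat_lit 4,nat_lit 4,nat_lit 1),Int.ofNat (nat_lit 1)),((nat_lit 4,nat_lit 4,nat_lit 4),Int.negSucc (nat_lit 0)),((nat_lit 3,nat_lit 1,nat_lit 12),Int.ofNat (nat_lit 1))]),
((nat_lit 4,nat_lit 3,nat_lit 12),[((nat_lit 4,nat_lit 1,nat_lit 1),Int.ofNat (nat_lit 1)),((nat_lit 4,nat_lit 1,nat_lit 3),Int.negSucc (nat_lit 0)),((nat_lit 4,nat_lit 2,nat_lit 2),Int.negSucc (nat_lit 0)),((nat_lit 4,nat_lit 3,nat_lit 1),Int.negSucc (nat_lit 0)),((nat_lit 4,nat_lit 3,nat_lit 3),Int.ofNat (nat_lit 1)),((nat_lit 4,nat_lit 1,nat_lit 12),Int.ofNat (nat_lit 1))]),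
((nat_lit 4,nat_lit 4,nat_lit 12),[((nat_lit 1,nat_lit 2,nat_lit 2),Int.ofNat (nat_lit 1)),((nat_lit 1,nat_lit 2,nat_lit 4),Int.negSucc (nat_lit 0)),((nat_lit 1,nat_lit 3,nat_lit 3),Int.negSucc (nat_lit 0)),((nat_lit 1,nat_lit 4,nat_lit 2),Int.negSucc (nat_lit 0)),((nat_lit 1,nat_lit 4,nat_lit 4),Int.ofNat (nat_lit 1)),((nat_lit 3,nat_lit 2,nat_lit 2),Int.negSucc (nat_lit 0)),((nat_lit 3,nat_lit 3,nat_lit 3),Int.ofNat (nat_lit 1)),((nat_lit 1,nat_lit 2,nat_lit 12),Int.ofNat (nat_lit 1))]),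
((nat_lit 4,nat_lit 5,nat_lit 12),[((nat_lit 2,nat_lit 2,nat_lit 2),Int.ofNat (nat_lit 1)),((nat_lit 2,nat_lit 2,nat_lit 4),Int.negSucc (nat_lit 0)),((nat_lit 2,nat_lit 3,nat_lit 3),Int.negSucc (nat_lit 0)),((nat_lit 2,nat_lit 4,nat_lit 2),Int.negSucc (nat_lit 0)),((nat_lit 2,nat_lit 4,nat_lit 4),Int.ofNat (nat_lit 1)),((nat_lit 3,nat_lit 2,nat_lit 2),Int.negSucc (nat_lit 0)),((nat_lit 3,nat_lit 3,nat_lit 3),Int.ofNat (nat_lit 1)),((nat_lit 2,nat_lit 2,nat_lit 12),Int.ofNat (nat_lit 1))]),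
((nat_lit 4,nat_lit 0,nat_lit 13),[((nat_lit 1,nat_lit 1,nat_lit 1),Int.ofNat (nat_lit 1)),((nat_lit 1,nat_lit 1,nat_lit 3),Int.negSucc (nat_lit 0)),((nat_lit 1,nat_lit 3,nat_lit 1),Int.negSucc (nat_lit 0)),((nat_lit 3,nat_lit 2,nat_lit 2),Int.negSucc (nat_lit 0)),((nat_lit 3,nat_lit 3,nat_lit 3),Int.ofNat (nat_lit 1)),((nat_lit 1,nat_lit 1,nat_lit 13),Int.ofNat (nat_lit 1))]),
((nat_lit 4,nat_lit 1,nat_lit 13),[((nat_lit 2,nat_lit 1,nat_lit 1),Int.ofNat (nat_lit 1)),((nat_lit 2,nat_lit 1,nat_lit 4),Int.negSucc (nat_lit 0)),((nat_lit 2,nat_lit 3,nat_lit 3),Int.negSucc (nat_lit 0)),((nat_lit 2,nat_lit 4,nat_lit 1),Int.negSucc (nat_lit 0)),((nat_lit 2,nat_lit 4,nat_lit 4),Int.ofNat (nat_lit 1)),((nat_lit 3,nat_lit 2,nat_lit 2),Int.negSucc (nat_lit 0)),((nat_lit 3,nat_lit 3,nat_lit 3),Int.ofNat (nat_lit 1)),((nat_lit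 4,nat_lit 1,nat_lit 3),Int.negSucc (nat_lit 0)),((nat_lit 4,nat_lit 1,nat_lit 4),Int.ofNat (nat_lit 1)),((nat_lit 4,nat_lit 3,nat_lit 1),Int.negSucc (nat_lit 0)),((nat_lit 4,nat_lit 3,nat_lit 3),Int.ofNat (nat_lit 1)),((nat_lit 4,nat_lit 4,nat_lit 1),Int.ofNat (nat_lit 1)),((nat_lit 4,nat_lit 4,nat_lit 4),Int.negSucc (nat_lit 0)),((nat_lit 2,nat_lit 1,nat_lit 13),Int.ofNat (nat_lit 1))]),
((nat_lit 4,nat_lit 2,nat_lit 13),[((nat_lit 3,nat_lit 1,nat_lit 1),Int.ofNat (nat_lit 1)),((nat_lit 3,nat_lit 1,nat_lit 4),Int.negSucc (nat_lit 0)),((nat_lit 3,nat_lit 2,nat_lit 2),Int.negSucc (nat_lit 0)),((nat_lit 3,nat_lit 4,nat_lit 1),Int.negSucc (nat_lit 0)),((nat_lit 3,nat_lit 4,nat_lit 4),Int.ofNat (nat_lit 1)),((nat_lit 4,nat_lit 1,nat_lit 3),Int.negSucc (nat_lit 0)),((nat_lit 4,nat_lit 1,nat_lit 4),Int.ofNat (nat_lit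 1)),((nat_lit 4,nat_lit 3,nat_lit 1),Int.negSucc (nat_lit 0)),((nat_lit 4,nat_lit 3,nat_lit 3),Int.ofNat (nat_lit 1)),((nat_lit 4,nat_lit 4,nat_lit 1),Int.ofNat (nat_lit 1)),((nat_lit 4,nat_lit 4,nat_lit 4),Int.negSucc (nat_lit 0)),((nat_lit 3,nat_lit 1,nat_lit 13),Int.ofNat (nat_lit 1))]),
((nat_lit 4,nat_lit 3,nat_lit 13),[((nat_lit 4,nat_lit 1,nat_lit 1),Int.ofNat (nat_lit 1)),((nat_lit 4,nat_lit 1,nat_lit 3),Int.negSucc (nat_lit 0)),((nat_lit 4,nat_lit 2,nat_lit 2),Int.negSucc (nat_lit 0)),((nat_lit 4,nat_lit 3,nat_lit 1),Int.negSucc (nat_lit 0)),((nat_lit 4,nat_lit 3,nat_lit 3),Int.ofNat (nat_lit 1)),((nat_lit 4,nat_lit 1,nat_lit 13),Int.ofNat (nat_lit 1))]),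
((nat_lit 4,nat_lit 4,nat_lit 13),[((nat_lit 1,nat_lit 2,nat_lit 2),Int.ofNat (nat_lit 1)),((nat_lit 1,nat_lit 2,nat_lit 4),Int.negSucc (nat_lit 0)),((nat_lit 1,nat_lit 3,nat_lit 3),Int.negSucc (nat_lit 0)),((nat_lit 1,nat_lit 4,nat_lit 2),Int.negSucc (nat_lit 0)),((nat_lit 1,nat_lit 4,nat_lit 4),Int.ofNat (nat_lit 1)),((nat_lit 3,nat_lit 2,nat_lit 2),Int.negSucc (nat_lit 0)),((nat_lit 3,nat_lit 3,nat_lit 3),Int.ofNat (nat_lit 1)),((nat_lit 1,nat_lit 2,nat_lit 13),Int.ofNat (nat_lit 1))]),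
((nat_lit 4,nat_lit 5,nat_lit 13),[((nat_lit 2,nat_lit 2,nat_lit 2),Int.ofNat (nat_lit 1)),((nat_lit 2,nat_lit 2,nat_lit 4),Int.negSucc (nat_lit 0)),((nat_lit 2,nat_lit 3,nat_lit 3),Int.negSucc (nat_lit 0)),((nat_lit 2,nat_lit 4,nat_lit 2),Int.negSucc (nat_lit 0)),((nat_lit 2,nat_lit 4,nat_lit 4),Int.ofNat (nat_lit 1)),((nat_lit 3,nat_lit 2,nat_lit 2),Int.negSucc (nat_lit 0)),((nat_lit 3,nat_lit 3,nat_lit 3),Int.ofNat (nat_lit 1)),((nat_lit 2,nat_lit 2,nat_lit 13),Int.ofNat (nat_lit 1))]),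
((nat_lit 4,nat_lit 0,nat_lit 14),[((nat_lit 1,nat_lit 1,nat_lit 1),Int.ofNat (nat_lit 1)),((nat_lit 1,nat_lit 1,nat_lit 3),Int.negSucc (nat_lit 0)),((nat_lit 1,nat_lit 3,nat_lit 1),Int.negSucc (nat_lit 0)),((nat_lit 3,nat_lit 2,nat_lit 2),Int.negSucc (nat_lit 0)),((nat_lit 3,nat_lit 3,nat_lit 3),Int.ofNat (nat_lit 1)),((nat_lit 1,nat_lit 1,nat_lit 14),Int.ofNat (nat_lit 1))]),
((nat_lit 4,nat_lit 1,nat_lit 14),[((nat_lit 2,nat_lit 1,nat_lit 1),Int.ofNat (nat_lit 1)),((nat_lit 2,nat_lit 1,nat_lit 4),Int.negSucc (nat_lit 0)),((nat_lit 2,nat_lit 3,nat_lit 3),Int.negSucc (nat_lit 0)),((nat_lit 2,nat_lit 4,nat_lit 1),Int.negSucc (nat_lit 0)),((nat_lit 2,nat_lit 4,nat_lit 4),Int.ofNat (nat_lit 1)),((nat_lit 3,nat_lit 2,nat_lit 2),Int.negSucc (nat_lit 0)),((nat_lit 3,nat_lit 3,nat_lit 3),Int.ofNat (nat_lit 1)),((nat_lit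 4,nat_lit 1,nat_lit 3),Int.negSucc (nat_lit 0)),((nat_lit 4,nat_lit 1,nat_lit 4),Int.ofNat (nat_lit 1)),((nat_lit 4,nat_lit 3,nat_lit 1),Int.negSucc (nat_lit 0)),((nat_lit 4,nat_lit 3,nat_lit 3),Int.ofNat (nat_lit 1)),((nat_lit 4,nat_lit 4,nat_lit 1),Int.ofNat (nat_lit 1)),((nat_lit 4,nat_lit 4,nat_lit 4),Int.negSucc (nat_lit 0)),((nat_lit 2,nat_lit 1,nat_lit 14),Int.ofNat (nat_lit 1))]),
((nat_lit 4,nat_lit 2,nat_lit 14),[((nat_lit 3,nat_lit 1,nat_lit 1),Int.ofNat (nat_lit 1)),((nat_lit 3,nat_lit 1,nat_lit 4),Int.negSucc (nat_lit 0)),((nat_lit 3,nat_lit 2,nat_lit 2),Int.negSucc (nat_lit 0)),((nat_lit 3,nat_lit 4,nat_lit 1),Int.negSucc (nat_lit 0)),((nat_lit 3,nat_lit 4,nat_lit 4),Int.ofNat (nat_lit 1)),((nat_lit 4,nat_lit 1,nat_lit 3),Int.negSucc (nat_lit 0)),((nat_lit 4,nat_lit 1,nat_lit 4),Int.ofNat (nat_lit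 1)),((nat_lit 4,nat_lit 3,nat_lit 1),Int.negSucc (nat_lit 0)),((nat_lit 4,nat_lit 3,nat_lit 3),Int.ofNat (nat_lit 1)),((nat_lit 4,nat_lit 4,nat_lit 1),Int.ofNat (nat_lit 1)),((nat_lit 4,nat_lit 4,nat_lit 4),Int.negSucc (nat_lit 0)),((nat_lit 3,nat_lit 1,nat_lit 14),Int.ofNat (nat_lit 1))]),
((nat_lit 4,nat_lit 3,nat_lit 14),[((nat_lit 4,nat_lit 1,nat_lit 1),Int.ofNat (nat_lit 1)),((nat_lit 4,nat_lit 1,nat_lit 3),Int.negSucc (nat_lit 0)),((nat_lit 4,nat_lit 2,nat_lit 2),Int.negSucc (nat_lit 0)),((nat_lit 4,nat_lit 3,nat_lit 1),Int.negSucc (nat_lit 0)),((nat_lit 4,nat_lit 3,nat_lit 3),Int.ofNat (nat_lit 1)),((nat_lit 4,nat_lit 1,nat_lit 14),Int.ofNat (nat_lit 1))]),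
((nat_lit 4,nat_lit 4,nat_lit 14),[((nat_lit 1,nat_lit 2,nat_lit 2),Int.ofNat (nat_lit 1)),((nat_lit 1,nat_lit 2,nat_lit 4),Int.negSucc (nat_lit 0)),((nat_lit 1,nat_lit 3,nat_lit 3),Int.negSucc (nat_lit 0)),((nat_lit 1,nat_lit 4,nat_lit 2),Int.negSucc (nat_lit 0)),((nat_lit 1,nat_lit 4,nat_lit 4),Int.ofNat (nat_lit 1)),((nat_lit 3,nat_lit 2,nat_lit 2),Int.negSucc (nat_lit 0)),((nat_lit 3,nat_lit 3,nat_lit 3),Int.ofNat (nat_lit 1)),((nat_lit 1,nat_lit 2,nat_lit 14),Int.ofNat (nat_lit 1))]),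
((nat_lit 4,nat_lit 5,nat_lit 14),[((nat_lit 2,nat_lit 2,nat_lit 2),Int.ofNat (nat_lit 1)),((nat_lit 2,nat_lit 2,nat_lit 4),Int.negSucc (nat_lit 0)),((nat_lit 2,nat_lit 3,nat_lit 3),Int.negSucc (nat_lit 0)),((nat_lit 2,nat_lit 4,nat_lit 2),Int.negSucc (nat_lit 0)),((nat_lit 2,nat_lit 4,nat_lit 4),Int.ofNat (nat_lit 1)),((nat_lit 3,nat_lit 2,nat_lit 2),Int.negSucc (nat_lit 0)),((nat_lit 3,nat_lit 3,nat_lit 3),Int.ofNat (nat_lit 1)),((nat_lit 2,nat_lit 2,nat_lit 14),Int.ofNat (nat_lit 1))]),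
((nat_lit 5,nat_lit 0,nat_lit 1),[((nat_lit 1,nat_lit 1,nat_lit 1),Int.ofNat (nat_lit 1)),((nat_lit 1,nat_lit 1,nat_lit 3),Int.negSucc (nat_lit 0)),((nat_lit 1,nat_lit 2,nat_lit 2),Int.negSucc (nat_lit 0)),((nat_lit 1,nat_lit 2,nat_lit 4),Int.ofNat (nat_lit 1)),((nat_lit 1,nat_lit 3,nat_lit 1),Int.negSucc (nat_lit 0)),((nat_lit 1,nat_lit 3,nat_lit 3),Int.ofNat (nat_lit 1)),((nat_lit 1,nat_lit 4,nat_lit 2),Int.ofNat (nat_lit 1)),((nat_lit 1,nat_lit 4,nat_lit 4),Int.negSucc (nat_lit 0)),((nat_lit 2,nat_lit 2,nat_lit 2),Int.ofNat (nat_lit 1)),((nat_lit 2,nat_lit 2,nat_lit 4),Int.negSucc (nat_lit 0)),((nat_lit 2,nat_lit 3,nat_lit 3),Int.negSucc (nat_lit 0)),((nat_lit 2,nat_lit 4,nat_lit 2),Int.negSucc (nat_lit 0)),((nat_lit 2,nat_lit 4,nat_lit 4),Int.ofNat (nat_lit 1)),((nat_lit 3,nat_lit 1,nat_lit 1),Int.negSucc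 (nat_lit 0)),((nat_lit 3,nat_lit 1,nat_lit 4),Int.ofNat (nat_lit 1)),((nat_lit 3,nat_lit 3,nat_lit 3),Int.ofNat (nat_lit 1)),((nat_lit 3,nat_lit 4,nat_lit 1),Int.ofNat (nat_lit 1)),((nat_lit 3,nat_lit 4,nat_lit 4),Int.negSucc (nat_lit 0)),((nat_lit 4,nat_lit 1,nat_lit 1),Int.ofNat (nat_lit 1)),((nat_lit 4,nat_lit 1,nat_lit 4),Int.negSucc (nat_lit 0)),((nat_lit 4,nat_lit 2,nat_lit 2),Int.negSucc (nat_lit 0)),((nat_lit 4,nat_lit 4,nat_lit 1),Int.negSucc (nat_lit 0)),((nat_lit 4,nat_lit 4,nat_lit 4),Int.ofNat (nat_lit 1)),((nat_lit 5,nat_lit 2,nat_lit 2),Int.ofNat (nat_lit 1))])]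

noncomputable def tab6 : Tab := [
((nat_lit 5,nat_lit 0,nat_lit 2),[((nat_lit 1,nat_lit 1,nat_lit 1),Int.ofNat (nat_lit 1)),((nat_lit 1,nat_lit 1,nat_lit 3),Int.negSucc (nat_lit 0)),((nat_lit 1,nat_lit 2,nat_lit 2),Int.negSucc (nat_lit 0)),((nat_lit 1,nat_lit 2,nat_lit 4),Int.ofNat (nat_lit 1)),((nat_lit 1,nat_lit 3,nat_lit 1),Int.negSucc (nat_lit 0)),((nat_lit 1,nat_lit 3,nat_lit 3),Int.ofNat (nat_lit 1)),((nat_lit 1,nat_lit 4,nat_lit 2),Int.ofNat (nat_lit 1)),((nat_lit 1,nat_lit 4,nat_lit 4),Int.negSucc (nat_lit 0)),((nat_lit 2,nat_lit 2,nat_lit 2),Int.ofNat (nat_lit 1)),((nat_lit 2,nat_lit 2,nat_lit 4),Int.negSucc (nat_lit 0)),((nat_lit 2,nat_lit 3,nat_lit 3),Int.negSucc (nat_lit 0)),((nat_lit 2,nat_lit 4,nat_lit 2),Int.negSucc (nat_lit 0)),((nat_lit 2,nat_lit 4,nat_lit 4),Int.ofNat (nat_lit 1)),((nat_lit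 3,nat_lit 1,nat_lit 1),Int.negSucc (nat_lit 0)),((nat_lit 3,nat_lit 1,nat_lit 4),Int.ofNat (nat_lit 1)),((nat_lit 3,nat_lit 3,nat_lit 3),Int.ofNat (nat_lit 1)),((nat_lit 3,nat_lit 4,nat_lit 1),Int.ofNat (nat_lit 1)),((nat_lit 3,nat_lit 4,nat_lit 4),Int.negSucc (nat_lit 0)),((nat_lit 4,nat_lit 1,nat_lit 1),Int.ofNat (nat_lit 1)),((nat_lit 4,nat_lit 1,nat_lit 4),Int.negSucc (nat_lit 0)),((nat_lit 4,nat_lit 4,nat_lit 1),Int.negSucc (nat_lit 0)),((nat_lit 4,nat_lit 4,nat_lit 4),Int.ofNat (nat_lit 1))]),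
((nat_lit 6,nat_lit 0,nat_lit 1),[((nat_lit 1,nat_lit 1,nat_lit 1),Int.ofNat (nat_lit 1)),((nat_lit 1,nat_lit 1,nat_lit 3),Int.negSucc (nat_lit 0)),((nat_lit 1,nat_lit 3,nat_lit 1),Int.negSucc (nat_lit 0)),((nat_lit 3,nat_lit 2,nat_lit 2),Int.negSucc (nat_lit 0)),((nat_lit 3,nat_lit 3,nat_lit 3),Int.ofNat (nat_lit 1)),((nat_lit 1,nat_lit 5,nat_lit 1),Int.ofNat (nat_lit 1))]),
((nat_lit 6,nat_lit 1,nat_lit 1),[((nat_lit 2,nat_lit 1,nat_lit 1),Int.ofNat (nat_lit 1)),((nat_lit 2,nat_lit 1,nat_lit 4),Int.negSucc (nat_lit 0)),((nat_lit 2,nat_lit 3,nat_lit 3),Int.negSucc (nat_lit 0)),((nat_lit 2,nat_lit 4,nat_lit 1),Int.negSucc (nat_lit 0)),((nat_lit 2,nat_lit 4,nat_lit 4),Int.ofNat (nat_lit 1)),((nat_lit 3,nat_lit 2,nat_lit 2),Int.negSucc (nat_lit 0)),((nat_lit 3,nat_lit 3,nat_lit 3),Int.ofNat (nat_lit 1)),((nat_lit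 4,nat_lit 1,nat_lit 3),Int.negSucc (nat_lit 0)),((nat_lit 4,nat_lit 1,nat_lit 4),Int.ofNat (nat_lit 1)),((nat_lit 4,nat_lit 3,nat_lit 1),Int.negSucc (nat_lit 0)),((nat_lit 4,nat_lit 3,nat_lit 3),Int.ofNat (nat_lit 1)),((nat_lit 4,nat_lit 4,nat_lit 1),Int.ofNat (nat_lit 1)),((nat_lit 4,nat_lit 4,nat_lit 4),Int.negSucc (nat_lit 0)),((nat_lit 2,nat_lit 5,nat_lit 1),Int.ofNat (nat_lit 1))]),
((nat_lit 6,nat_lit 2,nat_lit 1),[((nat_lit 3,nat_lit 1,nat_lit 1),Int.ofNat (nat_lit 1)),((nat_lit 3,nat_lit 1,nat_lit 4),Int.negSucc (nat_lit 0)),((nat_lit 3,nat_lit 2,nat_lit 2),Int.negSucc (nat_lit 0)),((nat_lit 3,nat_lit 4,nat_lit 1),Int.negSucc (nat_lit 0)),((nat_lit 3,nat_lit 4,nat_lit 4),Int.ofNat (nat_lit 1)),((nat_lit 4,nat_lit 1,nat_lit 3),Int.negSucc (nat_lit 0)),((nat_lit 4,nat_lit 1,nat_lit 4),Int.ofNat (nat_lit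 1)),((nat_lit 4,nat_lit 3,nat_lit 1),Int.negSucc (nat_lit 0)),((nat_lit 4,nat_lit 3,nat_lit 3),Int.ofNat (nat_lit 1)),((nat_lit 4,nat_lit 4,nat_lit 1),Int.ofNat (nat_lit 1)),((nat_lit 4,nat_lit 4,nat_lit 4),Int.negSucc (nat_lit 0)),((nat_lit 3,nat_lit 5,nat_lit 1),Int.ofNat (nat_lit 1))]),
((nat_lit 6,nat_lit 3,nat_lit 1),[((nat_lit 4,nat_lit 1,nat_lit 1),Int.ofNat (nat_lit 1)),((nat_lit 4,nat_lit 1,nat_lit 3),Int.negSucc (nat_lit 0)),((nat_lit 4,nat_lit 2,nat_lit 2),Int.negSucc (nat_lit 0)),((nat_lit 4,nat_lit 3,nat_lit 1),Int.negSucc (nat_lit 0)),((nat_lit 4,nat_lit 3,nat_lit 3),Int.ofNat (nat_lit 1)),((nat_lit 4,nat_lit 5,nat_lit 1),Int.ofNat (nat_lit 1))]),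
((nat_lit 6,nat_lit 4,nat_lit 1),[((nat_lit 1,nat_lit 2,nat_lit 2),Int.ofNat (nat_lit 1)),((nat_lit 1,nat_lit 2,nat_lit 4),Int.negSucc (nat_lit 0)),((nat_lit 1,nat_lit 3,nat_lit 3),Int.negSucc (nat_lit 0)),((nat_lit 1,nat_lit 4,nat_lit 2),Int.negSucc (nat_lit 0)),((nat_lit 1,nat_lit 4,nat_lit 4),Int.ofNat (nat_lit 1)),((nat_lit 3,nat_lit 2,nat_lit 2),Int.negSucc (nat_lit 0)),((nat_lit 3,nat_lit 3,nat_lit 3),Int.ofNat (nat_lit 1)),((nat_lit 1,nat_lit 5,nat_lit 2),Int.ofNat (nat_lit 1))]),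
((nat_lit 6,nat_lit 5,nat_lit 1),[((nat_lit 2,nat_lit 2,nat_lit 2),Int.ofNat (nat_lit 1)),((nat_lit 2,nat_lit 2,nat_lit 4),Int.negSucc (nat_lit 0)),((nat_lit 2,nat_lit 3,nat_lit 3),Int.negSucc (nat_lit 0)),((nat_lit 2,nat_lit 4,nat_lit 2),Int.negSucc (nat_lit 0)),((nat_lit 2,nat_lit 4,nat_lit 4),Int.ofNat (nat_lit 1)),((nat_lit 3,nat_lit 2,nat_lit 2),Int.negSucc (nat_lit 0)),((nat_lit 3,nat_lit 3,nat_lit 3),Int.ofNat (nat_lit 1)),((nat_lit 2,nat_lit 5,nat_lit 2),Int.ofNat (nat_lit 1))]),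
((nat_lit 6,nat_lit 0,nat_lit 2),[((nat_lit 1,nat_lit 1,nat_lit 1),Int.ofNat (nat_lit 1)),((nat_lit 1,nat_lit 1,nat_lit 3),Int.negSucc (nat_lit 0)),((nat_lit 1,nat_lit 3,nat_lit 1),Int.negSucc (nat_lit 0)),((nat_lit 1,nat_lit 4,nat_lit 1),Int.ofNat (nat_lit 1)),((nat_lit 3,nat_lit 2,nat_lit 2),Int.negSucc (nat_lit 0)),((nat_lit 3,nat_lit 3,nat_lit 3),Int.ofNat (nat_lit 1))]),
((nat_lit 6,nat_lit 1,nat_lit 2),[((nat_lit 2,nat_lit 1,nat_lit 1),Int.ofNat (nat_lit 1)),((nat_lit 2,nat_lit 1,nat_lit 4),Int.negSucc (nat_lit 0)),((nat_lit 2,nat_lit 3,nat_lit 3),Int.negSucc (nat_lit 0)),((nat_lit 2,nat_lit 4,nat_lit 4),Int.ofNat (nat_lit 1)),((nat_lit 3,nat_lit 2,nat_lit 2),Int.negSucc (nat_lit 0)),((nat_lit 3,nat_lit 3,nat_lit 3),Int.ofNat (nat_lit 1)),((nat_lit 4,nat_lit 1,nat_lit 3),Int.negSucc (nat_lit 0)),((nat_lit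 4,nat_lit 1,nat_lit 4),Int.ofNat (nat_lit 1)),((nat_lit 4,nat_lit 3,nat_lit 1),Int.negSucc (nat_lit 0)),((nat_lit 4,nat_lit 3,nat_lit 3),Int.ofNat (nat_lit 1)),((nat_lit 4,nat_lit 4,nat_lit 1),Int.ofNat (nat_lit 1)),((nat_lit 4,nat_lit 4,nat_lit 4),Int.negSucc (nat_lit 0))]),
((nat_lit 6,nat_lit 2,nat_lit 2),[((nat_lit 3,nat_lit 1,nat_lit 1),Int.ofNat (nat_lit 1)),((nat_lit 3,nat_lit 1,nat_lit 4),Int.negSucc (nat_lit 0)),((nat_lit 3,nat_lit 2,nat_lit 2),Int.negSucc (nat_lit 0)),((nat_lit 3,nat_lit 4,nat_lit 4),Int.ofNat (nat_lit 1)),((nat_lit 4,nat_lit 1,nat_lit 3),Int.negSucc (nat_lit 0)),((nat_lit 4,nat_lit 1,nat_lit 4),Int.ofNat (nat_lit 1)),((nat_lit 4,nat_lit 3,nat_lit 1),Int.negSucc (nat_lit 0)),((nat_lit 4,nat_lit 3,nat_lit 3),Int.ofNat (nat_lit 1)),((nat_lit 4,nat_lit 4,nat_lit 1),Int.ofNat (nat_lit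 1)),((nat_lit 4,nat_lit 4,nat_lit 4),Int.negSucc (nat_lit 0))]),
((nat_lit 6,nat_lit 3,nat_lit 2),[((nat_lit 4,nat_lit 1,nat_lit 1),Int.ofNat (nat_lit 1)),((nat_lit 4,nat_lit 1,nat_lit 3),Int.negSucc (nat_lit 0)),((nat_lit 4,nat_lit 2,nat_lit 2),Int.negSucc (nat_lit 0)),((nat_lit 4,nat_lit 3,nat_lit 1),Int.negSucc (nat_lit 0)),((nat_lit 4,nat_lit 3,nat_lit 3),Int.ofNat (nat_lit 1)),((nat_lit 4,nat_lit 4,nat_lit 1),Int.ofNat (nat_lit 1))]),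
((nat_lit 6,nat_lit 4,nat_lit 2),[((nat_lit 1,nat_lit 2,nat_lit 2),Int.ofNat (nat_lit 1)),((nat_lit 1,nat_lit 2,nat_lit 4),Int.negSucc (nat_lit 0)),((nat_lit 1,nat_lit 3,nat_lit 3),Int.negSucc (nat_lit 0)),((nat_lit 1,nat_lit 4,nat_lit 4),Int.ofNat (nat_lit 1)),((nat_lit 3,nat_lit 2,nat_lit 2),Int.negSucc (nat_lit 0)),((nat_lit 3,nat_lit 3,nat_lit 3),Int.ofNat (nat_lit 1))]),
((nat_lit 6,nat_lit 5,nat_lit 2),[((nat_lit 2,nat_lit 2,nat_lit 2),Int.ofNat (nat_lit 1)),((nat_lit 2,nat_lit 2,nat_lit 4),Int.negSucc (nat_lit 0)),((nat_lit 2,nat_lit 3,nat_lit 3),Int.negSucc (nat_lit 0)),((nat_lit 2,nat_lit 4,nat_lit 4),Int.ofNat (nat_lit 1)),((nat_lit 3,nat_lit 2,nat_lit 2),Int.negSucc (nat_lit 0)),((nat_lit 3,nat_lit 3,nat_lit 3),Int.ofNat (nat_lit 1))]),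
((nat_lit 6,nat_lit 0,nat_lit 3),[((nat_lit 1,nat_lit 1,nat_lit 1),Int.ofNat (nat_lit 1)),((nat_lit 1,nat_lit 1,nat_lit 3),Int.negSucc (nat_lit 0)),((nat_lit 3,nat_lit 2,nat_lit 2),Int.negSucc (nat_lit 0)),((nat_lit 3,nat_lit 3,nat_lit 3),Int.ofNat (nat_lit 1))]),
((nat_lit 6,nat_lit 1,nat_lit 3),[((nat_lit 2,nat_lit 1,nat_lit 1),Int.ofNat (nat_lit 1)),((nat_lit 2,nat_lit 1,nat_lit 4),Int.negSucc (nat_lit 0)),((nat_lit 2,nat_lit 3,nat_lit 3),Int.negSucc (nat_lit 0)),((nat_lit 2,nat_lit 3,nat_lit 4),Int.ofNat (nat_lit 1)),((nat_lit 3,nat_lit 2,nat_lit 2),Int.negSucc (nat_lit 0)),((nat_lit 3,nat_lit 3,nat_lit 3),Int.ofNat (nat_lit 1)),((nat_lit 4,nat_lit 1,nat_lit 3),Int.negSucc (nat_lit 0)),((nat_lit 4,nat_lit 1,nat_lit 4),Int.ofNat (nat_lit 1)),((nat_lit 4,nat_lit 3,nat_lit 3),Int.ofNat (nat_lit 1)),((nat_lit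 4,nat_lit 3,nat_lit 4),Int.negSucc (nat_lit 0))]),
((nat_lit 6,nat_lit 2,nat_lit 3),[((nat_lit 3,nat_lit 1,nat_lit 1),Int.ofNat (nat_lit 1)),((nat_lit 3,nat_lit 1,nat_lit 4),Int.negSucc (nat_lit 0)),((nat_lit 3,nat_lit 2,nat_lit 2),Int.negSucc (nat_lit 0)),((nat_lit 3,nat_lit 3,nat_lit 4),Int.ofNat (nat_lit 1)),((nat_lit 4,nat_lit 1,nat_lit 3),Int.negSucc (nat_lit 0)),((nat_lit 4,nat_lit 1,nat_lit 4),Int.ofNat (nat_lit 1)),((nat_lit 4,nat_lit 3,nat_lit 3),Int.ofNat (nat_lit 1)),((nat_lit 4,nat_lit 3,nat_lit 4),Int.negSucc (nat_lit 0))]),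
((nat_lit 6,nat_lit 3,nat_lit 3),[((nat_lit 4,nat_lit 1,nat_lit 1),Int.ofNat (nat_lit 1)),((nat_lit 4,nat_lit 1,nat_lit 3),Int.negSucc (nat_lit 0)),((nat_lit 4,nat_lit 2,nat_lit 2),Int.negSucc (nat_lit 0)),((nat_lit 4,nat_lit 3,nat_lit 3),Int.ofNat (nat_lit 1))]),
((nat_lit 6,nat_lit 4,nat_lit 3),[((nat_lit 1,nat_lit 2,nat_lit 2),Int.ofNat (nat_lit 1)),((nat_lit 1,nat_lit 2,nat_lit 4),Int.negSucc (nat_lit 0)),((nat_lit 1,nat_lit 3,nat_lit 3),Int.negSucc (nat_lit 0)),((nat_lit 1,nat_lit 3,nat_lit 4),Int.ofNat (nat_lit 1)),((nat_lit 3,nat_lit 2,nat_lit 2),Int.negSucc (nat_lit 0)),((nat_lit 3,nat_lit 3,nat_lit 3),Int.ofNat (nat_lit 1))]),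
((nat_lit 6,nat_lit 5,nat_lit 3),[((nat_lit 2,nat_lit 2,nat_lit 2),Int.ofNat (nat_lit 1)),((nat_lit 2,nat_lit 2,nat_lit 4),Int.negSucc (nat_lit 0)),((nat_lit 2,nat_lit 3,nat_lit 3),Int.negSucc (nat_lit 0)),((nat_lit 2,nat_lit 3,nat_lit 4),Int.ofNat (nat_lit 1)),((nat_lit 3,nat_lit 2,nat_lit 2),Int.negSucc (nat_lit 0)),((nat_lit 3,nat_lit 3,nat_lit 3),Int.ofNat (nat_lit 1))]),
((nat_lit 6,nat_lit 0,nat_lit 4),[((nat_lit 1,nat_lit 1,nat_lit 1),Int.ofNat (nat_lit 1)),((nat_lit 1,nat_lit 1,nat_lit 3),Int.negSucc (nat_lit 0)),((nat_lit 3,nat_lit 2,nat_lit 2),Int.negSucc (nat_lit 0)),((nat_lit 3,nat_lit 2,nat_lit 3),Int.ofNat (nat_lit 1))]),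
((nat_lit 6,nat_lit 1,nat_lit 4),[((nat_lit 2,nat_lit 1,nat_lit 1),Int.ofNat (nat_lit 1)),((nat_lit 2,nat_lit 1,nat_lit 4),Int.negSucc (nat_lit 0)),((nat_lit 2,nat_lit 2,nat_lit 3),Int.negSucc (nat_lit 0)),((nat_lit 2,nat_lit 2,nat_lit 4),Int.ofNat (nat_lit 1)),((nat_lit 3,nat_lit 2,nat_lit 2),Int.negSucc (nat_lit 0)),((nat_lit 3,nat_lit 2,nat_lit 3),Int.ofNat (nat_lit 1)),((nat_lit 4,nat_lit 1,nat_lit 3),Int.negSucc (nat_lit 0)),((nat_lit 4,nat_lit 1,nat_lit 4),Int.ofNat (nat_lit 1)),((nat_lit 4,nat_lit 2,nat_lit 3),Int.ofNat (nat_lit 1)),((nat_lit 4,nat_lit 2,nat_lit 4),Int.negSucc (nat_lit 0))]),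
((nat_lit 6,nat_lit 2,nat_lit 4),[((nat_lit 3,nat_lit 1,nat_lit 1),Int.ofNat (nat_lit 1)),((nat_lit 3,nat_lit 1,nat_lit 4),Int.negSucc (nat_lit 0)),((nat_lit 3,nat_lit 2,nat_lit 2),Int.negSucc (nat_lit 0)),((nat_lit 3,nat_lit 2,nat_lit 4),Int.ofNat (nat_lit 1)),((nat_lit 4,nat_lit 1,nat_lit 3),Int.negSucc (nat_lit 0)),((nat_lit 4,nat_lit 1,nat_lit 4),Int.ofNat (nat_lit 1)),((nat_lit 4,nat_lit 2,nat_lit 3),Int.ofNat (nat_lit 1)),((nat_lit 4,nat_lit 2,nat_lit 4),Int.negSucc (nat_lit 0))]),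
((nat_lit 6,nat_lit 3,nat_lit 4),[((nat_lit 4,nat_lit 1,nat_lit 1),Int.ofNat (nat_lit 1)),((nat_lit 4,nat_lit 1,nat_lit 3),Int.negSucc (nat_lit 0)),((nat_lit 4,nat_lit 2,nat_lit 2),Int.negSucc (nat_lit 0)),((nat_lit 4,nat_lit 2,nat_lit 3),Int.ofNat (nat_lit 1))]),
((nat_lit 6,nat_lit 4,nat_lit 4),[((nat_lit 1,nat_lit 2,nat_lit 2),Int.ofNat (nat_lit 1)),((nat_lit 1,nat_lit 2,nat_lit 3),Int.negSucc (nat_lit 0)),((nat_lit 3,nat_lit 2,nat_lit 2),Int.negSucc (nat_lit 0)),((nat_lit 3,nat_lit 2,nat_lit 3),Int.ofNat (nat_lit 1))]),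
((nat_lit 6,nat_lit 5,nat_lit 4),[((nat_lit 2,nat_lit 2,nat_lit 2),Int.ofNat (nat_lit 1)),((nat_lit 2,nat_lit 2,nat_lit 3),Int.negSucc (nat_lit 0)),((nat_lit 3,nat_lit 2,nat_lit 2),Int.negSucc (nat_lit 0)),((nat_lit 3,nat_lit 2,nat_lit 3),Int.ofNat (nat_lit 1))]),
((nat_lit 6,nat_lit 0,nat_lit 5),[((nat_lit 1,nat_lit 1,nat_lit 1),Int.ofNat (nat_lit 1)),((nat_lit 1,nat_lit 1,nat_lit 3),Int.negSucc (nat_lit 0)),((nat_lit 3,nat_lit 1,nat_lit 2),Int.negSucc (nat_lit 0)),((nat_lit 3,nat_lit 1,nat_lit 3),Int.ofNat (nat_lit 1))]),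
((nat_lit 6,nat_lit 1,nat_lit 5),[((nat_lit 2,nat_lit 1,nat_lit 1),Int.ofNat (nat_lit 1)),((nat_lit 2,nat_lit 1,nat_lit 3),Int.negSucc (nat_lit 0)),((nat_lit 3,nat_lit 1,nat_lit 2),Int.negSucc (nat_lit 0)),((nat_lit 3,nat_lit 1,nat_lit 3),Int.ofNat (nat_lit 1))]),
((nat_lit 6,nat_lit 2,nat_lit 5),[((nat_lit 3,nat_lit 1,nat_lit 1),Int.ofNat (nat_lit 1)),((nat_lit 3,nat_lit 1,nat_lit 2),Int.negSucc (nat_lit 0))]),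
((nat_lit 6,nat_lit 3,nat_lit 5),[((nat_lit 4,nat_lit 1,nat_lit 1),Int.ofNat (nat_lit 1)),((nat_lit 4,nat_lit 1,nat_lit 2),Int.negSucc (nat_lit 0))]),
((nat_lit 6,nat_lit 4,nat_lit 5),[((nat_lit 1,nat_lit 1,nat_lit 2),Int.ofNat (nat_lit 1)),((nat_lit 1,nat_lit 1,nat_lit 3),Int.negSucc (nat_lit 0)),((nat_lit 3,nat_lit 1,nat_lit 2),Int.negSucc (nat_lit 0)),((nat_lit 3,nat_lit 1,nat_lit 3),Int.ofNat (nat_lit 1))]),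
((nat_lit 6,nat_lit 5,nat_lit 5),[((nat_lit 2,nat_lit 1,nat_lit 2),Int.ofNat (nat_lit 1)),((nat_lit 2,nat_lit 1,nat_lit 3),Int.negSucc (nat_lit 0)),((nat_lit 3,nat_lit 1,nat_lit 2),Int.negSucc (nat_lit 0)),((nat_lit 3,nat_lit 1,nat_lit 3),Int.ofNat (nat_lit 1))]),
((nat_lit 7,nat_lit 0,nat_lit 1),[((nat_lit 5,nat_lit 2,nat_lit 2),Int.negSucc (nat_lit 0)),((nat_lit 6,nat_lit 2,nat_lit 2),Int.ofNat (nat_lit 1))])]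

noncomputable def tab7 : Tab := [
((nat_lit 7,nat_lit 0,nat_lit 2),[((nat_lit 4,nat_lit 2,nat_lit 2),Int.negSucc (nat_lit 0)),((nat_lit 7,nat_lit 2,nat_lit 2),Int.ofNat (nat_lit 1))]),
((nat_lit 8,nat_lit 0,nat_lit 1),[((nat_lit 1,nat_lit 5,nat_lit 1),Int.negSucc (nat_lit 0)),((nat_lit 1,nat_lit 6,nat_lit 1),Int.ofNat (nat_lit 1))]),
((nat_lit 8,nat_lit 1,nat_lit 1),[((nat_lit 2,nat_lit 5,nat_lit 1),Int.negSucc (nat_lit 0)),((nat_lit 2,nat_lit 6,nat_lit 1),Int.ofNat (nat_lit 1))]),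
((nat_lit 8,nat_lit 2,nat_lit 1),[((nat_lit 3,nat_lit 5,nat_lit 1),Int.negSucc (nat_lit 0)),((nat_lit 3,nat_lit 6,nat_lit 1),Int.ofNat (nat_lit 1))]),
((nat_lit 8,nat_lit 3,nat_lit 1),[((nat_lit 4,nat_lit 5,nat_lit 1),Int.negSucc (nat_lit 0)),((nat_lit 4,nat_lit 6,nat_lit 1),Int.ofNat (nat_lit 1))]),
((nat_lit 8,nat_lit 4,nat_lit 1),[((nat_lit 1,nat_lit 5,nat_lit 2),Int.negSucc (nat_lit 0)),((nat_lit 1,nat_lit 6,nat_lit 2),Int.ofNat (nat_lit 1))]),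
((nat_lit 8,nat_lit 5,nat_lit 1),[((nat_lit 2,nat_lit 5,nat_lit 2),Int.negSucc (nat_lit 0)),((nat_lit 2,nat_lit 6,nat_lit 2),Int.ofNat (nat_lit 1))]),
((nat_lit 8,nat_lit 0,nat_lit 2),[((nat_lit 1,nat_lit 4,nat_lit 1),Int.negSucc (nat_lit 0)),((nat_lit 1,nat_lit 7,nat_lit 1),Int.ofNat (nat_lit 1))]),
((nat_lit 8,nat_lit 1,nat_lit 2),[((nat_lit 2,nat_lit 4,nat_lit 1),Int.negSucc (nat_lit 0)),((nat_lit 2,nat_lit 7,nat_lit 1),Int.ofNat (nat_lit 1))]),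
((nat_lit 8,nat_lit 2,nat_lit 2),[((nat_lit 3,nat_lit 4,nat_lit 1),Int.negSucc (nat_lit 0)),((nat_lit 3,nat_lit 7,nat_lit 1),Int.ofNat (nat_lit 1))]),
((nat_lit 8,nat_lit 3,nat_lit 2),[((nat_lit 4,nat_lit 4,nat_lit 1),Int.negSucc (nat_lit 0)),((nat_lit 4,nat_lit 7,nat_lit 1),Int.ofNat (nat_lit 1))]),
((nat_lit 8,nat_lit 4,nat_lit 2),[((nat_lit 1,nat_lit 4,nat_lit 2),Int.negSucc (nat_lit 0)),((nat_lit 1,nat_lit 7,nat_lit 2),Int.ofNat (nat_lit 1))]),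
((nat_lit 8,nat_lit 5,nat_lit 2),[((nat_lit 2,nat_lit 4,nat_lit 2),Int.negSucc (nat_lit 0)),((nat_lit 2,nat_lit 7,nat_lit 2),Int.ofNat (nat_lit 1))]),
((nat_lit 8,nat_lit 0,nat_lit 3),[((nat_lit 1,nat_lit 3,nat_lit 1),Int.negSucc (nat_lit 0)),((nat_lit 1,nat_lit 8,nat_lit 1),Int.ofNat (nat_lit 1))]),
((nat_lit 8,nat_lit 1,nat_lit 3),[((nat_lit 2,nat_lit 3,nat_lit 4),Int.negSucc (nat_lit 0)),((nat_lit 2,nat_lit 4,nat_lit 1),Int.negSucc (nat_lit 0)),((nat_lit 2,nat_lit 4,nat_lit 4),Int.ofNat (nat_lit 1)),((nat_lit 4,nat_lit 3,nat_lit 1),Int.negSucc (nat_lit 0)),((nat_lit 4,nat_lit 3,nat_lit 4),Int.ofNat (nat_lit 1)),((nat_lit 4,nat_lit 4,nat_lit 1),Int.ofNat (nat_lit 1)),((nat_lit 4,nat_lit 4,nat_lit 4),Int.negSucc (nat_lit 0)),((nat_lit 2,nat_lit 8,nat_lit 1),Int.ofNat (nat_lit 1))]),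
((nat_lit 8,nat_lit 2,nat_lit 3),[((nat_lit 3,nat_lit 3,nat_lit 4),Int.negSucc (nat_lit 0)),((nat_lit 3,nat_lit 4,nat_lit 1),Int.negSucc (nat_lit 0)),((nat_lit 3,nat_lit 4,nat_lit 4),Int.ofNat (nat_lit 1)),((nat_lit 4,nat_lit 3,nat_lit 1),Int.negSucc (nat_lit 0)),((nat_lit 4,nat_lit 3,nat_lit 4),Int.ofNat (nat_lit 1)),((nat_lit 4,nat_lit 4,nat_lit 1),Int.ofNat (nat_lit 1)),((nat_lit 4,nat_lit 4,nat_lit 4),Int.negSucc (nat_lit 0)),((nat_lit 3,nat_lit 8,nat_lit 1),Int.ofNat (nat_lit 1))]),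
((nat_lit 8,nat_lit 3,nat_lit 3),[((nat_lit 4,nat_lit 3,nat_lit 1),Int.negSucc (nat_lit 0)),((nat_lit 4,nat_lit 8,nat_lit 1),Int.ofNat (nat_lit 1))]),
((nat_lit 8,nat_lit 4,nat_lit 3),[((nat_lit 1,nat_lit 3,nat_lit 4),Int.negSucc (nat_lit 0)),((nat_lit 1,nat_lit 4,nat_lit 2),Int.negSucc (nat_lit 0)),((nat_lit 1,nat_lit 4,nat_lit 4),Int.ofNat (nat_lit 1)),((nat_lit 1,nat_lit 8,nat_lit 2),Int.ofNat (nat_lit 1))]),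
((nat_lit 8,nat_lit 5,nat_lit 3),[((nat_lit 2,nat_lit 3,nat_lit 4),Int.negSucc (nat_lit 0)),((nat_lit 2,nat_lit 4,nat_lit 2),Int.negSucc (nat_lit 0)),((nat_lit 2,nat_lit 4,nat_lit 4),Int.ofNat (nat_lit 1)),((nat_lit 2,nat_lit 8,nat_lit 2),Int.ofNat (nat_lit 1))]),
((nat_lit 8,nat_lit 0,nat_lit 4),[((nat_lit 1,nat_lit 3,nat_lit 1),Int.negSucc (nat_lit 0)),((nat_lit 3,nat_lit 2,nat_lit 3),Int.negSucc (nat_lit 0)),((nat_lit 3,nat_lit 3,nat_lit 3),Int.ofNat (nat_lit 1)),((nat_lit 1,nat_lit 9,nat_lit 1),Int.ofNat (nat_lit 1))]),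
((nat_lit 8,nat_lit 1,nat_lit 4),[((nat_lit 2,nat_lit 2,nat_lit 3),Int.ofNat (nat_lit 1)),((nat_lit 2,nat_lit 2,nat_lit 4),Int.negSucc (nat_lit 0)),((nat_lit 2,nat_lit 3,nat_lit 3),Int.negSucc (nat_lit 0)),((nat_lit 2,nat_lit 4,nat_lit 1),Int.negSucc (nat_lit 0)),((nat_lit 2,nat_lit 4,nat_lit 4),Int.ofNat (nat_lit 1)),((nat_lit 3,nat_lit 2,nat_lit 3),Int.negSucc (nat_lit 0)),((nat_lit 3,nat_lit 3,nat_lit 3),Int.ofNat (nat_lit 1)),((nat_lit 4,nat_lit 2,nat_lit 3),Int.negSucc (nat_lit 0)),((nat_lit 4,nat_lit 2,nat_lit 4),Int.ofNat (nat_lit 1)),((nat_lit 4,nat_lit 3,nat_lit 1),Int.negSucc (nat_lit 0)),((nat_lit 4,nat_lit 3,nat_lit 3),Int.ofNat (nat_lit 1)),((nat_lit 4,nat_lit 4,nat_lit 1),Int.ofNat (nat_lit 1)),((nat_lit 4,nat_lit 4,nat_lit 4),Int.negSucc (nat_lit 0)),((nat_lit 2,nat_lit 9,nat_lit 1),Int.ofNat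 (nat_lit 1))]),
((nat_lit 8,nat_lit 2,nat_lit 4),[((nat_lit 3,nat_lit 2,nat_lit 4),Int.negSucc (nat_lit 0)),((nat_lit 3,nat_lit 4,nat_lit 1),Int.negSucc (nat_lit 0)),((nat_lit 3,nat_lit 4,nat_lit 4),Int.ofNat (nat_lit 1)),((nat_lit 4,nat_lit 2,nat_lit 3),Int.negSucc (nat_lit 0)),((nat_lit 4,nat_lit 2,nat_lit 4),Int.ofNat (nat_lit 1)),((nat_lit 4,nat_lit 3,nat_lit 1),Int.negSucc (nat_lit 0)),((nat_lit 4,nat_lit 3,nat_lit 3),Int.ofNat (nat_lit 1)),((nat_lit 4,nat_lit 4,nat_lit 1),Int.ofNat (nat_lit 1)),((nat_lit 4,nat_lit 4,nat_lit 4),Int.negSucc (nat_lit 0)),((nat_lit 3,nat_lit 9,nat_lit 1),Int.ofNat (nat_lit 1))]),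
((nat_lit 8,nat_lit 3,nat_lit 4),[((nat_lit 4,nat_lit 2,nat_lit 3),Int.negSucc (nat_lit 0)),((nat_lit 4,nat_lit 3,nat_lit 1),Int.negSucc (nat_lit 0)),((nat_lit 4,nat_lit 3,nat_lit 3),Int.ofNat (nat_lit 1)),((nat_lit 4,nat_lit 9,nat_lit 1),Int.ofNat (nat_lit 1))]),
((nat_lit 8,nat_lit 4,nat_lit 4),[((nat_lit 1,nat_lit 2,nat_lit 3),Int.ofNat (nat_lit 1)),((nat_lit 1,nat_lit 2,nat_lit 4),Int.negSucc (nat_lit 0)),((nat_lit 1,nat_lit 3,nat_lit 3),Int.negSucc (nat_lit 0)),((nat_lit 1,nat_lit 4,nat_lit 2),Int.negSucc (nat_lit 0)),((nat_lit 1,nat_lit 4,nat_lit 4),Int.ofNat (nat_lit 1)),((nat_lit 3,nat_lit 2,nat_lit 3),Int.negSucc (nat_lit 0)),((nat_lit 3,nat_lit 3,nat_lit 3),Int.ofNat (nat_lit 1)),((nat_lit 1,nat_lit 9,nat_lit 2),Int.ofNat (nat_lit 1))]),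
((nat_lit 8,nat_lit 5,nat_lit 4),[((nat_lit 2,nat_lit 2,nat_lit 3),Int.ofNat (nat_lit 1)),((nat_lit 2,nat_lit 2,nat_lit 4),Int.negSucc (nat_lit 0)),((nat_lit 2,nat_lit 3,nat_lit 3),Int.negSucc (nat_lit 0)),((nat_lit 2,nat_lit 4,nat_lit 2),Int.negSucc (nat_lit 0)),((nat_lit 2,nat_lit 4,nat_lit 4),Int.ofNat (nat_lit 1)),((nat_lit 3,nat_lit 2,nat_lit 3),Int.negSucc (nat_lit 0)),((nat_lit 3,nat_lit 3,nat_lit 3),Int.ofNat (nat_lit 1)),((nat_lit 2,nat_lit 9,nat_lit 2),Int.ofNat (nat_lit 1))]),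
((nat_lit 8,nat_lit 0,nat_lit 5),[((nat_lit 1,nat_lit 3,nat_lit 1),Int.negSucc (nat_lit 0)),((nat_lit 3,nat_lit 1,nat_lit 2),Int.ofNat (nat_lit 1)),((nat_lit 3,nat_lit 1,nat_lit 3),Int.negSucc (nat_lit 0)),((nat_lit 3,nat_lit 2,nat_lit 2),Int.negSucc (nat_lit 0)),((nat_lit 3,nat_lit 3,nat_lit 3),Int.ofNat (nat_lit 1)),((nat_lit 1,nat_lit 10,nat_lit 1),Int.ofNat (nat_lit 1))]),
((nat_lit 8,nat_lit 1,nat_lit 5),[((nat_lit 2,nat_lit 1,nat_lit 3),Int.ofNat (nat_lit 1)),((nat_lit 2,nat_lit 1,nat_lit 4),Int.negSucc (nat_lit 0)),((nat_lit 2,nat_lit 3,nat_lit 3),Int.negSucc (nat_lit 0)),((nat_lit 2,nat_lit 4,nat_lit 1),Int.negSucc (nat_lit 0)),((nat_lit 2,nat_lit 4,nat_lit 4),Int.ofNat (nat_lit 1)),((nat_lit 3,nat_lit 1,nat_lit 2),Int.ofNat (nat_lit 1)),((nat_lit 3,nat_lit 1,nat_lit 3),Int.negSucc (nat_lit 0)),((nat_lit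 3,nat_lit 2,nat_lit 2),Int.negSucc (nat_lit 0)),((nat_lit 3,nat_lit 3,nat_lit 3),Int.ofNat (nat_lit 1)),((nat_lit 4,nat_lit 1,nat_lit 3),Int.negSucc (nat_lit 0)),((nat_lit 4,nat_lit 1,nat_lit 4),Int.ofNat (nat_lit 1)),((nat_lit 4,nat_lit 3,nat_lit 1),Int.negSucc (nat_lit 0)),((nat_lit 4,nat_lit 3,nat_lit 3),Int.ofNat (nat_lit 1)),((nat_lit 4,nat_lit 4,nat_lit 1),Int.ofNat (nat_lit 1)),((nat_lit 4,nat_lit 4,nat_lit 4),Int.negSucc (nat_lit 0)),((nat_lit 2,nat_lit 10,nat_lit 1),Int.ofNat (nat_lit 1))]),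
((nat_lit 8,nat_lit 2,nat_lit 5),[((nat_lit 3,nat_lit 1,nat_lit 2),Int.ofNat (nat_lit 1)),((nat_lit 3,nat_lit 1,nat_lit 4),Int.negSucc (nat_lit 0)),((nat_lit 3,nat_lit 2,nat_lit 2),Int.negSucc (nat_lit 0)),((nat_lit 3,nat_lit 4,nat_lit 1),Int.negSucc (nat_lit 0)),((nat_lit 3,nat_lit 4,nat_lit 4),Int.ofNat (nat_lit 1)),((nat_lit 4,nat_lit 1,nat_lit 3),Int.negSucc (nat_lit 0)),((nat_lit 4,nat_lit 1,nat_lit 4),Int.ofNat (nat_lit 1)),((nat_lit 4,nat_lit 3,nat_lit 1),Int.negSucc (nat_lit 0)),((nat_lit 4,nat_lit 3,nat_lit 3),Int.ofNat (nat_lit 1)),((nat_lit 4,nat_lit 4,nat_lit 1),Int.ofNat (nat_lit 1)),((nat_lit 4,nat_lit 4,nat_lit 4),Int.negSucc (nat_lit 0)),((nat_lit 3,nat_lit 10,nat_lit 1),Int.ofNat (nat_lit 1))]),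
((nat_lit 8,nat_lit 3,nat_lit 5),[((nat_lit 4,nat_lit 1,nat_lit 2),Int.ofNat (nat_lit 1)),((nat_lit 4,nat_lit 1,nat_lit 3),Int.negSucc (nat_lit 0)),((nat_lit 4,nat_lit 2,nat_lit 2),Int.negSucc (nat_lit 0)),((nat_lit 4,nat_lit 3,nat_lit 1),Int.negSucc (nat_lit 0)),((nat_lit 4,nat_lit 3,nat_lit 3),Int.ofNat (nat_lit 1)),((nat_lit 4,nat_lit 10,nat_lit 1),Int.ofNat (nat_lit 1))]),
((nat_lit 8,nat_lit 4,nat_lit 5),[((nat_lit 1,nat_lit 1,nat_lit 2),Int.negSucc (nat_lit 0)),((nat_lit 1,nat_lit 1,nat_lit 3),Int.ofNat (nat_lit 1)),((nat_lit 1,nat_lit 2,nat_lit 2),Int.ofNat (nat_lit 1)),((nat_lit 1,nat_lit 2,nat_lit 4),Int.negSucc (nat_lit 0)),((nat_lit 1,nat_lit 3,nat_lit 3),Int.negSucc (nat_lit 0)),((nat_lit 1,nat_lit 4,nat_lit 2),Int.negSucc (nat_lit 0)),((nat_lit 1,nat_lit 4,nat_lit 4),Int.ofNat (nat_lit 1)),((nat_lit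 3,nat_lit 1,nat_lit 2),Int.ofNat (nat_lit 1)),((nat_lit 3,nat_lit 1,nat_lit 3),Int.negSucc (nat_lit 0)),((nat_lit 3,nat_lit 2,nat_lit 2),Int.negSucc (nat_lit 0)),((nat_lit 3,nat_lit 3,nat_lit 3),Int.ofNat (nat_lit 1)),((nat_lit 1,nat_lit 10,nat_lit 2),Int.ofNat (nat_lit 1))]),
((nat_lit 8,nat_lit 5,nat_lit 5),[((nat_lit 2,nat_lit 1,nat_lit 2),Int.negSucc (nat_lit 0)),((nat_lit 2,nat_lit 1,nat_lit 3),Int.ofNat (nat_lit 1)),((nat_lit 2,nat_lit 2,nat_lit 2),Int.ofNat (nat_lit 1)),((nat_lit 2,nat_lit 2,nat_lit 4),Int.negSucc (nat_lit 0)),((nat_lit 2,nat_lit 3,nat_lit 3),Int.negSucc (nat_lit 0)),((nat_lit 2,nat_lit 4,nat_lit 2),Int.negSucc (nat_lit 0)),((nat_lit 2,nat_lit 4,nat_lit 4),Int.ofNat (nat_lit 1)),((nat_lit 3,nat_lit 1,nat_lit 2),Int.ofNat (nat_lit 1)),((nat_lit 3,nat_lit 1,nat_lit 3),Int.negSucc (nat_lit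 0)),((nat_lit 3,nat_lit 2,nat_lit 2),Int.negSucc (nat_lit 0)),((nat_lit 3,nat_lit 3,nat_lit 3),Int.ofNat (nat_lit 1)),((nat_lit 2,nat_lit 10,nat_lit 2),Int.ofNat (nat_lit 1))])]

noncomputable def tab : Tab := catR tab0 (catR tab1 (catR tab2 (catR tab3 (catR tab4 (catR tab5 (catR tab6 (tab7)))))))

noncomputable def dtab0 : Tab := [
((nat_lit 1,nat_lit 1,nat_lit 1),[((nat_lit 0,nat_lit 0,nat_lit 0),Int.negSucc (nat_lit 0)),((nat_lit 0,nat_lit 1,nat_lit 0),Int.negSucc (nat_lit 0)),((nat_lit 0,nat_lit 3,nat_lit 0),Int.ofNat (nat_lit 1)),((nat_lit 1,nat_lit 0,nat_lit 0),Int.negSucc (nat_lit 0))]),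
((nat_lit 1,nat_lit 1,nat_lit 2),[((nat_lit 0,nat_lit 0,nat_lit 0),Int.negSucc (nat_lit 0)),((nat_lit 0,nat_lit 1,nat_lit 0),Int.negSucc (nat_lit 0)),((nat_lit 0,nat_lit 3,nat_lit 0),Int.ofNat (nat_lit 1)),((nat_lit 1,nat_lit 0,nat_lit 0),Int.negSucc (nat_lit 0)),((nat_lit 6,nat_lit 0,nat_lit 5),Int.negSucc (nat_lit 0)),((nat_lit 6,nat_lit 4,nat_lit 5),Int.ofNat (nat_lit 1))]),
((nat_lit 1,nat_lit 1,nat_lit 3),[((nat_lit 0,nat_lit 0,nat_lit 0),Int.negSucc (nat_lit 0)),((nat_lit 4,nat_lit 0,nat_lit 3),Int.ofNat (nat_lit 1))]),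
((nat_lit 1,nat_lit 1,nat_lit 4),[((nat_lit 0,nat_lit 0,nat_lit 0),Int.negSucc (nat_lit 0)),((nat_lit 4,nat_lit 0,nat_lit 4),Int.ofNat (nat_lit 1))]),
((nat_lit 1,nat_lit 2,nat_lit 1),[((nat_lit 0,nat_lit 0,nat_lit 0),Int.negSucc (nat_lit 0)),((nat_lit 0,nat_lit 1,nat_lit 0),Int.negSucc (nat_lit 0)),((nat_lit 0,nat_lit 3,nat_lit 0),Int.ofNat (nat_lit 1)),((nat_lit 1,nat_lit 0,nat_lit 0),Int.negSucc (nat_lit 0)),((nat_lit 4,nat_lit 0,nat_lit 1),Int.negSucc (nat_lit 0)),((nat_lit 4,nat_lit 4,nat_lit 1),Int.ofNat (nat_lit 1))]),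
((nat_lit 1,nat_lit 2,nat_lit 2),[((nat_lit 0,nat_lit 0,nat_lit 0),Int.negSucc (nat_lit 0)),((nat_lit 0,nat_lit 1,nat_lit 0),Int.negSucc (nat_lit 1)),((nat_lit 0,nat_lit 4,nat_lit 0),Int.ofNat (nat_lit 2)),((nat_lit 1,nat_lit 4,nat_lit 0),Int.negSucc (nat_lit 0)),((nat_lit 2,nat_lit 0,nat_lit 1),Int.ofNat (nat_lit 1))]),
((nat_lit 1,nat_lit 2,nat_lit 3),[((nat_lit 0,nat_lit 0,nat_lit 0),Int.negSucc (nat_lit 0)),((nat_lit 0,nat_lit 1,nat_lit 0),Int.negSucc (nat_lit 0)),((nat_lit 0,nat_lit 3,nat_lit 0),Int.negSucc (nat_lit 0)),((nat_lit 0,nat_lit 4,nat_lit 0),Int.ofNat (nat_lit 2)),((nat_lit 1,nat_lit 0,nat_lit 0),Int.ofNat (nat_lit 1)),((nat_lit 1,nat_lit 4,nat_lit 0),Int.negSucc (nat_lit 0)),((nat_lit 2,nat_lit 0,nat_lit 1),Int.ofNat (nat_lit 1)),((nat_lit 4,nat_lit 0,nat_lit 3),Int.ofNat (nat_lit 1)),((nat_lit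 6,nat_lit 0,nat_lit 4),Int.ofNat (nat_lit 1)),((nat_lit 6,nat_lit 4,nat_lit 4),Int.negSucc (nat_lit 0))]),
((nat_lit 1,nat_lit 2,nat_lit 4),[((nat_lit 0,nat_lit 4,nat_lit 0),Int.negSucc (nat_lit 0)),((nat_lit 4,nat_lit 4,nat_lit 4),Int.ofNat (nat_lit 1))]),
((nat_lit 1,nat_lit 3,nat_lit 1),[((nat_lit 0,nat_lit 0,nat_lit 0),Int.negSucc (nat_lit 0)),((nat_lit 6,nat_lit 0,nat_lit 3),Int.ofNat (nat_lit 1))]),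
((nat_lit 1,nat_lit 3,nat_lit 2),[((nat_lit 0,nat_lit 0,nat_lit 0),Int.negSucc (nat_lit 0)),((nat_lit 0,nat_lit 1,nat_lit 0),Int.negSucc (nat_lit 0)),((nat_lit 0,nat_lit 3,nat_lit 0),Int.negSucc (nat_lit 0)),((nat_lit 0,nat_lit 4,nat_lit 0),Int.ofNat (nat_lit 2)),((nat_lit 1,nat_lit 0,nat_lit 0),Int.ofNat (nat_lit 1)),((nat_lit 1,nat_lit 4,nat_lit 0),Int.negSucc (nat_lit 0)),((nat_lit 2,nat_lit 0,nat_lit 1),Int.ofNat (nat_lit 1)),((nat_lit 4,nat_lit 0,nat_lit 2),Int.ofNat (nat_lit 1)),((nat_lit 4,nat_lit 4,nat_lit 2),Int.negSucc (nat_lit 0)),((nat_lit 6,nat_lit 0,nat_lit 3),Int.ofNat (nat_lit 1))]),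
((nat_lit 1,nat_lit 3,nat_lit 3),[((nat_lit 0,nat_lit 0,nat_lit 0),Int.negSucc (nat_lit 0)),((nat_lit 0,nat_lit 1,nat_lit 0),Int.ofNat (nat_lit 1)),((nat_lit 0,nat_lit 3,nat_lit 0),Int.negSucc (nat_lit 0)),((nat_lit 1,nat_lit 0,nat_lit 0),Int.ofNat (nat_lit 1)),((nat_lit 2,nat_lit 0,nat_lit 1),Int.ofNat (nat_lit 1)),((nat_lit 4,nat_lit 0,nat_lit 3),Int.ofNat (nat_lit 1)),((nat_lit 6,nat_lit 0,nat_lit 3),Int.ofNat (nat_lit 1))]),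
((nat_lit 1,nat_lit 3,nat_lit 4),[((nat_lit 0,nat_lit 1,nat_lit 0),Int.ofNat (nat_lit 2)),((nat_lit 0,nat_lit 4,nat_lit 0),Int.negSucc (nat_lit 2)),((nat_lit 1,nat_lit 4,nat_lit 0),Int.ofNat (nat_lit 1)),((nat_lit 4,nat_lit 4,nat_lit 4),Int.ofNat (nat_lit 1)),((nat_lit 6,nat_lit 4,nat_lit 3),Int.ofNat (nat_lit 1))]),
((nat_lit 1,nat_lit 4,nat_lit 1),[((nat_lit 0,nat_lit 0,nat_lit 0),Int.negSucc (nat_lit 0)),((nat_lit 6,nat_lit 0,nat_lit 2),Int.ofNat (nat_lit 1))]),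
((nat_lit 1,nat_lit 4,nat_lit 2),[((nat_lit 0,nat_lit 4,nat_lit 0),Int.negSucc (nat_lit 0)),((nat_lit 6,nat_lit 4,nat_lit 2),Int.ofNat (nat_lit 1))]),
((nat_lit 1,nat_lit 4,nat_lit 3),[((nat_lit 0,nat_lit 1,nat_lit 0),Int.ofNat (nat_lit 2)),((nat_lit 0,nat_lit 4,nat_lit 0),Int.negSucc (nat_lit 2)),((nat_lit 1,nat_lit 4,nat_lit 0),Int.ofNat (nat_lit 1)),((nat_lit 4,nat_lit 4,nat_lit 3),Int.ofNat (nat_lit 1)),((nat_lit 6,nat_lit 4,nat_lit 2),Int.ofNat (nat_lit 1))]),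
((nat_lit 1,nat_lit 4,nat_lit 4),[((nat_lit 0,nat_lit 1,nat_lit 0),Int.ofNat (nat_lit 2)),((nat_lit 0,nat_lit 4,nat_lit 0),Int.negSucc (nat_lit 2)),((nat_lit 1,nat_lit 4,nat_lit 0),Int.ofNat (nat_lit 1)),((nat_lit 4,nat_lit 4,nat_lit 4),Int.ofNat (nat_lit 1)),((nat_lit 6,nat_lit 4,nat_lit 2),Int.ofNat (nat_lit 1))]),
((nat_lit 2,nat_lit 1,nat_lit 1),[((nat_lit 0,nat_lit 2,nat_lit 0),Int.negSucc (nat_lit 1)),((nat_lit 0,nat_lit 3,nat_lit 0),Int.ofNat (nat_lit 2)),((nat_lit 0,nat_lit 4,nat_lit 0),Int.negSucc (nat_lit 1)),((nat_lit 1,nat_lit 1,nat_lit 0),Int.negSucc (nat_lit 0))]),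
((nat_lit 2,nat_lit 1,nat_lit 2),[((nat_lit 0,nat_lit 2,nat_lit 0),Int.negSucc (nat_lit 1)),((nat_lit 0,nat_lit 3,nat_lit 0),Int.ofNat (nat_lit 2)),((nat_lit 0,nat_lit 4,nat_lit 0),Int.negSucc (nat_lit 1)),((nat_lit 1,nat_lit 1,nat_lit 0),Int.negSucc (nat_lit 0)),((nat_lit 6,nat_lit 1,nat_lit 5),Int.negSucc (nat_lit 0)),((nat_lit 6,nat_lit 5,nat_lit 5),Int.ofNat (nat_lit 1))]),
((nat_lit 2,nat_lit 1,nat_lit 3),[((nat_lit 0,nat_lit 1,nat_lit 0),Int.ofNat (nat_lit 1)),((nat_lit 0,nat_lit 2,nat_lit 0),Int.negSucc (nat_lit 1)),((nat_lit 0,nat_lit 3,nat_lit 0),Int.ofNat (nat_lit 1)),((nat_lit 0,nat_lit 4,nat_lit 0),Int.negSucc (nat_lit 1)),((nat_lit 1,nat_lit 0,nat_lit 0),Int.ofNat (nat_lit 1)),((nat_lit 1,nat_lit 1,nat_lit 0),Int.negSucc (nat_lit 0)),((nat_lit 4,nat_lit 0,nat_lit 3),Int.ofNat (nat_lit 1)),((nat_lit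 6,nat_lit 0,nat_lit 5),Int.ofNat (nat_lit 1)),((nat_lit 6,nat_lit 1,nat_lit 5),Int.negSucc (nat_lit 0))]),
((nat_lit 2,nat_lit 1,nat_lit 4),[((nat_lit 0,nat_lit 1,nat_lit 0),Int.negSucc (nat_lit 0)),((nat_lit 4,nat_lit 1,nat_lit 4),Int.ofNat (nat_lit 1))]),
((nat_lit 2,nat_lit 2,nat_lit 1),[((nat_lit 0,nat_lit 2,nat_lit 0),Int.negSucc (nat_lit 1)),((nat_lit 0,nat_lit 3,nat_lit 0),Int.ofNat (nat_lit 2)),((nat_lit 0,nat_lit 4,nat_lit 0),Int.negSucc (nat_lit 1)),((nat_lit 1,nat_lit 1,nat_lit 0),Int.negSucc (nat_lit 0)),((nat_lit 4,nat_lit 1,nat_lit 1),Int.negSucc (nat_lit 0)),((nat_lit 4,nat_lit 5,nat_lit 1),Int.ofNat (nat_lit 1))]),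
((nat_lit 2,nat_lit 2,nat_lit 2),[((nat_lit 0,nat_lit 2,nat_lit 0),Int.negSucc (nat_lit 1)),((nat_lit 1,nat_lit 5,nat_lit 0),Int.negSucc (nat_lit 0))]),
((nat_lit 2,nat_lit 2,nat_lit 3),[((nat_lit 0,nat_lit 1,nat_lit 0),Int.ofNat (nat_lit 1)),((nat_lit 0,nat_lit 2,nat_lit 0),Int.negSucc (nat_lit 1)),((nat_lit 0,nat_lit 3,nat_lit 0),Int.negSucc (nat_lit 0)),((nat_lit 1,nat_lit 0,nat_lit 0),Int.ofNat (nat_lit 1)),((nat_lit 1,nat_lit 5,nat_lit 0),Int.negSucc (nat_lit 0)),((nat_lit 4,nat_lit 0,nat_lit 3),Int.ofNat (nat_lit 1)),((nat_lit 6,nat_lit 0,nat_lit 4),Int.ofNat (nat_lit 1)),((nat_lit 6,nat_lit 5,nat_lit 4),Int.negSucc (nat_lit 0))]),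
((nat_lit 2,nat_lit 2,nat_lit 4),[((nat_lit 0,nat_lit 5,nat_lit 0),Int.negSucc (nat_lit 0)),((nat_lit 4,nat_lit 5,nat_lit 4),Int.ofNat (nat_lit 1))]),
((nat_lit 2,nat_lit 3,nat_lit 1),[((nat_lit 0,nat_lit 1,nat_lit 0),Int.ofNat (nat_lit 1)),((nat_lit 0,nat_lit 2,nat_lit 0),Int.negSucc (nat_lit 1)),((nat_lit 0,nat_lit 3,nat_lit 0),Int.ofNat (nat_lit 1)),((nat_lit 0,nat_lit 4,nat_lit 0),Int.negSucc (nat_lit 1)),((nat_lit 1,nat_lit 0,nat_lit 0),Int.ofNat (nat_lit 1)),((nat_lit 1,nat_lit 1,nat_lit 0),Int.negSucc (nat_lit 0)),((nat_lit 4,nat_lit 0,nat_lit 1),Int.ofNat (nat_lit 1)),((nat_lit 4,nat_lit 1,nat_lit 1),Int.negSucc (nat_lit 0)),((nat_lit 6,nat_lit 0,nat_lit 3),Int.ofNat (nat_lit 1))]),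
((nat_lit 2,nat_lit 3,nat_lit 2),[((nat_lit 0,nat_lit 1,nat_lit 0),Int.ofNat (nat_lit 1)),((nat_lit 0,nat_lit 2,nat_lit 0),Int.negSucc (nat_lit 1)),((nat_lit 0,nat_lit 3,nat_lit 0),Int.negSucc (nat_lit 0)),((nat_lit 1,nat_lit 0,nat_lit 0),Int.ofNat (nat_lit 1)),((nat_lit 1,nat_lit 5,nat_lit 0),Int.negSucc (nat_lit 0)),((nat_lit 4,nat_lit 0,nat_lit 2),Int.ofNat (nat_lit 1)),((nat_lit 4,nat_lit 5,nat_lit 2),Int.negSucc (nat_lit 0)),((nat_lit 6,nat_lit 0,nat_lit 3),Int.ofNat (nat_lit 1))]),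
((nat_lit 2,nat_lit 3,nat_lit 3),[((nat_lit 0,nat_lit 0,nat_lit 0),Int.negSucc (nat_lit 0)),((nat_lit 0,nat_lit 1,nat_lit 0),Int.ofNat (nat_lit 1)),((nat_lit 0,nat_lit 3,nat_lit 0),Int.negSucc (nat_lit 0)),((nat_lit 0,nat_lit 4,nat_lit 0),Int.ofNat (nat_lit 1)),((nat_lit 0,nat_lit 5,nat_lit 0),Int.negSucc (nat_lit 0)),((nat_lit 1,nat_lit 0,nat_lit 0),Int.ofNat (nat_lit 1)),((nat_lit 2,nat_lit 0,nat_lit 2),Int.ofNat (nat_lit 1)),((nat_lit 4,nat_lit 0,nat_lit 3),Int.ofNat (nat_lit 1)),((nat_lit 6,nat_lit 0,nat_lit 3),Int.ofNat (nat_lit 1))]),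
((nat_lit 2,nat_lit 3,nat_lit 4),[((nat_lit 0,nat_lit 0,nat_lit 0),Int.negSucc (nat_lit 0)),((nat_lit 0,nat_lit 2,nat_lit 0),Int.ofNat (nat_lit 2)),((nat_lit 0,nat_lit 4,nat_lit 0),Int.ofNat (nat_lit 1)),((nat_lit 0,nat_lit 5,nat_lit 0),Int.negSucc (nat_lit 1)),((nat_lit 1,nat_lit 5,nat_lit 0),Int.ofNat (nat_lit 1)),((nat_lit 2,nat_lit 0,nat_lit 2),Int.ofNat (nat_lit 1)),((nat_lit 4,nat_lit 5,nat_lit 4),Int.ofNat (nat_lit 1)),((nat_lit 6,nat_lit 5,nat_lit 3),Int.ofNat (nat_lit 1))]),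
((nat_lit 2,nat_lit 4,nat_lit 1),[((nat_lit 0,nat_lit 1,nat_lit 0),Int.negSucc (nat_lit 0)),((nat_lit 6,nat_lit 1,nat_lit 2),Int.ofNat (nat_lit 1))]),
((nat_lit 2,nat_lit 4,nat_lit 2),[((nat_lit 0,nat_lit 5,nat_lit 0),Int.negSucc (nat_lit 0)),((nat_lit 6,nat_lit 5,nat_lit 2),Int.ofNat (nat_lit 1))]),
((nat_lit 2,nat_lit 4,nat_lit 3),[((nat_lit 0,nat_lit 0,nat_lit 0),Int.negSucc (nat_lit 0)),((nat_lit 0,nat_lit 2,nat_lit 0),Int.ofNat (nat_lit 2)),((nat_lit 0,nat_lit 4,nat_lit 0),Int.ofNat (nat_lit 1)),((nat_lit 0,nat_lit 5,nat_lit 0),Int.negSucc (nat_lit 1)),((nat_lit 1,nat_lit 5,nat_lit 0),Int.ofNat (nat_lit 1)),((nat_lit 2,nat_lit 0,nat_lit 2),Int.ofNat (nat_lit 1)),((nat_lit 4,nat_lit 5,nat_lit 3),Int.ofNat (nat_lit 1)),((nat_lit 6,nat_lit 5,nat_lit 2),Int.ofNat (nat_lit 1))]),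
((nat_lit 2,nat_lit 4,nat_lit 4),[((nat_lit 0,nat_lit 0,nat_lit 0),Int.negSucc (nat_lit 0)),((nat_lit 0,nat_lit 2,nat_lit 0),Int.ofNat (nat_lit 2)),((nat_lit 0,nat_lit 4,nat_lit 0),Int.ofNat (nat_lit 1)),((nat_lit 0,nat_lit 5,nat_lit 0),Int.negSucc (nat_lit 1)),((nat_lit 1,nat_lit 5,nat_lit 0),Int.ofNat (nat_lit 1)),((nat_lit 2,nat_lit 0,nat_lit 2),Int.ofNat (nat_lit 1)),((nat_lit 4,nat_lit 5,nat_lit 4),Int.ofNat (nat_lit 1)),((nat_lit 6,nat_lit 5,nat_lit 2),Int.ofNat (nat_lit 1))])]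

noncomputable def dtab1 : Tab := [
((nat_lit 3,nat_lit 1,nat_lit 1),[((nat_lit 0,nat_lit 1,nat_lit 0),Int.negSucc (nat_lit 0)),((nat_lit 0,nat_lit 2,nat_lit 0),Int.ofNat (nat_lit 1)),((nat_lit 0,nat_lit 5,nat_lit 0),Int.negSucc (nat_lit 1)),((nat_lit 1,nat_lit 2,nat_lit 0),Int.negSucc (nat_lit 0)),((nat_lit 2,nat_lit 0,nat_lit 3),Int.ofNat (nat_lit 1))]),
((nat_lit 3,nat_lit 1,nat_lit 2),[((nat_lit 0,nat_lit 1,nat_lit 0),Int.negSucc (nat_lit 0)),((nat_lit 0,nat_lit 2,nat_lit 0),Int.ofNat (nat_lit 1)),((nat_lit 0,nat_lit 5,nat_lit 0),Int.negSucc (nat_lit 1)),((nat_lit 1,nat_lit 2,nat_lit 0),Int.negSucc (nat_lit 0)),((nat_lit 2,nat_lit 0,nat_lit 3),Int.ofNat (nat_lit 1)),((nat_lit 6,nat_lit 2,nat_lit 5),Int.negSucc (nat_lit 0))]),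
((nat_lit 3,nat_lit 1,nat_lit 3),[((nat_lit 0,nat_lit 2,nat_lit 0),Int.ofNat (nat_lit 1)),((nat_lit 0,nat_lit 3,nat_lit 0),Int.negSucc (nat_lit 0)),((nat_lit 0,nat_lit 5,nat_lit 0),Int.negSucc (nat_lit 1)),((nat_lit 1,nat_lit 0,nat_lit 0),Int.ofNat (nat_lit 1)),((nat_lit 1,nat_lit 2,nat_lit 0),Int.negSucc (nat_lit 0)),((nat_lit 2,nat_lit 0,nat_lit 3),Int.ofNat (nat_lit 1)),((nat_lit 4,nat_lit 0,nat_lit 3),Int.ofNat (nat_lit 1)),((nat_lit 6,nat_lit 0,nat_lit 5),Int.ofNat (nat_lit 1)),((nat_lit 6,nat_lit 2,nat_lit 5),Int.negSucc (nat_lit 0))]),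
((nat_lit 3,nat_lit 1,nat_lit 4),[((nat_lit 0,nat_lit 2,nat_lit 0),Int.negSucc (nat_lit 0)),((nat_lit 4,nat_lit 2,nat_lit 4),Int.ofNat (nat_lit 1))]),
((nat_lit 3,nat_lit 2,nat_lit 1),[((nat_lit 0,nat_lit 1,nat_lit 0),Int.negSucc (nat_lit 0)),((nat_lit 0,nat_lit 2,nat_lit 0),Int.ofNat (nat_lit 1)),((nat_lit 0,nat_lit 5,nat_lit 0),Int.negSucc (nat_lit 1)),((nat_lit 1,nat_lit 2,nat_lit 0),Int.negSucc (nat_lit 0)),((nat_lit 2,nat_lit 0,nat_lit 3),Int.ofNat (nat_lit 1)),((nat_lit 4,nat_lit 2,nat_lit 1),Int.negSucc (nat_lit 0))]),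
((nat_lit 3,nat_lit 2,nat_lit 2),[((nat_lit 0,nat_lit 0,nat_lit 0),Int.negSucc (nat_lit 0)),((nat_lit 0,nat_lit 4,nat_lit 0),Int.ofNat (nat_lit 1)),((nat_lit 0,nat_lit 5,nat_lit 0),Int.negSucc (nat_lit 0)),((nat_lit 2,nat_lit 0,nat_lit 3),Int.ofNat (nat_lit 1))]),
((nat_lit 3,nat_lit 2,nat_lit 3),[((nat_lit 0,nat_lit 0,nat_lit 0),Int.negSucc (nat_lit 0)),((nat_lit 0,nat_lit 1,nat_lit 0),Int.ofNat (nat_lit 1)),((nat_lit 0,nat_lit 3,nat_lit 0),Int.negSucc (nat_lit 0)),((nat_lit 0,nat_lit 4,nat_lit 0),Int.ofNat (nat_lit 1)),((nat_lit 0,nat_lit 5,nat_lit 0),Int.negSucc (nat_lit 0)),((nat_lit 1,nat_lit 0,nat_lit 0),Int.ofNat (nat_lit 1)),((nat_lit 2,nat_lit 0,nat_lit 3),Int.ofNat (nat_lit 1)),((nat_lit 4,nat_lit 0,nat_lit 3),Int.ofNat (nat_lit 1)),((nat_lit 6,nat_lit 0,nat_lit 4),Int.ofNat (nat_lit 1))]),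
((nat_lit 3,nat_lit 2,nat_lit 4),[((nat_lit 0,nat_lit 0,nat_lit 0),Int.negSucc (nat_lit 0)),((nat_lit 0,nat_lit 1,nat_lit 0),Int.ofNat (nat_lit 2)),((nat_lit 0,nat_lit 2,nat_lit 0),Int.negSucc (nat_lit 1)),((nat_lit 0,nat_lit 3,nat_lit 0),Int.ofNat (nat_lit 2)),((nat_lit 0,nat_lit 4,nat_lit 0),Int.negSucc (nat_lit 0)),((nat_lit 1,nat_lit 1,nat_lit 0),Int.negSucc (nat_lit 0)),((nat_lit 1,nat_lit 2,nat_lit 0),Int.ofNat (nat_lit 1)),((nat_lit 1,nat_lit 5,nat_lit 0),Int.ofNat (nat_lit 1)),((nat_lit 4,nat_lit 1,nat_lit 4),Int.negSucc (nat_lit 0)),((nat_lit 4,nat_lit 2,nat_lit 4),Int.ofNat (nat_lit 1)),((nat_lit 4,nat_lit 5,nat_lit 4),Int.ofNat (nat_lit 1)),((nat_lit 6,nat_lit 1,nat_lit 4),Int.negSucc (nat_lit 0)),((nat_lit 6,nat_lit 2,nat_lit 4),Int.ofNat (nat_lit 1)),((nat_lit 6,nat_lit 5,nat_lit 4),Int.ofNat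 (nat_lit 1))]),
((nat_lit 3,nat_lit 3,nat_lit 1),[((nat_lit 0,nat_lit 2,nat_lit 0),Int.ofNat (nat_lit 1)),((nat_lit 0,nat_lit 3,nat_lit 0),Int.negSucc (nat_lit 0)),((nat_lit 0,nat_lit 5,nat_lit 0),Int.negSucc (nat_lit 1)),((nat_lit 1,nat_lit 0,nat_lit 0),Int.ofNat (nat_lit 1)),((nat_lit 1,nat_lit 2,nat_lit 0),Int.negSucc (nat_lit 0)),((nat_lit 2,nat_lit 0,nat_lit 3),Int.ofNat (nat_lit 1)),((nat_lit 4,nat_lit 0,nat_lit 1),Int.ofNat (nat_lit 1)),((nat_lit 4,nat_lit 2,nat_lit 1),Int.negSucc (nat_lit 0)),((nat_lit 6,nat_lit 0,nat_lit 3),Int.ofNat (nat_lit 1))]),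
((nat_lit 3,nat_lit 3,nat_lit 2),[((nat_lit 0,nat_lit 0,nat_lit 0),Int.negSucc (nat_lit 0)),((nat_lit 0,nat_lit 1,nat_lit 0),Int.ofNat (nat_lit 1)),((nat_lit 0,nat_lit 3,nat_lit 0),Int.negSucc (nat_lit 0)),((nat_lit 0,nat_lit 4,nat_lit 0),Int.ofNat (nat_lit 1)),((nat_lit 0,nat_lit 5,nat_lit 0),Int.negSucc (nat_lit 0)),((nat_lit 1,nat_lit 0,nat_lit 0),Int.ofNat (nat_lit 1)),((nat_lit 2,nat_lit 0,nat_lit 3),Int.ofNat (nat_lit 1)),((nat_lit 4,nat_lit 0,nat_lit 2),Int.ofNat (nat_lit 1)),((nat_lit 6,nat_lit 0,nat_lit 3),Int.ofNat (nat_lit 1))]),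
((nat_lit 3,nat_lit 3,nat_lit 3),[((nat_lit 0,nat_lit 0,nat_lit 0),Int.negSucc (nat_lit 0)),((nat_lit 0,nat_lit 1,nat_lit 0),Int.ofNat (nat_lit 1)),((nat_lit 0,nat_lit 3,nat_lit 0),Int.negSucc (nat_lit 0)),((nat_lit 0,nat_lit 4,nat_lit 0),Int.ofNat (nat_lit 1)),((nat_lit 0,nat_lit 5,nat_lit 0),Int.negSucc (nat_lit 0)),((nat_lit 1,nat_lit 0,nat_lit 0),Int.ofNat (nat_lit 1)),((nat_lit 2,nat_lit 0,nat_lit 3),Int.ofNat (nat_lit 1)),((nat_lit 4,nat_lit 0,nat_lit 3),Int.ofNat (nat_lit 1)),((nat_lit 6,nat_lit 0,nat_lit 3),Int.ofNat (nat_lit 1))]),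
((nat_lit 3,nat_lit 3,nat_lit 4),[((nat_lit 0,nat_lit 0,nat_lit 0),Int.negSucc (nat_lit 0)),((nat_lit 0,nat_lit 1,nat_lit 0),Int.ofNat (nat_lit 2)),((nat_lit 0,nat_lit 2,nat_lit 0),Int.negSucc (nat_lit 1)),((nat_lit 0,nat_lit 3,nat_lit 0),Int.ofNat (nat_lit 2)),((nat_lit 0,nat_lit 4,nat_lit 0),Int.negSucc (nat_lit 0)),((nat_lit 1,nat_lit 1,nat_lit 0),Int.negSucc (nat_lit 0)),((nat_lit 1,nat_lit 2,nat_lit 0),Int.ofNat (nat_lit 1)),((nat_lit 1,nat_lit 5,nat_lit 0),Int.ofNat (nat_lit 1)),((nat_lit 4,nat_lit 1,nat_lit 4),Int.negSucc (nat_lit 0)),((nat_lit 4,nat_lit 2,nat_lit 4),Int.ofNat (nat_lit 1)),((nat_lit 4,nat_lit 5,nat_lit 4),Int.ofNat (nat_lit 1)),((nat_lit 6,nat_lit 1,nat_lit 3),Int.negSucc (nat_lit 0)),((nat_lit 6,nat_lit 2,nat_lit 3),Int.ofNat (nat_lit 1)),((nat_lit 6,nat_lit 5,nat_lit 3),Int.ofNat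 (nat_lit 1))]),
((nat_lit 3,nat_lit 4,nat_lit 1),[((nat_lit 0,nat_lit 2,nat_lit 0),Int.negSucc (nat_lit 0)),((nat_lit 6,nat_lit 2,nat_lit 2),Int.ofNat (nat_lit 1))]),
((nat_lit 3,nat_lit 4,nat_lit 2),[((nat_lit 0,nat_lit 0,nat_lit 0),Int.negSucc (nat_lit 0)),((nat_lit 0,nat_lit 1,nat_lit 0),Int.ofNat (nat_lit 2)),((nat_lit 0,nat_lit 2,nat_lit 0),Int.negSucc (nat_lit 1)),((nat_lit 0,nat_lit 3,nat_lit 0),Int.ofNat (nat_lit 2)),((nat_lit 0,nat_lit 4,nat_lit 0),Int.negSucc (nat_lit 0)),((nat_lit 1,nat_lit 1,nat_lit 0),Int.negSucc (nat_lit 0)),((nat_lit 1,nat_lit 2,nat_lit 0),Int.ofNat (nat_lit 1)),((nat_lit 1,nat_lit 5,nat_lit 0),Int.ofNat (nat_lit 1)),((nat_lit 4,nat_lit 1,nat_lit 2),Int.negSucc (nat_lit 0)),((nat_lit 4,nat_lit 2,nat_lit 2),Int.ofNat (nat_lit 1)),((nat_lit 4,nat_lit 5,nat_lit 2),Int.ofNat (nat_lit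 1)),((nat_lit 6,nat_lit 1,nat_lit 2),Int.negSucc (nat_lit 0)),((nat_lit 6,nat_lit 2,nat_lit 2),Int.ofNat (nat_lit 1)),((nat_lit 6,nat_lit 5,nat_lit 2),Int.ofNat (nat_lit 1))]),
((nat_lit 3,nat_lit 4,nat_lit 3),[((nat_lit 0,nat_lit 0,nat_lit 0),Int.negSucc (nat_lit 0)),((nat_lit 0,nat_lit 1,nat_lit 0),Int.ofNat (nat_lit 2)),((nat_lit 0,nat_lit 2,nat_lit 0),Int.negSucc (nat_lit 1)),((nat_lit 0,nat_lit 3,nat_lit 0),Int.ofNat (nat_lit 2)),((nat_lit 0,nat_lit 4,nat_lit 0),Int.negSucc (nat_lit 0)),((nat_lit 1,nat_lit 1,nat_lit 0),Int.negSucc (nat_lit 0)),((nat_lit 1,nat_lit 2,nat_lit 0),Int.ofNat (nat_lit 1)),((nat_lit 1,nat_lit 5,nat_lit 0),Int.ofNat (nat_lit 1)),((nat_lit 4,nat_lit 1,nat_lit 3),Int.negSucc (nat_lit 0)),((nat_lit 4,nat_lit 2,nat_lit 3),Int.ofNat (nat_lit 1)),((nat_lit 4,nat_lit 5,nat_lit 3),Int.ofNat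 (nat_lit 1)),((nat_lit 6,nat_lit 1,nat_lit 2),Int.negSucc (nat_lit 0)),((nat_lit 6,nat_lit 2,nat_lit 2),Int.ofNat (nat_lit 1)),((nat_lit 6,nat_lit 5,nat_lit 2),Int.ofNat (nat_lit 1))]),
((nat_lit 3,nat_lit 4,nat_lit 4),[((nat_lit 0,nat_lit 0,nat_lit 0),Int.negSucc (nat_lit 0)),((nat_lit 0,nat_lit 1,nat_lit 0),Int.ofNat (nat_lit 2)),((nat_lit 0,nat_lit 2,nat_lit 0),Int.negSucc (nat_lit 1)),((nat_lit 0,nat_lit 3,nat_lit 0),Int.ofNat (nat_lit 2)),((nat_lit 0,nat_lit 4,nat_lit 0),Int.negSucc (nat_lit 0)),((nat_lit 1,nat_lit 1,nat_lit 0),Int.negSucc (nat_lit 0)),((nat_lit 1,nat_lit 2,nat_lit 0),Int.ofNat (nat_lit 1)),((nat_lit 1,nat_lit 5,nat_lit 0),Int.ofNat (nat_lit 1)),((nat_lit 4,nat_lit 1,nat_lit 4),Int.negSucc (nat_lit 0)),((nat_lit 4,nat_lit 2,nat_lit 4),Int.ofNat (nat_lit 1)),((nat_lit 4,nat_lit 5,nat_lit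 4),Int.ofNat (nat_lit 1)),((nat_lit 6,nat_lit 1,nat_lit 2),Int.negSucc (nat_lit 0)),((nat_lit 6,nat_lit 2,nat_lit 2),Int.ofNat (nat_lit 1)),((nat_lit 6,nat_lit 5,nat_lit 2),Int.ofNat (nat_lit 1))]),
((nat_lit 4,nat_lit 1,nat_lit 1),[((nat_lit 0,nat_lit 0,nat_lit 0),Int.ofNat (nat_lit 1)),((nat_lit 0,nat_lit 1,nat_lit 0),Int.ofNat (nat_lit 1)),((nat_lit 0,nat_lit 2,nat_lit 0),Int.negSucc (nat_lit 1)),((nat_lit 0,nat_lit 3,nat_lit 0),Int.ofNat (nat_lit 3)),((nat_lit 0,nat_lit 5,nat_lit 0),Int.negSucc (nat_lit 1)),((nat_lit 1,nat_lit 3,nat_lit 0),Int.negSucc (nat_lit 0))]),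
((nat_lit 4,nat_lit 1,nat_lit 2),[((nat_lit 0,nat_lit 0,nat_lit 0),Int.ofNat (nat_lit 1)),((nat_lit 0,nat_lit 1,nat_lit 0),Int.ofNat (nat_lit 1)),((nat_lit 0,nat_lit 2,nat_lit 0),Int.negSucc (nat_lit 1)),((nat_lit 0,nat_lit 3,nat_lit 0),Int.ofNat (nat_lit 3)),((nat_lit 0,nat_lit 5,nat_lit 0),Int.negSucc (nat_lit 1)),((nat_lit 1,nat_lit 3,nat_lit 0),Int.negSucc (nat_lit 0)),((nat_lit 6,nat_lit 3,nat_lit 5),Int.negSucc (nat_lit 0))]),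
((nat_lit 4,nat_lit 1,nat_lit 3),[((nat_lit 0,nat_lit 3,nat_lit 0),Int.negSucc (nat_lit 0)),((nat_lit 4,nat_lit 3,nat_lit 3),Int.ofNat (nat_lit 1))]),
((nat_lit 4,nat_lit 1,nat_lit 4),[((nat_lit 0,nat_lit 3,nat_lit 0),Int.negSucc (nat_lit 0)),((nat_lit 4,nat_lit 3,nat_lit 4),Int.ofNat (nat_lit 1))]),
((nat_lit 4,nat_lit 2,nat_lit 1),[((nat_lit 0,nat_lit 0,nat_lit 0),Int.ofNat (nat_lit 1)),((nat_lit 0,nat_lit 1,nat_lit 0),Int.ofNat (nat_lit 1)),((nat_lit 0,nat_lit 2,nat_lit 0),Int.negSucc (nat_lit 1)),((nat_lit 0,nat_lit 3,nat_lit 0),Int.ofNat (nat_lit 3)),((nat_lit 0,nat_lit 5,nat_lit 0),Int.negSucc (nat_lit 1)),((nat_lit 1,nat_lit 3,nat_lit 0),Int.negSucc (nat_lit 0)),((nat_lit 4,nat_lit 3,nat_lit 1),Int.negSucc (nat_lit 0))]),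
((nat_lit 4,nat_lit 2,nat_lit 2),[((nat_lit 0,nat_lit 0,nat_lit 0),Int.negSucc (nat_lit 0)),((nat_lit 0,nat_lit 2,nat_lit 0),Int.ofNat (nat_lit 1)),((nat_lit 0,nat_lit 3,nat_lit 0),Int.negSucc (nat_lit 0)),((nat_lit 0,nat_lit 4,nat_lit 0),Int.ofNat (nat_lit 1)),((nat_lit 0,nat_lit 5,nat_lit 0),Int.negSucc (nat_lit 0)),((nat_lit 5,nat_lit 0,nat_lit 2),Int.ofNat (nat_lit 1))]),
((nat_lit 4,nat_lit 2,nat_lit 3),[((nat_lit 0,nat_lit 0,nat_lit 0),Int.negSucc (nat_lit 1)),((nat_lit 0,nat_lit 1,nat_lit 0),Int.negSucc (nat_lit 0)),((nat_lit 0,nat_lit 2,nat_lit 0),Int.ofNat (nat_lit 3)),((nat_lit 0,nat_lit 3,nat_lit 0),Int.negSucc (nat_lit 4)),((nat_lit 0,nat_lit 4,nat_lit 0),Int.ofNat (nat_lit 1)),((nat_lit 0,nat_lit 5,nat_lit 0),Int.ofNat (nat_lit 1)),((nat_lit 1,nat_lit 3,nat_lit 0),Int.ofNat (nat_lit 1)),((nat_lit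 4,nat_lit 3,nat_lit 3),Int.ofNat (nat_lit 1)),((nat_lit 5,nat_lit 0,nat_lit 2),Int.ofNat (nat_lit 1)),((nat_lit 6,nat_lit 3,nat_lit 4),Int.ofNat (nat_lit 1))]),
((nat_lit 4,nat_lit 2,nat_lit 4),[((nat_lit 0,nat_lit 0,nat_lit 0),Int.negSucc (nat_lit 1)),((nat_lit 0,nat_lit 2,nat_lit 0),Int.ofNat (nat_lit 3)),((nat_lit 0,nat_lit 3,nat_lit 0),Int.negSucc (nat_lit 2)),((nat_lit 0,nat_lit 4,nat_lit 0),Int.negSucc (nat_lit 0)),((nat_lit 1,nat_lit 1,nat_lit 0),Int.negSucc (nat_lit 0)),((nat_lit 1,nat_lit 3,nat_lit 0),Int.ofNat (nat_lit 1)),((nat_lit 1,nat_lit 5,nat_lit 0),Int.ofNat (nat_lit 1)),((nat_lit 4,nat_lit 1,nat_lit 4),Int.negSucc (nat_lit 0)),((nat_lit 4,nat_lit 3,nat_lit 4),Int.ofNat (nat_lit 1)),((nat_lit 4,nat_lit 5,nat_lit 4),Int.ofNat (nat_lit 1)),((nat_lit 5,nat_lit 0,nat_lit 2),Int.ofNat (nat_lit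 1)),((nat_lit 6,nat_lit 1,nat_lit 4),Int.negSucc (nat_lit 0)),((nat_lit 6,nat_lit 3,nat_lit 4),Int.ofNat (nat_lit 1)),((nat_lit 6,nat_lit 5,nat_lit 4),Int.ofNat (nat_lit 1))]),
((nat_lit 4,nat_lit 3,nat_lit 1),[((nat_lit 0,nat_lit 3,nat_lit 0),Int.negSucc (nat_lit 0)),((nat_lit 6,nat_lit 3,nat_lit 3),Int.ofNat (nat_lit 1))]),
((nat_lit 4,nat_lit 3,nat_lit 2),[((nat_lit 0,nat_lit 0,nat_lit 0),Int.negSucc (nat_lit 1)),((nat_lit 0,nat_lit 1,nat_lit 0),Int.negSucc (nat_lit 0)),((nat_lit 0,nat_lit 2,nat_lit 0),Int.ofNat (nat_lit 3)),((nat_lit 0,nat_lit 3,nat_lit 0),Int.negSucc (nat_lit 4)),((nat_lit 0,nat_lit 4,nat_lit 0),Int.ofNat (nat_lit 1)),((nat_lit 0,nat_lit 5,nat_lit 0),Int.ofNat (nat_lit 1)),((nat_lit 1,nat_lit 3,nat_lit 0),Int.ofNat (nat_lit 1)),((nat_lit 4,nat_lit 3,nat_lit 2),Int.ofNat (nat_lit 1)),((nat_lit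 5,nat_lit 0,nat_lit 2),Int.ofNat (nat_lit 1)),((nat_lit 6,nat_lit 3,nat_lit 3),Int.ofNat (nat_lit 1))]),
((nat_lit 4,nat_lit 3,nat_lit 3),[((nat_lit 0,nat_lit 0,nat_lit 0),Int.negSucc (nat_lit 1)),((nat_lit 0,nat_lit 1,nat_lit 0),Int.negSucc (nat_lit 0)),((nat_lit 0,nat_lit 2,nat_lit 0),Int.ofNat (nat_lit 3)),((nat_lit 0,nat_lit 3,nat_lit 0),Int.negSucc (nat_lit 4)),((nat_lit 0,nat_lit 4,nat_lit 0),Int.ofNat (nat_lit 1)),((nat_lit 0,nat_lit 5,nat_lit 0),Int.ofNat (nat_lit 1)),((nat_lit 1,nat_lit 3,nat_lit 0),Int.ofNat (nat_lit 1)),((nat_lit 4,nat_lit 3,nat_lit 3),Int.ofNat (nat_lit 1)),((nat_lit 5,nat_lit 0,nat_lit 2),Int.ofNat (nat_lit 1)),((nat_lit 6,nat_lit 3,nat_lit 3),Int.ofNat (nat_lit 1))]),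
((nat_lit 4,nat_lit 3,nat_lit 4),[((nat_lit 0,nat_lit 0,nat_lit 0),Int.negSucc (nat_lit 1)),((nat_lit 0,nat_lit 2,nat_lit 0),Int.ofNat (nat_lit 3)),((nat_lit 0,nat_lit 3,nat_lit 0),Int.negSucc (nat_lit 2)),((nat_lit 0,nat_lit 4,nat_lit 0),Int.negSucc (nat_lit 0)),((nat_lit 1,nat_lit 1,nat_lit 0),Int.negSucc (nat_lit 0)),((nat_lit 1,nat_lit 3,nat_lit 0),Int.ofNat (nat_lit 1)),((nat_lit 1,nat_lit 5,nat_lit 0),Int.ofNat (nat_lit 1)),((nat_lit 4,nat_lit 1,nat_lit 4),Int.negSucc (nat_lit 0)),((nat_lit 4,nat_lit 3,nat_lit 4),Int.ofNat (nat_lit 1)),((nat_lit 4,nat_lit 5,nat_lit 4),Int.ofNat (nat_lit 1)),((nat_lit 5,nat_lit 0,nat_lit 2),Int.ofNat (nat_lit 1)),((nat_lit 6,nat_lit 1,nat_lit 3),Int.negSucc (nat_lit 0)),((nat_lit 6,nat_lit 3,nat_lit 3),Int.ofNat (nat_lit 1)),((nat_lit 6,nat_lit 5,nat_lit 3),Int.ofNat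 (nat_lit 1))]),
((nat_lit 4,nat_lit 4,nat_lit 1),[((nat_lit 0,nat_lit 3,nat_lit 0),Int.negSucc (nat_lit 0)),((nat_lit 6,nat_lit 3,nat_lit 2),Int.ofNat (nat_lit 1))]),
((nat_lit 4,nat_lit 4,nat_lit 2),[((nat_lit 0,nat_lit 0,nat_lit 0),Int.negSucc (nat_lit 1)),((nat_lit 0,nat_lit 2,nat_lit 0),Int.ofNat (nat_lit 3)),((nat_lit 0,nat_lit 3,nat_lit 0),Int.negSucc (nat_lit 2)),((nat_lit 0,nat_lit 4,nat_lit 0),Int.negSucc (nat_lit 0)),((nat_lit 1,nat_lit 1,nat_lit 0),Int.negSucc (nat_lit 0)),((nat_lit 1,nat_lit 3,nat_lit 0),Int.ofNat (nat_lit 1)),((nat_lit 1,nat_lit 5,nat_lit 0),Int.ofNat (nat_lit 1)),((nat_lit 4,nat_lit 1,nat_lit 2),Int.negSucc (nat_lit 0)),((nat_lit 4,nat_lit 3,nat_lit 2),Int.ofNat (nat_lit 1)),((nat_lit 4,nat_lit 5,nat_lit 2),Int.ofNat (nat_lit 1)),((nat_lit 5,nat_lit 0,nat_lit 2),Int.ofNat (nat_lit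 1)),((nat_lit 6,nat_lit 1,nat_lit 2),Int.negSucc (nat_lit 0)),((nat_lit 6,nat_lit 3,nat_lit 2),Int.ofNat (nat_lit 1)),((nat_lit 6,nat_lit 5,nat_lit 2),Int.ofNat (nat_lit 1))]),
((nat_lit 4,nat_lit 4,nat_lit 3),[((nat_lit 0,nat_lit 0,nat_lit 0),Int.negSucc (nat_lit 1)),((nat_lit 0,nat_lit 2,nat_lit 0),Int.ofNat (nat_lit 3)),((nat_lit 0,nat_lit 3,nat_lit 0),Int.negSucc (nat_lit 2)),((nat_lit 0,nat_lit 4,nat_lit 0),Int.negSucc (nat_lit 0)),((nat_lit 1,nat_lit 1,nat_lit 0),Int.negSucc (nat_lit 0)),((nat_lit 1,nat_lit 3,nat_lit 0),Int.ofNat (nat_lit 1)),((nat_lit 1,nat_lit 5,nat_lit 0),Int.ofNat (nat_lit 1)),((nat_lit 4,nat_lit 1,nat_lit 3),Int.negSucc (nat_lit 0)),((nat_lit 4,nat_lit 3,nat_lit 3),Int.ofNat (nat_lit 1)),((nat_lit 4,nat_lit 5,nat_lit 3),Int.ofNat (nat_lit 1)),((nat_lit 5,nat_lit 0,nat_lit 2),Int.ofNat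 (nat_lit 1)),((nat_lit 6,nat_lit 1,nat_lit 2),Int.negSucc (nat_lit 0)),((nat_lit 6,nat_lit 3,nat_lit 2),Int.ofNat (nat_lit 1)),((nat_lit 6,nat_lit 5,nat_lit 2),Int.ofNat (nat_lit 1))]),
((nat_lit 4,nat_lit 4,nat_lit 4),[((nat_lit 0,nat_lit 0,nat_lit 0),Int.negSucc (nat_lit 1)),((nat_lit 0,nat_lit 2,nat_lit 0),Int.ofNat (nat_lit 3)),((nat_lit 0,nat_lit 3,nat_lit 0),Int.negSucc (nat_lit 2)),((nat_lit 0,nat_lit 4,nat_lit 0),Int.negSucc (nat_lit 0)),((nat_lit 1,nat_lit 1,nat_lit 0),Int.negSucc (nat_lit 0)),((nat_lit 1,nat_lit 3,nat_lit 0),Int.ofNat (nat_lit 1)),((nat_lit 1,nat_lit 5,nat_lit 0),Int.ofNat (nat_lit 1)),((nat_lit 4,nat_lit 1,nat_lit 4),Int.negSucc (nat_lit 0)),((nat_lit 4,nat_lit 3,nat_lit 4),Int.ofNat (nat_lit 1)),((nat_lit 4,nat_lit 5,nat_lit 4),Int.ofNat (nat_lit 1)),((nat_lit 5,nat_lit 0,nat_lit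 2),Int.ofNat (nat_lit 1)),((nat_lit 6,nat_lit 1,nat_lit 2),Int.negSucc (nat_lit 0)),((nat_lit 6,nat_lit 3,nat_lit 2),Int.ofNat (nat_lit 1)),((nat_lit 6,nat_lit 5,nat_lit 2),Int.ofNat (nat_lit 1))])]

noncomputable def dtab2 : Tab := [
((nat_lit 5,nat_lit 2,nat_lit 2),[((nat_lit 0,nat_lit 0,nat_lit 0),Int.negSucc (nat_lit 0)),((nat_lit 0,nat_lit 2,nat_lit 0),Int.ofNat (nat_lit 1)),((nat_lit 0,nat_lit 3,nat_lit 0),Int.negSucc (nat_lit 0)),((nat_lit 0,nat_lit 4,nat_lit 0),Int.ofNat (nat_lit 1)),((nat_lit 0,nat_lit 5,nat_lit 0),Int.negSucc (nat_lit 0)),((nat_lit 5,nat_lit 0,nat_lit 1),Int.ofNat (nat_lit 1))]),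
((nat_lit 6,nat_lit 2,nat_lit 2),[((nat_lit 0,nat_lit 0,nat_lit 0),Int.negSucc (nat_lit 0)),((nat_lit 0,nat_lit 2,nat_lit 0),Int.ofNat (nat_lit 1)),((nat_lit 0,nat_lit 3,nat_lit 0),Int.negSucc (nat_lit 0)),((nat_lit 0,nat_lit 4,nat_lit 0),Int.ofNat (nat_lit 1)),((nat_lit 0,nat_lit 5,nat_lit 0),Int.negSucc (nat_lit 0)),((nat_lit 5,nat_lit 0,nat_lit 1),Int.ofNat (nat_lit 1)),((nat_lit 7,nat_lit 0,nat_lit 1),Int.ofNat (nat_lit 1))]),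
((nat_lit 7,nat_lit 2,nat_lit 2),[((nat_lit 0,nat_lit 0,nat_lit 0),Int.negSucc (nat_lit 0)),((nat_lit 0,nat_lit 2,nat_lit 0),Int.ofNat (nat_lit 1)),((nat_lit 0,nat_lit 3,nat_lit 0),Int.negSucc (nat_lit 0)),((nat_lit 0,nat_lit 4,nat_lit 0),Int.ofNat (nat_lit 1)),((nat_lit 0,nat_lit 5,nat_lit 0),Int.negSucc (nat_lit 0)),((nat_lit 5,nat_lit 0,nat_lit 2),Int.ofNat (nat_lit 1)),((nat_lit 7,nat_lit 0,nat_lit 2),Int.ofNat (nat_lit 1))]),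
((nat_lit 8,nat_lit 2,nat_lit 2),[((nat_lit 0,nat_lit 0,nat_lit 0),Int.negSucc (nat_lit 0)),((nat_lit 0,nat_lit 2,nat_lit 0),Int.ofNat (nat_lit 1)),((nat_lit 0,nat_lit 3,nat_lit 0),Int.negSucc (nat_lit 0)),((nat_lit 0,nat_lit 4,nat_lit 0),Int.ofNat (nat_lit 1)),((nat_lit 0,nat_lit 5,nat_lit 0),Int.negSucc (nat_lit 0)),((nat_lit 2,nat_lit 0,nat_lit 4),Int.ofNat (nat_lit 1))]),
((nat_lit 9,nat_lit 2,nat_lit 2),[((nat_lit 0,nat_lit 0,nat_lit 0),Int.negSucc (nat_lit 0)),((nat_lit 0,nat_lit 2,nat_lit 0),Int.ofNat (nat_lit 1)),((nat_lit 0,nat_lit 3,nat_lit 0),Int.negSucc (nat_lit 0)),((nat_lit 0,nat_lit 4,nat_lit 0),Int.ofNat (nat_lit 1)),((nat_lit 0,nat_lit 5,nat_lit 0),Int.negSucc (nat_lit 0)),((nat_lit 2,nat_lit 0,nat_lit 5),Int.ofNat (nat_lit 1))]),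
((nat_lit 10,nat_lit 2,nat_lit 2),[((nat_lit 0,nat_lit 0,nat_lit 0),Int.negSucc (nat_lit 0)),((nat_lit 0,nat_lit 2,nat_lit 0),Int.ofNat (nat_lit 1)),((nat_lit 0,nat_lit 3,nat_lit 0),Int.negSucc (nat_lit 0)),((nat_lit 0,nat_lit 4,nat_lit 0),Int.ofNat (nat_lit 1)),((nat_lit 0,nat_lit 5,nat_lit 0),Int.negSucc (nat_lit 0)),((nat_lit 2,nat_lit 0,nat_lit 6),Int.ofNat (nat_lit 1))]),
((nat_lit 11,nat_lit 2,nat_lit 2),[((nat_lit 0,nat_lit 0,nat_lit 0),Int.negSucc (nat_lit 0)),((nat_lit 0,nat_lit 2,nat_lit 0),Int.ofNat (nat_lit 1)),((nat_lit 0,nat_lit 3,nat_lit 0),Int.negSucc (nat_lit 0)),((nat_lit 0,nat_lit 4,nat_lit 0),Int.ofNat (nat_lit 1)),((nat_lit 0,nat_lit 5,nat_lit 0),Int.negSucc (nat_lit 0)),((nat_lit 2,nat_lit 0,nat_lit 7),Int.ofNat (nat_lit 1))]),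
((nat_lit 12,nat_lit 2,nat_lit 2),[((nat_lit 0,nat_lit 0,nat_lit 0),Int.negSucc (nat_lit 0)),((nat_lit 0,nat_lit 2,nat_lit 0),Int.ofNat (nat_lit 1)),((nat_lit 0,nat_lit 3,nat_lit 0),Int.negSucc (nat_lit 0)),((nat_lit 0,nat_lit 4,nat_lit 0),Int.ofNat (nat_lit 1)),((nat_lit 0,nat_lit 5,nat_lit 0),Int.negSucc (nat_lit 0)),((nat_lit 2,nat_lit 0,nat_lit 8),Int.ofNat (nat_lit 1))]),
((nat_lit 13,nat_lit 2,nat_lit 2),[((nat_lit 0,nat_lit 0,nat_lit 0),Int.negSucc (nat_lit 0)),((nat_lit 0,nat_lit 2,nat_lit 0),Int.ofNat (nat_lit 1)),((nat_lit 0,nat_lit 3,nat_lit 0),Int.negSucc (nat_lit 0)),((nat_lit 0,nat_lit 4,nat_lit 0),Int.ofNat (nat_lit 1)),((nat_lit 0,nat_lit 5,nat_lit 0),Int.negSucc (nat_lit 0)),((nat_lit 2,nat_lit 0,nat_lit 9),Int.ofNat (nat_lit 1))]),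
((nat_lit 14,nat_lit 2,nat_lit 2),[((nat_lit 0,nat_lit 0,nat_lit 0),Int.negSucc (nat_lit 0)),((nat_lit 0,nat_lit 2,nat_lit 0),Int.ofNat (nat_lit 1)),((nat_lit 0,nat_lit 3,nat_lit 0),Int.negSucc (nat_lit 0)),((nat_lit 0,nat_lit 4,nat_lit 0),Int.ofNat (nat_lit 1)),((nat_lit 0,nat_lit 5,nat_lit 0),Int.negSucc (nat_lit 0)),((nat_lit 2,nat_lit 0,nat_lit 10),Int.ofNat (nat_lit 1))]),
((nat_lit 15,nat_lit 2,nat_lit 2),[((nat_lit 0,nat_lit 0,nat_lit 0),Int.negSucc (nat_lit 0)),((nat_lit 0,nat_lit 2,nat_lit 0),Int.ofNat (nat_lit 1)),((nat_lit 0,nat_lit 3,nat_lit 0),Int.negSucc (nat_lit 0)),((nat_lit 0,nat_lit 4,nat_lit 0),Int.ofNat (nat_lit 1)),((nat_lit 0,nat_lit 5,nat_lit 0),Int.negSucc (nat_lit 0)),((nat_lit 2,nat_lit 0,nat_lit 11),Int.ofNat (nat_lit 1))]),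
((nat_lit 1,nat_lit 5,nat_lit 1),[((nat_lit 0,nat_lit 0,nat_lit 0),Int.negSucc (nat_lit 0)),((nat_lit 6,nat_lit 0,nat_lit 1),Int.ofNat (nat_lit 1))]),
((nat_lit 2,nat_lit 5,nat_lit 1),[((nat_lit 0,nat_lit 1,nat_lit 0),Int.negSucc (nat_lit 0)),((nat_lit 6,nat_lit 1,nat_lit 1),Int.ofNat (nat_lit 1))]),
((nat_lit 3,nat_lit 5,nat_lit 1),[((nat_lit 0,nat_lit 2,nat_lit 0),Int.negSucc (nat_lit 0)),((nat_lit 6,nat_lit 2,nat_lit 1),Int.ofNat (nat_lit 1))]),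
((nat_lit 4,nat_lit 5,nat_lit 1),[((nat_lit 0,nat_lit 3,nat_lit 0),Int.negSucc (nat_lit 0)),((nat_lit 6,nat_lit 3,nat_lit 1),Int.ofNat (nat_lit 1))]),
((nat_lit 1,nat_lit 5,nat_lit 2),[((nat_lit 0,nat_lit 4,nat_lit 0),Int.negSucc (nat_lit 0)),((nat_lit 6,nat_lit 4,nat_lit 1),Int.ofNat (nat_lit 1))]),
((nat_lit 2,nat_lit 5,nat_lit 2),[((nat_lit 0,nat_lit 5,nat_lit 0),Int.negSucc (nat_lit 0)),((nat_lit 6,nat_lit 5,nat_lit 1),Int.ofNat (nat_lit 1))]),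
((nat_lit 1,nat_lit 6,nat_lit 1),[((nat_lit 0,nat_lit 0,nat_lit 0),Int.negSucc (nat_lit 0)),((nat_lit 6,nat_lit 0,nat_lit 1),Int.ofNat (nat_lit 1)),((nat_lit 8,nat_lit 0,nat_lit 1),Int.ofNat (nat_lit 1))]),
((nat_lit 2,nat_lit 6,nat_lit 1),[((nat_lit 0,nat_lit 1,nat_lit 0),Int.negSucc (nat_lit 0)),((nat_lit 6,nat_lit 1,nat_lit 1),Int.ofNat (nat_lit 1)),((nat_lit 8,nat_lit 1,nat_lit 1),Int.ofNat (nat_lit 1))]),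
((nat_lit 3,nat_lit 6,nat_lit 1),[((nat_lit 0,nat_lit 2,nat_lit 0),Int.negSucc (nat_lit 0)),((nat_lit 6,nat_lit 2,nat_lit 1),Int.ofNat (nat_lit 1)),((nat_lit 8,nat_lit 2,nat_lit 1),Int.ofNat (nat_lit 1))]),
((nat_lit 4,nat_lit 6,nat_lit 1),[((nat_lit 0,nat_lit 3,nat_lit 0),Int.negSucc (nat_lit 0)),((nat_lit 6,nat_lit 3,nat_lit 1),Int.ofNat (nat_lit 1)),((nat_lit 8,nat_lit 3,nat_lit 1),Int.ofNat (nat_lit 1))]),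
((nat_lit 1,nat_lit 6,nat_lit 2),[((nat_lit 0,nat_lit 4,nat_lit 0),Int.negSucc (nat_lit 0)),((nat_lit 6,nat_lit 4,nat_lit 1),Int.ofNat (nat_lit 1)),((nat_lit 8,nat_lit 4,nat_lit 1),Int.ofNat (nat_lit 1))]),
((nat_lit 2,nat_lit 6,nat_lit 2),[((nat_lit 0,nat_lit 5,nat_lit 0),Int.negSucc (nat_lit 0)),((nat_lit 6,nat_lit 5,nat_lit 1),Int.ofNat (nat_lit 1)),((nat_lit 8,nat_lit 5,nat_lit 1),Int.ofNat (nat_lit 1))]),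
((nat_lit 1,nat_lit 7,nat_lit 1),[((nat_lit 0,nat_lit 0,nat_lit 0),Int.negSucc (nat_lit 0)),((nat_lit 6,nat_lit 0,nat_lit 2),Int.ofNat (nat_lit 1)),((nat_lit 8,nat_lit 0,nat_lit 2),Int.ofNat (nat_lit 1))]),
((nat_lit 2,nat_lit 7,nat_lit 1),[((nat_lit 0,nat_lit 1,nat_lit 0),Int.negSucc (nat_lit 0)),((nat_lit 6,nat_lit 1,nat_lit 2),Int.ofNat (nat_lit 1)),((nat_lit 8,nat_lit 1,nat_lit 2),Int.ofNat (nat_lit 1))]),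
((nat_lit 3,nat_lit 7,nat_lit 1),[((nat_lit 0,nat_lit 2,nat_lit 0),Int.negSucc (nat_lit 0)),((nat_lit 6,nat_lit 2,nat_lit 2),Int.ofNat (nat_lit 1)),((nat_lit 8,nat_lit 2,nat_lit 2),Int.ofNat (nat_lit 1))]),
((nat_lit 4,nat_lit 7,nat_lit 1),[((nat_lit 0,nat_lit 3,nat_lit 0),Int.negSucc (nat_lit 0)),((nat_lit 6,nat_lit 3,nat_lit 2),Int.ofNat (nat_lit 1)),((nat_lit 8,nat_lit 3,nat_lit 2),Int.ofNat (nat_lit 1))]),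
((nat_lit 1,nat_lit 7,nat_lit 2),[((nat_lit 0,nat_lit 4,nat_lit 0),Int.negSucc (nat_lit 0)),((nat_lit 6,nat_lit 4,nat_lit 2),Int.ofNat (nat_lit 1)),((nat_lit 8,nat_lit 4,nat_lit 2),Int.ofNat (nat_lit 1))]),
((nat_lit 2,nat_lit 7,nat_lit 2),[((nat_lit 0,nat_lit 5,nat_lit 0),Int.negSucc (nat_lit 0)),((nat_lit 6,nat_lit 5,nat_lit 2),Int.ofNat (nat_lit 1)),((nat_lit 8,nat_lit 5,nat_lit 2),Int.ofNat (nat_lit 1))]),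
((nat_lit 1,nat_lit 8,nat_lit 1),[((nat_lit 0,nat_lit 0,nat_lit 0),Int.negSucc (nat_lit 0)),((nat_lit 6,nat_lit 0,nat_lit 3),Int.ofNat (nat_lit 1)),((nat_lit 8,nat_lit 0,nat_lit 3),Int.ofNat (nat_lit 1))]),
((nat_lit 2,nat_lit 8,nat_lit 1),[((nat_lit 0,nat_lit 1,nat_lit 0),Int.negSucc (nat_lit 0)),((nat_lit 6,nat_lit 1,nat_lit 3),Int.ofNat (nat_lit 1)),((nat_lit 8,nat_lit 1,nat_lit 3),Int.ofNat (nat_lit 1))]),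
((nat_lit 3,nat_lit 8,nat_lit 1),[((nat_lit 0,nat_lit 2,nat_lit 0),Int.negSucc (nat_lit 0)),((nat_lit 6,nat_lit 2,nat_lit 3),Int.ofNat (nat_lit 1)),((nat_lit 8,nat_lit 2,nat_lit 3),Int.ofNat (nat_lit 1))])]

noncomputable def dtab3 : Tab := [
((nat_lit 4,nat_lit 8,nat_lit 1),[((nat_lit 0,nat_lit 3,nat_lit 0),Int.negSucc (nat_lit 0)),((nat_lit 6,nat_lit 3,nat_lit 3),Int.ofNat (nat_lit 1)),((nat_lit 8,nat_lit 3,nat_lit 3),Int.ofNat (nat_lit 1))]),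
((nat_lit 1,nat_lit 8,nat_lit 2),[((nat_lit 0,nat_lit 4,nat_lit 0),Int.negSucc (nat_lit 0)),((nat_lit 6,nat_lit 4,nat_lit 3),Int.ofNat (nat_lit 1)),((nat_lit 8,nat_lit 4,nat_lit 3),Int.ofNat (nat_lit 1))]),
((nat_lit 2,nat_lit 8,nat_lit 2),[((nat_lit 0,nat_lit 5,nat_lit 0),Int.negSucc (nat_lit 0)),((nat_lit 6,nat_lit 5,nat_lit 3),Int.ofNat (nat_lit 1)),((nat_lit 8,nat_lit 5,nat_lit 3),Int.ofNat (nat_lit 1))]),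
((nat_lit 1,nat_lit 9,nat_lit 1),[((nat_lit 0,nat_lit 0,nat_lit 0),Int.negSucc (nat_lit 0)),((nat_lit 6,nat_lit 0,nat_lit 4),Int.ofNat (nat_lit 1)),((nat_lit 8,nat_lit 0,nat_lit 4),Int.ofNat (nat_lit 1))]),
((nat_lit 2,nat_lit 9,nat_lit 1),[((nat_lit 0,nat_lit 1,nat_lit 0),Int.negSucc (nat_lit 0)),((nat_lit 6,nat_lit 1,nat_lit 4),Int.ofNat (nat_lit 1)),((nat_lit 8,nat_lit 1,nat_lit 4),Int.ofNat (nat_lit 1))]),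
((nat_lit 3,nat_lit 9,nat_lit 1),[((nat_lit 0,nat_lit 2,nat_lit 0),Int.negSucc (nat_lit 0)),((nat_lit 6,nat_lit 2,nat_lit 4),Int.ofNat (nat_lit 1)),((nat_lit 8,nat_lit 2,nat_lit 4),Int.ofNat (nat_lit 1))]),
((nat_lit 4,nat_lit 9,nat_lit 1),[((nat_lit 0,nat_lit 3,nat_lit 0),Int.negSucc (nat_lit 0)),((nat_lit 6,nat_lit 3,nat_lit 4),Int.ofNat (nat_lit 1)),((nat_lit 8,nat_lit 3,nat_lit 4),Int.ofNat (nat_lit 1))]),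
((nat_lit 1,nat_lit 9,nat_lit 2),[((nat_lit 0,nat_lit 4,nat_lit 0),Int.negSucc (nat_lit 0)),((nat_lit 6,nat_lit 4,nat_lit 4),Int.ofNat (nat_lit 1)),((nat_lit 8,nat_lit 4,nat_lit 4),Int.ofNat (nat_lit 1))]),
((nat_lit 2,nat_lit 9,nat_lit 2),[((nat_lit 0,nat_lit 5,nat_lit 0),Int.negSucc (nat_lit 0)),((nat_lit 6,nat_lit 5,nat_lit 4),Int.ofNat (nat_lit 1)),((nat_lit 8,nat_lit 5,nat_lit 4),Int.ofNat (nat_lit 1))]),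
((nat_lit 1,nat_lit 10,nat_lit 1),[((nat_lit 0,nat_lit 0,nat_lit 0),Int.negSucc (nat_lit 0)),((nat_lit 6,nat_lit 0,nat_lit 5),Int.ofNat (nat_lit 1)),((nat_lit 8,nat_lit 0,nat_lit 5),Int.ofNat (nat_lit 1))]),
((nat_lit 2,nat_lit 10,nat_lit 1),[((nat_lit 0,nat_lit 1,nat_lit 0),Int.negSucc (nat_lit 0)),((nat_lit 6,nat_lit 1,nat_lit 5),Int.ofNat (nat_lit 1)),((nat_lit 8,nat_lit 1,nat_lit 5),Int.ofNat (nat_lit 1))]),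
((nat_lit 3,nat_lit 10,nat_lit 1),[((nat_lit 0,nat_lit 2,nat_lit 0),Int.negSucc (nat_lit 0)),((nat_lit 6,nat_lit 2,nat_lit 5),Int.ofNat (nat_lit 1)),((nat_lit 8,nat_lit 2,nat_lit 5),Int.ofNat (nat_lit 1))]),
((nat_lit 4,nat_lit 10,nat_lit 1),[((nat_lit 0,nat_lit 3,nat_lit 0),Int.negSucc (nat_lit 0)),((nat_lit 6,nat_lit 3,nat_lit 5),Int.ofNat (nat_lit 1)),((nat_lit 8,nat_lit 3,nat_lit 5),Int.ofNat (nat_lit 1))]),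
((nat_lit 1,nat_lit 10,nat_lit 2),[((nat_lit 0,nat_lit 4,nat_lit 0),Int.negSucc (nat_lit 0)),((nat_lit 6,nat_lit 4,nat_lit 5),Int.ofNat (nat_lit 1)),((nat_lit 8,nat_lit 4,nat_lit 5),Int.ofNat (nat_lit 1))]),
((nat_lit 2,nat_lit 10,nat_lit 2),[((nat_lit 0,nat_lit 5,nat_lit 0),Int.negSucc (nat_lit 0)),((nat_lit 6,nat_lit 5,nat_lit 5),Int.ofNat (nat_lit 1)),((nat_lit 8,nat_lit 5,nat_lit 5),Int.ofNat (nat_lit 1))]),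
((nat_lit 1,nat_lit 11,nat_lit 1),[((nat_lit 0,nat_lit 0,nat_lit 0),Int.negSucc (nat_lit 0)),((nat_lit 3,nat_lit 0,nat_lit 1),Int.ofNat (nat_lit 1))]),
((nat_lit 2,nat_lit 11,nat_lit 1),[((nat_lit 0,nat_lit 1,nat_lit 0),Int.negSucc (nat_lit 0)),((nat_lit 3,nat_lit 1,nat_lit 1),Int.ofNat (nat_lit 1))]),
((nat_lit 3,nat_lit 11,nat_lit 1),[((nat_lit 0,nat_lit 2,nat_lit 0),Int.negSucc (nat_lit 0)),((nat_lit 3,nat_lit 2,nat_lit 1),Int.ofNat (nat_lit 1))]),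
((nat_lit 4,nat_lit 11,nat_lit 1),[((nat_lit 0,nat_lit 3,nat_lit 0),Int.negSucc (nat_lit 0)),((nat_lit 3,nat_lit 3,nat_lit 1),Int.ofNat (nat_lit 1))]),
((nat_lit 1,nat_lit 11,nat_lit 2),[((nat_lit 0,nat_lit 4,nat_lit 0),Int.negSucc (nat_lit 0)),((nat_lit 3,nat_lit 4,nat_lit 1),Int.ofNat (nat_lit 1))]),
((nat_lit 2,nat_lit 11,nat_lit 2),[((nat_lit 0,nat_lit 5,nat_lit 0),Int.negSucc (nat_lit 0)),((nat_lit 3,nat_lit 5,nat_lit 1),Int.ofNat (nat_lit 1))]),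
((nat_lit 1,nat_lit 12,nat_lit 1),[((nat_lit 0,nat_lit 0,nat_lit 0),Int.negSucc (nat_lit 0)),((nat_lit 3,nat_lit 0,nat_lit 2),Int.ofNat (nat_lit 1))]),
((nat_lit 2,nat_lit 12,nat_lit 1),[((nat_lit 0,nat_lit 1,nat_lit 0),Int.negSucc (nat_lit 0)),((nat_lit 3,nat_lit 1,nat_lit 2),Int.ofNat (nat_lit 1))]),
((nat_lit 3,nat_lit 12,nat_lit 1),[((nat_lit 0,nat_lit 2,nat_lit 0),Int.negSucc (nat_lit 0)),((nat_lit 3,nat_lit 2,nat_lit 2),Int.ofNat (nat_lit 1))]),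
((nat_lit 4,nat_lit 12,nat_lit 1),[((nat_lit 0,nat_lit 3,nat_lit 0),Int.negSucc (nat_lit 0)),((nat_lit 3,nat_lit 3,nat_lit 2),Int.ofNat (nat_lit 1))]),
((nat_lit 1,nat_lit 12,nat_lit 2),[((nat_lit 0,nat_lit 4,nat_lit 0),Int.negSucc (nat_lit 0)),((nat_lit 3,nat_lit 4,nat_lit 2),Int.ofNat (nat_lit 1))]),
((nat_lit 2,nat_lit 12,nat_lit 2),[((nat_lit 0,nat_lit 5,nat_lit 0),Int.negSucc (nat_lit 0)),((nat_lit 3,nat_lit 5,nat_lit 2),Int.ofNat (nat_lit 1))]),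
((nat_lit 1,nat_lit 13,nat_lit 1),[((nat_lit 0,nat_lit 0,nat_lit 0),Int.negSucc (nat_lit 0)),((nat_lit 3,nat_lit 0,nat_lit 3),Int.ofNat (nat_lit 1))]),
((nat_lit 2,nat_lit 13,nat_lit 1),[((nat_lit 0,nat_lit 1,nat_lit 0),Int.negSucc (nat_lit 0)),((nat_lit 3,nat_lit 1,nat_lit 3),Int.ofNat (nat_lit 1))]),
((nat_lit 3,nat_lit 13,nat_lit 1),[((nat_lit 0,nat_lit 2,nat_lit 0),Int.negSucc (nat_lit 0)),((nat_lit 3,nat_lit 2,nat_lit 3),Int.ofNat (nat_lit 1))]),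
((nat_lit 4,nat_lit 13,nat_lit 1),[((nat_lit 0,nat_lit 3,nat_lit 0),Int.negSucc (nat_lit 0)),((nat_lit 3,nat_lit 3,nat_lit 3),Int.ofNat (nat_lit 1))]),
((nat_lit 1,nat_lit 13,nat_lit 2),[((nat_lit 0,nat_lit 4,nat_lit 0),Int.negSucc (nat_lit 0)),((nat_lit 3,nat_lit 4,nat_lit 3),Int.ofNat (nat_lit 1))])]

noncomputable def dtab4 : Tab := [
((nat_lit 2,nat_lit 13,nat_lit 2),[((nat_lit 0,nat_lit 5,nat_lit 0),Int.negSucc (nat_lit 0)),((nat_lit 3,nat_lit 5,nat_lit 3),Int.ofNat (nat_lit 1))]),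
((nat_lit 1,nat_lit 14,nat_lit 1),[((nat_lit 0,nat_lit 0,nat_lit 0),Int.negSucc (nat_lit 0)),((nat_lit 3,nat_lit 0,nat_lit 4),Int.ofNat (nat_lit 1))]),
((nat_lit 2,nat_lit 14,nat_lit 1),[((nat_lit 0,nat_lit 1,nat_lit 0),Int.negSucc (nat_lit 0)),((nat_lit 3,nat_lit 1,nat_lit 4),Int.ofNat (nat_lit 1))]),
((nat_lit 3,nat_lit 14,nat_lit 1),[((nat_lit 0,nat_lit 2,nat_lit 0),Int.negSucc (nat_lit 0)),((nat_lit 3,nat_lit 2,nat_lit 4),Int.ofNat (nat_lit 1))]),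
((nat_lit 4,nat_lit 14,nat_lit 1),[((nat_lit 0,nat_lit 3,nat_lit 0),Int.negSucc (nat_lit 0)),((nat_lit 3,nat_lit 3,nat_lit 4),Int.ofNat (nat_lit 1))]),
((nat_lit 1,nat_lit 14,nat_lit 2),[((nat_lit 0,nat_lit 4,nat_lit 0),Int.negSucc (nat_lit 0)),((nat_lit 3,nat_lit 4,nat_lit 4),Int.ofNat (nat_lit 1))]),
((nat_lit 2,nat_lit 14,nat_lit 2),[((nat_lit 0,nat_lit 5,nat_lit 0),Int.negSucc (nat_lit 0)),((nat_lit 3,nat_lit 5,nat_lit 4),Int.ofNat (nat_lit 1))]),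
((nat_lit 1,nat_lit 15,nat_lit 1),[((nat_lit 0,nat_lit 0,nat_lit 0),Int.negSucc (nat_lit 0)),((nat_lit 3,nat_lit 0,nat_lit 5),Int.ofNat (nat_lit 1))]),
((nat_lit 2,nat_lit 15,nat_lit 1),[((nat_lit 0,nat_lit 1,nat_lit 0),Int.negSucc (nat_lit 0)),((nat_lit 3,nat_lit 1,nat_lit 5),Int.ofNat (nat_lit 1))]),
((nat_lit 3,nat_lit 15,nat_lit 1),[((nat_lit 0,nat_lit 2,nat_lit 0),Int.negSucc (nat_lit 0)),((nat_lit 3,nat_lit 2,nat_lit 5),Int.ofNat (nat_lit 1))]),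
((nat_lit 4,nat_lit 15,nat_lit 1),[((nat_lit 0,nat_lit 3,nat_lit 0),Int.negSucc (nat_lit 0)),((nat_lit 3,nat_lit 3,nat_lit 5),Int.ofNat (nat_lit 1))]),
((nat_lit 1,nat_lit 15,nat_lit 2),[((nat_lit 0,nat_lit 4,nat_lit 0),Int.negSucc (nat_lit 0)),((nat_lit 3,nat_lit 4,nat_lit 5),Int.ofNat (nat_lit 1))]),
((nat_lit 2,nat_lit 15,nat_lit 2),[((nat_lit 0,nat_lit 5,nat_lit 0),Int.negSucc (nat_lit 0)),((nat_lit 3,nat_lit 5,nat_lit 5),Int.ofNat (nat_lit 1))]),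
((nat_lit 1,nat_lit 16,nat_lit 1),[((nat_lit 0,nat_lit 0,nat_lit 0),Int.negSucc (nat_lit 0)),((nat_lit 3,nat_lit 0,nat_lit 6),Int.ofNat (nat_lit 1))]),
((nat_lit 2,nat_lit 16,nat_lit 1),[((nat_lit 0,nat_lit 1,nat_lit 0),Int.negSucc (nat_lit 0)),((nat_lit 3,nat_lit 1,nat_lit 6),Int.ofNat (nat_lit 1))]),
((nat_lit 3,nat_lit 16,nat_lit 1),[((nat_lit 0,nat_lit 2,nat_lit 0),Int.negSucc (nat_lit 0)),((nat_lit 3,nat_lit 2,nat_lit 6),Int.ofNat (nat_lit 1))]),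
((nat_lit 4,nat_lit 16,nat_lit 1),[((nat_lit 0,nat_lit 3,nat_lit 0),Int.negSucc (nat_lit 0)),((nat_lit 3,nat_lit 3,nat_lit 6),Int.ofNat (nat_lit 1))]),
((nat_lit 1,nat_lit 16,nat_lit 2),[((nat_lit 0,nat_lit 4,nat_lit 0),Int.negSucc (nat_lit 0)),((nat_lit 3,nat_lit 4,nat_lit 6),Int.ofNat (nat_lit 1))]),
((nat_lit 2,nat_lit 16,nat_lit 2),[((nat_lit 0,nat_lit 5,nat_lit 0),Int.negSucc (nat_lit 0)),((nat_lit 3,nat_lit 5,nat_lit 6),Int.ofNat (nat_lit 1))]),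
((nat_lit 1,nat_lit 17,nat_lit 1),[((nat_lit 0,nat_lit 0,nat_lit 0),Int.negSucc (nat_lit 0)),((nat_lit 3,nat_lit 0,nat_lit 7),Int.ofNat (nat_lit 1))]),
((nat_lit 2,nat_lit 17,nat_lit 1),[((nat_lit 0,nat_lit 1,nat_lit 0),Int.negSucc (nat_lit 0)),((nat_lit 3,nat_lit 1,nat_lit 7),Int.ofNat (nat_lit 1))]),
((nat_lit 3,nat_lit 17,nat_lit 1),[((nat_lit 0,nat_lit 2,nat_lit 0),Int.negSucc (nat_lit 0)),((nat_lit 3,nat_lit 2,nat_lit 7),Int.ofNat (nat_lit 1))]),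
((nat_lit 4,nat_lit 17,nat_lit 1),[((nat_lit 0,nat_lit 3,nat_lit 0),Int.negSucc (nat_lit 0)),((nat_lit 3,nat_lit 3,nat_lit 7),Int.ofNat (nat_lit 1))]),
((nat_lit 1,nat_lit 17,nat_lit 2),[((nat_lit 0,nat_lit 4,nat_lit 0),Int.negSucc (nat_lit 0)),((nat_lit 3,nat_lit 4,nat_lit 7),Int.ofNat (nat_lit 1))]),
((nat_lit 2,nat_lit 17,nat_lit 2),[((nat_lit 0,nat_lit 5,nat_lit 0),Int.negSucc (nat_lit 0)),((nat_lit 3,nat_lit 5,nat_lit 7),Int.ofNat (nat_lit 1))]),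
((nat_lit 1,nat_lit 18,nat_lit 1),[((nat_lit 0,nat_lit 0,nat_lit 0),Int.negSucc (nat_lit 0)),((nat_lit 3,nat_lit 0,nat_lit 8),Int.ofNat (nat_lit 1))]),
((nat_lit 2,nat_lit 18,nat_lit 1),[((nat_lit 0,nat_lit 1,nat_lit 0),Int.negSucc (nat_lit 0)),((nat_lit 3,nat_lit 1,nat_lit 8),Int.ofNat (nat_lit 1))]),
((nat_lit 3,nat_lit 18,nat_lit 1),[((nat_lit 0,nat_lit 2,nat_lit 0),Int.negSucc (nat_lit 0)),((nat_lit 3,nat_lit 2,nat_lit 8),Int.ofNat (nat_lit 1))]),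
((nat_lit 4,nat_lit 18,nat_lit 1),[((nat_lit 0,nat_lit 3,nat_lit 0),Int.negSucc (nat_lit 0)),((nat_lit 3,nat_lit 3,nat_lit 8),Int.ofNat (nat_lit 1))]),
((nat_lit 1,nat_lit 18,nat_lit 2),[((nat_lit 0,nat_lit 4,nat_lit 0),Int.negSucc (nat_lit 0)),((nat_lit 3,nat_lit 4,nat_lit 8),Int.ofNat (nat_lit 1))]),
((nat_lit 2,nat_lit 18,nat_lit 2),[((nat_lit 0,nat_lit 5,nat_lit 0),Int.negSucc (nat_lit 0)),((nat_lit 3,nat_lit 5,nat_lit 8),Int.ofNat (nat_lit 1))]),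
((nat_lit 1,nat_lit 19,nat_lit 1),[((nat_lit 0,nat_lit 0,nat_lit 0),Int.negSucc (nat_lit 0)),((nat_lit 3,nat_lit 0,nat_lit 9),Int.ofNat (nat_lit 1))])]

noncomputable def dtab5 : Tab := [
((nat_lit 2,nat_lit 19,nat_lit 1),[((nat_lit 0,nat_lit 1,nat_lit 0),Int.negSucc (nat_lit 0)),((nat_lit 3,nat_lit 1,nat_lit 9),Int.ofNat (nat_lit 1))]),
((nat_lit 3,nat_lit 19,nat_lit 1),[((nat_lit 0,nat_lit 2,nat_lit 0),Int.negSucc (nat_lit 0)),((nat_lit 3,nat_lit 2,nat_lit 9),Int.ofNat (nat_lit 1))]),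
((nat_lit 4,nat_lit 19,nat_lit 1),[((nat_lit 0,nat_lit 3,nat_lit 0),Int.negSucc (nat_lit 0)),((nat_lit 3,nat_lit 3,nat_lit 9),Int.ofNat (nat_lit 1))]),
((nat_lit 1,nat_lit 19,nat_lit 2),[((nat_lit 0,nat_lit 4,nat_lit 0),Int.negSucc (nat_lit 0)),((nat_lit 3,nat_lit 4,nat_lit 9),Int.ofNat (nat_lit 1))]),
((nat_lit 2,nat_lit 19,nat_lit 2),[((nat_lit 0,nat_lit 5,nat_lit 0),Int.negSucc (nat_lit 0)),((nat_lit 3,nat_lit 5,nat_lit 9),Int.ofNat (nat_lit 1))]),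
((nat_lit 1,nat_lit 20,nat_lit 1),[((nat_lit 0,nat_lit 0,nat_lit 0),Int.negSucc (nat_lit 0)),((nat_lit 3,nat_lit 0,nat_lit 10),Int.ofNat (nat_lit 1))]),
((nat_lit 2,nat_lit 20,nat_lit 1),[((nat_lit 0,nat_lit 1,nat_lit 0),Int.negSucc (nat_lit 0)),((nat_lit 3,nat_lit 1,nat_lit 10),Int.ofNat (nat_lit 1))]),
((nat_lit 3,nat_lit 20,nat_lit 1),[((nat_lit 0,nat_lit 2,nat_lit 0),Int.negSucc (nat_lit 0)),((nat_lit 3,nat_lit 2,nat_lit 10),Int.ofNat (nat_lit 1))]),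
((nat_lit 4,nat_lit 20,nat_lit 1),[((nat_lit 0,nat_lit 3,nat_lit 0),Int.negSucc (nat_lit 0)),((nat_lit 3,nat_lit 3,nat_lit 10),Int.ofNat (nat_lit 1))]),
((nat_lit 1,nat_lit 20,nat_lit 2),[((nat_lit 0,nat_lit 4,nat_lit 0),Int.negSucc (nat_lit 0)),((nat_lit 3,nat_lit 4,nat_lit 10),Int.ofNat (nat_lit 1))]),
((nat_lit 2,nat_lit 20,nat_lit 2),[((nat_lit 0,nat_lit 5,nat_lit 0),Int.negSucc (nat_lit 0)),((nat_lit 3,nat_lit 5,nat_lit 10),Int.ofNat (nat_lit 1))]),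
((nat_lit 1,nat_lit 21,nat_lit 1),[((nat_lit 0,nat_lit 0,nat_lit 0),Int.negSucc (nat_lit 0)),((nat_lit 3,nat_lit 0,nat_lit 11),Int.ofNat (nat_lit 1))]),
((nat_lit 2,nat_lit 21,nat_lit 1),[((nat_lit 0,nat_lit 1,nat_lit 0),Int.negSucc (nat_lit 0)),((nat_lit 3,nat_lit 1,nat_lit 11),Int.ofNat (nat_lit 1))]),
((nat_lit 3,nat_lit 21,nat_lit 1),[((nat_lit 0,nat_lit 2,nat_lit 0),Int.negSucc (nat_lit 0)),((nat_lit 3,nat_lit 2,nat_lit 11),Int.ofNat (nat_lit 1))]),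
((nat_lit 4,nat_lit 21,nat_lit 1),[((nat_lit 0,nat_lit 3,nat_lit 0),Int.negSucc (nat_lit 0)),((nat_lit 3,nat_lit 3,nat_lit 11),Int.ofNat (nat_lit 1))]),
((nat_lit 1,nat_lit 21,nat_lit 2),[((nat_lit 0,nat_lit 4,nat_lit 0),Int.negSucc (nat_lit 0)),((nat_lit 3,nat_lit 4,nat_lit 11),Int.ofNat (nat_lit 1))]),
((nat_lit 2,nat_lit 21,nat_lit 2),[((nat_lit 0,nat_lit 5,nat_lit 0),Int.negSucc (nat_lit 0)),((nat_lit 3,nat_lit 5,nat_lit 11),Int.ofNat (nat_lit 1))]),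
((nat_lit 1,nat_lit 22,nat_lit 1),[((nat_lit 0,nat_lit 0,nat_lit 0),Int.negSucc (nat_lit 0)),((nat_lit 3,nat_lit 0,nat_lit 12),Int.ofNat (nat_lit 1))]),
((nat_lit 2,nat_lit 22,nat_lit 1),[((nat_lit 0,nat_lit 1,nat_lit 0),Int.negSucc (nat_lit 0)),((nat_lit 3,nat_lit 1,nat_lit 12),Int.ofNat (nat_lit 1))]),
((nat_lit 3,nat_lit 22,nat_lit 1),[((nat_lit 0,nat_lit 2,nat_lit 0),Int.negSucc (nat_lit 0)),((nat_lit 3,nat_lit 2,nat_lit 12),Int.ofNat (nat_lit 1))]),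
((nat_lit 4,nat_lit 22,nat_lit 1),[((nat_lit 0,nat_lit 3,nat_lit 0),Int.negSucc (nat_lit 0)),((nat_lit 3,nat_lit 3,nat_lit 12),Int.ofNat (nat_lit 1))]),
((nat_lit 1,nat_lit 22,nat_lit 2),[((nat_lit 0,nat_lit 4,nat_lit 0),Int.negSucc (nat_lit 0)),((nat_lit 3,nat_lit 4,nat_lit 12),Int.ofNat (nat_lit 1))]),
((nat_lit 2,nat_lit 22,nat_lit 2),[((nat_lit 0,nat_lit 5,nat_lit 0),Int.negSucc (nat_lit 0)),((nat_lit 3,nat_lit 5,nat_lit 12),Int.ofNat (nat_lit 1))]),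
((nat_lit 1,nat_lit 23,nat_lit 1),[((nat_lit 0,nat_lit 0,nat_lit 0),Int.negSucc (nat_lit 0)),((nat_lit 3,nat_lit 0,nat_lit 13),Int.ofNat (nat_lit 1))]),
((nat_lit 2,nat_lit 23,nat_lit 1),[((nat_lit 0,nat_lit 1,nat_lit 0),Int.negSucc (nat_lit 0)),((nat_lit 3,nat_lit 1,nat_lit 13),Int.ofNat (nat_lit 1))]),
((nat_lit 3,nat_lit 23,nat_lit 1),[((nat_lit 0,nat_lit 2,nat_lit 0),Int.negSucc (nat_lit 0)),((nat_lit 3,nat_lit 2,nat_lit 13),Int.ofNat (nat_lit 1))]),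
((nat_lit 4,nat_lit 23,nat_lit 1),[((nat_lit 0,nat_lit 3,nat_lit 0),Int.negSucc (nat_lit 0)),((nat_lit 3,nat_lit 3,nat_lit 13),Int.ofNat (nat_lit 1))]),
((nat_lit 1,nat_lit 23,nat_lit 2),[((nat_lit 0,nat_lit 4,nat_lit 0),Int.negSucc (nat_lit 0)),((nat_lit 3,nat_lit 4,nat_lit 13),Int.ofNat (nat_lit 1))]),
((nat_lit 2,nat_lit 23,nat_lit 2),[((nat_lit 0,nat_lit 5,nat_lit 0),Int.negSucc (nat_lit 0)),((nat_lit 3,nat_lit 5,nat_lit 13),Int.ofNat (nat_lit 1))]),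
((nat_lit 1,nat_lit 24,nat_lit 1),[((nat_lit 0,nat_lit 0,nat_lit 0),Int.negSucc (nat_lit 0)),((nat_lit 3,nat_lit 0,nat_lit 14),Int.ofNat (nat_lit 1))]),
((nat_lit 2,nat_lit 24,nat_lit 1),[((nat_lit 0,nat_lit 1,nat_lit 0),Int.negSucc (nat_lit 0)),((nat_lit 3,nat_lit 1,nat_lit 14),Int.ofNat (nat_lit 1))]),
((nat_lit 3,nat_lit 24,nat_lit 1),[((nat_lit 0,nat_lit 2,nat_lit 0),Int.negSucc (nat_lit 0)),((nat_lit 3,nat_lit 2,nat_lit 14),Int.ofNat (nat_lit 1))])]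

noncomputable def dtab6 : Tab := [
((nat_lit 4,nat_lit 24,nat_lit 1),[((nat_lit 0,nat_lit 3,nat_lit 0),Int.negSucc (nat_lit 0)),((nat_lit 3,nat_lit 3,nat_lit 14),Int.ofNat (nat_lit 1))]),
((nat_lit 1,nat_lit 24,nat_lit 2),[((nat_lit 0,nat_lit 4,nat_lit 0),Int.negSucc (nat_lit 0)),((nat_lit 3,nat_lit 4,nat_lit 14),Int.ofNat (nat_lit 1))]),
((nat_lit 2,nat_lit 24,nat_lit 2),[((nat_lit 0,nat_lit 5,nat_lit 0),Int.negSucc (nat_lit 0)),((nat_lit 3,nat_lit 5,nat_lit 14),Int.ofNat (nat_lit 1))]),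
((nat_lit 1,nat_lit 1,nat_lit 5),[((nat_lit 0,nat_lit 0,nat_lit 0),Int.negSucc (nat_lit 0)),((nat_lit 4,nat_lit 0,nat_lit 5),Int.ofNat (nat_lit 1))]),
((nat_lit 2,nat_lit 1,nat_lit 5),[((nat_lit 0,nat_lit 1,nat_lit 0),Int.negSucc (nat_lit 0)),((nat_lit 4,nat_lit 1,nat_lit 5),Int.ofNat (nat_lit 1))]),
((nat_lit 3,nat_lit 1,nat_lit 5),[((nat_lit 0,nat_lit 2,nat_lit 0),Int.negSucc (nat_lit 0)),((nat_lit 4,nat_lit 2,nat_lit 5),Int.ofNat (nat_lit 1))]),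
((nat_lit 4,nat_lit 1,nat_lit 5),[((nat_lit 0,nat_lit 3,nat_lit 0),Int.negSucc (nat_lit 0)),((nat_lit 4,nat_lit 3,nat_lit 5),Int.ofNat (nat_lit 1))]),
((nat_lit 1,nat_lit 2,nat_lit 5),[((nat_lit 0,nat_lit 4,nat_lit 0),Int.negSucc (nat_lit 0)),((nat_lit 4,nat_lit 4,nat_lit 5),Int.ofNat (nat_lit 1))]),
((nat_lit 2,nat_lit 2,nat_lit 5),[((nat_lit 0,nat_lit 5,nat_lit 0),Int.negSucc (nat_lit 0)),((nat_lit 4,nat_lit 5,nat_lit 5),Int.ofNat (nat_lit 1))]),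
((nat_lit 1,nat_lit 1,nat_lit 6),[((nat_lit 0,nat_lit 0,nat_lit 0),Int.negSucc (nat_lit 0)),((nat_lit 4,nat_lit 0,nat_lit 6),Int.ofNat (nat_lit 1))]),
((nat_lit 2,nat_lit 1,nat_lit 6),[((nat_lit 0,nat_lit 1,nat_lit 0),Int.negSucc (nat_lit 0)),((nat_lit 4,nat_lit 1,nat_lit 6),Int.ofNat (nat_lit 1))]),
((nat_lit 3,nat_lit 1,nat_lit 6),[((nat_lit 0,nat_lit 2,nat_lit 0),Int.negSucc (nat_lit 0)),((nat_lit 4,nat_lit 2,nat_lit 6),Int.ofNat (nat_lit 1))]),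
((nat_lit 4,nat_lit 1,nat_lit 6),[((nat_lit 0,nat_lit 3,nat_lit 0),Int.negSucc (nat_lit 0)),((nat_lit 4,nat_lit 3,nat_lit 6),Int.ofNat (nat_lit 1))]),
((nat_lit 1,nat_lit 2,nat_lit 6),[((nat_lit 0,nat_lit 4,nat_lit 0),Int.negSucc (nat_lit 0)),((nat_lit 4,nat_lit 4,nat_lit 6),Int.ofNat (nat_lit 1))]),
((nat_lit 2,nat_lit 2,nat_lit 6),[((nat_lit 0,nat_lit 5,nat_lit 0),Int.negSucc (nat_lit 0)),((nat_lit 4,nat_lit 5,nat_lit 6),Int.ofNat (nat_lit 1))]),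
((nat_lit 1,nat_lit 1,nat_lit 7),[((nat_lit 0,nat_lit 0,nat_lit 0),Int.negSucc (nat_lit 0)),((nat_lit 4,nat_lit 0,nat_lit 7),Int.ofNat (nat_lit 1))]),
((nat_lit 2,nat_lit 1,nat_lit 7),[((nat_lit 0,nat_lit 1,nat_lit 0),Int.negSucc (nat_lit 0)),((nat_lit 4,nat_lit 1,nat_lit 7),Int.ofNat (nat_lit 1))]),
((nat_lit 3,nat_lit 1,nat_lit 7),[((nat_lit 0,nat_lit 2,nat_lit 0),Int.negSucc (nat_lit 0)),((nat_lit 4,nat_lit 2,nat_lit 7),Int.ofNat (nat_lit 1))]),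
((nat_lit 4,nat_lit 1,nat_lit 7),[((nat_lit 0,nat_lit 3,nat_lit 0),Int.negSucc (nat_lit 0)),((nat_lit 4,nat_lit 3,nat_lit 7),Int.ofNat (nat_lit 1))]),
((nat_lit 1,nat_lit 2,nat_lit 7),[((nat_lit 0,nat_lit 4,nat_lit 0),Int.negSucc (nat_lit 0)),((nat_lit 4,nat_lit 4,nat_lit 7),Int.ofNat (nat_lit 1))]),
((nat_lit 2,nat_lit 2,nat_lit 7),[((nat_lit 0,nat_lit 5,nat_lit 0),Int.negSucc (nat_lit 0)),((nat_lit 4,nat_lit 5,nat_lit 7),Int.ofNat (nat_lit 1))]),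
((nat_lit 1,nat_lit 1,nat_lit 8),[((nat_lit 0,nat_lit 0,nat_lit 0),Int.negSucc (nat_lit 0)),((nat_lit 4,nat_lit 0,nat_lit 8),Int.ofNat (nat_lit 1))]),
((nat_lit 2,nat_lit 1,nat_lit 8),[((nat_lit 0,nat_lit 1,nat_lit 0),Int.negSucc (nat_lit 0)),((nat_lit 4,nat_lit 1,nat_lit 8),Int.ofNat (nat_lit 1))]),
((nat_lit 3,nat_lit 1,nat_lit 8),[((nat_lit 0,nat_lit 2,nat_lit 0),Int.negSucc (nat_lit 0)),((nat_lit 4,nat_lit 2,nat_lit 8),Int.ofNat (nat_lit 1))]),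
((nat_lit 4,nat_lit 1,nat_lit 8),[((nat_lit 0,nat_lit 3,nat_lit 0),Int.negSucc (nat_lit 0)),((nat_lit 4,nat_lit 3,nat_lit 8),Int.ofNat (nat_lit 1))]),
((nat_lit 1,nat_lit 2,nat_lit 8),[((nat_lit 0,nat_lit 4,nat_lit 0),Int.negSucc (nat_lit 0)),((nat_lit 4,nat_lit 4,nat_lit 8),Int.ofNat (nat_lit 1))]),
((nat_lit 2,nat_lit 2,nat_lit 8),[((nat_lit 0,nat_lit 5,nat_lit 0),Int.negSucc (nat_lit 0)),((nat_lit 4,nat_lit 5,nat_lit 8),Int.ofNat (nat_lit 1))]),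
((nat_lit 1,nat_lit 1,nat_lit 9),[((nat_lit 0,nat_lit 0,nat_lit 0),Int.negSucc (nat_lit 0)),((nat_lit 4,nat_lit 0,nat_lit 9),Int.ofNat (nat_lit 1))]),
((nat_lit 2,nat_lit 1,nat_lit 9),[((nat_lit 0,nat_lit 1,nat_lit 0),Int.negSucc (nat_lit 0)),((nat_lit 4,nat_lit 1,nat_lit 9),Int.ofNat (nat_lit 1))]),
((nat_lit 3,nat_lit 1,nat_lit 9),[((nat_lit 0,nat_lit 2,nat_lit 0),Int.negSucc (nat_lit 0)),((nat_lit 4,nat_lit 2,nat_lit 9),Int.ofNat (nat_lit 1))]),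
((nat_lit 4,nat_lit 1,nat_lit 9),[((nat_lit 0,nat_lit 3,nat_lit 0),Int.negSucc (nat_lit 0)),((nat_lit 4,nat_lit 3,nat_lit 9),Int.ofNat (nat_lit 1))]),
((nat_lit 1,nat_lit 2,nat_lit 9),[((nat_lit 0,nat_lit 4,nat_lit 0),Int.negSucc (nat_lit 0)),((nat_lit 4,nat_lit 4,nat_lit 9),Int.ofNat (nat_lit 1))])]

noncomputable def dtab7 : Tab := [
((nat_lit 2,nat_lit 2,nat_lit 9),[((nat_lit 0,nat_lit 5,nat_lit 0),Int.negSucc (nat_lit 0)),((nat_lit 4,nat_lit 5,nat_lit 9),Int.ofNat (nat_lit 1))]),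
((nat_lit 1,nat_lit 1,nat_lit 10),[((nat_lit 0,nat_lit 0,nat_lit 0),Int.negSucc (nat_lit 0)),((nat_lit 4,nat_lit 0,nat_lit 10),Int.ofNat (nat_lit 1))]),
((nat_lit 2,nat_lit 1,nat_lit 10),[((nat_lit 0,nat_lit 1,nat_lit 0),Int.negSucc (nat_lit 0)),((nat_lit 4,nat_lit 1,nat_lit 10),Int.ofNat (nat_lit 1))]),
((nat_lit 3,nat_lit 1,nat_lit 10),[((nat_lit 0,nat_lit 2,nat_lit 0),Int.negSucc (nat_lit 0)),((nat_lit 4,nat_lit 2,nat_lit 10),Int.ofNat (nat_lit 1))]),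
((nat_lit 4,nat_lit 1,nat_lit 10),[((nat_lit 0,nat_lit 3,nat_lit 0),Int.negSucc (nat_lit 0)),((nat_lit 4,nat_lit 3,nat_lit 10),Int.ofNat (nat_lit 1))]),
((nat_lit 1,nat_lit 2,nat_lit 10),[((nat_lit 0,nat_lit 4,nat_lit 0),Int.negSucc (nat_lit 0)),((nat_lit 4,nat_lit 4,nat_lit 10),Int.ofNat (nat_lit 1))]),
((nat_lit 2,nat_lit 2,nat_lit 10),[((nat_lit 0,nat_lit 5,nat_lit 0),Int.negSucc (nat_lit 0)),((nat_lit 4,nat_lit 5,nat_lit 10),Int.ofNat (nat_lit 1))]),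
((nat_lit 1,nat_lit 1,nat_lit 11),[((nat_lit 0,nat_lit 0,nat_lit 0),Int.negSucc (nat_lit 0)),((nat_lit 4,nat_lit 0,nat_lit 11),Int.ofNat (nat_lit 1))]),
((nat_lit 2,nat_lit 1,nat_lit 11),[((nat_lit 0,nat_lit 1,nat_lit 0),Int.negSucc (nat_lit 0)),((nat_lit 4,nat_lit 1,nat_lit 11),Int.ofNat (nat_lit 1))]),
((nat_lit 3,nat_lit 1,nat_lit 11),[((nat_lit 0,nat_lit 2,nat_lit 0),Int.negSucc (nat_lit 0)),((nat_lit 4,nat_lit 2,nat_lit 11),Int.ofNat (nat_lit 1))]),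
((nat_lit 4,nat_lit 1,nat_lit 11),[((nat_lit 0,nat_lit 3,nat_lit 0),Int.negSucc (nat_lit 0)),((nat_lit 4,nat_lit 3,nat_lit 11),Int.ofNat (nat_lit 1))]),
((nat_lit 1,nat_lit 2,nat_lit 11),[((nat_lit 0,nat_lit 4,nat_lit 0),Int.negSucc (nat_lit 0)),((nat_lit 4,nat_lit 4,nat_lit 11),Int.ofNat (nat_lit 1))]),
((nat_lit 2,nat_lit 2,nat_lit 11),[((nat_lit 0,nat_lit 5,nat_lit 0),Int.negSucc (nat_lit 0)),((nat_lit 4,nat_lit 5,nat_lit 11),Int.ofNat (nat_lit 1))]),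
((nat_lit 1,nat_lit 1,nat_lit 12),[((nat_lit 0,nat_lit 0,nat_lit 0),Int.negSucc (nat_lit 0)),((nat_lit 4,nat_lit 0,nat_lit 12),Int.ofNat (nat_lit 1))]),
((nat_lit 2,nat_lit 1,nat_lit 12),[((nat_lit 0,nat_lit 1,nat_lit 0),Int.negSucc (nat_lit 0)),((nat_lit 4,nat_lit 1,nat_lit 12),Int.ofNat (nat_lit 1))]),
((nat_lit 3,nat_lit 1,nat_lit 12),[((nat_lit 0,nat_lit 2,nat_lit 0),Int.negSucc (nat_lit 0)),((nat_lit 4,nat_lit 2,nat_lit 12),Int.ofNat (nat_lit 1))]),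
((nat_lit 4,nat_lit 1,nat_lit 12),[((nat_lit 0,nat_lit 3,nat_lit 0),Int.negSucc (nat_lit 0)),((nat_lit 4,nat_lit 3,nat_lit 12),Int.ofNat (nat_lit 1))]),
((nat_lit 1,nat_lit 2,nat_lit 12),[((nat_lit 0,nat_lit 4,nat_lit 0),Int.negSucc (nat_lit 0)),((nat_lit 4,nat_lit 4,nat_lit 12),Int.ofNat (nat_lit 1))]),
((nat_lit 2,nat_lit 2,nat_lit 12),[((nat_lit 0,nat_lit 5,nat_lit 0),Int.negSucc (nat_lit 0)),((nat_lit 4,nat_lit 5,nat_lit 12),Int.ofNat (nat_lit 1))]),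
((nat_lit 1,nat_lit 1,nat_lit 13),[((nat_lit 0,nat_lit 0,nat_lit 0),Int.negSucc (nat_lit 0)),((nat_lit 4,nat_lit 0,nat_lit 13),Int.ofNat (nat_lit 1))]),
((nat_lit 2,nat_lit 1,nat_lit 13),[((nat_lit 0,nat_lit 1,nat_lit 0),Int.negSucc (nat_lit 0)),((nat_lit 4,nat_lit 1,nat_lit 13),Int.ofNat (nat_lit 1))]),
((nat_lit 3,nat_lit 1,nat_lit 13),[((nat_lit 0,nat_lit 2,nat_lit 0),Int.negSucc (nat_lit 0)),((nat_lit 4,nat_lit 2,nat_lit 13),Int.ofNat (nat_lit 1))]),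
((nat_lit 4,nat_lit 1,nat_lit 13),[((nat_lit 0,nat_lit 3,nat_lit 0),Int.negSucc (nat_lit 0)),((nat_lit 4,nat_lit 3,nat_lit 13),Int.ofNat (nat_lit 1))]),
((nat_lit 1,nat_lit 2,nat_lit 13),[((nat_lit 0,nat_lit 4,nat_lit 0),Int.negSucc (nat_lit 0)),((nat_lit 4,nat_lit 4,nat_lit 13),Int.ofNat (nat_lit 1))]),
((nat_lit 2,nat_lit 2,nat_lit 13),[((nat_lit 0,nat_lit 5,nat_lit 0),Int.negSucc (nat_lit 0)),((nat_lit 4,nat_lit 5,nat_lit 13),Int.ofNat (nat_lit 1))]),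
((nat_lit 1,nat_lit 1,nat_lit 14),[((nat_lit 0,nat_lit 0,nat_lit 0),Int.negSucc (nat_lit 0)),((nat_lit 4,nat_lit 0,nat_lit 14),Int.ofNat (nat_lit 1))]),
((nat_lit 2,nat_lit 1,nat_lit 14),[((nat_lit 0,nat_lit 1,nat_lit 0),Int.negSucc (nat_lit 0)),((nat_lit 4,nat_lit 1,nat_lit 14),Int.ofNat (nat_lit 1))]),
((nat_lit 3,nat_lit 1,nat_lit 14),[((nat_lit 0,nat_lit 2,nat_lit 0),Int.negSucc (nat_lit 0)),((nat_lit 4,nat_lit 2,nat_lit 14),Int.ofNat (nat_lit 1))]),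
((nat_lit 4,nat_lit 1,nat_lit 14),[((nat_lit 0,nat_lit 3,nat_lit 0),Int.negSucc (nat_lit 0)),((nat_lit 4,nat_lit 3,nat_lit 14),Int.ofNat (nat_lit 1))]),
((nat_lit 1,nat_lit 2,nat_lit 14),[((nat_lit 0,nat_lit 4,nat_lit 0),Int.negSucc (nat_lit 0)),((nat_lit 4,nat_lit 4,nat_lit 14),Int.ofNat (nat_lit 1))]),
((nat_lit 2,nat_lit 2,nat_lit 14),[((nat_lit 0,nat_lit 5,nat_lit 0),Int.negSucc (nat_lit 0)),((nat_lit 4,nat_lit 5,nat_lit 14),Int.ofNat (nat_lit 1))])]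

noncomputable def dtab : Tab := catR dtab0 (catR dtab1 (catR dtab2 (catR dtab3 (catR dtab4 (catR dtab5 (catR dtab6 (dtab7)))))))

end Crest.Agent.R267.SFDataG_330
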