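import Crest.Agent.R267.SFLift_330
import Crest.Agent.R267.NLb_330

/-!
# Signed S-form of the S0406 pair (row 267, posts 2144, 267-330-S)

Strands are the 4-tuples `(i,j,k,l)`, `1 ≤ l < ws (i,j,k)`; the entry at `(u,v)` is `1` iff
`u ≤ v` coordinatewise and `u`, `v` do not lie on the same negative ray.

`f`: hub `{1} × [1,9]² ∪ {2} × Y₃`, x-rays `3,4` negative, then `12 11 7⁴ 4⁸` over the cell `(3,3)`;
y-rays `10..14` negative, then `11³ 10² 2²`, z-rays `10..14` positive, over the six cells `Df`.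
`g` (padded): hub `[1,4]³`, x-rays `5` positive, `6,7` negative, then `7³ 3⁴ 2` over the cell
`(2,2)`; y-rays `5` positive, `6..10` negative, then `12 10⁸ 8 5⁴`, z-rays `5..14` positive, over
the six cells `Dg`.
-/

set_option autoImplicit false

namespace Crest.Agent.R267.SFDefs_330

open Matrix P4Defs_780 SFLift_330

/-- window sizes of the rays of an arm (the window of size `c` holds `l = 1..c-1`). -/
def hasCellF (i k : ℕ) : Bool := (Nat.beq i 1 && Nat.ble 1 k && Nat.ble k 4) ||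
  (Nat.beq i 2 && Nat.ble 1 k && Nat.ble k 2)

def hasCellG (i k : ℕ) : Bool := (Nat.beq k 1 && Nat.ble 1 i && Nat.ble i 4) ||
  (Nat.beq k 2 && Nat.ble 1 i && Nat.ble i 2)

def hubF (i j k : ℕ) : Bool := Nat.ble 1 j && Nat.ble j 9 && Nat.ble 1 k && Nat.ble k 9 &&
  (Nat.beq i 1 || (Nat.beq i 2 && (Nat.ble j 2 || Nat.ble k 2 || (Nat.ble j 5 && Nat.ble k 5))))

def hubG (i j k : ℕ) : Bool := Nat.ble 1 i && Nat.ble i 4 && Nat.ble 1 j && Nat.ble j 4 &&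
  Nat.ble 1 k && Nat.ble k 4

def rayXF (i : ℕ) : ℕ := bif Nat.ble i 2 then 0 else bif Nat.ble i 4 then 15 else
  bif Nat.ble i 5 then 12 else bif Nat.ble i 6 then 11 else bif Nat.ble i 10 then 7 else
  bif Nat.ble i 18 then 4 else 0

def rayYF (j : ℕ) : ℕ := bif Nat.ble j 9 then 0 else bif Nat.ble j 14 then 15 else
  bif Nat.ble j 17 then 11 else bif Nat.ble j 19 then 10 else bif Nat.ble j 21 then 2 else 0

def rayZF (k : ℕ) : ℕ := bif Nat.ble k 9 then 0 else bif Nat.ble k 14 then 15 else 0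

def rayXG (i : ℕ) : ℕ := bif Nat.ble i 4 then 0 else bif Nat.ble i 7 then 15 else
  bif Nat.ble i 10 then 7 else bif Nat.ble i 14 then 3 else bif Nat.ble i 15 then 2 else 0

def rayYG (j : ℕ) : ℕ := bif Nat.ble j 4 then 0 else bif Nat.ble j 10 then 15 else
  bif Nat.ble j 11 then 12 else bif Nat.ble j 19 then 10 else bif Nat.ble j 20 then 8 else
  bif Nat.ble j 24 then 5 else 0

def rayZG (k : ℕ) : ℕ := bif Nat.ble k 4 then 0 else bif Nat.ble k 14 then 15 else 0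

/-- size of the window over the cell `(i,j,k)`, germ `f` (`0` = no window). -/
def wsF (u : ℕ × ℕ × ℕ) : ℕ := bif hubF u.1 u.2.1 u.2.2 then 15 else
  bif Nat.beq u.2.1 3 && Nat.beq u.2.2 3 then rayXF u.1 else
  bif hasCellF u.1 u.2.2 then rayYF u.2.1 else
  bif hasCellF u.1 u.2.1 then rayZF u.2.2 else 0

/-- size of the window over the cell `(i,j,k)`, germ `g`. -/
def wsG (u : ℕ × ℕ × ℕ) : ℕ := bif hubG u.1 u.2.1 u.2.2 then 15 else
  bif Nat.beq u.2.1 2 && Nat.beq u.2.2 2 then rayXG u.1 else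
  bif hasCellG u.1 u.2.2 then rayYG u.2.1 else
  bif hasCellG u.1 u.2.1 then rayZG u.2.2 else 0

/-- one-level signed form: negative x-rays `a ≤ i < b`, negative y-rays `c ≤ j < d`. -/
def sF (a b c d : ℕ) (u v : ℕ × ℕ × ℕ) : ℤ :=
  bif Nat.ble u.1 v.1 && Nat.ble u.2.1 v.2.1 && Nat.ble u.2.2 v.2.2 &&
    !(Nat.beq u.1 v.1 && Nat.ble a u.1 && Nat.blt u.1 b) &&
    !(Nat.beq u.2.1 v.2.1 && Nat.ble c u.2.1 && Nat.blt u.2.1 d) then 1 else 0

/-- entry of the signed S-form. -/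
def ent4 (a b c d : ℕ) (u v : ℕ × ℕ × ℕ × ℕ) : ℤ :=
  if (u.1 ≤ v.1 ∧ u.2.1 ≤ v.2.1 ∧ u.2.2.1 ≤ v.2.2.1 ∧ u.2.2.2 ≤ v.2.2.2) ∧
    ¬ (u.1 = v.1 ∧ a ≤ u.1 ∧ u.1 < b) ∧ ¬ (u.2.1 = v.2.1 ∧ c ≤ u.2.1 ∧ u.2.1 < d) then 1 else 0

/-! ### target letters
`(0,a,0)` `S a`, `(1,a,0)` `O a`, `(2,0,i)` `X i`, `(3,a,i)` `Y a i`, `(4,a,i)` `Z a i`,
`(5,0,j)`, `(6,a,j)` cancelled full rays, `(7,0,j)`, `(8,a,j)` differences. -/

/-- `L_P` as a number. -/
def LPn (a b : ℕ) : Bool := Nat.testBit (63 + 46 * 256 + 12 * 65536 + 8 * 16777216 +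
  48 * 4294967296 + 32 * 1099511627776) (8 * a + b)

def pz (c : Bool) : ℤ := bif c then 1 else 0

def nz (c : Bool) : ℤ := bif c then -1 else 0

def DnF (a b : ℕ) : ℤ := bif Nat.beq a 1 && Nat.beq b 5 then 0 else pz (LPn a b)

def DnG (a b : ℕ) : ℤ := bif Nat.beq a 0 && Nat.beq b 3 then 3 else
  bif Nat.beq a 3 && Nat.beq b 4 then -1 else pz (LPn a b)

/-- position of a ray in the full chain. -/
def ps (f m : ℕ) (i : ℕ) : ℕ := bif Nat.ble i f then i else i + 2 * m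

/-- `w b = - ∑ L_P(b,c) g c`. -/
def wvF (b : ℕ) : ℤ := bif Nat.beq b 0 then 1 else bif Nat.beq b 1 then 0 else
  bif Nat.beq b 4 then 1 else bif Nat.beq b 5 then 1 else 0

def wvG (b : ℕ) : ℤ := bif Nat.beq b 0 then -1 else bif Nat.beq b 1 then -1 else
  bif Nat.beq b 3 then -1 else bif Nat.beq b 4 then 0 else bif Nat.beq b 5 then -1 else 0

/-- target form; `fx`, `fy`: number of surviving full rays, two resp. five cancelled. -/
def tF (D : ℕ → ℕ → ℤ) (w : ℕ → ℤ) (fx fy : ℕ) (u v : ℕ × ℕ × ℕ) : ℤ :=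
  bif Nat.beq u.1 0 then (bif Nat.beq v.1 1 then nz (LPn u.2.1 v.2.1) else 0) else
  bif Nat.beq u.1 1 then (bif Nat.beq v.1 0 then pz (LPn u.2.1 v.2.1) else
    bif Nat.beq v.1 1 then D u.2.1 v.2.1 else 0) else
  bif Nat.beq u.1 2 then (bif Nat.beq v.1 1 then w v.2.1 else
    bif Nat.beq v.1 2 then pz (Nat.ble u.2.2 v.2.2) else
    bif Nat.beq v.1 5 then pz (Nat.ble u.2.2 fx) else 0) else
  bif Nat.beq u.1 3 then (bif Nat.beq v.1 1 then nz (LPn u.2.1 v.2.1) else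
    bif Nat.beq v.1 3 then pz (Nat.ble u.2.2 v.2.2 && LPn u.2.1 v.2.1) else
    bif Nat.beq v.1 6 then pz (Nat.ble u.2.2 fy && LPn u.2.1 v.2.1) else 0) else
  bif Nat.beq u.1 4 then (bif Nat.beq v.1 1 then nz (LPn u.2.1 v.2.1) else
    bif Nat.beq v.1 4 then pz (Nat.ble u.2.2 v.2.2 && LPn u.2.1 v.2.1) else 0) else
  bif Nat.beq u.1 5 then (bif Nat.beq v.1 1 then w v.2.1 else
    bif Nat.beq v.1 2 then pz (Nat.blt fx v.2.2) else
    bif Nat.beq v.1 5 then pz (Nat.ble v.2.2 u.2.2) else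
    bif Nat.beq v.1 7 then pz (Nat.blt u.2.2 v.2.2) else 0) else
  bif Nat.beq u.1 6 then (bif Nat.beq v.1 1 then nz (LPn u.2.1 v.2.1) else
    bif Nat.beq v.1 3 then pz (Nat.blt fy v.2.2 && LPn u.2.1 v.2.1) else
    bif Nat.beq v.1 6 then pz (Nat.ble v.2.2 u.2.2 && LPn u.2.1 v.2.1) else
    bif Nat.beq v.1 8 then pz (Nat.blt u.2.2 v.2.2 && LPn u.2.1 v.2.1) else 0) else
  bif Nat.beq u.1 7 then (bif Nat.beq v.1 5 then nz (Nat.ble v.2.2 u.2.2) else 0) else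
  bif Nat.beq u.1 8 then (bif Nat.beq v.1 6 then nz (Nat.ble v.2.2 u.2.2 && LPn u.2.1 v.2.1)
    else 0) else 0

/-- the common part of the weights of target letters. -/
def wtC (u : ℕ × ℕ × ℕ) : ℕ :=
  bif Nat.beq u.1 0 || Nat.beq u.1 1 then (bif Nat.ble u.2.1 5 && Nat.beq u.2.2 0 then 15 else 0) else
  bif Nat.beq u.1 4 then (bif Nat.ble u.2.1 5 && Nat.ble 1 u.2.2 && Nat.ble u.2.2 14 then 15 else 0)
  else
  bif Nat.beq u.1 5 || Nat.beq u.1 7 then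
    (bif Nat.beq u.2.1 0 && Nat.ble 1 u.2.2 && Nat.ble u.2.2 2 then 15 else 0) else
  bif Nat.beq u.1 6 || Nat.beq u.1 8 then
    (bif Nat.ble u.2.1 5 && Nat.ble 1 u.2.2 && Nat.ble u.2.2 5 then 15 else 0) else 0

/-- weights (top level) of the target letters of `f`. -/
def wtF (u : ℕ × ℕ × ℕ) : ℕ :=
  bif Nat.beq u.1 2 then (bif Nat.beq u.2.1 0 && Nat.ble 1 u.2.2 then
    (bif Nat.ble u.2.2 1 then 12 else bif Nat.ble u.2.2 2 then 11 else
    bif Nat.ble u.2.2 6 then 7 else bif Nat.ble u.2.2 14 then 4 else 0) else 0) else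
  bif Nat.beq u.1 3 then (bif Nat.ble u.2.1 5 && Nat.ble 1 u.2.2 then
    (bif Nat.ble u.2.2 4 then 15 else bif Nat.ble u.2.2 7 then 11 else
    bif Nat.ble u.2.2 9 then 10 else bif Nat.ble u.2.2 11 then 2 else 0) else 0) else wtC u

/-- weights of the target letters of `g`. -/
def wtG (u : ℕ × ℕ × ℕ) : ℕ :=
  bif Nat.beq u.1 2 then (bif Nat.beq u.2.1 0 && Nat.ble 1 u.2.2 then
    (bif Nat.ble u.2.2 3 then 15 else bif Nat.ble u.2.2 6 then 7 else
    bif Nat.ble u.2.2 10 then 3 else bif Nat.ble u.2.2 11 then 2 else 0) else 0) else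
  bif Nat.beq u.1 3 then (bif Nat.ble u.2.1 5 && Nat.ble 1 u.2.2 then
    (bif Nat.ble u.2.2 1 then 12 else bif Nat.ble u.2.2 9 then 10 else
    bif Nat.ble u.2.2 10 then 8 else bif Nat.ble u.2.2 14 then 5 else 0) else 0) else wtC u

end Crest.Agent.R267.SFDefs_330
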