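import Crest.Agent.R267.HmD_951

/-!
# Two links with congruent matrices (row 267): K(G) side of S0406

`zeq_of_cong`: functions `f`, `g` whose links are the links of graph systems with congruent
matrices (at least three strands) are `ZEq`. `cong_submatrix`: enumeration of the letters.
-/

set_option autoImplicit false

namespace Crest.Agent.R267.Top406_808

open Set
open Crest.Agent.R267.P4Defs_780 Crest.Agent.R267.Cone_808
open Crest.Agent.R267.GS_808 Crest.Agent.R267.DraftB_808 Crest.Agent.R267.TopAsm_808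
open Crest.Agent.R267.Hm_951

/-- the letters may be enumerated. -/
theorem cong_submatrix {ι κ : Type} [Fintype ι] [DecidableEq ι] [Fintype κ] [DecidableEq κ]
    (A : Matrix κ κ ℤ) (e : ι ≃ κ) : Cong ℤ (A.submatrix e e) A := by
  refine ⟨(1 : Matrix κ κ ℤ).submatrix e id, (1 : Matrix κ κ ℤ).submatrix id e, ?_, ?_, ?_⟩
  · ext i j
    simp [Matrix.mul_apply, Matrix.submatrix_apply, Matrix.one_apply]
  · ext i j
    simp only [Matrix.mul_apply, Matrix.submatrix_apply, Matrix.one_apply, id_eq]
    rw [← Equiv.sum_comp e.symm]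
    simp
  · ext i j
    simp only [Matrix.mul_apply, Matrix.submatrix_apply, Matrix.one_apply, id_eq,
      Matrix.transpose_apply]
    rw [← Equiv.sum_comp e.symm]
    simp only [Equiv.apply_symm_apply]
    rw [Finset.sum_eq_single j]
    · rw [if_pos rfl, mul_one, ← Equiv.sum_comp e.symm]
      simp only [Equiv.apply_symm_apply]
      rw [Finset.sum_eq_single i]
      · simp
      · intro b _ hb; simp [hb]
      · simp
    · intro b _ hb; simp [hb]
    · simp

/-- **the links of two functions with congruent matrices are equivalent.** -/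
theorem zeq_of_cong {n : ℕ} (hC : ClassGProp n) {ι ι' : Type} [Fintype ι] [Fintype ι']
    {f : (ι → ℂ) → ℂ} {g : (ι' → ℂ) → ℂ} {m m' : ℕ} {G : S n m} {G' : S n m'}
    {A : Matrix (Fin m) (Fin m) ℤ} {A' : Matrix (Fin m') (Fin m') ℤ} (hG : HasMat G A)
    (hG' : HasMat G' A') (hc : Cong ℤ A A') (hm : 3 ≤ m)
    (hf : IsLink {z : Sph ι | f z = 0} G) (hg : IsLink {z : Sph ι' | g z = 0} G') :
    ZEq f g := by
  obtain ⟨P, Q, k1, k2, k3⟩ := hc
  have hm' : m = m' := by
    have := T2alg1_684.card_eq_of_cong P Q k1 k2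
    rwa [Fintype.card_fin, Fintype.card_fin] at this
  subst hm'
  have E := hC m G G' A A' ⟨P, Q, k1, k2⟩ hm hG hG' k3.symm
  exact homeo_of_links hf hg E

/-- the same with matrices indexed by finite types of letters. -/
theorem zeq_of_cong' {n : ℕ} (hC : ClassGProp n) {ι ι' : Type} [Fintype ι] [Fintype ι']
    {f : (ι → ℂ) → ℂ} {g : (ι' → ℂ) → ℂ} {κ κ' : Type} [Fintype κ] [DecidableEq κ]
    [Fintype κ'] [DecidableEq κ'] {m m' : ℕ} {G : S n m} {G' : S n m'}
    {A : Matrix κ κ ℤ} {A' : Matrix κ' κ' ℤ} (e : Fin m ≃ κ) (e' : Fin m' ≃ κ')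
    (hG : HasMat G (A.submatrix e e)) (hG' : HasMat G' (A'.submatrix e' e'))
    (hc : Cong ℤ A A') (hm : 3 ≤ m)
    (hf : IsLink {z : Sph ι | f z = 0} G) (hg : IsLink {z : Sph ι' | g z = 0} G') :
    ZEq f g :=
  zeq_of_cong hC hG hG'
    (Cong.trans (cong_submatrix A e) (Cong.trans hc (Cong.symm (cong_submatrix A' e')))) hm hf hg

end Crest.Agent.R267.Top406_808
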