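import Crest.Agent.R267.P4Defs_780

/-!
# Lifting a one-level congruence to nested levels (row 267, package P3.6)

A form `F` on one-level letters with weights `ws` gives the nested-level matrix
`A ((k,u),(l,v)) = [k ≤ l] F u v` on the pairs `(k,u)`, `2 ≤ k ≤ ws u`.
`lift_cong`: a base change of the one-level forms given by sparse columns `col` with
inverse `dcol`, both compatible with the weights, gives the congruence of the
nested-level matrices.  `lift_cong_tab`: the same from tables of letters in `ℕ × ℕ × ℕ` with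
conditions which the kernel evaluates quickly.
-/

set_option autoImplicit false

namespace Crest.Agent.R267.SFLift_330

open Matrix P4Defs_780

/-- coefficient of `x` in a formal sum. -/
def coef {Λ : Type} [DecidableEq Λ] (l : List (Λ × ℤ)) (x : Λ) : ℤ :=
  (l.map fun q => if q.1 = x then q.2 else 0).sum

/-- value of a functional on a formal sum. -/
def app {Λ : Type} (l : List (Λ × ℤ)) (G : Λ → ℤ) : ℤ := (l.map fun q => q.2 * G q.1).sum

@[simp] theorem coef_nil {Λ : Type} [DecidableEq Λ] (x : Λ) : coef ([] : List (Λ × ℤ)) x = 0 := rfl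

@[simp] theorem coef_cons {Λ : Type} [DecidableEq Λ] (q : Λ × ℤ) (l : List (Λ × ℤ)) (x : Λ) :
    coef (q :: l) x = (if q.1 = x then q.2 else 0) + coef l x := rfl

@[simp] theorem app_nil {Λ : Type} (G : Λ → ℤ) : app ([] : List (Λ × ℤ)) G = 0 := rfl

@[simp] theorem app_cons {Λ : Type} (q : Λ × ℤ) (l : List (Λ × ℤ)) (G : Λ → ℤ) :
    app (q :: l) G = q.2 * G q.1 + app l G := rfl

theorem app_zero {Λ : Type} (l : List (Λ × ℤ)) : app l (fun _ => 0) = 0 := by
  induction l with
  | nil => rfl
  | cons q l ih => simp [ih]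

/-- one-level form with weights. -/
structure Fm (Λ : Type) where
  ws : Λ → ℕ
  F : Λ → Λ → ℤ

/-- `lab` enumerates the index set of the nested-level matrix. -/
structure IsLab {Λ : Type} (M : Fm Λ) {I : Type} (lab : I → ℕ × Λ) : Prop where
  inj : Function.Injective lab
  mem : ∀ i, 2 ≤ (lab i).1 ∧ (lab i).1 ≤ M.ws (lab i).2
  surj : ∀ k u, 2 ≤ k → k ≤ M.ws u → ∃ i, lab i = (k, u)

/-- nested-level matrix. -/
def Mat {Λ : Type} (M : Fm Λ) {I : Type} (lab : I → ℕ × Λ) : Matrix I I ℤ :=
  fun x y => if (lab x).1 ≤ (lab y).1 then M.F (lab x).2 (lab y).2 else 0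

theorem ks {Λ : Type} [DecidableEq Λ] {M : Fm Λ} {I : Type} [Fintype I] [DecidableEq I]
    {lab : I → ℕ × Λ} (h : IsLab M lab) (k : ℕ) (hk : 2 ≤ k) (l : List (Λ × ℤ))
    (hl : ∀ q ∈ l, k ≤ M.ws q.1) (H : ℕ × Λ → ℤ) :
    ∑ i, (if (lab i).1 = k then coef l (lab i).2 else 0) * H (lab i) =
      app l (fun u => H (k, u)) := by
  induction l with
  | nil => simp
  | cons q l ih =>
    have ih' := ih (fun p hp => hl p (List.mem_cons_of_mem _ hp))
    obtain ⟨i0, hi0⟩ := h.surj k q.1 hk (hl q List.mem_cons_self)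
    rw [app_cons, ← ih']
    have h1 : ∀ i, (if (lab i).1 = k then coef (q :: l) (lab i).2 else 0) * H (lab i) =
        (if (lab i).1 = k ∧ q.1 = (lab i).2 then q.2 * H (lab i) else 0) +
          (if (lab i).1 = k then coef l (lab i).2 else 0) * H (lab i) := by
      intro i
      rw [coef_cons]
      by_cases a : (lab i).1 = k <;> by_cases b : q.1 = (lab i).2 <;> simp [a, b] <;> ring
    rw [Finset.sum_congr rfl (fun i _ => h1 i), Finset.sum_add_distrib]
    congr 1
    rw [Finset.sum_eq_single i0]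
    · rw [hi0]; simp
    · intro i _ hi
      rw [if_neg]
      rintro ⟨a, b⟩
      apply hi
      apply h.inj
      rw [hi0]
      exact Prod.ext a b.symm
    · simp

/-- the columns and rows of the base change. -/
def chg {Λ Λ' I I' : Type} [DecidableEq Λ] (lab : I → ℕ × Λ) (lab' : I' → ℕ × Λ')
    (col : Λ' → List (Λ × ℤ)) : Matrix I I' ℤ :=
  fun x y => if (lab x).1 = (lab' y).1 then coef (col (lab' y).2) (lab x).2 else 0

theorem chg_mul {Λ Λ' : Type} [DecidableEq Λ] [DecidableEq Λ'] {M : Fm Λ} {M' : Fm Λ'}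
    {I I' : Type} [Fintype I] [DecidableEq I] [Fintype I'] [DecidableEq I']
    {lab : I → ℕ × Λ} {lab' : I' → ℕ × Λ'} (h : IsLab M lab) (h' : IsLab M' lab')
    (col : Λ' → List (Λ × ℤ)) (dcol : Λ → List (Λ' × ℤ))
    (h2 : ∀ x, 2 ≤ M.ws x → ∀ q ∈ dcol x, M.ws x ≤ M'.ws q.1)
    (h4 : ∀ x x', 2 ≤ M.ws x → 2 ≤ M.ws x' →
      app (dcol x') (fun v => coef (col v) x) = if x' = x then 1 else 0) :
    chg lab lab' col * chg lab' lab dcol = 1 := by
  ext x x'
  rw [Matrix.mul_apply]
  have hx := h.mem x
  have hx' := h.mem x'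
  have e : ∀ y, chg lab lab' col x y * chg lab' lab dcol y x' =
      (if (lab' y).1 = (lab x').1 then coef (dcol (lab x').2) (lab' y).2 else 0) *
        (fun p : ℕ × Λ' => if (lab x).1 = p.1 then coef (col p.2) (lab x).2 else 0) (lab' y) := by
    intro y
    simp only [chg]
    ring
  have key := ks h' (lab x').1 hx'.1 (dcol (lab x').2)
    (fun q hq => le_trans hx'.2 (h2 _ (le_trans hx'.1 hx'.2) q hq))
    (fun p : ℕ × Λ' => if (lab x).1 = p.1 then coef (col p.2) (lab x).2 else 0)
  refine (Finset.sum_congr rfl (fun y _ => e y)).trans (key.trans ?_)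
  by_cases hk : (lab x).1 = (lab x').1
  · simp only [hk, if_true]
    rw [h4 _ _ (le_trans hx.1 hx.2) (le_trans hx'.1 hx'.2), Matrix.one_apply]
    by_cases hu : (lab x').2 = (lab x).2
    · have : x = x' := h.inj (Prod.ext hk hu.symm)
      simp [this]
    · have : x ≠ x' := fun e => hu (by rw [e])
      simp [hu, this]
  · simp only [hk, if_false]
    rw [app_zero, Matrix.one_apply, if_neg]
    rintro rfl
    exact hk rfl

theorem lift_cong {Λ Λ' : Type} [DecidableEq Λ] [DecidableEq Λ'] {M : Fm Λ} {M' : Fm Λ'}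
    {I I' : Type} [Fintype I] [DecidableEq I] [Fintype I'] [DecidableEq I']
    {lab : I → ℕ × Λ} {lab' : I' → ℕ × Λ'} (h : IsLab M lab) (h' : IsLab M' lab')
    (col : Λ' → List (Λ × ℤ)) (dcol : Λ → List (Λ' × ℤ))
    (h1 : ∀ y, 2 ≤ M'.ws y → ∀ q ∈ col y, M'.ws y ≤ M.ws q.1)
    (h2 : ∀ x, 2 ≤ M.ws x → ∀ q ∈ dcol x, M.ws x ≤ M'.ws q.1)
    (h3 : ∀ y x, 2 ≤ M'.ws y → 2 ≤ M.ws x → app (col y) (fun z => M.F z x) =
      app (dcol x) (fun v => M'.F y v))
    (h4 : ∀ x x', 2 ≤ M.ws x → 2 ≤ M.ws x' →
      app (dcol x') (fun v => coef (col v) x) = if x' = x then 1 else 0)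
    (h5 : ∀ y y', 2 ≤ M'.ws y → 2 ≤ M'.ws y' →
      app (col y') (fun v => coef (dcol v) y) = if y' = y then 1 else 0) :
    Cong ℤ (Mat M lab) (Mat M' lab') := by
  have e1 := chg_mul h h' col dcol h2 h4
  have e2 := chg_mul h' h dcol col h1 h5
  refine ⟨chg lab lab' col, chg lab' lab dcol, e1, e2, ?_⟩
  have e3 : (chg lab lab' col)ᵀ * Mat M lab = Mat M' lab' * chg lab' lab dcol := by
    ext y x
    rw [Matrix.mul_apply, Matrix.mul_apply]
    have hy := h'.mem y
    have hx := h.mem x
    have l1 : ∀ z, (chg lab lab' col)ᵀ y z * Mat M lab z x =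
        (if (lab z).1 = (lab' y).1 then coef (col (lab' y).2) (lab z).2 else 0) *
          (fun p : ℕ × Λ => if p.1 ≤ (lab x).1 then M.F p.2 (lab x).2 else 0) (lab z) := by
      intro z
      simp only [Matrix.transpose_apply, chg, Mat]
    have l2 : ∀ z, Mat M' lab' y z * chg lab' lab dcol z x =
        (if (lab' z).1 = (lab x).1 then coef (dcol (lab x).2) (lab' z).2 else 0) *
          (fun p : ℕ × Λ' => if (lab' y).1 ≤ p.1 then M'.F (lab' y).2 p.2 else 0) (lab' z) := by
      intro z
      simp only [chg, Mat]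
      ring
    have k1 := ks h (lab' y).1 hy.1 (col (lab' y).2)
      (fun q hq => le_trans hy.2 (h1 _ (le_trans hy.1 hy.2) q hq))
      (fun p : ℕ × Λ => if p.1 ≤ (lab x).1 then M.F p.2 (lab x).2 else 0)
    have k2 := ks h' (lab x).1 hx.1 (dcol (lab x).2)
      (fun q hq => le_trans hx.2 (h2 _ (le_trans hx.1 hx.2) q hq))
      (fun p : ℕ × Λ' => if (lab' y).1 ≤ p.1 then M'.F (lab' y).2 p.2 else 0)
    refine (Finset.sum_congr rfl (fun z _ => l1 z)).trans (k1.trans (Eq.trans ?_
      (k2.symm.trans (Finset.sum_congr rfl (fun z _ => (l2 z).symm)))))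
    by_cases hk : (lab' y).1 ≤ (lab x).1
    · simp only [hk, if_true]
      exact h3 _ _ (le_trans hy.1 hy.2) (le_trans hx.1 hx.2)
    · simp only [hk, if_false]
      rw [app_zero, app_zero]
  rw [e3, Matrix.mul_assoc, e2, Matrix.mul_one]

/-! ### tables, fast checks

All check functions are written with explicit recursors, so that the kernel evaluates them
without unfolding compiled recursions. -/

/-- letters. -/
abbrev T := ℕ × ℕ × ℕ

/-- tables of sparse columns. -/
abbrev Tab := List (T × List (T × ℤ))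

noncomputable def allR {α : Type} (l : List α) (p : α → Bool) : Bool :=
  List.rec true (fun a _ ih => cond (p a) ih false) l

noncomputable def eqZ (a b : ℤ) : Bool :=
  Int.rec (fun m => Int.rec (fun n => Nat.beq m n) (fun _ => false) b)
    (fun m => Int.rec (fun _ => false) (fun n => Nat.beq m n) b) a

def eqT (u v : T) : Bool := Nat.beq u.1 v.1 && Nat.beq u.2.1 v.2.1 && Nat.beq u.2.2 v.2.2

noncomputable def appR (l : List (T × ℤ)) (G : T → ℤ) : ℤ :=
  List.rec (Int.ofNat (nat_lit 0)) (fun q _ ih => Int.add (Int.mul q.2 (G q.1)) ih) l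

noncomputable def coefR (l : List (T × ℤ)) (x : T) : ℤ :=
  List.rec (Int.ofNat (nat_lit 0)) (fun q _ ih => cond (eqT q.1 x) (Int.add q.2 ih) ih) l

noncomputable def lookR (tab : Tab) (u : T) : List (T × ℤ) :=
  List.rec [] (fun p _ ih => cond (eqT p.1 u) p.2 ih) tab

noncomputable def addR (l : List (T × ℤ)) (c : ℤ) (r : List (T × ℤ)) : List (T × ℤ) :=
  List.rec r (fun q _ ih => (q.1, Int.mul c q.2) :: ih) l

noncomputable def compR (tab : Tab) (d : List (T × ℤ)) : List (T × ℤ) :=
  List.rec [] (fun p _ ih => addR (lookR tab p.1) p.2 ih) d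

noncomputable def unitR (s : List (T × ℤ)) (x : T) : Bool :=
  cond (eqZ (coefR s x) (Int.ofNat (nat_lit 1)))
    (allR s fun q => cond (eqT q.1 x) true (eqZ (coefR s q.1) (Int.ofNat (nat_lit 0)))) false

noncomputable def invR (tab dtab : Tab) : Bool :=
  allR dtab fun p => unitR (compR tab p.2) p.1

noncomputable def formR (F F' : T → T → ℤ) (tab dtab : Tab) : Bool :=
  allR tab fun p => allR dtab fun q =>
    eqZ (appR p.2 (fun z => F z q.1)) (appR q.2 (fun v => F' p.1 v))

noncomputable def flagR (ws ws' : T → ℕ) (tab : Tab) : Bool :=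
  allR tab fun p => allR p.2 fun q => Nat.ble (ws' p.1) (ws q.1)

noncomputable def memR (tab : Tab) (u : T) : Bool :=
  List.rec false (fun p _ ih => cond (eqT p.1 u) true ih) tab

theorem allR_iff {α : Type} (l : List α) (p : α → Bool) :
    allR l p = true ↔ ∀ a ∈ l, p a = true := by
  induction l with
  | nil => exact ⟨fun _ a ha => absurd ha List.not_mem_nil, fun _ => rfl⟩
  | cons a l ih =>
    have e : allR (a :: l) p = cond (p a) (allR l p) false := rfl
    rw [e, List.forall_mem_cons, ← ih]
    cases p a <;> simp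

theorem eqZ_eq {a b : ℤ} (h : eqZ a b = true) : a = b := by
  cases a <;> cases b
  · exact congrArg Int.ofNat (Nat.eq_of_beq_eq_true h)
  · exact absurd h Bool.false_ne_true
  · exact absurd h Bool.false_ne_true
  · exact congrArg Int.negSucc (Nat.eq_of_beq_eq_true h)

theorem eqT_iff (u v : T) : eqT u v = true ↔ u = v := by
  obtain ⟨a, b, c⟩ := u
  obtain ⟨a', b', c'⟩ := v
  unfold eqT
  simp only [Bool.and_eq_true, Nat.beq_eq, Prod.mk.injEq, and_assoc]

theorem appR_eq (l : List (T × ℤ)) (G : T → ℤ) : appR l G = app l G := by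
  induction l with
  | nil => rfl
  | cons q l ih =>
    have e : appR (q :: l) G = q.2 * G q.1 + appR l G := rfl
    rw [e, ih, app_cons]

theorem coefR_eq (l : List (T × ℤ)) (x : T) : coefR l x = coef l x := by
  induction l with
  | nil => rfl
  | cons q l ih =>
    have e : coefR (q :: l) x = cond (eqT q.1 x) (q.2 + coefR l x) (coefR l x) := rfl
    rw [e, ih, coef_cons]
    by_cases h : q.1 = x
    · rw [(eqT_iff _ _).2 h, cond_true, if_pos h]
    · have h' : eqT q.1 x = false := by
        rw [← Bool.not_eq_true, eqT_iff]; exact h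
      rw [h', cond_false, if_neg h, zero_add]

theorem coef_addR (l : List (T × ℤ)) (c : ℤ) (r : List (T × ℤ)) (x : T) :
    coef (addR l c r) x = c * coef l x + coef r x := by
  induction l with
  | nil =>
    have e : addR [] c r = r := rfl
    rw [e]; simp
  | cons q l ih =>
    have e : addR (q :: l) c r = (q.1, c * q.2) :: addR l c r := rfl
    rw [e, coef_cons, ih, coef_cons]
    split_ifs <;> ring

theorem coef_compR (tab : Tab) (d : List (T × ℤ)) (x : T) :
    coef (compR tab d) x = app d (fun v => coef (lookR tab v) x) := by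
  induction d with
  | nil => rfl
  | cons q d ih =>
    have e : compR tab (q :: d) = addR (lookR tab q.1) q.2 (compR tab d) := rfl
    rw [e, coef_addR, ih, app_cons]

theorem coef_of_unitR {s : List (T × ℤ)} {x : T} (h : unitR s x = true) (y : T) :
    coef s y = if x = y then 1 else 0 := by
  unfold unitR at h
  have h1 : eqZ (coefR s x) 1 = true := by
    by_contra h1
    rw [Bool.not_eq_true] at h1
    rw [show eqZ (coefR s x) (Int.ofNat (nat_lit 1)) = false from h1] at h
    exact absurd h Bool.false_ne_true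
  rw [show eqZ (coefR s x) (Int.ofNat (nat_lit 1)) = true from h1, cond_true, allR_iff] at h
  have h1' : coef s x = 1 := by rw [← coefR_eq]; exact eqZ_eq h1
  by_cases hxy : x = y
  · rw [if_pos hxy, ← hxy, h1']
  · rw [if_neg hxy]
    by_cases hy : ∃ q ∈ s, q.1 = y
    · obtain ⟨q, hq, rfl⟩ := hy
      have h2 := h q hq
      have h3 : eqT q.1 x = false := by
        rw [← Bool.not_eq_true, eqT_iff]; exact fun e => hxy e.symm
      rw [h3, cond_false] at h2
      rw [← coefR_eq]
      exact eqZ_eq h2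
    · push Not at hy
      clear h h1 h1'
      induction s with
      | nil => rfl
      | cons q s ih =>
        rw [coef_cons, if_neg (hy q List.mem_cons_self),
          ih (fun p hp => hy p (List.mem_cons_of_mem _ hp)), add_zero]

theorem lookR_mem (tab : Tab) (u : T) (hu : memR tab u = true) : (u, lookR tab u) ∈ tab := by
  induction tab with
  | nil => exact absurd hu Bool.false_ne_true
  | cons p tab ih =>
    have e1 : memR (p :: tab) u = cond (eqT p.1 u) true (memR tab u) := rfl
    have e2 : lookR (p :: tab) u = cond (eqT p.1 u) p.2 (lookR tab u) := rfl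
    rw [e1] at hu
    rw [e2]
    cases h : eqT p.1 u
    · rw [h, cond_false] at hu
      exact List.mem_cons_of_mem _ (ih hu)
    · rw [cond_true, ← (eqT_iff _ _).1 h]
      exact List.mem_cons_self

/-- **table form of the lifting theorem**. -/
theorem lift_cong_tab (M M' : Fm T)
    {I I' : Type} [Fintype I] [DecidableEq I] [Fintype I'] [DecidableEq I']
    {lab : I → ℕ × T} {lab' : I' → ℕ × T} (h : IsLab M lab) (h' : IsLab M' lab')
    (tab dtab : Tab)
    (t1 : ∀ y, 2 ≤ M'.ws y → memR tab y = true) (t2 : ∀ x, 2 ≤ M.ws x → memR dtab x = true)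
    (h1 : flagR M.ws M'.ws tab = true) (h2 : flagR M'.ws M.ws dtab = true)
    (h3 : formR M.F M'.F tab dtab = true)
    (h4 : invR tab dtab = true) (h5 : invR dtab tab = true) :
    Cong ℤ (Mat M lab) (Mat M' lab') := by
  have m1 : ∀ y, 2 ≤ M'.ws y → (y, lookR tab y) ∈ tab := fun y hy => lookR_mem tab y (t1 y hy)
  have m2 : ∀ x, 2 ≤ M.ws x → (x, lookR dtab x) ∈ dtab := fun x hx => lookR_mem dtab x (t2 x hx)
  unfold flagR at h1 h2
  unfold formR at h3
  unfold invR at h4 h5
  rw [allR_iff] at h1 h2 h3 h4 h5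
  refine lift_cong h h' (lookR tab) (lookR dtab) ?_ ?_ ?_ ?_ ?_
  · intro y hy q hq
    exact Nat.le_of_ble_eq_true ((allR_iff _ _).1 (h1 _ (m1 y hy)) q hq)
  · intro x hx q hq
    exact Nat.le_of_ble_eq_true ((allR_iff _ _).1 (h2 _ (m2 x hx)) q hq)
  · intro y x hy hx
    have := eqZ_eq ((allR_iff _ _).1 (h3 _ (m1 y hy)) _ (m2 x hx))
    rw [appR_eq, appR_eq] at this
    exact this
  · intro x x' hx hx'
    have := h4 _ (m2 x' hx')
    rw [← coef_compR]
    exact coef_of_unitR this x
  · intro y y' hy hy'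
    have := h5 _ (m1 y' hy')
    rw [← coef_compR]
    exact coef_of_unitR this y

/-- concatenation. -/
noncomputable def catR {α : Type} (l m : List α) : List α := List.rec m (fun a _ ih => a :: ih) l

theorem catR_eq {α : Type} (l m : List α) : catR l m = l ++ m := by
  induction l with
  | nil => rfl
  | cons a l ih => exact congrArg (List.cons a) ih

theorem allR_cat {α : Type} {l m : List α} {p : α → Bool} (h1 : allR l p = true)
    (h2 : allR m p = true) : allR (catR l m) p = true := by
  rw [catR_eq]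
  rw [allR_iff] at *
  intro a ha
  rcases List.mem_append.1 ha with h | h
  · exact h1 a h
  · exact h2 a h

end Crest.Agent.R267.SFLift_330
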