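import Crest.Agent.R267.P4Defs_780

/-!
# LEMMA SPLIT (row 267, post 267-330-S)

The form `[[R,b,0],[c,H,Q],[0,P,0]]` with `R`, `P` invertible over `ℤ` and `Q P⁻ᵀ` nilpotent is
congruent to `R ⊕ [[H',Q],[P,0]]` for every `H'`.
-/

set_option autoImplicit false

namespace Crest.Agent.R267.Split_330

open Matrix P4Defs_780

theorem geo {ρ μ : Type} [Fintype ρ] [DecidableEq ρ] [Fintype μ] [DecidableEq μ]
    (N : Matrix μ μ ℤ) (T : Matrix ρ ρ ℤ) (w : Matrix μ ρ ℤ) (m : ℕ) :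
    (∑ s ∈ Finset.range m, N ^ s * w * T ^ s) -
        N * (∑ s ∈ Finset.range m, N ^ s * w * T ^ s) * T = w - N ^ m * w * T ^ m := by
  induction m with
  | zero => simp
  | succ m ih =>
    rw [Finset.sum_range_succ, Matrix.mul_add, Matrix.add_mul]
    have e : N * (N ^ m * w * T ^ m) * T = N ^ (m + 1) * w * T ^ (m + 1) := by
      rw [pow_succ' N m, pow_succ T m]
      simp only [Matrix.mul_assoc]
    rw [e]
    have : ∀ a b c d : Matrix μ ρ ℤ, a + b - (c + d) = (a - c) + b - d := by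
      intro a b c d; abel
    rw [this, ih]
    abel

/-- three by three block matrix. -/
def B3 {ρ μ : Type} (a11 : Matrix ρ ρ ℤ) (a12 a13 : Matrix ρ μ ℤ) (a21 : Matrix μ ρ ℤ)
    (a22 a23 : Matrix μ μ ℤ) (a31 : Matrix μ ρ ℤ) (a32 a33 : Matrix μ μ ℤ) :
    Matrix (ρ ⊕ (μ ⊕ μ)) (ρ ⊕ (μ ⊕ μ)) ℤ :=
  fromBlocks a11 (fromCols a12 a13) (fromRows a21 a31) (fromBlocks a22 a23 a32 a33)

theorem B3_mul {ρ μ : Type} [Fintype ρ] [Fintype μ] (a11 : Matrix ρ ρ ℤ) (a12 a13 : Matrix ρ μ ℤ)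
    (a21 : Matrix μ ρ ℤ) (a22 a23 : Matrix μ μ ℤ) (a31 : Matrix μ ρ ℤ) (a32 a33 : Matrix μ μ ℤ)
    (b11 : Matrix ρ ρ ℤ) (b12 b13 : Matrix ρ μ ℤ) (b21 : Matrix μ ρ ℤ)
    (b22 b23 : Matrix μ μ ℤ) (b31 : Matrix μ ρ ℤ) (b32 b33 : Matrix μ μ ℤ) :
    B3 a11 a12 a13 a21 a22 a23 a31 a32 a33 * B3 b11 b12 b13 b21 b22 b23 b31 b32 b33 =
      B3 (a11 * b11 + a12 * b21 + a13 * b31) (a11 * b12 + a12 * b22 + a13 * b32)
        (a11 * b13 + a12 * b23 + a13 * b33) (a21 * b11 + a22 * b21 + a23 * b31)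
        (a21 * b12 + a22 * b22 + a23 * b32) (a21 * b13 + a22 * b23 + a23 * b33)
        (a31 * b11 + a32 * b21 + a33 * b31) (a31 * b12 + a32 * b22 + a33 * b32)
        (a31 * b13 + a32 * b23 + a33 * b33) := by
  ext i j
  rcases i with i | i | i <;> rcases j with j | j | j <;>
    simp [B3, Matrix.mul_apply, Matrix.add_apply, Fintype.sum_sum_type, add_assoc]

theorem B3_transpose {ρ μ : Type} (a11 : Matrix ρ ρ ℤ) (a12 a13 : Matrix ρ μ ℤ)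
    (a21 : Matrix μ ρ ℤ) (a22 a23 : Matrix μ μ ℤ) (a31 : Matrix μ ρ ℤ) (a32 a33 : Matrix μ μ ℤ) :
    (B3 a11 a12 a13 a21 a22 a23 a31 a32 a33)ᵀ = B3 a11ᵀ a21ᵀ a31ᵀ a12ᵀ a22ᵀ a32ᵀ a13ᵀ a23ᵀ a33ᵀ := by
  ext i j
  rcases i with i | i | i <;> rcases j with j | j | j <;> simp [B3]

theorem B3_one {ρ μ : Type} [DecidableEq ρ] [DecidableEq μ] :
    B3 (1 : Matrix ρ ρ ℤ) 0 0 0 (1 : Matrix μ μ ℤ) 0 0 0 1 = 1 := by
  ext i j
  rcases i with i | i | i <;> rcases j with j | j | j <;> simp [B3, Matrix.one_apply]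

theorem B3_congr {ρ μ : Type} {a11 b11 : Matrix ρ ρ ℤ} {a12 a13 b12 b13 : Matrix ρ μ ℤ}
    {a21 b21 : Matrix μ ρ ℤ} {a22 a23 b22 b23 : Matrix μ μ ℤ} {a31 b31 : Matrix μ ρ ℤ}
    {a32 a33 b32 b33 : Matrix μ μ ℤ} (h11 : a11 = b11) (h12 : a12 = b12) (h13 : a13 = b13)
    (h21 : a21 = b21) (h22 : a22 = b22) (h23 : a23 = b23) (h31 : a31 = b31) (h32 : a32 = b32)
    (h33 : a33 = b33) :
    B3 a11 a12 a13 a21 a22 a23 a31 a32 a33 = B3 b11 b12 b13 b21 b22 b23 b31 b32 b33 := by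
  rw [h11, h12, h13, h21, h22, h23, h31, h32, h33]

theorem base {ρ μ : Type} [Fintype ρ] [DecidableEq ρ] [Fintype μ] [DecidableEq μ]
    (R : Matrix ρ ρ ℤ) (b : Matrix ρ μ ℤ) (c : Matrix μ ρ ℤ) (H Q P H' : Matrix μ μ ℤ)
    (z : Matrix μ ρ ℤ) (al : Matrix ρ μ ℤ) (ga : Matrix μ μ ℤ)
    (e1 : b + R * zᵀ + al * P = 0) (e2 : c + z * R + Q * alᵀ = 0)
    (e3 : H + c * zᵀ + z * b + z * R * zᵀ + ga * P + Q * gaᵀ = H') :
    Cong ℤ (B3 R b 0 c H Q 0 P 0) (B3 R 0 0 0 H' Q 0 P 0) := by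
  refine ⟨B3 1 zᵀ 0 0 1 0 alᵀ gaᵀ 1, B3 1 (-zᵀ) 0 0 1 0 (-alᵀ) (alᵀ * zᵀ - gaᵀ) 1, ?_, ?_, ?_⟩
  · rw [B3_mul, ← B3_one]
    refine B3_congr ?_ ?_ ?_ ?_ ?_ ?_ ?_ ?_ ?_ <;>
      simp only [Matrix.mul_one, Matrix.one_mul, Matrix.mul_zero, Matrix.zero_mul, add_zero,
        zero_add, Matrix.mul_neg] <;> abel
  · rw [B3_mul, ← B3_one]
    refine B3_congr ?_ ?_ ?_ ?_ ?_ ?_ ?_ ?_ ?_ <;>
      simp only [Matrix.mul_one, Matrix.one_mul, Matrix.mul_zero, Matrix.zero_mul, add_zero,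
        zero_add, Matrix.neg_mul] <;> abel
  · rw [B3_transpose, B3_mul, B3_mul]
    have f1 : R * zᵀ + (b + al * P) = 0 := by rw [← e1]; abel
    refine B3_congr ?_ ?_ ?_ ?_ ?_ ?_ ?_ ?_ ?_ <;>
      simp only [Matrix.mul_one, Matrix.one_mul, Matrix.mul_zero, Matrix.zero_mul, add_zero,
        zero_add, Matrix.transpose_transpose, Matrix.transpose_one, Matrix.transpose_zero]
    · exact f1
    · rw [← e2]; abel
    · rw [← e3, Matrix.add_mul]; abel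

/-- **LEMMA SPLIT**. -/
theorem split {ρ μ : Type} [Fintype ρ] [DecidableEq ρ] [Fintype μ] [DecidableEq μ]
    (R : Matrix ρ ρ ℤ) (b : Matrix ρ μ ℤ) (c : Matrix μ ρ ℤ) (H Q P H' : Matrix μ μ ℤ)
    (Pi : Matrix μ μ ℤ) (hR : IsUnit R.det) (hP : P * Pi = 1) (m : ℕ) (hN : (Q * Piᵀ) ^ m = 0) :
    Cong ℤ (B3 R b 0 c H Q 0 P 0) (B3 R 0 0 0 H' Q 0 P 0) := by
  have hP' : Pi * P = 1 := mul_eq_one_comm.1 hP
  have hR1 : R * R⁻¹ = 1 := Matrix.mul_nonsing_inv _ hR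
  have hR2 : R⁻¹ * R = 1 := Matrix.nonsing_inv_mul _ hR
  set Ri := R⁻¹ with hRi
  set N := Q * Piᵀ with hNdef
  -- z
  set w := (-c + N * bᵀ) * Ri with hw
  set z := ∑ s ∈ Finset.range m, N ^ s * w * (Rᵀ * Ri) ^ s with hz
  have gz : z - N * z * (Rᵀ * Ri) = w := by
    have := geo N (Rᵀ * Ri) w m
    rw [hN, Matrix.zero_mul, Matrix.zero_mul, sub_zero] at this
    exact this
  have gz' : z * R - N * z * Rᵀ = -c + N * bᵀ := by
    have h1 : (z - N * z * (Rᵀ * Ri)) * R = w * R := by rw [gz]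
    have h2 : N * z * (Rᵀ * Ri) * R = N * z * Rᵀ := by
      rw [Matrix.mul_assoc, Matrix.mul_assoc Rᵀ, hR2, Matrix.mul_one]
    have h3 : w * R = -c + N * bᵀ := by
      rw [hw, Matrix.mul_assoc, hR2, Matrix.mul_one]
    rw [Matrix.sub_mul, h2, h3] at h1
    exact h1
  set al := -(b + R * zᵀ) * Pi with hal
  have e1 : b + R * zᵀ + al * P = 0 := by
    rw [hal, Matrix.mul_assoc, hP', Matrix.mul_one]; abel
  have e2 : c + z * R + Q * alᵀ = 0 := by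
    have : Q * alᵀ = -(N * bᵀ) - N * z * Rᵀ := by
      rw [hal, Matrix.transpose_mul, Matrix.transpose_neg, Matrix.transpose_add,
        Matrix.transpose_mul, Matrix.transpose_transpose, ← Matrix.mul_assoc, ← hNdef,
        Matrix.mul_neg, Matrix.mul_add, Matrix.mul_assoc N z]
      abel
    rw [this]
    have h4 : z * R = -c + N * bᵀ + N * z * Rᵀ := by rw [← gz']; abel
    rw [h4]; abel
  -- gamma
  set K := H' - (H + c * zᵀ + z * b + z * R * zᵀ) with hK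
  set g := ∑ s ∈ Finset.range m, N ^ s * (K * Pi) * (Qᵀ * Pi) ^ s with hg
  have gg : g - N * g * (Qᵀ * Pi) = K * Pi := by
    have := geo N (Qᵀ * Pi) (K * Pi) m
    rw [hN, Matrix.zero_mul, Matrix.zero_mul, sub_zero] at this
    exact this
  have gg' : g * P - N * g * Qᵀ = K := by
    have h1 : (g - N * g * (Qᵀ * Pi)) * P = K * Pi * P := by rw [gg]
    have h2 : N * g * (Qᵀ * Pi) * P = N * g * Qᵀ := by
      rw [Matrix.mul_assoc, Matrix.mul_assoc Qᵀ, hP', Matrix.mul_one]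
    rw [Matrix.sub_mul, h2, Matrix.mul_assoc K, hP', Matrix.mul_one] at h1
    exact h1
  set ga := g - Q * gᵀ * Pi with hga
  have e3' : ga * P + Q * gaᵀ = K := by
    have h1 : ga * P = g * P - Q * gᵀ := by
      rw [hga, Matrix.sub_mul, Matrix.mul_assoc (Q * gᵀ), hP', Matrix.mul_one]
    have h2 : Q * gaᵀ = Q * gᵀ - N * g * Qᵀ := by
      rw [hga, Matrix.transpose_sub, Matrix.transpose_mul, Matrix.transpose_mul,
        Matrix.transpose_transpose, Matrix.mul_sub, ← Matrix.mul_assoc, ← hNdef,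
        ← Matrix.mul_assoc]
    rw [h1, h2, ← gg']; abel
  refine base R b c H Q P H' z al ga e1 e2 ?_
  have : H + c * zᵀ + z * b + z * R * zᵀ + ga * P + Q * gaᵀ =
      (H + c * zᵀ + z * b + z * R * zᵀ) + (ga * P + Q * gaᵀ) := by abel
  rw [this, e3', hK]; abel

end Crest.Agent.R267.Split_330
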