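import Crest.Agent.R267.StLit_143

/-!
# Row 267 (S0406), arrow C4 (helper143): own words minus product boxes have no bad points

`ownReg : OwnReg X` from: the windows are `0` or `1` at the centres of the positive lobes and the
coefficients are large, `1 < ce e * ∏ (be e j) ^ (be e j)`.
-/

set_option autoImplicit false
set_option linter.unusedSectionVars false

noncomputable section

open Set Filter Topology
open scoped ContDiff ComplexConjugate
open Crest.Agent.R267.Ang_739 Crest.Agent.R267.StairFn_739 Crest.Agent.R267.StairPh_739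
open Crest.Agent.R267.Start_862 (rp ip Pt Sys)
open Crest.Agent.R267.StLit_143

namespace Crest.Agent.R267.StOwn_143

variable {ε : Type} [Fintype ε]

/-- windows and coefficients of the boxes -/
structure Big (X : HD ε) : Prop where
  one : ∀ e i, X.be e i = 0 → ∀ x, X.lam e i x = 1
  win : ∀ e i x, cis (X.p i x) = 1 → X.lam e i x = 0 ∨ X.lam e i x = 1
  big : ∀ e, 1 < X.ce e * ∏ j, X.be e j ^ X.be e j

/-- a unit vector which is real along and across -/
theorem cis_real {x : ℝ} (h : (cis x).im = 0) : cis x = 1 ∨ cis x = -1 := by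
  have h1 : ‖cis x‖ = 1 := norm_cis _
  have h2 : (cis x).re * (cis x).re = 1 := by
    have h3 := Complex.normSq_apply (cis x)
    rw [Complex.normSq_eq_norm_sq, h1, h] at h3
    linarith
  rcases mul_self_eq_one_iff.1 h2 with h4 | h4
  · left; exact Complex.ext h4 (by simpa using h)
  · right; exact Complex.ext (by simpa using h4) (by simpa using h)

theorem ownReg {X : HD ε} (hX : X.OK) (hb : Big X) : OwnReg X := by
  intro θ r hr hr0 ζ hζ h0 hrad hang
  set e : Fin 4 → ℂ := fun i => cis (X.p i (θ i)) with he
  set T : ε → ℝ := fun k => bx X k ((0, θ), r) with hT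
  have hT0 : ∀ k, 0 ≤ T k := fun k => bx_nonneg hX k _
  have hN0 : ∀ i, 0 ≤ ∑ k, X.be k i * T k := fun i =>
    Finset.sum_nonneg fun k _ => mul_nonneg (hX.be0 k i) (hT0 k)
  -- across
  have hac : ∀ i, deriv (X.p i) (θ i) ≠ 0 → r i * ip ζ (e i) = 0 := by
    intro i hi
    have h1 := hang i
    have h2 : ∑ k, X.ce k * dl X k i θ * ∏ j, |r j| ^ X.be k j = 0 := by
      refine Finset.sum_eq_zero fun k _ => ?_
      have : dl X k i θ = 0 := by
        unfold dl
        rw [hX.lq k i _ hi, zero_mul]
      rw [this, mul_zero, zero_mul]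
    rw [h2, zero_mul, add_zero] at h1
    exact (mul_eq_zero.1 h1).resolve_left hi
  have hfl : ∀ i, deriv (X.p i) (θ i) = 0 → e i = -1 := fun i hi => hX.pf i _ hi
  have him : ∀ i, r i * ip ζ (e i) = (if deriv (X.p i) (θ i) = 0 then r i else 0) * ζ.im := by
    intro i
    split_ifs with h
    · rw [hfl i h, Start_862.ip_neg_one]
    · rw [hac i h, zero_mul]
  have htot : ((∑ i, if deriv (X.p i) (θ i) = 0 then r i else 0) + ∑ k, T k) * ζ.im = 0 := by
    have h1 : (conj ζ * ((∑ i, (r i : ℂ) * e i) - ((∑ k, T k : ℝ) : ℂ))).im = 0 := by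
      rw [h0, mul_zero]; rfl
    rw [mul_sub, Complex.sub_im, Finset.mul_sum, Complex.im_sum] at h1
    have h2 : ∀ i, (conj ζ * ((r i : ℂ) * e i)).im = r i * ip ζ (e i) := fun i => by
      have : conj ζ * ((r i : ℂ) * e i) = (r i : ℂ) * (conj ζ * e i) := by ring
      rw [this, Complex.im_ofReal_mul]; rfl
    have h3 : (conj ζ * ((∑ k, T k : ℝ) : ℂ)).im = -((∑ k, T k) * ζ.im) := by
      rw [mul_comm, Complex.im_ofReal_mul, Complex.conj_im]; ring
    rw [Finset.sum_congr rfl fun i _ => (h2 i).trans (him i), ← Finset.sum_mul, h3] at h1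
    linarith
  have hflat0 : ∀ i, 0 ≤ (if deriv (X.p i) (θ i) = 0 then r i else 0) := fun i => by
    split_ifs
    · exact hr i
    · exact le_rfl
  by_cases hz : ζ.im = 0
  · -- real conormal
    have hre : ζ.re = 1 ∨ ζ.re = -1 := by
      have h3 := Complex.normSq_apply ζ
      rw [Complex.normSq_eq_norm_sq, hζ, hz] at h3
      exact mul_self_eq_one_iff.1 (by linarith)
    have hsq : ζ.re * ζ.re = 1 := by rcases hre with h | h <;> rw [h] <;> norm_num
    have hrp : ∀ w : ℂ, rp ζ w = ζ.re * w.re := fun w => by
      unfold rp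
      rw [Complex.mul_re, Complex.conj_re, Complex.conj_im, hz]
      ring
    have hip : ∀ w : ℂ, ip ζ w = ζ.re * w.im := fun w => by
      unfold ip
      rw [Complex.mul_im, Complex.conj_re, Complex.conj_im, hz]
      ring
    have hR : ∀ i, r i * (e i).re = ∑ k, X.be k i * T k := by
      intro i
      have h1 := hrad i
      rw [hrp] at h1
      change r i * (ζ.re * (e i).re) = (∑ k, X.be k i * T k) * ζ.re at h1
      linear_combination ζ.re * h1 - (r i * (e i).re - ∑ k, X.be k i * T k) * hsq
    -- active variables are at `+1`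
    have hone : ∀ i, r i ≠ 0 → e i = 1 := by
      intro i hi
      have hpos : 0 < r i := lt_of_le_of_ne (hr i) (Ne.symm hi)
      have h1 : e i = 1 ∨ e i = -1 := by
        by_cases h : deriv (X.p i) (θ i) = 0
        · exact Or.inr (hfl i h)
        · have h2 := hac i h
          rw [hip] at h2
          have h3 : (e i).im = 0 := by
            rcases mul_eq_zero.1 h2 with h4 | h4
            · exact absurd h4 hi
            · refine (mul_eq_zero.1 h4).resolve_left ?_
              rcases hre with h | h <;> rw [h] <;> norm_num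
          exact cis_real h3
      rcases h1 with h1 | h1
      · exact h1
      · exfalso
        have h2 := hR i
        rw [h1] at h2
        have h3 := hN0 i
        simp only [Complex.neg_re, Complex.one_re] at h2
        linarith
    have hrN : ∀ i, r i = ∑ k, X.be k i * T k := by
      intro i
      by_cases h : r i = 0
      · rw [h]
        have h1 := hR i
        rw [h, zero_mul] at h1
        exact h1
      · have h1 := hR i
        rw [hone i h, Complex.one_re, mul_one] at h1
        exact h1
    -- some box is active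
    obtain ⟨i, hi⟩ : ∃ i, r i ≠ 0 := by
      by_contra hcon
      push Not at hcon
      exact hr0 (funext hcon)
    obtain ⟨k, hk⟩ : ∃ k, T k ≠ 0 := by
      by_contra hcon
      push Not at hcon
      refine hi ?_
      rw [hrN i]
      exact Finset.sum_eq_zero fun k _ => by rw [hcon k, mul_zero]
    have hkpos : 0 < T k := lt_of_le_of_ne (hT0 k) (Ne.symm hk)
    have hge : ∀ j, X.be k j * T k ≤ r j := by
      intro j
      rw [hrN j]
      exact Finset.single_le_sum (f := fun k => X.be k j * T k)
        (fun k _ => mul_nonneg (hX.be0 k j) (hT0 k)) (Finset.mem_univ k)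
    have hlam : ∀ j, X.lam k j (θ j) = 1 := by
      intro j
      by_cases h : X.be k j = 0
      · exact hb.one k j h _
      · have h1 : 0 < r j :=
          (mul_pos (lt_of_le_of_ne (hX.be0 k j) (Ne.symm h)) hkpos).trans_le (hge j)
        rcases hb.win k j (θ j) (hone j h1.ne') with h2 | h2
        · exfalso
          refine hk ?_
          simp only [hT, bx]
          have : ∏ j, X.lam k j (θ j) = 0 := Finset.prod_eq_zero (Finset.mem_univ j) h2
          rw [this]; ring
        · exact h2
    have hTk : T k = X.ce k * ∏ j, |r j| ^ X.be k j := by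
      simp only [hT, bx]
      rw [Finset.prod_congr rfl fun j _ => hlam j, Finset.prod_const_one, mul_one]
    have h5 : ∏ j, (X.be k j * T k) ^ X.be k j ≤ ∏ j, |r j| ^ X.be k j := by
      refine Finset.prod_le_prod (fun j _ => Real.rpow_nonneg
        (mul_nonneg (hX.be0 k j) hkpos.le) _) fun j _ => ?_
      rw [abs_of_nonneg (hr j)]
      exact Real.rpow_le_rpow (mul_nonneg (hX.be0 k j) hkpos.le) (hge j) (hX.be0 k j)
    have h6 : ∏ j, (X.be k j * T k) ^ X.be k j = (∏ j, X.be k j ^ X.be k j) * T k := by
      rw [Finset.prod_congr rfl fun j _ => Real.mul_rpow (hX.be0 k j) hkpos.le,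
        Finset.prod_mul_distrib, ← Real.rpow_sum_of_pos hkpos, hX.be1, Real.rpow_one]
    rw [h6] at h5
    have h7 := mul_le_mul_of_nonneg_left h5 (hX.ce0 k)
    rw [← hTk, ← mul_assoc] at h7
    have h8 := hb.big k
    nlinarith
  · -- non real conormal
    have h1 := (mul_eq_zero.1 htot).resolve_right hz
    have hTs : 0 ≤ ∑ k, T k := Finset.sum_nonneg fun k _ => hT0 k
    have hfs : 0 ≤ ∑ i, (if deriv (X.p i) (θ i) = 0 then r i else 0) :=
      Finset.sum_nonneg fun i _ => hflat0 i
    have hT1 : ∀ k, T k = 0 := fun k =>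
      (Finset.sum_eq_zero_iff_of_nonneg fun k _ => hT0 k).1 (by linarith) k (Finset.mem_univ k)
    have hf1 : ∀ i, (if deriv (X.p i) (θ i) = 0 then r i else 0) = 0 := fun i =>
      (Finset.sum_eq_zero_iff_of_nonneg fun i _ => hflat0 i).1 (by linarith) i (Finset.mem_univ i)
    refine hr0 (funext fun i => ?_)
    change r i = 0
    by_cases h : deriv (X.p i) (θ i) = 0
    · have := hf1 i
      rwa [if_pos h] at this
    · have h2 := hac i h
      have h3 := hrad i
      have h4 : ∑ k, X.be k i * T k = 0 :=
        Finset.sum_eq_zero fun k _ => by rw [hT1 k, mul_zero]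
      change r i * rp ζ (e i) = (∑ k, X.be k i * T k) * ζ.re at h3
      rw [h4, zero_mul] at h3
      have h5 := Start_862.rp_sq_add ζ (e i)
      have h6 : ‖e i‖ = 1 := norm_cis _
      rw [hζ, h6] at h5
      by_contra hne
      have h7 := (mul_eq_zero.1 h2).resolve_left hne
      have h8 := (mul_eq_zero.1 h3).resolve_left hne
      rw [h7, h8] at h5
      norm_num at h5

/-- **START, literal form, with the boxes.** -/
theorem start {X : HD ε} (hX : X.OK) (hb : Big X) {d : ℝ} (hd : 0 < d) (hd1 : 15 * d < 1) :
    ∃ M0 > 0, ∀ M : ℝ, M0 ≤ M → Hm_951.HPath0 (PolF_943.PF X.E (X.C M hd)) :=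
  StLit_143.start hX (ownReg hX hb) hd hd1

end Crest.Agent.R267.StOwn_143

end
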