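import Crest.Agent.R267.HubFacts_370
import Crest.Agent.R267.RndP_222

/-!
# Row 267 (helper370): integer positions (states) of the literal words, flat lifts and windows

A state of a variable is a number `s ≤ 2 n` (`n` = number of hub lobes): `s = 2 i + 1` = hub lobe `i`
on its positive ray, `s = 2 i` (`0 < i < n`) = hub gap `i - 1` (before the lobe `i`), `s = 0` = gaps of
the word sector (and the two gaps next to it), `s = 2 n` = a lobe of the word sector with own sign `+`.
(Letters of `StTab_568`, `StTabG_222`.)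

* `Stt n M w p q s k` : what a state says; `state` : every point where the own phase is near a
  multiple of `π` has a state; `state_lit` for the literal `pp`, `hh`, `ww`.
-/

set_option autoImplicit false

noncomputable section

open Finset Set Filter Topology
open Crest.Agent.R267.T3aNDefs_88 Crest.Agent.R267.Ang_739
open Crest.Agent.R267.GlNDefs_9 Crest.Agent.R267.HubDefs_284
open Crest.Agent.R267.WordPh_9 Crest.Agent.R267.WordPh2_9 Crest.Agent.R267.HubInst_370
open Crest.Agent.R267.HubFacts_370

namespace Crest.Agent.R267.StPos_370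

/-- position of a state in half turns -/
def ps0 (n s : ℕ) : ℤ := if s = 2 * n then -1 else (s : ℤ) - 1

/-- own sign `+` -/
def Plus (n s : ℕ) : Prop := s = 2 * n ∨ s % 2 = 1

/-- the state `s` of a point with own phase `p`, flat phase `q`, windows `w lo hi` (`1` on the arcs
`lo < i ≤ hi`). -/
structure Stt (n M : ℕ) (w : ℕ → ℕ → ℝ) (p q : ℝ) (τ : ℝ) (s : ℕ) (k : ℤ) : Prop where
  le : s ≤ 2 * n
  near : |q - Real.pi * ((ps0 n s + 2 * n * k : ℤ) : ℝ)| ≤ τ
  sgn : 0 < Real.cos p ↔ Plus n s
  w01 : ∀ lo hi, lo ≤ hi → hi ≤ M → Plus n s → w lo hi = 0 ∨ w lo hi = 1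
  /-- hub lobe `s / 2` -/
  wray : ∀ lo hi, lo ≤ hi → hi ≤ M → s ≠ 2 * n → s % 2 = 1 →
    w lo hi = if lo < s / 2 ∧ s / 2 ≤ hi then 1 else 0
  /-- hub gap `s / 2 - 1` -/
  wgap : ∀ lo hi, lo ≤ hi → hi ≤ M → s ≠ 2 * n → s ≠ 0 → s % 2 = 0 →
    (s / 2 ≤ lo ∨ hi + 1 < s / 2) → w lo hi = 0
  /-- gaps of the word sector -/
  wzero : ∀ lo hi, lo ≤ hi → hi ≤ M → s = 0 → hi + 1 < n → w lo hi = 0
  /-- lobes of the word sector -/
  wJ0 : ∀ lo hi, lo ≤ hi → hi ≤ M → s = 2 * n → hi < n → w lo hi = 0
  wJ1 : ∀ lo hi, lo ≤ hi → hi = M → s = 2 * n → lo < n → w lo hi = 1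

variable {M : ℕ} {α β : ℕ → ℝ} {e : ℕ → ℝ}

theorem cos_near_even {x τ : ℝ} (hτ : τ ≤ 1 / 4) {m : ℤ}
    (h : |x - Real.pi * ((2 * m : ℤ) : ℝ)| ≤ τ) : 0 < Real.cos x := by
  have hpi := Real.pi_gt_three
  have e1 : Real.cos x = Real.cos (x - Real.pi * ((2 * m : ℤ) : ℝ)) := by
    rw [show x - Real.pi * ((2 * m : ℤ) : ℝ) = x - m * (2 * Real.pi) by push_cast; ring,
      Real.cos_sub_int_mul_two_pi]
  rw [e1]
  rw [abs_le] at h
  exact Real.cos_pos_of_mem_Ioo ⟨by linarith [h.1], by linarith [h.2]⟩

theorem cos_near_odd {x τ : ℝ} (hτ : τ ≤ 1 / 4) {m : ℤ}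
    (h : |x - Real.pi * ((2 * m + 1 : ℤ) : ℝ)| ≤ τ) : Real.cos x < 0 := by
  have h1 : |(x - Real.pi) - Real.pi * ((2 * m : ℤ) : ℝ)| ≤ τ := by
    rw [show (x - Real.pi) - Real.pi * ((2 * m : ℤ) : ℝ) = x - Real.pi * ((2 * m + 1 : ℤ) : ℝ) by
      push_cast; ring]
    exact h
  have h2 := cos_near_even hτ h1
  rw [Real.cos_sub_pi] at h2
  linarith

/-- values of the flat lift on the last piece -/
theorem lift_flat (h : Arcs M α β) {n : ℕ} (hn : 1 ≤ n) (hnM : n ≤ M + 1) {y : ℝ}
    (h1 : β (n - 1) ≤ y) (h2 : y ≤ α 0 + 2 * Real.pi) :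
    wph (fun _ => 1) (n - 1) (al' α n) β y = Real.pi * (2 * n - 1) := by
  have h' := arcs' h hn hnM
  rw [wph_flat h' (i := n - 1) le_rfl h1 (by unfold al'; rw [if_neg (by omega)]; exact h2),
    cen_one, se_one]
  have : ((n - 1 : ℕ) : ℝ) = n - 1 := by push_cast [Nat.cast_sub hn]; ring
  rw [this]; ring

/-- the state of a point of the fundamental domain -/
theorem state_dom (h : Arcs M α β) (he : ∀ l, e l = 1 ∨ e l = -1) {n : ℕ} (hn : 1 ≤ n)
    (hnM : n ≤ M + 1) (hs : ∀ i < n, se e i = 1) {τ : ℝ} (hτ : τ ≤ 1 / 4) {y : ℝ} (hy1 : α 0 ≤ y)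
    (hy2 : y < α 0 + 2 * Real.pi) (hp : ∃ m : ℤ, |wph e M α β y - Real.pi * m| ≤ τ) :
    ∃ (s : ℕ) (k : ℤ), Stt n M (fun lo hi => wn α β lo hi y) (wph e M α β y)
      (wph (fun _ => 1) (n - 1) (al' α n) β y) τ s k := by
  have hpi := Real.pi_gt_three
  have h' := arcs' h hn hnM
  obtain ⟨m, hm⟩ := hp
  have hτ0 : 0 ≤ τ := (abs_nonneg _).trans hm
  obtain ⟨i, hi, h1, h2⟩ := exists_piece h hy1 hy2
  -- windows in lobes
  have wl : y ≤ β i → ∀ lo hi', lo ≤ hi' → hi' ≤ M →
      wn α β lo hi' y = if lo < i ∧ i ≤ hi' then 1 else 0 :=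
    fun h3 lo hi' a b => wn_lobe h a b hi h1 h3
  have wg : β i ≤ y → ∀ lo hi', lo ≤ hi' → hi' ≤ M → (i < lo ∨ hi' < i) →
      wn α β lo hi' y = 0 :=
    fun h3 lo hi' a b c => wn_supp h a b hi c h3 h2.le
  by_cases hin : i < n
  · rcases le_or_gt y (β i) with h4 | h4
    · -- hub lobe
      have hwl := wl h4
      have hq := val_hub h hn hnM hs hin h1 h4
      have hv := wph_val h (e := e) hi h1 h2.le
      rw [cen_hub hs hin, hs i hin] at hv
      set u := T3aDefs_957.st ((y - α i) / (β i - α i)) with hu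
      have hu0 : 0 ≤ u := Calc_957.st_nonneg _
      have hu1 : u ≤ 1 := Calc_957.st_le_one _
      have hb1 : wph e M α β y ≤ Real.pi * (2 * i + 1) := by rw [hv]; nlinarith
      have hb2 : Real.pi * (2 * i - 1) ≤ wph e M α β y := by rw [hv]; nlinarith
      rw [abs_le] at hm
      -- `m ∈ {2i-1, 2i, 2i+1}`
      have m1 : m ≤ 2 * i + 1 := by
        by_contra hc
        have : (2 * i + 2 : ℝ) ≤ m := by exact_mod_cast (by omega : (2 * i + 2 : ℤ) ≤ m)
        nlinarith [hm.1]
      have m2 : 2 * (i : ℤ) - 1 ≤ m := by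
        by_contra hc
        have : (m : ℝ) ≤ 2 * i - 2 := by exact_mod_cast (by omega : m ≤ 2 * (i : ℤ) - 2)
        nlinarith [hm.2]
      have hm' : |wph e M α β y - Real.pi * m| ≤ τ := abs_le.2 hm
      rcases (by omega : m = 2 * i - 1 ∨ m = 2 * i ∨ m = 2 * i + 1) with rfl | rfl | rfl
      · -- left end: state `2 i`
        have hneg : Real.cos (wph e M α β y) < 0 := by
          refine cos_near_odd hτ (m := i - 1) ?_
          rw [show (2 * ((i : ℤ) - 1) + 1 : ℤ) = 2 * i - 1 by ring]; exact hm'
        refine ⟨2 * i, 0, ⟨by omega, ?_, ?_, ?_, ?_, ?_, ?_, ?_, ?_⟩⟩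
        · rw [← hq]
          unfold ps0
          rw [if_neg (by omega)]
          push_cast at hm' ⊢
          simpa using hm'
        · refine ⟨fun h5 => absurd h5 (not_lt.2 hneg.le), ?_⟩
          rintro (h5 | h5) <;> omega
        · rintro lo hi' - - (h5 | h5) <;> omega
        · intro lo hi' _ _ _ h5; omega
        · intro lo hi' a b _ _ _ h5
          show wn α β lo hi' y = 0
          rw [hwl lo hi' a b, if_neg (by omega)]
        · intro lo hi' a b h5 h6
          show wn α β lo hi' y = 0
          rw [hwl lo hi' a b, if_neg (by omega)]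
        · intro lo hi' a b h5 h6; omega
        · intro lo hi' a b h5 h6; omega
      · -- centre: state `2 i + 1`
        have hpos : 0 < Real.cos (wph e M α β y) := cos_near_even hτ (m := i) hm'
        refine ⟨2 * i + 1, 0, ⟨by omega, ?_, ?_, ?_, ?_, ?_, ?_, ?_, ?_⟩⟩
        · rw [← hq]
          unfold ps0
          rw [if_neg (by omega)]
          push_cast at hm' ⊢
          simpa using hm'
        · exact ⟨fun _ => Or.inr (by omega), fun _ => hpos⟩
        · intro lo hi' a b _
          show wn α β lo hi' y = 0 ∨ wn α β lo hi' y = 1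
          rw [hwl lo hi' a b]
          split_ifs
          · exact Or.inr rfl
          · exact Or.inl rfl
        · intro lo hi' a b _ _
          show wn α β lo hi' y = _
          rw [hwl lo hi' a b, show (2 * i + 1) / 2 = i by omega]
        · intro lo hi' a b _ _ h5; omega
        · intro lo hi' a b h5 h6; omega
        · intro lo hi' a b h5 h6; omega
        · intro lo hi' a b h5 h6; omega
      · -- right end
        have hneg : Real.cos (wph e M α β y) < 0 := cos_near_odd hτ (m := i) hm'
        by_cases hin' : i + 1 < n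
        · refine ⟨2 * i + 2, 0, ⟨by omega, ?_, ?_, ?_, ?_, ?_, ?_, ?_, ?_⟩⟩
          · rw [← hq]
            unfold ps0
            rw [if_neg (by omega)]
            push_cast at hm' ⊢
            have e1 : Real.pi * (2 * (i : ℝ) + 2 - 1 + 2 * n * 0) = Real.pi * (2 * i + 1) := by ring
            rw [e1]; exact hm'
          · refine ⟨fun h5 => absurd h5 (not_lt.2 hneg.le), ?_⟩
            rintro (h5 | h5) <;> omega
          · rintro lo hi' - - (h5 | h5) <;> omega
          · intro lo hi' _ _ _ h5; omega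
          · intro lo hi' a b _ _ _ h5
            show wn α β lo hi' y = 0
            rw [hwl lo hi' a b, if_neg (by omega)]
          · intro lo hi' a b h5 h6; omega
          · intro lo hi' a b h5 h6; omega
          · intro lo hi' a b h5 h6; omega
        · have hie : i = n - 1 := by omega
          refine ⟨0, 1, ⟨by omega, ?_, ?_, ?_, ?_, ?_, ?_, ?_, ?_⟩⟩
          · rw [← hq]
            unfold ps0
            rw [if_neg (by omega)]
            have hn' : (n : ℝ) = i + 1 := by
              have : n = i + 1 := by omega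
              rw [this]; push_cast; ring
            push_cast at hm' ⊢
            rw [hn']
            have e1 : Real.pi * (-1 + 2 * ((i : ℝ) + 1) * 1) = Real.pi * (2 * i + 1) := by ring
            rw [e1]; exact hm'
          · refine ⟨fun h5 => absurd h5 (not_lt.2 hneg.le), ?_⟩
            rintro (h5 | h5) <;> omega
          · rintro lo hi' - - (h5 | h5) <;> omega
          · intro lo hi' _ _ _ h5; omega
          · intro lo hi' a b _ h5; omega
          · intro lo hi' a b h5 h6
            show wn α β lo hi' y = 0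
            rw [hwl lo hi' a b, if_neg (by omega)]
          · intro lo hi' a b h5 h6; omega
          · intro lo hi' a b h5 h6; omega
    · -- hub gap
      have hwg := wg h4.le
      have hpv : wph e M α β y = Real.pi * (2 * i + 1) := by
        rw [wph_flat h hi h4.le h2.le, cen_hub hs hin, hs i hin]; ring
      have hneg : Real.cos (wph e M α β y) < 0 := by
        refine cos_near_odd (m := i) (τ := 1 / 4) le_rfl ?_
        rw [hpv]; push_cast; norm_num
      by_cases hin' : i + 1 < n
      · have hqv : wph (fun _ => 1) (n - 1) (al' α n) β y = Real.pi * (2 * i + 1) := by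
          rw [wph_flat h' (i := i) (by omega) h4.le (by
            unfold al'; rw [if_pos hin']; exact h2.le), cen_one, se_one]
          ring
        refine ⟨2 * i + 2, 0, ⟨by omega, ?_, ?_, ?_, ?_, ?_, ?_, ?_, ?_⟩⟩
        · rw [hqv]
          unfold ps0
          rw [if_neg (by omega)]
          push_cast
          rw [show Real.pi * (2 * (i : ℝ) + 1) - Real.pi * (2 * (i : ℝ) + 2 - 1 + 2 * n * 0) = 0 by
            ring, abs_zero]
          exact hτ0
        · refine ⟨fun h5 => absurd h5 (not_lt.2 hneg.le), ?_⟩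
          rintro (h5 | h5) <;> omega
        · rintro lo hi' - - (h5 | h5) <;> omega
        · intro lo hi' _ _ _ h5; omega
        · intro lo hi' a b _ _ _ h5
          exact hwg lo hi' a b (by omega)
        · intro lo hi' a b h5 h6; omega
        · intro lo hi' a b h5 h6; omega
        · intro lo hi' a b h5 h6; omega
      · have hie : i = n - 1 := by omega
        have hqv := lift_flat h hn hnM (y := y) (by rw [← hie]; exact h4.le) hy2.le
        refine ⟨0, 1, ⟨by omega, ?_, ?_, ?_, ?_, ?_, ?_, ?_, ?_⟩⟩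
        · rw [hqv]
          unfold ps0
          rw [if_neg (by omega)]
          push_cast
          rw [show Real.pi * (2 * (n : ℝ) - 1) - Real.pi * (-1 + 2 * (n : ℝ) * 1) = 0 by ring,
            abs_zero]
          exact hτ0
        · refine ⟨fun h5 => absurd h5 (not_lt.2 hneg.le), ?_⟩
          rintro (h5 | h5) <;> omega
        · rintro lo hi' - - (h5 | h5) <;> omega
        · intro lo hi' _ _ _ h5; omega
        · intro lo hi' a b _ h5; omega
        · intro lo hi' a b h5 h6
          exact hwg lo hi' a b (by omega)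
        · intro lo hi' a b h5 h6; omega
        · intro lo hi' a b h5 h6; omega
  · -- word sector
    have h3 : β (n - 1) ≤ y := (beta_le h (show n - 1 < i by omega) (by omega)).trans h1
    have hqv := lift_flat h hn hnM h3 hy2.le
    by_cases hc : 0 < Real.cos (wph e M α β y)
    · -- lobe of own sign `+`
      have h4 : y ≤ β i := by
        by_contra h4
        push Not at h4
        have h5 : wph e M α β y = cen e i + Real.pi * se e i := wph_flat h hi h4.le h2.le
        obtain ⟨c, hcc⟩ := exists_cen he i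
        rw [h5, hcc] at hc
        rcases se_sq he i with h6 | h6
        · have := cos_near_odd (x := 2 * Real.pi * c + Real.pi * se e i) (m := c) (τ := 1 / 4)
            le_rfl (by rw [h6]; push_cast; rw [show 2 * Real.pi * (c : ℝ) + Real.pi * 1 -
              Real.pi * (2 * c + 1) = 0 by ring, abs_zero]; norm_num)
          linarith
        · have := cos_near_odd (x := 2 * Real.pi * c + Real.pi * se e i) (m := c - 1) (τ := 1 / 4)
            le_rfl (by rw [h6]; push_cast; rw [show 2 * Real.pi * (c : ℝ) + Real.pi * -1 -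
              Real.pi * (2 * (c - 1) + 1) = 0 by ring, abs_zero]; norm_num)
          linarith
      have hwl := wl h4
      refine ⟨2 * n, 1, ⟨le_rfl, ?_, ?_, ?_, ?_, ?_, ?_, ?_, ?_⟩⟩
      · rw [hqv]
        unfold ps0
        rw [if_pos rfl]
        push_cast
        rw [show Real.pi * (2 * (n : ℝ) - 1) - Real.pi * (-1 + 2 * (n : ℝ) * 1) = 0 by ring,
          abs_zero]
        exact hτ0
      · exact ⟨fun _ => Or.inl rfl, fun _ => hc⟩
      · intro lo hi' a b _
        show wn α β lo hi' y = 0 ∨ wn α β lo hi' y = 1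
        rw [hwl lo hi' a b]
        split_ifs
        · exact Or.inr rfl
        · exact Or.inl rfl
      · intro lo hi' a b h5; exact absurd rfl h5
      · intro lo hi' a b h5; exact absurd rfl h5
      · intro lo hi' a b h5 h6; omega
      · intro lo hi' a b h5 h6
        show wn α β lo hi' y = 0
        rw [hwl lo hi' a b, if_neg (by omega)]
      · intro lo hi' a b h5 h6
        show wn α β lo hi' y = 1
        rw [hwl lo hi' a b.le, if_pos (by omega)]
    · refine ⟨0, 1, ⟨by omega, ?_, ?_, ?_, ?_, ?_, ?_, ?_, ?_⟩⟩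
      · rw [hqv]
        unfold ps0
        rw [if_neg (by omega)]
        push_cast
        rw [show Real.pi * (2 * (n : ℝ) - 1) - Real.pi * (-1 + 2 * (n : ℝ) * 1) = 0 by ring,
          abs_zero]
        exact hτ0
      · refine ⟨fun h5 => absurd h5 hc, ?_⟩
        rintro (h5 | h5) <;> omega
      · rintro lo hi' - - (h5 | h5) <;> omega
      · intro lo hi' _ _ _ h5; omega
      · intro lo hi' a b _ h5; omega
      · intro lo hi' a b h5 h6
        show wn α β lo hi' y = 0
        rcases le_or_gt y (β i) with h4 | h4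
        · rw [wl h4 lo hi' a b, if_neg (by omega)]
        · exact wg h4.le lo hi' a b (by omega)
      · intro lo hi' a b h5 h6; omega
      · intro lo hi' a b h5 h6; omega

/-- **every point where the own phase is near a multiple of `π` has a state** -/
theorem state (h : Arcs M α β) (he : ∀ l, e l = 1 ∨ e l = -1) {n : ℕ} (hn : 1 ≤ n)
    (hnM : n ≤ M + 1) (hs : ∀ i < n, se e i = 1) {τ : ℝ} (hτ : τ ≤ 1 / 4) {x : ℝ}
    (hp : ∃ m : ℤ, |wph e M α β x - Real.pi * m| ≤ τ) :
    ∃ (s : ℕ) (k : ℤ), Stt n M (fun lo hi => wn α β lo hi x) (wph e M α β x)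
      (wph (fun _ => 1) (n - 1) (al' α n) β x) τ s k := by
  obtain ⟨K, y, hy1, hy2, rfl⟩ := exists_dom (α 0) x
  obtain ⟨m0, hm0⟩ := exists_tot he M
  have hpe : wph e M α β (y + 2 * Real.pi * K) =
      wph e M α β y + Real.pi * ((2 * (K * m0) : ℤ) : ℝ) := by
    rw [wph_add_int, hm0]; push_cast; ring
  have hqe : wph (fun _ => 1) (n - 1) (al' α n) β (y + 2 * Real.pi * K) =
      wph (fun _ => 1) (n - 1) (al' α n) β y + Real.pi * ((2 * n * K : ℤ) : ℝ) := by
    rw [wph_add_int, tot_one n hn]; push_cast; ring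
  have hcos : Real.cos (wph e M α β (y + 2 * Real.pi * K)) = Real.cos (wph e M α β y) := by
    rw [hpe, show wph e M α β y + Real.pi * ((2 * (K * m0) : ℤ) : ℝ) =
      wph e M α β y + ((K * m0 : ℤ) : ℝ) * (2 * Real.pi) by push_cast; ring,
      Real.cos_add_int_mul_two_pi]
  obtain ⟨m, hm⟩ := hp
  obtain ⟨s, k, S⟩ := state_dom h he hn hnM hs hτ hy1 hy2 ⟨m - 2 * (K * m0), by
    rw [hpe] at hm
    push_cast at hm ⊢
    rw [show wph e M α β y - Real.pi * ((m : ℝ) - 2 * (K * m0)) =
      wph e M α β y + Real.pi * (2 * (K * m0)) - Real.pi * m by ring]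
    exact hm⟩
  refine ⟨s, k + K, ⟨S.le, ?_, ?_, ?_, ?_, ?_, ?_, ?_, ?_⟩⟩
  · have h1 := S.near
    rw [hqe]
    push_cast at h1 ⊢
    rw [show wph (fun _ => 1) (n - 1) (al' α n) β y + Real.pi * (2 * (n : ℝ) * K) -
      Real.pi * ((ps0 n s : ℝ) + 2 * n * (k + K)) =
      wph (fun _ => 1) (n - 1) (al' α n) β y - Real.pi * ((ps0 n s : ℝ) + 2 * n * k) by ring]
    exact h1
  · rw [hcos]; exact S.sgn
  · intro lo hi a b c
    have := S.w01 lo hi a b c
    simpa only [wn_add_int] using this
  · intro lo hi a b c d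
    have := S.wray lo hi a b c d
    simpa only [wn_add_int] using this
  · intro lo hi a b c d e' f
    have := S.wgap lo hi a b c d e' f
    simpa only [wn_add_int] using this
  · intro lo hi a b c d
    have := S.wzero lo hi a b c d
    simpa only [wn_add_int] using this
  · intro lo hi a b c d
    have := S.wJ0 lo hi a b c d
    simpa only [wn_add_int] using this
  · intro lo hi a b c d
    have := S.wJ1 lo hi a b c d
    simpa only [wn_add_int] using this

variable {b : Bool} {D : SD 4}

/-- **states of the literal words, flat lifts and windows** -/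
theorem state_lit (N : Num b D) (j : Fin 4) {τ : ℝ} (hτ : τ ≤ 1 / 4) {x : ℝ}
    (hp : ∃ m : ℤ, |pp D j x - Real.pi * m| ≤ τ) :
    ∃ (s : ℕ) (k : ℤ), Stt (nh b j) (D.M j) (fun lo hi => wn (aE (D.M j)) (bE (D.M j)) lo hi x)
      (pp D j x) (hh b D j x) τ s k :=
  state (arcsE (D.M j)) (sn_pm (D := D) j) (nh_pos b j) (N.nM j) (N.hs j) hτ hp

end Crest.Agent.R267.StPos_370
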