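import Crest.Agent.R267.HubFacts_370

/-!
# Row 267, C7 (helper568): positions of a word near the multiples of `π`

`Sta h τ x s`: the position `s ≤ 2 n` of `x` (word with `M + 1` arcs, the first `n` arcs = hub):
`s = 2 i + 1 < 2 n`: centre of the hub arc `i`; `s = 2 i`: gap before the arc `i` (`0`: everything
off-lobe in the word sector); `s = 2 n`: a lobe of the word sector with own sign `+`.
-/

set_option autoImplicit false

noncomputable section

open Finset Set
open Crest.Agent.R267.Ang_739 (cis)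
open Crest.Agent.R267.GlNDefs_9 Crest.Agent.R267.WordPh_9 Crest.Agent.R267.WordPh2_9
open Crest.Agent.R267.HubFacts_370
open Crest.Agent.R267.T3aDefs_957 (st)
open Crest.Agent.R267.Calc_957

namespace Crest.Agent.R267.StaW_568

variable {M n : ℕ} {α β : ℕ → ℝ} {e : ℕ → ℝ}

/-- the phase of a state in units of `π`. -/
def posz (n s : ℕ) : ℤ := if s = 2 * n then -1 else (s : ℤ) - 1

/-- **state** of a point. -/
structure Sta (M n : ℕ) (α β : ℕ → ℝ) (e : ℕ → ℝ) (τ x : ℝ) (s : ℕ) : Prop where
  le : s ≤ 2 * n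
  ph : ∃ k : ℤ, |wph (fun _ => 1) (n - 1) (al' α n) β x -
    Real.pi * ((posz n s + 2 * n * k : ℤ) : ℝ)| ≤ τ
  own : 0 < Real.cos (wph e M α β x) ↔ (s = 2 * n ∨ s % 2 = 1)
  hub1 : ∀ lo hi, lo ≤ hi → hi + 1 ≤ n → s ≠ 2 * n → s % 2 = 1 → lo < s / 2 → s / 2 ≤ hi →
    wn α β lo hi x = 1
  hub0 : ∀ lo hi, lo ≤ hi → hi + 1 ≤ n → wn α β lo hi x ≠ 0 →
    (s ≠ 2 * n ∧ 2 * (lo + 1) ≤ s ∧ s ≤ 2 * (hi + 1)) ∨ (s = 0 ∧ hi + 1 = n)
  arm1 : s = 2 * n → wn α β (n - 1) M x = 1
  arm0 : ∀ lo hi, n ≤ lo + 1 → lo ≤ hi → hi ≤ M → wn α β lo hi x ≠ 0 → s = 2 * n ∨ s = 0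

theorem cos_cis {x y : ℝ} (h : cis x = cis y) : Real.cos x = Real.cos y := by
  have := congrArg Complex.re h
  simpa [Crest.Agent.R267.RndP_222.cis_re] using this

theorem cos_neg_one {x : ℝ} (h : cis x = -1) : Real.cos x = -1 := by
  have := congrArg Complex.re h
  rw [Crest.Agent.R267.RndP_222.cis_re] at this
  simpa using this

theorem cos_near {v τ : ℝ} {m : ℤ} (h : |v - Real.pi * m| ≤ τ) (hτ : τ ≤ 1) :
    0 < Real.cos v ↔ m % 2 = 0 := by
  have hpi := Real.pi_gt_three
  have h1 : 0 < Real.cos (v - Real.pi * m) := by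
    rw [abs_le] at h
    exact Real.cos_pos_of_mem_Ioo ⟨by linarith [h.1], by linarith [h.2]⟩
  rcases Int.emod_two_eq_zero_or_one m with hm | hm
  · obtain ⟨k, rfl⟩ : ∃ k, m = 2 * k := ⟨m / 2, by omega⟩
    have e1 : v - Real.pi * ((2 * k : ℤ) : ℝ) = v - k * (2 * Real.pi) := by push_cast; ring
    rw [e1, Real.cos_sub_int_mul_two_pi] at h1
    exact ⟨fun _ => hm, fun _ => h1⟩
  · obtain ⟨k, rfl⟩ : ∃ k, m = 2 * k + 1 := ⟨m / 2, by omega⟩
    have e1 : v - Real.pi * ((2 * k + 1 : ℤ) : ℝ) = (v - Real.pi) - k * (2 * Real.pi) := by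
      push_cast; ring
    rw [e1, Real.cos_sub_int_mul_two_pi, Real.cos_sub_pi] at h1
    constructor
    · intro h2; linarith
    · intro h2; omega

/-- windows are `0` or `1` where the own term is not `-1` -/
theorem win01 (h : Arcs M α β) (he : ∀ l, e l = 1 ∨ e l = -1) {lo hi : ℕ} (hlo : lo ≤ hi)
    (hhi : hi ≤ M) {x : ℝ} (hx : 0 < Real.cos (wph e M α β x)) :
    wn α β lo hi x = 0 ∨ wn α β lo hi x = 1 := by
  obtain ⟨k, y, hy1, hy2, rfl⟩ := exists_dom (α 0) x
  obtain ⟨i, hi', h1, h2⟩ := exists_piece h hy1 hy2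
  rw [wn_add_int]
  rcases lt_or_ge y (β i) with h4 | h4
  · rw [wn_lobe h hlo hhi hi' h1 h4.le]
    split_ifs
    · exact Or.inr rfl
    · exact Or.inl rfl
  · have := cos_neg_one (cis_wph_gap h he hi' h4 h2.le k)
    rw [this] at hx
    norm_num at hx

/-- **every point with almost real own phase has a state** -/
theorem exists_sta (h : Arcs M α β) (he : ∀ l, e l = 1 ∨ e l = -1) (hn : 1 ≤ n)
    (hnM : n ≤ M + 1) (hs : ∀ i < n, se e i = 1) {τ x : ℝ} (hτ0 : 0 ≤ τ) (hτ : τ ≤ 1)
    (hx : ∃ m : ℤ, |wph e M α β x - Real.pi * m| ≤ τ) : ∃ s, Sta M n α β e τ x s := by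
  have h' := arcs' h hn hnM
  have hpi := Real.pi_gt_three
  obtain ⟨k, y, hy1, hy2, rfl⟩ := exists_dom (α 0) x
  obtain ⟨i, hi, h1, h2⟩ := exists_piece h hy1 hy2
  obtain ⟨m, hm⟩ := hx
  obtain ⟨T, hT⟩ := exists_tot he M
  -- the flat value
  have flat : ∀ j < n, β j ≤ y → y ≤ al' α n (j + 1) →
      wph (fun _ => 1) (n - 1) (al' α n) β (y + 2 * Real.pi * k) =
        Real.pi * ((2 * j + 1 + 2 * n * k : ℤ) : ℝ) := by
    intro j hj h3 h4
    rw [wph_add_int, tot_one n hn, wph_flat h' (by omega) h3 h4, cen_one, se_one]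
    push_cast
    ring
  have hcast : ∀ a b : ℤ, a = b → ((a : ℤ) : ℝ) = b := fun a b h => by rw [h]
  by_cases hin : i < n
  · rcases lt_or_ge y (β i) with h4 | h4
    · -- hub lobe `i`
      have ha : al' α n i = α i := if_pos hin
      have hb' := h'.ba i (by omega)
      have hab := h.ab i hi
      set u := (y - α i) / (β i - α i) with hu
      have hv : wph e M α β y = 2 * Real.pi * i + 2 * Real.pi * (st u - 1 / 2) := by
        rw [wph_val h hi h1 h2.le, cen_hub hs hin, hs i hin, mul_one]
      have hhv : wph (fun _ => 1) (n - 1) (al' α n) β y = wph e M α β y :=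
        (val_hub h hn hnM hs hin h1 h4.le).symm
      have hu0 := st_nonneg u
      have hu1 := st_le_one u
      have hm2 : |wph e M α β y - Real.pi * ((m - 2 * k * T : ℤ) : ℝ)| ≤ τ := by
        rw [wph_add_int, hT] at hm
        have e1 : wph e M α β y - Real.pi * ((m - 2 * k * T : ℤ) : ℝ) =
            wph e M α β y + k * (2 * Real.pi * T) - Real.pi * m := by push_cast; ring
        rw [e1]; exact hm
      obtain ⟨m', hm'⟩ : ∃ m' : ℤ, m - 2 * k * T = m' := ⟨_, rfl⟩
      rw [hm'] at hm2
      have hcos : 0 < Real.cos (wph e M α β (y + 2 * Real.pi * k)) ↔ m' % 2 = 0 := by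
        rw [← cos_near hm2 hτ, wph_add_int, hT]
        have : wph e M α β y + k * (2 * Real.pi * T) =
            wph e M α β y + ((k * T : ℤ) : ℝ) * (2 * Real.pi) := by push_cast; ring
        rw [this, Real.cos_add_int_mul_two_pi]
      -- `m' ∈ {2 i - 1, 2 i, 2 i + 1}`
      have hb := abs_le.1 hm2
      have hm3 : (2 * i : ℤ) - 1 ≤ m' := by
        by_contra hc
        have : (m' : ℝ) ≤ (2 * i : ℤ) - 2 := by exact_mod_cast (by omega : m' ≤ (2 * i : ℤ) - 2)
        push_cast at this
        nlinarith [hb.1, hb.2]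
      have hm4 : m' ≤ (2 * i : ℤ) + 1 := by
        by_contra hc
        have : ((2 * i : ℤ) : ℝ) + 2 ≤ m' := by exact_mod_cast (by omega : (2 * i : ℤ) + 2 ≤ m')
        push_cast at this
        nlinarith [hb.1, hb.2]
      have hph : |wph (fun _ => 1) (n - 1) (al' α n) β (y + 2 * Real.pi * k) -
          Real.pi * ((m' + 2 * n * k : ℤ) : ℝ)| ≤ τ := by
        rw [wph_add_int, tot_one n hn, hhv]
        have e1 : wph e M α β y + k * (2 * Real.pi * n) - Real.pi * ((m' + 2 * n * k : ℤ) : ℝ) =
            wph e M α β y - Real.pi * m' := by push_cast; ring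
        rw [e1]; exact hm2
      have hw : ∀ lo hi', lo ≤ hi' → hi' ≤ M → wn α β lo hi' (y + 2 * Real.pi * k) =
          if lo < i ∧ i ≤ hi' then 1 else 0 := fun lo hi' h5 h6 => by
        rw [wn_add_int, wn_lobe h h5 h6 hi h1 h4.le]
      have hne : ∀ lo hi', lo ≤ hi' → hi' ≤ M → wn α β lo hi' (y + 2 * Real.pi * k) ≠ 0 →
          lo < i ∧ i ≤ hi' := fun lo hi' h5 h6 h7 => by
        rw [hw lo hi' h5 h6] at h7
        by_contra hc
        exact h7 (if_neg hc)
      rcases (by omega : m' = 2 * i - 1 ∨ m' = 2 * i ∨ m' = 2 * i + 1) with h7 | h7 | h7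
      · refine ⟨2 * i, by omega, ⟨k, ?_⟩, ?_, ?_, ?_, ?_, ?_⟩
        · rw [show (posz n (2 * i) + 2 * n * k : ℤ) = m' + 2 * n * k by
            unfold posz; rw [if_neg (by omega)]; push_cast; omega]
          exact hph
        · rw [hcos]; omega
        · intro lo hi' _ _ _ h8; omega
        · intro lo hi' h5 h6 h8
          have := hne lo hi' h5 (by omega) h8
          left; omega
        · intro h8; omega
        · intro lo hi' h5 h6 h8 h9
          have := hne lo hi' h6 h8 h9
          omega
      · refine ⟨2 * i + 1, by omega, ⟨k, ?_⟩, ?_, ?_, ?_, ?_, ?_⟩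
        · rw [show (posz n (2 * i + 1) + 2 * n * k : ℤ) = m' + 2 * n * k by
            unfold posz; rw [if_neg (by omega)]; push_cast; omega]
          exact hph
        · rw [hcos]; omega
        · intro lo hi' h5 h6 _ _ h8 h9
          rw [hw lo hi' h5 (by omega), if_pos (by omega)]
        · intro lo hi' h5 h6 h8
          have := hne lo hi' h5 (by omega) h8
          left; omega
        · intro h8; omega
        · intro lo hi' h5 h6 h8 h9
          have := hne lo hi' h6 h8 h9
          omega
      · by_cases hlast : i + 1 = n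
        · refine ⟨0, by omega, ⟨k + 1, ?_⟩, ?_, ?_, ?_, ?_, ?_⟩
          · rw [show (posz n 0 + 2 * n * (k + 1) : ℤ) = m' + 2 * n * k by
              unfold posz; rw [if_neg (by omega), ← hlast, h7]; push_cast; ring]
            exact hph
          · rw [hcos]; omega
          · intro lo hi' _ _ _ h8; omega
          · intro lo hi' h5 h6 h8
            have := hne lo hi' h5 (by omega) h8
            right; omega
          · intro h8; omega
          · intro lo hi' h5 h6 h8 h9
            exact Or.inr rfl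
        · refine ⟨2 * i + 2, by omega, ⟨k, ?_⟩, ?_, ?_, ?_, ?_, ?_⟩
          · rw [show (posz n (2 * i + 2) + 2 * n * k : ℤ) = m' + 2 * n * k by
              unfold posz; rw [if_neg (by omega)]; push_cast; omega]
            exact hph
          · rw [hcos]; omega
          · intro lo hi' _ _ _ h8; omega
          · intro lo hi' h5 h6 h8
            have := hne lo hi' h5 (by omega) h8
            left; omega
          · intro h8; omega
          · intro lo hi' h5 h6 h8 h9
            have := hne lo hi' h6 h8 h9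
            omega
    · -- hub gap `i`
      have hc := cos_neg_one (cis_wph_gap h he hi h4 h2.le k)
      have h5 : y ≤ al' α n (i + 1) := by
        unfold al'
        split_ifs
        · exact h2.le
        · exact hy2.le
      have hfl := flat i hin h4 h5
      have hne : ∀ lo hi', lo ≤ hi' → hi' ≤ M → wn α β lo hi' (y + 2 * Real.pi * k) ≠ 0 →
          lo ≤ i ∧ i ≤ hi' := fun lo hi' h5 h6 h7 => by
        rw [wn_add_int] at h7
        by_contra hc
        exact h7 (wn_supp h h5 h6 hi (by omega) h4 h2.le)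
      by_cases hlast : i + 1 = n
      · refine ⟨0, by omega, ⟨k + 1, ?_⟩, ?_, ?_, ?_, ?_, ?_⟩
        · rw [hfl, show (posz n 0 + 2 * n * (k + 1) : ℤ) = 2 * i + 1 + 2 * n * k by
            unfold posz; rw [if_neg (by omega), ← hlast]; push_cast; ring, sub_self, abs_zero]
          exact hτ0
        · rw [hc]
          constructor
          · intro h6; norm_num at h6
          · intro h6; omega
        · intro lo hi' _ _ _ h8; omega
        · intro lo hi' h5 h6 h8
          have := hne lo hi' h5 (by omega) h8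
          right; omega
        · intro h8; omega
        · intro lo hi' h5 h6 h8 h9
          exact Or.inr rfl
      · refine ⟨2 * i + 2, by omega, ⟨k, ?_⟩, ?_, ?_, ?_, ?_, ?_⟩
        · rw [hfl, show (posz n (2 * i + 2) + 2 * n * k : ℤ) = 2 * i + 1 + 2 * n * k by
            unfold posz; rw [if_neg (by omega)]; push_cast; ring, sub_self, abs_zero]
          exact hτ0
        · rw [hc]
          constructor
          · intro h6; norm_num at h6
          · intro h6; omega
        · intro lo hi' _ _ _ h8; omega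
        · intro lo hi' h5 h6 h8
          have := hne lo hi' h5 (by omega) h8
          left; omega
        · intro h8; omega
        · intro lo hi' h5 h6 h8 h9
          have := hne lo hi' h6 h8 h9
          omega
  · -- word sector
    have h3 : β (n - 1) ≤ y := (beta_le h (show n - 1 < i by omega) (by omega)).trans h1
    have h4 : y ≤ al' α n (n - 1 + 1) := by
      unfold al'
      rw [if_neg (by omega)]
      exact hy2.le
    have hfl := flat (n - 1) (by omega) h3 h4
    have hn1 : ((n - 1 : ℕ) : ℤ) = n - 1 := by omega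
    rw [hn1] at hfl
    have hw0 : ∀ lo hi', lo ≤ hi' → hi' + 1 ≤ n → wn α β lo hi' (y + 2 * Real.pi * k) = 0 := by
      intro lo hi' h5 h6
      rw [wn_add_int]
      rcases lt_or_ge y (β i) with h7 | h7
      · rw [wn_lobe h h5 (by omega) hi h1 h7.le, if_neg (by omega)]
      · exact wn_supp h h5 (by omega) hi (by omega) h7 h2.le
    by_cases hc : 0 < Real.cos (wph e M α β (y + 2 * Real.pi * k))
    · have h7 : y < β i := by
        by_contra hcc
        have := cos_neg_one (cis_wph_gap h he hi (not_lt.1 hcc) h2.le k)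
        rw [this] at hc
        norm_num at hc
      refine ⟨2 * n, le_rfl, ⟨k + 1, ?_⟩, ?_, ?_, ?_, ?_, ?_⟩
      · rw [hfl, show (posz n (2 * n) + 2 * n * (k + 1) : ℤ) = 2 * ((n : ℤ) - 1) + 1 + 2 * n * k by
          unfold posz; rw [if_pos rfl]; ring, sub_self, abs_zero]
        exact hτ0
      · exact ⟨fun _ => Or.inl rfl, fun _ => hc⟩
      · intro lo hi' _ _ h8; omega
      · intro lo hi' h5 h6 h8
        exact absurd (hw0 lo hi' h5 h6) h8
      · intro _
        rw [wn_add_int, wn_lobe h (by omega) le_rfl hi h1 h7.le, if_pos (by omega)]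
      · intro lo hi' _ _ _ _
        exact Or.inl rfl
    · refine ⟨0, by omega, ⟨k + 1, ?_⟩, ?_, ?_, ?_, ?_, ?_⟩
      · rw [hfl, show (posz n 0 + 2 * n * (k + 1) : ℤ) = 2 * ((n : ℤ) - 1) + 1 + 2 * n * k by
          unfold posz; rw [if_neg (by omega)]; push_cast; ring, sub_self, abs_zero]
        exact hτ0
      · constructor
        · intro h6; exact absurd h6 hc
        · intro h6; omega
      · intro lo hi' _ _ _ h8; omega
      · intro lo hi' h5 h6 h8
        exact absurd (hw0 lo hi' h5 h6) h8
      · intro h8; omega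
      · intro lo hi' _ _ _ _
        exact Or.inr rfl

end Crest.Agent.R267.StaW_568
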