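import Crest.Agent.R267.LemL_951

/-!
# Row 267 (helper769): the regularity lemma of #2918 (1) (helper222), exact pointwise form

At a zero of `F = ∑ r_i a_i + ∑ ρ_v e_v - B` (own terms `r_i a_i`, couplings `ρ_v e_v`, real deletion
`B ≥ 0`), whose differential `L` is not onto, with conormal `u`:
* every coupling phase has a (generalised) gradient `(μ v i)_i`, `μ0 v`, a point of the simplex, with
  `μ v i ≠ 0 → e v = a i` and `μ0 v ≠ 0 → e v = -1`;
* a variable is either flat (`a i = -1`, no coupling moves with it), or there is a vector `α` with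
  `L α = i r_i a_i + ∑_v μ v i · i ρ_v e_v` (this covers in-lobe variables, and variables in their word
  sector, where `μ v i = 0`).
Then the **energy identity** `∑ r_i s_i² + ∑ ρ_v s_v² + σ² B = 0` holds (`s = jf u ·`, `σ = Im u`):
all active terms are real multiples of `u`, and `u = 1` if a flat term or `B` is active.
-/

set_option autoImplicit false

noncomputable section

open Finset Crest.Agent.R267.LemL_951

namespace Crest.Agent.R267.Stair_769

theorem jf_neg_one (u : ℂ) : jf u (-1) = u.im := by simp [jf]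

theorem rf_neg_one (u : ℂ) : rf u (-1) = -u.re := by simp [rf]

/-- **ENERGY IDENTITY** for a given conormal. -/
theorem energy {ι κ : Type*} [Fintype ι] [Fintype κ] {u : ℂ}
    (r : ι → ℝ) (a : ι → ℂ) (ρ : κ → ℝ) (e : κ → ℂ) (B : ℝ)
    (μ : κ → ι → ℝ) (μ0 : κ → ℝ) (hsum : ∀ v, ∑ i, μ v i + μ0 v = 1)
    (htyp : ∀ v i, ρ v ≠ 0 → μ v i ≠ 0 → jf u (e v) = jf u (a i))
    (htyp0 : ∀ v, ρ v ≠ 0 → μ0 v ≠ 0 → jf u (e v) = u.im)
    (hang : ∀ i, (r i * jf u (a i) = r i * u.im ∧ ∀ v, ρ v ≠ 0 → μ v i = 0) ∨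
      r i * jf u (a i) + ∑ v, μ v i * (ρ v * jf u (e v)) = 0)
    (hF : ∑ i, r i * jf u (a i) + ∑ v, ρ v * jf u (e v) + u.im * B = 0) :
    ∃ off : ι → Prop, (∀ i, off i → r i * jf u (a i) = r i * u.im) ∧
      ∑ i, r i * jf u (a i) ^ 2 + ∑ v, ρ v * jf u (e v) ^ 2 + u.im ^ 2 * B = 0 := by
  classical
  refine ⟨fun i => r i * jf u (a i) = r i * u.im ∧ ∀ v, ρ v ≠ 0 → μ v i = 0,
    fun i h => h.1, ?_⟩
  set off : ι → Prop := fun i => r i * jf u (a i) = r i * u.im ∧ ∀ v, ρ v ≠ 0 → μ v i = 0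
    with hoff
  -- each variable: `S_i + ∑ μ S_v = [off] r_i σ`
  have h1 : ∀ i, r i * jf u (a i) + ∑ v, μ v i * (ρ v * jf u (e v))
      = if off i then r i * u.im else 0 := by
    intro i
    by_cases h : off i
    · rw [if_pos h, h.1]
      have : ∑ v, μ v i * (ρ v * jf u (e v)) = 0 := by
        refine sum_eq_zero fun v _ => ?_
        by_cases hv : ρ v = 0
        · rw [hv]; ring
        · rw [h.2 v hv]; ring
      rw [this, add_zero]
    · rw [if_neg h]
      rcases hang i with h' | h'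
      · exact absurd h' h
      · exact h'
  -- multiply by `s_i`
  have h2 : ∀ i, r i * jf u (a i) ^ 2 + ∑ v, μ v i * (ρ v * jf u (e v) * jf u (a i))
      = if off i then r i * u.im ^ 2 else 0 := by
    intro i
    have h3 := congrArg (fun x => x * jf u (a i)) (h1 i)
    rw [add_mul, sum_mul] at h3
    have h4 : (if off i then r i * u.im else 0) * jf u (a i)
        = if off i then r i * u.im ^ 2 else 0 := by
      by_cases h : off i
      · rw [if_pos h, if_pos h]
        have := h.1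
        by_cases hr : r i = 0
        · rw [hr]; ring
        · have h5 : jf u (a i) = u.im := mul_left_cancel₀ hr this
          rw [h5]; ring
      · rw [if_neg h, if_neg h, zero_mul]
    rw [h4] at h3
    rw [← h3]
    congr 1
    · ring
    · exact sum_congr rfl fun v _ => by ring
  -- the couplings: `∑ μ s_i = s_v - μ0 σ`
  have h3 : ∀ v, ∑ i, μ v i * (ρ v * jf u (e v) * jf u (a i))
      = ρ v * jf u (e v) ^ 2 - u.im * (μ0 v * (ρ v * jf u (e v))) := by
    intro v
    by_cases hv : ρ v = 0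
    · simp [hv]
    · have h4 : ∀ i, μ v i * (ρ v * jf u (e v) * jf u (a i))
          = μ v i * (ρ v * jf u (e v) ^ 2) := by
        intro i
        by_cases hm : μ v i = 0
        · rw [hm]; ring
        · rw [← htyp v i hv hm]; ring
      rw [sum_congr rfl fun i _ => h4 i, ← sum_mul]
      have h5 : ∑ i, μ v i = 1 - μ0 v := by linarith [hsum v]
      rw [h5]
      by_cases hm : μ0 v = 0
      · rw [hm]; ring
      · rw [htyp0 v hv hm]; ring
  have h4 : ∑ i, ∑ v, μ v i * (ρ v * jf u (e v) * jf u (a i))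
      = ∑ v, ρ v * jf u (e v) ^ 2 - u.im * ∑ v, μ0 v * (ρ v * jf u (e v)) := by
    rw [sum_comm, sum_congr rfl fun v _ => h3 v, sum_sub_distrib, mul_sum]
  have h5 : ∑ i, r i * jf u (a i) ^ 2 + (∑ v, ρ v * jf u (e v) ^ 2
      - u.im * ∑ v, μ0 v * (ρ v * jf u (e v))) = ∑ i, if off i then r i * u.im ^ 2 else 0 := by
    rw [← h4, ← sum_add_distrib]
    exact sum_congr rfl fun i _ => h2 i
  -- the sum of the angular equations
  have h6 : ∑ i, ∑ v, μ v i * (ρ v * jf u (e v))
      = ∑ v, ρ v * jf u (e v) - ∑ v, μ0 v * (ρ v * jf u (e v)) := by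
    rw [sum_comm, ← sum_sub_distrib]
    refine sum_congr rfl fun v _ => ?_
    rw [← sum_mul]
    have h7 : ∑ i, μ v i = 1 - μ0 v := by linarith [hsum v]
    rw [h7]; ring
  have h7 : ∑ i, r i * jf u (a i) + (∑ v, ρ v * jf u (e v)
      - ∑ v, μ0 v * (ρ v * jf u (e v))) = ∑ i, if off i then r i * u.im else 0 := by
    rw [← h6, ← sum_add_distrib]
    exact sum_congr rfl fun i _ => h1 i
  have h8 : u.im * (∑ i, if off i then r i * u.im else 0)
      = ∑ i, if off i then r i * u.im ^ 2 else 0 := by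
    rw [mul_sum]
    refine sum_congr rfl fun i _ => ?_
    by_cases h : off i
    · rw [if_pos h, if_pos h]; ring
    · rw [if_neg h, if_neg h, mul_zero]
  have h9 : ∑ v, μ0 v * (ρ v * jf u (e v)) = -(u.im * B) - ∑ i, if off i then r i * u.im else 0 := by
    linarith
  rw [h9] at h5
  have h10 : u.im * (-(u.im * B) - ∑ i, if off i then r i * u.im else 0)
      = -(u.im ^ 2 * B) - ∑ i, if off i then r i * u.im ^ 2 else 0 := by
    rw [mul_sub, h8]; ring
  rw [h10] at h5
  linarith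

/-- **REGULARITY LEMMA (#2918 (1)), exact form.**  At a zero of `F` whose differential is not onto
all terms are real multiples of one unit `u`, `0 ≤ Re u`, which kills `L`; `u = 1` if `B > 0`. -/
theorem stair {ι κ V : Type*} [Fintype ι] [Fintype κ] [AddCommGroup V] [Module ℝ V]
    (L : V →ₗ[ℝ] ℂ) (hL : ¬ Function.Surjective L)
    (r : ι → ℝ) (hr : ∀ i, 0 ≤ r i) (a : ι → ℂ) (ρ : κ → ℝ) (hρ : ∀ v, 0 ≤ ρ v) (e : κ → ℂ)
    (B : ℝ) (hB : 0 ≤ B)
    (μ : κ → ι → ℝ) (μ0 : κ → ℝ) (hsum : ∀ v, ∑ i, μ v i + μ0 v = 1)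
    (htyp : ∀ v i, ρ v ≠ 0 → μ v i ≠ 0 → e v = a i)
    (htyp0 : ∀ v, ρ v ≠ 0 → μ0 v ≠ 0 → e v = -1)
    (hang : ∀ i, (r i ≠ 0 → a i = -1 ∧ ∀ v, ρ v ≠ 0 → μ v i = 0) ∨
      ∃ α, L α = Complex.I * ((r i : ℂ) * a i)
        + ∑ v, (μ v i : ℂ) * (Complex.I * ((ρ v : ℂ) * e v)))
    (hact : ∀ v i, ρ v ≠ 0 → μ v i ≠ 0 → r i ≠ 0)
    (hF : ∑ i, (r i : ℂ) * a i + ∑ v, (ρ v : ℂ) * e v - (B : ℂ) = 0) :
    ∃ u : ℂ, ‖u‖ = 1 ∧ 0 ≤ u.re ∧ (∀ w, rf u (L w) = 0) ∧
      (∀ i, r i ≠ 0 → jf u (a i) = 0) ∧ (∀ v, ρ v ≠ 0 → jf u (e v) = 0) ∧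
      (B ≠ 0 → u = 1) := by
  obtain ⟨u, hu, h0, hconv⟩ := exists_conormal L hL
  refine ⟨u, hu, h0, hconv, ?_⟩
  have hjF : ∑ i, r i * jf u (a i) + ∑ v, ρ v * jf u (e v) + u.im * B = 0 := by
    have h := congrArg (jf u) hF
    rw [jf_sub, jf_add, jf_sum, jf_sum, jf_ofReal] at h
    simp only [jf_real_mul] at h
    have h' : jf u 0 = 0 := by simp [jf]
    rw [h'] at h
    linarith
  obtain ⟨off, -, hE⟩ := energy (u := u) r a ρ e B μ μ0 hsum
    (fun v i hv hm => by rw [htyp v i hv hm])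
    (fun v hv hm => by rw [htyp0 v hv hm, jf_neg_one])
    (fun i => by
      rcases hang i with h | ⟨α, hα⟩
      · by_cases hri : r i = 0
        · left
          refine ⟨by rw [hri]; ring, fun v hv => ?_⟩
          by_contra hm
          exact hact v i hv hm hri
        · left
          refine ⟨by rw [(h hri).1, jf_neg_one], (h hri).2⟩
      · right
        have h1 := hconv α
        rw [hα, rf_add, rf_sum, rf_I_mul, jf_real_mul] at h1
        simp only [rf_real_mul, rf_I_mul, jf_real_mul] at h1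
        have h2 : ∑ v, μ v i * -(ρ v * jf u (e v)) = -∑ v, μ v i * (ρ v * jf u (e v)) := by
          rw [← sum_neg_distrib]
          exact sum_congr rfl fun v _ => by ring
        rw [h2] at h1
        linarith) hjF
  have n1 : ∀ i ∈ univ, 0 ≤ r i * jf u (a i) ^ 2 := fun i _ => mul_nonneg (hr i) (sq_nonneg _)
  have n2 : ∀ v ∈ univ, 0 ≤ ρ v * jf u (e v) ^ 2 := fun v _ => mul_nonneg (hρ v) (sq_nonneg _)
  have n3 : 0 ≤ u.im ^ 2 * B := mul_nonneg (sq_nonneg _) hB
  have s1 := sum_nonneg n1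
  have s2 := sum_nonneg n2
  have e1 : ∑ i, r i * jf u (a i) ^ 2 = 0 := by linarith
  have e2 : ∑ v, ρ v * jf u (e v) ^ 2 = 0 := by linarith
  have e3 : u.im ^ 2 * B = 0 := by linarith
  refine ⟨fun i hi => ?_, fun v hv => ?_, fun hb => ?_⟩
  · have := (sum_eq_zero_iff_of_nonneg n1).1 e1 i (mem_univ i)
    rcases mul_eq_zero.1 this with h | h
    · exact absurd h hi
    · exact pow_eq_zero_iff (two_ne_zero) |>.1 h
  · have := (sum_eq_zero_iff_of_nonneg n2).1 e2 v (mem_univ v)
    rcases mul_eq_zero.1 this with h | h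
    · exact absurd h hv
    · exact pow_eq_zero_iff (two_ne_zero) |>.1 h
  · have him : u.im = 0 := by
      rcases mul_eq_zero.1 e3 with h | h
      · exact pow_eq_zero_iff (two_ne_zero) |>.1 h
      · exact absurd h hb
    have hsq := sq_of_norm hu
    rw [him] at hsq
    have h1 : u.re = 1 := by nlinarith
    exact Complex.ext (by simpa using h1) (by simpa using him)

/-- a unit with `0 ≤ Re u` and `Im u = 0` is `1` -/
theorem eq_one {u : ℂ} (hu : ‖u‖ = 1) (h0 : 0 ≤ u.re) (him : u.im = 0) : u = 1 := by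
  have hsq := sq_of_norm hu
  rw [him] at hsq
  have h1 : u.re = 1 := by nlinarith
  exact Complex.ext (by simpa using h1) (by simpa using him)

/-- a unit parallel to `u` is `± u` -/
theorem sign_of {u a : ℂ} (hu : ‖u‖ = 1) (ha : ‖a‖ = 1) (h : jf u a = 0) :
    (a = u ∧ rf u a = 1) ∨ (a = -u ∧ rf u a = -1) := by
  have h1 := re_eq hu a
  have h2 := im_eq hu a
  rw [h] at h1 h2
  have hu2 := sq_of_norm hu
  have ha2 := sq_of_norm ha
  have h3 : rf u a ^ 2 = 1 := by
    have : a.re ^ 2 + a.im ^ 2 = (u.re ^ 2 + u.im ^ 2) * rf u a ^ 2 := by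
      rw [h1, h2]; ring
    rw [ha2, hu2] at this
    linarith
  have h4 : (rf u a - 1) * (rf u a + 1) = 0 := by linear_combination h3
  rcases mul_eq_zero.1 h4 with h5 | h5
  · left
    have h6 : rf u a = 1 := by linarith
    rw [h6] at h1 h2
    exact ⟨Complex.ext (by linarith) (by linarith), h6⟩
  · right
    have h6 : rf u a = -1 := by linarith
    rw [h6] at h1 h2
    exact ⟨Complex.ext (by simp; linarith) (by simp; linarith), h6⟩

end Crest.Agent.R267.Stair_769
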