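import Mathlib
import Crest.Agent.R267.Amal_52

set_option autoImplicit false
set_option linter.unusedSectionVars false

noncomputable section

open Set Filter Topology Finset
open scoped ContDiff
open Crest.Agent.R267.Cone_808 Crest.Agent.R267.Hm_951 Crest.Agent.R267.NdR_484
open Crest.Agent.R267.Amal_52

/-!
# S0406, T3N, START-0 (helper920): the holomorphic stage

`start0` : for `M ≥ M0`
`M P_t (x, yz) + w^15 + ∑_v th (g_v / N) A_v (t, (p_v, w)) + E (t, p)` is an `HPath0`,
for every `C^2` homogeneous `E` which vanishes to first order on the three `(v, w)`-planes.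
-/

namespace Crest.Agent.R267.Start0_920

/-! ### the core -/

/-- three-parameter core. -/
def P3 (b : Bool) (k l m s t : ℂ) : ℂ :=
  bif b then k * (s ^ 2 * t) + l * (s * t ^ 3) + m * t ^ 5
    else k * (s * t ^ 2) + l * (s ^ 3 * t)

/-- derivative in `s`. -/
def P3s (b : Bool) (k l m s t : ℂ) : ℂ :=
  bif b then k * (2 * s * t) + l * t ^ 3 else k * t ^ 2 + l * (3 * s ^ 2 * t)

/-- derivative in `t`. -/
def P3t (b : Bool) (k l m s t : ℂ) : ℂ :=
  bif b then k * s ^ 2 + l * (s * (3 * t ^ 2)) + m * (5 * t ^ 4)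
    else k * (s * (2 * t)) + l * s ^ 3

/-- nondegeneracy. -/
def ND (b : Bool) (k l m : ℂ) : Prop :=
  k ≠ 0 ∧ (bif b then l ^ 2 ≠ 4 * (k * m) else l ≠ 0)

theorem core_iso {b : Bool} {k l m : ℂ} (h : ND b k l m) {s t : ℂ}
    (h1 : P3s b k l m s t = 0) (h2 : P3t b k l m s t = 0) : s = 0 ∧ t = 0 := by
  obtain ⟨hk, hl⟩ := h
  unfold P3s at h1
  unfold P3t at h2
  cases b
  · simp only [cond_false] at h1 h2 hl
    have e1 : t * (k * t + 3 * (l * s ^ 2)) = 0 := by rw [← h1]; ring
    have e2 : s * (2 * (k * t) + l * s ^ 2) = 0 := by rw [← h2]; ring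
    rcases mul_eq_zero.1 e1 with h | h
    · subst h
      rcases mul_eq_zero.1 e2 with h | h
      · exact ⟨h, rfl⟩
      · have : l * s ^ 2 = 0 := by simpa using h
        have := (mul_eq_zero.1 this).resolve_left hl
        exact ⟨pow_eq_zero_iff (two_ne_zero) |>.1 this, rfl⟩
    · rcases mul_eq_zero.1 e2 with h' | h'
      · subst h'
        have : k * t = 0 := by simpa using h
        exact ⟨rfl, (mul_eq_zero.1 this).resolve_left hk⟩
      · have : l * s ^ 2 = 0 := by linear_combination (-(2:ℂ) * h + h') * (-1/5)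
        have hs := (mul_eq_zero.1 this).resolve_left hl
        have hs := pow_eq_zero_iff (two_ne_zero) |>.1 hs
        subst hs
        have : k * t = 0 := by simpa using h
        exact ⟨rfl, (mul_eq_zero.1 this).resolve_left hk⟩
  · simp only [cond_true] at h1 h2 hl
    have e1 : t * (2 * (k * s) + l * t ^ 2) = 0 := by rw [← h1]; ring
    rcases mul_eq_zero.1 e1 with h | h
    · subst h
      have : k * s ^ 2 = 0 := by rw [← h2]; ring
      have := (mul_eq_zero.1 this).resolve_left hk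
      exact ⟨pow_eq_zero_iff (two_ne_zero) |>.1 this, rfl⟩
    · have e3 : 5 * (t ^ 4 * (4 * (k * m) - l ^ 2)) = 0 := by
        linear_combination (4 * k) * h2 - (5 * l * t ^ 2 + 2 * (k * s)) * h
      have e4 := (mul_eq_zero.1 e3).resolve_left (by norm_num)
      have e5 := (mul_eq_zero.1 e4).resolve_right fun h => hl (by linear_combination -h)
      have e6 : t = 0 := pow_eq_zero_iff (by norm_num) |>.1 e5
      subst e6
      have : 2 * (k * s) = 0 := by simpa using h
      have := (mul_eq_zero.1 this).resolve_left two_ne_zero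
      exact ⟨(mul_eq_zero.1 this).resolve_left hk, rfl⟩

/-- Euler. -/
theorem core_euler (b : Bool) (k l m s t : ℂ) : 5 * P3 b k l m s t =
    (bif b then 2 else 1) * s * P3s b k l m s t + (bif b then 1 else 2) * t * P3t b k l m s t := by
  unfold P3 P3s P3t
  cases b <;> simp only [cond_true, cond_false] <;> ring

/-- the three derivatives of `P3 (x, yz)`. -/
def D3 (b : Bool) (k l m : ℂ) (p : E4) : Fin 3 → ℂ :=
  ![P3s b k l m (p 0) (p 1 * p 2), P3t b k l m (p 0) (p 1 * p 2) * p 2,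
    P3t b k l m (p 0) (p 1 * p 2) * p 1]

/-- `P3 (x, yz)`. -/
def C3 (b : Bool) (k l m : ℂ) (p : E4) : ℂ := P3 b k l m (p 0) (p 1 * p 2)

theorem P3t_axis {b : Bool} {k l m : ℂ} (h : ND b k l m) {s : ℂ} (hs : s ≠ 0) :
    P3t b k l m s 0 ≠ 0 := by
  obtain ⟨hk, hl⟩ := h
  unfold P3t
  cases b
  · simp only [cond_false] at hl ⊢
    simpa using ⟨hl, hs⟩
  · simp only [cond_true] at hl ⊢
    simpa using ⟨hk, hs⟩

/-- points with vanishing derivative: on the planes. -/
theorem on_plane {b : Bool} {k l m : ℂ} (h : ND b k l m) {p : E4}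
    (hD : ∀ i, D3 b k l m p i = 0) : ∃ v : Fin 3, ∀ u : Fin 3, u ≠ v → p u.castSucc = 0 := by
  have e0 : P3s b k l m (p 0) (p 1 * p 2) = 0 := hD 0
  have e1 : P3t b k l m (p 0) (p 1 * p 2) * p 2 = 0 := hD 1
  have e2 : P3t b k l m (p 0) (p 1 * p 2) * p 1 = 0 := hD 2
  by_cases hP : P3t b k l m (p 0) (p 1 * p 2) = 0
  · obtain ⟨f1, f2⟩ := core_iso h e0 hP
    rcases mul_eq_zero.1 f2 with f | f
    · refine ⟨2, fun u hu => ?_⟩
      fin_cases u
      · exact f1
      · exact f
      · exact absurd rfl hu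
    · refine ⟨1, fun u hu => ?_⟩
      fin_cases u
      · exact f1
      · exact absurd rfl hu
      · exact f
  · have g1 := (mul_eq_zero.1 e1).resolve_left hP
    have g2 := (mul_eq_zero.1 e2).resolve_left hP
    refine ⟨0, fun u hu => ?_⟩
    fin_cases u
    · exact absurd rfl hu
    · exact g2
    · exact g1

/-! ### the derivative of the core -/

/-- moving core. -/
def Cq (b : Bool) (k l m : ℝ → ℂ) (q : ℝ × E4) : ℂ := C3 b (k q.1) (l q.1) (m q.1) q.2

theorem contDiff_Cq {b : Bool} {k l m : ℝ → ℂ} (hk : ContDiff ℝ 2 k) (hl : ContDiff ℝ 2 l)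
    (hm : ContDiff ℝ 2 m) : ContDiff ℝ 2 (Cq b k l m) := by
  have hk' : ContDiff ℝ 2 fun q : ℝ × E4 => k q.1 := hk.comp contDiff_fst
  have hl' : ContDiff ℝ 2 fun q : ℝ × E4 => l q.1 := hl.comp contDiff_fst
  have hm' : ContDiff ℝ 2 fun q : ℝ × E4 => m q.1 := hm.comp contDiff_fst
  have hx : ∀ i, ContDiff ℝ 2 fun q : ℝ × E4 => q.2 i := fun i => by fun_prop
  unfold Cq C3 P3
  cases b
  · simp only [cond_false]
    exact (hk'.mul ((hx 0).mul (((hx 1).mul (hx 2)).pow 2))).add
      (hl'.mul (((hx 0).pow 3).mul ((hx 1).mul (hx 2))))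
  · simp only [cond_true]
    exact ((hk'.mul (((hx 0).pow 2).mul ((hx 1).mul (hx 2)))).add
      (hl'.mul ((hx 0).mul (((hx 1).mul (hx 2)).pow 3)))).add
      (hm'.mul (((hx 1).mul (hx 2)).pow 5))

/-- line derivative. -/
theorem line {F : ℝ × E4 → ℂ} {t : ℝ} {p : E4} (h : DifferentiableAt ℝ F (t, p)) (y : E4) :
    HasDerivAt (fun s : ℝ => F (t, p + s • y)) (fderiv ℝ F (t, p) (0, y)) 0 := by
  have hl : HasDerivAt (fun s : ℝ => (t, p + s • y)) ((0 : ℝ), y) 0 := by
    have h1 : HasDerivAt (fun s : ℝ => p + s • y) y 0 := by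
      simpa using ((hasDerivAt_id (0 : ℝ)).smul_const y).const_add p
    exact (hasDerivAt_const (0 : ℝ) t).prodMk h1
  have h0 : (t, p + (0 : ℝ) • y) = (t, p) := by simp
  have h2 := h.hasFDerivAt
  rw [← h0] at h2
  have h3 := h2.comp_hasDerivAt (0 : ℝ) hl
  rwa [h0] at h3

theorem fderiv_Cq {b : Bool} {k l m : ℝ → ℂ} (hk : ContDiff ℝ 2 k) (hl : ContDiff ℝ 2 l)
    (hm : ContDiff ℝ 2 m) (t : ℝ) (p y : E4) : fderiv ℝ (Cq b k l m) (t, p) (0, y) =
      ∑ i, D3 b (k t) (l t) (m t) p i * y i.castSucc := by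
  have hd : DifferentiableAt ℝ (Cq b k l m) (t, p) :=
    (contDiff_Cq hk hl hm).contDiffAt.differentiableAt (by norm_num)
  refine (line hd y).unique ?_
  have hi : ∀ i, HasDerivAt (fun h : ℝ => p i + (h : ℂ) * y i) (y i) 0 := by
    intro i
    have hl : HasDerivAt (fun h : ℝ => p + h • y) y 0 := by
      simpa using ((hasDerivAt_id (0 : ℝ)).smul_const y).const_add p
    have h3 := (hasDerivAt_pi.1 hl) i
    refine h3.congr_of_eventuallyEq (Eventually.of_forall fun h => ?_)
    simp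
  have e : (fun h : ℝ => Cq b k l m (t, p + h • y)) = fun h : ℝ =>
      P3 b (k t) (l t) (m t) (p 0 + (h : ℂ) * y 0)
        ((p 1 + (h : ℂ) * y 1) * (p 2 + (h : ℂ) * y 2)) := by
    funext h
    simp [Cq, C3]
  rw [e]
  unfold P3
  have ht := (hi 1).mul (hi 2)
  cases b
  · simp only [cond_false]
    have h5 := (((hi 0).mul (ht.pow 2)).const_mul (k t)).add
      (((((hi 0).pow 3).mul ht)).const_mul (l t))
    refine h5.congr_deriv ?_
    simp [D3, P3s, P3t, Fin.sum_univ_three]
    ring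
  · simp only [cond_true]
    have h5 := (((((hi 0).pow 2).mul ht)).const_mul (k t)).add
      (((((hi 0)).mul (ht.pow 3))).const_mul (l t))
    have h6 := h5.add ((ht.pow 5).const_mul (m t))
    refine h6.congr_deriv ?_
    simp [D3, P3s, P3t, Fin.sum_univ_three]
    ring

theorem continuous_D3 {b : Bool} {k l m : ℝ → ℂ} (hk : Continuous k) (hl : Continuous l)
    (hm : Continuous m) (i : Fin 3) :
    Continuous fun q : ℝ × E4 => D3 b (k q.1) (l q.1) (m q.1) q.2 i := by
  unfold D3 P3s P3t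
  cases b <;> fin_cases i <;> simp <;> fun_prop

/-! ### linear algebra -/

theorem onto_of_coord {L : E4 →L[ℝ] ℂ} {a : ℂ} {B : ℂ →L[ℝ] ℂ} {i : Fin 4}
    (h : ∀ z, L (Pi.single i z) = a * z + B z) (hB : ‖B‖ < ‖a‖) (c : ℂ) : ∃ y, L y = c := by
  let L' : ℂ →ₗ[ℝ] ℂ :=
    { toFun := fun z => a * z + B z
      map_add' := fun x y => by rw [map_add]; ring
      map_smul' := fun r x => by
        rw [map_smul]
        simp only [RingHom.id_apply, Complex.real_smul]
        ring }
  obtain ⟨z, hz⟩ := onto_pert L' (fun z hz hL => by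
    have h8 : a * z = -B z := eq_neg_of_add_eq_zero_left hL
    have h9 : ‖a‖ * ‖z‖ ≤ ‖B‖ * ‖z‖ := by
      rw [← norm_mul, h8, norm_neg]
      exact B.le_opNorm z
    exact absurd (le_of_mul_le_mul_right h9 (norm_pos_iff.2 hz)) (not_le.2 hB)) c
  exact ⟨Pi.single i z, by rw [h]; exact hz⟩

theorem onto_of_im {L : E4 →L[ℝ] ℂ} {a b : E4}
    (h : (L a).re * (L b).im - (L a).im * (L b).re ≠ 0) (c : ℂ) : ∃ y, L y = c := by
  set δ := (L a).re * (L b).im - (L a).im * (L b).re with hδ
  refine ⟨((c.re * (L b).im - c.im * (L b).re) / δ) • a +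
    (((L a).re * c.im - (L a).im * c.re) / δ) • b, ?_⟩
  rw [map_add, map_smul, map_smul]
  apply Complex.ext
  · simp only [Complex.add_re, Complex.real_smul, Complex.re_ofReal_mul]
    field_simp
    rw [hδ]; ring
  · simp only [Complex.add_im, Complex.real_smul, Complex.im_ofReal_mul]
    field_simp
    rw [hδ]; ring

end Crest.Agent.R267.Start0_920
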