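import Crest.Agent.R267.Cone_808

/-!
# Row 267 (helper808): the Eilenberg-Mazur swindle for pairs

`A` is a "cobordism" from `K` to `L` in `X × [0,1]`, `A'` a cobordism from `L` to `K`.  If both
composites are products (by homeomorphisms of `X × ℝ` which are the identity outside of
`X × (0,2)`) then `(X × ℝ, K × ℝ)` and `(X × ℝ, L × ℝ)` are homeomorphic by a homeomorphism at
bounded distance from the identity.
-/

set_option autoImplicit false
set_option linter.unusedSectionVars false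

noncomputable section

namespace Crest.Agent.R267.Swindle_808

open Set Filter Topology

variable {X : Type*} [TopologicalSpace X]

/-- translation in the second variable -/
def shift (c : ℝ) (p : X × ℝ) : X × ℝ := (p.1, p.2 + c)

@[simp] theorem shift_fst (c : ℝ) (p : X × ℝ) : (shift c p).1 = p.1 := rfl
@[simp] theorem shift_snd (c : ℝ) (p : X × ℝ) : (shift c p).2 = p.2 + c := rfl

theorem continuous_shift (c : ℝ) : Continuous (shift (X := X) c) := by
  unfold shift; fun_prop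

theorem shift_shift (c d : ℝ) (p : X × ℝ) : shift c (shift d p) = shift (c + d) p := by
  refine Prod.ext rfl ?_
  simp only [shift_snd]; ring

@[simp] theorem shift_zero (p : X × ℝ) : shift 0 p = p := by
  refine Prod.ext rfl ?_
  simp

/-- the translate by `2 i` -/
def piece (T : X × ℝ → X × ℝ) (i : ℤ) (p : X × ℝ) : X × ℝ :=
  shift (2 * i) (T (shift (-(2 * i)) p))

/-- gluing the translates -/
def glue (T : X × ℝ → X × ℝ) (p : X × ℝ) : X × ℝ := piece T ⌊p.2 / 2⌋ p

theorem glue_eq {T : X × ℝ → X × ℝ} (hT : ∀ p, p.2 ∉ Ioo (0 : ℝ) 2 → T p = p) (i : ℤ)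
    (p : X × ℝ) (hp : p.2 ∈ Icc (2 * i : ℝ) (2 * i + 2)) : glue T p = piece T i p := by
  rcases hp.2.lt_or_eq with h | h
  · have : ⌊p.2 / 2⌋ = i := by
      rw [Int.floor_eq_iff]
      constructor
      · have := hp.1; linarith
      · linarith
    rw [glue, this]
  · have h1 : ⌊p.2 / 2⌋ = i + 1 := by
      rw [Int.floor_eq_iff]
      push_cast
      constructor <;> linarith
    rw [glue, h1, piece, piece, hT _ (by
      simp only [shift_snd, h]; push_cast; rintro ⟨ha, -⟩; linarith), hT _ (by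
      simp only [shift_snd, h]; rintro ⟨-, ha⟩; linarith), shift_shift, shift_shift]
    simp

theorem T_mem {T : X × ℝ ≃ₜ X × ℝ} (hT : ∀ p, p.2 ∉ Ioo (0 : ℝ) 2 → T p = p) (p : X × ℝ)
    (hp : p.2 ∈ Icc (0 : ℝ) 2) : (T p).2 ∈ Icc (0 : ℝ) 2 := by
  by_cases h : p.2 ∈ Ioo (0 : ℝ) 2
  · by_contra hn
    have h1 : (T p).2 ∉ Ioo (0 : ℝ) 2 := fun hh => hn ⟨hh.1.le, hh.2.le⟩
    have h2 := T.injective (hT _ h1)
    rw [h2] at h1
    exact h1 h
  · rw [hT p h]; exact hp

theorem symm_fix {T : X × ℝ ≃ₜ X × ℝ} (hT : ∀ p, p.2 ∉ Ioo (0 : ℝ) 2 → T p = p) :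
    ∀ p, p.2 ∉ Ioo (0 : ℝ) 2 → T.symm p = p := by
  intro p hp
  rw [Homeomorph.symm_apply_eq]
  exact (hT p hp).symm

theorem piece_mem {T : X × ℝ ≃ₜ X × ℝ} (hT : ∀ p, p.2 ∉ Ioo (0 : ℝ) 2 → T p = p) (i : ℤ)
    (p : X × ℝ) (hp : p.2 ∈ Icc (2 * i : ℝ) (2 * i + 2)) :
    (piece T i p).2 ∈ Icc (2 * i : ℝ) (2 * i + 2) := by
  have h := T_mem hT (shift (-(2 * i)) p) (by
    simp only [shift_snd]
    constructor
    · have := hp.1; linarith
    · have := hp.2; linarith)
  simp only [piece, shift_snd]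
  constructor
  · have := h.1; linarith
  · have := h.2; linarith

theorem exists_slab (p : X × ℝ) : ∃ i : ℤ, p.2 ∈ Icc (2 * i : ℝ) (2 * i + 2) := by
  refine ⟨⌊p.2 / 2⌋, ?_, ?_⟩
  · have := Int.floor_le (p.2 / 2); linarith
  · have := (Int.lt_floor_add_one (p.2 / 2)).le; linarith

theorem glue_glue {T : X × ℝ ≃ₜ X × ℝ} (hT : ∀ p, p.2 ∉ Ioo (0 : ℝ) 2 → T p = p) (p : X × ℝ) :
    glue T.symm (glue T p) = p := by
  obtain ⟨i, hi⟩ := exists_slab p
  rw [glue_eq hT i p hi, glue_eq (symm_fix hT) i _ (piece_mem hT i p hi)]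
  simp only [piece, shift_shift]
  simp [shift_shift]

theorem continuous_glue {T : X × ℝ ≃ₜ X × ℝ} (hT : ∀ p, p.2 ∉ Ioo (0 : ℝ) 2 → T p = p) :
    Continuous (glue T) := by
  have hlf : LocallyFinite fun i : ℤ => {p : X × ℝ | p.2 ∈ Icc (2 * i : ℝ) (2 * i + 2)} := by
    intro p
    refine ⟨{q : X × ℝ | q.2 ∈ Ioo (p.2 - 1) (p.2 + 1)}, ?_, ?_⟩
    · exact (isOpen_Ioo.preimage continuous_snd).mem_nhds ⟨by linarith, by linarith⟩
    · refine (Set.finite_Icc (⌊p.2 / 2⌋ - 2) (⌊p.2 / 2⌋ + 2)).subset ?_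
      rintro i ⟨q, hq1, hq2⟩
      have h1 := Int.floor_le (p.2 / 2)
      have h2 := Int.lt_floor_add_one (p.2 / 2)
      have a1 := hq1.1
      have a2 := hq1.2
      have b1 := hq2.1
      have b2 := hq2.2
      rw [mem_Icc]
      constructor
      · have : (⌊p.2 / 2⌋ : ℝ) - 2 ≤ i := by linarith
        exact_mod_cast this
      · have : (i : ℝ) ≤ ⌊p.2 / 2⌋ + 2 := by linarith
        exact_mod_cast this
  refine hlf.continuous ?_ (fun i => isClosed_Icc.preimage continuous_snd) fun i => ?_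
  rotate_left
  · have h1 : Continuous (piece T i) :=
      (continuous_shift _).comp (T.continuous.comp (continuous_shift _))
    exact h1.continuousOn.congr fun p hp => glue_eq hT i p hp
  · rw [eq_univ_iff_forall]
    intro p
    obtain ⟨i, hi⟩ := exists_slab p
    exact mem_iUnion.2 ⟨i, hi⟩

/-- the glued homeomorphism -/
def glueHomeo {T : X × ℝ ≃ₜ X × ℝ} (hT : ∀ p, p.2 ∉ Ioo (0 : ℝ) 2 → T p = p) :
    X × ℝ ≃ₜ X × ℝ where
  toFun := glue T
  invFun := glue T.symm
  left_inv := glue_glue hT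
  right_inv := by
    exact fun p => glue_glue (T := T.symm) (symm_fix hT) p
  continuous_toFun := continuous_glue hT
  continuous_invFun := continuous_glue (symm_fix hT)

/-- translation as a homeomorphism -/
def shiftHomeo (c : ℝ) : X × ℝ ≃ₜ X × ℝ where
  toFun := shift c
  invFun := shift (-c)
  left_inv p := by rw [shift_shift]; simp
  right_inv p := by rw [shift_shift]; simp
  continuous_toFun := continuous_shift c
  continuous_invFun := continuous_shift (-c)

theorem glue_dist {T : X × ℝ ≃ₜ X × ℝ} (hT : ∀ p, p.2 ∉ Ioo (0 : ℝ) 2 → T p = p) (p : X × ℝ) :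
    |(glue T p).2 - p.2| ≤ 2 := by
  obtain ⟨i, hi⟩ := exists_slab p
  rw [glue_eq hT i p hi]
  have h := piece_mem hT i p hi
  rw [abs_le]
  constructor <;> linarith [h.1, h.2, hi.1, hi.2]

/-- **Eilenberg-Mazur swindle.** -/
theorem swindle {K L : Set X} {A A' : Set (X × ℝ)}
    (T : X × ℝ ≃ₜ X × ℝ) (hT : ∀ p, p.2 ∉ Ioo (0 : ℝ) 2 → T p = p)
    (hT1 : ∀ p : X × ℝ, p.2 ∈ Icc (0 : ℝ) 1 → (p ∈ A ↔ (T p).1 ∈ K))
    (hT2 : ∀ p : X × ℝ, p.2 ∈ Icc (0 : ℝ) 1 → (p ∈ A' ↔ (T (p.1, p.2 + 1)).1 ∈ K))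
    (T' : X × ℝ ≃ₜ X × ℝ) (hT' : ∀ p, p.2 ∉ Ioo (0 : ℝ) 2 → T' p = p)
    (hT'1 : ∀ p : X × ℝ, p.2 ∈ Icc (0 : ℝ) 1 → (p ∈ A' ↔ (T' p).1 ∈ L))
    (hT'2 : ∀ p : X × ℝ, p.2 ∈ Icc (0 : ℝ) 1 → (p ∈ A ↔ (T' (p.1, p.2 + 1)).1 ∈ L)) :
    ∃ h : X × ℝ ≃ₜ X × ℝ, (∀ p, p.1 ∈ K ↔ (h p).1 ∈ L) ∧ (∀ p, |(h p).2 - p.2| ≤ 5) := by
  have key : ∀ p : X × ℝ, ((glue T p).1 ∈ K ↔ (glue T' (shift (-1) p)).1 ∈ L) := by
    intro p
    obtain ⟨i, hi⟩ := exists_slab p
    rw [glue_eq hT i p hi]
    rcases le_total p.2 (2 * i + 1) with h | h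
    · rw [glue_eq hT' (i - 1) (shift (-1) p) (by
        simp only [shift_snd]; push_cast
        constructor <;> linarith [hi.1])]
      have h1 := hT1 (shift (-(2 * i)) p) (by
        simp only [shift_snd]
        constructor <;> linarith [hi.1])
      have h2 := hT'2 (shift (-(2 * i)) p) (by
        simp only [shift_snd]
        constructor <;> linarith [hi.1])
      simp only [piece, shift_fst, shift_shift]
      rw [← h1, h2]
      have : (((shift (-(2 * (i : ℝ))) p).1, (shift (-(2 * (i : ℝ))) p).2 + 1) : X × ℝ) =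
          shift (-(2 * ((i - 1 : ℤ) : ℝ)) + -1) p := by
        refine Prod.ext rfl ?_
        simp only [shift_snd]; push_cast; ring
      rw [this]
    · rw [glue_eq hT' i (shift (-1) p) (by
        simp only [shift_snd]
        constructor <;> linarith [hi.2])]
      have h1 := hT2 (shift (-(2 * i + 1)) p) (by
        simp only [shift_snd]
        constructor <;> linarith [hi.2])
      have h2 := hT'1 (shift (-(2 * i + 1)) p) (by
        simp only [shift_snd]
        constructor <;> linarith [hi.2])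
      simp only [piece, shift_fst, shift_shift]
      have e1 : (((shift (-(2 * (i : ℝ) + 1)) p).1, (shift (-(2 * (i : ℝ) + 1)) p).2 + 1) : X × ℝ) =
          shift (-(2 * (i : ℝ))) p := by
        refine Prod.ext rfl ?_
        simp only [shift_snd]; ring
      have e2 : shift (-(2 * (i : ℝ) + 1)) p = shift (-(2 * (i : ℝ)) + -1) p := by
        refine Prod.ext rfl ?_
        simp only [shift_snd]; ring
      rw [e1] at h1
      rw [← h1, h2, e2]
  let G := glueHomeo hT
  let G' := glueHomeo hT'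
  refine ⟨(G.symm.trans (shiftHomeo (-1))).trans G', fun p => ?_, fun p => ?_⟩
  · have h1 := key (G.symm p)
    have h2 : glue T (G.symm p) = p := G.apply_symm_apply p
    rw [h2] at h1
    exact h1
  · have h1 := glue_dist (symm_fix hT) p
    have h2 := glue_dist hT' (shift (-1) (G.symm p))
    have h3 : ((((G.symm.trans (shiftHomeo (-1))).trans G') p).2) =
        (glue T' (shift (-1) (G.symm p))).2 := rfl
    have h4 : (G.symm p) = glue T.symm p := rfl
    have h5 : (shift (-1) (G.symm p)).2 = (glue T.symm p).2 + -1 := rfl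
    rw [h3]
    rw [h5] at h2
    rw [abs_le] at h1 h2 ⊢
    constructor <;> linarith [h1.1, h1.2, h2.1, h2.2]

end Crest.Agent.R267.Swindle_808
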