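import Crest.Agent.R267.P4Defs_780
import Crest.Agent.R267.ChainPoly_145

/-!
# Systems of chains as polynomials (row 267, S0407)

`Var S` = variables of a list of chains `S` (in the convention of `P4Defs_780`: the chain
`[a₁, …, a_k]` is `x₁^{a₁} x₂ + x₂^{a₂} x₃ + … + x_k^{a_k}`), `sysFun S` = the function,
`sysC S` = the combinatorial data for `ChainPoly_145`.
-/

set_option autoImplicit false

namespace Crest.Agent.R267.Sys_808

open Crest.Agent.R267.P4Defs_780 Crest.Agent.R267.ChainPoly_145 MvPolynomial

/-! ### one chain -/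

/-- value of the head variable of a chain (`1` for the empty chain). -/
def hd : (c : List ℕ) → (Fin c.length → ℂ) → ℂ
  | [], _ => 1
  | _ :: _, z => z 0

/-- the chain function, `chainFun (a :: l) z = z₀ ^ a * hd l z' + chainFun l z'`. -/
def chainFun : (c : List ℕ) → (Fin c.length → ℂ) → ℂ
  | [], _ => 0
  | a :: l, z => z 0 ^ a * hd l (fun i => z i.succ) + chainFun l (fun i => z i.succ)

/-- the combinatorial data of one chain. -/
def chainC (c : List ℕ) (hc : ∀ a ∈ c, 2 ≤ a) : Chains (Fin c.length) where
  pred i := if h : i.1 + 1 < c.length then some ⟨i.1 + 1, h⟩ else none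
  a i := c.get i
  rk i := c.length - i.1
  rk_lt i j h := by
    split_ifs at h with h0
    simp only [Option.some.injEq] at h
    rw [← h]
    simp only
    omega
  inj i i' j h h' := by
    split_ifs at h h' with h0 h0'
    simp only [Option.some.injEq] at h h'
    have h1 := congrArg Fin.val (h.trans h'.symm)
    simp only at h1
    exact Fin.ext (by omega)
  two_le i := hc _ (List.get_mem _ _)

lemma chainC_pred_of_lt (c : List ℕ) (hc : ∀ b ∈ c, 2 ≤ b) (i : Fin c.length)
    (h : i.1 + 1 < c.length) : (chainC c hc).pred i = some ⟨i.1 + 1, h⟩ := by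
  simp only [chainC]
  rw [dif_pos h]

lemma chainC_pred_zero (a : ℕ) (l : List ℕ) (hc : ∀ b ∈ a :: l, 2 ≤ b) (z : Fin (a :: l).length → ℂ) :
    cz ((chainC (a :: l) hc).pred 0) z = hd l (fun i => z i.succ) := by
  cases l with
  | nil => rfl
  | cons b l =>
    have h : (0 : Fin (a :: b :: l).length).1 + 1 < (a :: b :: l).length := by
      simp
    have h2 := chainC_pred_of_lt (a :: b :: l) hc 0 h
    rw [h2]
    rfl

lemma chainC_pred_succ (a : ℕ) (l : List ℕ) (hc : ∀ b ∈ a :: l, 2 ≤ b)
    (hc' : ∀ b ∈ l, 2 ≤ b) (z : Fin (a :: l).length → ℂ) (i : Fin l.length) :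
    cz ((chainC (a :: l) hc).pred i.succ) z =
      cz ((chainC l hc').pred i) (fun i => z i.succ) := by
  simp only [chainC, List.length_cons, Fin.val_succ, Nat.add_lt_add_iff_right]
  split_ifs with h
  · rfl
  · rfl

lemma aeval_chainC (c : List ℕ) (hc : ∀ a ∈ c, 2 ≤ a) (z : Fin c.length → ℂ) :
    aeval z (poly ℝ (chainC c hc)) = chainFun c z := by
  rw [aeval_poly]
  induction c with
  | nil => simp [chainFun]
  | cons a l ih =>
    have hl : ∀ b ∈ l, 2 ≤ b := fun b hb => hc b (List.mem_cons_of_mem _ hb)
    rw [chainFun, ← ih hl]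
    refine (Fin.sum_univ_succ (n := l.length) (fun i : Fin (l.length + 1) =>
      cz ((chainC (a :: l) hc).pred i) z * z i ^ (chainC (a :: l) hc).a i)).trans ?_
    have h0 := chainC_pred_zero a l hc z
    congr 1
    · refine (mul_comm _ _).trans ?_
      exact congrArg₂ (· * ·) rfl h0
    · refine Finset.sum_congr rfl fun i _ => ?_
      exact congrArg₂ (· * ·) (chainC_pred_succ a l hc hl z i) rfl

/-! ### systems -/

/-- index type of the variables of a system. -/
def Var : List (List ℕ) → Type
  | [] => Empty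
  | c :: S => Fin c.length ⊕ Var S

instance instFintypeVar : (S : List (List ℕ)) → Fintype (Var S)
  | [] => inferInstanceAs (Fintype Empty)
  | _ :: S => @instFintypeSum _ _ _ (instFintypeVar S)

instance instDecidableEqVar : (S : List (List ℕ)) → DecidableEq (Var S)
  | [] => inferInstanceAs (DecidableEq Empty)
  | _ :: S => @instDecidableEqSum _ _ _ (instDecidableEqVar S)

lemma card_Var (S : List (List ℕ)) : Fintype.card (Var S) = nvar S := by
  induction S with
  | nil => rfl
  | cons c S ih =>
    have : Fintype.card (Var (c :: S)) = Fintype.card (Fin c.length) + Fintype.card (Var S) :=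
      Fintype.card_sum
    rw [this, Fintype.card_fin, ih]
    simp [nvar]

/-- the Thom-Sebastiani sum of the chains of a system. -/
def sysFun : (S : List (List ℕ)) → (Var S → ℂ) → ℂ
  | [], _ => 0
  | c :: S, z => chainFun c (fun i => z (Sum.inl i)) + sysFun S (fun i => z (Sum.inr i))

/-- no chain, for the empty system. -/
def emptyC : Chains (Var []) where
  pred i := i.elim
  a i := i.elim
  rk i := i.elim
  rk_lt i := i.elim
  inj i := i.elim
  two_le i := i.elim

/-- the combinatorial data of a system. -/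
def sysC : (S : List (List ℕ)) → (∀ c ∈ S, ∀ a ∈ c, 2 ≤ a) → Chains (Var S)
  | [], _ => emptyC
  | c :: S, h => (chainC c (h c (List.mem_cons_self ..))).sum
      (sysC S fun c' hc' => h c' (List.mem_cons_of_mem _ hc'))

lemma aeval_sysC (S : List (List ℕ)) (h : ∀ c ∈ S, ∀ a ∈ c, 2 ≤ a) (z : Var S → ℂ) :
    aeval z (poly ℝ (sysC S h)) = sysFun S z := by
  induction S with
  | nil =>
    rw [aeval_poly]
    exact Finset.sum_eq_zero fun i _ => i.elim
  | cons c S ih =>
    have := aeval_poly_sum (chainC c (h c (List.mem_cons_self ..)))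
      (sysC S fun c' hc' => h c' (List.mem_cons_of_mem _ hc')) z
    refine this.trans ?_
    rw [aeval_chainC, ih]
    rfl

/-! ### degrees -/

lemma deg_chainC (c : List ℕ) (hc : ∀ a ∈ c, 2 ≤ a) (i : Fin c.length) :
    deg (chainC c hc) i = (if i.1 + 1 < c.length then 1 else 0) + c.get i := by
  unfold deg chainC
  simp only
  split_ifs <;> simp

lemma two_le_deg {ι : Type*} (C : Chains ι) (i : ι) : 2 ≤ deg C i := by
  have := C.two_le i
  unfold deg
  omega

lemma deg_chainC_ge_three (c : List ℕ) (hc : ∀ a ∈ c, 2 ≤ a) (h : ∀ h : c ≠ [], 3 ≤ c.getLast h)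
    (i : Fin c.length) : 3 ≤ deg (chainC c hc) i := by
  rw [deg_chainC]
  have h2 : 2 ≤ c.get i := hc _ (List.get_mem _ _)
  split_ifs with h0
  · omega
  · have hne : c ≠ [] := by
      rintro rfl
      exact i.elim0
    have h3 := h hne
    have : c.getLast hne = c.get i := by
      rw [List.getLast_eq_getElem, List.get_eq_getElem]
      congr 1
      have := i.2
      omega
    omega

lemma deg_sysC_ge_three (S : List (List ℕ)) (hS : ∀ c ∈ S, ∀ a ∈ c, 2 ≤ a)
    (h : ∀ c ∈ S, ∀ h : c ≠ [], 3 ≤ c.getLast h) (i : Var S) : 3 ≤ deg (sysC S hS) i := by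
  induction S with
  | nil => exact i.elim
  | cons c S ih =>
    rcases i with i | i
    · have := deg_sum_inl (chainC c (hS c (List.mem_cons_self ..)))
        (sysC S fun c' hc' => hS c' (List.mem_cons_of_mem _ hc')) i
      refine le_of_le_of_eq ?_ this.symm
      exact deg_chainC_ge_three _ _ (h c (List.mem_cons_self ..)) i
    · have := deg_sum_inr (chainC c (hS c (List.mem_cons_self ..)))
        (sysC S fun c' hc' => hS c' (List.mem_cons_of_mem _ hc')) i
      refine le_of_le_of_eq ?_ this.symm
      exact ih _ (fun c' hc' => h c' (List.mem_cons_of_mem _ hc')) i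

lemma exists_deg_eq (S : List (List ℕ)) (hS : ∀ c ∈ S, ∀ a ∈ c, 2 ≤ a) (n : ℕ)
    (h : [n] ∈ S) : ∃ i : Var S, deg (sysC S hS) i = n := by
  induction S with
  | nil => simp at h
  | cons c S ih =>
    rw [List.mem_cons] at h
    by_cases hc : [n] = c
    · subst hc
      refine ⟨Sum.inl (0 : Fin 1), ?_⟩
      have := deg_sum_inl (chainC [n] (hS _ (List.mem_cons_self ..)))
        (sysC S fun c' hc' => hS c' (List.mem_cons_of_mem _ hc')) (0 : Fin 1)
      refine this.trans ?_
      rw [deg_chainC]
      simp
    · obtain ⟨i, hi⟩ := ih (fun c' hc' => hS c' (List.mem_cons_of_mem _ hc'))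
        (h.resolve_left hc)
      refine ⟨Sum.inr i, ?_⟩
      exact (deg_sum_inr (chainC c (hS c (List.mem_cons_self ..)))
        (sysC S fun c' hc' => hS c' (List.mem_cons_of_mem _ hc')) i).trans hi

end Crest.Agent.R267.Sys_808
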