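import Crest.Agent.R267.GS_808
import Crest.Agent.R267.Move_118

/-!
# Leaf B1 of DRAFT B (row 267): isotopic graph systems have equivalent links

`T1same`: same radii, isotopy with room.
-/

set_option autoImplicit false

namespace Crest.Agent.R267.T1_118

open Set Metric
open scoped RealInnerProductSpace
open Crest.Agent.R267.GS_808 Crest.Agent.R267.Move_118

variable {B V : Type*} [NormedAddCommGroup B] [NormedSpace ℝ B]
  [NormedAddCommGroup V] [InnerProductSpace ℝ V]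

/-- radial retraction onto the closed unit ball -/
noncomputable def ret (u : B) : B := (max 1 ‖u‖)⁻¹ • u

theorem continuous_ret : Continuous (ret : B → B) := by
  unfold ret
  refine Continuous.smul (Continuous.inv₀ (by fun_prop) fun u => ?_) continuous_id
  have : (1 : ℝ) ≤ max 1 ‖u‖ := le_max_left _ _
  positivity

theorem ret_of_le {u : B} (h : ‖u‖ ≤ 1) : ret u = u := by
  unfold ret
  rw [max_eq_left h, inv_one, one_smul]

theorem norm_ret_le (u : B) : ‖ret u‖ ≤ 1 := by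
  unfold ret
  have h : (1 : ℝ) ≤ max 1 ‖u‖ := le_max_left _ _
  have h0 : 0 < max 1 ‖u‖ := by positivity
  rw [norm_smul, norm_inv, Real.norm_of_nonneg h0.le, inv_mul_le_iff₀ h0, mul_one]
  exact le_max_right _ _

theorem norm_ret_of_ge {u : B} (h : 1 ≤ ‖u‖) : ‖ret u‖ = 1 := by
  unfold ret
  have h0 : 0 < ‖u‖ := by positivity
  rw [max_eq_right h, norm_smul, norm_inv, norm_norm, inv_mul_cancel₀ h0.ne']

/-- the clamp to `[0,1]` -/
noncomputable def cl (t : ℝ) : ℝ := max 0 (min 1 t)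

theorem continuous_cl : Continuous cl := by unfold cl; fun_prop
theorem cl_mem (t : ℝ) : cl t ∈ Icc (0 : ℝ) 1 :=
  ⟨le_max_left _ _, max_le zero_le_one (min_le_left _ _)⟩
theorem cl_of_mem {t : ℝ} (h : t ∈ Icc (0 : ℝ) 1) : cl t = t := by
  unfold cl
  rw [min_eq_right h.2, max_eq_right h.1]
theorem cl_of_nonpos {t : ℝ} (h : t ≤ 0) : cl t = 0 := by
  unfold cl
  rw [min_eq_right (by linarith), max_eq_left h]
theorem cl_of_one_le {t : ℝ} (h : 1 ≤ t) : cl t = 1 := by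
  unfold cl
  rw [min_eq_left h, max_eq_right zero_le_one]

/-- pull a fibrewise homeomorphism back along a map of the bases -/
def FHom.pull {X Y W : Type*} [TopologicalSpace X] [TopologicalSpace Y] [TopologicalSpace W]
    (Θ : FHom X W) (f : Y → X) (hf : Continuous f) : FHom Y W where
  fwd p y := Θ.fwd (f p) y
  bwd p y := Θ.bwd (f p) y
  cont_fwd := Θ.cont_fwd.comp ((hf.comp continuous_fst).prodMk continuous_snd)
  cont_bwd := Θ.cont_bwd.comp ((hf.comp continuous_fst).prodMk continuous_snd)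
  bwd_fwd _ _ := Θ.bwd_fwd _ _
  fwd_bwd _ _ := Θ.fwd_bwd _ _

theorem fwd_inj {X W : Type*} [TopologicalSpace X] [TopologicalSpace W] (Θ : FHom X W) {p : X}
    {y z : W} (h : Θ.fwd p y = Θ.fwd p z) : y = z := by
  rw [← Θ.bwd_fwd p y, h, Θ.bwd_fwd]

omit [InnerProductSpace ℝ V] in
/-- a homeomorphism over the ball that is the identity for `R ≤ ‖y‖` preserves the norm
conditions -/
theorem norm_le_iff {X : Type*} [TopologicalSpace X] (Θ : FHom X V) {p : X} {R : ℝ}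
    (h : ∀ y, R ≤ ‖y‖ → Θ.fwd p y = y) (y : V) : ‖Θ.fwd p y‖ ≤ R ↔ ‖y‖ ≤ R := by
  constructor
  · intro hy
    by_contra hc
    rw [h y (le_of_not_ge hc)] at hy
    exact hc hy
  · intro hy
    by_contra hc
    have h1 := fwd_inj Θ (h _ (le_of_not_ge hc))
    rw [h1] at hc
    exact hc hy

omit [InnerProductSpace ℝ V] in
theorem norm_eq_iff {X : Type*} [TopologicalSpace X] (Θ : FHom X V) {p : X} {R : ℝ}
    (h : ∀ y, R ≤ ‖y‖ → Θ.fwd p y = y) (y : V) : ‖Θ.fwd p y‖ = R ↔ ‖y‖ = R := by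
  constructor
  · intro hy
    have h1 := fwd_inj Θ (h _ hy.ge)
    rw [h1] at hy
    exact hy
  · intro hy
    rw [h y hy.ge, hy]

/-- image of the carried conditions, in the form needed for the link -/
theorem carries_iff {X : Type*} [TopologicalSpace X] {ι : Type*} {r : ℝ} {Θ : FHom X V}
    {x ν x' ν' : ι → X → V} (h : Carries r Θ x ν x' ν') (p : X) (i : ι) (P : ℝ → ℝ → Prop)
    (hP : ∀ s t, P s t → s ≤ r) (y : V) :
    P ‖Θ.fwd p y - x' i p‖ ⟪ν' i p, Θ.fwd p y - x' i p⟫ ↔ P ‖y - x i p‖ ⟪ν i p, y - x i p⟫ := by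
  have h1 := h.image p i P hP
  rw [real_inner_comm (Θ.fwd p y - x' i p) (ν' i p), real_inner_comm (y - x i p) (ν i p)]
  constructor
  · intro hy
    have : Θ.fwd p y ∈ {y | P ‖y - x' i p‖ ⟪y - x' i p, ν' i p⟫} := hy
    rw [← h1] at this
    obtain ⟨z, hz, hz'⟩ := this
    rw [← fwd_inj Θ hz']
    exact hz
  · intro hy
    have : Θ.fwd p y ∈ Θ.fwd p '' {y | P ‖y - x i p‖ ⟪y - x i p, ν i p⟫} := ⟨y, hy, rfl⟩
    rw [h1] at this
    exact this

/-- **T1 with the same radii and an isotopy with room.** -/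
theorem T1same [ProperSpace B] [ProperSpace V] [CompleteSpace V] {e : V} {m : ℕ}
    (G G' : Sys B e m) (hr : G'.r = G.r) (hR : G'.R = G.R)
    (X N : Fin m → ℝ × B → V)
    (hX : ∀ k, ContinuousOn (X k) (Icc 0 1 ×ˢ closedBall 0 1))
    (hN : ∀ k, ContinuousOn (N k) (Icc 0 1 ×ˢ closedBall 0 1))
    (nN : ∀ k, ∀ t ∈ Icc (0 : ℝ) 1, ∀ u, ‖u‖ ≤ 1 → ‖N k (t, u)‖ = 1)
    (sep : ∀ k l, k ≠ l → ∀ t ∈ Icc (0 : ℝ) 1, ∀ u, ‖u‖ ≤ 1 →
      4 * G.r ≤ ‖X k (t, u) - X l (t, u)‖)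
    (bd : ∀ k, ∀ t ∈ Icc (0 : ℝ) 1, ∀ u, ‖u‖ ≤ 1 → ‖X k (t, u)‖ + 2 * G.r ≤ G.R)
    (wall : ∀ k, ∀ t ∈ Icc (0 : ℝ) 1, ∀ u, ‖u‖ = 1 → ⟪e, X k (t, u)⟫ = 0 ∧ N k (t, u) = e)
    (h0 : ∀ k u, ‖u‖ ≤ 1 → X k (0, u) = G.x k u ∧ N k (0, u) = G.nu k u)
    (h1 : ∀ k u, ‖u‖ ≤ 1 → X k (1, u) = G'.x k u ∧ N k (1, u) = G'.nu k u) :
    Eqv G.K G'.K := by
  classical
  -- parameter space
  let P := closedBall (0 : B) 1 × Icc (0 : ℝ) 1
  have : CompactSpace (closedBall (0 : B) 1) := isCompact_iff_compactSpace.1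
    (isCompact_closedBall _ _)
  have hpar : ∀ F : ℝ × B → V, ContinuousOn F (Icc 0 1 ×ˢ closedBall 0 1) →
      Continuous fun z : P × ℝ => F (cl (z.2 * z.1.2), (z.1.1 : B)) := by
    intro F hF
    refine hF.comp_continuous ?_ fun z => ⟨cl_mem _, z.1.1.2⟩
    have c1 : Continuous fun z : P × ℝ => z.1.1 := continuous_fst.comp continuous_fst
    have c2 : Continuous fun z : P × ℝ => z.1.2 := continuous_snd.comp continuous_fst
    exact (continuous_cl.comp (continuous_snd.mul (continuous_subtype_val.comp c2))).prodMk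
      (continuous_subtype_val.comp c1)
  have hu : ∀ p : P, ‖(p.1 : B)‖ ≤ 1 := fun p => mem_closedBall_zero_iff.1 p.1.2
  obtain ⟨Θ, c1, c2, c3, c4⟩ := exists_path_compact (X := P) (ι := Fin m)
    (x := fun k p t => X k (cl (t * p.2), (p.1 : B))) (ν := fun k p t => N k (cl (t * p.2), (p.1 : B)))
    (fun k => hpar _ (hX k)) (fun k => hpar _ (hN k))
    (fun k p t => nN k _ (cl_mem _) _ (hu p)) G.hr
    (fun p t _ i j hij => sep i j hij _ (cl_mem _) _ (hu p))
  -- the map of the base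
  let f : B → P := fun u => (⟨ret u, by simpa using norm_ret_le u⟩, ⟨cl (2 - ‖u‖), cl_mem _⟩)
  have hf : Continuous f := by
    refine (continuous_ret.subtype_mk _).prodMk (Continuous.subtype_mk ?_ _)
    exact continuous_cl.comp (by fun_prop)
  let Φ := FHom.pull Θ f hf
  have hfix : ∀ u y, G.R ≤ ‖y‖ → Φ.fwd u y = y := by
    intro u y hy
    refine c2 _ _ fun t _ i => ?_
    have := bd i _ (cl_mem (t * (f u).2)) _ (hu (f u))
    have h3 := norm_sub_norm_le y (X i (cl (t * (f u).2), ((f u).1 : B)))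
    linarith
  have hfar : ∀ u y, 2 ≤ ‖u‖ → Φ.fwd u y = y := by
    intro u y hu2
    refine c3 _ (fun t _ i => ?_) y
    have : ((f u).2 : ℝ) = 0 := cl_of_nonpos (by linarith)
    simp only [this, mul_zero, and_self]
  -- over the ball
  have hf1 : ∀ u, ‖u‖ ≤ 1 → ((f u).1 : B) = u ∧ ((f u).2 : ℝ) = 1 := fun u h =>
    ⟨ret_of_le h, cl_of_one_le (by linarith)⟩
  have hcar : ∀ u, ‖u‖ ≤ 1 → ∀ (k : Fin m) (Q : ℝ → ℝ → Prop), (∀ s t, Q s t → s ≤ G.r) →
      ∀ y, Q ‖Φ.fwd u y - G'.x k u‖ ⟪G'.nu k u, Φ.fwd u y - G'.x k u⟫ ↔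
        Q ‖y - G.x k u‖ ⟪G.nu k u, y - G.x k u⟫ := by
    intro u h k Q hQ y
    have h3 := carries_iff c1 (f u) k Q hQ y
    simp only [(hf1 u h).1, (hf1 u h).2, zero_mul, one_mul, cl_of_nonpos le_rfl,
      cl_of_one_le le_rfl, (h0 k u h).1, (h0 k u h).2, (h1 k u h).1, (h1 k u h).2] at h3
    exact h3
  have hwall : ∀ u, ‖u‖ = 1 → ∀ y, ⟪e, Φ.fwd u y⟫ = ⟪e, y⟫ := by
    intro u h y
    let W : Submodule ℝ V := (ℝ ∙ e)ᗮ
    have h3 : Φ.fwd u y - y ∈ W := by
      refine c4 W (f u) (fun t _ i => ?_) (fun t _ i => ?_) y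
      · simp only [(hf1 u h.le).1]
        rw [Submodule.mem_orthogonal_singleton_iff_inner_right, inner_sub_right,
          (wall i _ (cl_mem _) u h).1, (wall i _ (cl_mem _) u h).1, sub_self]
      · simp only [(hf1 u h.le).1]
        rw [(wall i _ (cl_mem _) u h).2, (wall i _ (cl_mem _) u h).2]
    rw [Submodule.mem_orthogonal_singleton_iff_inner_right, inner_sub_right] at h3
    linarith
  refine ⟨Φ.homeo, ⟨closedBall 0 2 ×ˢ closedBall 0 G.R,
    (isCompact_closedBall _ _).prod (isCompact_closedBall _ _), ?_⟩, ?_⟩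
  · rintro ⟨u, y⟩ hp
    show (u, Φ.fwd u y) = (u, y)
    rw [mem_prod, mem_closedBall_zero_iff, mem_closedBall_zero_iff, not_and_or, not_le,
      not_le] at hp
    rcases hp with hp | hp
    · rw [hfar u y hp.le]
    · rw [hfix u y hp.le]
  · rintro ⟨u, y⟩
    show (u, y) ∈ G.K ↔ (u, Φ.fwd u y) ∈ G'.K
    simp only [Sys.K, mem_ofPred_eq, hr, hR]
    have a1 := norm_le_iff Φ (hfix u) y
    have a2 := norm_eq_iff Φ (hfix u) y
    rw [a1, a2]
    refine or_congr ?_ (or_congr ?_ ?_)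
    · constructor
      · rintro ⟨b1, b2, b3, b4⟩
        refine ⟨by rw [hwall u b2, b1], b2, b3, fun k => ?_⟩
        by_contra hc
        have := (hcar u b2.le k (fun s _ => s < G.r) (fun s _ h => le_of_lt h) y).1 (not_le.1 hc)
        exact absurd (b4 k) (not_le.2 this)
      · rintro ⟨b1, b2, b3, b4⟩
        refine ⟨by rw [← hwall u b2, b1], b2, b3, fun k => ?_⟩
        by_contra hc
        have := (hcar u b2.le k (fun s _ => s < G.r) (fun s _ h => le_of_lt h) y).2 (not_le.1 hc)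
        exact absurd (b4 k) (not_le.2 this)
    · constructor
      · rintro ⟨b1, b2, b3⟩
        exact ⟨by rw [hfix u y b3.ge, b1], b2, b3⟩
      · rintro ⟨b1, b2, b3⟩
        exact ⟨by rw [← hfix u y b3.ge, b1], b2, b3⟩
    · refine exists_congr fun k => ?_
      constructor
      · rintro ⟨b1, b2, b3⟩
        exact ⟨b1, (hcar u b1 k (fun s t => s = G.r ∧ t = 0) (fun s _ h => h.1.le) y).2 ⟨b2, b3⟩⟩
      · rintro ⟨b1, b2, b3⟩
        exact ⟨b1, (hcar u b1 k (fun s t => s = G.r ∧ t = 0) (fun s _ h => h.1.le) y).1 ⟨b2, b3⟩⟩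

/-- continuous positive functions on a compact set have a common positive lower bound -/
theorem exists_lower {Y ι : Type*} [TopologicalSpace Y] [Finite ι] {K : Set Y} (hK : IsCompact K)
    (f : ι → Y → ℝ) (hf : ∀ i, ContinuousOn (f i) K) (pos : ∀ i, ∀ p ∈ K, 0 < f i p) :
    ∃ δ > 0, ∀ i, ∀ p ∈ K, δ ≤ f i p := by
  have h1 : ∀ i, ∃ δ > 0, ∀ p ∈ K, δ ≤ f i p := by
    intro i
    rcases K.eq_empty_or_nonempty with h | h
    · exact ⟨1, one_pos, by simp [h]⟩
    · obtain ⟨p, hp, hm⟩ := hK.exists_isMinOn h (hf i)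
      exact ⟨f i p, pos i p hp, fun q hq => hm hq⟩
  choose δ hδ h using h1
  rcases isEmpty_or_nonempty ι with hι | hι
  · exact ⟨1, one_pos, fun i => (hι.false i).elim⟩
  · obtain ⟨i0, hi0⟩ := Finite.exists_min δ
    exact ⟨δ i0, hδ _, fun i p hp => (hi0 i).trans (h i p hp)⟩

/-- continuous functions on a compact set have a common upper bound -/
theorem exists_upper {Y ι : Type*} [TopologicalSpace Y] [Finite ι] {K : Set Y} (hK : IsCompact K)
    (f : ι → Y → ℝ) (hf : ∀ i, ContinuousOn (f i) K) : ∃ M, ∀ i, ∀ p ∈ K, f i p ≤ M := by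
  have h1 : ∀ i, ∃ M, ∀ p ∈ K, f i p ≤ M := by
    intro i
    obtain ⟨M, hM⟩ := (hK.bddAbove_image (hf i))
    exact ⟨M, fun p hp => hM ⟨p, hp, rfl⟩⟩
  choose M h using h1
  rcases isEmpty_or_nonempty ι with hι | hι
  · exact ⟨1, fun i => (hι.false i).elim⟩
  · obtain ⟨i0, hi0⟩ := Finite.exists_max M
    exact ⟨M i0, fun i p hp => (h i p hp).trans (hi0 i)⟩

/-- the same system with a thinner tube and a larger box -/
def Sys.resize {e : V} {m : ℕ} (G : Sys B e m) (r R : ℝ) (hr0 : 0 < r) (hr : r ≤ G.r)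
    (hR : G.R ≤ R) : Sys B e m where
  x := G.x
  nu := G.nu
  r := r
  R := R
  hr := hr0
  cx := G.cx
  cnu := G.cnu
  norm_nu := G.norm_nu
  sep k l u h := by have := G.sep k l u h; linarith
  bd k u := by have := G.bd k u; linarith
  wall_x := G.wall_x
  wall_nu := G.wall_nu

/-- change of the radii -/
def RadProp (B : Type*) {V : Type*} [NormedAddCommGroup B] [NormedSpace ℝ B]
    [NormedAddCommGroup V] [InnerProductSpace ℝ V] (e : V) : Prop :=
  ∀ (m : ℕ) (G : Sys B e m) (r R : ℝ) (hr0 : 0 < r) (hr : r ≤ G.r) (hR : G.R ≤ R),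
    Eqv G.K (Sys.resize G r R hr0 hr hR).K

/-- **B1 from the change of radii.** -/
theorem T1_of_rad [ProperSpace B] [ProperSpace V] [CompleteSpace V] {e : V}
    (hrad : RadProp B e) : T1Prop B e := by
  rintro m G G' ⟨X, N, hX, hN, nN, sep, wall, h0, h1⟩
  have hK : IsCompact (Icc (0 : ℝ) 1 ×ˢ closedBall (0 : B) 1) :=
    isCompact_Icc.prod (isCompact_closedBall _ _)
  obtain ⟨δ, hδ, hδ'⟩ := exists_lower (ι := {q : Fin m × Fin m // q.1 ≠ q.2}) hK
    (fun q p => ‖X q.1.1 p - X q.1.2 p‖) (fun q => ((hX _).sub (hX _)).norm)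
    (fun q p hp => norm_pos_iff.2 (sub_ne_zero.2
      (sep _ _ q.2 p.1 hp.1 p.2 (mem_closedBall_zero_iff.1 hp.2))))
  obtain ⟨M, hM⟩ := exists_upper hK (fun k p => ‖X k p‖) (fun k => (hX k).norm)
  set r := min (min G.r G'.r) (δ / 4) with hrdef
  set R := max (max G.R G'.R) (M + 2 * r) with hRdef
  have hr0 : 0 < r := lt_min (lt_min G.hr G'.hr) (by positivity)
  have a1 : r ≤ G.r := (min_le_left _ _).trans (min_le_left _ _)
  have a2 : r ≤ G'.r := (min_le_left _ _).trans (min_le_right _ _)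
  have a3 : r ≤ δ / 4 := min_le_right _ _
  have b1 : G.R ≤ R := (le_max_left _ _).trans (le_max_left _ _)
  have b2 : G'.R ≤ R := (le_max_right _ _).trans (le_max_left _ _)
  have b3 : M + 2 * r ≤ R := le_max_right _ _
  refine ((hrad m G r R hr0 a1 b1).trans ?_).trans (hrad m G' r R hr0 a2 b2).symm
  refine T1same _ _ rfl rfl X N hX hN nN (fun k l hkl t ht u hu => ?_) (fun k t ht u hu => ?_)
    wall h0 h1
  · have := hδ' ⟨(k, l), hkl⟩ (t, u) ⟨ht, mem_closedBall_zero_iff.2 hu⟩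
    show 4 * r ≤ _
    linarith
  · have := hM k (t, u) ⟨ht, mem_closedBall_zero_iff.2 hu⟩
    show _ + 2 * r ≤ R
    linarith

end Crest.Agent.R267.T1_118
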