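import Crest.Agent.R267.Carve3_363
import Crest.Agent.R267.EndK_864

/-!
# Row 267 (helper363): `T3aP` for all data `D`
-/

set_option autoImplicit false

namespace Crest.Agent.R267.T3aP_363

open Set Filter Topology Metric
open scoped RealInnerProductSpace
open Crest.Agent.R267.GS_808 Crest.Agent.R267.EndDef_864 Crest.Agent.R267.EndBas_864
  Crest.Agent.R267.EndG_864 Crest.Agent.R267.EndH_864 Crest.Agent.R267.EndK_864
  Crest.Agent.R267.EndJ_864 Crest.Agent.R267.T3aDefs_957 Crest.Agent.R267.Carve3_363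

variable {n m : ℕ}

/-- the hypotheses of `carve3` from those of `EndK_864` (`p = 4`) -/
theorem cf_of (D : LD (n + 3)) (e : Fin m ≃ {k : Fin (n + 3) → ℕ // D.Let k})
    (Q : Par n) (hsm : ∀ k l j, (ls D e).sg k j ≠ (ls D e).sg l j →
      Q.ep * (‖vec (n := n) ((ls D e).V k)‖ + ‖vec (n := n) ((ls D e).V l)‖) <
        Q.d * |(ls D e).sg k j - (ls D e).sg l j|) (G : (Fin (n + 3) → ℂ) → ℂ) (r2 Vm : ℝ)
    (h : Hyp G (ls D e)) (hr2 : 0 < r2) (hS : ∀ k j, |(ls D e).sg k j| ≤ D.K1 - 1)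
    (hVm : ∀ k, ‖vec (n := n) ((ls D e).V k)‖ ≤ Vm) (hep : Q.ep * Vm < 1)
    (tube : ∀ (s t : W n) (k : Fin m), s ≠ 0 → ‖t - (hd (ls D e) Q hsm).eta k s‖ ≤ r2 * ‖s‖ →
        (G (zc s t)).im = ⟪(hd (ls D e) Q hsm).nrm k s, t - (hd (ls D e) Q hsm).eta k s⟫ ∧
          0 < (G (zc s t)).re) :
    CF (ls D e) Q hsm 4 r2 D.K1 G := by
  have hK1 := one_le_K1 D
  refine ⟨by norm_num, ?_, hr2, by linarith, ?_, h.sm, fun r x hr => h.hom r x hr, h.s0, h.k1,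
    h.k2, h.c00, h.low, tube, ?_⟩
  · intro k j
    refine ⟨(e k).1 j, ?_⟩
    rw [ls_sg]
    unfold sg
    ring
  · exact T1_of (ls D e) Q hsm hS hVm (by linarith) (by linarith)
  · intro l x hl hx him hre
    obtain ⟨k, Y, a1, a2, a3, a4, a5⟩ := h.r4 x l hl hx him hre
    refine ⟨k, Y, a1, a2, fun h0 => a3 (Complex.ext h0 him), fun j => ⟨?_, ?_⟩⟩
    · have := a4 j
      rw [hx j] at this
      linarith
    · have := a5 j
      rwa [hx j] at this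

/-- **`T3aP`, all data**. -/
theorem t3aP (D : LD (n + 3)) : GlueDefs_322.T3aP D := by
  refine t3aP_of D ?_
  intro m e Q hsm G r2 Vm h hr2 hQe hS hVm hVm0 h1 h2 hep tube
  obtain ⟨r0, hr0, H⟩ := carve3 (cf_of D e Q hsm G r2 Vm h hr2 hS hVm hep tube)
  refine ⟨r0, hr0, fun r hr hr' => ?_⟩
  obtain ⟨ε, hε, H'⟩ := H r hr hr'
  exact ⟨ε, hε, H' ε hε le_rfl⟩

end Crest.Agent.R267.T3aP_363
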