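import Crest.Agent.R267.Sys_808

/-!
# Row 267, task 163 (T3alg, helper34): the `(α, β)`-plane of a chain

`f = chainFun c`, `c = a :: l`, head variable `z₀`.  The discriminant of the unfolding
`f + α z₀ + β` is the curve `β ^ μ(c) = κ α ^ (c.prod)` (`disc`).  Consequences:

* `fderiv_ne` : off that curve `f + α z₀ + β` has `0` as a regular value;
* `reg_family` : a family `f(x) + α(y) x₀ + β(y)` with `(α,β)(y)` off the curve for `y ≠ 0` and `= 0` at
  `y = 0` has complex gradient in `x` different from `0` at every zero `(x, y) ≠ 0`;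
* `off1`, `off2`, `H1_off`, `H2_off` : the explicit homotopy between the loop `(e^{i a θ}, 0)` and the loop
  `(1, β_a)`, `β_a = [0 → R u] · [R u e^{i a d θ/μ}] · [R u e^{2π i a d/μ} → 0]`, inside the complement.
-/

set_option autoImplicit false

namespace Crest.Agent.R267.T3alg_34

open Crest.Agent.R267.P4Defs_780 Crest.Agent.R267.Sys_808

/-! ### Milnor numbers -/

lemma mu_le_prod : ∀ c : List ℕ, mu c ≤ c.prod
  | [] => by simp [mu]
  | a :: l => by
    rw [mu, List.prod_cons]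
    exact Nat.sub_le _ _

lemma mu_add {a : ℕ} {l : List ℕ} (h : 1 ≤ a) : mu (a :: l) + mu l = (a :: l).prod := by
  have h1 := mu_le_prod l
  have h2 : l.prod ≤ a * l.prod := Nat.le_mul_of_pos_left _ h
  rw [mu, List.prod_cons]
  omega

lemma mu_pos : ∀ {c : List ℕ}, (∀ a ∈ c, 2 ≤ a) → 0 < mu c
  | [], _ => by simp [mu]
  | a :: l, h => by
    have ha : 2 ≤ a := h a (List.mem_cons_self ..)
    have h1 := mu_le_prod l
    have hp : 0 < l.prod := List.prod_pos_iff_forall_pos_nat.2 fun x hx =>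
      lt_of_lt_of_le (by norm_num) (h x (List.mem_cons_of_mem _ hx))
    have h2 : 2 * l.prod ≤ a * l.prod := Nat.mul_le_mul_right _ ha
    rw [mu]
    omega

/-! ### partial derivatives of the chain function -/

/-- the gradient of `chainFun c + y z₀` (for the empty chain there is nothing). -/
def grad : (c : List ℕ) → ℂ → (Fin c.length → ℂ) → (Fin c.length → ℂ)
  | [], _, _ => Fin.elim0
  | a :: l, y, z => Fin.cons (a * z 0 ^ (a - 1) * hd l (fun i => z i.succ) + y)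
      (grad l (z 0 ^ a) (fun i => z i.succ))

/-- the head functional. -/
noncomputable def hdL : (c : List ℕ) → ((Fin c.length → ℂ) →L[ℂ] ℂ)
  | [] => 0
  | a :: l => ContinuousLinearMap.proj (R := ℂ) (φ := fun _ : Fin (a :: l).length => ℂ) 0

lemma hasFDerivAt_hd (c : List ℕ) (z : Fin c.length → ℂ) : HasFDerivAt (hd c) (hdL c) z := by
  cases c with
  | nil => exact hasFDerivAt_const _ _
  | cons a l =>
    exact (ContinuousLinearMap.proj (R := ℂ) (φ := fun _ : Fin (a :: l).length => ℂ) 0).hasFDerivAt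

/-- restriction to the tail variables. -/
noncomputable def tl (a : ℕ) (l : List ℕ) :
    (Fin (a :: l).length → ℂ) →L[ℂ] (Fin l.length → ℂ) :=
  ContinuousLinearMap.pi fun i =>
    ContinuousLinearMap.proj (R := ℂ) (φ := fun _ : Fin (a :: l).length => ℂ) i.succ

/-- the linear form `v ↦ ∑ gᵢ vᵢ`. -/
noncomputable def lin {n : ℕ} (g : Fin n → ℂ) : (Fin n → ℂ) →L[ℂ] ℂ :=
  ∑ i, g i • ContinuousLinearMap.proj (R := ℂ) (φ := fun _ : Fin n => ℂ) i

lemma lin_apply {n : ℕ} (g v : Fin n → ℂ) : lin g v = ∑ i, g i * v i := by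
  simp [lin]

lemma lin_eq_zero {n : ℕ} {g : Fin n → ℂ} (h : lin g = 0) : g = 0 := by
  funext i
  have := congrArg (fun L : (Fin n → ℂ) →L[ℂ] ℂ => L (Pi.single i 1)) h
  simpa [lin_apply, Pi.single_apply] using this

lemma lin_cons (a : ℕ) (l : List ℕ) (x : ℂ) (g : Fin l.length → ℂ) :
    (lin (Fin.cons x g : Fin (a :: l).length → ℂ)) =
      x • (ContinuousLinearMap.proj (R := ℂ) (φ := fun _ : Fin (a :: l).length => ℂ) 0)
        + (lin g).comp (tl a l) := by
  ext v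
  rw [lin_apply]
  refine (Fin.sum_univ_succ (n := l.length) _).trans ?_
  simp [lin_apply, tl]

/-- the derivative of `chainFun c` is `lin (grad c y z) - y • hdL c`, for every `y`. -/
theorem hasFDerivAt_chain : (c : List ℕ) → (y : ℂ) → (z : Fin c.length → ℂ) →
    HasFDerivAt (chainFun c) (lin (grad c y z) - y • hdL c) z
  | [], y, z => by
    have : (lin (grad [] y z) - y • hdL [] : (Fin ([] : List ℕ).length → ℂ) →L[ℂ] ℂ) = 0 := by
      refine ContinuousLinearMap.ext fun v => ?_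
      have hv : v = 0 := funext fun i => Fin.elim0 i
      rw [hv, map_zero, map_zero]
    rw [this]
    exact hasFDerivAt_const _ _
  | a :: l, y, z => by
    have h1 : HasFDerivAt (fun z : Fin (a :: l).length → ℂ => z 0)
        (ContinuousLinearMap.proj (R := ℂ) (φ := fun _ : Fin (a :: l).length => ℂ) 0) z :=
      (ContinuousLinearMap.proj (R := ℂ) (φ := fun _ : Fin (a :: l).length => ℂ) 0).hasFDerivAt
    have ht : HasFDerivAt (fun z : Fin (a :: l).length → ℂ => fun i : Fin l.length => z i.succ)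
        (tl a l) z := (tl a l).hasFDerivAt
    have hh := (hasFDerivAt_hd l (fun i => z i.succ)).comp z ht
    have hc := (hasFDerivAt_chain l (z 0 ^ a) (fun i => z i.succ)).comp z ht
    have h2 := ((h1.pow a).mul hh).add hc
    refine h2.congr_fderiv ?_
    have e := lin_cons a l (a * z 0 ^ (a - 1) * hd l (fun i => z i.succ) + y)
      (grad l (z 0 ^ a) (fun i => z i.succ))
    rw [show grad (a :: l) y z = Fin.cons (a * z 0 ^ (a - 1) * hd l (fun i => z i.succ) + y)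
      (grad l (z 0 ^ a) (fun i => z i.succ)) from rfl, e]
    ext v
    simp [hdL, tl, lin_apply]
    ring

/-! ### the critical curve -/

/-- Euler's formula along the critical curve. -/
theorem euler : (a : ℕ) → (l : List ℕ) → (∀ b ∈ a :: l, 2 ≤ b) → (y : ℂ) →
    (z : Fin (a :: l).length → ℂ) → grad (a :: l) y z = 0 →
    (((a :: l).prod : ℕ) : ℂ) * chainFun (a :: l) z = -((mu l : ℕ) : ℂ) * y * z 0
  | a, [], h, y, z, hg => by
    have h0 := congrFun hg 0
    have ha : 2 ≤ a := h a (List.mem_cons_self ..)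
    simp only [grad, hd, Fin.cons_zero, Pi.zero_apply] at h0
    have hy : y = -(a * z 0 ^ (a - 1)) := by linear_combination h0
    simp only [chainFun, hd, mu, List.prod_cons, List.prod_nil, mul_one, add_zero, Nat.cast_one]
    rw [hy]
    have e : z 0 ^ a = z 0 ^ (a - 1) * z 0 := by
      rw [← pow_succ]; congr 1; omega
    rw [e]
    ring
  | a, b :: l, h, y, z, hg => by
    have h0 := congrFun hg 0
    have h1 : grad (b :: l) (z 0 ^ a) (fun i => z i.succ) = 0 := by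
      funext i
      have := congrFun hg i.succ
      simpa [grad] using this
    have ih := euler b l (fun x hx => h x (List.mem_cons_of_mem _ hx)) _ _ h1
    have ha : 2 ≤ a := h a (List.mem_cons_self ..)
    have hb : 2 ≤ b := h b (List.mem_cons_of_mem _ (List.mem_cons_self ..))
    have hm : ((mu (b :: l) : ℕ) : ℂ) + (mu l : ℕ) = (((b :: l).prod : ℕ) : ℂ) := by
      exact_mod_cast mu_add (a := b) (l := l) (by omega)
    rw [show chainFun (a :: b :: l) z = z 0 ^ a * hd (b :: l) (fun i => z i.succ)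
      + chainFun (b :: l) (fun i => z i.succ) from rfl]
    rw [show hd (b :: l) (fun i => z i.succ) = z (Fin.succ 0) from rfl]
    have h0' : (a : ℂ) * z 0 ^ (a - 1) * z (Fin.succ 0) + y = 0 := by
      simpa [grad, hd] using h0
    have hy : y = -(a * z 0 ^ (a - 1) * z (Fin.succ 0)) := by linear_combination h0'
    have e : z 0 ^ a = z 0 ^ (a - 1) * z 0 := by
      rw [← pow_succ]; congr 1; omega
    rw [show (((a :: b :: l).prod : ℕ) : ℂ) = a * (((b :: l).prod : ℕ) : ℂ) by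
      rw [List.prod_cons]; push_cast; ring]
    have ih' : (((b :: l).prod : ℕ) : ℂ) * chainFun (b :: l) (fun i => z i.succ)
        = -((mu l : ℕ) : ℂ) * z 0 ^ a * z (Fin.succ 0) := ih
    rw [hy]
    linear_combination (a : ℂ) * ih' + (a : ℂ) * z (Fin.succ 0) * z 0 ^ a * (-hm)
      + (a : ℂ) * z (Fin.succ 0) * ((mu (b :: l) : ℕ) : ℂ) * e

/-- the critical curve `y ^ μ(l) = κ z₀ ^ μ(c)`. -/
theorem curve : (a : ℕ) → (l : List ℕ) → (∀ b ∈ a :: l, 2 ≤ b) → ∃ κ : ℂ, κ ≠ 0 ∧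
    ∀ (y : ℂ) (z : Fin (a :: l).length → ℂ), grad (a :: l) y z = 0 →
      y ^ mu l = κ * z 0 ^ mu (a :: l)
  | a, [], h => by
    have ha : 2 ≤ a := h a (List.mem_cons_self ..)
    refine ⟨-a, by
      rw [neg_ne_zero, Nat.cast_ne_zero]; omega, fun y z hg => ?_⟩
    have h0 := congrFun hg 0
    simp only [grad, hd, Fin.cons_zero, Pi.zero_apply] at h0
    simp only [mu, List.prod_nil, mul_one, pow_one]
    linear_combination h0
  | a, b :: l, h => by
    obtain ⟨κ, hκ, ih⟩ := curve b l (fun x hx => h x (List.mem_cons_of_mem _ hx))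
    have ha : 2 ≤ a := h a (List.mem_cons_self ..)
    have hb : 2 ≤ b := h b (List.mem_cons_of_mem _ (List.mem_cons_self ..))
    have ha0 : (a : ℂ) ≠ 0 := by rw [Nat.cast_ne_zero]; omega
    refine ⟨(-(a : ℂ)) ^ mu (b :: l) / κ, div_ne_zero (pow_ne_zero _ (neg_ne_zero.2 ha0)) hκ,
      fun y z hg => ?_⟩
    have h0 := congrFun hg 0
    have h1 : grad (b :: l) (z 0 ^ a) (fun i => z i.succ) = 0 := by
      funext i
      have := congrFun hg i.succ
      simpa [grad] using this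
    have ih' : (z 0 ^ a) ^ mu l = κ * z (Fin.succ 0) ^ mu (b :: l) := ih _ _ h1
    have h0' : (a : ℂ) * z 0 ^ (a - 1) * z (Fin.succ 0) + y = 0 := by
      simpa [grad, hd] using h0
    have hy : y = -a * z 0 ^ (a - 1) * z (Fin.succ 0) := by linear_combination h0'
    have hm1 := mu_add (a := b) (l := l) (by omega)
    have hm2 := mu_add (a := a) (l := b :: l) (by omega)
    rw [hy, mul_pow, mul_pow]
    have e1 : mu (a :: b :: l) = (a - 1) * mu (b :: l) + a * mu l := by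
      have e2 : (a :: b :: l).prod = a * (b :: l).prod := List.prod_cons
      rw [e2, ← hm1] at hm2
      have e3 : a * (mu (b :: l) + mu l) = (a - 1) * mu (b :: l) + mu (b :: l) + a * mu l := by
        obtain ⟨n, rfl⟩ : ∃ n, a = n + 1 := ⟨a - 1, by omega⟩
        simp only [Nat.add_sub_cancel]
        ring
      omega
    have e2 : z 0 ^ mu (a :: b :: l)
        = (z 0 ^ (a - 1)) ^ mu (b :: l) * (κ * z (Fin.succ 0) ^ mu (b :: l)) := by
      rw [← ih', e1, pow_add, pow_mul, pow_mul]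
    rw [e2]
    field_simp

/-- **the discriminant**: if `f + α z₀ + β` vanishes together with its gradient at `z`, then
`β ^ μ(c) = κ α ^ (c.prod)`. -/
theorem disc {c : List ℕ} (hc : c ≠ []) (h : ∀ b ∈ c, 2 ≤ b) : ∃ κ : ℂ, κ ≠ 0 ∧
    ∀ (α β : ℂ) (z : Fin c.length → ℂ), grad c α z = 0 →
      chainFun c z + α * (hdL c z) + β = 0 → β ^ mu c = κ * α ^ c.prod := by
  cases c with
  | nil => exact absurd rfl hc
  | cons a l =>
    obtain ⟨κ, hκ, hcur⟩ := curve a l h
    have ha : 2 ≤ a := h a (List.mem_cons_self ..)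
    have hm := mu_add (a := a) (l := l) (by omega)
    have hmp := mu_pos h
    have hP : (((a :: l).prod : ℕ) : ℂ) ≠ 0 := by
      rw [Nat.cast_ne_zero]
      have := mu_le_prod (a :: l)
      omega
    have hM : ((mu (a :: l) : ℕ) : ℂ) ≠ 0 := by rw [Nat.cast_ne_zero]; omega
    refine ⟨(-((mu (a :: l) : ℕ) : ℂ) / (((a :: l).prod : ℕ) : ℂ)) ^ mu (a :: l) / κ,
      div_ne_zero (pow_ne_zero _ (div_ne_zero (neg_ne_zero.2 hM) hP)) hκ, fun α β z hg h0 => ?_⟩
    have hE := euler a l h α z hg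
    have hC := hcur α z hg
    have hz : hdL (a :: l) z = z 0 := rfl
    rw [hz] at h0
    have hm' : ((mu (a :: l) : ℕ) : ℂ) + (mu l : ℕ) = (((a :: l).prod : ℕ) : ℂ) := by
      exact_mod_cast hm
    have hβ : β = (-((mu (a :: l) : ℕ) : ℂ) / (((a :: l).prod : ℕ) : ℂ)) * (α * z 0) := by
      field_simp
      linear_combination (((a :: l).prod : ℕ) : ℂ) * h0 - hE + α * z 0 * hm'
    rw [hβ, mul_pow, mul_pow, ← hm, pow_add, hC]
    field_simp

/-- `f` has an isolated critical point. -/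
theorem eq_zero_of_grad : (c : List ℕ) → (∀ b ∈ c, 2 ≤ b) → (z : Fin c.length → ℂ) →
    grad c 0 z = 0 → z = 0
  | [], _, z, _ => by funext i; exact i.elim0
  | a :: l, h, z, hg => by
    obtain ⟨κ, hκ, hcur⟩ := curve a l h
    have h1 := hcur 0 z hg
    have hl : 0 < mu l := mu_pos (fun x hx => h x (List.mem_cons_of_mem _ hx))
    rw [zero_pow hl.ne', eq_comm, mul_eq_zero, or_iff_right hκ] at h1
    have hz0 : z 0 = 0 := (pow_eq_zero_iff (mu_pos h).ne').1 h1
    have ha : 2 ≤ a := h a (List.mem_cons_self ..)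
    have h2 : grad l 0 (fun i => z i.succ) = 0 := by
      have h3 : grad l (z 0 ^ a) (fun i => z i.succ) = 0 := by
        funext i
        have := congrFun hg i.succ
        simpa [grad] using this
      rwa [hz0, zero_pow (by omega)] at h3
    have ih := eq_zero_of_grad l (fun x hx => h x (List.mem_cons_of_mem _ hx)) _ h2
    funext i
    refine Fin.cases ?_ (fun j => ?_) i
    · exact hz0
    · exact congrFun ih j

/-! ### regular values -/

/-- the unfolding `f + α z₀ + β`. -/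
noncomputable def unf (c : List ℕ) (α β : ℂ) (z : Fin c.length → ℂ) : ℂ :=
  chainFun c z + α * hdL c z + β

theorem hasFDerivAt_unf (c : List ℕ) (α β : ℂ) (z : Fin c.length → ℂ) :
    HasFDerivAt (unf c α β) (lin (grad c α z)) z := by
  have h := ((hasFDerivAt_chain c α z).add ((hdL c).hasFDerivAt.const_mul α)).add_const β
  refine h.congr_fderiv ?_
  abel

/-- off the discriminant `0` is a regular value of `f + α z₀ + β`. -/
theorem fderiv_ne {c : List ℕ} (hc : c ≠ []) (h : ∀ b ∈ c, 2 ≤ b) : ∃ κ : ℂ, κ ≠ 0 ∧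
    (∀ (α β : ℂ), β ^ mu c ≠ κ * α ^ c.prod → ∀ z, unf c α β z = 0 → fderiv ℂ (unf c α β) z ≠ 0) := by
  obtain ⟨κ, hκ, hd⟩ := disc hc h
  refine ⟨κ, hκ, fun α β hab z hz h0 => hab (hd α β z ?_ hz)⟩
  rw [(hasFDerivAt_unf c α β z).fderiv] at h0
  exact lin_eq_zero h0

theorem fderiv_ne_zero {c : List ℕ} (h : ∀ b ∈ c, 2 ≤ b) {z : Fin c.length → ℂ} (hz : z ≠ 0) :
    fderiv ℂ (unf c 0 0) z ≠ 0 := by
  intro h0
  rw [(hasFDerivAt_unf c 0 0 z).fderiv] at h0
  exact hz (eq_zero_of_grad c h z (lin_eq_zero h0))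

/-- **regularity of families** `F(x, y) = f(x) + α(y) x₀ + β(y)` : `(α,β)(y)` off the discriminant for
`y ≠ 0` and `(α,β)(0) = 0`. -/
theorem reg_family {c : List ℕ} (hc : c ≠ []) (h : ∀ b ∈ c, 2 ≤ b) : ∃ κ : ℂ, κ ≠ 0 ∧
    ∀ (Y : Type) [Zero Y] (α β : Y → ℂ), α 0 = 0 → β 0 = 0 →
      (∀ y ≠ 0, β y ^ mu c ≠ κ * α y ^ c.prod) →
      ∀ x y, (x, y) ≠ (0, 0) → unf c (α y) (β y) x = 0 → fderiv ℂ (unf c (α y) (β y)) x ≠ 0 := by
  obtain ⟨κ, hκ, hd⟩ := fderiv_ne hc h
  refine ⟨κ, hκ, fun Y _ α β hα hβ hoff x y hxy h0 => ?_⟩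
  by_cases hy : y = 0
  · subst hy
    rw [hα, hβ]
    exact fderiv_ne_zero h (fun hx => hxy (by rw [hx]))
  · exact hd _ _ (hoff y hy) x h0

/-! ### the explicit homotopy of loops

`μ = mu c`, `d = c.prod`; the curve is `β ^ μ = κ α ^ d`. -/

open Complex in
/-- points of the form `(e^{i a θ}, m u e^{i a d θ / μ})` are off the curve. -/
theorem off1 {μ d : ℕ} (hμ : 0 < μ) {κ u : ℂ} (hu : ∀ m : ℝ, 0 ≤ m → ((m : ℂ) * u) ^ μ ≠ κ)
    (a : ℝ) (θ m : ℝ) (hm : 0 ≤ m) :
    ((m : ℂ) * u * exp ((a * d * θ / μ : ℝ) * I)) ^ μ ≠ κ * exp ((a * θ : ℝ) * I) ^ d := by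
  intro h
  have hμ0 : (μ : ℂ) ≠ 0 := by rw [Nat.cast_ne_zero]; omega
  rw [mul_pow, ← exp_nat_mul, ← exp_nat_mul] at h
  have e : (μ : ℂ) * (((a * d * θ / μ : ℝ) : ℂ) * I) = d * (((a * θ : ℝ) : ℂ) * I) := by
    push_cast
    field_simp
  rw [e] at h
  exact hu m hm (mul_right_cancel₀ (exp_ne_zero _) h)

/-- far from the axis `β = 0` everything with `‖α‖ ≤ 1` is off the curve. -/
theorem off2 {μ d : ℕ} {κ α β : ℂ} (hβ : ‖κ‖ < ‖β‖ ^ μ) (hα : ‖α‖ ≤ 1) : β ^ μ ≠ κ * α ^ d := by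
  intro h
  have h1 : ‖β‖ ^ μ = ‖κ‖ * ‖α‖ ^ d := by rw [← norm_pow, h, norm_mul, norm_pow]
  have h2 : ‖α‖ ^ d ≤ 1 := pow_le_one₀ (norm_nonneg _) hα
  nlinarith [norm_nonneg κ]

/-- a good direction `u`. -/
theorem exists_dir {μ : ℕ} (hμ : 0 < μ) {κ : ℂ} (hκ : κ ≠ 0) :
    ∃ u : ℂ, ‖u‖ = 1 ∧ ∀ m : ℝ, 0 ≤ m → ((m : ℂ) * u) ^ μ ≠ κ := by
  obtain ⟨u, hu⟩ := IsAlgClosed.exists_pow_nat_eq (-κ / (‖κ‖ : ℂ)) hμ
  have hn : (‖κ‖ : ℂ) ≠ 0 := by
    rw [Ne, Complex.ofReal_eq_zero]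
    exact norm_ne_zero_iff.2 hκ
  refine ⟨u, ?_, fun m hm h => ?_⟩
  · have h1 : ‖u‖ ^ μ = 1 := by
      rw [← norm_pow, hu, norm_div, norm_neg, Complex.norm_real, norm_norm, div_self]
      exact norm_ne_zero_iff.2 hκ
    exact (pow_eq_one_iff_of_nonneg (norm_nonneg _) hμ.ne').1 h1
  · rw [mul_pow, hu] at h
    have h2 : (m : ℂ) ^ μ = -(‖κ‖ : ℂ) := by
      field_simp at h
      linear_combination -h
    have h3 : m ^ μ = -‖κ‖ := by exact_mod_cast h2
    have h4 : 0 ≤ m ^ μ := pow_nonneg hm _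
    have h5 : 0 < ‖κ‖ := norm_pos_iff.2 hκ
    linarith

/-- the angle `Θ(s, t)`, between `2π t` and a step. -/
noncomputable def Th (s t : ℝ) : ℝ :=
  2 * Real.pi * ((1 - s) * t + s * Real.smoothTransition (3 * t - 1))

/-- the modulus `m(s, t)`: `0` near the ends, `s R` in the middle. -/
noncomputable def md (R s t : ℝ) : ℝ :=
  s * R * (Real.smoothTransition (6 * t - 1) * Real.smoothTransition (5 - 6 * t))

lemma md_nonneg {R s : ℝ} (hR : 0 ≤ R) (hs : 0 ≤ s) (t : ℝ) : 0 ≤ md R s t := by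
  have h1 := Real.smoothTransition.nonneg (6 * t - 1)
  have h2 := Real.smoothTransition.nonneg (5 - 6 * t)
  unfold md
  positivity

/-- first homotopy (`s` from `0` to `1`). -/
noncomputable def H1 (μ d : ℕ) (a R : ℝ) (u : ℂ) (s t : ℝ) : ℂ × ℂ :=
  (Complex.exp ((a * Th s t : ℝ) * Complex.I),
    (md R s t : ℂ) * u * Complex.exp ((a * d * Th s t / μ : ℝ) * Complex.I))

/-- second homotopy (`r` from `0` to `1`). -/
noncomputable def H2 (μ d : ℕ) (a R : ℝ) (u : ℂ) (r t : ℝ) : ℂ × ℂ :=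
  ((1 - r) * Complex.exp ((a * Th 1 t : ℝ) * Complex.I) + r,
    (md R 1 t : ℂ) * u * Complex.exp ((a * d * Th 1 t / μ : ℝ) * Complex.I))

theorem H1_off {μ d : ℕ} (hμ : 0 < μ) {κ u : ℂ} (hu : ∀ m : ℝ, 0 ≤ m → ((m : ℂ) * u) ^ μ ≠ κ)
    {a R s : ℝ} (hR : 0 ≤ R) (hs : 0 ≤ s) (t : ℝ) :
    (H1 μ d a R u s t).2 ^ μ ≠ κ * (H1 μ d a R u s t).1 ^ d :=
  off1 hμ hu a (Th s t) (md R s t) (md_nonneg hR hs t)

lemma Th_one_left {t : ℝ} (ht : t ≤ 1 / 3) : Th 1 t = 0 := by
  unfold Th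
  rw [Real.smoothTransition.zero_of_nonpos (by linarith)]
  ring

lemma Th_one_right {t : ℝ} (ht : 2 / 3 ≤ t) : Th 1 t = 2 * Real.pi := by
  unfold Th
  rw [Real.smoothTransition.one_of_one_le (by linarith)]
  ring

lemma md_one_mid {R t : ℝ} (h1 : 1 / 3 ≤ t) (h2 : t ≤ 2 / 3) : md R 1 t = R := by
  unfold md
  rw [Real.smoothTransition.one_of_one_le (by linarith),
    Real.smoothTransition.one_of_one_le (by linarith)]
  ring

lemma exp_two_pi_nat (a : ℕ) : Complex.exp ((((a : ℝ) * (2 * Real.pi) : ℝ) : ℂ) * Complex.I) = 1 := by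
  rw [show (((a : ℝ) * (2 * Real.pi) : ℝ) : ℂ) * Complex.I = (a : ℂ) * (2 * Real.pi * Complex.I) by
    push_cast; ring, Complex.exp_nat_mul, Complex.exp_two_pi_mul_I, one_pow]

theorem H2_off {μ d : ℕ} (hμ : 0 < μ) {κ u : ℂ} (hu1 : ‖u‖ = 1)
    (hu : ∀ m : ℝ, 0 ≤ m → ((m : ℂ) * u) ^ μ ≠ κ) (a : ℕ) {R r : ℝ} (hR : 0 ≤ R)
    (hRκ : ‖κ‖ < R ^ μ) (hr0 : 0 ≤ r) (hr1 : r ≤ 1) (t : ℝ) :
    (H2 μ d a R u r t).2 ^ μ ≠ κ * (H2 μ d a R u r t).1 ^ d := by
  have key : ∀ θ : ℝ, Complex.exp (((a * θ : ℝ) : ℂ) * Complex.I) = 1 → Th 1 t = θ →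
      (H2 μ d a R u r t).2 ^ μ ≠ κ * (H2 μ d a R u r t).1 ^ d := by
    intro θ hθ hT
    have h1 := off1 (d := d) hμ hu a (Th 1 t) (md R 1 t) (md_nonneg hR zero_le_one t)
    have h2 : (H2 μ d a R u r t).1 = Complex.exp (((a * Th 1 t : ℝ) : ℂ) * Complex.I) := by
      unfold H2
      simp only [hT, hθ]
      ring
    rw [h2]
    exact h1
  rcases le_total t (1 / 3) with h | h
  · exact key 0 (by simp) (Th_one_left h)
  · rcases le_total t (2 / 3) with h' | h'
    · apply off2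
      · unfold H2
        simp only [md_one_mid h h', norm_mul, hu1, Complex.norm_exp_ofReal_mul_I, mul_one,
          Complex.norm_real, Real.norm_eq_abs, abs_of_nonneg hR]
        exact hRκ
      · unfold H2
        simp only
        refine (norm_add_le _ _).trans ?_
        rw [norm_mul, Complex.norm_exp_ofReal_mul_I, mul_one]
        have e : ((1 : ℂ) - r) = ((1 - r : ℝ) : ℂ) := by push_cast; ring
        rw [e, Complex.norm_real, Complex.norm_real, Real.norm_eq_abs, Real.norm_eq_abs,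
          abs_of_nonneg hr0, abs_of_nonneg (by linarith)]
        linarith
    · exact key (2 * Real.pi) (exp_two_pi_nat a) (Th_one_right h')

/-! ### values at the ends -/

theorem H1_zero (μ d : ℕ) (a R : ℝ) (u : ℂ) (t : ℝ) :
    H1 μ d a R u 0 t = (Complex.exp ((2 * Real.pi * a * t : ℝ) * Complex.I), 0) := by
  unfold H1 Th md
  simp only [sub_zero, one_mul, zero_mul, add_zero, Complex.ofReal_zero, Prod.mk.injEq, and_true]
  congr 2
  push_cast
  ring

theorem H1_one (μ d : ℕ) (a R : ℝ) (u : ℂ) (t : ℝ) : H1 μ d a R u 1 t = H2 μ d a R u 0 t := by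
  unfold H1 H2
  simp

theorem H2_one (μ d : ℕ) (a R : ℝ) (u : ℂ) (t : ℝ) : H2 μ d a R u 1 t =
    (1, (md R 1 t : ℂ) * u * Complex.exp ((a * d * Th 1 t / μ : ℝ) * Complex.I)) := by
  unfold H2
  simp

lemma md_left {R s t : ℝ} (ht : t ≤ 1 / 6) : md R s t = 0 := by
  unfold md
  rw [Real.smoothTransition.zero_of_nonpos (by linarith)]
  ring

lemma md_right {R s t : ℝ} (ht : 5 / 6 ≤ t) : md R s t = 0 := by
  unfold md
  rw [Real.smoothTransition.zero_of_nonpos (x := 5 - 6 * t) (by linarith)]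
  ring

/-- the loops glue smoothly at the base point (`H1`). -/
theorem H1_glue (μ d : ℕ) (a : ℕ) (R : ℝ) (u : ℂ) (s : ℝ) {t : ℝ} (ht : |t| < 1 / 6) :
    H1 μ d a R u s (t + 1) = H1 μ d a R u s t := by
  obtain ⟨h1, h2⟩ := abs_lt.1 ht
  unfold H1
  rw [md_left (t := t) (by linarith), md_right (t := t + 1) (by linarith)]
  simp only [Complex.ofReal_zero, zero_mul, Prod.mk.injEq, and_true]
  have e : Th s (t + 1) = Th s t + 2 * Real.pi := by
    unfold Th
    rw [Real.smoothTransition.one_of_one_le (x := 3 * (t + 1) - 1) (by linarith),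
      Real.smoothTransition.zero_of_nonpos (x := 3 * t - 1) (by linarith)]
    ring
  rw [e, mul_add, Complex.ofReal_add, add_mul, Complex.exp_add, exp_two_pi_nat, mul_one]

/-- the loops glue smoothly at the base point (`H2`). -/
theorem H2_glue (μ d : ℕ) (a : ℕ) (R : ℝ) (u : ℂ) (r : ℝ) {t : ℝ} (ht : |t| < 1 / 6) :
    H2 μ d a R u r (t + 1) = H2 μ d a R u r t := by
  obtain ⟨h1, h2⟩ := abs_lt.1 ht
  unfold H2
  rw [md_left (t := t) (by linarith), md_right (t := t + 1) (by linarith),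
    Th_one_left (t := t) (by linarith), Th_one_right (t := t + 1) (by linarith), exp_two_pi_nat]
  simp

theorem contDiff_Th {n : ℕ∞} : ContDiff ℝ n (fun p : ℝ × ℝ => Th p.1 p.2) := by
  unfold Th
  have h : ContDiff ℝ n (fun p : ℝ × ℝ => Real.smoothTransition (3 * p.2 - 1)) :=
    Real.smoothTransition.contDiff.comp (by fun_prop)
  fun_prop

theorem contDiff_md {n : ℕ∞} (R : ℝ) : ContDiff ℝ n (fun p : ℝ × ℝ => md R p.1 p.2) := by
  unfold md
  have h : ContDiff ℝ n (fun p : ℝ × ℝ => Real.smoothTransition (6 * p.2 - 1)) :=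
    Real.smoothTransition.contDiff.comp (by fun_prop)
  have h' : ContDiff ℝ n (fun p : ℝ × ℝ => Real.smoothTransition (5 - 6 * p.2)) :=
    Real.smoothTransition.contDiff.comp (by fun_prop)
  fun_prop

theorem contDiff_H1 {n : ℕ∞} (μ d : ℕ) (a R : ℝ) (u : ℂ) :
    ContDiff ℝ n (fun p : ℝ × ℝ => H1 μ d a R u p.1 p.2) := by
  have h1 := contDiff_Th (n := n)
  have h2 := contDiff_md (n := n) R
  have o : ContDiff ℝ n (fun x : ℝ => (x : ℂ)) := Complex.ofRealCLM.contDiff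
  unfold H1
  have e1 : ContDiff ℝ n (fun p : ℝ × ℝ =>
      Complex.exp ((a * Th p.1 p.2 : ℝ) * Complex.I)) :=
    ((o.comp (contDiff_const.mul h1)).mul contDiff_const).cexp
  have e2 : ContDiff ℝ n (fun p : ℝ × ℝ =>
      Complex.exp ((a * d * Th p.1 p.2 / μ : ℝ) * Complex.I)) :=
    ((o.comp ((contDiff_const.mul h1).div_const _)).mul contDiff_const).cexp
  exact e1.prodMk (((o.comp h2).mul contDiff_const).mul e2)

theorem contDiff_H2 {n : ℕ∞} (μ d : ℕ) (a R : ℝ) (u : ℂ) :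
    ContDiff ℝ n (fun p : ℝ × ℝ => H2 μ d a R u p.1 p.2) := by
  have hp : ContDiff ℝ n (fun p : ℝ × ℝ => ((1 : ℝ), p.2)) := contDiff_const.prodMk contDiff_snd
  have h1 : ContDiff ℝ n (fun p : ℝ × ℝ => Th 1 p.2) := (contDiff_Th (n := n)).comp hp
  have h2 : ContDiff ℝ n (fun p : ℝ × ℝ => md R 1 p.2) := (contDiff_md (n := n) R).comp hp
  have o : ContDiff ℝ n (fun x : ℝ => (x : ℂ)) := Complex.ofRealCLM.contDiff
  unfold H2
  have e1 : ContDiff ℝ n (fun p : ℝ × ℝ =>
      Complex.exp ((a * Th 1 p.2 : ℝ) * Complex.I)) :=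
    ((o.comp (contDiff_const.mul h1)).mul contDiff_const).cexp
  have e2 : ContDiff ℝ n (fun p : ℝ × ℝ =>
      Complex.exp ((a * d * Th 1 p.2 / μ : ℝ) * Complex.I)) :=
    ((o.comp ((contDiff_const.mul h1).div_const _)).mul contDiff_const).cexp
  have e3 : ContDiff ℝ n (fun p : ℝ × ℝ => (p.1 : ℂ)) := o.comp contDiff_fst
  exact (((contDiff_const.sub e3).mul e1).add e3).prodMk
    (((o.comp h2).mul contDiff_const).mul e2)

/-- periodic extension of a smooth family of loops which glue at the base point. -/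
theorem contDiff_fract {E : Type*} [NormedAddCommGroup E] [NormedSpace ℝ E] {n : ℕ∞}
    {G : ℝ × ℝ → E} (hG : ContDiff ℝ n G) {ε : ℝ} (hε : 0 < ε)
    (hg : ∀ s t, |t| < ε → G (s, t + 1) = G (s, t)) :
    ContDiff ℝ n (fun p : ℝ × ℝ => G (p.1, Int.fract p.2)) := by
  rw [contDiff_iff_contDiffAt]
  intro p
  have hN : ContDiff ℝ n (fun q : ℝ × ℝ => G (q.1, q.2 - (⌊p.2⌋ : ℝ))) :=
    hG.comp (contDiff_fst.prodMk (contDiff_snd.sub contDiff_const))
  refine hN.contDiffAt.congr_of_eventuallyEq ?_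
  have hcs : Continuous (fun q : ℝ × ℝ => q.2) := continuous_snd
  rcases eq_or_lt_of_le (Int.floor_le p.2) with h0 | h0
  · -- integer point
    have hmem : {q : ℝ × ℝ | |q.2 - p.2| < min ε 1} ∈ nhds p := by
      apply (isOpen_lt (by fun_prop) continuous_const).mem_nhds
      simp only [Set.mem_setOf_eq, sub_self, abs_zero]
      exact lt_min hε one_pos
    filter_upwards [hmem] with q hq
    have hq1 : |q.2 - p.2| < ε := lt_of_lt_of_le hq (min_le_left _ _)
    have hq2 : |q.2 - p.2| < 1 := lt_of_lt_of_le hq (min_le_right _ _)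
    obtain ⟨ha, hb⟩ := abs_lt.1 hq2
    rw [h0]
    rcases le_or_gt p.2 q.2 with h | h
    · have hf : ⌊q.2⌋ = ⌊p.2⌋ := by
        rw [Int.floor_eq_iff]
        constructor <;> linarith
      rw [Int.fract, hf, h0]
    · have hf : ⌊q.2⌋ = ⌊p.2⌋ - 1 := by
        rw [Int.floor_eq_iff]
        push_cast
        constructor <;> linarith
      rw [Int.fract, hf]
      push_cast
      rw [h0, show q.2 - (p.2 - 1) = (q.2 - p.2) + 1 by ring]
      exact hg _ _ hq1
  · have h1 := Int.lt_floor_add_one p.2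
    have hmem : {q : ℝ × ℝ | (⌊p.2⌋ : ℝ) < q.2 ∧ q.2 < ⌊p.2⌋ + 1} ∈ nhds p :=
      ((isOpen_lt continuous_const hcs).inter (isOpen_lt hcs continuous_const)).mem_nhds ⟨h0, h1⟩
    filter_upwards [hmem] with q hq
    have hf : ⌊q.2⌋ = ⌊p.2⌋ := by
      rw [Int.floor_eq_iff]
      exact ⟨hq.1.le, hq.2⟩
    rw [Int.fract, hf]

/-- smooth `1`-periodic homotopies. -/
theorem contDiff_H1_fract {n : ℕ∞} (μ d a : ℕ) (R : ℝ) (u : ℂ) :
    ContDiff ℝ n (fun p : ℝ × ℝ => H1 μ d a R u p.1 (Int.fract p.2)) :=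
  contDiff_fract (G := fun p : ℝ × ℝ => H1 μ d a R u p.1 p.2) (contDiff_H1 μ d a R u)
    (by norm_num : (0:ℝ) < 1 / 6) (fun s _ ht => H1_glue μ d a R u s ht)

theorem contDiff_H2_fract {n : ℕ∞} (μ d a : ℕ) (R : ℝ) (u : ℂ) :
    ContDiff ℝ n (fun p : ℝ × ℝ => H2 μ d a R u p.1 (Int.fract p.2)) :=
  contDiff_fract (G := fun p : ℝ × ℝ => H2 μ d a R u p.1 p.2) (contDiff_H2 μ d a R u)
    (by norm_num : (0:ℝ) < 1 / 6) (fun r _ ht => H2_glue μ d a R u r ht)

end Crest.Agent.R267.T3alg_34
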