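import Crest.Agent.R267.LobeDefs_407

/-!
# Row 267, T3b-NEXT + ASM (helper601)

* `nextP : NextP a e`: the end of S4 is a state `j + 1`;
* `t3b_of`: the assembly, `T3bP` from all the steps.
-/

set_option autoImplicit false

noncomputable section

open Crest.Agent.R267.Ang_739 Crest.Agent.R267.Hm_951 Crest.Agent.R267.LemL_951
open Crest.Agent.R267.Sys_808 Crest.Agent.R267.LobeDefs_407

namespace Crest.Agent.R267.T3bAsm_601

variable {n : ℕ}

theorem dg_succ (a : Fin (n + 1) → ℕ) (e : Fin n) :
    LobeDefs_407.dg a e.succ = a e.succ + 1 := by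
  simp [LobeDefs_407.dg]

theorem eq_succ_of {e : Fin n} {i : Fin (n + 1)} (h : (i : ℕ) = e + 1) : i = e.succ := by
  apply Fin.ext
  simpa using h

theorem pw_one (z : ℂ) : pw 1 z = z := by
  simp [pw]

/-- the new piece -/
theorem pc_next {d : ℕ} (hd : 0 < d) {P' : ℝ} (hP : 1 ≤ P') :
    pc ((d : ℝ) * P') 1 (fun x => (d : ℝ) * x) = fun y => pw P' y ^ d := by
  funext y
  rcases eq_or_ne y 0 with rfl | hy
  · have h0 : (d : ℝ) * P' ≠ 0 := by positivity
    rw [pc, pol_zero h0]
    simp [pw, hd.ne']
  · have hn : 0 < ‖y‖ := norm_pos_iff.2 hy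
    have h1 : cis ((d : ℝ) * Complex.arg y) = (Complex.exp (Complex.arg y * Complex.I)) ^ d := by
      rw [cis, ← Complex.exp_nat_mul]
      push_cast
      ring_nf
    have h2 : ‖y‖ ^ ((d : ℝ) * P') = (‖y‖ ^ (P' - 1) * ‖y‖) ^ d := by
      have e1 : ‖y‖ ^ (P' - 1) * ‖y‖ = ‖y‖ ^ P' := by
        rw [Real.rpow_sub_one hn.ne']
        field_simp
      rw [e1, mul_comm, Real.rpow_mul hn.le, Real.rpow_natCast]
    have h3 : pw P' y = ((‖y‖ ^ (P' - 1) * ‖y‖ : ℝ) : ℂ) * Complex.exp (Complex.arg y * Complex.I) := by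
      have h4 := Complex.norm_mul_exp_arg_mul_I y
      rw [pw]
      push_cast
      rw [mul_assoc, h4]
    rw [h3, mul_pow, ← h1]
    simp only [pc, pol, Complex.ofReal_one, one_mul, Complex.real_smul]
    rw [h2]
    push_cast
    rfl

theorem pha_lin {d : ℕ} (hd : 0 < d) : Pha d (fun x => (d : ℝ) * x) where
  smooth := by fun_prop
  deg := fun x => by ring
  pos := fun x => by
    have h : HasDerivAt (fun x : ℝ => (d : ℝ) * x) ((d : ℝ) * 1) x :=
      (hasDerivAt_id x).const_mul _
    rw [h.deriv]
    have : (0 : ℝ) < d := by exact_mod_cast hd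
    linarith

theorem nc_next {d : ℕ} (hd : 2 ≤ d) {ep : ℝ} (h0 : 0 < ep)
    (h : 2 * ep < (1 / (d : ℝ)) * (((d : ℝ) - 1) / d) ^ (d - 1)) :
    ep ^ (1 / (d : ℝ)) < (1 / (d : ℝ)) ^ (1 / (d : ℝ)) * (((d : ℝ) - 1) / d) ^ (((d : ℝ) - 1) / d) := by
  have hd0 : (0 : ℝ) < d := by exact_mod_cast (by omega : 0 < d)
  have hd1 : (1 : ℝ) < d := by exact_mod_cast (by omega : 1 < d)
  have hA : (0 : ℝ) ≤ 1 / d := by positivity
  have hB : (0 : ℝ) < ((d : ℝ) - 1) / d := div_pos (by linarith) hd0
  have h1 : ep < (1 / (d : ℝ)) * (((d : ℝ) - 1) / d) ^ (d - 1) := by linarith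
  have h2 := Real.rpow_lt_rpow h0.le h1 (by positivity : (0 : ℝ) < 1 / d)
  rw [Real.mul_rpow hA (by positivity), ← Real.rpow_natCast, ← Real.rpow_mul hB.le] at h2
  have h3 : ((d - 1 : ℕ) : ℝ) * (1 / (d : ℝ)) = ((d : ℝ) - 1) / d := by
    rw [Nat.cast_sub (by omega)]
    push_cast
    ring
  rwa [h3] at h2

theorem nextP (a : Fin (n + 1) → ℕ) (e : Fin n) : NextP a e := by
  intro X P P' l b hP hP' haP hX hl hb hlam hbet
  have ok := hX.ok
  set d : ℕ := a e.succ + 1 with hd
  have ha1 : 1 ≤ a e.succ := by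
    by_contra h
    have : a e.succ = 0 := by omega
    rw [this] at haP
    norm_num at haP
  have hd2 : 2 ≤ d := by omega
  have hdr : (d : ℝ) = a e.succ + 1 := by rw [hd]; push_cast; rfl
  have hd0 : (0 : ℝ) < d := by exact_mod_cast (by omega : 0 < d)
  have hP0 : 0 < P := by linarith
  have hP0' : 0 < P' := by linarith
  have hda : (d : ℝ) - 1 = a e.succ := by rw [hdr]; ring
  have he : ((e.castSucc : Fin (n + 1)) : ℕ) = e := by simp
  have he' : ((e.succ : Fin (n + 1)) : ℕ) = e + 1 := by simp
  have hne : ((e.castSucc : Fin (n + 1)) : ℕ) ≠ e + 1 := by simp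
  have hDc : X.D e.castSucc = d * P := hX.deg _ he
  constructor
  · constructor
    · intro i hi
      by_cases h : (i : ℕ) = e + 1
      · simp only [LD.next, if_pos h]
        nlinarith
      · simp only [LD.next, if_neg h]
        exact ok.hD i (by omega)
    · intro i hi
      by_cases h : (i : ℕ) = e + 1
      · simp only [LD.next, if_pos h]
        norm_num
      · simp only [LD.next, if_neg h]
        exact ok.hep i (by omega)
    · intro i hi
      by_cases h : (i : ℕ) = e + 1
      · simp only [LD.next, if_pos h]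
        rw [eq_succ_of h, dg_succ]
        exact pha_lin (by omega)
      · simp only [LD.next, if_neg h]
        exact ok.hph i (by omega)
    · intro f hf
      by_cases h : (f : ℕ) = e
      · simp only [LD.next, if_pos h]
        norm_num
      · simp only [LD.next, if_neg h]
        exact ok.hc f (by omega)
    · intro f hf
      by_cases h : (f : ℕ) = e
      · simp only [LD.next, if_pos h]
        exact hP
      · simp only [LD.next, if_neg h]
        exact ok.hp f (by omega)
    · intro f hf
      by_cases h : (f : ℕ) = e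
      · simp only [LD.next, if_pos h]
        rw [hda]
        exact haP
      · simp only [LD.next, if_neg h]
        exact ok.hm f (by omega)
    · intro f hf
      by_cases h : (f : ℕ) = e
      · obtain rfl : f = e := Fin.ext h
        simp only [LD.next, if_neg hne, if_pos he', if_true]
        rw [hDc]
        field_simp
        ring
      · have h1 : ((f.castSucc : Fin (n + 1)) : ℕ) ≠ e + 1 := by simp; omega
        have h2 : ((f.succ : Fin (n + 1)) : ℕ) ≠ e + 1 := by simp; omega
        simp only [LD.next, if_neg h1, if_neg h2, if_neg h]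
        exact ok.sum f (by omega)
    · intro f hf
      by_cases h : (f : ℕ) = e
      · obtain rfl : f = e := Fin.ext h
        simp only [LD.next, if_neg hne, if_pos he', if_true]
        rw [hDc, Real.one_rpow, mul_one, mul_one]
        have e1 : P / (d * P) = 1 / (d : ℝ) := by field_simp
        have e2 : ((d : ℝ) - 1) * P' / (d * P') = ((d : ℝ) - 1) / d := by field_simp
        rw [e1, e2]
        exact nc_next hd2 (ok.hep _ (by simp)) (hX.ep _ he)
      · have h1 : ((f.castSucc : Fin (n + 1)) : ℕ) ≠ e + 1 := by simp; omega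
        have h2 : ((f.succ : Fin (n + 1)) : ℕ) ≠ e + 1 := by simp; omega
        simp only [LD.next, if_neg h1, if_neg h2, if_neg h]
        exact ok.nc f (by omega)
    · intro f hf
      by_cases h : (f : ℕ) = e
      · obtain rfl : f = e := Fin.ext h
        simp only [LD.next, if_true]
        exact hl
      · simp only [LD.next, if_neg h]
        exact ok.hlam f (by omega)
    · intro f hf
      by_cases h : (f : ℕ) = e
      · obtain rfl : f = e := Fin.ext h
        simp only [LD.next, if_true]
        exact hb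
      · simp only [LD.next, if_neg h]
        exact ok.hbet f (by omega)
    · intro f hf
      by_cases h : (f : ℕ) = e
      · obtain rfl : f = e := Fin.ext h
        simp only [LD.next, if_true]
        exact hlam
      · simp only [LD.next, if_neg h]
        exact ok.lam1 f (by omega)
    · intro f hf
      by_cases h : (f : ℕ) = e
      · obtain rfl : f = e := Fin.ext h
        simp only [LD.next, if_true]
        exact hbet
      · simp only [LD.next, if_neg h]
        exact ok.bet1 f (by omega)
  · unfold LD.st LD.mid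
    congr 1
    · funext i
      by_cases h : (i : ℕ) = e + 1
      · have h1 : (i : ℕ) ≤ e + 1 := h.le
        have h2 : ¬ (i : ℕ) ≤ e := by omega
        rw [if_pos h1, if_neg h2, if_pos h]
        simp only [LD.Q, LD.next, if_pos h]
        exact pc_next (by omega) hP'
      · by_cases h2 : (i : ℕ) ≤ e
        · have h1 : (i : ℕ) ≤ e + 1 := by omega
          rw [if_pos h1, if_pos h2]
          simp only [LD.Q, LD.next, if_neg h]
        · have h1 : ¬ (i : ℕ) ≤ e + 1 := by omega
          rw [if_neg h1, if_neg h2, if_neg h]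
    · funext f
      by_cases h : (f : ℕ) = e
      · obtain rfl : f = e := Fin.ext h
        have h1 : (f : ℕ) < f + 1 := by omega
        rw [if_pos h1, if_neg (lt_irrefl _), if_pos rfl]
        funext z
        simp only [LD.g, LD.next, if_neg hne, if_true, one_mul]
      · by_cases h2 : (f : ℕ) < e
        · have h1 : (f : ℕ) < e + 1 := by omega
          have h3 : ((f.castSucc : Fin (n + 1)) : ℕ) ≠ e + 1 := by simp; omega
          rw [if_pos h1, if_pos h2]
          simp only [LD.g, LD.next, if_neg h, if_neg h3]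
        · have h1 : ¬ (f : ℕ) < e + 1 := by omega
          rw [if_neg h1, if_neg h2, if_neg h]
    · funext f
      by_cases h : (f : ℕ) = e
      · obtain rfl : f = e := Fin.ext h
        have h1 : (f : ℕ) < f + 1 := by omega
        rw [if_pos h1, if_neg (lt_irrefl _), if_pos rfl]
        funext z
        simp only [LD.h, LD.next, if_pos he', if_true]
        rw [hda]
      · by_cases h2 : (f : ℕ) < e
        · have h1 : (f : ℕ) < e + 1 := by omega
          have h3 : ((f.succ : Fin (n + 1)) : ℕ) ≠ e + 1 := by simp; omega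
          rw [if_pos h1, if_pos h2]
          simp only [LD.h, LD.next, if_neg h, if_neg h3]
        · have h1 : ¬ (f : ℕ) < e + 1 := by omega
          rw [if_neg h1, if_neg h2, if_neg h]

/-- all the steps for the exponents `a` -/
structure Steps (a : Fin (n + 1) → ℕ) : Prop where
  path : ∀ j, j ≤ n → PathP a j
  align : ∀ e, AlignP a e
  s1 : ∀ e, S1P a e
  s2 : ∀ e, S2P a e
  s3 : ∀ e, S3P a e
  s4 : ∀ e, S4P a e
  s4l : ∀ e, S4lastP a e
  base : BaseP a

/-- the chain polynomial -/
abbrev ch (a : Fin (n + 1) → ℕ) := chainFun (List.ofFn fun i : Fin (n + 1) => a i.rev)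

theorem step {a : Fin (n + 1) → ℕ} (ha : Exps a) (h : Steps a) (e : Fin n)
    (ih : ∃ X : LD n, X.Ok a e ∧ SEq (ch a) (X.st a e)) :
    ∃ X : LD n, X.Ok a (e + 1) ∧ SEq (ch a) (X.st a (e + 1)) := by
  obtain ⟨Y, hY, hYs⟩ := ih
  obtain ⟨X, l, b, hX, hl, hlx, hlam, hb, hby, hbet⟩ := h.align e
  have s0 : SEq (ch a) (X.st a e) := hYs.trans ((h.path e e.2.le).2 Y X hY hX.ok)
  have s1 := s0.trans (h.s1 e X hX)
  obtain ⟨t2, hX2⟩ := h.s2 e X 3 (by norm_num) hX
  have s2 := s1.trans t2
  have s3 := s2.trans (h.s3 e (X.pow e 3) 3 (fun x => l (X.ph e.castSucc x)) (by norm_num) hX2 hlx)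
  have ha2 := ha.two e.succ
  rcases Nat.lt_or_ge 2 (a e.succ) with h3 | h3
  · have s4 := s3.trans (h.s4 e (X.pow e 3) 3 (fun x => l (X.ph e.castSucc x))
      (fun x => b (((a e.succ + 1 : ℕ) : ℝ) * x)) (by norm_num) hX2 hlx hby h3)
    obtain ⟨ok, hst⟩ := nextP a e (X.pow e 3) 3 1 l b (by norm_num) le_rfl
      (by rw [mul_one]; exact_mod_cast h3) hX2 hl hb hlam hbet
    refine ⟨_, ok, ?_⟩
    rw [hst]
    simp only [pw_one, mul_one]
    exact s4
  · have hlast : (e : ℕ) + 1 = n := by
      by_contra hne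
      have hlt : (e : ℕ) + 1 < n := by have := e.2; omega
      have h5 : a ⟨(e : ℕ) + 2, by omega⟩ < a e.succ := by
        apply ha.anti
        rw [Fin.lt_def]
        simp
      have h6 := ha.two ⟨(e : ℕ) + 2, by omega⟩
      omega
    have h2 : (a e.succ : ℝ) = 2 := by
      have : a e.succ = 2 := by omega
      rw [this]; norm_num
    have s4 := s3.trans (h.s4l e hlast (X.pow e 3) 3 2 (fun x => l (X.ph e.castSucc x))
      (fun x => b (((a e.succ + 1 : ℕ) : ℝ) * x)) (by norm_num) le_rfl hX2 hlx hby)
    obtain ⟨ok, hst⟩ := nextP a e (X.pow e 3) 3 2 l b (by norm_num) (by norm_num)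
      (by rw [h2]; norm_num) hX2 hl hb hlam hbet
    refine ⟨_, ok, ?_⟩
    rw [hst]
    exact s4

theorem all {a : Fin (n + 1) → ℕ} (ha : Exps a) (h : Steps a) :
    ∀ j, j ≤ n → ∃ X : LD n, X.Ok a j ∧ SEq (ch a) (X.st a j) := by
  intro j
  induction j with
  | zero => intro _; exact h.base
  | succ j ih =>
    intro hj
    exact step ha h ⟨j, hj⟩ (ih (by omega))

/-- **T3b** from the steps -/
theorem t3b_of (h : ∀ (n : ℕ) (a : Fin (n + 1) → ℕ), Exps a → Steps a) : T3bP := by
  intro n a ha X hX
  have hs := h n a ha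
  obtain ⟨Y, hY, hYs⟩ := all ha hs n le_rfl
  have hp := hs.path n le_rfl
  exact ⟨hYs.trans (hp.2 Y X hY hX), hp.1 X hX⟩

end Crest.Agent.R267.T3bAsm_601
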