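import Crest.Agent.R267.T3bFin_855

/-!
# Row 267 (helper407): T3b, the unconditional theorem
-/

set_option autoImplicit false

namespace Crest.Agent.R267.T3bP_407

/-- **T3b**: the chain polynomial is equivalent to every lobed function with admissible data. -/
theorem t3bP : LobeDefs_407.T3bP := T3bFin_855.t3bP

end Crest.Agent.R267.T3bP_407
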