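import Crest.Agent.R267.Calc_957

/-!
# Row 267, T3a: derivatives of `Im G` along fibre directions
-/

set_option autoImplicit false

noncomputable section

namespace Crest.Agent.R267.TLine_996

open Set Filter Topology Finset
open Crest.Agent.R267.T3aDefs_957 Crest.Agent.R267.Calc_957

/-! ### the gauge `gq` -/

/-- derivative of `gq K A ·`. -/
def gqd (K A B : ℝ) : ℝ :=
  (max 0 (B - K ^ 2 * A)) ^ 2 * (3 * (A + B) - 2 * max 0 (B - K ^ 2 * A)) /
    ((3 * K ^ 2 + 3) * (A + B) ^ 3)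

lemma gq_of_le {K A B : ℝ} (h : B ≤ K ^ 2 * A) : gq K A B = A := by
  rw [gq, max_eq_left (by linarith)]; simp

lemma gqd_of_le {K A B : ℝ} (h : B ≤ K ^ 2 * A) : gqd K A B = 0 := by
  rw [gqd, max_eq_left (by linarith)]; simp

lemma le_gq {K A B : ℝ} : A ≤ gq K A B := by
  unfold gq
  have : 0 ≤ (max 0 (B - K ^ 2 * A)) ^ 3 / ((3 * K ^ 2 + 3) * (A + B) ^ 2) := by
    have := le_max_left (0 : ℝ) (B - K ^ 2 * A)
    positivity
  linarith

lemma u_le {K A B : ℝ} (hA : 0 ≤ A) (hB : 0 ≤ B) : max 0 (B - K ^ 2 * A) ≤ B :=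
  max_le hB (by nlinarith [sq_nonneg K, mul_nonneg (sq_nonneg K) hA])

lemma gq_le {K A B : ℝ} (hA : 0 ≤ A) (hB : 0 ≤ B) : gq K A B ≤ A + B := by
  unfold gq
  have h0 := le_max_left (0 : ℝ) (B - K ^ 2 * A)
  have h1 := u_le (K := K) hA hB
  set u := max 0 (B - K ^ 2 * A)
  have : u ^ 3 / ((3 * K ^ 2 + 3) * (A + B) ^ 2) ≤ B := by
    rcases (add_nonneg hA hB).eq_or_lt' with h | h
    · rw [h]
      simpa using hB
    · rw [div_le_iff₀ (by positivity)]
      have h2 : u ^ 2 ≤ (A + B) ^ 2 := pow_le_pow_left₀ h0 (by linarith) 2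
      calc u ^ 3 = u * u ^ 2 := by ring
        _ ≤ B * (A + B) ^ 2 := mul_le_mul h1 h2 (by positivity) hB
        _ ≤ B * ((3 * K ^ 2 + 3) * (A + B) ^ 2) := by
            refine mul_le_mul_of_nonneg_left ?_ hB
            have h3 : (0 : ℝ) ≤ (A + B) ^ 2 := by positivity
            have h4 : (1 : ℝ) ≤ 3 * K ^ 2 + 3 := by nlinarith [sq_nonneg K]
            nlinarith
  linarith

lemma gq_ge {K A B : ℝ} (hA : 0 ≤ A) (hB : 0 ≤ B) :
    (A + B) / (200 * (K ^ 2 + 1)) ≤ gq K A B := by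
  have hK := sq_nonneg K
  rcases le_total B (2 * K ^ 2 * A) with h | h
  · refine le_trans ?_ le_gq
    rw [div_le_iff₀ (by positivity)]
    nlinarith [mul_nonneg hA hK]
  · rcases le_total B A with hAB | hAB
    · refine le_trans ?_ le_gq
      rw [div_le_iff₀ (by positivity)]
      nlinarith [mul_nonneg hA hK]
    · rcases hB.eq_or_lt' with h0 | h0
      · refine le_trans ?_ le_gq
        rw [div_le_iff₀ (by positivity)]
        nlinarith [mul_nonneg hA hK]
      · have h1 : B / 2 ≤ max 0 (B - K ^ 2 * A) := le_trans (by linarith) (le_max_right _ _)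
        unfold gq
        set u := max 0 (B - K ^ 2 * A)
        have h2 : (B / 2) ^ 3 ≤ u ^ 3 := pow_le_pow_left₀ (by positivity) h1 3
        have h3 : (A + B) ^ 2 ≤ 4 * B ^ 2 := by nlinarith
        have h4 : (A + B) / (200 * (K ^ 2 + 1)) ≤ u ^ 3 / ((3 * K ^ 2 + 3) * (A + B) ^ 2) := by
          rw [div_le_div_iff₀ (by positivity) (by positivity)]
          calc (A + B) * ((3 * K ^ 2 + 3) * (A + B) ^ 2)
              ≤ (2 * B) * ((3 * K ^ 2 + 3) * (4 * B ^ 2)) := by gcongr; linarith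
            _ = (B / 2) ^ 3 * (192 * (K ^ 2 + 1)) := by ring
            _ ≤ (B / 2) ^ 3 * (200 * (K ^ 2 + 1)) := by
                refine mul_le_mul_of_nonneg_left ?_ (by positivity)
                nlinarith
            _ ≤ u ^ 3 * (200 * (K ^ 2 + 1)) := by gcongr
        linarith

lemma gqd_nonneg {K A B : ℝ} (hA : 0 ≤ A) (hB : 0 ≤ B) : 0 ≤ gqd K A B := by
  unfold gqd
  have h1 := u_le (K := K) hA hB
  have h0 := le_max_left (0 : ℝ) (B - K ^ 2 * A)
  set u := max 0 (B - K ^ 2 * A)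
  have : 0 ≤ 3 * (A + B) - 2 * u := by linarith
  positivity

lemma gqd_le {K A B : ℝ} (hA : 0 ≤ A) (hB : 0 ≤ B) : gqd K A B ≤ 1 / (K ^ 2 + 1) := by
  unfold gqd
  have h1 := u_le (K := K) hA hB
  have h0 := le_max_left (0 : ℝ) (B - K ^ 2 * A)
  set u := max 0 (B - K ^ 2 * A)
  rcases (add_nonneg hA hB).eq_or_lt' with h | h
  · have hA' : A = 0 := by linarith
    have hB' : B = 0 := by linarith
    subst hA' hB'
    simp
    positivity
  · rw [div_le_div_iff₀ (by positivity) (by positivity)]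
    have h2 : u ^ 2 ≤ (A + B) ^ 2 := pow_le_pow_left₀ h0 (by linarith) 2
    have h3 : u ^ 2 * (3 * (A + B) - 2 * u) ≤ (A + B) ^ 2 * (3 * (A + B)) :=
      mul_le_mul h2 (by linarith) (by linarith) (by positivity)
    nlinarith [sq_nonneg K]

lemma hasDerivAt_gq {K A B : ℝ} (h : 0 < A + B) :
    HasDerivAt (fun y => gq K A y) (gqd K A B) B := by
  have h1 : HasDerivAt (fun y : ℝ => y - K ^ 2 * A) 1 B := by
    simpa using (hasDerivAt_id B).sub_const (K ^ 2 * A)
  have h2 : HasDerivAt (fun y : ℝ => (max 0 (y - K ^ 2 * A)) ^ 3)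
      (3 * (max 0 (B - K ^ 2 * A)) ^ 2) B := by
    have := (hasDerivAt_tp 1 (B - K ^ 2 * A)).comp B h1
    refine this.congr_deriv ?_
    unfold tp
    norm_num
  have h3 : HasDerivAt (fun y : ℝ => (3 * K ^ 2 + 3) * (A + y) ^ 2)
      ((3 * K ^ 2 + 3) * (2 * (A + B))) B := by
    have : HasDerivAt (fun y : ℝ => (A + y) ^ 2) (2 * (A + B)) B := by
      have h4 : HasDerivAt (fun y : ℝ => A + y) 1 B := (hasDerivAt_id B).const_add A
      exact (h4.pow 2).congr_deriv (by norm_num)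
    exact this.const_mul _
  have h5 := (h2.div h3 (by positivity)).const_add A
  refine h5.congr_deriv ?_
  unfold gqd
  set u := max 0 (B - K ^ 2 * A)
  field_simp

/-! ### the fibre line -/

section space

variable {N : ℕ} (D : LD N)

/-- point on the fibre line through `z` in the direction `Y`. -/
def ln (z : Fin N → ℂ) (Y : Fin N → ℝ) (h : ℝ) : Fin N → ℂ := z + h • LD.vt Y

@[simp] lemma ln_zero (z : Fin N → ℂ) (Y : Fin N → ℝ) : ln z Y 0 = z := by simp [ln]

lemma ln_apply (z : Fin N → ℂ) (Y : Fin N → ℝ) (h : ℝ) (i : Fin N) :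
    ln z Y h i = z i + (h * Y i : ℝ) * Complex.I := by
  simp [ln, LD.vt]
  ring

@[simp] lemma ln_re (z : Fin N → ℂ) (Y : Fin N → ℝ) (h : ℝ) (i : Fin N) :
    (ln z Y h i).re = (z i).re := by
  rw [ln_apply]; simp

@[simp] lemma ln_im (z : Fin N → ℂ) (Y : Fin N → ℝ) (h : ℝ) (i : Fin N) :
    (ln z Y h i).im = (z i).im + h * Y i := by
  rw [ln_apply]; simp

lemma hasDerivAt_line {F : (Fin N → ℂ) → ℂ} {z : Fin N → ℂ} (hF : DifferentiableAt ℝ F z)
    (Y : Fin N → ℝ) : HasDerivAt (fun h => F (ln z Y h)) (fderiv ℝ F z (LD.vt Y)) 0 := by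
  have h1 : HasDerivAt (fun h : ℝ => ln z Y h) (LD.vt Y) 0 := by
    unfold ln
    simpa using ((hasDerivAt_id (0 : ℝ)).smul_const (LD.vt Y)).const_add z
  have h2 : HasFDerivAt F (fderiv ℝ F z) (ln z Y 0) := by
    rw [ln_zero]; exact hF.hasFDerivAt
  exact h2.comp_hasDerivAt (0 : ℝ) h1

/-- derivative of `pl` along the fibre. -/
def plt (M : ℕ) (w : ℂ) : ℂ := if 0 < w.re then pvd M (w.im / w.re) else -Complex.I

lemma hasDerivAt_pl (ga : ℝ) (M : ℕ) (z : Fin N → ℂ) (Y : Fin N → ℝ) (i : Fin N) :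
    HasDerivAt (fun h => pl ga M (ln z Y h i)) (Y i * plt M (z i)) 0 := by
  unfold plt
  split_ifs with hs
  · have h1 : (fun h => pl ga M (ln z Y h i)) =
        fun h => ((z i).re : ℂ) * pv ga M (((z i).im + h * Y i) / (z i).re) := by
      funext h
      rw [pl_of_pos (by simpa using hs), ln_re, ln_im]
    rw [h1]
    have h2 : HasDerivAt (fun h : ℝ => ((z i).im + h * Y i) / (z i).re) (Y i / (z i).re) 0 := by
      simpa using (((hasDerivAt_id (0 : ℝ)).mul_const (Y i)).const_add (z i).im).div_const (z i).re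
    have h3 : HasDerivAt (pv ga M) (pvd M ((z i).im / (z i).re))
        (((z i).im + 0 * Y i) / (z i).re) := by
      simpa using hasDerivAt_pv ga M ((z i).im / (z i).re)
    have h4 := (h3.scomp (0 : ℝ) h2).const_mul ((z i).re : ℂ)
    refine h4.congr_deriv ?_
    have : ((z i).re : ℂ) ≠ 0 := by exact_mod_cast hs.ne'
    rw [Complex.real_smul]
    push_cast
    field_simp
  · have h1 : (fun h => pl ga M (ln z Y h i)) =
        fun h : ℝ => -((2 - ga : ℝ) : ℂ) * ((z i).re : ℂ) -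
          Complex.I * (((z i).im + h * Y i : ℝ) : ℂ) := by
      funext h
      rw [pl_of_nonpos (by simpa using not_lt.1 hs), ln_re, ln_im]
    rw [h1]
    have h2 : HasDerivAt (fun h : ℝ => (z i).im + h * Y i) (Y i) 0 := by
      simpa using ((hasDerivAt_id (0 : ℝ)).mul_const (Y i)).const_add (z i).im
    have h3 := (h2.ofReal_comp.const_mul Complex.I).const_sub
      (-((2 - ga : ℝ) : ℂ) * ((z i).re : ℂ))
    refine h3.congr_deriv ?_
    ring

/-! ### the total gauge -/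

/-- `|s|²`. -/
def SA (z : Fin N → ℂ) : ℝ := ∑ j, (z j).re ^ 2

/-- `|t|²`. -/
def SB (z : Fin N → ℂ) : ℝ := ∑ j, (z j).im ^ 2

lemma SA_nonneg (z : Fin N → ℂ) : 0 ≤ SA z := sum_nonneg fun _ _ => sq_nonneg _

lemma SB_nonneg (z : Fin N → ℂ) : 0 ≤ SB z := sum_nonneg fun _ _ => sq_nonneg _

lemma SAB_pos {z : Fin N → ℂ} (hz : z ≠ 0) : 0 < SA z + SB z := by
  obtain ⟨j, hj⟩ : ∃ j, z j ≠ 0 := by
    by_contra h
    push Not at h
    exact hz (funext h)
  have h1 : 0 < (z j).re ^ 2 + (z j).im ^ 2 := by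
    by_contra h
    have ha : (z j).re = 0 := by nlinarith [sq_nonneg (z j).re, sq_nonneg (z j).im]
    have hb : (z j).im = 0 := by nlinarith [sq_nonneg (z j).re, sq_nonneg (z j).im]
    exact hj (Complex.ext ha hb)
  have h2 : (z j).re ^ 2 ≤ SA z :=
    single_le_sum (f := fun j => (z j).re ^ 2) (fun i _ => sq_nonneg _) (mem_univ j)
  have h3 : (z j).im ^ 2 ≤ SB z :=
    single_le_sum (f := fun j => (z j).im ^ 2) (fun i _ => sq_nonneg _) (mem_univ j)
  linarith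

lemma NN_eq (K : ℝ) (z : Fin N → ℂ) : NN K z = √(gq K (SA z) (SB z)) := rfl

lemma gq_pos {K A B : ℝ} (hA : 0 ≤ A) (hB : 0 ≤ B) (h : 0 < A + B) : 0 < gq K A B :=
  lt_of_lt_of_le (by positivity) (gq_ge hA hB)

lemma NN_pos (K : ℝ) {z : Fin N → ℂ} (hz : z ≠ 0) : 0 < NN K z :=
  Real.sqrt_pos.2 (gq_pos (SA_nonneg z) (SB_nonneg z) (SAB_pos hz))

lemma NN_sq (K : ℝ) {z : Fin N → ℂ} (hz : z ≠ 0) : NN K z ^ 2 = gq K (SA z) (SB z) :=
  Real.sq_sqrt (gq_pos (SA_nonneg z) (SB_nonneg z) (SAB_pos hz)).le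

/-- derivative of the total gauge along the fibre direction `Y`. -/
def NNd (K : ℝ) (z : Fin N → ℂ) (Y : Fin N → ℝ) : ℝ :=
  gqd K (SA z) (SB z) * (∑ j, (z j).im * Y j) / NN K z

lemma hasDerivAt_NN (K : ℝ) {z : Fin N → ℂ} (hz : z ≠ 0) (Y : Fin N → ℝ) :
    HasDerivAt (fun h => NN K (ln z Y h)) (NNd K z Y) 0 := by
  have h1 : HasDerivAt (fun h => SB (ln z Y h)) (2 * ∑ j, (z j).im * Y j) 0 := by
    unfold SB
    simp only [ln_im]
    have h2 : ∀ j ∈ (univ : Finset (Fin N)),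
        HasDerivAt (fun h : ℝ => ((z j).im + h * Y j) ^ 2) (2 * ((z j).im * Y j)) 0 := by
      intro j _
      have h3 : HasDerivAt (fun h : ℝ => (z j).im + h * Y j) (Y j) 0 := by
        simpa using ((hasDerivAt_id (0 : ℝ)).mul_const (Y j)).const_add (z j).im
      exact (h3.pow 2).congr_deriv (by norm_num; ring)
    exact (HasDerivAt.fun_sum h2).congr_deriv (by rw [mul_sum])
  have h2 : HasDerivAt (fun y => gq K (SA z) y) (gqd K (SA z) (SB z)) (SB (ln z Y 0)) := by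
    rw [ln_zero]
    exact hasDerivAt_gq (SAB_pos hz)
  have h3 : HasDerivAt (fun h => gq K (SA z) (SB (ln z Y h)))
      (gqd K (SA z) (SB z) * (2 * ∑ j, (z j).im * Y j)) 0 :=
    HasDerivAt.comp (h := fun h => SB (ln z Y h)) (h₂ := fun y => gq K (SA z) y) (0 : ℝ) h2 h1
  have h4 : (fun h => NN K (ln z Y h)) = fun h => √(gq K (SA z) (SB (ln z Y h))) := by
    funext h
    rw [NN_eq]
    congr 2
    unfold SA
    simp
  rw [h4]
  have h5 := h3.sqrt (by
    rw [ln_zero]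
    exact (gq_pos (SA_nonneg z) (SB_nonneg z) (SAB_pos hz)).ne')
  refine h5.congr_deriv ?_
  rw [ln_zero, ← NN_eq, NNd]
  have := (NN_pos K hz).ne'
  field_simp

/-! ### the planar gauge -/

lemma pg_sq (K : ℝ) (w : ℂ) : pg K w ^ 2 = gq K (w.re ^ 2) (w.im ^ 2) :=
  Real.sq_sqrt ((sq_nonneg _).trans le_gq)

lemma sq_pos_of_ne {w : ℂ} (h : w ≠ 0) : 0 < w.re ^ 2 + w.im ^ 2 := by
  by_contra h1
  have ha : w.re = 0 := by nlinarith [sq_nonneg w.re, sq_nonneg w.im]
  have hb : w.im = 0 := by nlinarith [sq_nonneg w.re, sq_nonneg w.im]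
  exact h (Complex.ext ha hb)

lemma pg_pos (K : ℝ) {w : ℂ} (h : w ≠ 0) : 0 < pg K w :=
  Real.sqrt_pos.2 (gq_pos (sq_nonneg _) (sq_nonneg _) (sq_pos_of_ne h))

lemma pg_nonneg (K : ℝ) (w : ℂ) : 0 ≤ pg K w := Real.sqrt_nonneg _

@[simp] lemma pg_zero (K : ℝ) : pg K 0 = 0 := by simp [pg, gq]

/-- derivative of the planar gauge. -/
def pgd (K : ℝ) (w : ℂ) : ℝ := gqd K (w.re ^ 2) (w.im ^ 2) * w.im / pg K w

lemma hasDerivAt_pg (K : ℝ) {z : Fin N → ℂ} (Y : Fin N → ℝ) {i : Fin N} (hz : z i ≠ 0) :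
    HasDerivAt (fun h => pg K (ln z Y h i)) (Y i * pgd K (z i)) 0 := by
  unfold pg
  simp only [ln_re, ln_im]
  have h1 : HasDerivAt (fun h : ℝ => ((z i).im + h * Y i) ^ 2) (2 * ((z i).im * Y i)) 0 := by
    have h3 : HasDerivAt (fun h : ℝ => (z i).im + h * Y i) (Y i) 0 := by
      simpa using ((hasDerivAt_id (0 : ℝ)).mul_const (Y i)).const_add (z i).im
    exact (h3.pow 2).congr_deriv (by norm_num; ring)
  have h2 : HasDerivAt (fun y => gq K ((z i).re ^ 2) y) (gqd K ((z i).re ^ 2) ((z i).im ^ 2))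
      (((z i).im + 0 * Y i) ^ 2) := by
    rw [zero_mul, add_zero]
    exact hasDerivAt_gq (sq_pos_of_ne hz)
  have h3 : HasDerivAt (fun h => gq K ((z i).re ^ 2) (((z i).im + h * Y i) ^ 2))
      (gqd K ((z i).re ^ 2) ((z i).im ^ 2) * (2 * ((z i).im * Y i))) 0 :=
    HasDerivAt.comp (h := fun h : ℝ => ((z i).im + h * Y i) ^ 2)
      (h₂ := fun y => gq K ((z i).re ^ 2) y) (0 : ℝ) h2 h1
  have h4 := h3.sqrt (by
    rw [zero_mul, add_zero]
    exact (gq_pos (sq_nonneg _) (sq_nonneg _) (sq_pos_of_ne hz)).ne')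
  refine h4.congr_deriv ?_
  rw [zero_mul, add_zero, pgd, pg]
  have := (Real.sqrt_pos.2 (gq_pos (K := K) (sq_nonneg _) (sq_nonneg _) (sq_pos_of_ne hz))).ne'
  field_simp

lemma continuous_pg_ln (K : ℝ) {z : Fin N → ℂ} (Y : Fin N → ℝ) {i : Fin N} (hz : z i = 0) :
    Tendsto (fun h => pg K (ln z Y h i)) (𝓝 0) (𝓝 0) := by
  have h1 : ∀ h, pg K (ln z Y h i) ≤ |h * Y i| := by
    intro h
    unfold pg
    rw [ln_re, ln_im, hz]
    simp only [Complex.zero_re, Complex.zero_im, zero_add]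
    rw [← Real.sqrt_sq_eq_abs]
    apply Real.sqrt_le_sqrt
    have := gq_le (K := K) (A := 0 ^ 2) (B := (h * Y i) ^ 2) (by norm_num) (sq_nonneg _)
    simpa using this
  have h2 : Tendsto (fun h : ℝ => |h * Y i|) (𝓝 0) (𝓝 0) := by
    have : Continuous fun h : ℝ => |h * Y i| := by fun_prop
    simpa using this.tendsto 0
  exact squeeze_zero (fun h => pg_nonneg _ _) h1 h2

/-! ### relative sizes and cut-offs -/

/-- derivative of the relative size. -/
def xrd (z : Fin N → ℂ) (Y : Fin N → ℝ) (i : Fin N) : ℝ :=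
  (Y i * pgd D.K (z i) - D.xr z i * NNd D.K1 z Y) / NN D.K1 z

lemma hasDerivAt_xr {z : Fin N → ℂ} (hz : z ≠ 0) (Y : Fin N → ℝ) {i : Fin N} (hi : z i ≠ 0) :
    HasDerivAt (fun h => D.xr (ln z Y h) i) (xrd D z Y i) 0 := by
  unfold LD.xr
  have h1 := (hasDerivAt_pg D.K Y hi).div (hasDerivAt_NN D.K1 hz Y) (by
    rw [ln_zero]; exact (NN_pos _ hz).ne')
  refine h1.congr_deriv ?_
  rw [ln_zero, xrd, LD.xr]
  have := (NN_pos D.K1 hz).ne'
  field_simp

/-- derivative of the profile. -/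
def chid (d x : ℝ) : ℝ := std ((x - d) / d) / d

lemma hasDerivAt_chi (d x : ℝ) : HasDerivAt (chi d) (chid d x) x := by
  unfold chi chid
  have h1 : HasDerivAt (fun y : ℝ => (y - d) / d) (1 / d) x := by
    simpa using ((hasDerivAt_id x).sub_const d).div_const d
  have h2 := (hasDerivAt_st ((x - d) / d)).comp x h1
  rwa [mul_one_div] at h2

lemma chid_of_le {d x : ℝ} (hd : 0 < d) (h : x ≤ d) : chid d x = 0 := by
  rw [chid, std_of_le (div_nonpos_of_nonpos_of_nonneg (by linarith) hd.le), zero_div]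

lemma chid_of_ge {d x : ℝ} (hd : 0 < d) (h : 2 * d ≤ x) : chid d x = 0 := by
  rw [chid, std_of_ge (by rw [le_div_iff₀ hd]; linarith), zero_div]

lemma chid_nonneg {d x : ℝ} (hd : 0 < d) : 0 ≤ chid d x := div_nonneg (std_nonneg _) hd.le

lemma chid_le {d x : ℝ} (hd : 0 < d) : chid d x ≤ 2 / d := by
  unfold chid
  gcongr
  have := std_le ((x - d) / d)
  linarith

lemma chi_of_le {d x : ℝ} (hd : 0 < d) (h : x ≤ d) : chi d x = 0 := by
  rw [chi, st_of_le (div_nonpos_of_nonpos_of_nonneg (by linarith) hd.le)]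

lemma chi_of_ge {d x : ℝ} (hd : 0 < d) (h : 2 * d ≤ x) : chi d x = 1 := by
  rw [chi, st_of_ge (by rw [le_div_iff₀ hd]; linarith)]

lemma chi_pos {d x : ℝ} (hd : 0 < d) (h : d < x) : 0 < chi d x :=
  st_pos (div_pos (by linarith) hd)

lemma ch_nonneg (d : ℝ) (z : Fin N → ℂ) (j : Fin N) : 0 ≤ D.ch d z j := st_nonneg _

lemma ch_le_one (d : ℝ) (z : Fin N → ℂ) (j : Fin N) : D.ch d z j ≤ 1 := st_le_one _

lemma lt_of_ch_pos {d : ℝ} (hd : 0 < d) {z : Fin N → ℂ} {j : Fin N} (h : 0 < D.ch d z j) :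
    d < D.xr z j := by
  by_contra h1
  rw [LD.ch, chi_of_le hd (not_lt.1 h1)] at h
  exact lt_irrefl _ h

lemma xr_zero {z : Fin N → ℂ} {j : Fin N} (h : z j = 0) : D.xr z j = 0 := by
  simp [LD.xr, h]

/-- derivative of the cut-off along the fibre. -/
lemma hasDerivAt_ch {d : ℝ} (hd : 0 < d) {z : Fin N → ℂ} (hz : z ≠ 0) (Y : Fin N → ℝ)
    (i : Fin N) :
    HasDerivAt (fun h => D.ch d (ln z Y h) i) (chid d (D.xr z i) * xrd D z Y i) 0 := by
  rcases eq_or_ne (z i) 0 with hi | hi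
  · have h1 : Tendsto (fun h => D.xr (ln z Y h) i) (𝓝 0) (𝓝 0) := by
      unfold LD.xr
      have h2 := (hasDerivAt_NN D.K1 hz Y).continuousAt.tendsto
      rw [ln_zero] at h2
      have h3 := (continuous_pg_ln D.K Y hi).div h2 (NN_pos _ hz).ne'
      rwa [zero_div] at h3
    have h2 : (fun h => D.ch d (ln z Y h) i) =ᶠ[𝓝 0] fun _ => 0 := by
      filter_upwards [h1 (Iio_mem_nhds hd)] with h hh
      exact chi_of_le hd (le_of_lt hh)
    rw [xr_zero D hi, chid_of_le hd hd.le, zero_mul]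
    exact (hasDerivAt_const (0 : ℝ) (0 : ℝ)).congr_of_eventuallyEq h2
  · have h1 : HasDerivAt (chi d) (chid d (D.xr z i)) (D.xr (ln z Y 0) i) := by
      rw [ln_zero]; exact hasDerivAt_chi d _
    exact h1.comp (0 : ℝ) (hasDerivAt_xr D hz Y hi)

/-! ### real and imaginary part of `G` -/

lemma G_im (cB ga d : ℝ) (z : Fin N → ℂ) :
    (D.G cB ga d z).im = ∑ j, D.ch d z j * (pl ga (D.M j) (z j)).im := by
  unfold LD.G
  rw [Complex.sub_im, Complex.im_sum, Complex.ofReal_im, sub_zero]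
  exact sum_congr rfl fun j _ => Complex.im_ofReal_mul _ _

lemma G_re (cB ga d : ℝ) (z : Fin N → ℂ) :
    (D.G cB ga d z).re = ∑ j, D.ch d z j * (pl ga (D.M j) (z j)).re -
      cB * ga * ∑ e ∈ D.C, D.Be d e z := by
  unfold LD.G
  rw [Complex.sub_re, Complex.re_sum, Complex.ofReal_re]
  congr 1
  exact sum_congr rfl fun j _ => Complex.re_ofReal_mul _ _

/-- **derivative of `Im G` along the fibre.** -/
lemma fderiv_im {cB ga d : ℝ} (hd : 0 < d) {z : Fin N → ℂ} (hz : z ≠ 0)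
    (hG : DifferentiableAt ℝ (D.G cB ga d) z) (Y : Fin N → ℝ) :
    (fderiv ℝ (D.G cB ga d) z (LD.vt Y)).im =
      ∑ i, (chid d (D.xr z i) * xrd D z Y i * (pl ga (D.M i) (z i)).im +
        D.ch d z i * (Y i * (plt (D.M i) (z i)).im)) := by
  have h1 : HasDerivAt (fun h => (D.G cB ga d (ln z Y h)).im)
      (fderiv ℝ (D.G cB ga d) z (LD.vt Y)).im 0 := by
    have := hasDerivAt_line hG Y
    exact (Complex.imCLM.hasFDerivAt.comp_hasDerivAt (0 : ℝ) this)
  have h2 : HasDerivAt (fun h => (D.G cB ga d (ln z Y h)).im)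
      (∑ i, (chid d (D.xr z i) * xrd D z Y i * (pl ga (D.M i) (z i)).im +
        D.ch d z i * (Y i * (plt (D.M i) (z i)).im))) 0 := by
    simp only [G_im]
    refine HasDerivAt.fun_sum fun i _ => ?_
    have h3 := hasDerivAt_ch D hd hz Y i
    have h4 : HasDerivAt (fun h => (pl ga (D.M i) (ln z Y h i)).im)
        (Y i * (plt (D.M i) (z i)).im) 0 := by
      have := Complex.imCLM.hasFDerivAt.comp_hasDerivAt (0 : ℝ)
        (hasDerivAt_pl ga (D.M i) z Y i)
      refine this.congr_deriv ?_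
      simp
    have h5 := h3.mul h4
    refine h5.congr_deriv ?_
    simp only [ln_zero]
  exact h1.unique h2

end space

end Crest.Agent.R267.TLine_996
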