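import Crest.Agent.R267.Fin407_322
import Crest.Agent.R267.GlnHomeo_125
import Crest.Agent.R267.GlC2b_796
import Crest.Agent.R267.GlCont_649
import Crest.Agent.R267.GlOpen_128
import Crest.Agent.R267.Smooth_957
import Crest.Agent.R267.K2_996

/-!
# Row 267 (helper808): S0407 from T3a alone
-/

set_option autoImplicit false

namespace Crest.Agent.R267.Top407_808

open Crest.Agent.R267.T3aDefs_957 Crest.Agent.R267.GlueDefs_322

theorem gl2P {N : ℕ} (hN : 3 ≤ N) (D : LD N) : GL2P D :=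
  Gl2_322.gl2 D (Smooth_957.smooth D) (K1_996.k1 D (Smooth_957.smooth D))
    (K2_996.k2 D hN (Smooth_957.smooth D)) (GlnHomeo_125.homeoP D) (GlC2b_796.c2P D)
    (GlCont_649.contP D) GlOpen_128.openP

/-- **S0407 from T3a.** -/
theorem s0407_of_t3a (h3 : ∀ n, 1 ≤ n → ∀ D : LD (n + 3), T3aP D) : Asm_808.S0407Stmt :=
  Fin407_322.s0407 (fun n _ D => gl2P (by omega) D) h3

end Crest.Agent.R267.Top407_808
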