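import Crest.Agent.R267.LobeDefs_407
import Crest.Agent.R267.HmE_951
import Crest.Agent.R267.AngB_739

/-!
# Row 267 (helper855): the planar conditions of `V = Q_j - K η ^ d` (hypotheses of `TrP`)

`vp`: for `η = pol P q`; instances `qS1 = cis` (S1), `qS3a`, `qS3b` (the two halves of S3).
-/

set_option autoImplicit false

noncomputable section

open Set Filter Topology
open scoped ContDiff
open Crest.Agent.R267.Ang_739 Crest.Agent.R267.Hm_951
open Crest.Agent.R267.LemL_951 (PH Good2 good2_of_rot)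
open Crest.Agent.R267.Sys_808 Crest.Agent.R267.LobeDefs_407

namespace Crest.Agent.R267.VP_855

local notation "π" => Real.pi

/-! ### `pol` -/

section PolC2

variable {F : Type*} [NormedAddCommGroup F] [NormedSpace ℝ F]

theorem contDiff_pol {D : ℝ} (hD : 2 < D) {q : ℝ → F} (hq : ContDiff ℝ 2 q) (hper : Per q) :
    ContDiff ℝ 2 (pol D q) := by
  have h1 : ContDiffOn ℝ 2 (fun p : ℝ × ℂ => q (Complex.arg p.2)) (univ ×ˢ {0}ᶜ) :=
    contDiffOn_ang2 (q := fun p : ℝ × ℝ => q p.2) (fun _ => hper) isOpen_univ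
      (hq.comp contDiff_snd).contDiffOn
  have h2 := contDiffOn_rpow_smul (T := univ) isOpen_univ (D := fun _ => D) contDiffOn_const
    (fun _ _ => hD) h1 (fun t _ r hr z => by
      show q (Complex.arg ((r : ℂ) * z)) = q (Complex.arg z)
      rw [Complex.arg_real_mul _ hr])
  have h3 : ContDiff ℝ 2 (fun z : ℂ => ((0 : ℝ), z)) := contDiff_const.prodMk contDiff_id
  have h4 := h2.comp h3.contDiffOn (s := univ) fun z _ => ⟨mem_univ _, mem_univ _⟩
  rw [contDiffOn_univ] at h4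
  exact h4

theorem cis_zero : cis 0 = 1 := by simp [cis]

theorem cis_pow (x : ℝ) (n : ℕ) : cis x ^ n = cis (n * x) := by
  unfold cis
  rw [← Complex.exp_nat_mul]
  congr 1
  push_cast
  ring

theorem cis_re (x : ℝ) : (cis x).re = Real.cos x := Complex.exp_ofReal_mul_I_re x
theorem cis_im (x : ℝ) : (cis x).im = Real.sin x := Complex.exp_ofReal_mul_I_im x

theorem cis_ne (x : ℝ) : cis x ≠ 0 := Complex.exp_ne_zero _

theorem cis_add_pi (x : ℝ) : cis (x + π) = -cis x := by
  unfold cis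
  rw [Complex.ofReal_add, add_mul, Complex.exp_add, Complex.exp_pi_mul_I, mul_neg_one]

theorem pol_pow {P : ℝ} (q : ℝ → ℂ) (d : ℕ) (x : ℂ) :
    pol P q x ^ d = pol (d * P) (fun ξ => q ξ ^ d) x := by
  unfold pol
  rw [smul_pow, ← Real.rpow_natCast, ← Real.rpow_mul (norm_nonneg _), mul_comm P]

theorem pol_cis (P : ℝ) (x : ℂ) (hP : P ≠ 0) : pol P cis x = pw P x := by
  unfold pol pw
  by_cases hx : x = 0
  · subst hx
    simp [Real.zero_rpow hP]
  · have hn : 0 < ‖x‖ := norm_pos_iff.2 hx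
    have e : cis (Complex.arg x) * (‖x‖ : ℂ) = x := by
      rw [mul_comm]; exact Complex.norm_mul_exp_arg_mul_I x
    have e2 : ‖x‖ ^ P = ‖x‖ ^ (P - 1) * ‖x‖ := by
      rw [← Real.rpow_add_one hn.ne']; congr 1; ring
    rw [e2, Complex.real_smul]
    push_cast
    rw [mul_assoc, mul_comm (‖x‖ : ℂ), e]

theorem pol_one_cis (x : ℂ) : pol 1 cis x = x := by
  rw [pol_cis 1 x one_ne_zero]
  unfold pw
  rw [sub_self, Real.rpow_zero]
  simp

end PolC2

/-! ### the angular part of `V` -/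

/-- `V = Q_j - K η ^ d`, `η = pol P q` -/
def V {n : ℕ} (X : LD n) (e : Fin n) (d : ℕ) (K P : ℝ) (q : ℝ → ℂ) (x : ℂ) : ℂ :=
  X.Q e.castSucc x - (K : ℂ) * (pol P q x) ^ d

/-- its angular part -/
def vq (ep K : ℝ) (φ : ℝ → ℝ) (d : ℕ) (q : ℝ → ℂ) (ξ : ℝ) : ℂ :=
  (ep : ℂ) * cis (φ ξ) - (K : ℂ) * q ξ ^ d

section Main

variable {n : ℕ} {a : Fin (n + 1) → ℕ} {e : Fin n} {X : LD n} {P : ℝ}

/-- everything about the aligned phase -/
structure AlF (δ d : ℕ) (φ : ℝ → ℝ) : Prop where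
  smooth : ContDiff ℝ 2 φ
  deg : Deg δ φ
  al : ∀ x : ℝ, π / (3 * d) ≤ x → x ≤ 2 * π - π / (3 * d) → φ x = d * x + π

theorem alF (hA : X.Al a e (a e.succ + 1) P) :
    AlF (dg a e.castSucc) (a e.succ + 1) (X.ph e.castSucc) where
  smooth := (hA.ok.hph e.castSucc le_rfl).smooth
  deg := (hA.ok.hph e.castSucc le_rfl).deg
  al := hA.ph e.castSucc rfl

/-- points outside the cell `J` -/
theorem AlF.out {δ d : ℕ} {φ : ℝ → ℝ} (h : AlF δ d φ) (hd : 1 ≤ d) {ξ c : ℝ}
    (hc : 1 / 3 ≤ c) (h1 : π * c / d ≤ |ξ|) (h2 : |ξ| ≤ π) :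
    ∃ θ : ℝ, π + π * c ≤ θ ∧ θ ≤ 2 * π * d + π - π * c ∧ (φ ξ = θ ∨ φ ξ = θ - 2 * π * δ) ∧
      cis θ = -cis (d * ξ) := by
  have hπ := Real.pi_pos
  have hd' : (1 : ℝ) ≤ d := by exact_mod_cast hd
  have hd0 : (0 : ℝ) < d := by linarith
  have hcd : π / (3 * d) ≤ π * c / d := by
    rw [div_le_div_iff₀ (by positivity) hd0]
    nlinarith [mul_pos hπ hd0]
  rcases le_total 0 ξ with h0 | h0
  · rw [abs_of_nonneg h0] at h1 h2
    refine ⟨d * ξ + π, ?_, ?_, Or.inl (h.al ξ (hcd.trans h1) ?_), cis_add_pi _⟩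
    · have := mul_le_mul_of_nonneg_left h1 hd0.le
      rw [mul_div_cancel₀ _ hd0.ne'] at this
      linarith
    · have h3 : π * c / d ≤ π := h1.trans h2
      rw [div_le_iff₀ hd0] at h3
      nlinarith [mul_le_mul_of_nonneg_left h2 hd0.le]
    · have : π / (3 * d) ≤ π := hcd.trans (h1.trans h2)
      linarith
  · rw [abs_of_nonpos h0] at h1 h2
    have h3 : φ (ξ + 2 * π) = d * (ξ + 2 * π) + π := by
      refine h.al _ ?_ ?_
      · have : π / (3 * d) ≤ π := hcd.trans (h1.trans h2)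
        linarith
      · have := hcd.trans h1
        linarith
    refine ⟨d * (ξ + 2 * π) + π, ?_, ?_, Or.inr ?_, ?_⟩
    · have h3 : π * c / d ≤ π := h1.trans h2
      rw [div_le_iff₀ hd0] at h3
      nlinarith [mul_le_mul_of_nonneg_left (by linarith : π ≤ ξ + 2 * π) hd0.le]
    · have := mul_le_mul_of_nonneg_left h1 hd0.le
      rw [mul_div_cancel₀ _ hd0.ne'] at this
      nlinarith
    · have := h.deg ξ
      rw [h3] at this
      linarith
    · rw [cis_add_pi, mul_add, show (d : ℝ) * ξ + d * (2 * π) = d * ξ + 2 * π * d by ring,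
        cis_per_nat]

theorem AlF.cis_out {δ d : ℕ} {φ : ℝ → ℝ} (h : AlF δ d φ) (hd : 1 ≤ d) {ξ : ℝ}
    (h1 : π / (3 * d) ≤ |ξ|) (h2 : |ξ| ≤ π) : cis (φ ξ) = -cis (d * ξ) := by
  obtain ⟨θ, -, -, h3, h4⟩ := h.out hd (c := 1 / 3) le_rfl (by
    rw [show π * (1 / 3) / (d : ℝ) = π / (3 * d) by ring]; exact h1) h2
  rcases h3 with h3 | h3
  · rw [h3, h4]
  · rw [h3, ← h4]
    have := cis_per θ (-δ)
    rw [← this]
    congr 1
    push_cast
    ring

theorem AlF.deriv_out {δ d : ℕ} {φ : ℝ → ℝ} (h : AlF δ d φ) (hd : 1 ≤ d) {ξ : ℝ}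
    (h1 : π / (2 * d) ≤ |ξ|) (h2 : |ξ| ≤ π) : HasDerivAt φ d ξ := by
  have hπ := Real.pi_pos
  have hd' : (1 : ℝ) ≤ d := by exact_mod_cast hd
  have hd0 : (0 : ℝ) < d := by linarith
  have hcd : π / (3 * d) < π / (2 * d) := by
    apply div_lt_div_of_pos_left hπ (by positivity) (by linarith)
  have hpd : π / (2 * d) ≤ π / 2 := by
    apply div_le_div_of_nonneg_left hπ.le (by norm_num) (by linarith)
  have key : ∀ x : ℝ, π / (3 * d) < x → x < 2 * π - π / (3 * d) → HasDerivAt φ d x := by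
    intro x hx1 hx2
    have h3 : HasDerivAt (fun x : ℝ => (d : ℝ) * x + π) (d : ℝ) x := by
      simpa using ((hasDerivAt_id x).const_mul (d : ℝ)).add_const π
    refine h3.congr_of_eventuallyEq ?_
    filter_upwards [Ioo_mem_nhds hx1 hx2] with y hy
    exact h.al y hy.1.le hy.2.le
  rcases le_total 0 ξ with h0 | h0
  · rw [abs_of_nonneg h0] at h1 h2
    exact key ξ (by linarith) (by linarith)
  · rw [abs_of_nonpos h0] at h1 h2
    have h3 := key (ξ + 2 * π) (by linarith) (by linarith)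
    have h4 : HasDerivAt (fun x => φ (x + 2 * π)) d ξ := by
      have := HasDerivAt.comp_add_const ξ (2 * π) h3
      exact this
    have h5 : φ = fun x => φ (x + 2 * π) - 2 * π * δ := by
      funext x
      rw [h.deg x]; ring
    rw [h5]
    exact h4.sub_const _

/-- the constant -/
theorem ep_lt (hA : X.Al a e (a e.succ + 1) P) {K : ℝ}
    (hK : (1 / ((a e.succ : ℝ) + 1)) * ((a e.succ : ℝ) / ((a e.succ : ℝ) + 1)) ^ (a e.succ) ≤ K) :
    2 * X.ep e.castSucc < K := by
  have h := hA.ep e.castSucc rfl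
  push_cast at h
  simp only [add_sub_cancel_right] at h
  exact h.trans_le hK

theorem contDiff_vq {ep K : ℝ} {φ : ℝ → ℝ} {d : ℕ} {q : ℝ → ℂ} {m : WithTop ℕ∞}
    (hφ : ContDiff ℝ m φ) (hq : ContDiff ℝ m q) : ContDiff ℝ m (vq ep K φ d q) :=
  (contDiff_const.mul (contDiff_cis.comp hφ)).sub (contDiff_const.mul (hq.pow d))

theorem per_vq {ep K : ℝ} {φ : ℝ → ℝ} {δ d : ℕ} {q : ℝ → ℂ} (hφ : Deg δ φ) (hq : Per q) :
    Per (vq ep K φ d q) := fun x => by
  have h1 : (ep : ℂ) * cis (φ (x + 2 * π)) = (ep : ℂ) * cis (φ x) := hφ.per ep x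
  unfold vq
  rw [h1, hq x]

theorem V_eq (hA : X.Al a e (a e.succ + 1) P) (K : ℝ) (q : ℝ → ℂ) :
    V X e (a e.succ + 1) K P q =
      pol (X.D e.castSucc) (vq (X.ep e.castSucc) K (X.ph e.castSucc) (a e.succ + 1) q) := by
  funext x
  have hD : X.D e.castSucc = ((a e.succ + 1 : ℕ) : ℝ) * P := hA.deg e.castSucc rfl
  unfold V
  rw [pol_pow q (a e.succ + 1), ← hD]
  unfold LD.Q pc pol vq
  rw [Complex.real_smul, Complex.real_smul, Complex.real_smul]
  ring

/-- the conditions on `q` -/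
structure QC (d : ℕ) (q : ℝ → ℂ) : Prop where
  smooth : ContDiff ℝ 2 q
  per : Per q
  h1 : ∀ ξ, |ξ| < π / (2 * d) → 0 ≤ (q ξ ^ d).re
  h2 : ∀ ξ, |ξ| ≤ π / (3 * d) → 1 / 2 ≤ (q ξ ^ d).re
  h3 : ∀ ξ, π / (2 * d) ≤ |ξ| → |ξ| ≤ π → ∃ s : ℝ, 0 ≤ s ∧ q ξ = s * cis ξ ∧
    HasDerivAt q (s * (Complex.I * cis ξ)) ξ

/-- negative real part near `ξ = 0` -/
theorem vq_neg {ep K : ℝ} {φ : ℝ → ℝ} {δ d : ℕ} {q : ℝ → ℂ} (hd : 1 ≤ d) (hφ : AlF δ d φ)
    (hq : QC d q) (hep : 0 < ep) (hK : 2 * ep < K) {ξ : ℝ} (h : |ξ| < π / (2 * d)) :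
    (vq ep K φ d q ξ).re < 0 := by
  have hπ := Real.pi_pos
  have hd' : (1 : ℝ) ≤ d := by exact_mod_cast hd
  have hd0 : (0 : ℝ) < d := by linarith
  have hre : (vq ep K φ d q ξ).re = ep * Real.cos (φ ξ) - K * (q ξ ^ d).re := by
    unfold vq
    rw [Complex.sub_re, Complex.re_ofReal_mul, Complex.re_ofReal_mul, cis_re]
  rw [hre]
  by_cases h2 : |ξ| ≤ π / (3 * d)
  · have h3 := hq.h2 ξ h2
    have h4 := Real.cos_le_one (φ ξ)
    nlinarith
  · push Not at h2
    have hpd : π / (2 * d) ≤ π / 2 := by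
      apply div_le_div_of_nonneg_left hπ.le (by norm_num) (by linarith)
    have h3 := hφ.cis_out hd h2.le (by linarith)
    have h4 : Real.cos (φ ξ) = -Real.cos (d * ξ) := by
      rw [← cis_re, h3, Complex.neg_re, cis_re]
    have h5 : 0 < Real.cos (d * ξ) := by
      have : |(d : ℝ) * ξ| < π / 2 := by
        rw [abs_mul, abs_of_pos hd0]
        calc (d : ℝ) * |ξ| < d * (π / (2 * d)) := mul_lt_mul_of_pos_left h hd0
          _ = π / 2 := by field_simp
      rw [abs_lt] at this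
      exact Real.cos_pos_of_mem_Ioo ⟨by linarith, this.2⟩
    have h6 := hq.h1 ξ h
    rw [h4]
    nlinarith [mul_pos hep h5, mul_nonneg (by linarith : 0 ≤ K) h6]

/-- rotation outside -/
theorem vq_rot {ep K : ℝ} {φ : ℝ → ℝ} {δ d : ℕ} {q : ℝ → ℂ} (hd : 1 ≤ d) (hφ : AlF δ d φ)
    (hq : QC d q) (hep : 0 < ep) (hK : 2 * ep < K) {ξ : ℝ} (h : π / (2 * d) ≤ |ξ|)
    (h' : |ξ| ≤ π) :
    ∃ c : ℝ, 0 < c ∧ vq ep K φ d q ξ = c * cis (φ ξ) ∧
      HasDerivAt (vq ep K φ d q) (d * (Complex.I * vq ep K φ d q ξ)) ξ := by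
  have hπ := Real.pi_pos
  have hd' : (1 : ℝ) ≤ d := by exact_mod_cast hd
  have hd0 : (0 : ℝ) < d := by linarith
  have hcd : π / (3 * d) ≤ π / (2 * d) := by
    apply div_le_div_of_nonneg_left hπ.le (by positivity) (by linarith)
  obtain ⟨s, hs, hs1, hs2⟩ := hq.h3 ξ h h'
  have h3 := hφ.cis_out hd (hcd.trans h) h'
  have h4 := hφ.deriv_out hd h h'
  have e1 : vq ep K φ d q ξ = ((ep + K * s ^ d : ℝ) : ℂ) * cis (φ ξ) := by
    unfold vq
    rw [hs1, mul_pow, cis_pow, h3]
    push_cast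
    ring
  refine ⟨ep + K * s ^ d, ?_, e1, ?_⟩
  · have : 0 ≤ K * s ^ d := mul_nonneg (by linarith) (pow_nonneg hs d)
    linarith
  · have h5 := (hasDerivAt_epscis ep h4).sub ((hs2.fun_pow d).const_mul (K : ℂ))
    refine h5.congr_deriv ?_
    have e2 : q ξ ^ (d - 1) * (s * (Complex.I * cis ξ)) = Complex.I * q ξ ^ d := by
      obtain ⟨k, rfl⟩ : ∃ k, d = k + 1 := ⟨d - 1, by omega⟩
      rw [Nat.add_sub_cancel, pow_succ, hs1]
      ring
    unfold vq
    rw [Complex.ofReal_natCast, mul_assoc (d : ℂ) (q ξ ^ (d - 1)), e2]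
    ring

/-- `V` satisfies the hypotheses of `TrP`. -/
theorem vp (hE : Exps a) (hA : X.Al a e (a e.succ + 1) P) {K : ℝ}
    (hK : (1 / ((a e.succ : ℝ) + 1)) * ((a e.succ : ℝ) / ((a e.succ : ℝ) + 1)) ^ (a e.succ) ≤ K)
    {q : ℝ → ℂ} (hq : QC (a e.succ + 1) q) :
    PH (X.D e.castSucc) (V X e (a e.succ + 1) K P q) ∧
    (∀ x, DifferentiableAt ℝ (V X e (a e.succ + 1) K P q) x) ∧
    (∀ x : ℂ, x ≠ 0 → V X e (a e.succ + 1) K P q x ≠ 0 ∧ ((V X e (a e.succ + 1) K P q x).re < 0 ∨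
      ∃ v, (∀ e' : Fin n, e'.succ = e.castSucc → fderiv ℝ (X.h e') x v = 0) ∧
        Good2 (fderiv ℝ (V X e (a e.succ + 1) K P q) x v) (V X e (a e.succ + 1) K P q x))) ∧
    (∀ e' : Fin n, e'.succ = e.castSucc → ∀ x : ℂ, x ≠ 0 → 0 < X.h e' x →
      0 < (V X e (a e.succ + 1) K P q x).re → (V X e (a e.succ + 1) K P q x).im = 0 →
      X.h e' x = ‖x‖ ^ X.m e' ∧
        ‖V X e (a e.succ + 1) K P q x‖ ≤ X.ep e.castSucc * ‖x‖ ^ X.D e.castSucc) := by
  have hπ := Real.pi_pos
  have hV := V_eq hA K q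
  have hal := alF hA
  have hep : 0 < X.ep e.castSucc := hA.ok.hep e.castSucc le_rfl
  have hKK := ep_lt hA hK
  have hd : 1 ≤ a e.succ + 1 := by omega
  have hD : 2 < X.D e.castSucc := hA.ok.hD e.castSucc le_rfl
  have hper : Per (vq (X.ep e.castSucc) K (X.ph e.castSucc) (a e.succ + 1) q) :=
    per_vq hal.deg hq.per
  have hC : ContDiff ℝ 2 (vq (X.ep e.castSucc) K (X.ph e.castSucc) (a e.succ + 1) q) :=
    contDiff_vq hal.smooth hq.smooth
  have hCV : ContDiff ℝ 2 (V X e (a e.succ + 1) K P q) := by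
    rw [hV]
    exact contDiff_pol hD hC hper
  -- the value and the argument
  have hval : ∀ x, V X e (a e.succ + 1) K P q x = ((‖x‖ ^ X.D e.castSucc : ℝ) : ℂ) *
      vq (X.ep e.castSucc) K (X.ph e.castSucc) (a e.succ + 1) q (Complex.arg x) := by
    intro x
    rw [hV]
    exact Complex.real_smul
  have hneg : ∀ x : ℂ, x ≠ 0 → |Complex.arg x| < π / (2 * (a e.succ + 1 : ℕ)) →
      (V X e (a e.succ + 1) K P q x).re < 0 := by
    intro x hx h
    rw [hval, Complex.re_ofReal_mul]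
    exact mul_neg_of_pos_of_neg (Real.rpow_pos_of_pos (norm_pos_iff.2 hx) _)
      (vq_neg hd hal hq hep hKK h)
  refine ⟨?_, fun x => (hCV.differentiable (by norm_num)) x, ?_, ?_⟩
  · rw [hV]
    exact fun r hr z => pol_hom _ _ r hr z
  · intro x hx
    rcases lt_or_ge |Complex.arg x| (π / (2 * (a e.succ + 1 : ℕ))) with h | h
    · have h1 := hneg x hx h
      refine ⟨fun h0 => ?_, Or.inl h1⟩
      rw [h0, Complex.zero_re] at h1
      exact lt_irrefl _ h1
    · obtain ⟨c, hc, hc1, hc2⟩ := vq_rot hd hal hq hep hKK h (Complex.abs_arg_le_pi x)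
      have hr : 0 < ‖x‖ ^ X.D e.castSucc := Real.rpow_pos_of_pos (norm_pos_iff.2 hx) _
      have hv : V X e (a e.succ + 1) K P q x =
          ((‖x‖ ^ X.D e.castSucc * c : ℝ) : ℂ) * cis (X.ph e.castSucc (Complex.arg x)) := by
        rw [hval, hc1]
        push_cast
        ring
      refine ⟨?_, ?_⟩
      · rw [hv]
        exact mul_ne_zero (Complex.ofReal_ne_zero.2 (mul_pos hr hc).ne') (cis_ne _)
      · rcases lt_or_ge (Real.cos (X.ph e.castSucc (Complex.arg x))) 0 with h5 | h5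
        · left
          rw [hv, Complex.re_ofReal_mul, cis_re]
          exact mul_neg_of_pos_of_neg (mul_pos hr hc) h5
        · right
          refine ⟨Complex.I * x, ?_, ?_⟩
          · intro e' he'
            have hlt : (e' : ℕ) < (e : ℕ) := by
              have := congrArg Fin.val he'
              simp only [Fin.val_succ, Fin.val_castSucc] at this
              omega
            have hb := hA.ok.hbet e' hlt
            rw [he'] at hb
            have hφd : HasDerivAt (X.ph e.castSucc) (((a e.succ + 1 : ℕ) : ℝ)) (Complex.arg x) :=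
              hal.deriv_out hd h (Complex.abs_arg_le_pi x)
            have hbd : HasDerivAt (X.bet e') 0 (X.ph e.castSucc (Complex.arg x)) := by
              rw [← hb.flat _ h5]
              exact ((hb.smooth.differentiable (by norm_num)) _).hasDerivAt
            have h6 : HasDerivAt (fun ξ => X.bet e' (X.ph e.castSucc ξ)) 0 (Complex.arg x) := by
              have := hbd.comp (Complex.arg x) hφd
              rw [zero_mul] at this
              exact this
            have hpe : Per (fun ξ => X.bet e' (X.ph e.castSucc ξ)) := fun ξ => by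
              show X.bet e' (X.ph e.castSucc (ξ + 2 * π)) = _
              rw [hal.deg ξ, hb.per]
            have h7 : X.h e' = pol (X.m e') (fun ξ => X.bet e' (X.ph e.castSucc ξ)) := by
              funext z
              unfold LD.h
              rw [he']
            rw [h7, fderiv_pol_I _ hpe hx h6, smul_zero]
          · have h8 : fderiv ℝ (V X e (a e.succ + 1) K P q) x (Complex.I * x) =
                (((a e.succ + 1 : ℕ) : ℝ) : ℂ) * (Complex.I * V X e (a e.succ + 1) K P q x) := by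
              rw [hval x, hV, fderiv_pol_I _ hper hx hc2, Complex.real_smul]
              push_cast
              ring
            rw [h8]
            exact good2_of_rot (by positivity)
  · intro e' he' x hx hh hre him
    exfalso
    have hlt : (e' : ℕ) < (e : ℕ) := by
      have := congrArg Fin.val he'
      simp only [Fin.val_succ, Fin.val_castSucc] at this
      omega
    rcases lt_or_ge |Complex.arg x| (π / (2 * (a e.succ + 1 : ℕ))) with h | h
    · exact lt_irrefl _ (hre.trans (hneg x hx h))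
    · obtain ⟨c, hc, hc1, -⟩ := vq_rot hd hal hq hep hKK h (Complex.abs_arg_le_pi x)
      have hr : 0 < ‖x‖ ^ X.D e.castSucc := Real.rpow_pos_of_pos (norm_pos_iff.2 hx) _
      have hv : V X e (a e.succ + 1) K P q x =
          ((‖x‖ ^ X.D e.castSucc * c : ℝ) : ℂ) * cis (X.ph e.castSucc (Complex.arg x)) := by
        rw [hval, hc1]
        push_cast
        ring
      rw [hv, Complex.re_ofReal_mul, cis_re] at hre
      rw [hv, Complex.im_ofReal_mul, cis_im] at him
      have hrc : 0 < ‖x‖ ^ X.D e.castSucc * c := mul_pos hr hc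
      have hcos : 0 < Real.cos (X.ph e.castSucc (Complex.arg x)) := pos_of_mul_pos_right hre hrc.le
      have hsin : Real.sin (X.ph e.castSucc (Complex.arg x)) = 0 :=
        (mul_eq_zero.1 him).resolve_left hrc.ne'
      obtain ⟨θ, hθ1, hθ2, hθ3, -⟩ := hal.out hd (c := 1 / 2) (by norm_num) (by
        rw [show π * (1 / 2) / ((a e.succ + 1 : ℕ) : ℝ) = π / (2 * (a e.succ + 1 : ℕ)) by ring]
        exact h) (Complex.abs_arg_le_pi x)
      have hb := hA.ok.hbet e' hlt
      have hb1 := hA.ok.bet1 e' hlt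
      rw [he'] at hb hb1
      have hpos' : e.castSucc ≠ 0 := by
        rw [← he']
        exact Fin.succ_ne_zero e'
      have hdg : dg a e.castSucc = a e.castSucc + 1 := by
        unfold dg
        rw [if_neg hpos']
      have hlt2 : a e.succ + 1 < dg a e.castSucc := by
        rw [hdg]
        have := hE.anti (Fin.castSucc_lt_succ (i := e))
        omega
      -- the value of `bet` at `φ ξ` is its value at `θ`
      have hbθ : X.bet e' (X.ph e.castSucc (Complex.arg x)) = X.bet e' θ := by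
        rcases hθ3 with h3 | h3
        · rw [h3]
        · rw [h3, ← hb.per (θ - 2 * π * dg a e.castSucc)]
          congr 1
          ring
      have hcosθ : Real.cos (X.ph e.castSucc (Complex.arg x)) = Real.cos θ := by
        rcases hθ3 with h3 | h3
        · rw [h3]
        · rw [h3, show θ - 2 * π * (dg a e.castSucc : ℝ) = θ - (dg a e.castSucc : ℕ) * (2 * π) by
            ring, Real.cos_sub_nat_mul_two_pi]
      have hsinθ : Real.sin (X.ph e.castSucc (Complex.arg x)) = Real.sin θ := by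
        rcases hθ3 with h3 | h3
        · rw [h3]
        · rw [h3, show θ - 2 * π * (dg a e.castSucc : ℝ) = θ - (dg a e.castSucc : ℕ) * (2 * π) by
            ring, Real.sin_sub_nat_mul_two_pi]
      rw [hcosθ] at hcos
      rw [hsinθ] at hsin
      -- `θ = 2 π k`
      have hcos1 : Real.cos θ = 1 := by
        have h9 := Real.sin_sq_add_cos_sq θ
        rw [hsin] at h9
        nlinarith
      obtain ⟨k, hk⟩ := (Real.cos_eq_one_iff θ).1 hcos1
      have hk1 : 1 ≤ k := by
        by_contra hcon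
        have : (k : ℝ) ≤ 0 := by exact_mod_cast (by omega : k ≤ 0)
        nlinarith
      have hk2 : k ≤ (a e.succ + 1 : ℕ) := by
        by_contra hcon
        have h10 : (((a e.succ + 1 : ℕ) : ℤ) : ℝ) + 1 ≤ (k : ℝ) := by
          exact_mod_cast (by omega : ((a e.succ + 1 : ℕ) : ℤ) + 1 ≤ k)
        rw [Int.cast_natCast] at h10
        nlinarith
      obtain ⟨k', hk'⟩ : ∃ k' : ℕ, k = k' + 1 := ⟨(k - 1).toNat, by omega⟩
      have h11 := hb1 k' (by omega) θ (by
        rw [← hk, hk']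
        push_cast
        rw [show ((k' : ℝ) + 1) * (2 * π) - 2 * π * ((k' : ℝ) + 1) = 0 by ring, abs_zero]
        positivity)
      rw [if_neg (by omega)] at h11
      have h12 : X.h e' x = 0 := by
        show (‖x‖ ^ X.m e') • X.bet e' (X.ph e'.succ (Complex.arg x)) = 0
        rw [he', hbθ, h11, smul_zero]
      rw [h12] at hh
      exact lt_irrefl _ hh

end Main

/-! ### the instances -/

section Inst

variable {d : ℕ} {l : ℝ → ℝ} {v : ℝ}

theorem cos_nonneg_cell (hd : 1 ≤ d) {ξ u : ℝ} (hu0 : 0 ≤ u) (hu : u ≤ 1)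
    (h : |ξ| < π / (2 * d)) : 0 ≤ Real.cos (d * (u * ξ)) := by
  have hd0 : (0 : ℝ) < d := by exact_mod_cast hd
  have : |(d : ℝ) * (u * ξ)| ≤ π / 2 := by
    rw [abs_mul, abs_mul, abs_of_pos hd0, abs_of_nonneg hu0]
    calc (d : ℝ) * (u * |ξ|) ≤ d * (1 * |ξ|) := by gcongr
      _ ≤ d * (1 * (π / (2 * d))) := by gcongr
      _ = π / 2 := by field_simp
  rw [abs_le] at this
  exact Real.cos_nonneg_of_mem_Icc ⟨by linarith, this.2⟩

theorem half_le_cell (hd : 1 ≤ d) {ξ u : ℝ} (hu0 : 0 ≤ u) (hu : u ≤ 1)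
    (h : |ξ| ≤ π / (3 * d)) : 1 / 2 ≤ Real.cos (d * (u * ξ)) := by
  have hπ := Real.pi_pos
  have hd0 : (0 : ℝ) < d := by exact_mod_cast hd
  have : |(d : ℝ) * (u * ξ)| ≤ π / 3 := by
    rw [abs_mul, abs_mul, abs_of_pos hd0, abs_of_nonneg hu0]
    calc (d : ℝ) * (u * |ξ|) ≤ d * (1 * |ξ|) := by gcongr
      _ ≤ d * (1 * (π / (3 * d))) := by gcongr
      _ = π / 3 := by field_simp
  rw [← Real.cos_abs, ← Real.cos_pi_div_three]
  exact Real.cos_le_cos_of_nonneg_of_le_pi (abs_nonneg _) (by linarith) this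

/-- S1: `η = x` -/
theorem qc_S1 (hd : 1 ≤ d) : QC d cis where
  smooth := contDiff_cis
  per := fun x => by simpa using cis_per x 1
  h1 := fun ξ h => by
    rw [cis_pow, cis_re]
    simpa using cos_nonneg_cell hd zero_le_one le_rfl h
  h2 := fun ξ h => by
    rw [cis_pow, cis_re]
    simpa using half_le_cell hd zero_le_one le_rfl h
  h3 := fun ξ _ _ => ⟨1, zero_le_one, by simp, by simpa using hasDerivAt_cis ξ⟩

/-- the cut-off vanishes outside -/
theorem CutX.out (hl : CutX d l) (hd : 1 ≤ d) {ξ : ℝ} (h : π / (2 * d) ≤ |ξ|) (h' : |ξ| ≤ π) :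
    l ξ = 0 ∧ HasDerivAt l 0 ξ := by
  have hπ := Real.pi_pos
  have hd' : (1 : ℝ) ≤ d := by exact_mod_cast hd
  have hpd : π / (2 * d) ≤ π / 2 := by
    apply div_le_div_of_nonneg_left hπ.le (by norm_num) (by linarith)
  have h0 : l ξ = 0 := by
    rcases le_total 0 ξ with h0 | h0
    · rw [abs_of_nonneg h0] at h h'
      exact hl.zero ξ h (by linarith)
    · rw [abs_of_nonpos h0] at h h'
      rw [← hl.per ξ]
      exact hl.zero (ξ + 2 * π) (by linarith) (by linarith)
  exact ⟨h0, hasDerivAt_zero_of_range hl.nn hl.le ((hl.smooth.differentiable (by norm_num)) ξ)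
    (Or.inl h0)⟩

/-- first half of S3 -/
def qS3a (l : ℝ → ℝ) (v ξ : ℝ) : ℂ := ((1 - v * (1 - l ξ) : ℝ) : ℂ) * cis ξ

theorem contDiff_qS3a {l : ℝ → ℝ} (hl : ContDiff ℝ 2 l) :
    ContDiff ℝ 2 (fun p : ℝ × ℝ => qS3a l p.1 p.2) := by
  unfold qS3a
  refine ContDiff.mul (Complex.ofRealCLM.contDiff.comp ?_) (contDiff_cis.comp contDiff_snd)
  exact contDiff_const.sub (contDiff_fst.mul (contDiff_const.sub (hl.comp contDiff_snd)))

theorem per_qS3a {l : ℝ → ℝ} (hl : Per l) (v : ℝ) : Per (qS3a l v) := fun x => by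
  unfold qS3a
  rw [hl x]
  congr 1
  simpa using cis_per x 1

theorem qc_S3a (hd : 1 ≤ d) (hl : CutX d l) (h0 : 0 ≤ v) (h1 : v ≤ 1) : QC d (qS3a l v) where
  smooth := (contDiff_qS3a hl.smooth).comp (contDiff_const.prodMk contDiff_id)
  per := per_qS3a hl.per v
  h1 := fun ξ h => by
    unfold qS3a
    rw [mul_pow, cis_pow, ← Complex.ofReal_pow, Complex.re_ofReal_mul, cis_re]
    refine mul_nonneg (pow_nonneg ?_ d) ?_
    · have := hl.nn ξ; nlinarith
    · simpa using cos_nonneg_cell hd zero_le_one le_rfl h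
  h2 := fun ξ h => by
    unfold qS3a
    rw [hl.one ξ h, sub_self, mul_zero, sub_zero, Complex.ofReal_one, one_mul, cis_pow, cis_re]
    simpa using half_le_cell hd zero_le_one le_rfl h
  h3 := fun ξ h h' => by
    obtain ⟨hl0, hl1⟩ := CutX.out hl hd h h'
    refine ⟨1 - v * (1 - l ξ), by rw [hl0]; linarith, rfl, ?_⟩
    have h2 : HasDerivAt (fun ξ => 1 - v * (1 - l ξ)) 0 ξ := by
      simpa using ((hl1.const_sub 1).const_mul v).const_sub 1
    have h3 := (h2.ofReal_comp).mul (hasDerivAt_cis ξ)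
    simp only [Complex.ofReal_zero, zero_mul, zero_add] at h3
    exact h3

/-- `2π`-periodic smooth function, `= x` for `|x| ≤ π / 2` -/
def sgm (x : ℝ) : ℝ := x - 2 * π * stair (π / 2) (x + π)

theorem sgm_eq {x : ℝ} (h : |x| ≤ π / 2) : sgm x = x := by
  have hπ := Real.pi_pos
  rw [abs_le] at h
  unfold sgm
  rw [stair_const (by linarith) (by linarith) (by linarith) (by linarith), mul_zero, sub_zero]

theorem sgm_per : Per sgm := fun x => by
  have hπ := Real.pi_pos
  unfold sgm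
  rw [show x + 2 * π + π = (x + π) + 2 * π by ring, stair_per (by linarith) (by linarith)]
  ring

theorem contDiff_sgm : ContDiff ℝ 2 sgm := by
  unfold sgm
  exact contDiff_id.sub (contDiff_const.mul ((contDiff_stair _ (n := 2)).comp
    (contDiff_id.add contDiff_const)))

/-- second half of S3 -/
def qS3b (l : ℝ → ℝ) (v ξ : ℝ) : ℂ := (l ξ : ℂ) * cis ((1 - v) * sgm ξ)

theorem contDiff_qS3b {l : ℝ → ℝ} (hl : ContDiff ℝ 2 l) :
    ContDiff ℝ 2 (fun p : ℝ × ℝ => qS3b l p.1 p.2) := by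
  unfold qS3b
  refine ContDiff.mul (Complex.ofRealCLM.contDiff.comp (hl.comp contDiff_snd)) ?_
  exact contDiff_cis.comp ((contDiff_const.sub contDiff_fst).mul (contDiff_sgm.comp contDiff_snd))

theorem per_qS3b {l : ℝ → ℝ} (hl : Per l) (v : ℝ) : Per (qS3b l v) := fun x => by
  unfold qS3b
  rw [hl x, sgm_per x]

theorem qc_S3b (hd : 1 ≤ d) (hl : CutX d l) (h0 : 0 ≤ v) (h1 : v ≤ 1) : QC d (qS3b l v) where
  smooth := (contDiff_qS3b hl.smooth).comp (contDiff_const.prodMk contDiff_id)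
  per := per_qS3b hl.per v
  h1 := fun ξ h => by
    have hπ := Real.pi_pos
    have hd' : (1 : ℝ) ≤ d := by exact_mod_cast hd
    have hpd : π / (2 * d) ≤ π / 2 := by
      apply div_le_div_of_nonneg_left hπ.le (by norm_num) (by linarith)
    unfold qS3b
    rw [mul_pow, cis_pow, ← Complex.ofReal_pow, Complex.re_ofReal_mul, cis_re,
      sgm_eq (by linarith)]
    exact mul_nonneg (pow_nonneg (hl.nn ξ) d)
      (cos_nonneg_cell hd (by linarith) (by linarith) h)
  h2 := fun ξ h => by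
    have hπ := Real.pi_pos
    have hd' : (1 : ℝ) ≤ d := by exact_mod_cast hd
    have hpd : π / (3 * d) ≤ π / 2 := by
      apply div_le_div_of_nonneg_left hπ.le (by norm_num) (by linarith)
    unfold qS3b
    rw [hl.one ξ h, Complex.ofReal_one, one_mul, cis_pow, cis_re, sgm_eq (by linarith)]
    exact half_le_cell hd (by linarith) (by linarith) h
  h3 := fun ξ h h' => by
    obtain ⟨hl0, hl1⟩ := CutX.out hl hd h h'
    refine ⟨0, le_rfl, by unfold qS3b; rw [hl0]; simp, ?_⟩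
    have h2 : HasDerivAt (fun ξ : ℝ => cis ((1 - v) * sgm ξ))
        (deriv (fun ξ : ℝ => cis ((1 - v) * sgm ξ)) ξ) ξ := by
      have : ContDiff ℝ 2 (fun ξ : ℝ => cis ((1 - v) * sgm ξ)) :=
        contDiff_cis.comp (contDiff_const.mul contDiff_sgm)
      exact ((this.differentiable (by norm_num)) ξ).hasDerivAt
    have h3 := (hl1.ofReal_comp).mul h2
    rw [hl0] at h3
    simp only [Complex.ofReal_zero, zero_mul, zero_add] at h3 ⊢
    exact h3

/-- `v = 0` of the first half -/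
theorem pol_qS3a_zero {P : ℝ} (hP : P ≠ 0) (l : ℝ → ℝ) (x : ℂ) : pol P (qS3a l 0) x = pw P x := by
  rw [← pol_cis P x hP]
  unfold pol qS3a
  simp

/-- `v = 1` of the first half = `v = 0` of the second half -/
theorem pol_qS3b_zero (hd : 1 ≤ d) (hl : CutX d l) (P : ℝ) (x : ℂ) :
    pol P (qS3a l 1) x = pol P (qS3b l 0) x := by
  have hπ := Real.pi_pos
  have hd' : (1 : ℝ) ≤ d := by exact_mod_cast hd
  have hpd : π / (2 * d) ≤ π / 2 := by
    apply div_le_div_of_nonneg_left hπ.le (by norm_num) (by linarith)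
  unfold pol qS3a qS3b
  rcases lt_or_ge |Complex.arg x| (π / (2 * d)) with h | h
  · rw [sgm_eq (by linarith), sub_zero, one_mul, one_mul]
    congr 2
    norm_num
  · rw [(CutX.out hl hd h (Complex.abs_arg_le_pi x)).1]
    norm_num

/-- `v = 1` of the second half -/
theorem pol_qS3b_one (l : ℝ → ℝ) (P : ℝ) (x : ℂ) :
    pol P (qS3b l 1) x = ((pol P l x : ℝ) : ℂ) := by
  unfold pol qS3b
  rw [sub_self, zero_mul, cis_zero, mul_one, Complex.real_smul, smul_eq_mul, Complex.ofReal_mul]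

/-- joint smoothness of `(v, x) ↦ pol P (q v) x` -/
theorem contDiffOn_eta {P : ℝ} (hP : 2 < P) {q : ℝ → ℝ → ℂ} (hq : ContDiff ℝ 2 fun p : ℝ × ℝ => q p.1 p.2)
    (hper : ∀ v, Per (q v)) :
    ContDiffOn ℝ 2 (fun p : ℝ × ℂ => pol P (q p.1) p.2) (univ ×ˢ univ) := by
  refine contDiffOn_rpow_smul (T := univ) isOpen_univ (D := fun _ => P) contDiffOn_const
    (fun _ _ => hP) (contDiffOn_ang2 (q := fun p : ℝ × ℝ => q p.1 p.2) hper isOpen_univ
      hq.contDiffOn) fun t _ r hr z => ?_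
  show q t (Complex.arg ((r : ℂ) * z)) = q t (Complex.arg z)
  rw [Complex.arg_real_mul _ hr]

end Inst

end Crest.Agent.R267.VP_855
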