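import Mathlib
import Crest.Agent.R267.Pow_951
import Crest.Agent.R267.Cone_808

/-!
# Row 267 (helper920): weighted homogeneous functions are `C²` at the origin

`contDiff_of_wh` : `f : (ι → ℂ) → F`, `C²` off `0`, `f (act w s x) = exp s • f x`, `0 < w i < 1/2`,
`f 0 = 0`: then `f` is `C²`.
-/

set_option autoImplicit false
set_option linter.unusedSectionVars false

noncomputable section

open Set Filter Topology Metric
open scoped ContDiff
open Crest.Agent.R267.Cone_808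

namespace Crest.Agent.R267.WHom_920

variable {E F : Type*} [NormedAddCommGroup E] [NormedSpace ℝ E]
  [NormedAddCommGroup F] [NormedSpace ℝ F]

/-- flat points, without parameter -/
theorem contDiff_of_flat [FiniteDimensional ℝ E] {f : E → F} (hC : ContDiffOn ℝ 2 f {0}ᶜ)
    (h0 : f 0 = 0) {κ C : ℝ} (hκ : 0 < κ) (hC0 : 0 ≤ C)
    (hb : ∀ x : E, x ≠ 0 → ‖x‖ ≤ 1 → ‖f x‖ ≤ C * ‖x‖ ^ (2 + κ) ∧
      ‖fderiv ℝ f x‖ ≤ C * ‖x‖ ^ (1 + κ) ∧ ‖fderiv ℝ (fderiv ℝ f) x‖ ≤ C * ‖x‖ ^ κ) :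
    ContDiff ℝ 2 f := by
  have hop : IsOpen ({0}ᶜ : Set E) := isOpen_compl_singleton
  have hCd : ∀ x : E, x ≠ 0 → ContDiffAt ℝ 2 f x := fun x hx =>
    (hC x hx).contDiffAt (hop.mem_nhds hx)
  let sn : ℝ × E →L[ℝ] E := ContinuousLinearMap.snd ℝ ℝ E
  have hsn : ‖sn‖ ≤ 1 := ContinuousLinearMap.norm_snd_le ℝ ℝ E
  have hd1 : ∀ (t : ℝ) (x : E), x ≠ 0 →
      fderiv ℝ (fun p : ℝ × E => f p.2) (t, x) = (fderiv ℝ f x).comp sn := by
    intro t x hx
    have h1 := ((hCd x hx).differentiableAt (by norm_num)).hasFDerivAt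
    exact (HasFDerivAt.comp (g := f) (f := fun p : ℝ × E => p.2) (t, x) h1
      sn.hasFDerivAt).fderiv
  let Q : (E →L[ℝ] F) →L[ℝ] (ℝ × E →L[ℝ] F) :=
    (ContinuousLinearMap.compL ℝ (ℝ × E) E F).flip sn
  have hQ : ∀ A, Q A = A.comp sn := fun A => rfl
  have hd2 : ∀ (t : ℝ) (x : E), x ≠ 0 →
      fderiv ℝ (fderiv ℝ (fun p : ℝ × E => f p.2)) (t, x) =
        (Q.comp (fderiv ℝ (fderiv ℝ f) x)).comp sn := by
    intro t x hx
    have h1 := (((hCd x hx).fderiv_right (m := 1) (by norm_num)).differentiableAt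
      (by norm_num)).hasFDerivAt
    have h2 : HasFDerivAt (fun p : ℝ × E => Q (fderiv ℝ f p.2))
        ((Q.comp (fderiv ℝ (fderiv ℝ f) x)).comp sn) (t, x) :=
      HasFDerivAt.comp (g := fun y => Q (fderiv ℝ f y)) (f := fun p : ℝ × E => p.2) (t, x)
        (Q.hasFDerivAt.comp x h1) sn.hasFDerivAt
    have h3 : fderiv ℝ (fun p : ℝ × E => f p.2) =ᶠ[𝓝 (t, x)]
        fun p : ℝ × E => Q (fderiv ℝ f p.2) := by
      have h4 : ∀ᶠ p : ℝ × E in 𝓝 (t, x), p.2 ≠ 0 :=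
        (continuous_snd.tendsto (t, x)).eventually (hop.mem_nhds hx)
      filter_upwards [h4] with p hp
      rw [hQ]
      exact hd1 p.1 p.2 hp
    rw [h3.fderiv_eq]
    exact h2.fderiv
  have hH : ContDiffOn ℝ 2 (fun p : ℝ × E => f p.2) ((univ : Set ℝ) ×ˢ {0}ᶜ) :=
    hC.comp contDiff_snd.contDiffOn fun p hp => hp.2
  have key := Pow_951.contDiffOn_of_flat (H := fun p : ℝ × E => f p.2) isOpen_univ hH
    (fun t _ => h0) (fun t _ => ⟨1, one_pos, κ, hκ, C, hC0, subset_univ _,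
      fun s _ x hx hx1 => by
        obtain ⟨b0, b1, b2⟩ := hb x hx hx1
        refine ⟨b0, ?_, ?_⟩
        · rw [hd1 s x hx]
          refine (ContinuousLinearMap.opNorm_comp_le _ _).trans ?_
          calc ‖fderiv ℝ f x‖ * ‖sn‖ ≤ ‖fderiv ℝ f x‖ * 1 :=
                mul_le_mul_of_nonneg_left hsn (norm_nonneg _)
            _ ≤ _ := by rw [mul_one]; exact b1
        · rw [hd2 s x hx]
          have hQn : ‖Q‖ ≤ 1 := by
            refine ContinuousLinearMap.opNorm_le_bound _ zero_le_one fun A => ?_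
            rw [hQ, one_mul]
            refine (ContinuousLinearMap.opNorm_comp_le _ _).trans ?_
            calc ‖A‖ * ‖sn‖ ≤ ‖A‖ * 1 := mul_le_mul_of_nonneg_left hsn (norm_nonneg _)
              _ = ‖A‖ := mul_one _
          refine (ContinuousLinearMap.opNorm_comp_le _ _).trans ?_
          have h5 := ContinuousLinearMap.opNorm_comp_le Q (fderiv ℝ (fderiv ℝ f) x)
          have h6 : ‖Q.comp (fderiv ℝ (fderiv ℝ f) x)‖ ≤ ‖fderiv ℝ (fderiv ℝ f) x‖ :=
            h5.trans (by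
              calc ‖Q‖ * ‖fderiv ℝ (fderiv ℝ f) x‖ ≤ 1 * ‖fderiv ℝ (fderiv ℝ f) x‖ :=
                    mul_le_mul_of_nonneg_right hQn (ContinuousLinearMap.opNorm_nonneg _)
                _ = _ := one_mul _)
          calc ‖Q.comp (fderiv ℝ (fderiv ℝ f) x)‖ * ‖sn‖ ≤
                ‖fderiv ℝ (fderiv ℝ f) x‖ * 1 :=
                mul_le_mul h6 hsn (norm_nonneg _) (ContinuousLinearMap.opNorm_nonneg _)
            _ ≤ _ := by rw [mul_one]; exact b2⟩)
  have h7 : ContDiffOn ℝ 2 (fun p : ℝ × E => f p.2) univ := by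
    rwa [univ_prod_univ] at key
  have h8 : ContDiff ℝ 2 fun x : E => ((0 : ℝ), x) := contDiff_const.prodMk contDiff_id
  exact (contDiffOn_univ.1 h7).comp h8

variable {ι : Type*} [Fintype ι]

/-- the dilations as linear maps -/
def actL (w : ι → ℝ) (s : ℝ) : (ι → ℂ) →L[ℝ] (ι → ℂ) :=
  ContinuousLinearMap.pi fun i => (Real.exp (s * w i)) • ContinuousLinearMap.proj i

theorem actL_apply (w : ι → ℝ) (s : ℝ) (x : ι → ℂ) : actL w s x = act w s x := by
  funext i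
  simp [actL, act]

theorem norm_actL {w : ι → ℝ} {m s : ℝ} (hw : ∀ i, w i ≤ m) (hs : 0 ≤ s) :
    ‖(actL w s : (ι → ℂ) →L[ℝ] (ι → ℂ))‖ ≤ Real.exp (s * m) := by
  refine ContinuousLinearMap.opNorm_le_bound _ (Real.exp_pos _).le fun x => ?_
  rw [actL_apply, pi_norm_le_iff_of_nonneg (by positivity)]
  intro i
  unfold act
  rw [norm_mul, Complex.norm_real, Real.norm_eq_abs, abs_of_pos (Real.exp_pos _)]
  refine mul_le_mul (Real.exp_le_exp.2 (mul_le_mul_of_nonneg_left (hw i) hs)) (norm_le_pi_norm x i)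
    (norm_nonneg _) (Real.exp_pos _).le

/-- normalisation for the sup norm -/
theorem exists_time {w : ι → ℝ} (hw : ∀ i, 0 < w i) {m : ℝ} (hwm : ∀ i, w i ≤ m)
    {x : ι → ℂ} (hx : x ≠ 0) (hx1 : ‖x‖ ≤ 1) :
    ∃ s : ℝ, 0 ≤ s ∧ ‖act w s x‖ = 1 ∧ Real.exp (-s) ≤ ‖x‖ ^ (1 / m) := by
  obtain ⟨i0, hi0⟩ : ∃ i, x i ≠ 0 := by
    by_contra hn
    push Not at hn
    exact hx (funext hn)
  -- candidate times
  let T : ι → ℝ := fun i => -Real.log ‖x i‖ / w i
  let A : Finset ι := Finset.univ.filter fun i => x i ≠ 0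
  have hA : A.Nonempty := ⟨i0, by simp [A, hi0]⟩
  obtain ⟨j, hjA, hj⟩ := A.exists_min_image T hA
  have hxj : x j ≠ 0 := by simpa [A] using hjA
  have hnj : 0 < ‖x j‖ := norm_pos_iff.2 hxj
  have hnj1 : ‖x j‖ ≤ 1 := (norm_le_pi_norm x j).trans hx1
  have hs0 : 0 ≤ T j := div_nonneg (by have := Real.log_nonpos hnj.le hnj1; linarith) (hw j).le
  have hcomp : ∀ i, x i ≠ 0 → ‖act w (T j) x i‖ ≤ 1 := by
    intro i hi
    have hni : 0 < ‖x i‖ := norm_pos_iff.2 hi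
    have h1 : T j ≤ T i := hj i (by simp [A, hi])
    unfold act
    rw [norm_mul, Complex.norm_real, Real.norm_eq_abs, abs_of_pos (Real.exp_pos _)]
    have h2 : T j * w i ≤ -Real.log ‖x i‖ := by
      have := mul_le_mul_of_nonneg_right h1 (hw i).le
      have h3 : T i * w i = -Real.log ‖x i‖ := by
        show -Real.log ‖x i‖ / w i * w i = _
        rw [div_mul_cancel₀ _ (hw i).ne']
      rwa [h3] at this
    calc Real.exp (T j * w i) * ‖x i‖ ≤ Real.exp (-Real.log ‖x i‖) * ‖x i‖ :=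
          mul_le_mul_of_nonneg_right (Real.exp_le_exp.2 h2) hni.le
      _ = 1 := by rw [Real.exp_neg, Real.exp_log hni, inv_mul_cancel₀ hni.ne']
  have hj1 : ‖act w (T j) x j‖ = 1 := by
    unfold act
    rw [norm_mul, Complex.norm_real, Real.norm_eq_abs, abs_of_pos (Real.exp_pos _)]
    have h3 : T j * w j = -Real.log ‖x j‖ := by
      show -Real.log ‖x j‖ / w j * w j = _
      rw [div_mul_cancel₀ _ (hw j).ne']
    rw [h3, Real.exp_neg, Real.exp_log hnj, inv_mul_cancel₀ hnj.ne']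
  refine ⟨T j, hs0, le_antisymm ?_ ?_, ?_⟩
  · rw [pi_norm_le_iff_of_nonneg zero_le_one]
    intro i
    by_cases hi : x i = 0
    · unfold act
      rw [hi, mul_zero, norm_zero]
      exact zero_le_one
    · exact hcomp i hi
  · rw [← hj1]
    exact norm_le_pi_norm _ j
  · have h1 : Real.exp (-(T j)) = ‖x j‖ ^ (1 / w j) := by
      rw [Real.rpow_def_of_pos hnj]
      congr 1
      show -(-Real.log ‖x j‖ / w j) = _
      rw [neg_div, neg_neg, div_eq_mul_one_div]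
    rw [h1]
    have hle : ‖x j‖ ≤ ‖x‖ := norm_le_pi_norm x j
    have hxp : 0 < ‖x‖ := norm_pos_iff.2 hx
    calc ‖x j‖ ^ (1 / w j) ≤ ‖x‖ ^ (1 / w j) :=
          Real.rpow_le_rpow hnj.le hle (by have := hw j; positivity)
      _ ≤ ‖x‖ ^ (1 / m) := Real.rpow_le_rpow_of_exponent_ge hxp hx1
          (one_div_le_one_div_of_le (hw j) (hwm j))

/-- **weighted homogeneous functions are `C²` at the origin** -/
theorem contDiff_of_wh {w : ι → ℝ} (hw : ∀ i, 0 < w i) {m : ℝ} (hwm : ∀ i, w i ≤ m)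
    (hm : m < 1 / 2) {f : (ι → ℂ) → F} (hC : ContDiffOn ℝ 2 f {0}ᶜ) (h0 : f 0 = 0)
    (hf : ∀ (s : ℝ) (x : ι → ℂ), f (act w s x) = Real.exp s • f x) : ContDiff ℝ 2 f := by
  rcases isEmpty_or_nonempty ι with hE | hE
  · have e : f = fun _ => f 0 := by
      funext x
      congr 1
      exact funext fun i => (hE.false i).elim
    rw [e]
    exact contDiff_const
  have hm0 : 0 < m := by
    obtain ⟨i⟩ := hE
    exact (hw i).trans_le (hwm i)
  have hop : IsOpen ({0}ᶜ : Set (ι → ℂ)) := isOpen_compl_singleton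
  have hCd : ∀ x : ι → ℂ, x ≠ 0 → ContDiffAt ℝ 2 f x := fun x hx =>
    (hC x hx).contDiffAt (hop.mem_nhds hx)
  have hCf : ∀ x : ι → ℂ, x ≠ 0 → ContDiffAt ℝ 1 (fderiv ℝ f) x := fun x hx =>
    (hCd x hx).fderiv_right (m := 1) (by norm_num)
  have hCg : ∀ x : ι → ℂ, x ≠ 0 → ContDiffAt ℝ 0 (fderiv ℝ (fderiv ℝ f)) x := fun x hx =>
    (hCf x hx).fderiv_right (m := 0) (by norm_num)
  have hS : IsCompact (sphere (0 : ι → ℂ) 1) := isCompact_sphere _ _
  have hS0 : ∀ u ∈ sphere (0 : ι → ℂ) 1, u ≠ 0 := by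
    rintro u hu rfl
    simp at hu
  obtain ⟨M0, hM0⟩ := hS.exists_bound_of_continuousOn (f := f)
    fun u hu => (hCd u (hS0 u hu)).continuousAt.continuousWithinAt
  obtain ⟨M1, hM1⟩ := hS.exists_bound_of_continuousOn (f := fderiv ℝ f)
    fun u hu => (hCf u (hS0 u hu)).continuousAt.continuousWithinAt
  obtain ⟨M2, hM2⟩ := hS.exists_bound_of_continuousOn (f := fderiv ℝ (fderiv ℝ f))
    fun u hu => (hCg u (hS0 u hu)).continuousAt.continuousWithinAt
  set M : ℝ := max 0 (max M0 (max M1 M2)) with hM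
  have b0 : M0 ≤ M := (le_max_left _ _).trans (le_max_right _ _)
  have b1 : M1 ≤ M := (le_max_left _ _).trans ((le_max_right _ _).trans (le_max_right _ _))
  have b2 : M2 ≤ M := (le_max_right _ _).trans ((le_max_right _ _).trans (le_max_right _ _))
  have hMn : 0 ≤ M := le_max_left _ _
  refine contDiff_of_flat hC h0 (κ := 1 / m - 2) (C := M) ?_ hMn fun x hx hx1 => ?_
  · have : 2 < 1 / m := by rw [lt_div_iff₀ hm0]; linarith
    linarith
  obtain ⟨s, hs0, hs1, hse⟩ := exists_time hw hwm hx hx1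
  have hxp : 0 < ‖x‖ := norm_pos_iff.2 hx
  set ρ : ℝ := Real.exp (-s) with hρ
  have hρ0 : 0 < ρ := Real.exp_pos _
  have hu : act w s x ∈ sphere (0 : ι → ℂ) 1 := by simpa using hs1
  have hfx : ∀ y, f y = ρ • f (actL w s y) := by
    intro y
    rw [actL_apply, hf, smul_smul, hρ, ← Real.exp_add, neg_add_cancel, Real.exp_zero, one_smul]
  have hda : ∀ y : ι → ℂ, y ≠ 0 → fderiv ℝ f y = ρ • (fderiv ℝ f (actL w s y)).comp (actL w s) := by
    intro y hy
    have hy' : actL w s y ≠ 0 := by rw [actL_apply]; exact act_ne_zero hy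
    have h1 := ((hCd _ hy').differentiableAt (by norm_num)).hasFDerivAt
    have h2 : HasFDerivAt (fun y => f (actL w s y)) ((fderiv ℝ f (actL w s y)).comp (actL w s)) y :=
      HasFDerivAt.comp (g := f) (f := actL w s) y h1 (actL w s).hasFDerivAt
    have h3 := h2.const_smul ρ
    have h4 : f = fun y => ρ • f (actL w s y) := funext hfx
    conv_lhs => rw [h4]
    exact h3.fderiv
  let Q : ((ι → ℂ) →L[ℝ] F) →L[ℝ] ((ι → ℂ) →L[ℝ] F) :=
    (ContinuousLinearMap.compL ℝ (ι → ℂ) (ι → ℂ) F).flip (actL w s)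
  have hQ : ∀ A, Q A = A.comp (actL w s) := fun A => rfl
  have hdb : fderiv ℝ (fderiv ℝ f) x =
      ρ • (Q.comp (fderiv ℝ (fderiv ℝ f) (actL w s x))).comp (actL w s) := by
    have hx' : actL w s x ≠ 0 := by rw [actL_apply]; exact act_ne_zero hx
    have h1 := ((hCf _ hx').differentiableAt (by norm_num)).hasFDerivAt
    have h2 : HasFDerivAt (fun y => Q (fderiv ℝ f (actL w s y)))
        ((Q.comp (fderiv ℝ (fderiv ℝ f) (actL w s x))).comp (actL w s)) x :=
      HasFDerivAt.comp (g := fun y => Q (fderiv ℝ f y)) (f := actL w s) x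
        (Q.hasFDerivAt.comp _ h1) (actL w s).hasFDerivAt
    have h3 := h2.const_smul ρ
    have h4 : fderiv ℝ f =ᶠ[𝓝 x] fun y => ρ • Q (fderiv ℝ f (actL w s y)) := by
      filter_upwards [hop.mem_nhds hx] with y hy
      rw [hQ]
      exact hda y hy
    rw [h4.fderiv_eq]
    exact h3.fderiv
  have hna : ‖(actL w s : (ι → ℂ) →L[ℝ] (ι → ℂ))‖ ≤ ρ ^ (-m) := by
    refine (norm_actL hwm hs0).trans (le_of_eq ?_)
    rw [hρ, ← Real.exp_mul]
    congr 1; ring
  have hrp : ∀ a : ℝ, 0 ≤ a → ρ ^ a ≤ ‖x‖ ^ (a / m) := by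
    intro a ha
    calc ρ ^ a ≤ (‖x‖ ^ (1 / m)) ^ a := Real.rpow_le_rpow hρ0.le hse ha
      _ = ‖x‖ ^ (a / m) := by rw [← Real.rpow_mul hxp.le]; congr 1; ring
  have hρm : 0 ≤ ρ ^ (-m) := Real.rpow_nonneg hρ0.le _
  refine ⟨?_, ?_, ?_⟩
  · rw [hfx x, norm_smul, Real.norm_of_nonneg hρ0.le, actL_apply]
    have h1 := (hM0 _ hu).trans b0
    have h2 := hrp 1 zero_le_one
    rw [Real.rpow_one] at h2
    have h3 : (1 : ℝ) / m = 2 + (1 / m - 2) := by ring
    rw [h3] at h2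
    calc ρ * ‖f (act w s x)‖ ≤ ‖x‖ ^ (2 + (1 / m - 2)) * M :=
          mul_le_mul h2 h1 (norm_nonneg _) (Real.rpow_nonneg hxp.le _)
      _ = _ := mul_comm _ _
  · rw [hda x hx, norm_smul, Real.norm_of_nonneg hρ0.le]
    have h1 : ‖(fderiv ℝ f (actL w s x)).comp (actL w s)‖ ≤ M * ρ ^ (-m) := by
      refine (ContinuousLinearMap.opNorm_comp_le _ _).trans ?_
      rw [actL_apply]
      exact mul_le_mul ((hM1 _ hu).trans b1) hna (norm_nonneg _) hMn
    have h2 := hrp (1 - m) (by linarith)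
    have h3 : (1 - m) / m = 1 + (1 / m - 2) := by field_simp; ring
    rw [h3] at h2
    calc ρ * ‖(fderiv ℝ f (actL w s x)).comp (actL w s)‖ ≤ ρ * (M * ρ ^ (-m)) :=
          mul_le_mul_of_nonneg_left h1 hρ0.le
      _ = M * (ρ ^ (1 : ℝ) * ρ ^ (-m)) := by rw [Real.rpow_one]; ring
      _ = M * ρ ^ (1 - m) := by rw [← Real.rpow_add hρ0]; rfl
      _ ≤ _ := mul_le_mul_of_nonneg_left h2 hMn
  · rw [hdb]
    refine (ContinuousLinearMap.opNorm_smul_le _ _).trans ?_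
    rw [Real.norm_of_nonneg hρ0.le]
    have hQn : ‖Q‖ ≤ ρ ^ (-m) := by
      refine ContinuousLinearMap.opNorm_le_bound _ hρm fun A => ?_
      rw [hQ, mul_comm]
      exact (ContinuousLinearMap.opNorm_comp_le _ _).trans
        (mul_le_mul_of_nonneg_left hna (norm_nonneg _))
    have h1 : ‖(Q.comp (fderiv ℝ (fderiv ℝ f) (actL w s x))).comp (actL w s)‖ ≤
        (ρ ^ (-m) * M) * ρ ^ (-m) := by
      refine (ContinuousLinearMap.opNorm_comp_le _ _).trans ?_
      refine mul_le_mul ?_ hna (norm_nonneg _) (by positivity)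
      refine (ContinuousLinearMap.opNorm_comp_le _ _).trans ?_
      rw [actL_apply]
      exact mul_le_mul hQn ((hM2 _ hu).trans b2) (norm_nonneg _) hρm
    have h2 := hrp (1 - 2 * m) (by linarith)
    have h3 : (1 - 2 * m) / m = 1 / m - 2 := by field_simp
    rw [h3] at h2
    calc ρ * ‖(Q.comp (fderiv ℝ (fderiv ℝ f) (actL w s x))).comp (actL w s)‖ ≤
          ρ * ((ρ ^ (-m) * M) * ρ ^ (-m)) := mul_le_mul_of_nonneg_left h1 hρ0.le
      _ = M * (ρ ^ (1 : ℝ) * ρ ^ (-m) * ρ ^ (-m)) := by rw [Real.rpow_one]; ring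
      _ = M * ρ ^ (1 - 2 * m) := by
          rw [← Real.rpow_add hρ0, ← Real.rpow_add hρ0]; congr 2; ring
      _ ≤ _ := mul_le_mul_of_nonneg_left h2 hMn

end Crest.Agent.R267.WHom_920
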