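import Crest.Agent.R267.GenPos_88

/-!
The wedge lemma: a map of the unit sphere of `V` into `E` minus a finite set `Q` extends over the
ball as soon as it extends missing each single point of `Q`  (`dim V < 2 dim E - 2`).
-/

set_option autoImplicit false
set_option linter.unusedSectionVars false
open Topology Filter Set Module

namespace Crest.Agent.R267.Wedge_88

open BallExt_88 GenPos_88

variable {V E : Type*} [NormedAddCommGroup V] [NormedSpace ℝ V] [FiniteDimensional ℝ V]
  [NormedAddCommGroup E] [NormedSpace ℝ E] [FiniteDimensional ℝ E]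

/-- projection along `e` onto the kernel of `l` -/
noncomputable def proj (l : E →ₗ[ℝ] ℝ) (e : E) (he : l e = 1) : E →ₗ[ℝ] LinearMap.ker l where
  toFun y := ⟨y - l y • e, by simp [he]⟩
  map_add' x y := by ext; simp only [map_add, Submodule.coe_add]; module
  map_smul' a x := by
    ext; simp only [map_smul, smul_eq_mul, RingHom.id_apply, Submodule.coe_smul]; module

theorem proj_coe (l : E →ₗ[ℝ] ℝ) (e : E) (he : l e = 1) (y : E) :
    ((proj l e he y : LinearMap.ker l) : E) = y - l y • e := rfl

theorem proj_add_smul (l : E →ₗ[ℝ] ℝ) (e : E) (he : l e = 1) (y : E) (t : ℝ) :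
    proj l e he (y + t • e) = proj l e he y := by
  ext
  rw [proj_coe, proj_coe, map_add, map_smul, he, smul_eq_mul, mul_one]
  module

theorem proj_ker (l : E →ₗ[ℝ] ℝ) (e : E) (he : l e = 1) (y : LinearMap.ker l) :
    proj l e he (y : E) = y := by
  ext
  rw [proj_coe, LinearMap.mem_ker.1 y.2]; simp

theorem eq_of_proj_eq (l : E →ₗ[ℝ] ℝ) (e : E) (he : l e = 1) {y z : E}
    (h : proj l e he y = proj l e he z) : y = z + (l y - l z) • e := by
  have := congrArg (Subtype.val) h
  rw [proj_coe, proj_coe] at this
  have h2 : y = (z - l z • e) + l y • e := by rw [← this]; module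
  rw [h2]; 
  have : l (z - l z • e + l y • e) = l y := by simp [he]
  rw [this]; module

theorem finrank_ker (l : E →ₗ[ℝ] ℝ) (e : E) (he : l e = 1) :
    finrank ℝ (LinearMap.ker l) + 1 = finrank ℝ E := by
  have hs : Function.Surjective l := by
    intro t; exact ⟨t • e, by simp [he]⟩
  have h1 := LinearMap.finrank_range_add_finrank_ker l
  rw [LinearMap.range_eq_top.2 hs, finrank_top, finrank_self] at h1
  omega

/-- Core of the wedge lemma: two maps `A, B` which agree on the sphere, `A` misses the finite set
`Q'` in `{l < c}`, `B` misses `q` with `c < l q`. -/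
theorem wedge_core (hd : finrank ℝ V + 2 < 2 * finrank ℝ E)
    (l : E →ₗ[ℝ] ℝ) (e : E) (he : l e = 1) (c : ℝ) (Q' : Set E) (hQ'fin : Q'.Finite)
    (hQ' : ∀ p ∈ Q', l p < c) (q : E) (hq : c < l q)
    {A B : V → E} (hA : Continuous A) (hB : Continuous B)
    (hAQ : ∀ x, A x ∉ Q') (hBq : ∀ x, B x ≠ q) (hAB : ∀ x, ‖x‖ = 1 → A x = B x) :
    BallExt A (insert q Q') := by
  classical
  have hl : Continuous l := l.continuous_of_finiteDimensional
  let π := proj l e he
  have hπ : Continuous π := π.continuous_of_finiteDimensional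
  -- the rays
  let R' : Set E := ⋃ p ∈ Q', {y | π y = π p ∧ l y ≤ l p}
  let Rq : Set E := {y | π y = π q ∧ l q ≤ l y}
  have hR'c : IsClosed R' := by
    refine hQ'fin.isClosed_biUnion fun p _ => ?_
    exact (isClosed_eq hπ continuous_const).inter (isClosed_le hl continuous_const)
  have hRqc : IsClosed Rq :=
    (isClosed_eq hπ continuous_const).inter (isClosed_le continuous_const hl)
  have memR' : ∀ y, y ∈ R' ↔ ∃ p ∈ Q', π y = π p ∧ l y ≤ l p := by
    intro y; simp only [R', mem_iUnion, mem_ofPred_eq, exists_prop]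
  -- replace `A, B` by the versions which are radial near the sphere
  let A1 : V → E := fun x => A (retr ((2:ℝ) • x))
  let B1 : V → E := fun x => B (retr ((2:ℝ) • x))
  have hr2 : Continuous (fun x : V => retr ((2:ℝ) • x)) :=
    continuous_retr.comp (continuous_const_smul _)
  have hA1 : Continuous A1 := hA.comp hr2
  have hB1 : Continuous B1 := hB.comp hr2
  -- margins
  have hO0 : IsOpen {z : E × E | z.1 ∉ Q' ∧ z.2 ≠ q} := by
    refine IsOpen.inter ?_ ?_
    · exact hQ'fin.isClosed.isOpen_compl.preimage continuous_fst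
    · exact isOpen_ne.preimage continuous_snd
  have hO1 : IsOpen {z : E × E | ¬ (z.1 ∈ R' ∧ z.2 ∈ Rq)} := by
    have : IsClosed {z : E × E | z.1 ∈ R' ∧ z.2 ∈ Rq} :=
      (hR'c.preimage continuous_fst).inter (hRqc.preimage continuous_snd)
    exact this.isOpen_compl
  have hABc : Continuous (fun x => (A x, B x)) := hA.prodMk hB
  obtain ⟨δ0, hδ0, hsub0⟩ :=
    ((isCompact_closedBall (0:V) 1).image hABc).exists_thickening_subset_open hO0
    (by rintro _ ⟨x, hx, rfl⟩; exact ⟨hAQ x, hBq x⟩)
  obtain ⟨δ1, hδ1, hsub1⟩ :=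
    ((isCompact_sphere (0:V) 1).image hABc).exists_thickening_subset_open hO1
    (by
      rintro _ ⟨x, hx, rfl⟩ ⟨h1, h2⟩
      have hx1 : ‖x‖ = 1 := by simpa using hx
      simp only at h1 h2
      rw [memR'] at h1
      obtain ⟨p, hp, -, hlp⟩ := h1
      have h3 := h2.2
      rw [← hAB x hx1] at h3
      have := hQ' p hp
      linarith)
  -- perturbation in `ker l × ker l`
  let F : V → LinearMap.ker l × LinearMap.ker l := fun x => (π (A1 x), π (B1 x))
  have hF : Continuous F := (hπ.comp hA1).prodMk (hπ.comp hB1)
  have hdim : finrank ℝ V < finrank ℝ (LinearMap.ker l × LinearMap.ker l) := by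
    rw [Module.finrank_prod]
    have := finrank_ker l e he
    omega
  obtain ⟨G, hG, hGF, hGT⟩ := exists_perturb hdim hF ((fun p => (π p, π q)) '' Q')
    (hQ'fin.image _).countable (lt_min hδ0 hδ1)
  let χ : V → ℝ := fun x => clamp (2 - 2 * ‖x‖)
  have hχ : Continuous χ := continuous_clamp.comp (by fun_prop)
  let A2 : V → E := fun x => A1 x + χ x • (((G x).1 - π (A1 x) : LinearMap.ker l) : E)
  let B2 : V → E := fun x => B1 x + χ x • (((G x).2 - π (B1 x) : LinearMap.ker l) : E)
  have hA2 : Continuous A2 := hA1.add (hχ.smul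
    (continuous_subtype_val.comp ((continuous_fst.comp hG).sub (hπ.comp hA1))))
  have hB2 : Continuous B2 := hB1.add (hχ.smul
    (continuous_subtype_val.comp ((continuous_snd.comp hG).sub (hπ.comp hB1))))
  -- closeness
  have hclose : ∀ x, dist (A2 x, B2 x) (A1 x, B1 x) < min δ0 δ1 := by
    intro x
    have hχ0 : 0 ≤ χ x := clamp_nonneg _
    have hχ1 : χ x ≤ 1 := clamp_le_one _
    have h1 : ‖(G x).1 - π (A1 x)‖ < min δ0 δ1 := lt_of_le_of_lt (norm_fst_le (G x - F x)) (hGF x)
    have h2 : ‖(G x).2 - π (B1 x)‖ < min δ0 δ1 := lt_of_le_of_lt (norm_snd_le (G x - F x)) (hGF x)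
    rw [Prod.dist_eq, dist_eq_norm, dist_eq_norm]
    refine max_lt ?_ ?_
    · have : A2 x - A1 x = χ x • (((G x).1 - π (A1 x) : LinearMap.ker l) : E) := by
        simp only [A2, add_sub_cancel_left]
      simp only [this, norm_smul, Real.norm_of_nonneg hχ0]
      refine lt_of_le_of_lt ?_ h1
      exact mul_le_of_le_one_left (norm_nonneg _) hχ1
    · have : B2 x - B1 x = χ x • (((G x).2 - π (B1 x) : LinearMap.ker l) : E) := by
        simp only [B2, add_sub_cancel_left]
      simp only [this, norm_smul, Real.norm_of_nonneg hχ0]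
      refine lt_of_le_of_lt ?_ h2
      exact mul_le_of_le_one_left (norm_nonneg _) hχ1
  have hgood0 : ∀ x, A2 x ∉ Q' ∧ B2 x ≠ q := by
    intro x
    have : (A2 x, B2 x) ∈ Metric.thickening δ0 ((fun x => (A x, B x)) '' Metric.closedBall (0:V) 1) := by
      rw [Metric.mem_thickening_iff]
      refine ⟨(A1 x, B1 x), ⟨retr ((2:ℝ) • x), ?_, rfl⟩, (hclose x).trans_le (min_le_left _ _)⟩
      simpa using norm_retr_le _
    exact hsub0 this
  have hgood1 : ∀ x, ¬ (A2 x ∈ R' ∧ B2 x ∈ Rq) := by
    intro x
    by_cases hx : 1/2 ≤ ‖x‖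
    · have : (A2 x, B2 x) ∈ Metric.thickening δ1 ((fun x => (A x, B x)) '' Metric.sphere (0:V) 1) := by
        rw [Metric.mem_thickening_iff]
        refine ⟨(A1 x, B1 x), ⟨retr ((2:ℝ) • x), ?_, rfl⟩, (hclose x).trans_le (min_le_right _ _)⟩
        simpa using norm_retr_two_smul hx
      exact hsub1 this
    · push Not at hx
      have hχx : χ x = 1 := clamp_of_one_le (by linarith)
      rintro ⟨h1, h2⟩
      have hA2x : A2 x = A1 x + (((G x).1 - π (A1 x) : LinearMap.ker l) : E) := by
        simp only [A2, hχx, one_smul]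
      have hB2x : B2 x = B1 x + (((G x).2 - π (B1 x) : LinearMap.ker l) : E) := by
        simp only [B2, hχx, one_smul]
      have hpA : π (A2 x) = (G x).1 := by
        rw [hA2x, map_add]
        show π (A1 x) + proj l e he _ = _
        rw [proj_ker]; abel
      have hpB : π (B2 x) = (G x).2 := by
        rw [hB2x, map_add]
        show π (B1 x) + proj l e he _ = _
        rw [proj_ker]; abel
      rw [memR'] at h1
      obtain ⟨p, hp, hp1, -⟩ := h1
      apply hGT x
      refine ⟨p, hp, ?_⟩
      ext1
      · show π p = (G x).1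
        rw [← hpA, hp1]
      · show π q = (G x).2
        rw [← hpB, h2.1]
  -- push into the half spaces
  let A3 : V → E := fun x => A2 x - max (l (A2 x) - c) 0 • e
  let B3 : V → E := fun x => B2 x + max (c - l (B2 x)) 0 • e
  have hA3 : Continuous A3 := hA2.sub (Continuous.smul
    (((hl.comp hA2).sub continuous_const).max continuous_const) continuous_const)
  have hB3 : Continuous B3 := hB2.add (Continuous.smul
    ((continuous_const.sub (hl.comp hB2)).max continuous_const) continuous_const)
  have lA3 : ∀ x, l (A3 x) = min (l (A2 x)) c := by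
    intro x
    simp only [A3, map_sub, map_smul, he, smul_eq_mul, mul_one]
    rcases le_total (l (A2 x)) c with h | h
    · rw [max_eq_right (by linarith), min_eq_left h]; ring
    · rw [max_eq_left (by linarith), min_eq_right h]; ring
  have lB3 : ∀ x, l (B3 x) = max (l (B2 x)) c := by
    intro x
    simp only [B3, map_add, map_smul, he, smul_eq_mul, mul_one]
    rcases le_total (l (B2 x)) c with h | h
    · rw [max_eq_left (by linarith), max_eq_right h]; ring
    · rw [max_eq_right (by linarith), max_eq_left h]; ring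
  have A3eq : ∀ x, l (A2 x) ≤ c → A3 x = A2 x := by
    intro x h
    simp only [A3]; rw [max_eq_right (by linarith)]; simp
  have B3eq : ∀ x, c ≤ l (B2 x) → B3 x = B2 x := by
    intro x h
    simp only [B3]; rw [max_eq_right (by linarith)]; simp
  have hA3Q : ∀ x, A3 x ∉ Q' := by
    intro x hx
    rcases le_total (l (A2 x)) c with h | h
    · rw [A3eq x h] at hx; exact (hgood0 x).1 hx
    · have h1 := hQ' _ hx
      rw [lA3, min_eq_right h] at h1
      exact lt_irrefl _ h1
  have hB3q : ∀ x, B3 x ≠ q := by
    intro x hx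
    rcases le_total (l (B2 x)) c with h | h
    · have h1 := lB3 x
      rw [hx, max_eq_right h] at h1
      linarith
    · rw [B3eq x h] at hx; exact (hgood0 x).2 hx
  have hA3R : ∀ x, A3 x ∈ R' → A2 x ∈ R' := by
    intro x hx
    rcases le_total (l (A2 x)) c with h | h
    · rwa [A3eq x h] at hx
    · rw [memR'] at hx
      obtain ⟨p, hp, -, h2⟩ := hx
      rw [lA3, min_eq_right h] at h2
      have := hQ' p hp; linarith
  have hB3R : ∀ x, B3 x ∈ Rq → B2 x ∈ Rq := by
    intro x hx
    rcases le_total (l (B2 x)) c with h | h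
    · have h2 := hx.2
      rw [lB3, max_eq_right h] at h2
      linarith
    · rwa [B3eq x h] at hx
  have hdisj : Disjoint (A3 ⁻¹' R') (B3 ⁻¹' Rq) := by
    rw [Set.disjoint_left]
    intro x h1 h2
    exact hgood1 x ⟨hA3R x h1, hB3R x h2⟩
  obtain ⟨u, hu0, hu1, -⟩ := exists_continuous_zero_one_of_isClosed (hR'c.preimage hA3)
    (hRqc.preimage hB3) hdisj
  -- points pushed to the wall
  let As : V → E := fun x => A3 x + (c - l (A3 x)) • e
  let Bs : V → E := fun x => B3 x + (c - l (B3 x)) • e
  have hAs : Continuous As := hA3.add ((continuous_const.sub (hl.comp hA3)).smul continuous_const)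
  have hBs : Continuous Bs := hB3.add ((continuous_const.sub (hl.comp hB3)).smul continuous_const)
  have lAs : ∀ x, l (As x) = c := by intro x; simp [As, he]
  have lBs : ∀ x, l (Bs x) = c := by intro x; simp [Bs, he]
  let α : V → ℝ := fun x => clamp (3 * u x)
  let β : V → ℝ := fun x => clamp (3 * u x - 1)
  let γ : V → ℝ := fun x => clamp (3 * u x - 2)
  have hα : Continuous α := continuous_clamp.comp (by fun_prop)
  have hβ : Continuous β := continuous_clamp.comp (by fun_prop)
  have hγ : Continuous γ := continuous_clamp.comp (by fun_prop)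
  let C : V → E := fun x => A3 x + α x • (As x - A3 x) + β x • (Bs x - As x) + γ x • (B3 x - Bs x)
  have hC : Continuous C := ((hA3.add (hα.smul (hAs.sub hA3))).add (hβ.smul (hBs.sub hAs))).add
    (hγ.smul (hB3.sub hBs))
  have lA3c : ∀ x, l (A3 x) ≤ c := fun x => by rw [lA3]; exact min_le_right _ _
  have lB3c : ∀ x, c ≤ l (B3 x) := fun x => by rw [lB3]; exact le_max_right _ _
  -- key facts: moving along the ray
  have key1 : ∀ x, ∀ t ∈ Icc (0:ℝ) 1, (t = 0 ∨ A3 x ∉ R') → A3 x + t • (As x - A3 x) ∉ insert q Q' := by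
    intro x t ht h
    have e1 : A3 x + t • (As x - A3 x) = A3 x + (t * (c - l (A3 x))) • e := by
      simp only [As]; module
    have e2 : l (A3 x + t • (As x - A3 x)) = l (A3 x) + t * (c - l (A3 x)) := by
      rw [e1]; simp [he]
    have h3 : 0 ≤ c - l (A3 x) := by linarith [lA3c x]
    have h4 : l (A3 x + t • (As x - A3 x)) ≤ c := by
      rw [e2]; nlinarith [ht.1, ht.2]
    rw [mem_insert_iff]
    rintro (h5 | h5)
    · rw [h5] at h4; linarith
    · rcases h with h | h
      · rw [h] at h5; simp only [zero_smul, add_zero] at h5; exact hA3Q x h5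
      · apply h
        rw [memR']
        refine ⟨_, h5, ?_, ?_⟩
        · rw [e1]; exact (proj_add_smul l e he _ _).symm
        · rw [e2]; nlinarith [ht.1]
  have key2 : ∀ x, ∀ t ∈ Icc (0:ℝ) 1, (t = 1 ∨ B3 x ∉ Rq) → Bs x + t • (B3 x - Bs x) ∉ insert q Q' := by
    intro x t ht h
    have e1 : Bs x + t • (B3 x - Bs x) = B3 x + ((1 - t) * (c - l (B3 x))) • e := by
      simp only [Bs]; module
    have e2 : l (Bs x + t • (B3 x - Bs x)) = l (B3 x) + (1 - t) * (c - l (B3 x)) := by
      rw [e1]; simp [he]
    have h3 : c - l (B3 x) ≤ 0 := by linarith [lB3c x]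
    have h4 : c ≤ l (Bs x + t • (B3 x - Bs x)) := by
      rw [e2]; nlinarith [ht.1, ht.2]
    rw [mem_insert_iff]
    rintro (h5 | h5)
    · rcases h with h | h
      · rw [h] at h5
        have : Bs x + (1:ℝ) • (B3 x - Bs x) = B3 x := by module
        rw [this] at h5; exact hB3q x h5
      · apply h
        refine ⟨?_, ?_⟩
        · rw [← h5, e1]; exact (proj_add_smul l e he _ _).symm
        · rw [← h5, e2]; nlinarith [ht.2]
    · have := hQ' _ h5; linarith
  have hwall : ∀ y, l y = c → y ∉ insert q Q' := by
    intro y hy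
    rw [mem_insert_iff]
    rintro (h5 | h5)
    · rw [h5] at hy; linarith
    · have := hQ' _ h5; linarith
  have hCcase : ∀ x, C x ∉ insert q Q' := by
    intro x
    rcases le_total (u x) (1/3) with h | h
    · have hb : β x = 0 := clamp_of_nonpos (by linarith)
      have hc : γ x = 0 := clamp_of_nonpos (by linarith)
      have : C x = A3 x + α x • (As x - A3 x) := by simp only [C, hb, hc]; module
      rw [this]
      apply key1 x _ (clamp_mem _)
      by_cases hx : A3 x ∈ R'
      · left
        have : u x = 0 := hu0 hx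
        show clamp (3 * u x) = 0
        rw [this]; exact clamp_of_nonpos (by norm_num)
      · right; exact hx
    · rcases le_total (u x) (2/3) with h' | h'
      · have ha : α x = 1 := clamp_of_one_le (by linarith)
        have hc : γ x = 0 := clamp_of_nonpos (by linarith)
        apply hwall
        have : C x = As x + β x • (Bs x - As x) := by simp only [C, ha, hc]; module
        rw [this, map_add, map_smul, map_sub, lAs, lBs]; simp
      · have ha : α x = 1 := clamp_of_one_le (by linarith)
        have hb : β x = 1 := clamp_of_one_le (by linarith)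
        have : C x = Bs x + γ x • (B3 x - Bs x) := by simp only [C, ha, hb]; module
        rw [this]
        apply key2 x _ (clamp_mem _)
        by_cases hx : B3 x ∈ Rq
        · left
          have : u x = 1 := hu1 hx
          show clamp (3 * u x - 2) = 1
          rw [this]; exact clamp_of_one_le (by norm_num)
        · right; exact hx
  -- on the sphere
  refine ballExt_of_segment hA hC (fun x _ => hCcase x) ?_
  intro x hx t ht
  have hχx : χ x = 0 := clamp_of_nonpos (by rw [hx]; norm_num)
  have hA2x : A2 x = A x := by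
    simp only [A2, A1, hχx, zero_smul, add_zero, retr_two_smul_of_norm_eq hx]
  have hB2x : B2 x = A x := by
    simp only [B2, B1, hχx, zero_smul, add_zero, retr_two_smul_of_norm_eq hx, hAB x hx]
  rcases le_total (l (A x)) c with h | h
  · have a3 : A3 x = A x := by rw [A3eq x (by rw [hA2x]; exact h), hA2x]
    have b3 : B3 x = As x := by
      simp only [B3, As, a3, hB2x]
      rw [max_eq_left (by linarith)]
    have bs : Bs x = As x := by
      have hb3l : l (B3 x) = c := by rw [b3, lAs]
      show B3 x + (c - l (B3 x)) • e = As x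
      rw [hb3l, b3]; simp
    have hCx : C x = A3 x + α x • (As x - A3 x) := by
      simp only [C, b3, bs]; module
    have : AffineMap.lineMap (C x) (A x) t = A3 x + ((1 - t) * α x) • (As x - A3 x) := by
      rw [AffineMap.lineMap_apply_module', hCx, a3]; module
    rw [this]
    have hα0 := clamp_nonneg (3 * u x)
    have hα1 := clamp_le_one (3 * u x)
    apply key1
    · constructor
      · exact mul_nonneg (by linarith [ht.2]) hα0
      · exact mul_le_one₀ (by linarith [ht.1]) hα0 hα1
    · by_cases hx' : A3 x ∈ R'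
      · left
        have : u x = 0 := hu0 hx'
        have h0 : α x = 0 := by
          show clamp (3 * u x) = 0
          rw [this]; exact clamp_of_nonpos (by norm_num)
        rw [h0]; ring
      · right; exact hx'
  · have b3 : B3 x = A x := by rw [B3eq x (by rw [hB2x]; exact h), hB2x]
    have bs : A3 x = Bs x := by
      simp only [A3, Bs, b3, hA2x]
      rw [max_eq_left (by linarith)]; module
    have as : As x = Bs x := by
      have hb3l : l (A3 x) = c := by rw [bs, lBs]
      show A3 x + (c - l (A3 x)) • e = Bs x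
      rw [hb3l, bs]; simp
    have hCx : C x = Bs x + γ x • (B3 x - Bs x) := by
      simp only [C, bs, as]; module
    have : AffineMap.lineMap (C x) (A x) t = Bs x + (γ x + t * (1 - γ x)) • (B3 x - Bs x) := by
      rw [AffineMap.lineMap_apply_module', hCx, b3]; module
    rw [this]
    have hγ0 : 0 ≤ γ x := clamp_nonneg (3 * u x - 2)
    have hγ1 : γ x ≤ 1 := clamp_le_one (3 * u x - 2)
    apply key2
    · constructor
      · have := mul_nonneg ht.1 (by linarith : 0 ≤ 1 - γ x); linarith
      · have := mul_le_mul ht.2 (le_refl (1 - γ x)) (by linarith) zero_le_one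
        linarith
    · by_cases hx' : B3 x ∈ Rq
      · left
        have : u x = 1 := hu1 hx'
        have h0 : γ x = 1 := by
          show clamp (3 * u x - 2) = 1
          rw [this]; exact clamp_of_one_le (by norm_num)
        rw [h0]; ring
      · right; exact hx'

/-- **Wedge lemma.** -/
theorem wedge (hd : finrank ℝ V + 2 < 2 * finrank ℝ E) (Q : Set E) (hQ : Q.Finite) {h : V → E}
    (hext : ∀ q ∈ Q, BallExt h {q}) (hh : Continuous h) : BallExt h Q := by
  classical
  -- a linear form injective on `Q`
  obtain ⟨l, hl⟩ : ∃ l : E →ₗ[ℝ] ℝ, ∀ i : {z : Q × Q // z.1 ≠ z.2},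
      l ((i.1.1 : E) - (i.1.2 : E)) ≠ 0 := by
    have : Finite Q := hQ
    exact Module.exists_dual_forall_apply_ne_zero (K := ℝ)
      (fun i : {z : Q × Q // z.1 ≠ z.2} => ((i.1.1 : E) - (i.1.2 : E)))
      (fun i => sub_ne_zero.2 (fun h => i.2 (Subtype.ext h)))
  have hinj : ∀ a ∈ Q, ∀ b ∈ Q, a ≠ b → l a ≠ l b := by
    intro a ha b hb hab heq
    apply hl ⟨(⟨a, ha⟩, ⟨b, hb⟩), fun h => hab (congrArg Subtype.val h)⟩
    simp [heq]
  by_cases hnt : ∃ a ∈ Q, ∃ b ∈ Q, a ≠ b
  · obtain ⟨a, ha, b, hb, hab⟩ := hnt
    -- `l ≠ 0`: choose `e`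
    obtain ⟨e, he⟩ : ∃ e : E, l e = 1 := by
      have h0 : l (a - b) ≠ 0 := by
        rw [map_sub, sub_ne_zero]; exact hinj a ha b hb hab
      exact ⟨(l (a - b))⁻¹ • (a - b), by rw [map_smul, smul_eq_mul, inv_mul_cancel₀ h0]⟩
    -- induction on subsets
    have main : ∀ s : Finset E, (∀ x ∈ s, x ∈ Q) → BallExt h (s : Set E) := by
      intro s
      induction s using Finset.induction_on_max_value (f := l) with
      | empty => intro _; exact ⟨h, hh, by simp, fun _ _ => rfl⟩
      | insert q s hqs hmax ih =>
        intro hsub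
        obtain ⟨A, hA, hAs, hAh⟩ := ih (fun x hx => hsub x (Finset.mem_insert_of_mem hx))
        have hqQ : q ∈ Q := hsub q (Finset.mem_insert_self _ _)
        obtain ⟨B, hB, hBq, hBh⟩ := hext q hqQ
        -- level c
        obtain ⟨c, hc1, hc2⟩ : ∃ c : ℝ, (∀ p ∈ s, l p < c) ∧ c < l q := by
          have hlt : ∀ p ∈ s, l p < l q := by
            intro p hp
            refine lt_of_le_of_ne (hmax p hp) ?_
            apply hinj p (hsub p (Finset.mem_insert_of_mem hp)) q hqQ
            rintro rfl; exact hqs hp
          by_cases hs : s.Nonempty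
          · obtain ⟨p0, hp0, hp0'⟩ := s.exists_max_image l hs
            refine ⟨(l p0 + l q) / 2, fun p hp => ?_, ?_⟩
            · have := hp0' p hp; have := hlt p0 hp0; linarith
            · have := hlt p0 hp0; linarith
          · rw [Finset.not_nonempty_iff_eq_empty] at hs
            subst hs
            exact ⟨l q - 1, by simp, by linarith⟩
        have := wedge_core hd l e he c (s : Set E) s.finite_toSet (by simpa using hc1) q hc2 hA hB
          hAs (by simpa using hBq) (fun x hx => (hAh x hx).trans (hBh x hx).symm)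
        rw [Finset.coe_insert]
        exact this.congr hAh
    have := main hQ.toFinset (by simp)
    simpa using this
  · -- at most one point
    push Not at hnt
    rcases Q.eq_empty_or_nonempty with rfl | ⟨a, ha⟩
    · exact ⟨h, hh, by simp, fun _ _ => rfl⟩
    · exact (hext a ha).mono (fun b hb => (hnt b hb a ha) ▸ rfl)

end Crest.Agent.R267.Wedge_88
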