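import Crest.Agent.R267.WordPh_9

/-!
# Row 267 (helper9): supports and derivatives of the word phases `wph` and of the windows `wn`

Every real `x` is `y + 2 π k` with `α 0 ≤ y < α 0 + 2 π` (`exists_dom`), and `y` lies in a lobe
`[α i, β i]` or in a gap `[β i, α (i + 1)]`, `i ≤ M` (`exists_piece`).
-/

set_option autoImplicit false

noncomputable section

open Finset Set Filter Topology
open Crest.Agent.R267.T3aDefs_957 (st)
open Crest.Agent.R267.Calc_957
open Crest.Agent.R267.Ang_739 (cis)
open Crest.Agent.R267.GlNDefs_9 Crest.Agent.R267.WordPh_9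

namespace Crest.Agent.R267.WordPh2_9

variable {M : ℕ} {α β : ℕ → ℝ} {e : ℕ → ℝ}

/-! ### pieces -/

theorem exists_dom (c x : ℝ) : ∃ (k : ℤ) (y : ℝ), c ≤ y ∧ y < c + 2 * Real.pi ∧
    x = y + 2 * Real.pi * k := by
  have hp := two_pi_pos'
  refine ⟨⌊(x - c) / (2 * Real.pi)⌋, x - 2 * Real.pi * ⌊(x - c) / (2 * Real.pi)⌋, ?_, ?_, by ring⟩
  · have := Int.floor_le ((x - c) / (2 * Real.pi))
    rw [le_div_iff₀ hp] at this
    linarith
  · have := Int.lt_floor_add_one ((x - c) / (2 * Real.pi))
    rw [div_lt_iff₀ hp] at this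
    linarith

/-- pieces of the fundamental domain -/
theorem exists_piece (h : Arcs M α β) {y : ℝ} (h1 : α 0 ≤ y) (h2 : y < α 0 + 2 * Real.pi) :
    ∃ i ≤ M, α i ≤ y ∧ y < α (i + 1) := by
  have key : ∀ n ≤ M + 1, y < α n → ∃ i ≤ M, α i ≤ y ∧ y < α (i + 1) := by
    intro n
    induction n with
    | zero => intro _ hy; exact absurd hy (not_lt.2 h1)
    | succ n ih =>
      intro hn hy
      rcases lt_or_ge y (α n) with h3 | h3
      · exact ih (by omega) h3
      · exact ⟨n, by omega, h3, hy⟩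
  exact key (M + 1) le_rfl (by rw [h.last]; exact h2)

/-! ### integer periods -/

theorem ps_add_int (a b x : ℝ) (k : ℤ) : ps a b (x + 2 * Real.pi * k) = ps a b x + k := by
  induction k using Int.induction_on with
  | zero => simp
  | succ k ih =>
    have : x + 2 * Real.pi * ((k : ℤ) + 1 : ℤ) = x + 2 * Real.pi * (k : ℤ) + 2 * Real.pi := by
      push_cast; ring
    rw [this, ps_add, ih]
    push_cast; ring
  | pred k ih =>
    have h1 : x + 2 * Real.pi * (-(k : ℤ) : ℤ) =
        x + 2 * Real.pi * ((-(k : ℤ) - 1 : ℤ)) + 2 * Real.pi := by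
      push_cast; ring
    rw [h1, ps_add] at ih
    push_cast at ih ⊢
    linarith

theorem wn_add_int (α β : ℕ → ℝ) (lo hi : ℕ) (x : ℝ) (k : ℤ) :
    wn α β lo hi (x + 2 * Real.pi * k) = wn α β lo hi x := by
  unfold wn
  rw [ps_add_int, ps_add_int]
  ring

theorem wph_add_int (e : ℕ → ℝ) (M : ℕ) (α β : ℕ → ℝ) (x : ℝ) (k : ℤ) :
    wph e M α β (x + 2 * Real.pi * k) = wph e M α β x + k * tot e M := by
  unfold wph
  simp only [ps_add_int, mul_add, Finset.sum_add_distrib, tot_eq, ← Finset.sum_mul]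
  ring

theorem deriv_wn_add_int (α β : ℕ → ℝ) (lo hi : ℕ) (x : ℝ) (k : ℤ) :
    deriv (wn α β lo hi) (x + 2 * Real.pi * k) = deriv (wn α β lo hi) x := by
  have h1 : (fun y => wn α β lo hi (y + 2 * Real.pi * k)) = wn α β lo hi := by
    funext y; exact wn_add_int α β lo hi y k
  have h2 := deriv_comp_add_const (wn α β lo hi) (2 * Real.pi * k) x
  rw [← h2, h1]

theorem deriv_wph_add_int (e : ℕ → ℝ) (M : ℕ) (α β : ℕ → ℝ) (x : ℝ) (k : ℤ) :
    deriv (wph e M α β) (x + 2 * Real.pi * k) = deriv (wph e M α β) x := by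
  have h1 : (fun y => wph e M α β (y + 2 * Real.pi * k)) =
      fun y => wph e M α β y + k * tot e M := by
    funext y; exact wph_add_int e M α β y k
  have h2 := deriv_comp_add_const (wph e M α β) (2 * Real.pi * k) x
  rw [← h2, h1]
  exact deriv_add_const _

/-! ### windows: values -/

section win

variable (h : Arcs M α β) {lo hi : ℕ}

include h

/-- value of the jump at the gap `j` on the gap `i` -/
theorem ps_gap {i j : ℕ} (hi' : i ≤ M) (hj : j ≤ M) (hij : i ≠ j) {x : ℝ} (h1 : β i ≤ x)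
    (h2 : x ≤ α (i + 1)) : ps (β j) (α (j + 1)) x = if j < i then 1 else 0 := by
  have hab := h.ab i hi'
  have h0 : α 0 ≤ x := by
    have := arcs_mono h (Nat.zero_le i) (by omega)
    linarith
  have h0' : x ≤ α 0 + 2 * Real.pi := by
    have h3 := arcs_mono h (show i + 1 ≤ M + 1 by omega) le_rfl
    have h4 := h.last
    linarith
  rw [ps_dom' h hj h0 h0']
  have hbj := h.ba j hj
  split
  · rename_i hji
    apply st_of_ge
    have h3 := arcs_mono h (show j + 1 ≤ i by omega) (by omega)
    rw [le_div_iff₀ (by linarith)]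
    linarith
  · rename_i hji
    apply st_of_le
    have h3 : α (i + 1) ≤ β j := by
      have h5 := arcs_mono h (show i + 1 ≤ j by omega) (by omega)
      have h6 := h.ab j hj
      linarith
    exact div_nonpos_of_nonpos_of_nonneg (by linarith) (by linarith)

/-- **support of the window**: it vanishes in the gap `i` if `i < lo` or `hi < i`. -/
theorem wn_supp (hlo : lo ≤ hi) (hhi : hi ≤ M) {i : ℕ} (hi' : i ≤ M) (hc : i < lo ∨ hi < i)
    {x : ℝ} (h1 : β i ≤ x) (h2 : x ≤ α (i + 1)) : wn α β lo hi x = 0 := by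
  unfold wn
  rw [ps_gap h hi' (hlo.trans hhi) (by omega) h1 h2, ps_gap h hi' hhi (by omega) h1 h2]
  rcases hc with hc | hc
  · rw [if_neg (by omega), if_neg (by omega)]; norm_num
  · rw [if_pos (by omega), if_pos (by omega)]; norm_num

/-- the window is `1` in the gaps strictly inside. -/
theorem wn_one (hlo : lo ≤ hi) (hhi : hi ≤ M) {i : ℕ} (hi1 : lo < i) (hi2 : i < hi)
    {x : ℝ} (h1 : β i ≤ x) (h2 : x ≤ α (i + 1)) : wn α β lo hi x = 1 := by
  unfold wn
  rw [ps_gap h (by omega) (hlo.trans hhi) (by omega) h1 h2, ps_gap h (by omega) hhi (by omega) h1 h2,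
    if_pos (by omega), if_neg (by omega)]
  norm_num

/-- value on the lobes -/
theorem wn_lobe (hlo : lo ≤ hi) (hhi : hi ≤ M) {i : ℕ} (hi' : i ≤ M) {x : ℝ} (h1 : α i ≤ x)
    (h2 : x ≤ β i) : wn α β lo hi x = if lo < i ∧ i ≤ hi then 1 else 0 :=
  (winA h hlo hhi).val i hi' x h1 h2

omit h in
/-- `ps` is constant off its step -/
theorem deriv_ps_zero {a b : ℝ} (hab : a < b) (hba : b < a + 2 * Real.pi) {x : ℝ}
    (h1 : b - 2 * Real.pi ≤ x) (h2 : x ≤ a + 2 * Real.pi) (h3 : x ≤ a ∨ b ≤ x) :
    deriv (ps a b) x = 0 := by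
  have hp := two_pi_pos'
  rcases h3 with h3 | h3
  · -- `x ≤ a`
    rcases h1.lt_or_eq with h4 | h4
    · rw [(hasDerivAt_ps hab hba (k := 0) (by simpa using h4) (by simp; linarith)).deriv]
      rw [std_of_le, zero_div]
      exact div_nonpos_of_nonpos_of_nonneg (by simp; linarith) (by linarith)
    · rw [(hasDerivAt_ps hab hba (k := -1) (by push_cast; linarith) (by push_cast; linarith)).deriv]
      rw [std_of_ge, zero_div]
      rw [le_div_iff₀ (by linarith)]
      push_cast
      linarith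
  · rcases h2.lt_or_eq with h4 | h4
    · rw [(hasDerivAt_ps hab hba (k := 0) (by simp; linarith) (by simpa using h4)).deriv]
      rw [std_of_ge, zero_div]
      rw [le_div_iff₀ (by linarith)]
      simp
      linarith
    · rw [(hasDerivAt_ps hab hba (k := 1) (by push_cast; linarith) (by push_cast; linarith)).deriv]
      rw [std_of_le, zero_div]
      exact div_nonpos_of_nonpos_of_nonneg (by push_cast; linarith) (by linarith)

theorem hasDerivAt_wn (hlo : lo ≤ hi) (hhi : hi ≤ M) (x : ℝ) : HasDerivAt (wn α β lo hi)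
    (deriv (ps (β lo) (α (lo + 1))) x - deriv (ps (β hi) (α (hi + 1))) x) x := by
  have h1 := ((contDiff_ps (h.ba lo (hlo.trans hhi)) (len' h (hlo.trans hhi))).differentiable
    (by norm_num) x).hasDerivAt
  have h2 := ((contDiff_ps (h.ba hi hhi) (len' h hhi)).differentiable
    (by norm_num) x).hasDerivAt
  exact h1.sub h2

/-- **derivative of the window**: zero on the lobes (closed) -/
theorem deriv_wn_lobe (hlo : lo ≤ hi) (hhi : hi ≤ M) {i : ℕ} (hi' : i ≤ M) {x : ℝ}
    (h1 : α i ≤ x) (h2 : x ≤ β i) : deriv (wn α β lo hi) x = 0 := by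
  have key : ∀ j ≤ M, deriv (ps (β j) (α (j + 1))) x = 0 := by
    intro j hj
    have h0 : α 0 ≤ x := (arcs_mono h (Nat.zero_le i) (by omega)).trans h1
    have h0' : x ≤ α 0 + 2 * Real.pi := by
      have h3 := beta_le h (show i < M + 1 by omega) le_rfl
      have h4 := h.last
      linarith
    refine deriv_ps_zero (h.ba j hj) (len' h hj) ?_ ?_ ?_
    · have h3 := arcs_mono h (show j + 1 ≤ M + 1 by omega) le_rfl
      have h4 := h.last
      linarith
    · have h3 := arcs_mono h (Nat.zero_le j) (by omega)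
      have h4 := h.ab j hj
      linarith
    · rcases lt_or_ge j i with h5 | h5
      · right
        have := arcs_mono h (show j + 1 ≤ i by omega) (by omega)
        linarith
      · left
        rcases h5.lt_or_eq with h6 | h6
        · have h7 := beta_le h h6 (by omega)
          have h8 := h.ab j hj
          linarith
        · subst h6; exact h2
  rw [(hasDerivAt_wn h hlo hhi x).deriv, key lo (hlo.trans hhi), key hi hhi, sub_zero]

/-- zero in the gaps other than `lo`, `hi` (closed) -/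
theorem deriv_wn_gap (hlo : lo ≤ hi) (hhi : hi ≤ M) {i : ℕ} (hi' : i ≤ M) (hc : i ≠ lo)
    (hc' : i ≠ hi) {x : ℝ} (h1 : β i ≤ x) (h2 : x ≤ α (i + 1)) :
    deriv (wn α β lo hi) x = 0 := by
  have hab := h.ab i hi'
  have key : ∀ j ≤ M, i ≠ j → deriv (ps (β j) (α (j + 1))) x = 0 := by
    intro j hj hij
    have h0 : α 0 ≤ x := by
      have := arcs_mono h (Nat.zero_le i) (by omega)
      linarith
    have h0' : x ≤ α 0 + 2 * Real.pi := by
      have h3 := arcs_mono h (show i + 1 ≤ M + 1 by omega) le_rfl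
      have h4 := h.last
      linarith
    refine deriv_ps_zero (h.ba j hj) (len' h hj) ?_ ?_ ?_
    · have h3 := arcs_mono h (show j + 1 ≤ M + 1 by omega) le_rfl
      have h4 := h.last
      linarith
    · have h3 := arcs_mono h (Nat.zero_le j) (by omega)
      have h4 := h.ab j hj
      linarith
    · rcases lt_or_ge j i with h5 | h5
      · right
        have := arcs_mono h (show j + 1 ≤ i by omega) (by omega)
        linarith
      · left
        have h6 := arcs_mono h (show i + 1 ≤ j by omega) (by omega)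
        have h8 := h.ab j hj
        linarith
  rw [(hasDerivAt_wn h hlo hhi x).deriv, key lo (hlo.trans hhi) hc, key hi hhi hc', sub_zero]

/-- **where the window moves**: strictly inside the gap `lo` or `hi` (mod `2 π`) -/
theorem wn_moves (hlo : lo ≤ hi) (hhi : hi ≤ M) {x : ℝ} (hx : deriv (wn α β lo hi) x ≠ 0) :
    ∃ (k : ℤ) (i : ℕ), (i = lo ∨ i = hi) ∧ β i < x - 2 * Real.pi * k ∧
      x - 2 * Real.pi * k < α (i + 1) := by
  obtain ⟨k, y, hy1, hy2, rfl⟩ := exists_dom (α 0) x
  obtain ⟨i, hi', h1, h2⟩ := exists_piece h hy1 hy2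
  rw [deriv_wn_add_int] at hx
  refine ⟨k, i, ?_, ?_, ?_⟩
  · by_contra hc
    push Not at hc
    rcases le_total y (β i) with h3 | h3
    · exact hx (deriv_wn_lobe h hlo hhi hi' h1 h3)
    · exact hx (deriv_wn_gap h hlo hhi hi' hc.1 hc.2 h3 h2.le)
  · have e1 : y + 2 * Real.pi * k - 2 * Real.pi * k = y := by ring
    rw [e1]
    by_contra hc
    exact hx (deriv_wn_lobe h hlo hhi hi' h1 (not_lt.1 hc))
  · have e1 : y + 2 * Real.pi * k - 2 * Real.pi * k = y := by ring
    rw [e1]
    exact h2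

end win

/-! ### the phase -/

section phase

variable (h : Arcs M α β)

include h

/-- derivative in the gaps (closed) -/
theorem deriv_wph_gap {i : ℕ} (hi : i ≤ M) {x : ℝ} (h1 : β i ≤ x) (h2 : x ≤ α (i + 1)) :
    deriv (wph e M α β) x = 0 := by
  have hab := h.ab i hi
  rw [(hasDerivAt_wph h x).deriv]
  have : ∑ j ∈ range (M + 1), se e j * deriv (ps (α j) (β j)) x = 0 := by
    refine Finset.sum_eq_zero fun j hj' => ?_
    have hj : j ≤ M := by have := Finset.mem_range.1 hj'; omega
    have h0 : α 0 ≤ x := by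
      have := arcs_mono h (Nat.zero_le i) (by omega)
      linarith
    have h0' : x ≤ α 0 + 2 * Real.pi := by
      have h3 := arcs_mono h (show i + 1 ≤ M + 1 by omega) le_rfl
      have h4 := h.last
      linarith
    rw [deriv_ps_zero (h.ab j hj) (len h hj), mul_zero]
    · have h3 := beta_le h (show j < M + 1 by omega) le_rfl
      have h4 := h.last
      linarith
    · have h3 := arcs_mono h (Nat.zero_le j) (by omega)
      linarith
    · rcases le_or_gt j i with h5 | h5
      · right
        rcases h5.lt_or_eq with h6 | h6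
        · have h7 := beta_le h h6 (by omega)
          linarith
        · subst h6; exact h1
      · left
        exact h2.trans (arcs_mono h h5 (by omega))
  rw [this, mul_zero]

/-- sign of the derivative on the open lobes -/
theorem deriv_wph_pos (he : ∀ l, e l = 1 ∨ e l = -1) {i : ℕ} (hi : i ≤ M) {x : ℝ}
    (h1 : α i < x) (h2 : x < β i) : 0 < se e i * deriv (wph e M α β) x := by
  have hab := h.ab i hi
  have hw : 0 < β i - α i := by linarith
  have hs := se_sq he i
  have hs2 : se e i * se e i = 1 := by rcases hs with h | h <;> rw [h] <;> norm_num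
  rw [deriv_wph h hi h1 h2]
  have h3 : 0 < std ((x - α i) / (β i - α i)) :=
    std_pos (div_pos (by linarith) hw) (by rw [div_lt_one hw]; linarith)
  have h4 : se e i * (2 * Real.pi * se e i * (std ((x - α i) / (β i - α i)) / (β i - α i))) =
      (se e i * se e i) * (2 * Real.pi * (std ((x - α i) / (β i - α i)) / (β i - α i))) := by
    ring
  rw [h4, hs2, one_mul]
  exact mul_pos two_pi_pos' (div_pos h3 hw)

omit h in
theorem cis_add_int_mul (x : ℝ) (k : ℤ) : cis (x + 2 * Real.pi * k) = cis x :=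
  Ang_739.cis_per x k

omit h in
/-- `cen` and `tot` are multiples of `2 π` -/
theorem exists_cen (he : ∀ l, e l = 1 ∨ e l = -1) (i : ℕ) : ∃ n : ℤ, cen e i = 2 * Real.pi * n := by
  induction i with
  | zero => exact ⟨0, by simp [cen]⟩
  | succ i ih =>
    obtain ⟨n, hn⟩ := ih
    rw [show cen e (i + 1) = cen e i + Real.pi * (se e i + se e (i + 1)) from rfl, hn]
    rcases se_sq he i with h1 | h1 <;> rcases se_sq he (i + 1) with h2 | h2 <;> rw [h1, h2]
    · exact ⟨n + 1, by push_cast; ring⟩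
    · exact ⟨n, by ring⟩
    · exact ⟨n, by ring⟩
    · exact ⟨n - 1, by push_cast; ring⟩

omit h in
theorem exists_tot (he : ∀ l, e l = 1 ∨ e l = -1) (M : ℕ) : ∃ n : ℤ, tot e M = 2 * Real.pi * n := by
  obtain ⟨n, hn⟩ := exists_cen he M
  unfold tot
  rw [hn]
  rcases se_sq he M with h1 | h1 <;> rw [h1]
  · exact ⟨n + 1, by push_cast; ring⟩
  · exact ⟨n, by ring⟩

omit h in
theorem cis_pi : cis Real.pi = -1 := by
  unfold Ang_739.cis
  exact Complex.exp_pi_mul_I

/-- **in the gaps `e^{iφ} = -1`** (closed gaps, mod `2 π`) -/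
theorem cis_wph_gap (he : ∀ l, e l = 1 ∨ e l = -1) {i : ℕ} (hi : i ≤ M) {x : ℝ} (h1 : β i ≤ x)
    (h2 : x ≤ α (i + 1)) (k : ℤ) : cis (wph e M α β (x + 2 * Real.pi * k)) = -1 := by
  obtain ⟨n, hn⟩ := exists_cen he i
  obtain ⟨m, hm⟩ := exists_tot he M
  rw [wph_add_int, wph_flat h hi h1 h2, hn, hm]
  rcases se_sq he i with h3 | h3 <;> rw [h3]
  · have e1 : 2 * Real.pi * (n : ℝ) + Real.pi * 1 + k * (2 * Real.pi * m) =
        Real.pi + 2 * Real.pi * ((n + k * m : ℤ)) := by push_cast; ring
    rw [e1, cis_add_int_mul, cis_pi]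
  · have e1 : 2 * Real.pi * (n : ℝ) + Real.pi * (-1) + k * (2 * Real.pi * m) =
        Real.pi + 2 * Real.pi * ((n - 1 + k * m : ℤ)) := by push_cast; ring
    rw [e1, cis_add_int_mul, cis_pi]

/-- **turning points only at `e^{iφ} = -1`** -/
theorem cis_of_deriv_zero (he : ∀ l, e l = 1 ∨ e l = -1) {x : ℝ}
    (hx : deriv (wph e M α β) x = 0) : cis (wph e M α β x) = -1 := by
  obtain ⟨k, y, hy1, hy2, rfl⟩ := exists_dom (α 0) x
  obtain ⟨i, hi, h1, h2⟩ := exists_piece h hy1 hy2
  rw [deriv_wph_add_int] at hx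
  have hab := h.ab i hi
  rcases h1.lt_or_eq with h3 | h3
  · rcases lt_or_ge y (β i) with h4 | h4
    · have := deriv_wph_pos h he hi h3 h4
      rw [hx, mul_zero] at this
      exact absurd this (lt_irrefl _)
    · exact cis_wph_gap h he hi h4 h2.le k
  · -- `y = α i`: end of the gap `i - 1`
    subst h3
    rcases Nat.eq_zero_or_pos i with h5 | h5
    · subst h5
      have h6 := cis_wph_gap h he (i := M) le_rfl (x := α (M + 1)) (h.ba M le_rfl).le le_rfl (k - 1)
      have e1 : α (M + 1) + 2 * Real.pi * ((k - 1 : ℤ) : ℝ) = α 0 + 2 * Real.pi * k := by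
        rw [h.last]; push_cast; ring
      rw [e1] at h6
      exact h6
    · obtain ⟨j, rfl⟩ : ∃ j, i = j + 1 := ⟨i - 1, by omega⟩
      exact cis_wph_gap h he (i := j) (by omega) (h.ba j (by omega)).le le_rfl k

/-- **the windows move only where the phase is flat** -/
theorem flat_of_wn (he : ∀ l, e l = 1 ∨ e l = -1) {lo hi : ℕ} (hlo : lo ≤ hi) (hhi : hi ≤ M)
    {x : ℝ} (hx : deriv (wn α β lo hi) x ≠ 0) :
    deriv (wph e M α β) x = 0 ∧ cis (wph e M α β x) = -1 := by
  obtain ⟨k, i, hi', h1, h2⟩ := wn_moves h hlo hhi hx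
  have hiM : i ≤ M := by rcases hi' with rfl | rfl <;> omega
  have e1 : x = (x - 2 * Real.pi * k) + 2 * Real.pi * k := by ring
  constructor
  · rw [e1, deriv_wph_add_int]
    exact deriv_wph_gap h hiM h1.le h2.le
  · rw [e1]
    exact cis_wph_gap h he hiM h1.le h2.le k

end phase

/-! ### equal lobes -/

/-- left ends of `M + 1` equal lobes of half width `3 / (M + 1)` -/
def aE (M k : ℕ) : ℝ := (2 * Real.pi * k - 3) / (M + 1)

/-- right ends -/
def bE (M k : ℕ) : ℝ := (2 * Real.pi * k + 3) / (M + 1)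

theorem arcsE (M : ℕ) : Arcs M (aE M) (bE M) where
  ab := fun i _ => by
    unfold aE bE
    exact div_lt_div_of_pos_right (by linarith) (by positivity)
  ba := fun i _ => by
    unfold aE bE
    refine div_lt_div_of_pos_right ?_ (by positivity)
    push_cast
    nlinarith [Real.pi_gt_three]
  last := by
    unfold aE
    push_cast
    field_simp
    ring

theorem st_near {u : ℝ} (h0 : 0 ≤ u) (h1 : u ≤ 1) : |st u - u| ≤ 1 / 5 := by
  have key : ∀ v : ℝ, 1 / 2 ≤ v → v ≤ 1 → |st v - v| ≤ 1 / 5 := by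
    intro v hv hv1
    unfold T3aDefs_957.st
    rw [c01_of_mem (by linarith) hv1]
    obtain ⟨w, rfl⟩ : ∃ w, v = 1 / 2 + w := ⟨v - 1 / 2, by ring⟩
    have hw : 0 ≤ w := by linarith
    have hw1 : w ≤ 1 / 2 := by linarith
    have e1 : (1 / 2 + w) ^ 3 * (10 - 15 * (1 / 2 + w) + 6 * (1 / 2 + w) ^ 2) - (1 / 2 + w) =
        7 * w / 8 - 5 * w ^ 3 + 6 * w ^ 5 := by ring
    rw [e1, abs_le]
    have hw2 : w ^ 2 ≤ 1 / 4 := by nlinarith
    constructor
    · have : 0 ≤ 7 * w / 8 - 5 * w ^ 3 + 6 * w ^ 5 := by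
        have e2 : 7 * w / 8 - 5 * w ^ 3 + 6 * w ^ 5 = w * (6 * ((1 / 4 - w ^ 2) * (7 / 12 - w ^ 2))) := by
          ring
        rw [e2]
        exact mul_nonneg hw (mul_nonneg (by norm_num) (mul_nonneg (by linarith) (by linarith)))
      linarith
    · have h5 : w ^ 5 ≤ w ^ 3 / 4 := by
        have : w ^ 5 = w ^ 3 * w ^ 2 := by ring
        rw [this]
        nlinarith [pow_nonneg hw 3]
      have h6 : 0 ≤ (w - 289 / 1000) ^ 2 * (w + 578 / 1000) := by positivity
      nlinarith
  rcases le_total (1 / 2) u with h | h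
  · exact key u h h1
  · have := key (1 - u) (by linarith) (by linarith)
    rw [st_one_sub] at this
    rw [abs_le] at this ⊢
    constructor <;> linarith [this.1, this.2]

/-- **the phase of `M + 1` equal positive lobes is near `(M + 1) x`** -/
theorem wph_near (M : ℕ) (x : ℝ) :
    |wph (fun _ => 1) M (aE M) (bE M) x - (M + 1) * x| ≤ Real.pi / 2 := by
  have h := arcsE M
  have hM : (0 : ℝ) < M + 1 := by positivity
  have hpi := Real.pi_gt_three
  have hpi2 := Real.pi_lt_d2
  have hse : ∀ i, se (fun _ => (1 : ℝ)) i = 1 := by intro i; unfold se; split <;> rfl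
  have hcen : ∀ i, cen (fun _ => (1 : ℝ)) i = 2 * Real.pi * i := by
    intro i
    rw [cen_eq]
    simp only [hse, Finset.sum_const, Finset.card_range, nsmul_eq_mul]
    ring
  have htot : tot (fun _ => (1 : ℝ)) M = 2 * Real.pi * (M + 1) := by
    rw [tot_eq]
    simp only [hse, Finset.sum_const, Finset.card_range, nsmul_eq_mul]
    push_cast
    ring
  obtain ⟨k, y, hy1, hy2, rfl⟩ := exists_dom (aE M 0) x
  rw [wph_add_int, htot]
  have e1 : wph (fun _ => 1) M (aE M) (bE M) y + k * (2 * Real.pi * (M + 1)) -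
      (M + 1) * (y + 2 * Real.pi * k) =
      wph (fun _ => 1) M (aE M) (bE M) y - (M + 1) * y := by ring
  rw [e1]
  obtain ⟨i, hi, h1, h2⟩ := exists_piece h hy1 hy2
  rw [wph_val h hi h1 h2.le, hcen, hse]
  have hA : (M + 1) * aE M i = 2 * Real.pi * i - 3 := by unfold aE; field_simp
  have hB : bE M i - aE M i = 6 / (M + 1) := by unfold aE bE; field_simp; ring
  have hC : (M + 1) * aE M (i + 1) = 2 * Real.pi * i + 2 * Real.pi - 3 := by
    unfold aE; push_cast; field_simp
  have hD : (y - aE M i) / (bE M i - aE M i) = ((M + 1) * y - 2 * Real.pi * i + 3) / 6 := by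
    rw [hB]
    field_simp
    linarith
  rw [hD]
  obtain ⟨u, hu⟩ : ∃ u, u = ((M + 1) * y - 2 * Real.pi * i + 3) / 6 := ⟨_, rfl⟩
  rw [← hu]
  have hy : (M + 1) * y = 2 * Real.pi * i + 6 * u - 3 := by rw [hu]; ring
  rw [hy]
  have hu0 : 0 ≤ u := by
    have := mul_le_mul_of_nonneg_left h1 hM.le
    rw [hA] at this
    rw [hu]
    linarith
  have hu2 : 6 * u - 3 < 2 * Real.pi - 3 := by
    have := mul_lt_mul_of_pos_left h2 hM
    rw [hC] at this
    linarith
  rcases le_total u 1 with h3 | h3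
  · have h4 := abs_le.1 (st_near hu0 h3)
    rw [abs_le]
    constructor <;> nlinarith [h4.1, h4.2]
  · rw [st_of_ge h3, abs_le]
    constructor <;> nlinarith

end Crest.Agent.R267.WordPh2_9
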