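import Crest.Agent.R267.GlNDefs_9
import Crest.Agent.R267.Calc_957

/-!
# Row 267 (helper9): explicit phases and windows of a signed word

Lobes `[α i, β i]`, `i ≤ M` (`i = 0`: plate), `Arcs M α β`.

* `ps α β`: the `C²` staircase, `+1` on `[α, β]`, constant elsewhere (mod `2 π`).
* `wph e M α β`: the phase of the signed word; it is constant (`= cen e i + π se e i`, an odd multiple
  of `π`) off the lobes. `wrd : Wrd e M (wa M α β) (wb M α β) (wph e M α β)`.
* `wn M α β lo hi`: the window `1` on the lobes `lo < i ≤ hi`, `0` on the other lobes.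
-/

set_option autoImplicit false

noncomputable section

open Finset Set Filter Topology
open Crest.Agent.R267.T3aDefs_957 (st)
open Crest.Agent.R267.Calc_957
open Crest.Agent.R267.GlNDefs_9

namespace Crest.Agent.R267.WordPh_9

/-! ### the periodic staircase -/

/-- staircase with the step `[α, β]` -/
def ps (α β x : ℝ) : ℝ :=
  ⌊(x - α) / (2 * Real.pi)⌋ + st ((x - α - 2 * Real.pi * ⌊(x - α) / (2 * Real.pi)⌋) / (β - α))

theorem two_pi_pos' : (0 : ℝ) < 2 * Real.pi := by positivity

theorem ps_eq {α β : ℝ} (h : α < β) (h' : β ≤ α + 2 * Real.pi) (k : ℤ) {x : ℝ}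
    (h1 : β - 2 * Real.pi + 2 * Real.pi * k ≤ x) (h2 : x ≤ α + 2 * Real.pi * (k + 1)) :
    ps α β x = k + st ((x - α - 2 * Real.pi * k) / (β - α)) := by
  have hp := two_pi_pos'
  have hw : 0 < β - α := by linarith
  unfold ps
  rcases lt_or_ge x (α + 2 * Real.pi * k) with h3 | h3
  · have hf : ⌊(x - α) / (2 * Real.pi)⌋ = k - 1 := by
      rw [Int.floor_eq_iff]
      push_cast
      constructor
      · rw [le_div_iff₀ hp]; nlinarith
      · rw [div_lt_iff₀ hp]; nlinarith
    rw [hf]
    push_cast
    rw [st_of_ge (x := (x - α - 2 * Real.pi * ((k : ℝ) - 1)) / (β - α)),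
      st_of_le (x := (x - α - 2 * Real.pi * k) / (β - α))]
    · ring
    · exact div_nonpos_of_nonpos_of_nonneg (by linarith) hw.le
    · rw [le_div_iff₀ hw]; nlinarith
  · rcases h2.lt_or_eq with h4 | h4
    · have hf : ⌊(x - α) / (2 * Real.pi)⌋ = k := by
        rw [Int.floor_eq_iff]
        constructor
        · rw [le_div_iff₀ hp]; nlinarith
        · rw [div_lt_iff₀ hp]; nlinarith
      rw [hf]
    · have hf : ⌊(x - α) / (2 * Real.pi)⌋ = k + 1 := by
        rw [Int.floor_eq_iff]
        push_cast
        constructor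
        · rw [le_div_iff₀ hp]; nlinarith
        · rw [div_lt_iff₀ hp]; nlinarith
      rw [hf]
      push_cast
      rw [st_of_le (x := (x - α - 2 * Real.pi * ((k : ℝ) + 1)) / (β - α)),
        st_of_ge (x := (x - α - 2 * Real.pi * k) / (β - α))]
      · ring
      · rw [le_div_iff₀ hw]; nlinarith
      · exact div_nonpos_of_nonpos_of_nonneg (by nlinarith) hw.le

/-- the fundamental domain -/
theorem ps_eq0 {α β : ℝ} (h : α < β) (h' : β ≤ α + 2 * Real.pi) {x : ℝ}
    (h1 : β - 2 * Real.pi ≤ x) (h2 : x ≤ α + 2 * Real.pi) :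
    ps α β x = st ((x - α) / (β - α)) := by
  have := ps_eq h h' 0 (x := x) (by simpa using h1) (by simpa using h2)
  simpa using this

theorem ps_add (α β x : ℝ) : ps α β (x + 2 * Real.pi) = ps α β x + 1 := by
  unfold ps
  have e : (x + 2 * Real.pi - α) / (2 * Real.pi) = (x - α) / (2 * Real.pi) + 1 := by
    have := two_pi_pos'
    field_simp
    ring
  rw [e, Int.floor_add_one]
  push_cast
  have e2 : x + 2 * Real.pi - α - 2 * Real.pi * ((⌊(x - α) / (2 * Real.pi)⌋ : ℝ) + 1) =
      x - α - 2 * Real.pi * ⌊(x - α) / (2 * Real.pi)⌋ := by ring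
  rw [e2]
  ring

theorem exists_k {α β : ℝ} (h' : β < α + 2 * Real.pi) (x : ℝ) :
    ∃ k : ℤ, β - 2 * Real.pi + 2 * Real.pi * k < x ∧ x < α + 2 * Real.pi * (k + 1) := by
  have hp := two_pi_pos'
  refine ⟨⌊(x - α) / (2 * Real.pi)⌋, ?_, ?_⟩
  · have := Int.floor_le ((x - α) / (2 * Real.pi))
    rw [le_div_iff₀ hp] at this
    nlinarith
  · have := Int.lt_floor_add_one ((x - α) / (2 * Real.pi))
    rw [div_lt_iff₀ hp] at this
    nlinarith

theorem ps_nhds {α β : ℝ} (h : α < β) (h' : β < α + 2 * Real.pi) {k : ℤ} {x : ℝ}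
    (h1 : β - 2 * Real.pi + 2 * Real.pi * k < x) (h2 : x < α + 2 * Real.pi * (k + 1)) :
    ps α β =ᶠ[𝓝 x] fun y => (k : ℝ) + st ((y - α - 2 * Real.pi * k) / (β - α)) := by
  filter_upwards [Ioo_mem_nhds h1 h2] with y hy
  exact ps_eq h h'.le k hy.1.le hy.2.le

theorem contDiff_ps {α β : ℝ} (h : α < β) (h' : β < α + 2 * Real.pi) : ContDiff ℝ 2 (ps α β) := by
  rw [contDiff_iff_contDiffAt]
  intro x
  obtain ⟨k, h1, h2⟩ := exists_k h' x
  refine ContDiffAt.congr_of_eventuallyEq ?_ (ps_nhds h h' h1 h2)
  refine contDiffAt_const.add (contDiff_st.contDiffAt.comp x ?_)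
  exact ((contDiffAt_id.sub contDiffAt_const).sub contDiffAt_const).div_const _

theorem hasDerivAt_ps {α β : ℝ} (h : α < β) (h' : β < α + 2 * Real.pi) {k : ℤ} {x : ℝ}
    (h1 : β - 2 * Real.pi + 2 * Real.pi * k < x) (h2 : x < α + 2 * Real.pi * (k + 1)) :
    HasDerivAt (ps α β) (std ((x - α - 2 * Real.pi * k) / (β - α)) / (β - α)) x := by
  refine HasDerivAt.congr_of_eventuallyEq ?_ (ps_nhds h h' h1 h2)
  have h3 : HasDerivAt (fun y : ℝ => (y - α - 2 * Real.pi * k) / (β - α)) (1 / (β - α)) x :=
    (((hasDerivAt_id x).sub_const α).sub_const (2 * Real.pi * k)).div_const _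
  have h4 := ((hasDerivAt_st _).comp x h3).const_add (k : ℝ)
  refine h4.congr_deriv ?_
  ring

theorem deriv_ps_nonneg {α β : ℝ} (h : α < β) (h' : β < α + 2 * Real.pi) (x : ℝ) :
    0 ≤ deriv (ps α β) x := by
  obtain ⟨k, h1, h2⟩ := exists_k h' x
  rw [(hasDerivAt_ps h h' h1 h2).deriv]
  exact div_nonneg (std_nonneg _) (by linarith)

theorem ps_mono {α β : ℝ} (h : α < β) (h' : β < α + 2 * Real.pi) : Monotone (ps α β) :=
  monotone_of_deriv_nonneg ((contDiff_ps h h').differentiable (by norm_num))
    (deriv_ps_nonneg h h')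

/-! ### the quarter points of `st` -/

theorem st_one_sub (x : ℝ) : st (1 - x) = 1 - st x := by
  rcases le_total x 0 with h | h
  · rw [st_of_le h, st_of_ge (by linarith)]; ring
  · rcases le_total x 1 with h1 | h1
    · unfold st
      rw [c01_of_mem h h1, c01_of_mem (by linarith) (by linarith)]
      ring
    · rw [st_of_ge h1, st_of_le (by linarith)]; ring

theorem st_strict {x y : ℝ} (h0 : 0 ≤ x) (h1 : y ≤ 1) (h : x < y) : st x < st y := by
  have := strictMonoOn_of_deriv_pos (convex_Icc (0 : ℝ) 1) contDiff_st.continuous.continuousOn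
    (fun z hz => by
      rw [interior_Icc] at hz
      rw [(hasDerivAt_st z).deriv]
      exact std_pos hz.1 hz.2)
  exact this ⟨h0, by linarith⟩ ⟨by linarith, h1⟩ h

theorem exists_quarter : ∃ u : ℝ, 0 < u ∧ u < 1 / 2 ∧ st u = 1 / 4 := by
  have h0 : st 0 = 0 := st_of_le le_rfl
  have h1 : st (1 / 2) = 1 / 2 := by
    have := st_one_sub (1 / 2)
    norm_num at this
    linarith
  obtain ⟨u, hu, hu'⟩ := intermediate_value_Icc (by norm_num : (0 : ℝ) ≤ 1 / 2)
    contDiff_st.continuous.continuousOn
    (show (1 / 4 : ℝ) ∈ Icc (st 0) (st (1 / 2)) by rw [h0, h1]; constructor <;> norm_num)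
  refine ⟨u, lt_of_le_of_ne hu.1 ?_, lt_of_le_of_ne hu.2 ?_, hu'⟩
  · rintro rfl; rw [h0] at hu'; norm_num at hu'
  · rintro rfl; rw [h1] at hu'; norm_num at hu'

/-- the quarter point -/
def u0 : ℝ := exists_quarter.choose

theorem u0_pos : 0 < u0 := exists_quarter.choose_spec.1

theorem u0_lt : u0 < 1 / 2 := exists_quarter.choose_spec.2.1

theorem st_u0 : st u0 = 1 / 4 := exists_quarter.choose_spec.2.2

theorem st_mid {v : ℝ} (h : u0 ≤ v) (h' : v ≤ 1 - u0) : |st v - 1 / 2| ≤ 1 / 4 := by
  have h1 := st_mono h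
  have h2 := st_mono h'
  rw [st_u0] at h1
  rw [st_one_sub, st_u0] at h2
  rw [abs_le]
  constructor <;> linarith

theorem st_lt_quarter {v : ℝ} (h : v < u0) : st v < 1 / 4 := by
  rcases le_total v 0 with h0 | h0
  · rw [st_of_le h0]; norm_num
  · rw [← st_u0]
    exact st_strict h0 (by linarith [u0_lt]) h

theorem quarter_lt_st {v : ℝ} (h : 1 - u0 < v) : 3 / 4 < st v := by
  have h1 : st (1 - v) < 1 / 4 := st_lt_quarter (by linarith)
  rw [st_one_sub] at h1
  linarith

/-! ### the word phase -/

variable {M : ℕ} {α β : ℕ → ℝ} {e : ℕ → ℝ}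

theorem cen_eq (e : ℕ → ℝ) (i : ℕ) :
    cen e i = -Real.pi + 2 * Real.pi * ∑ k ∈ range i, se e k + Real.pi * se e i := by
  induction i with
  | zero => simp [cen, se]
  | succ i ih =>
    rw [cen, ih, Finset.sum_range_succ]
    ring

theorem tot_eq (e : ℕ → ℝ) (M : ℕ) : tot e M = 2 * Real.pi * ∑ k ∈ range (M + 1), se e k := by
  unfold tot
  rw [cen_eq, Finset.sum_range_succ]
  ring

/-- **the phase of the word** -/
def wph (e : ℕ → ℝ) (M : ℕ) (α β : ℕ → ℝ) (x : ℝ) : ℝ :=
  -Real.pi + 2 * Real.pi * ∑ i ∈ range (M + 1), se e i * ps (α i) (β i) x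

section arcs

variable (h : Arcs M α β)

include h

theorem arcs_mono {i j : ℕ} (hij : i ≤ j) (hj : j ≤ M + 1) : α i ≤ α j := by
  induction j, hij using Nat.le_induction with
  | base => exact le_rfl
  | succ j _ ih =>
    have h1 := h.ab j (by omega)
    have h2 := h.ba j (by omega)
    exact (ih (by omega)).trans (by linarith)

theorem beta_le {i j : ℕ} (hij : i < j) (hj : j ≤ M + 1) : β i ≤ α j := by
  have h1 := h.ba i (by omega)
  have h2 := arcs_mono h (show i + 1 ≤ j from hij) hj
  linarith

theorem len {i : ℕ} (hi : i ≤ M) : β i < α i + 2 * Real.pi := by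
  have h1 := h.ba i hi
  have h2 := arcs_mono h (show i + 1 ≤ M + 1 by omega) le_rfl
  have h3 := arcs_mono h (Nat.zero_le i) (by omega)
  have h4 := h.last
  linarith

theorem contDiff_wph : ContDiff ℝ 2 (wph e M α β) := by
  unfold wph
  refine contDiff_const.add (contDiff_const.mul (ContDiff.sum fun i hi => ?_))
  have hi' : i ≤ M := by have := Finset.mem_range.1 hi; omega
  exact contDiff_const.mul (contDiff_ps (h.ab i hi') (len h hi'))

omit h in
theorem wph_add (x : ℝ) : wph e M α β (x + 2 * Real.pi) = wph e M α β x + tot e M := by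
  unfold wph
  simp only [ps_add, mul_add, mul_one, Finset.sum_add_distrib, tot_eq]
  ring

/-- on the fundamental domain -/
theorem ps_dom {i : ℕ} (hi : i ≤ M) {x : ℝ} (h1 : α 0 ≤ x) (h2 : x ≤ α 0 + 2 * Real.pi) :
    ps (α i) (β i) x = st ((x - α i) / (β i - α i)) := by
  refine ps_eq0 (h.ab i hi) (len h hi).le ?_ ?_
  · have h3 := beta_le h (show i < M + 1 by omega) le_rfl
    have h4 := h.last
    linarith
  · have h3 := arcs_mono h (Nat.zero_le i) (by omega)
    linarith

/-- **value on `[α i, α (i + 1)]`** -/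
theorem wph_val {i : ℕ} (hi : i ≤ M) {x : ℝ} (h1 : α i ≤ x) (h2 : x ≤ α (i + 1)) :
    wph e M α β x = cen e i + 2 * Real.pi * se e i * (st ((x - α i) / (β i - α i)) - 1 / 2) := by
  have h0 : α 0 ≤ x := (arcs_mono h (Nat.zero_le i) (by omega)).trans h1
  have h0' : x ≤ α 0 + 2 * Real.pi := by
    have h3 := arcs_mono h (show i + 1 ≤ M + 1 by omega) le_rfl
    have h4 := h.last
    linarith
  have e1 : ∑ k ∈ range (M + 1), se e k * ps (α k) (β k) x =
      ∑ k ∈ range i, se e k + se e i * st ((x - α i) / (β i - α i)) := by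
    have hsplit : range (M + 1) = range i ∪ ({i} ∪ Finset.Ico (i + 1) (M + 1)) := by
      ext k
      simp only [Finset.mem_range, Finset.mem_union, Finset.mem_singleton, Finset.mem_Ico]
      omega
    rw [hsplit, Finset.sum_union, Finset.sum_union, Finset.sum_singleton]
    · have e2 : ∑ k ∈ range i, se e k * ps (α k) (β k) x = ∑ k ∈ range i, se e k := by
        refine Finset.sum_congr rfl fun k hk => ?_
        have hk' := Finset.mem_range.1 hk
        rw [ps_dom h (by omega) h0 h0', st_of_ge, mul_one]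
        have h3 := beta_le h hk' (by omega)
        have h4 := h.ab k (by omega)
        rw [le_div_iff₀ (by linarith)]
        linarith
      have e3 : ∑ k ∈ Finset.Ico (i + 1) (M + 1), se e k * ps (α k) (β k) x = 0 := by
        refine Finset.sum_eq_zero fun k hk => ?_
        have hk' := Finset.mem_Ico.1 hk
        rw [ps_dom h (by omega) h0 h0', st_of_le, mul_zero]
        have h3 := arcs_mono h hk'.1 (by omega)
        have h4 := h.ab k (by omega)
        exact div_nonpos_of_nonpos_of_nonneg (by linarith) (by linarith)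
      rw [e2, e3, ps_dom h hi h0 h0']
      ring
    · rw [Finset.disjoint_left]
      intro k
      simp only [Finset.mem_singleton, Finset.mem_Ico]
      omega
    · rw [Finset.disjoint_left]
      intro k
      simp only [Finset.mem_range, Finset.mem_union, Finset.mem_singleton, Finset.mem_Ico]
      omega
  unfold wph
  rw [e1, cen_eq]
  ring

/-- value off the lobes -/
theorem wph_flat {i : ℕ} (hi : i ≤ M) {x : ℝ} (h1 : β i ≤ x) (h2 : x ≤ α (i + 1)) :
    wph e M α β x = cen e i + Real.pi * se e i := by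
  have h3 := h.ab i hi
  rw [wph_val h hi (by linarith) h2, st_of_ge]
  · ring
  · rw [le_div_iff₀ (by linarith)]
    linarith

theorem hasDerivAt_wph (x : ℝ) : HasDerivAt (wph e M α β)
    (2 * Real.pi * ∑ i ∈ range (M + 1), se e i * deriv (ps (α i) (β i)) x) x := by
  unfold wph
  refine HasDerivAt.const_add _ (HasDerivAt.const_mul _ (HasDerivAt.fun_sum fun i hi => ?_))
  have hi' : i ≤ M := by have := Finset.mem_range.1 hi; omega
  exact HasDerivAt.const_mul _
    (((contDiff_ps (h.ab i hi') (len h hi')).differentiable (by norm_num)) x).hasDerivAt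

/-- derivative on the open lobe `i` -/
theorem deriv_wph {i : ℕ} (hi : i ≤ M) {x : ℝ} (h1 : α i < x) (h2 : x < β i) :
    deriv (wph e M α β) x =
      2 * Real.pi * se e i * (std ((x - α i) / (β i - α i)) / (β i - α i)) := by
  have hb := h.ba i hi
  have hev : wph e M α β =ᶠ[𝓝 x] fun y =>
      cen e i + 2 * Real.pi * se e i * (st ((y - α i) / (β i - α i)) - 1 / 2) := by
    filter_upwards [Ioo_mem_nhds h1 (show x < α (i + 1) by linarith)] with y hy
    exact wph_val h hi hy.1.le hy.2.le
  rw [hev.deriv_eq]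
  have h3 : HasDerivAt (fun y : ℝ => (y - α i) / (β i - α i)) (1 / (β i - α i)) x :=
    ((hasDerivAt_id x).sub_const (α i)).div_const _
  have h4 := ((((hasDerivAt_st _).comp x h3).sub_const (1 / 2)).const_mul
    (2 * Real.pi * se e i)).const_add (cen e i)
  have h5 := h4.deriv
  refine (Eq.trans ?_ h5).trans (by ring)
  rfl

end arcs

/-- left ends of the arcs `|phase - cen| ≤ π / 2` -/
def wa (M : ℕ) (α β : ℕ → ℝ) (i : ℕ) : ℝ :=
  if i ≤ M then α i + u0 * (β i - α i) else α 0 + u0 * (β 0 - α 0) + 2 * Real.pi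

/-- right ends of the arcs -/
def wb (α β : ℕ → ℝ) (i : ℕ) : ℝ := β i - u0 * (β i - α i)

theorem wa_gt (h : Arcs M α β) {i : ℕ} (hi : i ≤ M) : α i < wa M α β i := by
  unfold wa
  rw [if_pos hi]
  have := mul_pos u0_pos (sub_pos.2 (h.ab i hi))
  linarith

theorem wb_lt (h : Arcs M α β) {i : ℕ} (hi : i ≤ M) : wb α β i < β i := by
  unfold wb
  have := mul_pos u0_pos (sub_pos.2 (h.ab i hi))
  linarith

theorem wa_lt_wb (h : Arcs M α β) {i : ℕ} (hi : i ≤ M) : wa M α β i < wb α β i := by
  unfold wa wb
  rw [if_pos hi]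
  have h1 := h.ab i hi
  have h2 := u0_lt
  nlinarith

theorem wb_lt_wa (h : Arcs M α β) {i : ℕ} (hi : i ≤ M) : wb α β i < wa M α β (i + 1) := by
  have h1 := wb_lt h hi
  have h2 := h.ba i hi
  rcases Nat.lt_or_ge i M with h3 | h3
  · have h4 := wa_gt h (show i + 1 ≤ M by omega)
    linarith
  · have hiM : i = M := le_antisymm hi h3
    subst hiM
    unfold wa
    rw [if_neg (by omega)]
    have h4 := mul_pos u0_pos (sub_pos.2 (h.ab 0 (Nat.zero_le _)))
    have h5 := h.last
    linarith

theorem warcs (h : Arcs M α β) : Arcs M (wa M α β) (wb α β) where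
  ab := fun _ hi => wa_lt_wb h hi
  ba := fun _ hi => wb_lt_wa h hi
  last := by
    unfold wa
    rw [if_neg (by omega), if_pos (Nat.zero_le _)]

theorem se_sq (he : ∀ l, e l = 1 ∨ e l = -1) (i : ℕ) : se e i = 1 ∨ se e i = -1 := by
  unfold se
  split
  · exact Or.inl rfl
  · exact he _

/-- **the phase of the word is in the class `Wrd`** -/
theorem wrd (h : Arcs M α β) (he : ∀ l, e l = 1 ∨ e l = -1) :
    Wrd e M (wa M α β) (wb α β) (wph e M α β) where
  smooth := contDiff_wph h
  per := wph_add
  arc := by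
    intro i hi x h1 h2
    have hab := h.ab i hi
    have hw : 0 < β i - α i := by linarith
    have ha := wa_gt h hi
    have hb := wb_lt h hi
    have hba := h.ba i hi
    have hs := se_sq he i
    have hs2 : se e i * se e i = 1 := by rcases hs with h | h <;> rw [h] <;> norm_num
    have hs3 : |se e i| = 1 := by rcases hs with h | h <;> rw [h] <;> norm_num
    have hv1 : u0 ≤ (x - α i) / (β i - α i) := by
      rw [le_div_iff₀ hw]
      unfold wa at h1
      rw [if_pos hi] at h1
      linarith
    have hv2 : (x - α i) / (β i - α i) ≤ 1 - u0 := by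
      rw [div_le_iff₀ hw]
      unfold wb at h2
      linarith
    constructor
    · rw [wph_val h hi (by linarith) (by linarith)]
      have := st_mid hv1 hv2
      rw [add_sub_cancel_left, abs_mul, abs_mul, hs3, abs_of_pos two_pi_pos']
      nlinarith [Real.pi_pos]
    · rw [deriv_wph h hi (by linarith) (by linarith)]
      have h3 : 0 < std ((x - α i) / (β i - α i)) := std_pos (lt_of_lt_of_le u0_pos hv1)
        (lt_of_le_of_lt hv2 (by linarith [u0_pos]))
      have h4 : se e i * (2 * Real.pi * se e i * (std ((x - α i) / (β i - α i)) / (β i - α i))) =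
          (se e i * se e i) * (2 * Real.pi * (std ((x - α i) / (β i - α i)) / (β i - α i))) := by
        ring
      rw [h4, hs2, one_mul]
      exact mul_pos two_pi_pos' (div_pos h3 hw)
  gap := by
    intro i hi x h1 h2
    have hab := h.ab i hi
    have hw : 0 < β i - α i := by linarith
    have ha := wa_gt h hi
    have hab' := wa_lt_wb h hi
    have hs := se_sq he i
    have hs3 : |se e i| = 1 := by rcases hs with h | h <;> rw [h] <;> norm_num
    have hpi := Real.pi_pos
    rcases le_total x (α (i + 1)) with h3 | h3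
    · rw [wph_val h hi (by linarith) h3]
      have hv : 1 - u0 < (x - α i) / (β i - α i) := by
        rw [lt_div_iff₀ hw]
        unfold wb at h1
        linarith
      have h4 := quarter_lt_st hv
      have h5 := st_le_one ((x - α i) / (β i - α i))
      have e1 : cen e i + 2 * Real.pi * se e i * (st ((x - α i) / (β i - α i)) - 1 / 2) -
          (cen e i + Real.pi * se e i) =
          (2 * Real.pi * (st ((x - α i) / (β i - α i)) - 1)) * se e i := by ring
      rw [e1, abs_mul, hs3, mul_one, abs_lt]
      constructor <;> nlinarith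
    · rcases Nat.lt_or_ge i M with h4 | h4
      · have hi1 : i + 1 ≤ M := h4
        have hw1 : 0 < β (i + 1) - α (i + 1) := by linarith [h.ab (i + 1) hi1]
        have hx : x < wa M α β (i + 1) := h2
        have hx2 : x ≤ α (i + 1 + 1) := by
          have h6 := wa_lt_wb h hi1
          have h7 := wb_lt h hi1
          have h8 := h.ba (i + 1) hi1
          linarith
        rw [wph_val h hi1 h3 hx2]
        have hs' := se_sq he (i + 1)
        have hs3' : |se e (i + 1)| = 1 := by rcases hs' with h | h <;> rw [h] <;> norm_num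
        have hv : (x - α (i + 1)) / (β (i + 1) - α (i + 1)) < u0 := by
          rw [div_lt_iff₀ hw1]
          unfold wa at hx
          rw [if_pos hi1] at hx
          linarith
        have h5 := st_lt_quarter hv
        have h6 := st_nonneg ((x - α (i + 1)) / (β (i + 1) - α (i + 1)))
        have e1 : cen e (i + 1) + 2 * Real.pi * se e (i + 1) *
            (st ((x - α (i + 1)) / (β (i + 1) - α (i + 1))) - 1 / 2) -
            (cen e i + Real.pi * se e i) =
            (2 * Real.pi * st ((x - α (i + 1)) / (β (i + 1) - α (i + 1)))) * se e (i + 1) := by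
          rw [show cen e (i + 1) = cen e i + Real.pi * (se e i + se e (i + 1)) from rfl]
          ring
        rw [e1, abs_mul, hs3', mul_one, abs_lt]
        constructor <;> nlinarith
      · have hiM : i = M := le_antisymm hi h4
        subst hiM
        have hx : x < wa i α β (i + 1) := h2
        have hw0 : 0 < β 0 - α 0 := by linarith [h.ab 0 (Nat.zero_le _)]
        have hlast := h.last
        have hy : x = (x - 2 * Real.pi) + 2 * Real.pi := by ring
        have hx1 : x - 2 * Real.pi < wa i α β 0 := by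
          have := (warcs h).last
          linarith
        have hx2 : x - 2 * Real.pi ≤ α (0 + 1) := by
          have h6 := wa_lt_wb h (Nat.zero_le i)
          have h7 := wb_lt h (Nat.zero_le i)
          have h8 := h.ba 0 (Nat.zero_le i)
          linarith
        rw [hy, wph_add, wph_val h (Nat.zero_le i) (by linarith) hx2]
        have hv : (x - 2 * Real.pi - α 0) / (β 0 - α 0) < u0 := by
          rw [div_lt_iff₀ hw0]
          unfold wa at hx1
          rw [if_pos (Nat.zero_le _)] at hx1
          linarith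
        have h5 := st_lt_quarter hv
        have h6 := st_nonneg ((x - 2 * Real.pi - α 0) / (β 0 - α 0))
        have e1 : cen e 0 + 2 * Real.pi * se e 0 *
            (st ((x - 2 * Real.pi - α 0) / (β 0 - α 0)) - 1 / 2) + tot e i -
            (cen e i + Real.pi * se e i) =
            2 * Real.pi * st ((x - 2 * Real.pi - α 0) / (β 0 - α 0)) := by
          unfold tot
          rw [show cen e 0 = 0 from rfl, show se e 0 = 1 from rfl]
          ring
        rw [e1, abs_lt]
        constructor <;> nlinarith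

/-! ### windows -/

/-- **the window**: rises between the lobes `lo`, `lo + 1`, falls between `hi`, `hi + 1` -/
def wn (α β : ℕ → ℝ) (lo hi : ℕ) (x : ℝ) : ℝ :=
  ps (β lo) (α (lo + 1)) x - ps (β hi) (α (hi + 1)) x

section win

variable (h : Arcs M α β)

include h

theorem len' {i : ℕ} (hi : i ≤ M) : α (i + 1) < β i + 2 * Real.pi := by
  have h1 := h.ab i hi
  have h2 := arcs_mono h (show i + 1 ≤ M + 1 by omega) le_rfl
  have h3 := arcs_mono h (Nat.zero_le i) (by omega)
  have h4 := h.last
  linarith

theorem ps_dom' {i : ℕ} (hi : i ≤ M) {x : ℝ} (h1 : α 0 ≤ x) (h2 : x ≤ α 0 + 2 * Real.pi) :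
    ps (β i) (α (i + 1)) x = st ((x - β i) / (α (i + 1) - β i)) := by
  refine ps_eq0 (h.ba i hi) (len' h hi).le ?_ ?_
  · have h3 := arcs_mono h (show i + 1 ≤ M + 1 by omega) le_rfl
    have h4 := h.last
    linarith
  · have h3 := arcs_mono h (Nat.zero_le i) (by omega)
    have h4 := h.ab i hi
    linarith

theorem ps_le_one_add {i j : ℕ} (hij : i ≤ j) (hj : j ≤ M) (x : ℝ) :
    ps (β j) (α (j + 1)) x ≤ ps (β i) (α (i + 1)) x ∧
      ps (β i) (α (i + 1)) x ≤ ps (β j) (α (j + 1)) x + 1 := by
  -- reduce to the fundamental domain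
  have hper : ∀ (k : ℤ) (l : ℕ) (y : ℝ), ps (β l) (α (l + 1)) (y + 2 * Real.pi * k) =
      ps (β l) (α (l + 1)) y + k := by
    intro k l y
    induction k using Int.induction_on with
    | zero => simp
    | succ k ih =>
      have : y + 2 * Real.pi * ((k : ℤ) + 1 : ℤ) = y + 2 * Real.pi * (k : ℤ) + 2 * Real.pi := by
        push_cast; ring
      rw [this, ps_add, ih]
      push_cast; ring
    | pred k ih =>
      have h1 : y + 2 * Real.pi * (-(k : ℤ) : ℤ) =
          y + 2 * Real.pi * ((-(k : ℤ) - 1 : ℤ)) + 2 * Real.pi := by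
        push_cast; ring
      rw [h1, ps_add] at ih
      push_cast at ih ⊢
      linarith
  obtain ⟨k, y, hy1, hy2, hx⟩ : ∃ (k : ℤ) (y : ℝ), α 0 ≤ y ∧ y ≤ α 0 + 2 * Real.pi ∧
      x = y + 2 * Real.pi * k := by
    have hp := two_pi_pos'
    refine ⟨⌊(x - α 0) / (2 * Real.pi)⌋, x - 2 * Real.pi * ⌊(x - α 0) / (2 * Real.pi)⌋, ?_, ?_,
      by ring⟩
    · have := Int.floor_le ((x - α 0) / (2 * Real.pi))
      rw [le_div_iff₀ hp] at this
      linarith
    · have := Int.lt_floor_add_one ((x - α 0) / (2 * Real.pi))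
      rw [div_lt_iff₀ hp] at this
      linarith
  rw [hx, hper, hper, ps_dom' h hj hy1 hy2, ps_dom' h (hij.trans hj) hy1 hy2]
  have h1 := st_nonneg ((y - β i) / (α (i + 1) - β i))
  have h2 := st_le_one ((y - β i) / (α (i + 1) - β i))
  have h3 := st_nonneg ((y - β j) / (α (j + 1) - β j))
  have h4 := st_le_one ((y - β j) / (α (j + 1) - β j))
  refine ⟨?_, by linarith⟩
  rcases hij.lt_or_eq with h5 | h5
  · rcases le_total y (β j) with h6 | h6
    · have h7 : st ((y - β j) / (α (j + 1) - β j)) = 0 := st_of_le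
        (div_nonpos_of_nonpos_of_nonneg (by linarith) (by linarith [h.ba j hj]))
      linarith
    · have h7 : st ((y - β i) / (α (i + 1) - β i)) = 1 := by
        apply st_of_ge
        have h8 := h.ba i (by omega)
        have h9 := arcs_mono h (show i + 1 ≤ j by omega) (by omega)
        have h10 := h.ab j hj
        rw [le_div_iff₀ (by linarith)]
        linarith
      linarith
  · subst h5
    linarith

/-- **the window is in the class `WinA`** -/
theorem winA {lo hi : ℕ} (hlo : lo ≤ hi) (hhi : hi ≤ M) : WinA M α β lo hi (wn α β lo hi) where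
  smooth := (contDiff_ps (h.ba lo (hlo.trans hhi)) (len' h (hlo.trans hhi))).sub
    (contDiff_ps (h.ba hi hhi) (len' h hhi))
  per := fun x => by
    unfold wn
    rw [ps_add, ps_add]
    ring
  nn := fun x => by
    have := (ps_le_one_add h hlo hhi x).1
    unfold wn
    linarith
  le := fun x => by
    have := (ps_le_one_add h hlo hhi x).2
    unfold wn
    linarith
  val := by
    intro i hi' x h1 h2
    have hab := h.ab i hi'
    have h0 : α 0 ≤ x := (arcs_mono h (Nat.zero_le i) (by omega)).trans h1
    have h0' : x ≤ α 0 + 2 * Real.pi := by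
      have h3 := beta_le h (show i < M + 1 by omega) le_rfl
      have h4 := h.last
      linarith
    have hst : ∀ j ≤ M, ps (β j) (α (j + 1)) x = if j < i then 1 else 0 := by
      intro j hj
      rw [ps_dom' h hj h0 h0']
      have hbj := h.ba j hj
      split
      · rename_i hji
        apply st_of_ge
        have h3 := arcs_mono h (show j + 1 ≤ i by omega) (by omega)
        rw [le_div_iff₀ (by linarith)]
        linarith
      · rename_i hji
        apply st_of_le
        have h3 : β i ≤ β j := by
          rcases (Nat.not_lt.1 hji).lt_or_eq with h4 | h4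
          · have h5 := beta_le h h4 (by omega)
            have h6 := h.ab j hj
            linarith
          · rw [h4]
        exact div_nonpos_of_nonpos_of_nonneg (by linarith) (by linarith)
    unfold wn
    rw [hst lo (hlo.trans hhi), hst hi hhi]
    by_cases c1 : lo < i
    · by_cases c2 : hi < i
      · rw [if_pos c1, if_pos c2, if_neg (by omega)]
        norm_num
      · rw [if_pos c1, if_neg c2, if_pos (by omega)]
        norm_num
    · rw [if_neg c1, if_neg (by omega), if_neg (by omega)]
      norm_num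

end win

/-- arcs inside lobes: windows of the lobes are windows of the arcs -/
theorem WinA.sub {a b : ℕ → ℝ} {lo hi : ℕ} {l : ℝ → ℝ} (h : WinA M α β lo hi l)
    (ha : ∀ i ≤ M, α i ≤ a i) (hb : ∀ i ≤ M, b i ≤ β i) : WinA M a b lo hi l where
  smooth := h.smooth
  per := h.per
  nn := h.nn
  le := h.le
  val := fun i hi' x h1 h2 => h.val i hi' x ((ha i hi').trans h1) (h2.trans (hb i hi'))

theorem winA' (h : Arcs M α β) {lo hi : ℕ} (hlo : lo ≤ hi) (hhi : hi ≤ M) :
    WinA M (wa M α β) (wb α β) lo hi (wn α β lo hi) :=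
  WinA.sub (winA h hlo hhi) (fun _ hi' => (wa_gt h hi').le) (fun _ hi' => (wb_lt h hi').le)

end Crest.Agent.R267.WordPh_9
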