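import Mathlib

/-!
# Planar words (helper310, T3N, leaf N2/L3 algebra)

Any group `G` with `s 1, …, s (n-1)` satisfying the braid relations; products are in time order.
`dl s c = s (c-1) ⋯ s 1` (the first `c` points turn by `1/c`), `up s i k = s i ⋯ s (i+k-1)`,
`T s b a = dl s (a+b) * up s 1 a` (the outer `b` points turn by `1/b` round the inner `a`).

The four arms of the official pair `mu = 2049` (helper51 #3069):
`gx, fx, fy, gy` : the ring words are (conjugate to) the Young words.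
-/

set_option autoImplicit false

namespace Crest.Agent.R267.Word_310

variable {G : Type*} [Group G]

/-- braid relations of `s 1, …, s (n-1)`. -/
structure Br (n : ℕ) (s : ℕ → G) : Prop where
  far : ∀ i j, 1 ≤ i → i + 2 ≤ j → j < n → s i * s j = s j * s i
  adj : ∀ i, 1 ≤ i → i + 1 < n → s i * s (i + 1) * s i = s (i + 1) * s i * s (i + 1)

/-- `dl s c = s (c-1) ⋯ s 1`. -/
def dl (s : ℕ → G) : ℕ → G
  | 0 => 1
  | 1 => 1
  | (c + 2) => s (c + 1) * dl s (c + 1)

/-- `up s i k = s i ⋯ s (i+k-1)`. -/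
def up (s : ℕ → G) (i : ℕ) : ℕ → G
  | 0 => 1
  | (k + 1) => up s i k * s (i + k)

/-- the outer `b` points turn by `1/b` round the inner `a`. -/
def T (s : ℕ → G) (b a : ℕ) : G := dl s (a + b) * up s 1 a

variable {n : ℕ} {s : ℕ → G}

@[simp] lemma dl_zero : dl s 0 = 1 := rfl
@[simp] lemma dl_one : dl s 1 = 1 := rfl
@[simp] lemma up_zero (i : ℕ) : up s i 0 = 1 := rfl

lemma dl_succ {c : ℕ} (hc : 1 ≤ c) : dl s (c + 1) = s c * dl s c := by
  obtain ⟨c, rfl⟩ := Nat.exists_eq_add_of_le' hc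
  rfl

lemma up_succ (i k : ℕ) : up s i (k + 1) = up s i k * s (i + k) := rfl

lemma up_add (i k l : ℕ) : up s i (k + l) = up s i k * up s (i + k) l := by
  induction l with
  | zero => simp
  | succ l ih =>
    rw [show k + (l + 1) = (k + l) + 1 from rfl, up_succ, ih, up_succ, mul_assoc]
    congr 2
    rw [show i + (k + l) = i + k + l by omega]

lemma up_one (i : ℕ) : up s i 1 = s i := by simp [up]

lemma up_succ' (i k : ℕ) : up s i (k + 1) = s i * up s (i + 1) k := by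
  rw [show k + 1 = 1 + k by omega, up_add, up_one]

lemma up_two (i : ℕ) : up s i 2 = s i * s (i + 1) := by simp [up]

/-- a far letter commutes with `dl`. -/
lemma dl_comm (h : Br n s) {c j : ℕ} (hc : c + 1 ≤ j) (hj : j < n) :
    s j * dl s c = dl s c * s j := by
  induction c with
  | zero => simp
  | succ c ih =>
    rcases Nat.eq_zero_or_pos c with rfl | hp
    · simp
    · rw [dl_succ hp, ← mul_assoc, ← h.far c j hp (by omega) hj, mul_assoc, ih (by omega),
        mul_assoc]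

/-- `s j * dl c = dl c * s (j+1)`. -/
lemma dl_shift (h : Br n s) {c j : ℕ} (h1 : 1 ≤ j) (hj : j + 1 < c) (hc : c ≤ n) :
    s j * dl s c = dl s c * s (j + 1) := by
  induction c with
  | zero => omega
  | succ c ih =>
    rcases Nat.lt_or_ge (j + 1) c with hlt | hge
    · rw [dl_succ (by omega), ← mul_assoc, h.far j c h1 (by omega) (by omega), mul_assoc,
        ih hlt (by omega), mul_assoc]
    · obtain rfl : c = j + 1 := by omega
      rw [dl_succ (by omega), dl_succ h1, mul_assoc, mul_assoc,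
        ← dl_comm h (le_refl (j + 1)) (by omega), ← mul_assoc, ← mul_assoc, h.adj j h1 (by omega)]
      simp only [mul_assoc]

/-- far words commute with `dl`. -/
lemma up_dl_comm (h : Br n s) {c i k : ℕ} (hc : c + 1 ≤ i) (hk : i + k ≤ n) :
    up s i k * dl s c = dl s c * up s i k := by
  induction k with
  | zero => simp
  | succ k ih =>
    rw [up_succ, mul_assoc, dl_comm h (by omega) (by omega), ← mul_assoc, ih (by omega), mul_assoc]

lemma up_dl_comm_pow (h : Br n s) {c i k : ℕ} (hc : c + 1 ≤ i) (hk : i + k ≤ n) (r : ℕ) :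
    up s i k * dl s c ^ r = dl s c ^ r * up s i k :=
  (Commute.pow_right (show Commute (up s i k) (dl s c) from up_dl_comm h hc hk) r)

/-- `up` shifts through `dl`. -/
lemma up_shift (h : Br n s) {c i k : ℕ} (h1 : 1 ≤ i) (hk : i + k < c ∨ k = 0) (hc : c ≤ n) :
    up s i k * dl s c = dl s c * up s (i + 1) k := by
  induction k with
  | zero => simp
  | succ k ih =>
    rcases hk with hk | hk
    · rw [up_succ, mul_assoc, dl_shift h (by omega) (by omega) hc, ← mul_assoc,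
        ih (Or.inl (by omega)), mul_assoc, up_succ]
      congr 2
      rw [show i + 1 + k = i + k + 1 by omega]
    · omega

lemma up_shift_pow (h : Br n s) {c i k : ℕ} (r : ℕ) (h1 : 1 ≤ i) (hk : i + k + r ≤ c)
    (hc : c ≤ n) : up s i k * dl s c ^ r = dl s c ^ r * up s (i + r) k := by
  induction r with
  | zero => simp
  | succ r ih =>
    rw [pow_succ, ← mul_assoc, ih (by omega), mul_assoc,
      up_shift h (by omega) (Or.inl (by omega)) hc, ← mul_assoc]
    rfl

/-- **Lemma A.** `s i ⋯ s m * dl c = dl (c+1) * s (i+1) ⋯ s m` for `i ≤ c ≤ m`. -/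
lemma up_dl (h : Br n s) {c i k : ℕ} (h1 : 1 ≤ i) (hic : i ≤ c) (hck : c < i + (k + 1))
    (hk : i + (k + 1) ≤ n) : up s i (k + 1) * dl s c = dl s (c + 1) * up s (i + 1) k := by
  obtain ⟨a, rfl⟩ := Nat.exists_eq_add_of_le hic
  obtain ⟨b, hb⟩ := Nat.exists_eq_add_of_le (show a ≤ k by omega)
  subst hb
  rw [show a + b + 1 = a + (1 + b) by omega, up_add, up_add, up_one, mul_assoc, mul_assoc,
    up_dl_comm h (by omega) (by omega), ← mul_assoc (s (i + a)), ← dl_succ (by omega),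
    ← mul_assoc, up_shift h h1 ?_ (by omega), mul_assoc, up_add]
  · rw [show i + 1 + a = i + a + 1 by omega]
  · left; omega

/-- **Lemma B.** -/
lemma up_dl_pow (h : Br n s) {c i k : ℕ} (r : ℕ) (h1 : 1 ≤ i) (hic : i + r ≤ c + 1)
    (hck : c < i + (k + r)) (hk : i + (k + r) ≤ n) :
    up s i (k + r) * dl s c ^ r = dl s (c + 1) ^ r * up s (i + r) k := by
  induction r generalizing i with
  | zero => simp
  | succ r ih =>
    rw [pow_succ', ← mul_assoc, show k + (r + 1) = (k + r) + 1 by omega,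
      up_dl h h1 (by omega) (by omega) (by omega), mul_assoc,
      ih (by omega) (by omega) (by omega) (by omega), ← mul_assoc, ← pow_succ',
      show i + 1 + r = i + (r + 1) by omega]

/-- `up 1 a * s j = s (j+1) * up 1 a`. -/
lemma up_letter (h : Br n s) {a i j : ℕ} (h1 : 1 ≤ i) (hij : i ≤ j) (hj : j + 1 < i + a)
    (ha : i + a ≤ n) : up s i a * s j = s (j + 1) * up s i a := by
  obtain ⟨p, rfl⟩ := Nat.exists_eq_add_of_le hij
  obtain ⟨q, rfl⟩ := Nat.exists_eq_add_of_le (show p + 2 ≤ a by omega)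
  have e : up s i (p + 2 + q) = up s i p * (s (i + p) * s (i + p + 1)) * up s (i + p + 2) q := by
    rw [up_add, up_add, up_two]; rfl
  have c1 : up s (i + p + 2) q * s (i + p) = s (i + p) * up s (i + p + 2) q := by
    clear e
    induction q with
    | zero => simp
    | succ q ih =>
      rw [up_succ, mul_assoc, ← h.far (i + p) (i + p + 2 + q) (by omega) (by omega) (by omega),
        ← mul_assoc, ih (by omega) (by omega), mul_assoc]
  have c2 : up s i p * s (i + p + 1) = s (i + p + 1) * up s i p := by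
    clear e c1
    have : ∀ p' ≤ p, up s i p' * s (i + p + 1) = s (i + p + 1) * up s i p' := by
      intro p' hp'
      induction p' with
      | zero => simp
      | succ p' ih =>
        rw [up_succ, mul_assoc, h.far (i + p') (i + p + 1) (by omega) (by omega) (by omega),
          ← mul_assoc, ih (by omega), mul_assoc]
    exact this p le_rfl
  rw [e, mul_assoc, c1]
  calc up s i p * (s (i + p) * s (i + p + 1)) * (s (i + p) * up s (i + p + 2) q)
      = up s i p * (s (i + p) * s (i + p + 1) * s (i + p)) * up s (i + p + 2) q := by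
        simp only [mul_assoc]
    _ = up s i p * (s (i + p + 1) * s (i + p) * s (i + p + 1)) * up s (i + p + 2) q := by
        rw [h.adj (i + p) (by omega) (by omega)]
    _ = (up s i p * s (i + p + 1)) * (s (i + p) * s (i + p + 1)) * up s (i + p + 2) q := by
        simp only [mul_assoc]
    _ = s (i + p + 1) * (up s i p * (s (i + p) * s (i + p + 1)) * up s (i + p + 2) q) := by
        rw [c2]; simp only [mul_assoc]

/-- `T b a` commutes with the letters `s j`, `j < a`. -/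
lemma T_letter (h : Br n s) {a b j : ℕ} (h1 : 1 ≤ j) (hj : j < a) (hb : 1 ≤ b) (hn : a + b ≤ n) :
    Commute (T s b a) (s j) := by
  unfold T Commute SemiconjBy
  rw [mul_assoc, up_letter h le_rfl h1 (by omega) (by omega), ← mul_assoc, ← mul_assoc,
    ← dl_shift h h1 (by omega) hn, mul_assoc]

lemma T_dl (h : Br n s) {a b c : ℕ} (hc : c ≤ a) (hb : 1 ≤ b) (hn : a + b ≤ n) :
    Commute (T s b a) (dl s c) := by
  induction c with
  | zero => simp
  | succ c ih =>
    rcases Nat.eq_zero_or_pos c with rfl | hp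
    · simp
    · rw [dl_succ hp]
      exact (T_letter h hp (by omega) hb hn).mul_right (ih (by omega))

/-- **the ring identity**: the outer `b` points turn by `r/b` (`r ≤ b`) round `a` inner ones
which turn once. -/
theorem ring (h : Br n s) {a b : ℕ} (hn : a + b ≤ n) (r : ℕ) (hr : r ≤ b) :
    T s b a ^ r * dl s a ^ a = dl s (a + b) ^ r * dl s (a + r) ^ a := by
  induction r with
  | zero => simp
  | succ r ih =>
    rw [pow_succ', mul_assoc, ih (by omega)]
    unfold T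
    rw [mul_assoc, ← mul_assoc (up s 1 a), up_shift_pow h r le_rfl (by omega) hn]
    have := up_dl_pow h (c := a + r) (i := 1 + r) (k := 0) a (by omega) (by omega) (by omega)
      (by omega)
    rw [Nat.zero_add, up_zero, mul_one] at this
    rw [mul_assoc, this, ← mul_assoc, ← pow_succ']
    rfl

/-- cyclic permutation. -/
lemma conj_cyc (a b : G) : IsConj (a * b) (b * a) :=
  isConj_iff.2 ⟨b, by simp [mul_assoc]⟩

/-- **cyclic shift**: `dl^r * A * Y ~ dl^r * sh^r(Y) * A` for `Y = up i k`. -/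
lemma cyc_up (h : Br n s) {c i k r : ℕ} (h1 : 1 ≤ i) (hk : i + k + r ≤ c) (hc : c ≤ n) (A : G) :
    IsConj (dl s c ^ r * A * up s i k) (dl s c ^ r * (up s (i + r) k * A)) := by
  refine (conj_cyc _ _).trans ?_
  rw [← mul_assoc, ← mul_assoc, up_shift_pow h r h1 hk hc]

/-- **g, x-arm.** -/
theorem gx (h : Br 15 s) :
    T s 12 3 ^ 4 * T s 2 1 ^ 5 = dl s 15 ^ 4 * dl s 7 ^ 3 * dl s 3 ^ 4 * dl s 2 := by
  have e1 : T s 2 1 = dl s 3 * dl s 2 := by
    have := ring h (a := 1) (b := 2) (by norm_num) 1 (by norm_num)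
    simpa using this
  have e2 : T s 2 1 ^ 2 = dl s 3 ^ 3 := by
    have := ring h (a := 1) (b := 2) (by norm_num) 2 (by norm_num)
    rw [dl_one, one_pow, mul_one] at this
    rw [this, ← pow_add]
  have e5 : T s 2 1 ^ 5 = dl s 3 ^ 3 * (dl s 3 ^ 4 * dl s 2) := by
    rw [show (5 : ℕ) = 2 + 2 + 1 from rfl, pow_add, pow_add, pow_one, e2, e1]
    rw [← mul_assoc, ← mul_assoc, ← pow_add, ← pow_succ, ← pow_add]
  have e3 := ring h (a := 3) (b := 12) (by norm_num) 4 (by norm_num)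
  rw [e5, ← mul_assoc, e3]
  simp only [mul_assoc]

/-- **f, x-arm.** -/
theorem fx (h : Br 15 s) :
    IsConj (T s 6 9 * T s 5 4 ^ 2 * dl s 4 ^ 12)
      (dl s 15 * dl s 12 * dl s 11 * dl s 7 ^ 4 * dl s 4 ^ 8) := by
  have e1 := ring h (a := 4) (b := 5) (by norm_num) 2 (by norm_num)
  norm_num at e1
  have a1 : up s 1 9 * dl s 9 ^ 2 = dl s 10 ^ 2 * up s 3 7 :=
    up_dl_pow h (c := 9) (i := 1) (k := 7) 2 (by norm_num) (by norm_num) (by norm_num) (by norm_num)
  have a2 : up s 3 7 * dl s 6 ^ 4 = dl s 7 ^ 4 * up s 7 3 :=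
    up_dl_pow h (c := 6) (i := 3) (k := 3) 4 (by norm_num) (by norm_num) (by norm_num) (by norm_num)
  have a3 : up s 7 3 * dl s 4 ^ 8 = dl s 4 ^ 8 * up s 7 3 :=
    up_dl_comm_pow h (by norm_num) (by norm_num) 8
  have a4 : up s 8 3 * dl s 10 ^ 2 = dl s 11 ^ 2 * up s 10 1 :=
    up_dl_pow h (c := 10) (i := 8) (k := 1) 2 (by norm_num) (by norm_num) (by norm_num)
      (by norm_num)
  have a5 : up s 10 1 * dl s 7 ^ 4 = dl s 7 ^ 4 * up s 10 1 :=
    up_dl_comm_pow h (by norm_num) (by norm_num) 4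
  have a6 : up s 10 1 * dl s 4 ^ 8 = dl s 4 ^ 8 * up s 10 1 :=
    up_dl_comm_pow h (by norm_num) (by norm_num) 8
  have w1 : T s 6 9 * T s 5 4 ^ 2 * dl s 4 ^ 12
      = dl s 15 ^ 1 * (dl s 10 ^ 2 * dl s 7 ^ 4 * dl s 4 ^ 8) * up s 7 3 := by
    calc T s 6 9 * T s 5 4 ^ 2 * dl s 4 ^ 12
        = T s 6 9 * (T s 5 4 ^ 2 * dl s 4 ^ 4) * dl s 4 ^ 8 := by
          rw [show (12 : ℕ) = 4 + 8 from rfl, pow_add]; simp only [mul_assoc]
      _ = dl s 15 * (up s 1 9 * dl s 9 ^ 2) * dl s 6 ^ 4 * dl s 4 ^ 8 := by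
          rw [e1]; simp only [T, mul_assoc]
      _ = dl s 15 * dl s 10 ^ 2 * (up s 3 7 * dl s 6 ^ 4) * dl s 4 ^ 8 := by
          rw [a1]; simp only [mul_assoc]
      _ = dl s 15 * dl s 10 ^ 2 * dl s 7 ^ 4 * (up s 7 3 * dl s 4 ^ 8) := by
          rw [a2]; simp only [mul_assoc]
      _ = _ := by rw [a3]; simp only [mul_assoc, pow_one]
  rw [w1]
  refine (cyc_up h (c := 15) (i := 7) (k := 3) (r := 1) (by norm_num) (by norm_num) (by norm_num)
    _).trans ?_
  have w2 : dl s 15 ^ 1 * (up s (7 + 1) 3 * (dl s 10 ^ 2 * dl s 7 ^ 4 * dl s 4 ^ 8))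
      = dl s 15 ^ 1 * (dl s 11 ^ 2 * dl s 7 ^ 4 * dl s 4 ^ 8) * up s 10 1 := by
    calc dl s 15 ^ 1 * (up s (7 + 1) 3 * (dl s 10 ^ 2 * dl s 7 ^ 4 * dl s 4 ^ 8))
        = dl s 15 ^ 1 * (up s 8 3 * dl s 10 ^ 2) * dl s 7 ^ 4 * dl s 4 ^ 8 := by
          simp only [mul_assoc]
      _ = dl s 15 ^ 1 * dl s 11 ^ 2 * (up s 10 1 * dl s 7 ^ 4) * dl s 4 ^ 8 := by
          rw [a4]; simp only [mul_assoc]
      _ = dl s 15 ^ 1 * dl s 11 ^ 2 * dl s 7 ^ 4 * (up s 10 1 * dl s 4 ^ 8) := by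
          rw [a5]; simp only [mul_assoc]
      _ = _ := by rw [a6]; simp only [mul_assoc]
  rw [w2]
  refine (cyc_up h (c := 15) (i := 10) (k := 1) (r := 1) (by norm_num) (by norm_num) (by norm_num)
    _).trans ?_
  rw [up_one, show dl s 12 = s 11 * dl s 11 from rfl]
  have : dl s 15 ^ 1 * (s (10 + 1) * (dl s 11 ^ 2 * dl s 7 ^ 4 * dl s 4 ^ 8))
      = dl s 15 * (s 11 * dl s 11) * dl s 11 * dl s 7 ^ 4 * dl s 4 ^ 8 := by
    rw [pow_one, pow_two]; simp only [mul_assoc]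
  rw [this]

/-- **g, y-arm.** -/
theorem gy (h : Br 15 s) :
    IsConj (T s 5 10 * T s 2 8 * T s 4 4 ^ 5 * dl s 4 ^ 8)
      (dl s 15 * dl s 12 * dl s 10 ^ 8 * dl s 8 * dl s 5 ^ 4) := by
  have e1 : T s 4 4 * dl s 4 ^ 4 = dl s 8 * dl s 5 ^ 4 := by
    have := ring h (a := 4) (b := 4) (by norm_num) 1 (by norm_num)
    simpa using this
  have e4 : T s 4 4 ^ 4 * dl s 4 ^ 4 = dl s 8 ^ 8 := by
    have := ring h (a := 4) (b := 4) (by norm_num) 4 (by norm_num)
    rw [this, ← pow_add]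
  have ec : T s 4 4 * dl s 4 ^ 4 = dl s 4 ^ 4 * T s 4 4 :=
    ((T_dl h (a := 4) (b := 4) (c := 4) le_rfl (by norm_num) (by norm_num)).pow_right 4)
  have e5 : T s 4 4 ^ 5 * dl s 4 ^ 8 = dl s 8 ^ 8 * (dl s 8 * dl s 5 ^ 4) := by
    calc T s 4 4 ^ 5 * dl s 4 ^ 8 = T s 4 4 ^ 4 * (T s 4 4 * dl s 4 ^ 4) * dl s 4 ^ 4 := by
          rw [show (5 : ℕ) = 4 + 1 from rfl, show (8 : ℕ) = 4 + 4 from rfl, pow_succ, pow_add]
          simp only [mul_assoc]
      _ = T s 4 4 ^ 4 * (dl s 4 ^ 4 * T s 4 4) * dl s 4 ^ 4 := by rw [ec]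
      _ = (T s 4 4 ^ 4 * dl s 4 ^ 4) * (T s 4 4 * dl s 4 ^ 4) := by simp only [mul_assoc]
      _ = _ := by rw [e4, e1]
  have a1 : up s 1 8 * dl s 8 ^ 8 = dl s 9 ^ 8 := by
    have := up_dl_pow h (c := 8) (i := 1) (k := 0) 8 (by norm_num) (by norm_num) (by norm_num)
      (by norm_num)
    simpa using this
  have a2 : up s 1 10 * dl s 10 ^ 1 = dl s 11 ^ 1 * up s 2 9 :=
    up_dl_pow h (c := 10) (i := 1) (k := 9) 1 (by norm_num) (by norm_num) (by norm_num)
      (by norm_num)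
  have a3 : up s 2 9 * dl s 9 ^ 8 = dl s 10 ^ 8 * up s 10 1 :=
    up_dl_pow h (c := 9) (i := 2) (k := 1) 8 (by norm_num) (by norm_num) (by norm_num)
      (by norm_num)
  rw [pow_one, pow_one] at a2
  have a4 : up s 10 1 * dl s 8 = dl s 8 * up s 10 1 := up_dl_comm h (by norm_num) (by norm_num)
  have a5 : up s 10 1 * dl s 5 ^ 4 = dl s 5 ^ 4 * up s 10 1 :=
    up_dl_comm_pow h (by norm_num) (by norm_num) 4
  have w1 : T s 5 10 * T s 2 8 * T s 4 4 ^ 5 * dl s 4 ^ 8
      = dl s 15 ^ 1 * (dl s 11 * dl s 10 ^ 8 * dl s 8 * dl s 5 ^ 4) * up s 10 1 := by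
    calc T s 5 10 * T s 2 8 * T s 4 4 ^ 5 * dl s 4 ^ 8
        = T s 5 10 * T s 2 8 * (T s 4 4 ^ 5 * dl s 4 ^ 8) := by simp only [mul_assoc]
      _ = T s 5 10 * dl s 10 * (up s 1 8 * dl s 8 ^ 8) * dl s 8 * dl s 5 ^ 4 := by
          rw [e5]; simp only [T, mul_assoc]
      _ = dl s 15 * (up s 1 10 * dl s 10) * dl s 9 ^ 8 * dl s 8 * dl s 5 ^ 4 := by
          rw [a1]; simp only [T, mul_assoc]
      _ = dl s 15 * dl s 11 * (up s 2 9 * dl s 9 ^ 8) * dl s 8 * dl s 5 ^ 4 := by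
          rw [a2]; simp only [mul_assoc]
      _ = dl s 15 * dl s 11 * dl s 10 ^ 8 * (up s 10 1 * dl s 8) * dl s 5 ^ 4 := by
          rw [a3]; simp only [mul_assoc]
      _ = dl s 15 * dl s 11 * dl s 10 ^ 8 * dl s 8 * (up s 10 1 * dl s 5 ^ 4) := by
          rw [a4]; simp only [mul_assoc]
      _ = _ := by rw [a5]; simp only [mul_assoc, pow_one]
  rw [w1]
  refine (cyc_up h (c := 15) (i := 10) (k := 1) (r := 1) (by norm_num) (by norm_num) (by norm_num)
    _).trans ?_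
  rw [up_one, show dl s 12 = s 11 * dl s 11 from rfl]
  have : dl s 15 ^ 1 * (s (10 + 1) * (dl s 11 * dl s 10 ^ 8 * dl s 8 * dl s 5 ^ 4))
      = dl s 15 * (s 11 * dl s 11) * dl s 10 ^ 8 * dl s 8 * dl s 5 ^ 4 := by
    rw [pow_one]; simp only [mul_assoc]
  rw [this]

/-- powers of `T`. -/
lemma T_pow (h : Br n s) {a b : ℕ} (hn : a + b ≤ n) :
    ∀ r : ℕ, r ≤ b → T s b a ^ r
      = dl s (a + b) ^ r * ((List.range r).map fun j => up s (r - j) a).prod := by
  intro r
  induction r with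
  | zero => intro _; simp
  | succ r ih =>
    intro hr
    rw [pow_succ', ih (by omega)]
    unfold T
    rw [mul_assoc, ← mul_assoc (up s 1 a), up_shift_pow h r le_rfl (by omega) hn, List.range_succ_eq_map,
      List.map_cons, List.prod_cons, List.map_map, mul_assoc, ← mul_assoc, ← pow_succ']
    congr 2
    · rw [Nat.sub_zero, Nat.add_comm]
    · congr 1
      refine List.map_congr_left fun j _ => ?_
      simp only [Function.comp]
      rw [Nat.succ_sub_succ]

/-- **f, y-arm.** -/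
theorem fy (h : Br 15 s) :
    IsConj (T s 8 7 ^ 4 * T s 5 2 ^ 4 * T s 1 1 ^ 2)
      (dl s 15 ^ 5 * dl s 11 ^ 3 * dl s 10 ^ 2 * dl s 2 ^ 2) := by
  have e1 : T s 1 1 ^ 2 = dl s 2 ^ 4 := by
    have := ring h (a := 1) (b := 1) (by norm_num) 1 (by norm_num)
    have e : T s 1 1 = dl s 2 ^ 2 := by
      have e' : T s 1 1 = dl s 2 * dl s 2 := by simpa using this
      rw [e', pow_two]
    rw [e, ← pow_mul]
  have e2 : T s 5 2 ^ 4 * dl s 2 ^ 2 = dl s 7 ^ 4 * dl s 6 ^ 2 := by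
    have := ring h (a := 2) (b := 5) (by norm_num) 4 (by norm_num)
    exact this
  have e3 : T s 8 7 ^ 4 = dl s 15 ^ 4 * (up s 4 7 * (up s 3 7 * (up s 2 7 * up s 1 7))) := by
    have := T_pow h (a := 7) (b := 8) (by norm_num) 4 (by norm_num)
    simpa [List.range_succ, mul_assoc] using this
  have c0 : ∀ j, 3 ≤ j → j < 15 → s j * dl s 2 ^ 2 = dl s 2 ^ 2 * s j := fun j hj hj' =>
    (Commute.pow_right (show Commute (s j) (dl s 2) from dl_comm h (by omega) hj') 2)
  -- one `up` through the block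
  have step : ∀ i, 1 ≤ i → i ≤ 4 → ∀ R : G,
      up s i 7 * (dl s (i + 6) ^ 4 * (dl s (i + 5) ^ 2 * (dl s 2 ^ 2 * R)))
        = dl s (i + 7) ^ 4 * (dl s (i + 6) ^ 2 * (dl s 2 ^ 2 * (s (i + 6) * R))) := by
    intro i h1 h4 R
    have b1 : up s i 7 * dl s (i + 6) ^ 4 = dl s (i + 7) ^ 4 * up s (i + 4) 3 :=
      up_dl_pow h (c := i + 6) (i := i) (k := 3) 4 h1 (by omega) (by omega) (by omega)
    have b2 : up s (i + 4) 3 * dl s (i + 5) ^ 2 = dl s (i + 6) ^ 2 * up s (i + 6) 1 :=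
      up_dl_pow h (c := i + 5) (i := i + 4) (k := 1) 2 (by omega) (by omega) (by omega) (by omega)
    rw [← mul_assoc, b1, mul_assoc, ← mul_assoc (up s (i + 4) 3), b2, up_one, mul_assoc,
      ← mul_assoc (s (i + 6)), c0 _ (by omega) (by omega), mul_assoc]
  have w1 : T s 8 7 ^ 4 * T s 5 2 ^ 4 * T s 1 1 ^ 2
      = dl s 15 ^ 4 * (dl s 11 ^ 4 * dl s 10 ^ 2 * dl s 2 ^ 2) * (s 10 * s 9 * s 8 * s 7) := by
    calc T s 8 7 ^ 4 * T s 5 2 ^ 4 * T s 1 1 ^ 2
        = T s 8 7 ^ 4 * (T s 5 2 ^ 4 * dl s 2 ^ 2) * dl s 2 ^ 2 := by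
          rw [e1, show (4 : ℕ) = 2 + 2 from rfl, pow_add (dl s 2)]; simp only [mul_assoc]
      _ = dl s 15 ^ 4 * (up s 4 7 * (up s 3 7 * (up s 2 7 *
            (up s 1 7 * (dl s 7 ^ 4 * (dl s 6 ^ 2 * (dl s 2 ^ 2 * 1))))))) := by
          rw [e2, e3]; simp only [mul_assoc, mul_one]
      _ = _ := by
          rw [step 1 (by norm_num) (by norm_num), step 2 (by norm_num) (by norm_num),
            step 3 (by norm_num) (by norm_num), step 4 (by norm_num) (by norm_num)]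
          simp only [mul_assoc, mul_one]
  rw [w1]
  refine (conj_cyc _ _).trans ?_
  have w2 : s 10 * s 9 * s 8 * s 7 * dl s 15 ^ 4
      = dl s 15 ^ 4 * (s 14 * s 13 * s 12 * s 11) := by
    have sh : ∀ j, 1 ≤ j → j ≤ 10 → s j * dl s 15 ^ 4 = dl s 15 ^ 4 * s (j + 4) := by
      intro j h1 h2
      have := up_shift_pow h (c := 15) (i := j) (k := 1) 4 h1 (by omega) (by norm_num)
      rwa [up_one, up_one] at this
    rw [mul_assoc, sh 7 (by norm_num) (by norm_num), ← mul_assoc, mul_assoc _ (s 8),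
      sh 8 (by norm_num) (by norm_num), ← mul_assoc, mul_assoc _ (s 9),
      sh 9 (by norm_num) (by norm_num), ← mul_assoc, sh 10 (by norm_num) (by norm_num)]
    simp only [mul_assoc]
  have w3 : dl s 15 = s 14 * s 13 * s 12 * s 11 * dl s 11 := by
    rw [show dl s 15 = s 14 * (s 13 * (s 12 * (s 11 * dl s 11))) from rfl]
    simp only [mul_assoc]
  have w4 : s 10 * s 9 * s 8 * s 7 * (dl s 15 ^ 4 * (dl s 11 ^ 4 * dl s 10 ^ 2 * dl s 2 ^ 2))
      = dl s 15 ^ 5 * dl s 11 ^ 3 * dl s 10 ^ 2 * dl s 2 ^ 2 := by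
    calc s 10 * s 9 * s 8 * s 7 * (dl s 15 ^ 4 * (dl s 11 ^ 4 * dl s 10 ^ 2 * dl s 2 ^ 2))
        = (s 10 * s 9 * s 8 * s 7 * dl s 15 ^ 4) * (dl s 11 * dl s 11 ^ 3)
            * dl s 10 ^ 2 * dl s 2 ^ 2 := by
          rw [← pow_succ']; simp only [mul_assoc]
      _ = dl s 15 ^ 4 * (s 14 * s 13 * s 12 * s 11 * dl s 11) * dl s 11 ^ 3
            * dl s 10 ^ 2 * dl s 2 ^ 2 := by
          rw [w2]; simp only [mul_assoc]
      _ = _ := by rw [← w3, ← pow_succ]
  rw [w4]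

end Crest.Agent.R267.Word_310
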