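import Mathlib

/-!
Certificate for S0407: an explicit integer combination of the distribution relations
`R_3(v/u) = [v/u] - [3v/u] - [1/3 - v/u] - [1/3 + v/u]`, `u = 50033` prime, with equal zeta products at
both levels `u` and `3u`, and with nonzero total number of reduced weights.
-/

set_option autoImplicit false

namespace Crest.Agent.R267.ZCert_106

/-- The prime `u`. -/
def u : ℕ := 50033

/-- Pairs `(v, n)` with positive coefficient `n`. -/
def pos : List (ℕ × ℕ) := [
  (337,3), (353,7), (383,4), (433,6), (614,3), (630,5), (653,6), (699,7), (728,2), (747,5),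
  (818,2), (989,7), (1051,3), (1127,5), (1256,1), (1435,2), (1668,1), (1933,2), (1962,5),
  (1994,5), (2025,2), (2045,7), (2066,2), (2089,7), (2314,2), (2363,3), (2658,3), (2711,7),
  (2729,4), (2789,1), (2793,1), (2843,5), (3072,8), (3141,1), (3155,2), (3169,1), (3188,1),
  (3327,7), (3343,5), (3397,3), (3445,4), (3644,9), (3678,6), (3709,1), (3785,3), (3817,3),
  (3854,1), (4064,3), (4068,4), (4073,4), (4117,1), (4132,2), (4187,1), (4205,7), (4299,2),
  (4323,3), (4429,7), (4506,3), (4604,6), (4633,2), (4691,1), (4699,5), (5053,2), (5115,3),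
  (5163,7), (5231,1), (5429,5), (5433,5), (5507,1), (5548,4), (5578,4), (5711,8), (5717,2),
  (5722,1), (5799,2), (5843,5), (5921,5), (6028,2), (6257,1), (6329,9), (6376,1), (6467,7),
  (6521,5), (6614,5), (6673,1), (6706,1), (6717,2), (6805,4), (6864,1), (7109,3), (7121,5),
  (7227,2), (7283,2), (7403,4), (7516,7), (7708,4), (7754,2), (7764,1), (7779,3), (7786,1),
  (7825,4), (7936,1), (7968,5), (7997,4), (8057,1), (8172,3), (8193,6), (8202,2), (8226,2),
  (8418,4), (8442,8), (8461,7), (8582,1), (8659,5), (8694,1), (8851,3), (9008,1), (9011,7),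
  (9116,2), (9346,9), (9363,4), (9364,2), (9447,4), (9545,5), (9691,1), (9825,1), (9867,1),
  (9898,8), (10136,1), (10228,1), (10235,4), (10322,5), (10353,7), (10386,9), (10424,11),
  (10474,3), (10483,3), (10497,2), (10550,1), (10583,3), (10598,7), (10699,8), (10939,3),
  (10946,5), (10955,2), (11072,1), (11073,3), (11198,2), (11209,3), (11222,3), (11288,2),
  (11293,5), (11614,2), (11622,3), (11669,1), (11697,8), (11701,1), (11723,1), (11763,8),
  (11771,1), (11842,2), (11927,1), (12024,3), (12049,1), (12061,2), (12173,3), (12269,1),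
  (12278,2), (12292,1), (12317,1), (12338,3), (12403,2), (12534,3), (12591,4), (12657,7),
  (12677,5), (12681,1), (12701,5), (12717,1), (12721,1), (12774,5), (12842,17), (13021,1),
  (13115,2), (13180,1), (13228,2), (13371,2), (13439,1), (13578,3), (13630,2), (13718,2),
  (13746,3), (13755,1), (13772,1), (13853,3), (13918,8), (13948,4), (13995,2), (14067,3),
  (14140,2), (14177,2), (14270,2), (14285,2), (14353,1), (14404,6), (14621,3), (14784,1),
  (14853,2), (15077,6), (15152,4), (15216,9), (15415,4), (15455,7), (15493,8), (15506,3),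
  (15510,2), (15535,1), (15662,2), (15665,2), (15762,2), (15770,1), (15789,5), (15793,3),
  (15798,2), (15889,3), (15941,4), (16023,2), (16056,1), (16073,3), (16090,8), (16101,1),
  (16114,2), (16168,8), (16194,1), (16248,3), (16270,5), (16334,4), (16364,9), (16393,3),
  (16429,4), (16450,2), (16544,2), (16573,5), (16598,2), (16623,4), (16633,2), (16643,4),
  (16661,1)]

/-- Pairs `(v, n)` with negative coefficient `-n`. -/
def neg : List (ℕ × ℕ) := [
  (44,4), (51,5), (218,1), (262,6), (264,5), (277,3), (325,6), (414,5), (566,2), (669,2),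
  (706,2), (813,1), (863,2), (991,1), (997,2), (1022,6), (1061,1), (1153,4), (1184,5), (1255,1),
  (1429,3), (1524,4), (1527,1), (1553,3), (1622,4), (1681,4), (1707,7), (1753,1), (1926,2),
  (2044,6), (2138,2), (2160,3), (2233,4), (2302,3), (2324,1), (2405,7), (2439,4), (2601,2),
  (2757,1), (2846,2), (2889,4), (3088,6), (3116,1), (3362,1), (3448,2), (3473,6), (3690,3),
  (3692,4), (3736,3), (3758,5), (3793,5), (3897,3), (4193,2), (4314,4), (4322,4), (4395,3),
  (4466,9), (4507,2), (4582,8), (4628,3), (4779,6), (4831,1), (4858,3), (4908,3), (4909,1),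
  (5183,2), (5186,5), (5193,3), (5326,3), (5387,1), (5407,7), (5477,6), (5522,4), (5571,1),
  (5801,3), (6057,5), (6220,6), (6357,2), (6405,3), (6413,2), (6470,2), (6506,4), (6536,2),
  (6734,6), (6861,3), (6905,3), (7069,6), (7083,3), (7151,3), (7184,5), (7417,3), (7465,1),
  (7517,1), (7520,5), (7543,6), (7555,9), (7585,1), (7649,7), (7713,3), (7729,1), (7739,9),
  (7822,6), (7837,1), (7885,5), (7957,1), (8068,5), (8101,7), (8111,6), (8219,2), (8264,3),
  (8318,6), (8338,3), (8390,4), (8395,2), (8410,2), (8564,5), (8628,2), (8672,1), (8678,5),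
  (8704,1), (8794,1), (9025,7), (9105,4), (9158,3), (9209,5), (9403,4), (9413,4), (9480,3),
  (9519,7), (9578,1), (9627,6), (9730,1), (9753,6), (9755,3), (9818,1), (9894,5), (9998,1),
  (10042,3), (10059,2), (10121,3), (10222,4), (10375,1), (10432,2), (10458,4), (10499,5),
  (10529,3), (10621,1), (10688,4), (10737,8), (10774,1), (10798,5), (10887,4), (10919,5),
  (11089,1), (11208,3), (11262,2), (11303,6), (11306,5), (11391,2), (11411,5), (11498,6),
  (11536,1), (11643,1), (11657,2), (11727,2), (11939,2), (11955,2), (11996,6), (12038,3),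
  (12048,4), (12098,2), (12102,1), (12187,4), (12485,7), (12558,2), (12593,1), (12824,2),
  (12869,4), (13029,3), (13042,1), (13097,9), (13151,2), (13172,1), (13317,2), (13347,4),
  (13360,2), (13361,2), (13383,1), (13391,4), (13475,1), (13490,1), (13558,2), (13593,5),
  (13699,4), (13749,6), (13763,3), (13828,1), (13876,2), (13906,3), (13986,10), (13994,5),
  (14137,2), (14322,1), (14334,2), (14401,1), (14507,3), (14522,1), (14687,1), (14799,2),
  (14947,8), (15202,3), (15210,1), (15317,3), (15401,5), (15407,7), (15501,2), (15515,7),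
  (15601,7), (15754,1), (15765,4), (15779,4), (15842,4), (15883,4), (15921,4), (15944,1),
  (15993,1), (16041,6), (16055,4), (16074,3), (16133,10), (16150,3), (16174,4), (16259,8),
  (16274,6), (16378,1), (16441,3), (16458,1), (16497,1), (16522,2), (16533,13), (16636,3),
  (16658,5), (16660,6)]

/-- `∏ (F v) ^ n` over a list of pairs. -/
def lprod (F : ℕ → ℕ) (l : List (ℕ × ℕ)) : ℕ :=
  l.foldr (fun p r => F p.1 ^ p.2 * r) 1

theorem u_prime : Nat.Prime 50033 := by norm_num

theorem range_pos : ∀ p ∈ pos, 0 < p.1 ∧ 3 * p.1 < 50033 ∧ 0 < p.2 := by decide +kernel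

theorem range_neg : ∀ p ∈ neg, 0 < p.1 ∧ 3 * p.1 < 50033 ∧ 0 < p.2 := by decide +kernel

theorem nodup_vs : ((pos ++ neg).map Prod.fst).Nodup := by decide +kernel

/-- Zeta identity at level `u`. -/
theorem zeta_u :
    lprod (fun v => 3 * (50033 - v)) pos * lprod (fun v => 50033 - 3 * v) neg
      = lprod (fun v => 50033 - 3 * v) pos * lprod (fun v => 3 * (50033 - v)) neg := by
  decide +kernel

/-- Zeta identity at level `3u`. -/
theorem zeta_3u :
    lprod (fun v => (50033 - 3 * v) * (50033 + 3 * v)) pos
        * lprod (fun v => (2 * 50033 + 3 * v) * (2 * 50033 - 3 * v)) neg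
      = lprod (fun v => (2 * 50033 + 3 * v) * (2 * 50033 - 3 * v)) pos
        * lprod (fun v => (50033 - 3 * v) * (50033 + 3 * v)) neg := by
  decide +kernel

/-- Sum of the coefficients is `9` (odd). -/
theorem sum_coeff : (pos.map Prod.snd).sum = (neg.map Prod.snd).sum + 9 := by decide +kernel

/-- number of reduced weights (in units of 2): `v < u/6` counts `-1`, `v > u/6` counts `+1`. -/
theorem sum_weights :
    ((pos.filter fun p => 50033 < 6 * p.1).map Prod.snd).sum
        + ((neg.filter fun p => 6 * p.1 < 50033).map Prod.snd).sum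
      = ((pos.filter fun p => 6 * p.1 < 50033).map Prod.snd).sum
        + ((neg.filter fun p => 50033 < 6 * p.1).map Prod.snd).sum + 37 := by decide +kernel

/-- cardinality bookkeeping: the positive part has `74` more weights than the negative part. -/
theorem card_id :
    (List.map (fun p : ℕ × ℕ => p.2 * if 6 * p.1 < 50033 then 1 else 3) pos).sum +
      (List.map (fun p : ℕ × ℕ => p.2 * if 6 * p.1 < 50033 then 3 else 1) neg).sum =
    (List.map (fun p : ℕ × ℕ => p.2 * if 6 * p.1 < 50033 then 3 else 1) pos).sum +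
        (List.map (fun p : ℕ × ℕ => p.2 * if 6 * p.1 < 50033 then 1 else 3) neg).sum +
      74 := by decide +kernel

end Crest.Agent.R267.ZCert_106
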