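import Mathlib
import Crest.Agent.R267.ZCert_106

/-!
MASTER LEMMA for S0407: the spectra (mod 2) of two weighted homogeneous Thom-Sebastiani sums whose
weights differ by the certificate `z` agree.

Weights are written `a / m`, `0 < a < m`, `m = 3 u`, `u = 50033`.  `IsSpec m W S` says that the integer
polynomial `S` is the spectrum `∏ (T^w - T) / (1 - T^w)`, `T = X ^ m`, of the multiset of weights `W`.
-/

set_option autoImplicit false

namespace Crest.Agent.R267.ZSpec_106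

open Polynomial

/-- `S` is the spectral polynomial of the weights `a/m`, `a ∈ W`. -/
def IsSpec (m : ℕ) (W : Multiset ℕ) (S : ℤ[X]) : Prop :=
  S * (W.map fun a => (1 - X ^ a : ℤ[X])).prod = (W.map fun a => (X ^ a - X ^ m : ℤ[X])).prod

theorem IsSpec.mul {m : ℕ} {W W' : Multiset ℕ} {S S' : ℤ[X]} (h : IsSpec m W S)
    (h' : IsSpec m W' S') : IsSpec m (W + W') (S * S') := by
  unfold IsSpec at *
  rw [Multiset.map_add, Multiset.prod_add, Multiset.map_add, Multiset.prod_add, ← h, ← h']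
  ring

theorem IsSpec.zero (m : ℕ) : IsSpec m 0 1 := by simp [IsSpec]

theorem one_sub_X_pow_ne {a : ℕ} (ha : 0 < a) : (1 - X ^ a : ℤ[X]) ≠ 0 := by
  intro h
  have := congrArg (fun p : ℤ[X] => p.coeff 0) h
  simp only [coeff_sub, coeff_one_zero, coeff_X_pow, coeff_zero] at this
  rw [if_neg (by omega)] at this
  norm_num at this

theorem prod_ne {W : Multiset ℕ} (hW : ∀ a ∈ W, 0 < a) :
    (W.map fun a => (1 - X ^ a : ℤ[X])).prod ≠ 0 := by
  rw [Ne, Multiset.prod_eq_zero_iff]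
  intro h
  obtain ⟨a, ha, h⟩ := Multiset.mem_map.1 h
  exact one_sub_X_pow_ne (hW a ha) h

theorem IsSpec.unique {m : ℕ} {W : Multiset ℕ} {S S' : ℤ[X]} (hW : ∀ a ∈ W, 0 < a)
    (h : IsSpec m W S) (h' : IsSpec m W S') : S = S' := by
  unfold IsSpec at *
  exact mul_right_cancel₀ (prod_ne hW) (h.trans h'.symm)

/-- spectrum of `x ^ b`, `m = b * c`: weights `{c}`, polynomial `∑_{1 ≤ i < b} X ^ (c i)`. -/
theorem isSpec_pow {b c : ℕ} (hb : 0 < b) :
    IsSpec (b * c) {c} (∑ i ∈ Finset.range (b - 1), X ^ (c * (i + 1))) := by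
  unfold IsSpec
  rw [Multiset.map_singleton, Multiset.prod_singleton, Multiset.map_singleton,
    Multiset.prod_singleton]
  have h := geom_sum_mul_neg (X ^ c : ℤ[X]) (b - 1)
  have e : (∑ i ∈ Finset.range (b - 1), X ^ (c * (i + 1)) : ℤ[X])
      = X ^ c * ∑ i ∈ Finset.range (b - 1), (X ^ c) ^ i := by
    rw [Finset.mul_sum]
    refine Finset.sum_congr rfl fun i _ => ?_
    rw [← pow_mul, ← pow_add]; ring_nf
  rw [e, mul_assoc, h, mul_sub, mul_one, ← pow_mul, ← pow_add]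
  congr 2
  obtain ⟨k, rfl⟩ : ∃ k, b = k + 1 := ⟨b - 1, by omega⟩
  simp; ring

/-! ### evaluation at roots of unity -/

/-- value of the factor at an odd point (`ζ ^ m = -1`). -/
noncomputable def g (ζ : ℂ) (a : ℕ) : ℂ := (ζ ^ a + 1) / (1 - ζ ^ a)

open Classical in
/-- value of the factor at an even point (`ζ ^ m = 1`). -/
noncomputable def G (m : ℕ) (ζ : ℂ) (a : ℕ) : ℂ :=
  if ζ ^ a = 1 then ((m : ℂ) - a) / a else -1

theorem aeval_odd {m : ℕ} {W : Multiset ℕ} {S : ℤ[X]} {ζ : ℂ} (h : IsSpec m W S)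
    (hm : ζ ^ m = -1) (hW : ∀ a ∈ W, ζ ^ a ≠ 1) :
    aeval ζ S = (W.map (g ζ)).prod := by
  have h2 := congrArg (aeval ζ) h
  rw [map_mul, map_multiset_prod, map_multiset_prod, Multiset.map_map, Multiset.map_map] at h2
  have e1 : (W.map (aeval ζ ∘ fun a => (1 - X ^ a : ℤ[X]))).prod
      = (W.map fun a => 1 - ζ ^ a).prod := by
    congr 1; refine Multiset.map_congr rfl fun a _ => ?_; simp
  have e2 : (W.map (aeval ζ ∘ fun a => (X ^ a - X ^ m : ℤ[X]))).prod
      = (W.map fun a => ζ ^ a + 1).prod := by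
    congr 1; refine Multiset.map_congr rfl fun a _ => ?_; simp [hm]
  rw [e1, e2] at h2
  have e3 : (W.map (g ζ)).prod = (W.map fun a => ζ ^ a + 1).prod / (W.map fun a => 1 - ζ ^ a).prod := by
    rw [← Multiset.prod_map_div]; rfl
  have hne : (W.map fun a => 1 - ζ ^ a).prod ≠ 0 := by
    rw [Ne, Multiset.prod_eq_zero_iff]
    intro h
    obtain ⟨a, ha, h⟩ := Multiset.mem_map.1 h
    exact hW a ha (sub_eq_zero.1 h).symm
  rw [e3, eq_div_iff hne, h2]

/-- local factorisation at an even point. -/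
theorem local_factor {m a : ℕ} {ζ : ℂ} (hm : ζ ^ m = 1) (ha : 0 < a) (ham : a < m) :
    ∃ (e : ℕ) (P Q : ℂ[X]), (1 - X ^ a : ℂ[X]) = (X - C ζ) ^ e * P ∧
      (X ^ a - X ^ m : ℂ[X]) = (X - C ζ) ^ e * Q ∧ P.eval ζ ≠ 0 ∧
      Q.eval ζ = G m ζ a * P.eval ζ := by
  classical
  have hζ : ζ ≠ 0 := by
    rintro rfl
    rw [zero_pow (by omega)] at hm
    exact zero_ne_one hm
  by_cases h : ζ ^ a = 1
  · have r1 : (1 - X ^ a : ℂ[X]).IsRoot ζ := by simp [IsRoot, h]
    have r2 : (X ^ a - X ^ m : ℂ[X]).IsRoot ζ := by simp [IsRoot, h, hm]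
    obtain ⟨P, hP⟩ := dvd_iff_isRoot.2 r1
    obtain ⟨Q, hQ⟩ := dvd_iff_isRoot.2 r2
    have dP : P.eval ζ = -(a * ζ ^ (a - 1)) := by
      have := congrArg (fun p : ℂ[X] => (derivative p).eval ζ) hP
      simp only [derivative_sub, derivative_one, derivative_X_pow, derivative_mul, derivative_X,
        derivative_C, eval_sub, eval_mul, eval_add, eval_X, eval_C, sub_self,
        zero_mul, one_mul, add_zero, zero_sub, sub_zero] at this
      rw [← this]; simp
    have dQ : Q.eval ζ = a * ζ ^ (a - 1) - m * ζ ^ (m - 1) := by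
      have := congrArg (fun p : ℂ[X] => (derivative p).eval ζ) hQ
      simp only [derivative_sub, derivative_X_pow, derivative_mul, derivative_X,
        derivative_C, eval_sub, eval_mul, eval_add, eval_X, eval_C, sub_self,
        zero_mul, one_mul, add_zero, sub_zero] at this
      rw [← this]; simp
    have ia : ζ ^ (a - 1) = ζ⁻¹ := by
      apply eq_inv_of_mul_eq_one_left
      rw [← pow_succ, Nat.sub_add_cancel ha, h]
    have im : ζ ^ (m - 1) = ζ⁻¹ := by
      apply eq_inv_of_mul_eq_one_left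
      rw [← pow_succ, Nat.sub_add_cancel (by omega), hm]
    have ha0 : (a : ℂ) ≠ 0 := by exact_mod_cast ha.ne'
    refine ⟨1, P, Q, by rw [pow_one]; exact hP, by rw [pow_one]; exact hQ, ?_, ?_⟩
    · rw [dP, ia]; exact neg_ne_zero.2 (mul_ne_zero ha0 (inv_ne_zero hζ))
    · rw [dQ, dP, ia, im, G, if_pos h]
      field_simp
      ring
  · refine ⟨0, 1 - X ^ a, X ^ a - X ^ m, by simp, by simp, ?_, ?_⟩
    · simp only [eval_sub, eval_one, eval_pow, eval_X]
      exact sub_ne_zero.2 (Ne.symm h)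
    · simp [G, h, hm]

theorem multi_factor {m : ℕ} {ζ : ℂ} (hm : ζ ^ m = 1) (W : Multiset ℕ)
    (hW : ∀ a ∈ W, 0 < a ∧ a < m) :
    ∃ (e : ℕ) (P Q : ℂ[X]), (W.map fun a => (1 - X ^ a : ℂ[X])).prod = (X - C ζ) ^ e * P ∧
      (W.map fun a => (X ^ a - X ^ m : ℂ[X])).prod = (X - C ζ) ^ e * Q ∧ P.eval ζ ≠ 0 ∧
      Q.eval ζ = (W.map (G m ζ)).prod * P.eval ζ := by
  induction W using Multiset.induction_on with
  | empty => exact ⟨0, 1, 1, by simp, by simp, by simp, by simp⟩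
  | cons a W ih =>
    obtain ⟨e, P, Q, h1, h2, h3, h4⟩ := ih fun b hb => hW b (Multiset.mem_cons_of_mem hb)
    obtain ⟨ha, ham⟩ := hW a (Multiset.mem_cons_self a W)
    obtain ⟨e', P', Q', h1', h2', h3', h4'⟩ := local_factor hm ha ham
    refine ⟨e' + e, P' * P, Q' * Q, ?_, ?_, ?_, ?_⟩
    · rw [Multiset.map_cons, Multiset.prod_cons, h1, h1']; ring
    · rw [Multiset.map_cons, Multiset.prod_cons, h2, h2']; ring
    · rw [eval_mul]; exact mul_ne_zero h3' h3
    · rw [eval_mul, eval_mul, h4, h4', Multiset.map_cons, Multiset.prod_cons]; ring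

theorem aeval_even {m : ℕ} {W : Multiset ℕ} {S : ℤ[X]} {ζ : ℂ} (h : IsSpec m W S)
    (hm : ζ ^ m = 1) (hW : ∀ a ∈ W, 0 < a ∧ a < m) :
    aeval ζ S = (W.map (G m ζ)).prod := by
  obtain ⟨e, P, Q, h1, h2, h3, h4⟩ := multi_factor hm W hW
  have h5 := congrArg (Polynomial.map (Int.castRingHom ℂ)) h
  rw [Polynomial.map_mul, Polynomial.map_multiset_prod, Polynomial.map_multiset_prod,
    Multiset.map_map, Multiset.map_map] at h5
  have e1 : (W.map (Polynomial.map (Int.castRingHom ℂ) ∘ fun a => (1 - X ^ a : ℤ[X]))).prod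
      = (W.map fun a => (1 - X ^ a : ℂ[X])).prod := by
    congr 1; refine Multiset.map_congr rfl fun a _ => ?_; simp
  have e2 : (W.map (Polynomial.map (Int.castRingHom ℂ) ∘ fun a => (X ^ a - X ^ m : ℤ[X]))).prod
      = (W.map fun a => (X ^ a - X ^ m : ℂ[X])).prod := by
    congr 1; refine Multiset.map_congr rfl fun a _ => ?_; simp
  rw [e1, e2, h1, h2] at h5
  have hX : (X - C ζ : ℂ[X]) ^ e ≠ 0 := pow_ne_zero _ (X_sub_C_ne_zero ζ)
  have h6 : Polynomial.map (Int.castRingHom ℂ) S * P = Q := by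
    apply mul_left_cancel₀ hX
    rw [← h5]; ring
  have h7 := congrArg (Polynomial.eval ζ) h6
  rw [eval_mul, h4] at h7
  have h8 := mul_right_cancel₀ h3 h7
  rw [← h8, aeval_def, eval_map]
  rfl

/-- A polynomial vanishing at all `2m`-th roots of unity is divisible by `X^(2m) - 1`. -/
theorem dvd_of_roots {M : ℕ} (hM : 0 < M) {P : ℤ[X]} (h : ∀ ζ : ℂ, ζ ^ M = 1 → aeval ζ P = 0) :
    (X ^ M - 1 : ℤ[X]) ∣ P := by
  have hmon : (X ^ M - 1 : ℤ[X]).Monic := by
    simpa using monic_X_pow_sub_C (1 : ℤ) hM.ne'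
  have hmap : Polynomial.map (Int.castRingHom ℂ) (X ^ M - 1 : ℤ[X]) = X ^ M - 1 := by simp
  rw [← Polynomial.map_dvd_map (Int.castRingHom ℂ) Int.cast_injective hmon, hmap]
  have hs : (X ^ M - 1 : ℂ[X]) = ∏ ζ ∈ nthRootsFinset M (1 : ℂ), (X - C ζ) :=
    X_pow_sub_one_eq_prod hM (Complex.isPrimitiveRoot_exp M hM.ne')
  rw [hs]
  apply Finset.prod_dvd_of_coprime
  · intro a _ b _ hab
    exact isCoprime_X_sub_C_of_isUnit_sub (sub_ne_zero.2 hab).isUnit
  · intro ζ hζ
    rw [mem_nthRootsFinset hM] at hζ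
    rw [dvd_iff_isRoot, IsRoot, eval_map]
    exact h ζ hζ

end Crest.Agent.R267.ZSpec_106
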