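import Mathlib
import Crest.Agent.R267.ZSpec_106

/-!
MASTER LEMMA for S0407 (second half): spectra mod 2 agree, from the explicit certificate.
`m = 3 u = 150099`, `u = 50033`.
-/

set_option autoImplicit false

namespace Crest.Agent.R267.ZMaster_106

open Polynomial Crest.Agent.R267.ZCert_106 Crest.Agent.R267.ZSpec_106

attribute [local irreducible] Crest.Agent.R267.ZCert_106.pos Crest.Agent.R267.ZCert_106.neg

/-- positive part of the relation `R_3(v/u)` (numerators over `3u`, folded into `(0, 1/2)`). -/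
def posPart (v : ℕ) : Multiset ℕ :=
  if 6 * v < 50033 then {3 * v} else {3 * v, 150099 - 9 * v, 150099 - (50033 + 3 * v)}

/-- negative part of the relation `R_3(v/u)`. -/
def negPart (v : ℕ) : Multiset ℕ :=
  if 6 * v < 50033 then {9 * v, 50033 - 3 * v, 50033 + 3 * v} else {50033 - 3 * v}

/-- multiset sum over a list of pairs. -/
def msum (F : ℕ → Multiset ℕ) (l : List (ℕ × ℕ)) : Multiset ℕ :=
  l.foldr (fun p r => p.2 • F p.1 + r) 0

/-- positive part of `z`. -/
def Zpos : Multiset ℕ := msum posPart pos + msum negPart neg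

/-- negative part of `z`. -/
def Zneg : Multiset ℕ := msum negPart pos + msum posPart neg

theorem mem_msum {F : ℕ → Multiset ℕ} {l : List (ℕ × ℕ)} {a : ℕ} (h : a ∈ msum F l) :
    ∃ p ∈ l, a ∈ F p.1 := by
  induction l with
  | nil => simp [msum] at h
  | cons p l ih =>
    simp only [msum, List.foldr_cons, Multiset.mem_add] at h
    rcases h with h | h
    · exact ⟨p, by simp, Multiset.mem_of_mem_nsmul h⟩
    · obtain ⟨q, hq, h⟩ := ih h
      exact ⟨q, by simp [hq], h⟩

theorem posPart_range {v a : ℕ} (hv : 0 < v) (hv3 : 3 * v < 50033) (h : a ∈ posPart v) :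
    0 < a ∧ 2 * a < 150099 := by
  unfold posPart at h
  split_ifs at h with h6
  · simp at h; omega
  · simp at h; omega

theorem negPart_range {v a : ℕ} (hv : 0 < v) (hv3 : 3 * v < 50033) (h : a ∈ negPart v) :
    0 < a ∧ 2 * a < 150099 := by
  unfold negPart at h
  split_ifs at h with h6
  · simp at h; omega
  · simp at h; omega

theorem Zpos_range : ∀ a ∈ Zpos, 0 < a ∧ 2 * a < 150099 := by
  intro a h
  unfold Zpos at h
  rcases Multiset.mem_add.1 h with h | h
  · obtain ⟨p, hp, h⟩ := mem_msum h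
    obtain ⟨h1, h2, -⟩ := range_pos p hp
    exact posPart_range h1 h2 h
  · obtain ⟨p, hp, h⟩ := mem_msum h
    obtain ⟨h1, h2, -⟩ := range_neg p hp
    exact negPart_range h1 h2 h

theorem Zneg_range : ∀ a ∈ Zneg, 0 < a ∧ 2 * a < 150099 := by
  intro a h
  unfold Zneg at h
  rcases Multiset.mem_add.1 h with h | h
  · obtain ⟨p, hp, h⟩ := mem_msum h
    obtain ⟨h1, h2, -⟩ := range_pos p hp
    exact negPart_range h1 h2 h
  · obtain ⟨p, hp, h⟩ := mem_msum h
    obtain ⟨h1, h2, -⟩ := range_neg p hp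
    exact posPart_range h1 h2 h

/-- complex product over a list of pairs. -/
noncomputable def cprod (F : ℕ → ℂ) (l : List (ℕ × ℕ)) : ℂ :=
  l.foldr (fun p r => F p.1 ^ p.2 * r) 1

theorem prod_msum (f : ℕ → ℂ) (F : ℕ → Multiset ℕ) (l : List (ℕ × ℕ)) :
    ((msum F l).map f).prod = cprod (fun v => ((F v).map f).prod) l := by
  induction l with
  | nil => simp [msum, cprod]
  | cons p l ih =>
    simp only [msum, cprod, List.foldr_cons, Multiset.map_add, Multiset.prod_add,
      Multiset.map_nsmul, Multiset.prod_nsmul] at *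
    rw [ih]

theorem cast_lprod (F : ℕ → ℕ) (l : List (ℕ × ℕ)) :
    ((lprod F l : ℕ) : ℂ) = cprod (fun v => (F v : ℂ)) l := by
  induction l with
  | nil => simp [lprod, cprod]
  | cons p l ih =>
    simp only [lprod, cprod, List.foldr_cons, Nat.cast_mul, Nat.cast_pow] at *
    rw [ih]

theorem cprod_ne {F : ℕ → ℂ} {l : List (ℕ × ℕ)} (h : ∀ p ∈ l, F p.1 ≠ 0) : cprod F l ≠ 0 := by
  induction l with
  | nil => simp [cprod]
  | cons p l ih =>
    simp only [cprod, List.foldr_cons] at *
    exact mul_ne_zero (pow_ne_zero _ (h p (by simp))) (ih fun q hq => h q (by simp [hq]))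

theorem cprod_rel {D E num den : ℕ → ℂ} {l : List (ℕ × ℕ)}
    (h : ∀ p ∈ l, D p.1 * den p.1 = E p.1 * num p.1) :
    cprod D l * cprod den l = cprod E l * cprod num l := by
  induction l with
  | nil => simp [cprod]
  | cons p l ih =>
    have ih' := ih fun q hq => h q (by simp [hq])
    simp only [cprod, List.foldr_cons] at *
    have h1 := h p (by simp)
    calc _ = (D p.1 * den p.1) ^ p.2 * (List.foldr (fun p r => D p.1 ^ p.2 * r) 1 l
          * List.foldr (fun p r => den p.1 ^ p.2 * r) 1 l) := by rw [mul_pow]; ring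
      _ = _ := by rw [h1, ih', mul_pow]; ring

theorem cprod_neg_one (l : List (ℕ × ℕ)) :
    cprod (fun _ => (-1 : ℂ)) l = (-1) ^ (l.map Prod.snd).sum := by
  induction l with
  | nil => simp [cprod]
  | cons p l ih =>
    simp only [cprod, List.foldr_cons, List.map_cons, List.sum_cons] at *
    rw [ih, pow_add]

theorem cprod_one (l : List (ℕ × ℕ)) : cprod (fun _ => (1 : ℂ)) l = 1 := by
  induction l with
  | nil => simp [cprod]
  | cons p l ih =>
    simp only [cprod, List.foldr_cons] at *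
    rw [ih]; simp

theorem part_rel {F : ℕ → ℂ} {ε : ℂ} (hε : ε * ε = 1) {v : ℕ}
    (h9 : F (150099 - 9 * v) * F (9 * v) = ε)
    (h3 : F (150099 - (50033 + 3 * v)) * F (50033 + 3 * v) = ε) {num den : ℂ}
    (h : F (3 * v) * den = F (9 * v) * F (50033 - 3 * v) * F (50033 + 3 * v) * num) :
    ((posPart v).map F).prod * den = ((negPart v).map F).prod * num := by
  unfold posPart negPart
  split_ifs with h6
  · simp only [Multiset.map_singleton, Multiset.prod_singleton, Multiset.insert_eq_cons,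
      Multiset.map_cons, Multiset.prod_cons]
    rw [h]; ring
  · simp only [Multiset.map_singleton, Multiset.prod_singleton, Multiset.insert_eq_cons,
      Multiset.map_cons, Multiset.prod_cons]
    calc F (3 * v) * (F (150099 - 9 * v) * F (150099 - (50033 + 3 * v))) * den
        = (F (3 * v) * den) * (F (150099 - 9 * v) * F (150099 - (50033 + 3 * v))) := by ring
      _ = (F (150099 - 9 * v) * F (9 * v))
          * (F (150099 - (50033 + 3 * v)) * F (50033 + 3 * v)) * (F (50033 - 3 * v) * num) := by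
            rw [h]; ring
      _ = _ := by rw [h9, h3, hε, one_mul]

/-- total relation, from the pointwise relation and the product identity. -/
theorem total_rel {F : ℕ → ℂ} {num den : ℕ → ℂ}
    (hp : ∀ p ∈ pos, ((posPart p.1).map F).prod * den p.1 = ((negPart p.1).map F).prod * num p.1)
    (hn : ∀ p ∈ neg, ((posPart p.1).map F).prod * den p.1 = ((negPart p.1).map F).prod * num p.1) :
    (Zpos.map F).prod * (cprod den pos * cprod num neg)
      = (Zneg.map F).prod * (cprod num pos * cprod den neg) := by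
  unfold Zpos Zneg
  rw [Multiset.map_add, Multiset.prod_add, Multiset.map_add, Multiset.prod_add, prod_msum,
    prod_msum, prod_msum, prod_msum]
  have h1 := cprod_rel (D := fun v => ((posPart v).map F).prod)
    (E := fun v => ((negPart v).map F).prod) hp
  have h2 := cprod_rel (D := fun v => ((posPart v).map F).prod)
    (E := fun v => ((negPart v).map F).prod) hn
  calc _ = (cprod (fun v => ((posPart v).map F).prod) pos * cprod den pos)
        * (cprod (fun v => ((negPart v).map F).prod) neg * cprod num neg) := by ring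
    _ = (cprod (fun v => ((negPart v).map F).prod) pos * cprod num pos)
        * (cprod (fun v => ((posPart v).map F).prod) neg * cprod den neg) := by rw [h1, ← h2]
    _ = _ := by ring

/-! ### odd points -/

theorem g_fold {ζ : ℂ} {a : ℕ} (hm : ζ ^ 150099 = -1) (ha : a ≤ 150099) (h1 : ζ ^ a ≠ 1)
    (h2 : ζ ^ a ≠ -1) : g ζ (150099 - a) * g ζ a = -1 := by
  have hζ : ζ ≠ 0 := by
    rintro rfl
    rw [zero_pow (by norm_num)] at hm
    norm_num at hm
  have e : ζ ^ (150099 - a) * ζ ^ a = -1 := by rw [← pow_add, Nat.sub_add_cancel ha, hm]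
  unfold g
  set y := ζ ^ a
  set x := ζ ^ (150099 - a)
  have hy : y ≠ 0 := pow_ne_zero _ hζ
  have hx1 : 1 - x ≠ 0 := by
    intro h
    have : x = 1 := (sub_eq_zero.1 h).symm
    rw [this, one_mul] at e
    exact h2 e
  have hy1 : 1 - y ≠ 0 := sub_ne_zero.2 (Ne.symm h1)
  rw [div_mul_div_comm, div_eq_iff (mul_ne_zero hx1 hy1)]
  linear_combination 2 * e

theorem g_rel {ζ : ℂ} {v : ℕ} (hv3 : 3 * v < 50033) (hm : ζ ^ 150099 = -1) (hu : ζ ^ 50033 ≠ -1)
    (n1 : ζ ^ (3 * v) ≠ 1) (n2 : ζ ^ (9 * v) ≠ 1) (n3 : ζ ^ (50033 - 3 * v) ≠ 1)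
    (n4 : ζ ^ (50033 + 3 * v) ≠ 1) :
    g ζ (3 * v) * 1 = g ζ (9 * v) * g ζ (50033 - 3 * v) * g ζ (50033 + 3 * v) * (-1) := by
  have hζ : ζ ≠ 0 := by
    rintro rfl
    rw [zero_pow (by norm_num)] at hm
    norm_num at hm
  set η := ζ ^ 50033 with hη
  set y := ζ ^ (3 * v) with hy
  have hy0 : y ≠ 0 := pow_ne_zero _ hζ
  have hη3 : η ^ 3 = -1 := by rw [hη, ← pow_mul]; exact hm
  have hη2 : η ^ 2 - η + 1 = 0 := by
    have : (η + 1) * (η ^ 2 - η + 1) = 0 := by linear_combination hη3
    rcases mul_eq_zero.1 this with h | h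
    · exact absurd (eq_neg_of_add_eq_zero_left h) hu
    · exact h
  have e9 : ζ ^ (9 * v) = y ^ 3 := by rw [hy, ← pow_mul]; congr 1; ring
  have em : ζ ^ (50033 - 3 * v) = η / y := by
    rw [eq_div_iff hy0, hy, hη, ← pow_add, Nat.sub_add_cancel hv3.le]
  have ep : ζ ^ (50033 + 3 * v) = η * y := by rw [hη, hy, ← pow_add]
  rw [e9] at n2
  rw [em] at n3
  rw [ep] at n4
  unfold g
  rw [e9, em, ep, ← hy]
  have d1 : 1 - y ≠ 0 := sub_ne_zero.2 (Ne.symm n1)
  have d2 : 1 - y ^ 3 ≠ 0 := sub_ne_zero.2 (Ne.symm n2)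
  have d3 : 1 - η / y ≠ 0 := sub_ne_zero.2 (Ne.symm n3)
  have d3' : y - η ≠ 0 := by
    intro h
    apply n3
    rw [sub_eq_zero] at h
    rw [← h, div_self hy0]
  have d4 : 1 - η * y ≠ 0 := sub_ne_zero.2 (Ne.symm n4)
  have e3 : (η / y + 1) / (1 - η / y) = (η + y) / (y - η) := by
    rw [div_eq_div_iff d3 d3']
    field_simp
  rw [e3, mul_one, div_mul_div_comm, div_mul_div_comm, mul_neg, mul_one, ← neg_div,
    div_eq_div_iff d1 (mul_ne_zero (mul_ne_zero d2 d3') d4)]
  linear_combination (y * ((y + 1) * (1 - y ^ 3) + (1 - y) * (y ^ 3 + 1))) * hη2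

/-- at a non-killed odd point `ζ ^ a ≠ ± 1` for all `0 < a < m`. -/
theorem odd_point {ζ : ℂ} (hm : ζ ^ 150099 = -1) (hu : ζ ^ 50033 ≠ -1) (h3 : ζ ^ 3 ≠ -1)
    {a : ℕ} (ha : 0 < a) (ham : a < 150099) : ζ ^ a ≠ 1 ∧ ζ ^ a ≠ -1 := by
  have key : (ζ ^ 2) ^ a ≠ 1 := by
    intro h
    have hm2 : (ζ ^ 2) ^ 150099 = 1 := by rw [← pow_mul, mul_comm, pow_mul, hm]; norm_num
    have hd := orderOf_dvd_of_pow_eq_one hm2
    have hda := orderOf_dvd_of_pow_eq_one h
    set d := orderOf (ζ ^ 2)
    have hd' : d ∣ 3 * 50033 := hd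
    have c3 : 3 ∣ d := by
      by_contra hc
      have hcop : Nat.Coprime d 3 := ((Nat.Prime.coprime_iff_not_dvd (by norm_num)).2 hc).symm
      have := hcop.dvd_of_dvd_mul_left hd'
      have h1 : (ζ ^ 2) ^ 50033 = 1 := orderOf_dvd_iff_pow_eq_one.1 this
      have h2 : (ζ ^ 50033) ^ 2 = 1 := by rw [← h1, ← pow_mul, ← pow_mul]
      rcases mul_self_eq_one_iff.1 ((sq _).symm.trans h2) with h | h
      · have : ζ ^ 150099 = 1 := by
          have e : ζ ^ 150099 = (ζ ^ 50033) ^ 3 := by rw [← pow_mul]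
          rw [e, h]; norm_num
        rw [hm] at this; norm_num at this
      · exact hu h
    have cu : 50033 ∣ d := by
      by_contra hc
      have hcop : Nat.Coprime d 50033 := ((Nat.Prime.coprime_iff_not_dvd u_prime).2 hc).symm
      have := hcop.dvd_of_dvd_mul_right hd'
      have h1 : (ζ ^ 2) ^ 3 = 1 := orderOf_dvd_iff_pow_eq_one.1 this
      have h2 : (ζ ^ 3) ^ 2 = 1 := by rw [← h1, ← pow_mul, ← pow_mul]
      rcases mul_self_eq_one_iff.1 ((sq _).symm.trans h2) with h | h
      · have : ζ ^ 150099 = 1 := by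
          have e : ζ ^ 150099 = (ζ ^ 3) ^ 50033 := by rw [← pow_mul]
          rw [e, h, one_pow]
        rw [hm] at this; norm_num at this
      · exact h3 h
    have c : 3 * 50033 ∣ d := Nat.Coprime.mul_dvd_of_dvd_of_dvd (by norm_num) c3 cu
    have := Nat.le_of_dvd ha (c.trans hda)
    omega
  constructor
  · intro h; apply key; rw [← pow_mul, mul_comm, pow_mul, h]; norm_num
  · intro h; apply key; rw [← pow_mul, mul_comm, pow_mul, h]; norm_num

/-- numerator/denominator data at an odd point. -/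
theorem Z_odd {ζ : ℂ} (hm : ζ ^ 150099 = -1) (hu : ζ ^ 50033 ≠ -1) (h3 : ζ ^ 3 ≠ -1) :
    (Zpos.map (g ζ)).prod = - (Zneg.map (g ζ)).prod := by
  have hrel : ∀ v, 0 < v → 3 * v < 50033 →
      ((posPart v).map (g ζ)).prod * (fun _ : ℕ => (1 : ℂ)) v
        = ((negPart v).map (g ζ)).prod * (fun _ : ℕ => (-1 : ℂ)) v := by
    intro v hv hv3
    refine part_rel (ε := -1) (by norm_num)
      (g_fold hm (by omega) (odd_point hm hu h3 (by omega) (by omega)).1
        (odd_point hm hu h3 (by omega) (by omega)).2)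
      (g_fold hm (by omega) (odd_point hm hu h3 (by omega) (by omega)).1
        (odd_point hm hu h3 (by omega) (by omega)).2)
      (g_rel hv3 hm hu (odd_point hm hu h3 (by omega) (by omega)).1
        (odd_point hm hu h3 (by omega) (by omega)).1
        (odd_point hm hu h3 (by omega) (by omega)).1
        (odd_point hm hu h3 (by omega) (by omega)).1)
  have h := total_rel (F := g ζ) (num := fun _ => (-1 : ℂ)) (den := fun _ => (1 : ℂ))
    (fun p hp => hrel p.1 (range_pos p hp).1 (range_pos p hp).2.1)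
    (fun p hp => hrel p.1 (range_neg p hp).1 (range_neg p hp).2.1)
  rw [cprod_one, cprod_one, cprod_neg_one, cprod_neg_one, sum_coeff, one_mul, mul_one, pow_add]
    at h
  have hs : ((-1 : ℂ) ^ (neg.map Prod.snd).sum) ≠ 0 := pow_ne_zero _ (by norm_num)
  apply mul_right_cancel₀ hs
  rw [h]; ring

/-! ### even points -/

theorem G_fold {ζ : ℂ} {a : ℕ} (hm : ζ ^ 150099 = 1) (ha : 0 < a) (ham : a < 150099) :
    G 150099 ζ (150099 - a) * G 150099 ζ a = 1 := by
  have hζ : ζ ≠ 0 := by
    rintro rfl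
    rw [zero_pow (by norm_num)] at hm
    norm_num at hm
  have e : ζ ^ (150099 - a) * ζ ^ a = 1 := by rw [← pow_add, Nat.sub_add_cancel ham.le, hm]
  by_cases h : ζ ^ a = 1
  · have h' : ζ ^ (150099 - a) = 1 := by rw [h, mul_one] at e; exact e
    rw [G, G, if_pos h, if_pos h', Nat.cast_sub ham.le]
    have h1 : (a : ℂ) ≠ 0 := by exact_mod_cast ha.ne'
    have h2 : ((150099 : ℕ) : ℂ) - a ≠ 0 := by
      rw [sub_ne_zero]; exact_mod_cast ham.ne'
    field_simp
    ring
  · have h' : ζ ^ (150099 - a) ≠ 1 := by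
      intro h'; rw [h', one_mul] at e; exact h e
    rw [G, G, if_neg h, if_neg h']; norm_num

/-- level `u` product identity, complex form. -/
theorem zeta_u_c :
    cprod (fun v => ((3 * (50033 - v) : ℕ) : ℂ)) pos * cprod (fun v => ((50033 - 3 * v : ℕ) : ℂ)) neg
      = cprod (fun v => ((50033 - 3 * v : ℕ) : ℂ)) pos
        * cprod (fun v => ((3 * (50033 - v) : ℕ) : ℂ)) neg := by
  rw [← cast_lprod, ← cast_lprod, ← cast_lprod, ← cast_lprod, ← Nat.cast_mul, ← Nat.cast_mul,
    zeta_u]

/-- level `3u` product identity, complex form. -/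
theorem zeta_3u_c :
    cprod (fun v => (((50033 - 3 * v) * (50033 + 3 * v) : ℕ) : ℂ)) pos
        * cprod (fun v => (((2 * 50033 + 3 * v) * (2 * 50033 - 3 * v) : ℕ) : ℂ)) neg
      = cprod (fun v => (((2 * 50033 + 3 * v) * (2 * 50033 - 3 * v) : ℕ) : ℂ)) pos
        * cprod (fun v => (((50033 - 3 * v) * (50033 + 3 * v) : ℕ) : ℂ)) neg := by
  rw [← cast_lprod, ← cast_lprod, ← cast_lprod, ← cast_lprod, ← Nat.cast_mul, ← Nat.cast_mul,
    zeta_3u]

theorem cprod_mul (F F' : ℕ → ℂ) (l : List (ℕ × ℕ)) :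
    cprod (fun v => F v * F' v) l = cprod F l * cprod F' l := by
  induction l with
  | nil => simp [cprod]
  | cons p l ih =>
    simp only [cprod, List.foldr_cons] at *
    rw [ih, mul_pow]; ring

/-- even point with `ζ ^ 3 ≠ 1`. -/
theorem Z_even_generic {ζ : ℂ} (hm : ζ ^ 150099 = 1) (h3 : ζ ^ 3 ≠ 1) :
    (Zpos.map (G 150099 ζ)).prod = (Zneg.map (G 150099 ζ)).prod := by
  have hord : orderOf (ζ ^ 3) = 50033 := by
    have : Fact (Nat.Prime 50033) := ⟨u_prime⟩
    exact orderOf_eq_prime (by rw [← pow_mul]; exact hm) h3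
  have key : ∀ a, ¬ 50033 ∣ a → G 150099 ζ a = -1 := by
    intro a ha
    rw [G, if_neg]
    intro h
    apply ha
    rw [← hord, orderOf_dvd_iff_pow_eq_one, ← pow_mul, mul_comm, pow_mul, h, one_pow]
  have hv' : ∀ v, 0 < v → 3 * v < 50033 → ¬ 50033 ∣ 9 * v := by
    intro v hv hv3 h
    rcases (Nat.Prime.dvd_mul u_prime).1 h with h | h
    · norm_num at h
    · have := Nat.le_of_dvd hv h; omega
  have hrel : ∀ v, 0 < v → 3 * v < 50033 →
      ((posPart v).map (G 150099 ζ)).prod * (fun _ : ℕ => (1 : ℂ)) v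
        = ((negPart v).map (G 150099 ζ)).prod * (fun _ : ℕ => (1 : ℂ)) v := by
    intro v hv hv3
    refine part_rel (ε := 1) (by norm_num) (G_fold hm (by omega) (by omega))
      (G_fold hm (by omega) (by omega)) ?_
    rw [key (3 * v) (by omega), key (9 * v) (hv' v hv hv3), key (50033 - 3 * v) (by omega),
      key (50033 + 3 * v) (by omega)]
    norm_num
  have h := total_rel (F := G 150099 ζ) (num := fun _ => (1 : ℂ)) (den := fun _ => (1 : ℂ))
    (fun p hp => hrel p.1 (range_pos p hp).1 (range_pos p hp).2.1)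
    (fun p hp => hrel p.1 (range_neg p hp).1 (range_neg p hp).2.1)
  rw [cprod_one, cprod_one, mul_one, mul_one, mul_one] at h
  exact h

/-- even point of order exactly `3`. -/
theorem Z_even_three {ζ : ℂ} (h3 : ζ ^ 3 = 1) (h1 : ζ ≠ 1) :
    (Zpos.map (G 150099 ζ)).prod = (Zneg.map (G 150099 ζ)).prod := by
  have hm : ζ ^ 150099 = 1 := by
    have e : ζ ^ 150099 = (ζ ^ 3) ^ 50033 := by rw [← pow_mul]
    rw [e, h3, one_pow]
  have hord : orderOf ζ = 3 := by
    have : Fact (Nat.Prime 3) := ⟨by norm_num⟩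
    exact orderOf_eq_prime h3 h1
  have key : ∀ a, ¬ 3 ∣ a → G 150099 ζ a = -1 := by
    intro a ha
    rw [G, if_neg]
    intro h
    apply ha
    rw [← hord, orderOf_dvd_iff_pow_eq_one, h]
  have key' : ∀ a, 3 ∣ a → G 150099 ζ a = (((150099 : ℕ) : ℂ) - a) / a := by
    intro a ha
    rw [G, if_pos]
    rw [← hord, orderOf_dvd_iff_pow_eq_one] at ha
    exact ha
  have hrel : ∀ v, 0 < v → 3 * v < 50033 →
      ((posPart v).map (G 150099 ζ)).prod * (fun v : ℕ => ((50033 - 3 * v : ℕ) : ℂ)) v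
        = ((negPart v).map (G 150099 ζ)).prod * (fun v : ℕ => ((3 * (50033 - v) : ℕ) : ℂ)) v := by
    intro v hv hv3
    refine part_rel (ε := 1) (by norm_num) (G_fold hm (by omega) (by omega))
      (G_fold hm (by omega) (by omega)) ?_
    beta_reduce
    rw [key' (3 * v) (by omega), key' (9 * v) (by omega), key (50033 - 3 * v) (by omega),
      key (50033 + 3 * v) (by omega), Nat.cast_sub hv3.le, Nat.cast_mul 3 (50033 - v),
      Nat.cast_sub (by omega : v ≤ 50033)]
    have hv0 : (v : ℂ) ≠ 0 := by exact_mod_cast hv.ne'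
    push_cast
    field_simp
    ring
  have h := total_rel (F := G 150099 ζ) (num := fun v : ℕ => ((3 * (50033 - v) : ℕ) : ℂ))
    (den := fun v : ℕ => ((50033 - 3 * v : ℕ) : ℂ))
    (fun p hp => hrel p.1 (range_pos p hp).1 (range_pos p hp).2.1)
    (fun p hp => hrel p.1 (range_neg p hp).1 (range_neg p hp).2.1)
  have hne : cprod (fun v => ((3 * (50033 - v) : ℕ) : ℂ)) pos
      * cprod (fun v => ((50033 - 3 * v : ℕ) : ℂ)) neg ≠ 0 := by
    refine mul_ne_zero (cprod_ne fun p hp => ?_) (cprod_ne fun p hp => ?_)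
    · have := range_pos p hp
      exact_mod_cast (by omega : 3 * (50033 - p.1) ≠ 0)
    · have := range_neg p hp
      exact_mod_cast (by omega : 50033 - 3 * p.1 ≠ 0)
  apply mul_right_cancel₀ hne
  rw [← h, zeta_u_c]

/-- the point `ζ = 1`. -/
theorem Z_even_one :
    (Zpos.map (G 150099 1)).prod = (Zneg.map (G 150099 1)).prod := by
  have key' : ∀ a, G 150099 1 a = (((150099 : ℕ) : ℂ) - a) / a := by
    intro a
    rw [G, if_pos (one_pow a)]
  have hrel : ∀ v, 0 < v → 3 * v < 50033 →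
      ((posPart v).map (G 150099 1)).prod
          * (fun v : ℕ => ((50033 - 3 * v : ℕ) : ℂ)
            * (((2 * 50033 + 3 * v) * (2 * 50033 - 3 * v) : ℕ) : ℂ)) v
        = ((negPart v).map (G 150099 1)).prod * (fun v : ℕ => ((3 * (50033 - v) : ℕ) : ℂ)
            * (((50033 - 3 * v) * (50033 + 3 * v) : ℕ) : ℂ)) v := by
    intro v hv hv3
    refine part_rel (ε := 1) (by norm_num) (G_fold (one_pow _) (by omega) (by omega))
      (G_fold (one_pow _) (by omega) (by omega)) ?_
    beta_reduce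
    rw [key', key', key', key', Nat.cast_mul (2 * 50033 + 3 * v) (2 * 50033 - 3 * v),
      Nat.cast_sub (by omega : 3 * v ≤ 2 * 50033), Nat.cast_mul 3 (50033 - v),
      Nat.cast_sub (by omega : v ≤ 50033), Nat.cast_mul (50033 - 3 * v) (50033 + 3 * v),
      Nat.cast_sub hv3.le]
    have hv0 : (v : ℂ) ≠ 0 := by exact_mod_cast hv.ne'
    have h1 : (50033 : ℂ) - 3 * v ≠ 0 := by
      rw [sub_ne_zero]; exact_mod_cast (by omega : 50033 ≠ 3 * v)
    have h2 : (50033 : ℂ) + 3 * v ≠ 0 := by exact_mod_cast (by omega : 50033 + 3 * v ≠ 0)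
    push_cast
    field_simp
    ring
  have h := total_rel (F := G 150099 1)
    (num := fun v : ℕ => ((3 * (50033 - v) : ℕ) : ℂ)
            * (((50033 - 3 * v) * (50033 + 3 * v) : ℕ) : ℂ))
    (den := fun v : ℕ => ((50033 - 3 * v : ℕ) : ℂ)
            * (((2 * 50033 + 3 * v) * (2 * 50033 - 3 * v) : ℕ) : ℂ))
    (fun p hp => hrel p.1 (range_pos p hp).1 (range_pos p hp).2.1)
    (fun p hp => hrel p.1 (range_neg p hp).1 (range_neg p hp).2.1)
  rw [cprod_mul, cprod_mul, cprod_mul, cprod_mul] at h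
  have hne : (cprod (fun v => ((3 * (50033 - v) : ℕ) : ℂ)) pos
      * cprod (fun v => ((50033 - 3 * v : ℕ) : ℂ)) neg)
      * (cprod (fun v => (((50033 - 3 * v) * (50033 + 3 * v) : ℕ) : ℂ)) pos
        * cprod (fun v => (((2 * 50033 + 3 * v) * (2 * 50033 - 3 * v) : ℕ) : ℂ)) neg) ≠ 0 := by
    refine mul_ne_zero (mul_ne_zero (cprod_ne fun p hp => ?_) (cprod_ne fun p hp => ?_))
      (mul_ne_zero (cprod_ne fun p hp => ?_) (cprod_ne fun p hp => ?_))
    · have := range_pos p hp
      exact_mod_cast (by omega : 3 * (50033 - p.1) ≠ 0)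
    · have := range_neg p hp
      exact_mod_cast (by omega : 50033 - 3 * p.1 ≠ 0)
    · have := range_pos p hp
      have h1 : 50033 - 3 * p.1 ≠ 0 := by omega
      have h2 : 50033 + 3 * p.1 ≠ 0 := by omega
      exact_mod_cast mul_ne_zero h1 h2
    · have := range_neg p hp
      have h1 : 2 * 50033 + 3 * p.1 ≠ 0 := by omega
      have h2 : 2 * 50033 - 3 * p.1 ≠ 0 := by omega
      exact_mod_cast mul_ne_zero h1 h2
  apply mul_right_cancel₀ hne
  calc _ = (Zpos.map (G 150099 1)).prod * ((cprod (fun v => ((50033 - 3 * v : ℕ) : ℂ)) pos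
        * cprod (fun v => ((3 * (50033 - v) : ℕ) : ℂ)) neg)
        * (cprod (fun v => (((2 * 50033 + 3 * v) * (2 * 50033 - 3 * v) : ℕ) : ℂ)) pos
        * cprod (fun v => (((50033 - 3 * v) * (50033 + 3 * v) : ℕ) : ℂ)) neg)) := by
          rw [zeta_u_c, zeta_3u_c]
    _ = (Zpos.map (G 150099 1)).prod * ((cprod (fun v => ((50033 - 3 * v : ℕ) : ℂ)) pos
        * cprod (fun v => (((2 * 50033 + 3 * v) * (2 * 50033 - 3 * v) : ℕ) : ℂ)) pos)
        * (cprod (fun v => ((3 * (50033 - v) : ℕ) : ℂ)) neg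
        * cprod (fun v => (((50033 - 3 * v) * (50033 + 3 * v) : ℕ) : ℂ)) neg)) := by ring
    _ = _ := by rw [h]; ring

/-! ### master theorem -/

/-- **Master lemma.** If the weights of `Wp` and `Wm` differ by the certificate `z` then, after
multiplication by the spectrum of the killers, the spectra agree modulo `T ^ 2 = 1`
(`T = X ^ m`, up to the factor `T` at odd points: `74` squares). -/
theorem spec_dvd {Wp Wm : Multiset ℕ} {Sp Sm SA : ℤ[X]}
    (hW : Wp + Zneg = Wm + Zpos)
    (hp : ∀ a ∈ Wp, 0 < a ∧ a < 150099) (hm : ∀ a ∈ Wm, 0 < a ∧ a < 150099)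
    (hSp : IsSpec 150099 Wp Sp) (hSm : IsSpec 150099 Wm Sm)
    (hA : ∀ ζ : ℂ, ζ ^ 150099 = -1 → (ζ ^ 50033 = -1 ∨ ζ ^ 3 = -1) → aeval ζ SA = 0) :
    (X ^ (2 * 150099) - 1 : ℤ[X]) ∣ SA * (Sp - X ^ 150099 * Sm) := by
  apply dvd_of_roots (by norm_num)
  intro ζ hζ
  have hT : ζ ^ 150099 = 1 ∨ ζ ^ 150099 = -1 := by
    apply mul_self_eq_one_iff.1
    rw [← pow_add]; exact hζ
  have hprod : ∀ F : ℕ → ℂ, (Wp.map F).prod * (Zneg.map F).prod
      = (Wm.map F).prod * (Zpos.map F).prod := by
    intro F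
    rw [← Multiset.prod_add, ← Multiset.map_add, hW, Multiset.map_add, Multiset.prod_add]
  rw [map_mul, map_sub, map_mul, map_pow, aeval_X]
  rcases hT with hT | hT
  · rw [aeval_even hSp hT hp, aeval_even hSm hT hm, hT, one_mul]
    have hZ : (Zpos.map (G 150099 ζ)).prod = (Zneg.map (G 150099 ζ)).prod := by
      by_cases h3 : ζ ^ 3 = 1
      · by_cases h1 : ζ = 1
        · rw [h1]; exact Z_even_one
        · exact Z_even_three h3 h1
      · exact Z_even_generic hT h3
    have hne : (Zneg.map (G 150099 ζ)).prod ≠ 0 := by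
      rw [Ne, Multiset.prod_eq_zero_iff]
      intro h
      obtain ⟨a, ha, h⟩ := Multiset.mem_map.1 h
      have hr := Zneg_range a ha
      have := G_fold (a := a) hT hr.1 (by omega)
      rw [h, mul_zero] at this
      exact zero_ne_one this
    have h := hprod (G 150099 ζ)
    rw [hZ] at h
    rw [mul_right_cancel₀ hne h, sub_self, mul_zero]
  · by_cases hk : ζ ^ 50033 = -1 ∨ ζ ^ 3 = -1
    · rw [hA ζ hT hk, zero_mul]
    · push Not at hk
      obtain ⟨hu, h3⟩ := hk
      rw [aeval_odd hSp hT fun a ha => (odd_point hT hu h3 (hp a ha).1 (hp a ha).2).1,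
        aeval_odd hSm hT fun a ha => (odd_point hT hu h3 (hm a ha).1 (hm a ha).2).1, hT]
      have hne : (Zneg.map (g ζ)).prod ≠ 0 := by
        rw [Ne, Multiset.prod_eq_zero_iff]
        intro h
        obtain ⟨a, ha, h⟩ := Multiset.mem_map.1 h
        have hr := Zneg_range a ha
        have ho := odd_point (a := a) hT hu h3 hr.1 (by omega)
        rw [g, div_eq_zero_iff] at h
        rcases h with h | h
        · exact ho.2 (eq_neg_of_add_eq_zero_left h)
        · exact ho.1 (sub_eq_zero.1 h).symm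
      have h := hprod (g ζ)
      rw [Z_odd hT hu h3] at h
      have h' : (Wp.map (g ζ)).prod = -(Wm.map (g ζ)).prod := by
        apply mul_right_cancel₀ hne
        rw [h]; ring
      rw [h']; ring

/-- the killers `x^3` and `y^u`: their spectra vanish at the killed points. -/
theorem killers {S : ℤ[X]} {ζ : ℂ} (hζ : ζ ^ 150099 = -1) (hk : ζ ^ 50033 = -1 ∨ ζ ^ 3 = -1) :
    aeval ζ (S * (∑ i ∈ Finset.range (3 - 1), X ^ (50033 * (i + 1)))
      * (∑ i ∈ Finset.range (50033 - 1), X ^ (3 * (i + 1)))) = 0 := by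
  have h0 : ζ ≠ 0 := by
    rintro rfl
    rw [zero_pow (by norm_num)] at hζ
    norm_num at hζ
  rw [map_mul, map_mul, map_sum, map_sum]
  simp only [map_pow, aeval_X]
  rcases hk with h | h
  · have : (∑ i ∈ Finset.range (3 - 1), ζ ^ (50033 * (i + 1))) = 0 := by
      rw [show (3 - 1 : ℕ) = 2 by norm_num, Finset.sum_range_succ, Finset.sum_range_one, pow_mul,
        pow_mul, h]
      norm_num
    rw [this, mul_zero, zero_mul]
  · have : (∑ i ∈ Finset.range (50033 - 1), ζ ^ (3 * (i + 1))) = 0 := by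
      have e : ∀ i ∈ Finset.range (50033 - 1), ζ ^ (3 * (i + 1)) = (-1) * (-1) ^ i := by
        intro i _
        rw [pow_mul, h, pow_succ]; ring
      rw [Finset.sum_congr rfl e, ← Finset.mul_sum, neg_one_geom_sum]
      rw [if_pos (by decide), mul_zero]
    rw [this, mul_zero]

/-- number of variables: `74` more reduced weights on the positive side. -/
theorem card_Z : Zpos.card = Zneg.card + 74 := by
  have hc : ∀ (F : ℕ → Multiset ℕ) (l : List (ℕ × ℕ)),
      (msum F l).card = (l.map fun p => p.2 * (F p.1).card).sum := by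
    intro F l
    induction l with
    | nil => simp [msum]
    | cons p l ih =>
      simp only [msum, List.foldr_cons, Multiset.card_add, Multiset.card_nsmul, List.map_cons,
        List.sum_cons] at *
      rw [ih]
  have h1 : ∀ v, (posPart v).card = if 6 * v < 50033 then 1 else 3 := by
    intro v; unfold posPart; split_ifs <;> simp
  have h2 : ∀ v, (negPart v).card = if 6 * v < 50033 then 3 else 1 := by
    intro v; unfold negPart; split_ifs <;> simp
  unfold Zpos Zneg
  rw [Multiset.card_add, Multiset.card_add, hc, hc, hc, hc]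
  simp only [h1, h2]
  exact card_id

end Crest.Agent.R267.ZMaster_106
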