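import Mathlib
import Crest.Agent.R267.NdP_484

/-!
# Row 267, N2, path A (helper399): the ZONE theorem, abstract form

`zone` : a sum `∑_{p ∈ T} V^{p.1} W^{p.2} c_p`, `|c_p| = 1`, over a strictly convex polygon `T`, has
no conormal at its zeros for `V` small and ALL `W > 0`, as soon as for ADJACENT `p, q` the phases
`c_p = - c_q` imply that the phase gradients `(a_p, b_p)`, `(a_q, b_q)` are different.
-/

set_option autoImplicit false
set_option linter.unusedSectionVars false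

noncomputable section

open Set Filter Topology Finset
open scoped ComplexConjugate
open Crest.Agent.R267.NdP_484

namespace Crest.Agent.R267.ZoneA_399

/-- real monomial. -/
def mr (p : ℕ × ℕ) (V W : ℝ) : ℝ := V ^ p.1 * W ^ p.2

theorem mr_pos (p : ℕ × ℕ) {V W : ℝ} (hV : 0 < V) (hW : 0 < W) : 0 < mr p V W :=
  mul_pos (pow_pos hV _) (pow_pos hW _)

variable {T : Finset (ℕ × ℕ)}

theorem rel_real (h : Conv T) {p m q : ℕ × ℕ} (hp : p ∈ T) (hm : m ∈ T) (hq : q ∈ T)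
    (h1 : p.1 < m.1) (h2 : m.1 < q.1) :
    ∃ a b e : ℕ, 0 < a ∧ 0 < b ∧ 0 < e ∧ ∀ V W : ℝ,
      mr p V W ^ a * mr q V W ^ b = mr m V W ^ (a + b) * V ^ e := by
  obtain ⟨a, b, e, ha, hb, he, H⟩ := rel h hp hm hq h1 h2
  refine ⟨a, b, e, ha, hb, he, fun V W => ?_⟩
  have := H (V : ℂ) (W : ℂ)
  unfold mon at this
  unfold mr
  exact_mod_cast this

variable {κ : Type*} [TopologicalSpace κ] [FirstCountableTopology κ] {K : Set κ}
  {c : ℕ × ℕ → κ → ℂ} {a b : ℕ × ℕ → κ → ℝ}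

/-- the sum with real weights `y` on `T`, multiplied by `w`. -/
def SS (T : Finset (ℕ × ℕ)) (w : ℕ × ℕ → κ → ℂ) (x : (T → ℝ) × κ × ℂ) : ℂ :=
  ∑ p : T, (x.1 p : ℂ) * w p x.2.1

theorem SS_cont {w : ℕ × ℕ → κ → ℂ} (hw : ∀ p ∈ T, ContinuousOn (w p) K) (S : Set (T → ℝ))
    (B : Set ℂ) : ContinuousOn (SS T w) (S ×ˢ (K ×ˢ B)) := by
  unfold SS
  refine continuousOn_finsetSum _ fun p _ => ?_
  refine ContinuousOn.mul ?_ ?_
  · exact (Complex.continuous_ofReal.comp ((continuous_apply p).comp continuous_fst)).continuousOn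
  · exact (hw p p.2).comp (continuous_fst.comp continuous_snd).continuousOn fun x hx => hx.2.1

/-- limits of zeros are zeros. -/
theorem lim_zero {X : Type*} [TopologicalSpace X] {S : Set X} {G : X → ℝ} (hG : ContinuousOn G S)
    {x : ℕ → X} (hx : ∀ n, x n ∈ S) {φ : ℕ → ℕ} {z : X} (hz : z ∈ S)
    (ht : Tendsto (x ∘ φ) atTop (𝓝 z)) (h0 : ∀ n, G (x n) = 0) : G z = 0 := by
  have h1 : Tendsto (x ∘ φ) atTop (𝓝[S] z) :=
    tendsto_nhdsWithin_iff.2 ⟨ht, Eventually.of_forall fun n => hx _⟩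
  have h2 : Tendsto (G ∘ (x ∘ φ)) atTop (𝓝 (G z)) := (hG z hz).tendsto.comp h1
  have h3 : Tendsto (G ∘ (x ∘ φ)) atTop (𝓝 0) := by
    refine tendsto_const_nhds.congr fun n => ?_
    exact (h0 _).symm
  exact tendsto_nhds_unique h2 h3

/-- the two term case. -/
theorem two {p q : ℕ × ℕ} (hpq : q.2 < p.2) {zp zq : ℝ} (hzp : 0 < zp) (hzq : 0 < zq)
    {cp cq ζ : ℂ} {ap aq bp bq : ℝ} (hcp : ‖cp‖ = 1) (hcq : ‖cq‖ = 1) (hζ : ‖ζ‖ = 1)
    (e0 : (zp : ℂ) * cp + (zq : ℂ) * cq = 0)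
    (e1 : (conj ζ * ((zp : ℂ) * ((p.2 : ℂ) * cp) + (zq : ℂ) * ((q.2 : ℂ) * cq))).re = 0)
    (e2 : (conj ζ * ((zp : ℂ) * ((ap : ℂ) * (Complex.I * cp)) +
      (zq : ℂ) * ((aq : ℂ) * (Complex.I * cq)))).re = 0)
    (e3 : (conj ζ * ((zp : ℂ) * ((bp : ℂ) * (Complex.I * cp)) +
      (zq : ℂ) * ((bq : ℂ) * (Complex.I * cq)))).re = 0) :
    cp + cq = 0 ∧ ap = aq ∧ bp = bq := by
  have h1 : (zp : ℂ) * cp = -((zq : ℂ) * cq) := eq_neg_of_add_eq_zero_left e0
  have h2 : zp = zq := by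
    have := congrArg norm h1
    rw [norm_neg, norm_mul, norm_mul, Complex.norm_real, Complex.norm_real, hcp, hcq,
      Real.norm_eq_abs, Real.norm_eq_abs, abs_of_pos hzp, abs_of_pos hzq, mul_one, mul_one] at this
    exact this
  subst h2
  have hz : (zp : ℂ) ≠ 0 := by exact_mod_cast hzp.ne'
  have h3 : cq = -cp := by
    have : (zp : ℂ) * cp = (zp : ℂ) * (-cq) := by rw [h1]; ring
    rw [mul_left_cancel₀ hz this, neg_neg]
  subst h3
  set w : ℂ := conj ζ * cp with hw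
  have hwn : ‖w‖ = 1 := by rw [hw, norm_mul, RCLike.norm_conj, hζ, hcp, mul_one]
  have f1 : w.re = 0 := by
    have : conj ζ * ((zp : ℂ) * ((p.2 : ℂ) * cp) + (zp : ℂ) * ((q.2 : ℂ) * (-cp))) =
        ((zp * ((p.2 : ℝ) - (q.2 : ℝ)) : ℝ) : ℂ) * w := by
      rw [hw]; push_cast; ring
    rw [this, Complex.re_ofReal_mul] at e1
    rcases mul_eq_zero.1 e1 with h | h
    · exfalso
      have hlt : (q.2 : ℝ) < (p.2 : ℝ) := by exact_mod_cast hpq
      have := mul_pos hzp (sub_pos.2 hlt)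
      linarith
    · exact h
  have f2 : w.im ≠ 0 := by
    intro h
    have : w = 0 := Complex.ext f1 h
    rw [this, norm_zero] at hwn
    exact zero_ne_one hwn
  have key : ∀ x y : ℝ, (conj ζ * ((zp : ℂ) * ((x : ℂ) * (Complex.I * cp)) +
      (zp : ℂ) * ((y : ℂ) * (Complex.I * -cp)))).re = 0 → x = y := by
    intro x y h
    have : conj ζ * ((zp : ℂ) * ((x : ℂ) * (Complex.I * cp)) +
        (zp : ℂ) * ((y : ℂ) * (Complex.I * -cp))) =
        ((zp * (x - y) : ℝ) : ℂ) * (Complex.I * w) := by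
      rw [hw]; push_cast; ring
    rw [this, Complex.re_ofReal_mul, Complex.I_mul_re] at h
    rcases mul_eq_zero.1 h with h | h
    · rcases mul_eq_zero.1 h with h | h
      · exact absurd h hzp.ne'
      · linarith
    · exact absurd (neg_eq_zero.1 h) f2
  exact ⟨by ring, key _ _ e2, key _ _ e3⟩

set_option maxHeartbeats 1000000 in
/-- **ZONE theorem.** -/
theorem zone (hT : Conv T) (hK : IsCompact K) (hc : ∀ p ∈ T, ContinuousOn (c p) K)
    (ha : ∀ p ∈ T, ContinuousOn (a p) K) (hb : ∀ p ∈ T, ContinuousOn (b p) K)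
    (hc1 : ∀ p ∈ T, ∀ k ∈ K, ‖c p k‖ = 1)
    (hadj : ∀ p ∈ T, ∀ q ∈ T, p.1 < q.1 → (∀ m ∈ T, ¬ (p.1 < m.1 ∧ m.1 < q.1)) → ∀ k ∈ K,
      c p k + c q k = 0 → a p k ≠ a q k ∨ b p k ≠ b q k) :
    ∃ δ > 0, ∀ V W : ℝ, 0 < V → V < δ → 0 < W → ∀ k ∈ K,
      ∑ p ∈ T, (mr p V W : ℂ) * c p k = 0 → ∀ ζ : ℂ,
      (conj ζ * ∑ p ∈ T, (mr p V W : ℂ) * ((p.2 : ℂ) * c p k)).re = 0 →
      (conj ζ * ∑ p ∈ T, (mr p V W : ℂ) * ((a p k : ℂ) * (Complex.I * c p k))).re = 0 →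
      (conj ζ * ∑ p ∈ T, (mr p V W : ℂ) * ((b p k : ℂ) * (Complex.I * c p k))).re = 0 →
      ζ = 0 := by
  classical
  by_contra hn
  push Not at hn
  have key : ∀ n : ℕ, ∃ V W : ℝ, 0 < V ∧ V < 1 / ((n : ℝ) + 1) ∧ 0 < W ∧ ∃ k ∈ K,
      ∑ p ∈ T, (mr p V W : ℂ) * c p k = 0 ∧ ∃ ζ : ℂ,
      (conj ζ * ∑ p ∈ T, (mr p V W : ℂ) * ((p.2 : ℂ) * c p k)).re = 0 ∧
      (conj ζ * ∑ p ∈ T, (mr p V W : ℂ) * ((a p k : ℂ) * (Complex.I * c p k))).re = 0 ∧
      (conj ζ * ∑ p ∈ T, (mr p V W : ℂ) * ((b p k : ℂ) * (Complex.I * c p k))).re = 0 ∧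
      ‖ζ‖ = 1 := by
    intro n
    have hp : 0 < 1 / ((n : ℝ) + 1) := by positivity
    obtain ⟨V, W, hV, hV1, hW, k, hk, h0, ζ, h1, h2, h3, hζ⟩ := hn _ hp
    have hζ' : ‖ζ‖ ≠ 0 := norm_ne_zero_iff.2 hζ
    refine ⟨V, W, hV, hV1, hW, k, hk, h0, ((‖ζ‖⁻¹ : ℝ) : ℂ) * ζ, ?_, ?_, ?_, ?_⟩
    · rw [map_mul, Complex.conj_ofReal, mul_assoc, Complex.re_ofReal_mul, h1, mul_zero]
    · rw [map_mul, Complex.conj_ofReal, mul_assoc, Complex.re_ofReal_mul, h2, mul_zero]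
    · rw [map_mul, Complex.conj_ofReal, mul_assoc, Complex.re_ofReal_mul, h3, mul_zero]
    · rw [norm_mul, Complex.norm_real, norm_inv, norm_norm, inv_mul_cancel₀ hζ']
  choose V W hV hV1 hW k hk h0 ζ h1 h2 h3 hζ using key
  obtain ⟨q0, hq0, hq0'⟩ := hT.bot
  have hmax : ∀ n, ∃ v ∈ T, ∀ w ∈ T, mr w (V n) (W n) ≤ mr v (V n) (W n) := fun n =>
    T.exists_max_image (fun v => mr v (V n) (W n)) ⟨q0, hq0⟩
  choose vm hvm hvmax using hmax
  set M : ℕ → ℝ := fun n => mr (vm n) (V n) (W n) with hMdef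
  have hM : ∀ n, 0 < M n := fun n => mr_pos _ (hV n) (hW n)
  have hMc : ∀ n, (M n : ℂ) ≠ 0 := fun n => by exact_mod_cast (hM n).ne'
  let Y : ℕ → (T → ℝ) := fun n p => mr p (V n) (W n) / M n
  let S : Set ((T → ℝ) × κ × ℂ) :=
    (Set.pi univ fun _ => Icc (0 : ℝ) 1) ×ˢ (K ×ˢ Metric.sphere (0 : ℂ) 1)
  have hSc : IsCompact S :=
    (isCompact_univ_pi fun _ => isCompact_Icc).prod (hK.prod (isCompact_sphere _ _))
  let x : ℕ → (T → ℝ) × κ × ℂ := fun n => (Y n, k n, ζ n)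
  have hx : ∀ n, x n ∈ S := by
    intro n
    refine ⟨fun p _ => ⟨?_, ?_⟩, hk n, ?_⟩
    · exact div_nonneg (mr_pos _ (hV n) (hW n)).le (hM n).le
    · exact (div_le_one (hM n)).2 (hvmax n p p.2)
    · simpa using hζ n
  obtain ⟨⟨Z, k0, ζ0⟩, hz, φ, hφ, ht⟩ := hSc.tendsto_subseq hx
  have hZ0 : ∀ p, 0 ≤ Z p := fun p => (hz.1 p (mem_univ p)).1
  have hk0 : k0 ∈ K := hz.2.1
  have hζ0 : ‖ζ0‖ = 1 := by simpa using hz.2.2
  -- the sums at the points of the sequence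
  have sum_eq : ∀ (w : ℕ × ℕ → κ → ℂ) (n : ℕ),
      SS T w (x n) = (M n : ℂ)⁻¹ * ∑ p ∈ T, (mr p (V n) (W n) : ℂ) * w p (k n) := by
    intro w n
    show ∑ p : T, (((mr p (V n) (W n) / M n : ℝ)) : ℂ) * w p (k n) = _
    rw [Finset.mul_sum, ← Finset.sum_coe_sort T fun p =>
      (M n : ℂ)⁻¹ * ((mr p (V n) (W n) : ℂ) * w p (k n))]
    refine Finset.sum_congr rfl fun p _ => ?_
    push_cast
    rw [div_eq_inv_mul, mul_assoc]
  have hI : ∀ {u : ℕ × ℕ → κ → ℝ}, (∀ p ∈ T, ContinuousOn (u p) K) →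
      ∀ p ∈ T, ContinuousOn (fun k => (u p k : ℂ) * (Complex.I * c p k)) K := fun hu p hp =>
    (Complex.continuous_ofReal.comp_continuousOn (hu p hp)).mul
      (continuousOn_const.mul (hc p hp))
  have hN : ∀ p ∈ T, ContinuousOn (fun k => ((p.2 : ℂ)) * c p k) K := fun p hp =>
    continuousOn_const.mul (hc p hp)
  -- limit equations
  have L0 : SS T c (Z, k0, ζ0) = 0 := by
    have cr : ContinuousOn (fun y => (SS T c y).re) S :=
      Complex.continuous_re.comp_continuousOn (SS_cont hc _ _)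
    have ci : ContinuousOn (fun y => (SS T c y).im) S :=
      Complex.continuous_im.comp_continuousOn (SS_cont hc _ _)
    have z0 : ∀ n, SS T c (x n) = 0 := fun n => by rw [sum_eq, h0, mul_zero]
    exact Complex.ext (lim_zero cr hx hz ht fun n => by rw [z0]; rfl)
      (lim_zero ci hx hz ht fun n => by rw [z0]; rfl)
  have LL : ∀ w : ℕ × ℕ → κ → ℂ, (∀ p ∈ T, ContinuousOn (w p) K) →
      (∀ n, (conj (ζ n) * ∑ p ∈ T, (mr p (V n) (W n) : ℂ) * w p (k n)).re = 0) →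
      (conj ζ0 * SS T w (Z, k0, ζ0)).re = 0 := by
    intro w hw h
    have cr : ContinuousOn (fun y : (T → ℝ) × κ × ℂ => (conj y.2.2 * SS T w y).re) S :=
      Complex.continuous_re.comp_continuousOn
        (((Complex.continuous_conj.comp (continuous_snd.comp continuous_snd)).continuousOn).mul
          (SS_cont hw _ _))
    refine lim_zero cr hx hz ht fun n => ?_
    show (conj (ζ n) * SS T w (x n)).re = 0
    rw [sum_eq]
    have e : conj (ζ n) * ((M n : ℂ)⁻¹ * ∑ p ∈ T, (mr p (V n) (W n) : ℂ) * w p (k n)) =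
        (((M n)⁻¹ : ℝ) : ℂ) * (conj (ζ n) * ∑ p ∈ T, (mr p (V n) (W n) : ℂ) * w p (k n)) := by
      push_cast; ring
    rw [e, Complex.re_ofReal_mul, h n, mul_zero]
  have L1 := LL (fun p k => (p.2 : ℂ) * c p k) hN h1
  have L2 := LL (fun p k => (a p k : ℂ) * (Complex.I * c p k)) (hI ha) h2
  have L3 := LL (fun p k => (b p k : ℂ) * (Complex.I * c p k)) (hI hb) h3
  -- coordinates of the limit
  have hY : ∀ p : T, Tendsto (fun n => mr p (V (φ n)) (W (φ n)) / M (φ n)) atTop (𝓝 (Z p)) := by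
    intro p
    exact ((continuous_apply p).tendsto Z).comp ((continuous_fst.tendsto _).comp ht)
  have hVt : Tendsto (fun n => V (φ n)) atTop (𝓝 0) := by
    have : Tendsto V atTop (𝓝 0) :=
      squeeze_zero (fun n => (hV n).le) (fun n => (hV1 n).le)
        tendsto_one_div_add_atTop_nhds_zero_nat
    exact this.comp hφ.tendsto_atTop
  have R : ∀ p m q : T, p.1.1 < m.1.1 → m.1.1 < q.1.1 → Z p ≠ 0 → Z q ≠ 0 → False := by
    intro p m q k1 k2 hp0 hq0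
    obtain ⟨α, β, e, hα, hβ, he, hrel⟩ := rel_real hT p.2 m.2 q.2 k1 k2
    have t1 : Tendsto (fun n => (mr p (V (φ n)) (W (φ n)) / M (φ n)) ^ α *
        (mr q (V (φ n)) (W (φ n)) / M (φ n)) ^ β) atTop (𝓝 (Z p ^ α * Z q ^ β)) :=
      ((hY p).pow α).mul ((hY q).pow β)
    have t2 : Tendsto (fun n => (mr m (V (φ n)) (W (φ n)) / M (φ n)) ^ (α + β) *
        V (φ n) ^ e) atTop (𝓝 (Z m ^ (α + β) * 0 ^ e)) := ((hY m).pow _).mul (hVt.pow e)
    rw [zero_pow he.ne', mul_zero] at t2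
    have t3 : Z p ^ α * Z q ^ β = 0 := by
      refine tendsto_nhds_unique t1 (t2.congr fun n => ?_)
      rw [div_pow, div_pow, div_pow, div_mul_div_comm, hrel, pow_add (M (φ n))]
      ring
    rcases mul_eq_zero.1 t3 with h' | h'
    · exact hp0 (pow_eq_zero_iff hα.ne' |>.1 h')
    · exact hq0 (pow_eq_zero_iff hβ.ne' |>.1 h')
  have hne : ∃ p : T, Z p ≠ 0 := by
    by_contra hall
    push Not at hall
    have s1 : Tendsto (fun n => ∑ p : T, mr p (V (φ n)) (W (φ n)) / M (φ n)) atTop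
        (𝓝 (∑ p : T, Z p)) := tendsto_finsetSum _ fun p _ => hY p
    rw [Finset.sum_eq_zero fun p _ => hall p] at s1
    have s2 : ∀ n, 1 ≤ ∑ p : T, mr p (V (φ n)) (W (φ n)) / M (φ n) := by
      intro n
      have s3 : mr (vm (φ n)) (V (φ n)) (W (φ n)) / M (φ n) = 1 := div_self (hM (φ n)).ne'
      calc (1 : ℝ) = mr (vm (φ n)) (V (φ n)) (W (φ n)) / M (φ n) := s3.symm
        _ ≤ _ := Finset.single_le_sum (s := (Finset.univ : Finset T))
          (f := fun p : T => mr p (V (φ n)) (W (φ n)) / M (φ n))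
          (fun p _ => div_nonneg (mr_pos _ (hV _) (hW _)).le (hM _).le)
          (Finset.mem_univ (⟨vm (φ n), hvm (φ n)⟩ : T))
    exact absurd (ge_of_tendsto s1 (Eventually.of_forall s2)) (by norm_num)
  obtain ⟨p, hp0⟩ := hne
  by_cases hq : ∃ q : T, q ≠ p ∧ Z q ≠ 0
  · obtain ⟨q, hqp, hq0⟩ := hq
    -- symmetric in `p, q`
    have main : ∀ p q : T, q ≠ p → Z p ≠ 0 → Z q ≠ 0 → p.1.1 < q.1.1 → False := by
      intro p q hqp hp0 hq0 hlt
      have hz' : ∀ m : T, m ≠ p ∧ m ≠ q → Z m = 0 := by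
        intro m hmn
        by_contra hm0
        have d2 : m.1.1 ≠ p.1.1 := fun e => hmn.1 (Subtype.ext (hT.inj _ m.2 _ p.2 e))
        have d3 : m.1.1 ≠ q.1.1 := fun e => hmn.2 (Subtype.ext (hT.inj _ m.2 _ q.2 e))
        rcases lt_or_gt_of_ne d2 with a2 | a2
        · exact R m p q a2 hlt hm0 hq0
        · rcases lt_or_gt_of_ne d3 with a3 | a3
          · exact R p m q a2 a3 hp0 hq0
          · exact R p q m hlt a3 hp0 hm0
      have red : ∀ w : ℕ × ℕ → κ → ℂ, SS T w (Z, k0, ζ0) =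
          (Z p : ℂ) * w p k0 + (Z q : ℂ) * w q k0 := by
        intro w
        show ∑ m : T, (Z m : ℂ) * w m k0 = _
        refine Finset.sum_eq_add (s := Finset.univ) p q hqp.symm (fun m _ hm => ?_)
          (fun h => absurd (Finset.mem_univ _) h) fun h => absurd (Finset.mem_univ _) h
        rw [hz' m hm, Complex.ofReal_zero, zero_mul]
      rw [red] at L0 L1 L2 L3
      have pz : 0 < Z p := lt_of_le_of_ne (hZ0 p) (Ne.symm hp0)
      have qz : 0 < Z q := lt_of_le_of_ne (hZ0 q) (Ne.symm hq0)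
      obtain ⟨g1, g2, g3⟩ := two (hT.mono _ p.2 _ q.2 hlt) pz qz (hc1 _ p.2 k0 hk0)
        (hc1 _ q.2 k0 hk0) hζ0 L0 L1 L2 L3
      rcases hadj _ p.2 _ q.2 hlt (fun m hm hmm =>
        R p ⟨m, hm⟩ q hmm.1 hmm.2 hp0 hq0) k0 hk0 g1 with h | h
      · exact h g2
      · exact h g3
    rcases lt_trichotomy p.1.1 q.1.1 with h | h | h
    · exact main p q hqp hp0 hq0 h
    · exact hqp (Subtype.ext (hT.inj _ q.2 _ p.2 h.symm))
    · exact main q p hqp.symm hq0 hp0 h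
  · push Not at hq
    have red : SS T c (Z, k0, ζ0) = (Z p : ℂ) * c p k0 := by
      show ∑ m : T, (Z m : ℂ) * c m k0 = _
      refine Finset.sum_eq_single p (fun m _ hm => ?_) fun h => absurd (Finset.mem_univ _) h
      rw [hq m hm, Complex.ofReal_zero, zero_mul]
    rw [red] at L0
    rcases mul_eq_zero.1 L0 with h | h
    · exact hp0 (by exact_mod_cast h)
    · have := hc1 _ p.2 k0 hk0
      rw [h, norm_zero] at this
      exact zero_ne_one this

end Crest.Agent.R267.ZoneA_399
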