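import Mathlib
import Crest.Agent.R267.Zone_951
import Crest.Agent.R267.NCut_88
import Crest.Agent.R267.PolArm_484
import Crest.Agent.R267.PolF_943

/-!
# N2, PATH A (helper951; 966 #3428 (1))

A path of phases `psi t s (theta, omega)` for the sum of monomials
`sum_s r^{X s} u^{J s} e^{i psi_s}` with separated coefficients (`r` small), such that no adjacent
pair has opposite phases and equal gradients, gives a homotopy of arms (484's `astep_PA`, 88's
cut-offs `NCut_88.cut`).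
-/

set_option autoImplicit false
set_option linter.unusedSectionVars false

noncomputable section

open Set Finset
open scoped Real
open Crest.Agent.R267.NCut_88 Crest.Agent.R267.Zone_951 Crest.Agent.R267.NdY_484
open Crest.Agent.R267.PolArm_484

namespace Crest.Agent.R267.ZoneP_951

/-- data of a path of phases. -/
structure PathD (ι : Type) where
  /-- exponents of `u`, degrees in `ω` -/
  J : ι → ℕ
  /-- degrees in `θ` -/
  I : ι → ℕ
  /-- excess -/
  X : ι → ℕ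
  /-- first term: own term of `w` -/
  o : ι
  /-- last term: own term of `v` -/
  l : ι
  /-- phases `psi t s θ ω` -/
  psi : ℝ → ι → ℝ → ℝ → ℝ

variable {ι : Type} [Fintype ι] [LinearOrder ι]

/-- hypotheses. -/
structure PathD.Ok (D : PathD ι) : Prop where
  anti : StrictAnti D.J
  conv : ∀ p m q, p < m → m < q →
    (D.J p - D.J q) * D.X m < (D.J m - D.J q) * D.X p + (D.J p - D.J m) * D.X q
  bot : ∀ s, D.o ≤ s
  top : ∀ s, s ≤ D.l
  Jo : D.J D.o = 15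
  Xo : D.X D.o = 0
  Jl : D.J D.l = 0
  Io : D.I D.o = 0
  smooth : ∀ s, ContDiff ℝ 2 fun q : ℝ × ℝ × ℝ => D.psi q.1 s q.2.1 q.2.2
  per1 : ∀ t s θ ω, D.psi t s (θ + 2 * π) ω = D.psi t s θ ω + D.I s * (2 * π)
  per2 : ∀ t s θ ω, D.psi t s θ (ω + 2 * π) = D.psi t s θ ω + D.J s * (2 * π)
  pl : ∀ t θ ω, D.psi t D.l θ ω = D.psi t D.l θ 0
  adj : ∀ t ∈ Icc (0 : ℝ) 1, ∀ θ ω : ℝ, ∀ s s', s ⋖ s' →
    cis (D.psi t s θ ω) = - cis (D.psi t s' θ ω) →
      fderiv ℝ (fun p : ℝ × ℝ => D.psi t s p.1 p.2) (θ, ω) ≠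
        fderiv ℝ (fun p : ℝ × ℝ => D.psi t s' p.1 p.2) (θ, ω)

/-- the sum of the monomials. -/
def raw (D : PathD ι) (r t : ℝ) (q : ℝ × ℝ × ℝ) : ℂ :=
  ∑ s, ((r ^ D.X s * q.2.1 ^ D.J s : ℝ) : ℂ) * cis (D.psi t s q.1 q.2.2)

/-- own term of `v`. -/
def rawP (D : PathD ι) (r t : ℝ) (θ : ℝ) : ℂ :=
  ((r ^ D.X D.l : ℝ) : ℂ) * cis (D.psi t D.l θ 0)

/-- own phase of `w`. -/
def rawQ (D : PathD ι) (t θ ω : ℝ) : ℝ := D.psi t D.o θ ω

/-- the cut function of path A. -/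
def kap (D : PathD ι) (r a b t : ℝ) : ℝ × ℝ × ℝ → ℂ :=
  cut a b (raw D r t) (rawP D r t) (rawQ D t)

/-- derivatives along lines. -/
theorem fd_line {E : Type*} [NormedAddCommGroup E] [NormedSpace ℝ E] {f : E → ℂ} {q v : E}
    {c : ℝ → E} {z : ℂ} (hd : DifferentiableAt ℝ f q) (hc : HasDerivAt c v 0) (h0 : c 0 = q)
    (h : HasDerivAt (fun τ => f (c τ)) z 0) : fderiv ℝ f q v = z := by
  have h1 : HasFDerivAt f (fderiv ℝ f q) (c 0) := by rw [h0]; exact hd.hasFDerivAt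
  exact (h1.comp_hasDerivAt (0 : ℝ) hc).unique h

theorem hasDerivAt_cis {f : ℝ → ℝ} {f' x : ℝ} (h : HasDerivAt f f' x) :
    HasDerivAt (fun τ => cis (f τ)) ((f' : ℂ) * (Complex.I * cis (f x))) x := by
  unfold cis
  have h1 := ((h.ofReal_comp).mul_const Complex.I).cexp
  refine h1.congr_deriv ?_
  ring

section main

variable {D : PathD ι}

theorem smooth_raw (h : D.Ok) (r : ℝ) :
    ContDiff ℝ 2 fun q : ℝ × ℝ × ℝ × ℝ => raw D r q.1 q.2 := by
  unfold raw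
  refine ContDiff.sum fun s _ => ?_
  have h1 : ContDiff ℝ 2 fun q : ℝ × ℝ × ℝ × ℝ => (r ^ D.X s * q.2.2.1 ^ D.J s : ℝ) := by
    fun_prop
  have h2 : ContDiff ℝ 2 fun q : ℝ × ℝ × ℝ × ℝ => D.psi q.1 s q.2.1 q.2.2.2 :=
    (h.smooth s).comp (f := fun q : ℝ × ℝ × ℝ × ℝ => (q.1, q.2.1, q.2.2.2)) (by fun_prop)
  exact (Complex.ofRealCLM.contDiff.comp h1).mul (contDiff_cis.comp h2)

theorem smooth_slice (h : D.Ok) (r t : ℝ) : ContDiff ℝ 2 (raw D r t) :=
  (smooth_raw h r).comp (f := fun q : ℝ × ℝ × ℝ => (t, q)) (by fun_prop)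

theorem raw_per1 (h : D.Ok) (r t θ u ω : ℝ) : raw D r t (θ + 2 * π, u, ω) = raw D r t (θ, u, ω) := by
  unfold raw
  refine Finset.sum_congr rfl fun s _ => ?_
  simp only
  rw [h.per1]
  congr 1
  exact_mod_cast cis_add_two_pi_mul (D.psi t s θ ω) (D.I s)

theorem raw_per2 (h : D.Ok) (r t θ u ω : ℝ) : raw D r t (θ, u, ω + 2 * π) = raw D r t (θ, u, ω) := by
  unfold raw
  refine Finset.sum_congr rfl fun s _ => ?_
  simp only
  rw [h.per2]
  congr 1
  exact_mod_cast cis_add_two_pi_mul (D.psi t s θ ω) (D.J s)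

/-- a point of the fundamental square. -/
theorem exists_rep (x : ℝ) : ∃ k : ℤ, x + k * (2 * π) ∈ Icc (0 : ℝ) (2 * π) := by
  have hp : (0 : ℝ) < 2 * π := by positivity
  refine ⟨-⌊x / (2 * π)⌋, ?_, ?_⟩
  · have h1 := Int.floor_le (x / (2 * π))
    have h2 : (⌊x / (2 * π)⌋ : ℝ) * (2 * π) ≤ x := by
      calc (⌊x / (2 * π)⌋ : ℝ) * (2 * π) ≤ x / (2 * π) * (2 * π) :=
            mul_le_mul_of_nonneg_right h1 hp.le
        _ = x := div_mul_cancel₀ x hp.ne'
    push_cast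
    linarith
  · have h1 := (Int.lt_floor_add_one (x / (2 * π))).le
    have h2 : x ≤ ((⌊x / (2 * π)⌋ : ℝ) + 1) * (2 * π) := by
      calc x = x / (2 * π) * (2 * π) := (div_mul_cancel₀ x hp.ne').symm
        _ ≤ _ := mul_le_mul_of_nonneg_right h1 hp.le
    push_cast
    linarith

theorem raw_shift (h : D.Ok) (r t : ℝ) (k m : ℤ) (q : ℝ × ℝ × ℝ) :
    raw D r t (q + ((k : ℝ) * (2 * π), (0 : ℝ), (m : ℝ) * (2 * π))) = raw D r t q := by
  obtain ⟨θ, u, ω⟩ := q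
  have h1 : Function.Periodic (fun θ => raw D r t (θ, u, ω + (m : ℝ) * (2 * π))) (2 * π) :=
    fun θ => raw_per1 h r t θ u _
  have h2 : Function.Periodic (fun ω => raw D r t (θ, u, ω)) (2 * π) :=
    fun ω => raw_per2 h r t θ u ω
  have e1 : raw D r t (θ + (k : ℝ) * (2 * π), u, ω + (m : ℝ) * (2 * π)) =
      raw D r t (θ, u, ω + (m : ℝ) * (2 * π)) := h1.int_mul k θ
  have e2 : raw D r t (θ, u, ω + (m : ℝ) * (2 * π)) = raw D r t (θ, u, ω) := h2.int_mul m ω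
  show raw D r t (θ + (k : ℝ) * (2 * π), u + 0, ω + (m : ℝ) * (2 * π)) = _
  rw [add_zero, e1, e2]

theorem fderiv_shift (h : D.Ok) (r t : ℝ) (k m : ℤ) (q : ℝ × ℝ × ℝ) :
    fderiv ℝ (raw D r t) (q + ((k : ℝ) * (2 * π), (0 : ℝ), (m : ℝ) * (2 * π))) =
      fderiv ℝ (raw D r t) q := by
  rw [← fderiv_comp_add_right]
  congr 1
  funext x
  exact raw_shift h r t k m x

/-- radial derivative. -/
theorem fd_rad (h : D.Ok) (r t θ u ω : ℝ) :
    fderiv ℝ (raw D r t) (θ, u, ω) (0, u, 0) =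
      ∑ s, (((D.J s : ℝ) * (r ^ D.X s * u ^ D.J s) : ℝ) : ℂ) * cis (D.psi t s θ ω) := by
  refine fd_line (c := fun τ => (θ, u * (1 + τ), ω))
    ((smooth_slice h r t).differentiable (by norm_num) _) ?_ (by simp) ?_
  · refine (hasDerivAt_const _ _).prodMk (HasDerivAt.prodMk ?_ (hasDerivAt_const _ _))
    have h1 : HasDerivAt (fun τ : ℝ => u * (1 + τ)) (u * 1) 0 :=
      ((hasDerivAt_id (0 : ℝ)).const_add 1).const_mul u
    simpa using h1
  · unfold raw
    refine HasDerivAt.fun_sum fun s _ => ?_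
    have h1 : HasDerivAt (fun τ : ℝ => r ^ D.X s * (u * (1 + τ)) ^ D.J s)
        ((D.J s : ℝ) * (r ^ D.X s * u ^ D.J s)) 0 := by
      have h2 : HasDerivAt (fun τ : ℝ => (1 + τ) ^ D.J s)
          ((D.J s : ℝ) * (1 + 0) ^ (D.J s - 1) * 1) 0 := by
        have h4 : HasDerivAt (fun τ : ℝ => 1 + τ) 1 0 := (hasDerivAt_id (0 : ℝ)).const_add 1
        exact h4.fun_pow (D.J s)
      have h3 := h2.const_mul (r ^ D.X s * u ^ D.J s)
      refine (h3.congr_deriv ?_).congr_of_eventuallyEq (Filter.Eventually.of_forall fun τ => ?_)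
      · simp only [add_zero, one_pow]; ring
      · show r ^ D.X s * (u * (1 + τ)) ^ D.J s = r ^ D.X s * u ^ D.J s * (1 + τ) ^ D.J s
        rw [mul_pow]; ring
    exact h1.ofReal_comp.mul_const (cis (D.psi t s θ ω))

/-- angular derivatives. -/
theorem fd_ang (h : D.Ok) (r t θ u ω : ℝ) (v : ℝ × ℝ) :
    fderiv ℝ (raw D r t) (θ, u, ω) (v.1, 0, v.2) =
      ∑ s, (((fderiv ℝ (fun p : ℝ × ℝ => D.psi t s p.1 p.2) (θ, ω) v) *
        (r ^ D.X s * u ^ D.J s) : ℝ) : ℂ) * (Complex.I * cis (D.psi t s θ ω)) := by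
  have hθ : HasDerivAt (fun τ : ℝ => θ + τ * v.1) v.1 0 := by
    have h1 : HasDerivAt (fun τ : ℝ => θ + τ * v.1) (1 * v.1) 0 :=
      ((hasDerivAt_id (0 : ℝ)).mul_const v.1).const_add θ
    simpa using h1
  have hω : HasDerivAt (fun τ : ℝ => ω + τ * v.2) v.2 0 := by
    have h1 : HasDerivAt (fun τ : ℝ => ω + τ * v.2) (1 * v.2) 0 :=
      ((hasDerivAt_id (0 : ℝ)).mul_const v.2).const_add ω
    simpa using h1
  refine fd_line (c := fun τ => (θ + τ * v.1, u, ω + τ * v.2))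
    ((smooth_slice h r t).differentiable (by norm_num) _) ?_ (by simp) ?_
  · exact hθ.prodMk ((hasDerivAt_const _ _).prodMk hω)
  · unfold raw
    refine HasDerivAt.fun_sum fun s _ => ?_
    have hd : DifferentiableAt ℝ (fun p : ℝ × ℝ => D.psi t s p.1 p.2) (θ, ω) := by
      have : ContDiff ℝ 2 fun p : ℝ × ℝ => D.psi t s p.1 p.2 :=
        (h.smooth s).comp (f := fun p : ℝ × ℝ => (t, p.1, p.2)) (by fun_prop)
      exact this.differentiable (by norm_num) _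
    have h1 : HasDerivAt (fun τ : ℝ => D.psi t s (θ + τ * v.1) (ω + τ * v.2))
        (fderiv ℝ (fun p : ℝ × ℝ => D.psi t s p.1 p.2) (θ, ω) v) 0 := by
      have h2 : HasFDerivAt (fun p : ℝ × ℝ => D.psi t s p.1 p.2)
          (fderiv ℝ (fun p : ℝ × ℝ => D.psi t s p.1 p.2) (θ, ω))
          ((fun τ : ℝ => (θ + τ * v.1, ω + τ * v.2)) 0) := by
        simpa using hd.hasFDerivAt
      exact h2.comp_hasDerivAt (0 : ℝ) (hθ.prodMk hω)
    have h3 := (hasDerivAt_cis h1).const_mul ((r ^ D.X s * u ^ D.J s : ℝ) : ℂ)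
    refine h3.congr_deriv ?_
    simp only [zero_mul, add_zero]
    push_cast
    ring

/-- **regularity for small `r`.** -/
theorem raw_reg (h : D.Ok) : ∃ r0 : ℝ, 0 < r0 ∧ r0 ≤ 1 ∧ ∀ r, 0 < r → r ≤ r0 →
    ∀ t ∈ Icc (0 : ℝ) 1, ∀ θ u ω : ℝ, 0 < u → raw D r t (θ, u, ω) = 0 →
      ∀ c : ℂ, ∃ y : ℝ × ℝ × ℝ, fderiv ℝ (raw D r t) (θ, u, ω) y = c := by
  have : Nonempty ι := ⟨D.o⟩
  set K : Set (ℝ × ℝ × ℝ) := Icc (0 : ℝ) 1 ×ˢ (Icc (0 : ℝ) (2 * π) ×ˢ Icc (0 : ℝ) (2 * π)) with hK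
  have hKc : IsCompact K := isCompact_Icc.prod (isCompact_Icc.prod isCompact_Icc)
  have hps : ∀ s t, ContDiff ℝ 2 fun p : ℝ × ℝ => D.psi t s p.1 p.2 := fun s t =>
    (h.smooth s).comp (f := fun p : ℝ × ℝ => (t, p.1, p.2)) (by fun_prop)
  have hfd : ∀ s (q : ℝ × ℝ × ℝ) (v : ℝ × ℝ),
      fderiv ℝ (fun p : ℝ × ℝ => D.psi q.1 s p.1 p.2) (q.2.1, q.2.2) v =
        fderiv ℝ (fun q : ℝ × ℝ × ℝ => D.psi q.1 s q.2.1 q.2.2) q (0, v) := by
    intro s q v
    obtain ⟨t, θ, ω⟩ := q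
    have h1 : HasFDerivAt (fun q : ℝ × ℝ × ℝ => D.psi q.1 s q.2.1 q.2.2)
        (fderiv ℝ (fun q : ℝ × ℝ × ℝ => D.psi q.1 s q.2.1 q.2.2) (t, θ, ω)) (t, θ, ω) :=
      ((h.smooth s).differentiable (by norm_num) _).hasFDerivAt
    have h2 := h1.comp (θ, ω) (hasFDerivAt_prodMk_right t (θ, ω))
    have h3 : (fun p : ℝ × ℝ => D.psi t s p.1 p.2) =
        (fun q : ℝ × ℝ × ℝ => D.psi q.1 s q.2.1 q.2.2) ∘ fun p : ℝ × ℝ => (t, p) := rfl
    show fderiv ℝ (fun p : ℝ × ℝ => D.psi t s p.1 p.2) (θ, ω) v = _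
    rw [h3, h2.fderiv]
    simp
  have hgc : ∀ s (v : ℝ × ℝ), Continuous fun q : ℝ × ℝ × ℝ =>
      fderiv ℝ (fun p : ℝ × ℝ => D.psi q.1 s p.1 p.2) (q.2.1, q.2.2) v := by
    intro s v
    have h1 : Continuous (fderiv ℝ (fun q : ℝ × ℝ × ℝ => D.psi q.1 s q.2.1 q.2.2)) :=
      (h.smooth s).continuous_fderiv (by norm_num)
    have h2 : (fun q : ℝ × ℝ × ℝ =>
        fderiv ℝ (fun p : ℝ × ℝ => D.psi q.1 s p.1 p.2) (q.2.1, q.2.2) v) = fun q =>
        fderiv ℝ (fun q : ℝ × ℝ × ℝ => D.psi q.1 s q.2.1 q.2.2) q (0, v) :=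
      funext fun q => hfd s q v
    rw [h2]
    exact h1.clm_apply continuous_const
  obtain ⟨r0, hr0, hr1, H⟩ := zone (δ := Bool) hKc (J := D.J) (X := D.X) h.anti h.conv
    (e := fun s (q : ℝ × ℝ × ℝ) => cis (D.psi q.1 s q.2.1 q.2.2))
    (fun s => (contDiff_cis.continuous.comp (h.smooth s).continuous).continuousOn)
    (fun s q _ => norm_cis _)
    (g := fun d s (q : ℝ × ℝ × ℝ) =>
      fderiv ℝ (fun p : ℝ × ℝ => D.psi q.1 s p.1 p.2) (q.2.1, q.2.2)
        (if d then ((1 : ℝ), (0 : ℝ)) else (0, 1)))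
    (fun d s => (hgc s _).continuousOn) (by
      rintro ⟨t, θ, ω⟩ ⟨ht, -, -⟩ s s' hs he
      have h1 := h.adj t ht θ ω s s' hs he
      by_contra hno
      push Not at hno
      refine h1 (ContinuousLinearMap.ext fun v => ?_)
      have e1 := hno true
      have e2 := hno false
      simp only [if_true] at e1
      simp only [Bool.false_eq_true, if_false] at e2
      have hv : v = v.1 • ((1 : ℝ), (0 : ℝ)) + v.2 • ((0 : ℝ), (1 : ℝ)) := by
        ext <;> simp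
      rw [hv, map_add, map_add, map_smul, map_smul, map_smul, map_smul, e1, e2])
  refine ⟨r0, hr0, hr1, fun r hr hrr t ht θ u ω hu h0 => ?_⟩
  obtain ⟨k, hk⟩ := exists_rep θ
  obtain ⟨m, hm⟩ := exists_rep ω
  have e0 : ((θ, u, ω) : ℝ × ℝ × ℝ) + ((k : ℝ) * (2 * π), (0 : ℝ), (m : ℝ) * (2 * π)) =
      (θ + k * (2 * π), u, ω + m * (2 * π)) := by
    simp
  rw [← raw_shift h r t k m, e0] at h0
  rw [← fderiv_shift h r t k m, e0]
  by_contra hno
  obtain ⟨ζ, hζ, hco⟩ := PolF_943.exists_conormal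
    (fderiv ℝ (raw D r t) (θ + k * (2 * π), u, ω + m * (2 * π)) : ℝ × ℝ × ℝ →L[ℝ] ℂ).toLinearMap
    hno
  refine H r hr hrr (t, θ + k * (2 * π), ω + m * (2 * π)) ⟨ht, hk, hm⟩ u hu ζ hζ ⟨?_, ?_, ?_⟩
  · exact h0
  · have h1 := hco (0, u, 0)
    have h2 := fd_rad h r t (θ + k * (2 * π)) u (ω + m * (2 * π))
    simp only [ContinuousLinearMap.coe_coe] at h1
    rw [h2] at h1
    exact h1
  · intro d
    have h1 := hco ((if d then ((1 : ℝ), (0 : ℝ)) else (0, 1)).1, 0,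
      (if d then ((1 : ℝ), (0 : ℝ)) else (0, 1)).2)
    have h2 := fd_ang h r t (θ + k * (2 * π)) u (ω + m * (2 * π))
      (if d then ((1 : ℝ), (0 : ℝ)) else (0, 1))
    simp only [ContinuousLinearMap.coe_coe] at h1
    rw [h2] at h1
    exact h1

/-- **PATH A.** -/
theorem pathA {bb : Bool} {v : Fin 3} (h : D.Ok) : ∃ r0 : ℝ, 0 < r0 ∧ r0 ≤ 1 ∧
    ∀ r, 0 < r → r ≤ r0 → ∃ a0 : ℝ, 0 < a0 ∧ a0 ≤ 1 ∧ ∃ b0 : ℝ, 1 ≤ b0 ∧
      ∀ a, 0 < a → a ≤ a0 → ∀ b, b0 ≤ b →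
        AStep bb v (PA bb v (kap D r a b 0)) (PA bb v (kap D r a b 1)) := by
  obtain ⟨r0, hr0, hr1, H⟩ := raw_reg h
  refine ⟨r0, hr0, hr1, fun r hr hrr => ?_⟩
  have hr1' : r ≤ 1 := hrr.trans hr1
  set n : ℝ := ((Fintype.card ι : ℕ) : ℝ) with hn
  have hn0 : 0 < n := by
    have : Nonempty ι := ⟨D.o⟩
    rw [hn]; exact_mod_cast Fintype.card_pos
  have hXl : 0 < r ^ D.X D.l := by positivity
  have hXl1 : r ^ D.X D.l ≤ 1 := pow_le_one₀ hr.le hr1'
  refine ⟨r ^ D.X D.l / (n + 1), by positivity, ?_, n + 1, by linarith, fun a ha haa b hb => ?_⟩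
  · rw [div_le_one (by positivity)]; linarith
  have ha1 : a ≤ 1 := haa.trans (by rw [div_le_one (by positivity)]; linarith)
  have hb1 : 1 ≤ b := by linarith
  have hab : a ≤ b := ha1.trans hb1
  have hsm := smooth_raw h r
  have hlow : ∀ t, ∀ θ u ω : ℝ, 0 < u → u ≤ a →
      ‖raw D r t (θ, u, ω) - rawP D r t θ‖ < ‖rawP D r t θ‖ := by
    intro t θ u ω hu hua
    have hu1 : u ≤ 1 := hua.trans ha1
    have hP : ‖rawP D r t θ‖ = r ^ D.X D.l := by
      unfold rawP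
      rw [norm_mul, norm_cis, mul_one, Complex.norm_real, Real.norm_of_nonneg hXl.le]
    have e1 : raw D r t (θ, u, ω) - rawP D r t θ =
        ∑ s ∈ Finset.univ.erase D.l,
          ((r ^ D.X s * u ^ D.J s : ℝ) : ℂ) * cis (D.psi t s θ ω) := by
      unfold raw
      rw [← Finset.add_sum_erase _ _ (Finset.mem_univ D.l)]
      unfold rawP
      simp only
      rw [h.Jl, pow_zero, mul_one, h.pl t θ ω]
      ring
    rw [e1, hP]
    have e2 : ‖∑ s ∈ Finset.univ.erase D.l,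
        ((r ^ D.X s * u ^ D.J s : ℝ) : ℂ) * cis (D.psi t s θ ω)‖ ≤
        (Finset.univ.erase D.l).card • u := by
      refine (norm_sum_le _ _).trans (Finset.sum_le_card_nsmul _ _ _ fun s hs => ?_)
      rw [norm_mul, norm_cis, mul_one, Complex.norm_real, Real.norm_of_nonneg (by positivity)]
      have hs1 : s < D.l := lt_of_le_of_ne (h.top s) (Finset.ne_of_mem_erase hs)
      have hs2 : 1 ≤ D.J s := by
        have := h.anti hs1
        omega
      calc r ^ D.X s * u ^ D.J s ≤ 1 * u ^ 1 :=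
            mul_le_mul (pow_le_one₀ hr.le hr1') (pow_le_pow_of_le_one hu.le hu1 hs2)
              (by positivity) zero_le_one
        _ = u := by ring
    have e3 : ((Finset.univ.erase D.l).card : ℝ) ≤ n := by
      rw [hn, ← Finset.card_univ]
      exact_mod_cast Finset.card_le_card (Finset.erase_subset _ _)
    rw [nsmul_eq_mul] at e2
    calc _ ≤ ((Finset.univ.erase D.l).card : ℝ) * u := e2
      _ ≤ n * a := mul_le_mul e3 hua hu.le hn0.le
      _ < (n + 1) * a := by nlinarith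
      _ ≤ r ^ D.X D.l := by rw [mul_comm]; exact (le_div_iff₀ (by positivity)).1 haa
  have hhigh : ∀ t, ∀ θ u ω : ℝ, b ≤ u →
      ‖raw D r t (θ, u, ω) - ((u ^ 15 : ℝ) : ℂ) * cis (rawQ D t θ ω)‖ < u ^ 15 := by
    intro t θ u ω hub
    have hu1 : 1 ≤ u := hb1.trans hub
    have hu : 0 < u := by linarith
    have e1 : raw D r t (θ, u, ω) - ((u ^ 15 : ℝ) : ℂ) * cis (rawQ D t θ ω) =
        ∑ s ∈ Finset.univ.erase D.o,
          ((r ^ D.X s * u ^ D.J s : ℝ) : ℂ) * cis (D.psi t s θ ω) := by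
      unfold raw
      rw [← Finset.add_sum_erase _ _ (Finset.mem_univ D.o)]
      unfold rawQ
      simp only
      rw [h.Jo, h.Xo, pow_zero, one_mul]
      ring
    rw [e1]
    have e2 : ‖∑ s ∈ Finset.univ.erase D.o,
        ((r ^ D.X s * u ^ D.J s : ℝ) : ℂ) * cis (D.psi t s θ ω)‖ ≤
        (Finset.univ.erase D.o).card • u ^ 14 := by
      refine (norm_sum_le _ _).trans (Finset.sum_le_card_nsmul _ _ _ fun s hs => ?_)
      rw [norm_mul, norm_cis, mul_one, Complex.norm_real, Real.norm_of_nonneg (by positivity)]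
      have hs1 : D.o < s := lt_of_le_of_ne (h.bot s) (Ne.symm (Finset.ne_of_mem_erase hs))
      have hs2 : D.J s ≤ 14 := by
        have := h.anti hs1
        have := h.Jo
        omega
      calc r ^ D.X s * u ^ D.J s ≤ 1 * u ^ 14 :=
            mul_le_mul (pow_le_one₀ hr.le hr1') (pow_le_pow_right₀ hu1 hs2)
              (by positivity) zero_le_one
        _ = u ^ 14 := by ring
    have e3 : ((Finset.univ.erase D.o).card : ℝ) ≤ n := by
      rw [hn, ← Finset.card_univ]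
      exact_mod_cast Finset.card_le_card (Finset.erase_subset _ _)
    rw [nsmul_eq_mul] at e2
    have h14 : 0 < u ^ 14 := by positivity
    calc _ ≤ ((Finset.univ.erase D.o).card : ℝ) * u ^ 14 := e2
      _ ≤ n * u ^ 14 := mul_le_mul_of_nonneg_right e3 h14.le
      _ < u * u ^ 14 := mul_lt_mul_of_pos_right (by linarith) h14
      _ = u ^ 15 := by ring
  refine astep_PA (h := kap D r a b) ?_ ?_ ?_ ?_ ?_ ?_
  · unfold kap
    refine cut_smooth a b (I := Icc (0 : ℝ) 1) (F := raw D r) (P := rawP D r) (Q := rawQ D)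
      hsm.contDiffOn ?_ ?_
    · refine ContDiff.contDiffOn ?_
      unfold rawP
      exact contDiff_const.mul (contDiff_cis.comp ((h.smooth D.l).comp
        (f := fun q : ℝ × ℝ => (q.1, q.2, (0 : ℝ))) (by fun_prop)))
    · refine ContDiff.contDiffOn ?_
      unfold rawQ
      exact h.smooth D.o
  · intro t _ θ u ω _
    refine cut_per_theta (raw_per1 h r t) (fun θ => ?_) (fun θ ω => ?_) θ u ω
    · unfold rawP
      rw [h.per1]
      congr 1
      exact_mod_cast cis_add_two_pi_mul (D.psi t D.l θ 0) (D.I D.l)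
    · unfold rawQ
      rw [h.per1, h.Io]
      simp
  · intro t _ θ u ω _
    refine cut_per_omega (raw_per2 h r t) (fun θ ω => ?_) θ u ω
    unfold rawQ
    rw [h.per2, h.Jo]
    norm_num
  · refine ⟨a / 2, by positivity, fun t _ θ u ω _ hu => ?_⟩
    unfold kap
    rw [cut_inner ha hab (q := (θ, u, ω)) hu, cut_inner ha hab (q := (θ, a / 2, 0)) le_rfl]
  · refine ⟨2 * b, fun t _ θ u ω hu => ?_⟩
    unfold kap
    rw [cut_outer ha hab (q := (θ, u, ω)) hu, mul_pow, ← Complex.exp_nat_mul]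
    unfold cis
    push_cast
    congr 2
    ring
  · intro t ht θ u ω hu h0
    exact cut_reg ha hab (hlow t) (hhigh t) (H r hr hrr t ht) θ u ω hu h0

end main

end Crest.Agent.R267.ZoneP_951
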